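import Mathlib
import Vale.Agent.P150.Defs
import Vale.Agent.P245.GaussD

set_option linter.all false

section

open Finset

namespace Vale.Agent.P150

/-- flip the spin at site `i` -/
def flip {n : ℕ} (x : Cfg n) (i : Fin n) : Cfg n := Function.update x i (!x i)

lemma flip_flip {n : ℕ} (x : Cfg n) (i : Fin n) : flip (flip x i) i = x := by
  unfold flip; simp

lemma sp_not (b : Bool) : sp (!b) = - sp b := by cases b <;> simp [sp]

lemma sp_sq (b : Bool) : sp b * sp b = 1 := by cases b <;> simp [sp]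

lemma sp_flip_self {n : ℕ} (x : Cfg n) (i : Fin n) : sp (flip x i i) = - sp (x i) := by
  unfold flip; simp [sp_not]

lemma sp_flip_ne {n : ℕ} (x : Cfg n) {i j : Fin n} (h : j ≠ i) : sp (flip x i j) = sp (x j) := by
  unfold flip; simp [Function.update_of_ne h]

/-- off-diagonal part of the couplings -/
noncomputable def Jo {n : ℕ} (J : Fin n → Fin n → ℝ) (i j : Fin n) : ℝ := if j = i then 0 else J i j

lemma Jo_symm {n : ℕ} {J : Fin n → Fin n → ℝ} (hJ : ∀ i j, J i j = J j i) (i j : Fin n) :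
    Jo J i j = Jo J j i := by
  unfold Jo
  by_cases h : j = i
  · subst h; rfl
  · rw [if_neg h, if_neg (Ne.symm h), hJ]

lemma locField_eq {n : ℕ} (J : Fin n → Fin n → ℝ) (b : Fin n → ℝ) (x : Cfg n) (i : Fin n) :
    locField J b x i = b i + ∑ j, Jo J i j * sp (x j) := by
  unfold locField Jo
  congr 1
  apply Finset.sum_congr rfl
  intro j _
  split_ifs <;> simp

/-- symmetric form of the energy -/
lemma energy_eq {n : ℕ} {J : Fin n → Fin n → ℝ} (hJ : ∀ i j, J i j = J j i) (b : Fin n → ℝ)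
    (x : Cfg n) :
    energy J b x = (1 / 2) * (∑ i, ∑ j, Jo J i j * sp (x i) * sp (x j)) + ∑ i, b i * sp (x i) := by
  unfold energy
  congr 1
  have h1 : ∑ i, ∑ j, Jo J i j * sp (x i) * sp (x j)
      = (∑ i, ∑ j, if i < j then J i j * sp (x i) * sp (x j) else 0)
        + ∑ i, ∑ j, if j < i then J i j * sp (x i) * sp (x j) else 0 := by
    rw [← Finset.sum_add_distrib]
    apply Finset.sum_congr rfl; intro i _
    rw [← Finset.sum_add_distrib]
    apply Finset.sum_congr rfl; intro j _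
    unfold Jo
    rcases lt_trichotomy i j with h | h | h
    · simp [h, not_lt.2 h.le, h.ne']
    · subst h; simp
    · simp [h, not_lt.2 h.le, h.ne]
  have h2 : (∑ i, ∑ j, if j < i then J i j * sp (x i) * sp (x j) else 0)
      = ∑ i, ∑ j, if i < j then J i j * sp (x i) * sp (x j) else 0 := by
    rw [Finset.sum_comm]
    apply Finset.sum_congr rfl; intro i _
    apply Finset.sum_congr rfl; intro j _
    rw [hJ j i]
    split_ifs <;> ring
  rw [h1, h2]; ring

lemma energy_flip {n : ℕ} {J : Fin n → Fin n → ℝ} (hJ : ∀ i j, J i j = J j i) (b : Fin n → ℝ)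
    (x : Cfg n) (k : Fin n) :
    energy J b (flip x k) = energy J b x - 2 * sp (x k) * locField J b x k := by
  rw [energy_eq hJ, energy_eq hJ, locField_eq]
  set σ : Fin n → ℝ := fun i => sp (x i) with hσ
  have hσ' : ∀ i, sp (flip x k i) = σ i - 2 * σ k * (if i = k then 1 else 0) := by
    intro i
    by_cases h : i = k
    · subst h; rw [sp_flip_self]; simp [hσ]; ring
    · rw [sp_flip_ne x h]; simp [h, hσ]
  have hb : ∑ i, b i * sp (flip x k i) = ∑ i, b i * σ i - 2 * σ k * b k := by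
    simp only [hσ', mul_sub, Finset.sum_sub_distrib]
    congr 1
    rw [Finset.sum_eq_single k]
    · simp; ring
    · intro j _ hj; simp [hj]
    · simp
  have hq : ∑ i, ∑ j, Jo J i j * sp (flip x k i) * sp (flip x k j)
      = ∑ i, ∑ j, Jo J i j * σ i * σ j - 4 * σ k * ∑ j, Jo J k j * σ j := by
    have e1 : ∀ i j, Jo J i j * sp (flip x k i) * sp (flip x k j)
        = Jo J i j * σ i * σ j - (2 * σ k * (if i = k then 1 else 0)) * (Jo J i j * σ j)
          - (2 * σ k * (if j = k then 1 else 0)) * (Jo J i j * σ i) := by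
      intro i j
      rw [hσ', hσ']
      by_cases hi : i = k
      · by_cases hj : j = k
        · subst hi; subst hj; simp [Jo]
        · subst hi; simp [hj]; ring
      · by_cases hj : j = k
        · subst hj; simp [hi]; ring
        · simp [hi, hj]
    simp only [e1, Finset.sum_sub_distrib]
    have e2 : ∑ i, ∑ j, (2 * σ k * (if i = k then 1 else 0)) * (Jo J i j * σ j)
        = 2 * σ k * ∑ j, Jo J k j * σ j := by
      rw [Finset.sum_eq_single k]
      · simp [Finset.mul_sum]
      · intro i _ hi; simp [hi]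
      · simp
    have e3 : ∑ i, ∑ j, (2 * σ k * (if j = k then 1 else 0)) * (Jo J i j * σ i)
        = 2 * σ k * ∑ j, Jo J k j * σ j := by
      rw [Finset.sum_comm, Finset.sum_eq_single k]
      · rw [Finset.mul_sum]
        apply Finset.sum_congr rfl
        intro i _
        rw [Jo_symm hJ]; simp
      · intro i _ hi; simp [hi]
      · simp
    rw [e2, e3]; ring
  rw [hb, hq]
  simp only [hσ]
  ring

lemma gibbs_pos {n : ℕ} (J : Fin n → Fin n → ℝ) (b : Fin n → ℝ) (x : Cfg n) :
    0 < gibbs J b x :=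
  div_pos (Real.exp_pos _) (Finset.sum_pos (fun _ _ => Real.exp_pos _) Finset.univ_nonempty)

lemma gibbs_sum {n : ℕ} (J : Fin n → Fin n → ℝ) (b : Fin n → ℝ) : ∑ x, gibbs J b x = 1 := by
  unfold gibbs
  rw [← Finset.sum_div]
  exact div_self (Finset.sum_pos (fun _ _ => Real.exp_pos _) Finset.univ_nonempty).ne'

lemma gibbs_flip {n : ℕ} {J : Fin n → Fin n → ℝ} (hJ : ∀ i j, J i j = J j i) (b : Fin n → ℝ)
    (x : Cfg n) (k : Fin n) :
    gibbs J b (flip x k) = gibbs J b x * Real.exp (-(2 * sp (x k) * locField J b x k)) := by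
  unfold gibbs
  rw [energy_flip hJ, sub_eq_add_neg, Real.exp_add]
  ring

/-- the flip rate -/
noncomputable def rate {n : ℕ} (J : Fin n → Fin n → ℝ) (b : Fin n → ℝ) (x : Cfg n)
    (i : Fin n) : ℝ :=
  gibbs J b (flip x i) / (gibbs J b x + gibbs J b (flip x i))

lemma rate_eq {n : ℕ} {J : Fin n → Fin n → ℝ} (hJ : ∀ i j, J i j = J j i) (b : Fin n → ℝ)
    (x : Cfg n) (i : Fin n) :
    Real.exp (-(sp (x i) * locField J b x i)) / (2 * Real.cosh (locField J b x i))
      = rate J b x i := by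
  unfold rate
  rw [gibbs_flip hJ]
  have hg := gibbs_pos J b x
  set h := locField J b x i
  set a := sp (x i) * h with ha
  have hcosh : Real.cosh h = Real.cosh a := by
    rw [ha]; cases x i <;> simp [sp]
  have h1 : Real.exp (-(2 * sp (x i) * h)) = Real.exp (-a) * Real.exp (-a) := by
    rw [← Real.exp_add, ha]; congr 1; ring
  rw [h1, hcosh, Real.cosh_eq]
  have h2 : Real.exp a = (Real.exp (-a))⁻¹ := by rw [Real.exp_neg, inv_inv]
  rw [h2]
  have h3 := Real.exp_pos (-a)
  set u := Real.exp (-a)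
  field_simp

lemma resample_sub {n : ℕ} {J : Fin n → Fin n → ℝ} (hJ : ∀ i j, J i j = J j i) (b : Fin n → ℝ)
    (i : Fin n) (f : Cfg n → ℝ) (x : Cfg n) :
    resample J b i f x - f x = rate J b x i * (f (flip x i) - f x) := by
  rw [← rate_eq hJ]
  unfold resample flip
  set h := locField J b x i
  have hc : 0 < Real.cosh h := Real.cosh_pos h
  have hch := Real.cosh_eq h
  rw [Fintype.sum_bool]
  have hx : Function.update x i (x i) = x := Function.update_eq_self i x
  cases hxi : x i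
  · rw [hxi] at hx
    simp only [sp, Bool.not_false, if_true, hx, Bool.false_eq_true, if_false]
    have : f x = (Real.exp h + Real.exp (-h)) / (2 * Real.cosh h) * f x := by
      rw [hch]; field_simp
    rw [neg_one_mul, neg_neg, one_mul]
    linear_combination (-1) * this
  · rw [hxi] at hx
    simp only [sp, Bool.not_true, if_true, hx, Bool.false_eq_true, if_false]
    have : f x = (Real.exp h + Real.exp (-h)) / (2 * Real.cosh h) * f x := by
      rw [hch]; field_simp
    rw [neg_one_mul, one_mul]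
    linear_combination (-1) * this

lemma sum_flip {n : ℕ} (i : Fin n) (F : Cfg n → ℝ) : ∑ x, F (flip x i) = ∑ x, F x := by
  have : Function.Involutive (fun x : Cfg n => flip x i) := fun x => flip_flip x i
  exact Equiv.sum_comp (Function.Involutive.toPerm _ this) F

/-- the Dirichlet form as a sum over edges of the hypercube -/
theorem dir_eq {n : ℕ} {J : Fin n → Fin n → ℝ} (hJ : ∀ i j, J i j = J j i) (b : Fin n → ℝ)
    (f g : Cfg n → ℝ) :
    dir J b f g = (1 / 2) * ∑ i, ∑ x, gibbs J b x * gibbs J b (flip x i)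
      / (gibbs J b x + gibbs J b (flip x i)) * ((f (flip x i) - f x) * (g (flip x i) - g x)) := by
  unfold dir ex gen
  simp only [resample_sub hJ]
  have h1 : ∀ i, ∑ x, gibbs J b x * (f x * (rate J b x i * (g (flip x i) - g x)))
      = - ((1 / 2) * ∑ x, gibbs J b x * gibbs J b (flip x i)
        / (gibbs J b x + gibbs J b (flip x i)) * ((f (flip x i) - f x) * (g (flip x i) - g x))) := by
    intro i
    have e1 : ∑ x, gibbs J b x * (f x * (rate J b x i * (g (flip x i) - g x)))
      = ∑ x, gibbs J b x * gibbs J b (flip x i)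
        / (gibbs J b x + gibbs J b (flip x i)) * (f x * (g (flip x i) - g x)) := by
      apply Finset.sum_congr rfl; intro x _
      unfold rate; ring
    have e2 : ∑ x, gibbs J b x * gibbs J b (flip x i)
        / (gibbs J b x + gibbs J b (flip x i)) * (f x * (g (flip x i) - g x))
        = ∑ x, gibbs J b x * gibbs J b (flip x i)
        / (gibbs J b x + gibbs J b (flip x i)) * (f (flip x i) * (g x - g (flip x i))) := by
      rw [← sum_flip i]
      apply Finset.sum_congr rfl; intro x _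
      rw [flip_flip, add_comm (gibbs J b (flip x i)), mul_comm (gibbs J b (flip x i))]
    have e3 : ∑ x, gibbs J b x * (f x * (rate J b x i * (g (flip x i) - g x)))
      = (1 / 2) * (∑ x, gibbs J b x * gibbs J b (flip x i)
        / (gibbs J b x + gibbs J b (flip x i)) * (f x * (g (flip x i) - g x))
        + ∑ x, gibbs J b x * gibbs J b (flip x i)
        / (gibbs J b x + gibbs J b (flip x i)) * (f (flip x i) * (g x - g (flip x i)))) := by
      rw [← e2, e1]; ring
    rw [e3, ← Finset.sum_add_distrib, ← mul_neg, ← Finset.sum_neg_distrib]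
    congr 1
    apply Finset.sum_congr rfl; intro x _
    ring
  have h2 : ∑ x, gibbs J b x * (f x * ∑ i, rate J b x i * (g (flip x i) - g x))
      = ∑ i, ∑ x, gibbs J b x * (f x * (rate J b x i * (g (flip x i) - g x))) := by
    rw [Finset.sum_comm]
    apply Finset.sum_congr rfl; intro x _
    rw [Finset.mul_sum, Finset.mul_sum]
  rw [h2, Finset.sum_congr rfl (fun i _ => h1 i), Finset.sum_neg_distrib, neg_neg, Finset.mul_sum]

end Vale.Agent.P150
end

section

/-! Common definitions for the full `β < 1` theorem (blueprint notes by helper522). -/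

open MeasureTheory ProbabilityTheory Filter Topology
open scoped Matrix

namespace Vale.Agent.P150.F

/-- real `n × n` matrices -/
abbrev Mat (n : ℕ) := Matrix (Fin n) (Fin n) ℝ
/-- real vectors -/
abbrev Vec (n : ℕ) := Fin n → ℝ

variable {n : ℕ}

/-- squared Euclidean norm -/
def sq (v : Vec n) : ℝ := ∑ i, v i ^ 2
/-- inner product -/
def ip (u v : Vec n) : ℝ := ∑ i, u i * v i
/-- squared Hilbert-Schmidt norm -/
def hsq (A : Mat n) : ℝ := ∑ i, ∑ j, A i j ^ 2
/-- operator norm at most `C` -/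
def OpLe (A : Mat n) (C : ℝ) : Prop := ∀ v : Vec n, sq (A.mulVec v) ≤ C ^ 2 * sq v
/-- quadratic form -/
def qf (A : Mat n) (v : Vec n) : ℝ := ip v (A.mulVec v)
/-- normalized trace -/
noncomputable def trN (A : Mat n) : ℝ := (∑ i, A i i) / n
/-- diagonal matrix -/
def dg (a : Vec n) : Mat n := Matrix.diagonal a

/-- the normalized SK coupling matrix (`β = 1`), zero diagonal, off-diagonal entries `g_ij/√n` -/
noncomputable def skM (g : Pairs n → ℝ) : Mat n := fun i j => gsym g i j / Real.sqrt n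

/-- words `J a₁ J a₂ ⋯ J a_l` -/
def word (J : Mat n) : List (Vec n) → Mat n
  | [] => 1
  | a :: as => J * dg a * word J as

/-- all diagonals bounded by one -/
def Bdd (as : List (Vec n)) : Prop := ∀ a ∈ as, ∀ i, |a i| ≤ 1

/-- uniform Schwinger-Dyson equations for words of length at most `ℓ`, error `ε`:
`tr_n (J a W(as)) = ∑_k tr_n (a W(as[0..k))) tr_n (as[k] W(as(k..)))`. -/
def SD (J : Mat n) (ℓ : ℕ) (ε : ℝ) : Prop :=
  ∀ (a : Vec n) (as : List (Vec n)), as.length + 1 ≤ ℓ → Bdd (a :: as) →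
    |trN (word J (a :: as))
      - ∑ k : Fin as.length, trN (dg a * word J (as.take k)) *
          trN (dg (as.get k) * word J (as.drop (k + 1)))| ≤ ε

/-- off-diagonal entries of words are small in `ℓ⁴` -/
def OD (J : Mat n) (ℓ : ℕ) (ε : ℝ) : Prop :=
  ∀ as : List (Vec n), 1 ≤ as.length → as.length ≤ ℓ → Bdd as →
    ∑ i, ∑ j, (if i = j then 0 else word J as i j ^ 4) ≤ ε * n

/-- the overlap `|m|²/n` -/
noncomputable def qq (m : Vec n) : ℝ := sq m / n

/-- star-shapedness of the TAP free energy away from `0` -/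
def SS (β q₀ c : ℝ) (J : Mat n) : Prop :=
  ∀ m : Vec n, (∀ i, |m i| < 1) → q₀ ≤ qq m →
    c * n ≤ (∑ i, m i * Real.artanh (m i)) + β ^ 2 * (1 - qq m) * sq m - β * qf J m

/-- the TAP Hessian with the diagonal truncated at `L`, as a quadratic form -/
noncomputable def HL (L r : ℝ) (J : Mat n) (m v : Vec n) : ℝ :=
  (∑ i, min (1 / (1 - m i ^ 2)) L * v i ^ 2) + r ^ 2 * (1 - qq m) * sq v - r * qf J v
    - 2 * r ^ 2 / n * ip m v ^ 2

/-- uniform count in windows -/
def UC (β c₁ L ρ : ℝ) (d : ℕ) (J : Mat n) : Prop :=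
  ∀ r ∈ Set.Icc 0 β, ∀ p : Vec n, (∀ i, |p i| ≤ 1) →
    ∃ W : Fin d → Vec n, (∀ a, sq (W a) ≤ 1) ∧ (∀ a b, a ≠ b → ip (W a) (W b) = 0) ∧
      ∀ m : Vec n, (∀ i, |m i| < 1) → sq (m - p) ≤ ρ ^ 2 * n →
        ∀ v : Vec n, (∀ a, ip (W a) v = 0) → c₁ * sq v ≤ HL L r J m v

/-- the TAP Hessian as a matrix, with steering matrix `A` -/
noncomputable def Hess (r : ℝ) (J A : Mat n) (m : Vec n) : Mat n :=
  dg (fun i => 1 / (1 - m i ^ 2)) + (r ^ 2 * (1 - qq m)) • (1 : Mat n) - r • J + A
    - (2 * r ^ 2 / n) • Matrix.vecMulVec m m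

/-- drift error of the TAP solution along `dy = Q x dt + Q^{1/2} dB`, `dr = -ρ dt`;
`κ₀` is the multiple of the identity in `Q` not seen by the TAP couplings. -/
noncomputable def kap (r ρ κ₀ : ℝ) (Q G : Mat n) (m : Vec n) (j : Fin n) : ℝ :=
  m j * (κ₀ + 2 * r * ρ * (1 - qq m) - (G * Q * G) j j / (1 - m j ^ 2) ^ 2
      + r ^ 2 * trN (G * Q * G))
    + 2 * r ^ 2 / n * (G * Q * G).mulVec m j

/-- steering matrices: sums of at most `d` terms `w wᵀ` with `|w|² ≤ K` -/
def Steer (d : ℕ) (K : ℝ) (A : Mat n) : Prop :=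
  ∃ w : Fin d → Vec n, (∀ a, sq (w a) ≤ K) ∧ A = ∑ a, Matrix.vecMulVec (w a) (w a)

/-- uniform bound on the TAP drift error in the `J`-killing direction `Q = J + κ₀` -/
def KB (β κ₀ c K : ℝ) (d : ℕ) (C : ℝ) (J : Mat n) : Prop :=
  ∀ r ∈ Set.Icc 0 β, ∀ m : Vec n, (∀ i, |m i| < 1) → ∀ A : Mat n, Steer d K A →
    (∀ v, c * sq v ≤ qf (Hess r J A m) v) → ∀ G : Mat n, Hess r J A m * G = 1 →
      ∑ j, kap r 1 κ₀ (J + κ₀ • (1 : Mat n)) G m j ^ 2 ≤ C

/-! ### Spin side -/

/-- spin vector of a configuration -/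
def sv (x : Cfg n) : Vec n := fun i => sp (x i)

/-- half discrete derivative in direction `i`: `(f(x with x_i=+) - f(x with x_i=-))/2` -/
noncomputable def dd (i : Fin n) (f : Cfg n → ℝ) (x : Cfg n) : ℝ :=
  (f (Function.update x i true) - f (Function.update x i false)) / 2

/-- the AMP iterates started from the configuration itself: `m⁰ = x`, `m^{k+1} = tanh a^{k+1}`,
`a^{k+1} = M m^k + y - r² t_k m^{k-1}` with `t_k = 1 - |m^k|²/n` (`t_0 = 0`). -/
noncomputable def ampM (M : Mat n) (r : ℝ) (y : Vec n) (x : Cfg n) : ℕ → Vec n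
  | 0 => sv x
  | 1 => fun i => Real.tanh (M.mulVec (sv x) i + y i)
  | (k + 2) => fun i => Real.tanh (M.mulVec (ampM M r y x (k + 1)) i + y i
      - r ^ 2 * (1 - qq (ampM M r y x (k + 1))) * ampM M r y x k i)

/-- the AMP fields `a^{k+1}` (index `k` gives `a^{k+1}`) -/
noncomputable def ampA (M : Mat n) (r : ℝ) (y : Vec n) (x : Cfg n) : ℕ → Vec n
  | 0 => fun i => M.mulVec (sv x) i + y i
  | (k + 1) => fun i => M.mulVec (ampM M r y x (k + 1)) i + y i
      - r ^ 2 * (1 - qq (ampM M r y x (k + 1))) * ampM M r y x k i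

/-- probability weights on the cube -/
def IsProb (ν : Cfg n → ℝ) : Prop := (∀ x, 0 ≤ ν x) ∧ ∑ x, ν x = 1

/-- conditional mean of spin `i` given the others under `ν` -/
noncomputable def condMean (ν : Cfg n → ℝ) (i : Fin n) (x : Cfg n) : ℝ :=
  (ν (Function.update x i true) - ν (Function.update x i false)) /
    (ν (Function.update x i true) + ν (Function.update x i false))

/-- mean squared DLR defect of `ν` relative to `exp(½ xᵀMx + ⟨y,x⟩)` -/
noncomputable def dlr (M : Mat n) (y : Vec n) (ν : Cfg n → ℝ) : ℝ :=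
  ∑ x, ν x * ∑ i, (condMean ν i x
    - Real.tanh (M.mulVec (sv x) i - M i i * sv x i + y i)) ^ 2

/-- expectation of a function under weights `ν` -/
def Ex (ν : Cfg n → ℝ) (f : Cfg n → ℝ) : ℝ := ∑ x, ν x * f x

/-- macroscopic test functions -/
def Macro (C : ℝ) (φ : Cfg n → ℝ) : Prop :=
  (∀ x, |φ x| ≤ C) ∧ ∀ x, (∑ i, dd i φ x ^ 2) * n ≤ C ^ 2

end Vale.Agent.P150.F
end

section

open MeasureTheory ProbabilityTheory Real Set

namespace Vale.Agent.P150

/-- density of the standard Gaussian -/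
lemma hasDerivAt_gaussianPDFReal_std (x : ℝ) :
    HasDerivAt (gaussianPDFReal 0 1) (-x * gaussianPDFReal 0 1 x) x := by
  unfold gaussianPDFReal
  have h : HasDerivAt (fun x : ℝ => -(x - 0) ^ 2 / (2 * ((1 : NNReal) : ℝ))) (-x) x := by
    have := (((hasDerivAt_id x).sub_const (0 : ℝ)).pow 2).neg.div_const (2 * ((1 : NNReal) : ℝ))
    refine this.congr_deriv ?_
    simp
    ring
  have h2 := (h.exp).const_mul (√(2 * π * ((1 : NNReal) : ℝ)))⁻¹
  refine h2.congr_deriv ?_
  ring

lemma integrable_gaussianReal_iff (f : ℝ → ℝ) :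
    Integrable f (gaussianReal 0 1) ↔ Integrable (fun x => gaussianPDFReal 0 1 x * f x) := by
  rw [gaussianReal_of_var_ne_zero _ one_ne_zero,
    integrable_withDensity_iff_integrable_smul' (measurable_gaussianPDF 0 1)
      (Filter.Eventually.of_forall fun _ => gaussianPDF_lt_top)]
  simp [toReal_gaussianPDF]

/-- Stein's identity in dimension one. -/
lemma stein_one {g g' : ℝ → ℝ} (hg : ∀ t, HasDerivAt g (g' t) t)
    (h1 : Integrable (fun t => t * g t) (gaussianReal 0 1))
    (h2 : Integrable g' (gaussianReal 0 1)) (h3 : Integrable g (gaussianReal 0 1)) :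
    ∫ t, t * g t ∂(gaussianReal 0 1) = ∫ t, g' t ∂(gaussianReal 0 1) := by
  rw [integral_gaussianReal_eq_integral_smul one_ne_zero,
    integral_gaussianReal_eq_integral_smul one_ne_zero]
  rw [integrable_gaussianReal_iff] at h1 h2 h3
  have key := integral_mul_deriv_eq_deriv_mul_of_integrable (u := g) (u' := g')
    (v := gaussianPDFReal 0 1) (v' := fun x => -x * gaussianPDFReal 0 1 x)
    (fun x _ => hg x) (fun x _ => hasDerivAt_gaussianPDFReal_std x)
    (by
      refine h1.neg.congr (Filter.Eventually.of_forall fun x => ?_)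
      simp; ring)
    (by
      refine h2.congr (Filter.Eventually.of_forall fun x => ?_)
      simp; ring)
    (by
      refine h3.congr (Filter.Eventually.of_forall fun x => ?_)
      simp; ring)
  have e1 : ∫ x, gaussianPDFReal 0 1 x • (x * g x) = - ∫ x, g x * (-x * gaussianPDFReal 0 1 x) := by
    rw [← integral_neg]
    refine integral_congr_ae (Filter.Eventually.of_forall fun x => ?_)
    simp; ring
  rw [e1, key, neg_neg]
  refine integral_congr_ae (Filter.Eventually.of_forall fun x => ?_)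
  simp; ring

/-- the standard Gaussian measure on `ι → ℝ` -/
noncomputable abbrev gpi (ι : Type*) [Fintype ι] : Measure (ι → ℝ) :=
  Measure.pi fun _ => gaussianReal 0 1

open Classical in
/-- resampling one coordinate of a product probability measure -/
lemma measurePreserving_update {ι : Type*} [Fintype ι] [DecidableEq ι]
    (ν : ι → Measure ℝ) [∀ i, IsProbabilityMeasure (ν i)] (k : ι) :
    MeasurePreserving (fun p : (ι → ℝ) × ℝ => Function.update p.1 k p.2)
      ((Measure.pi ν).prod (ν k)) (Measure.pi ν) := by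
  have hm : Measurable (fun p : (ι → ℝ) × ℝ => Function.update p.1 k p.2) := by
    rw [measurable_pi_iff]
    intro i
    by_cases h : i = k
    · subst h
      simpa using measurable_snd
    · simp only [Function.update_of_ne h]
      exact (measurable_pi_apply i).comp measurable_fst
  refine ⟨hm, ?_⟩
  symm
  refine Measure.pi_eq fun s hs => ?_
  rw [Measure.map_apply hm (MeasurableSet.univ_pi hs)]
  have hpre : (fun p : (ι → ℝ) × ℝ => Function.update p.1 k p.2) ⁻¹' (Set.univ.pi s)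
      = (Set.univ.pi (Function.update s k Set.univ)) ×ˢ (s k) := by
    ext ⟨x, t⟩
    simp only [Set.mem_preimage, Set.mem_univ_pi, Set.mem_prod]
    constructor
    · intro h
      refine ⟨fun i => ?_, by simpa using h k⟩
      by_cases hi : i = k
      · subst hi; simp
      · simpa [Function.update_of_ne hi] using h i
    · rintro ⟨h, ht⟩ i
      by_cases hi : i = k
      · subst hi; simpa using ht
      · simpa [Function.update_of_ne hi] using h i
  rw [hpre, Measure.prod_prod, Measure.pi_pi]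
  have : ∀ i, ν i (Function.update s k Set.univ i) =
      Function.update (fun i => ν i (s i)) k 1 i := by
    intro i
    by_cases hi : i = k
    · subst hi; simp
    · simp [Function.update_of_ne hi]
  simp_rw [this]
  rw [Finset.prod_update_of_mem (Finset.mem_univ k), one_mul,
    ← Finset.prod_sdiff (Finset.subset_univ {k})]
  simp

lemma integral_update {ι : Type*} [Fintype ι] [DecidableEq ι]
    (ν : ι → Measure ℝ) [∀ i, IsProbabilityMeasure (ν i)] (k : ι) {f : (ι → ℝ) → ℝ}
    (hf : Integrable f (Measure.pi ν)) :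
    ∫ x, f x ∂(Measure.pi ν) = ∫ x, ∫ t, f (Function.update x k t) ∂(ν k) ∂(Measure.pi ν) := by
  have mp := measurePreserving_update ν k
  rw [← mp.map_eq, integral_map mp.measurable.aemeasurable
    (by rw [mp.map_eq]; exact hf.aestronglyMeasurable)]
  rw [integral_prod]
  · rw [mp.map_eq]
  · exact mp.integrable_comp_of_integrable hf

/-- Gaussian integration by parts (Stein) for bounded functions with bounded derivative. -/
lemma stein_pi {ι : Type*} [Fintype ι] [DecidableEq ι] (k : ι) {G G' : (ι → ℝ) → ℝ}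
    (hG : ∀ x, HasDerivAt (fun t => G (Function.update x k t)) (G' x) (x k))
    (mG : Measurable G) (mG' : Measurable G') {C C' : ℝ} (bG : ∀ x, |G x| ≤ C)
    (bG' : ∀ x, |G' x| ≤ C') :
    ∫ x, x k * G x ∂(gpi ι) = ∫ x, G' x ∂(gpi ι) := by
  have hint : Integrable (fun x : ι → ℝ => x k * G x) (gpi ι) := by
    have h1 : Integrable (fun x : ι → ℝ => x k) (gpi ι) := by
      have : MeasurePreserving (Function.eval k) (gpi ι) (gaussianReal 0 1) :=
        measurePreserving_eval _ k
      exact this.integrable_comp_of_integrable ((memLp_id_gaussianReal 1).integrable le_rfl)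
    have := h1.bdd_mul (c := C) mG.aestronglyMeasurable
      (Filter.Eventually.of_forall fun x => by simpa using bG x)
    refine this.congr (Filter.Eventually.of_forall fun x => ?_)
    simp [mul_comm]
  have hint' : Integrable G' (gpi ι) := by
    refine Integrable.of_bound mG'.aestronglyMeasurable C'
      (Filter.Eventually.of_forall fun x => by simpa using bG' x)
  rw [integral_update _ k hint, integral_update _ k hint']
  refine integral_congr_ae (Filter.Eventually.of_forall fun x => ?_)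
  simp only [Function.update_self]
  have mup : Measurable (fun t : ℝ => Function.update x k t) := measurable_update x
  refine stein_one (g := fun t => G (Function.update x k t))
    (g' := fun t => G' (Function.update x k t)) (fun t => ?_) ?_ ?_ ?_
  · have := hG (Function.update x k t)
    simpa using this
  · have h1 : Integrable (fun t : ℝ => t) (gaussianReal 0 1) :=
      (memLp_id_gaussianReal 1).integrable le_rfl
    have := h1.bdd_mul (c := C) (mG.comp mup).aestronglyMeasurable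
      (Filter.Eventually.of_forall fun x => by simpa using bG _)
    refine this.congr (Filter.Eventually.of_forall fun x => ?_)
    simp [mul_comm]
  · exact Integrable.of_bound (mG'.comp mup).aestronglyMeasurable C'
      (Filter.Eventually.of_forall fun x => by simpa using bG' _)
  · exact Integrable.of_bound (mG.comp mup).aestronglyMeasurable C
      (Filter.Eventually.of_forall fun x => by simpa using bG _)

end Vale.Agent.P150
end

section

open MeasureTheory ProbabilityTheory Real Set Filter Topology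

namespace Vale.Agent.P150

section
variable {ι T : Type*} [Fintype ι] [Fintype T]

/-- the linear functional -/
noncomputable def lin (c : ι → ℝ) (w : ι → ℝ) : ℝ := ∑ k, c k * w k

noncomputable def uu (β s : ℝ) (c : T → ι → ℝ) (x : T) (w : ι → ℝ) : ℝ :=
  exp (β * (lin (c x) w - s))

noncomputable def Phi (β s : ℝ) (c : T → ι → ℝ) (w : ι → ℝ) : ℝ :=
  exp (-∑ x, uu β s c x w)

lemma measurable_lin (c : ι → ℝ) : Measurable (lin c) := by
  unfold lin; fun_prop

lemma measurable_uu (β s : ℝ) (c : T → ι → ℝ) (x : T) : Measurable (uu β s c x) := by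
  unfold uu
  exact measurable_exp.comp (((measurable_lin (c x)).sub_const s).const_mul β)

lemma measurable_Phi (β s : ℝ) (c : T → ι → ℝ) : Measurable (Phi β s c) := by
  unfold Phi
  exact measurable_exp.comp (Finset.measurable_sum _ fun x _ => measurable_uu β s c x).neg

lemma uu_pos (β s : ℝ) (c : T → ι → ℝ) (x : T) (w : ι → ℝ) : 0 < uu β s c x w := exp_pos _

lemma Phi_pos (β s : ℝ) (c : T → ι → ℝ) (w : ι → ℝ) : 0 < Phi β s c w := exp_pos _

lemma Phi_le_one (β s : ℝ) (c : T → ι → ℝ) (w : ι → ℝ) : Phi β s c w ≤ 1 := by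
  unfold Phi
  rw [exp_le_one_iff]
  have : 0 ≤ ∑ x, uu β s c x w := Finset.sum_nonneg fun x _ => (uu_pos β s c x w).le
  linarith

lemma uu_mul_Phi_le_one (β s : ℝ) (c : T → ι → ℝ) (x : T) (w : ι → ℝ) :
    uu β s c x w * Phi β s c w ≤ 1 := by
  set S := ∑ x, uu β s c x w with hS
  have h1 : uu β s c x w ≤ S :=
    Finset.single_le_sum (f := fun x => uu β s c x w) (fun x _ => (uu_pos β s c x w).le)
      (Finset.mem_univ x)
  have h2 : S ≤ exp S := by
    have := add_one_le_exp S
    linarith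
  have h3 : Phi β s c w = exp (-S) := rfl
  rw [h3, exp_neg]
  rw [← div_eq_mul_inv, div_le_one (exp_pos _)]
  linarith

lemma uu_mul_uu_mul_Phi_le (β s : ℝ) (c : T → ι → ℝ) (x y : T) (w : ι → ℝ) :
    uu β s c x w * uu β s c y w * Phi β s c w ≤ 2 := by
  set S := ∑ x, uu β s c x w with hS
  have h1 : ∀ x, uu β s c x w ≤ S := fun x =>
    Finset.single_le_sum (f := fun x => uu β s c x w) (fun x _ => (uu_pos β s c x w).le)
      (Finset.mem_univ x)
  have hS0 : 0 ≤ S := (uu_pos β s c x w).le.trans (h1 x)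
  have h2 : S ^ 2 ≤ 2 * exp S := by
    have := quadratic_le_exp_of_nonneg hS0
    linarith only [this, hS0]
  have h3 : Phi β s c w = exp (-S) := rfl
  rw [h3, exp_neg, ← div_eq_mul_inv, div_le_iff₀ (exp_pos _)]
  have := mul_le_mul (h1 x) (h1 y) (uu_pos β s c y w).le hS0
  linarith only [this, h2]

lemma abs_uu_mul_Phi (β s : ℝ) (c : T → ι → ℝ) (x : T) (w : ι → ℝ) :
    |uu β s c x w * Phi β s c w| ≤ 1 := by
  rw [abs_of_pos (mul_pos (uu_pos ..) (Phi_pos ..))]
  exact uu_mul_Phi_le_one ..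

lemma abs_uu_mul_uu_mul_Phi (β s : ℝ) (c : T → ι → ℝ) (x y : T) (w : ι → ℝ) :
    |uu β s c x w * uu β s c y w * Phi β s c w| ≤ 2 := by
  rw [abs_of_pos (mul_pos (mul_pos (uu_pos ..) (uu_pos ..)) (Phi_pos ..))]
  exact uu_mul_uu_mul_Phi_le ..

lemma lin_update [DecidableEq ι] (c : ι → ℝ) (w : ι → ℝ) (k : ι) (t : ℝ) :
    lin c (Function.update w k t) = lin c w + c k * (t - w k) := by
  unfold lin
  rw [← Finset.add_sum_erase _ _ (Finset.mem_univ k),
    ← Finset.add_sum_erase (Finset.univ) (fun k => c k * w k) (Finset.mem_univ k)]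
  rw [Function.update_self]
  have : ∑ x ∈ Finset.univ.erase k, c x * Function.update w k t x
      = ∑ x ∈ Finset.univ.erase k, c x * w x := by
    refine Finset.sum_congr rfl fun i hi => ?_
    rw [Function.update_of_ne (Finset.ne_of_mem_erase hi)]
  rw [this]; ring

/-- derivative of `u_x Φ` in the coordinate `k` -/
lemma hasDerivAt_uu_mul_Phi [DecidableEq ι] (β s : ℝ) (c : T → ι → ℝ) (x : T) (w : ι → ℝ) (k : ι) :
    HasDerivAt (fun t => uu β s c x (Function.update w k t) * Phi β s c (Function.update w k t))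
      (β * c x k * (uu β s c x w * Phi β s c w)
        - β * ∑ y, c y k * (uu β s c x w * uu β s c y w * Phi β s c w)) (w k) := by
  have hu : ∀ y, HasDerivAt (fun t => uu β s c y (Function.update w k t))
      (uu β s c y w * (β * c y k)) (w k) := by
    intro y
    unfold uu
    have h1 : HasDerivAt (fun t => β * (lin (c y) (Function.update w k t) - s)) (β * c y k)
        (w k) := by
      simp only [lin_update]
      have := ((((hasDerivAt_id (w k)).sub_const (w k)).const_mul (c y k)).const_add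
        (lin (c y) w)).sub_const s |>.const_mul β
      refine this.congr_deriv ?_
      ring
    have h2 := h1.exp
    simpa using h2
  have hP : HasDerivAt (fun t => Phi β s c (Function.update w k t))
      (Phi β s c w * (-∑ y, uu β s c y w * (β * c y k))) (w k) := by
    unfold Phi
    have h1 : HasDerivAt (fun t => -∑ y, uu β s c y (Function.update w k t))
        (-∑ y, uu β s c y w * (β * c y k)) (w k) :=
      (HasDerivAt.fun_sum fun y _ => hu y).neg
    have h2 := h1.exp
    simpa using h2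
  have := (hu x).mul hP
  refine this.congr_deriv ?_
  simp only [Function.update_eq_self]
  rw [Finset.mul_sum, mul_neg, mul_neg, Finset.mul_sum, Finset.mul_sum]
  rw [sub_eq_add_neg]
  congr 1
  · ring
  · congr 1
    refine Finset.sum_congr rfl fun y _ => ?_
    ring

lemma integrable_lin (c : ι → ℝ) : Integrable (lin c) (gpi ι) := by
  unfold lin
  refine integrable_finset_sum _ fun k _ => ?_
  have : MeasurePreserving (Function.eval k) (gpi ι) (gaussianReal 0 1) :=
    measurePreserving_eval _ k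
  exact (this.integrable_comp_of_integrable ((memLp_id_gaussianReal 1).integrable le_rfl)).const_mul _

/-- Stein applied to `u_x Φ` -/
lemma stein_uu (β s : ℝ) (c : T → ι → ℝ) (x : T) (d : ι → ℝ) :
    ∫ w, lin d w * (uu β s c x w * Phi β s c w) ∂(gpi ι)
      = β * (∑ k, d k * c x k) * ∫ w, uu β s c x w * Phi β s c w ∂(gpi ι)
        - β * ∑ y, (∑ k, d k * c y k) *
            ∫ w, uu β s c x w * uu β s c y w * Phi β s c w ∂(gpi ι) := by
  classical
  have mUP : ∀ x, Measurable fun w => uu β s c x w * Phi β s c w := fun x =>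
    (measurable_uu β s c x).mul (measurable_Phi β s c)
  have mUUP : ∀ x y, Measurable fun w => uu β s c x w * uu β s c y w * Phi β s c w := fun x y =>
    ((measurable_uu β s c x).mul (measurable_uu β s c y)).mul (measurable_Phi β s c)
  have iUP : ∀ x, Integrable (fun w => uu β s c x w * Phi β s c w) (gpi ι) := fun x =>
    Integrable.of_bound (mUP x).aestronglyMeasurable 1
      (Eventually.of_forall fun w => by simpa using abs_uu_mul_Phi β s c x w)
  have iUUP : ∀ x y, Integrable (fun w => uu β s c x w * uu β s c y w * Phi β s c w) (gpi ι) :=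
    fun x y => Integrable.of_bound (mUUP x y).aestronglyMeasurable 2
      (Eventually.of_forall fun w => by simpa using abs_uu_mul_uu_mul_Phi β s c x y w)
  have h1 : ∀ k, ∫ w, w k * (uu β s c x w * Phi β s c w) ∂(gpi ι)
      = ∫ w, (β * c x k * (uu β s c x w * Phi β s c w)
        - β * ∑ y, c y k * (uu β s c x w * uu β s c y w * Phi β s c w)) ∂(gpi ι) := by
    intro k
    refine stein_pi k (fun w => hasDerivAt_uu_mul_Phi β s c x w k) (mUP x) ?_
      (C := 1) (C' := |β * c x k| + |β| * ∑ y, |c y k| * 2) (abs_uu_mul_Phi β s c x) ?_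
    · exact ((mUP x).const_mul _).sub
        ((Finset.measurable_sum _ fun y _ => (mUUP x y).const_mul _).const_mul _)
    · intro w
      refine (abs_sub _ _).trans ?_
      refine add_le_add ?_ ?_
      · rw [abs_mul]
        exact mul_le_of_le_one_right (abs_nonneg _) (abs_uu_mul_Phi β s c x w)
      · rw [abs_mul]
        refine mul_le_mul_of_nonneg_left ?_ (abs_nonneg _)
        refine (Finset.abs_sum_le_sum_abs _ _).trans (Finset.sum_le_sum fun y _ => ?_)
        rw [abs_mul]
        exact mul_le_mul_of_nonneg_left (abs_uu_mul_uu_mul_Phi β s c x y w) (abs_nonneg _)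
  have h2 : ∀ k, ∫ w, w k * (uu β s c x w * Phi β s c w) ∂(gpi ι)
      = β * c x k * ∫ w, uu β s c x w * Phi β s c w ∂(gpi ι)
        - β * ∑ y, c y k * ∫ w, uu β s c x w * uu β s c y w * Phi β s c w ∂(gpi ι) := by
    intro k
    rw [h1 k, integral_sub ((iUP x).const_mul _)
      ((integrable_finset_sum _ fun y _ => (iUUP x y).const_mul _).const_mul _),
      integral_const_mul, integral_const_mul, integral_finset_sum _
        fun y _ => (iUUP x y).const_mul _]
    simp_rw [integral_const_mul]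
  have iw : ∀ k, Integrable (fun w : ι → ℝ => w k * (uu β s c x w * Phi β s c w)) (gpi ι) := by
    intro k
    have h0 : Integrable (fun x : ι → ℝ => x k) (gpi ι) := by
      have : MeasurePreserving (Function.eval k) (gpi ι) (gaussianReal 0 1) :=
        measurePreserving_eval _ k
      exact this.integrable_comp_of_integrable ((memLp_id_gaussianReal 1).integrable le_rfl)
    have := h0.bdd_mul (c := 1) (mUP x).aestronglyMeasurable
      (Filter.Eventually.of_forall fun w => by simpa using abs_uu_mul_Phi β s c x w)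
    refine this.congr (Filter.Eventually.of_forall fun w => ?_)
    simp [mul_comm]
  calc ∫ w, lin d w * (uu β s c x w * Phi β s c w) ∂(gpi ι)
      = ∫ w, ∑ k, d k * (w k * (uu β s c x w * Phi β s c w)) ∂(gpi ι) := by
        refine integral_congr_ae (Eventually.of_forall fun w => ?_)
        simp only [lin, Finset.sum_mul]
        refine Finset.sum_congr rfl fun k _ => ?_
        ring
    _ = ∑ k, d k * ∫ w, w k * (uu β s c x w * Phi β s c w) ∂(gpi ι) := by
        rw [integral_finset_sum _ fun k _ => (iw k).const_mul _]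
        simp_rw [integral_const_mul]
    _ = _ := by
        simp_rw [h2]
        simp only [mul_sub, Finset.sum_sub_distrib, Finset.mul_sum, Finset.sum_mul]
        congr 1
        · refine Finset.sum_congr rfl fun k _ => ?_
          ring
        · rw [Finset.sum_comm]
          refine Finset.sum_congr rfl fun y _ => Finset.sum_congr rfl fun k _ => ?_
          ring

/-- **Slepian's comparison**, smooth form. -/
theorem slepian_smooth (a b : T → ι → ℝ) (hab : ∀ x y, ∑ k, a x k * b y k = 0)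
    (hvar : ∀ x, ∑ k, b x k * b x k = ∑ k, a x k * a x k)
    (hcov : ∀ x y, ∑ k, b x k * b y k ≤ ∑ k, a x k * a y k) (β s : ℝ) :
    ∫ w, Phi β s b w ∂(gpi ι) ≤ ∫ w, Phi β s a w ∂(gpi ι) := by
  set c : ℝ → T → ι → ℝ := fun θ x k => cos θ * a x k + sin θ * b x k with hc
  set c' : ℝ → T → ι → ℝ := fun θ x k => -sin θ * a x k + cos θ * b x k with hc'
  set F : ℝ → (ι → ℝ) → ℝ := fun θ w => Phi β s (c θ) w with hF
  set F' : ℝ → (ι → ℝ) → ℝ := fun θ w =>
    -β * ∑ x, lin (c' θ x) w * (uu β s (c θ) x w * Phi β s (c θ) w) with hF'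
  have lin_c : ∀ θ x w, lin (c θ x) w = cos θ * lin (a x) w + sin θ * lin (b x) w := by
    intro θ x w
    simp only [lin, hc, Finset.mul_sum, ← Finset.sum_add_distrib]
    refine Finset.sum_congr rfl fun k _ => ?_
    ring
  have lin_c' : ∀ θ x w, lin (c' θ x) w = -sin θ * lin (a x) w + cos θ * lin (b x) w := by
    intro θ x w
    simp only [lin, hc', Finset.mul_sum, ← Finset.sum_add_distrib]
    refine Finset.sum_congr rfl fun k _ => ?_
    ring
  have hderivF : ∀ w θ, HasDerivAt (fun θ => F θ w) (F' θ w) θ := by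
    intro w θ
    have hl : ∀ x, HasDerivAt (fun θ => lin (c θ x) w) (lin (c' θ x) w) θ := by
      intro x
      simp only [lin_c, lin_c']
      exact ((hasDerivAt_cos θ).mul_const _).add ((hasDerivAt_sin θ).mul_const _)
    have hu : ∀ x, HasDerivAt (fun θ => uu β s (c θ) x w)
        (uu β s (c θ) x w * (β * lin (c' θ x) w)) θ := by
      intro x
      exact (((hl x).sub_const s).const_mul β).exp
    have h1 : HasDerivAt (fun θ => -∑ x, uu β s (c θ) x w)
        (-∑ x, uu β s (c θ) x w * (β * lin (c' θ x) w)) θ :=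
      (HasDerivAt.fun_sum fun x _ => hu x).neg
    have h2 := h1.exp
    refine h2.congr_deriv ?_
    simp only [hF']
    have : rexp (-∑ x, uu β s (c θ) x w) = Phi β s (c θ) w := rfl
    rw [this, mul_neg, Finset.mul_sum, neg_mul, Finset.mul_sum]
    congr 1
    refine Finset.sum_congr rfl fun x _ => ?_
    ring
  have mUP : ∀ θ x, Measurable fun w => uu β s (c θ) x w * Phi β s (c θ) w := fun θ x =>
    (measurable_uu β s (c θ) x).mul (measurable_Phi β s (c θ))
  have mF' : ∀ θ, Measurable (F' θ) := fun θ =>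
    (Finset.measurable_sum _ fun x _ => (measurable_lin _).mul (mUP θ x)).const_mul _
  set bound : (ι → ℝ) → ℝ := fun w => |β| * ∑ x, (|lin (a x) w| + |lin (b x) w|) with hbound
  have ibound : Integrable bound (gpi ι) :=
    (integrable_finset_sum _ fun x _ =>
      (integrable_lin (a x)).abs.add (integrable_lin (b x)).abs).const_mul _
  have hbd : ∀ w θ, ‖F' θ w‖ ≤ bound w := by
    intro w θ
    simp only [hF', hbound, norm_mul, norm_neg, Real.norm_eq_abs]
    refine mul_le_mul_of_nonneg_left ?_ (abs_nonneg _)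
    refine (Finset.abs_sum_le_sum_abs _ _).trans (Finset.sum_le_sum fun x _ => ?_)
    rw [abs_mul]
    refine (mul_le_of_le_one_right (abs_nonneg _) (abs_uu_mul_Phi β s (c θ) x w)).trans ?_
    rw [lin_c']
    refine (abs_add_le _ _).trans (add_le_add ?_ ?_)
    · rw [abs_mul, abs_neg]
      exact mul_le_of_le_one_left (abs_nonneg _) (abs_sin_le_one θ)
    · rw [abs_mul]
      exact mul_le_of_le_one_left (abs_nonneg _) (abs_cos_le_one θ)
  have iF : ∀ θ, Integrable (F θ) (gpi ι) := fun θ =>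
    Integrable.of_bound (measurable_Phi β s (c θ)).aestronglyMeasurable 1
      (Eventually.of_forall fun w => by
        rw [Real.norm_eq_abs, abs_of_pos (Phi_pos ..)]; exact Phi_le_one ..)
  have hphi : ∀ θ, HasDerivAt (fun θ => ∫ w, F θ w ∂(gpi ι)) (∫ w, F' θ w ∂(gpi ι)) θ := by
    intro θ
    exact (hasDerivAt_integral_of_dominated_loc_of_deriv_le (F := F) (F' := F') (x₀ := θ)
      (s := Set.univ) (bound := bound) Filter.univ_mem
      (Eventually.of_forall fun θ => (measurable_Phi β s (c θ)).aestronglyMeasurable)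
      (iF θ) (mF' θ).aestronglyMeasurable
      (Eventually.of_forall fun w θ _ => hbd w θ) ibound
      (Eventually.of_forall fun w θ _ => hderivF w θ)).2
  -- value of the derivative
  have hval : ∀ θ, ∫ w, F' θ w ∂(gpi ι) = β ^ 2 * ∑ x, ∑ y,
      (sin θ * cos θ * (∑ k, b x k * b y k - ∑ k, a x k * a y k)) *
        ∫ w, uu β s (c θ) x w * uu β s (c θ) y w * Phi β s (c θ) w ∂(gpi ι) := by
    intro θ
    have icU : ∀ x, Integrable (fun w => lin (c' θ x) w * (uu β s (c θ) x w * Phi β s (c θ) w))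
        (gpi ι) := by
      intro x
      have := (integrable_lin (c' θ x)).bdd_mul (c := 1) (mUP θ x).aestronglyMeasurable
        (Filter.Eventually.of_forall fun w => by simpa using abs_uu_mul_Phi β s (c θ) x w)
      refine this.congr (Filter.Eventually.of_forall fun w => ?_)
      simp [mul_comm]
    have hdot : ∀ x y, ∑ k, c' θ x k * c θ y k =
        sin θ * cos θ * (∑ k, b x k * b y k - ∑ k, a x k * a y k) := by
      intro x y
      have e : ∑ k, c' θ x k * c θ y k = -(sin θ * cos θ) * ∑ k, a x k * a y k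
          - sin θ ^ 2 * ∑ k, a x k * b y k + cos θ ^ 2 * ∑ k, a y k * b x k
          + sin θ * cos θ * ∑ k, b x k * b y k := by
        simp only [hc, hc', Finset.mul_sum, ← Finset.sum_add_distrib, ← Finset.sum_sub_distrib]
        refine Finset.sum_congr rfl fun k _ => ?_
        ring
      rw [e, hab, hab]; ring
    simp only [hF']
    rw [integral_const_mul, integral_finset_sum _ fun x _ => icU x]
    simp_rw [stein_uu, hdot]
    simp only [hvar, sub_self, mul_zero, zero_mul, zero_sub]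
    rw [Finset.sum_neg_distrib, ← Finset.mul_sum]
    ring
  have hanti : AntitoneOn (fun θ => ∫ w, F θ w ∂(gpi ι)) (Icc 0 (π / 2)) := by
    refine antitoneOn_of_hasDerivWithinAt_nonpos (convex_Icc 0 (π / 2))
      (fun θ _ => (hphi θ).continuousAt.continuousWithinAt)
      (f' := fun θ => ∫ w, F' θ w ∂(gpi ι)) (fun θ _ => (hphi θ).hasDerivWithinAt) ?_
    intro θ hθ
    rw [interior_Icc] at hθ
    rw [hval θ]
    have hs : 0 ≤ sin θ := sin_nonneg_of_nonneg_of_le_pi hθ.1.le (by linarith only [hθ.2, pi_pos])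
    have hcs : 0 ≤ cos θ := cos_nonneg_of_neg_pi_div_two_le_of_le (by linarith only [pi_pos, hθ.1]) hθ.2.le
    refine mul_nonpos_of_nonneg_of_nonpos (sq_nonneg _)
      (Finset.sum_nonpos fun x _ => Finset.sum_nonpos fun y _ => ?_)
    refine mul_nonpos_of_nonpos_of_nonneg ?_ ?_
    · refine mul_nonpos_of_nonneg_of_nonpos (mul_nonneg hs hcs) ?_
      linarith [hcov x y]
    · refine integral_nonneg fun w => ?_
      exact (mul_pos (mul_pos (uu_pos ..) (uu_pos ..)) (Phi_pos ..)).le
  have h0 : c 0 = a := by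
    funext x k; simp [hc]
  have h1 : c (π / 2) = b := by
    funext x k; simp [hc]
  have := hanti (left_mem_Icc.2 (by positivity)) (right_mem_Icc.2 (by positivity))
    (by positivity : (0 : ℝ) ≤ π / 2)
  simp only [hF, h0, h1] at this
  exact this

end

end Vale.Agent.P150
end

section

open MeasureTheory ProbabilityTheory Real Set Filter Topology

namespace Vale.Agent.P150

/-- exponential moment of the square of a standard Gaussian -/
lemma integral_exp_sq_gaussian {t : ℝ} (ht : t < 1 / 2) :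
    ∫ x, exp (t * x ^ 2) ∂(gaussianReal 0 1) = (√(1 - 2 * t))⁻¹ := by
  rw [integral_gaussianReal_eq_integral_smul one_ne_zero]
  have h1 : ∀ x : ℝ, gaussianPDFReal 0 1 x • exp (t * x ^ 2) =
      (√(2 * π))⁻¹ * exp (-(1 / 2 - t) * x ^ 2) := by
    intro x
    rw [gaussianPDFReal]
    simp only [NNReal.coe_one, mul_one, sub_zero, smul_eq_mul]
    rw [mul_assoc, ← exp_add]
    congr 2
    ring
  simp_rw [h1]
  rw [integral_const_mul, integral_gaussian]
  have h2 : 0 < 1 - 2 * t := by linarith only [ht]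
  have h3 : π / (1 / 2 - t) = (2 * π) / (1 - 2 * t) := by
    rw [div_eq_div_iff (by linarith only [h2]) (by linarith)]; ring
  rw [h3, sqrt_div (by positivity)]
  have h4 : √(2 * π) ≠ 0 := by positivity
  field_simp

lemma integrable_exp_sq_gaussian {t : ℝ} (ht : t < 1 / 2) :
    Integrable (fun x => exp (t * x ^ 2)) (gaussianReal 0 1) := by
  rw [integrable_gaussianReal_iff]
  have h1 : ∀ x : ℝ, gaussianPDFReal 0 1 x * exp (t * x ^ 2) =
      (√(2 * π))⁻¹ * exp (-(1 / 2 - t) * x ^ 2) := by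
    intro x
    rw [gaussianPDFReal]
    simp only [NNReal.coe_one, mul_one, sub_zero]
    rw [mul_assoc, ← exp_add]
    congr 2
    ring
  simp_rw [h1]
  exact (integrable_exp_neg_mul_sq (by linarith only [ht])).const_mul _

/-- Chernoff bound for a sum of squares of Gaussians. -/
lemma chernoff_sq {ι : Type*} [Fintype ι] [DecidableEq ι] (S : Finset ι) {t : ℝ} (ht0 : 0 ≤ t)
    (ht : t < 1 / 2) (c : ℝ) :
    (gpi ι).real {w | c ≤ ∑ k ∈ S, w k ^ 2} ≤ exp (-(t * c)) * ((√(1 - 2 * t))⁻¹) ^ S.card := by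
  set f : ι → ℝ → ℝ := fun k x => if k ∈ S then exp (t * x ^ 2) else 1 with hf
  have hprod : ∀ w : ι → ℝ, ∏ k, f k (w k) = exp (t * ∑ k ∈ S, w k ^ 2) := by
    intro w
    rw [Finset.mul_sum, exp_sum]
    simp only [hf]
    rw [Finset.prod_ite_mem]
    simp
  have hint : ∫ w, exp (t * ∑ k ∈ S, w k ^ 2) ∂(gpi ι) = ((√(1 - 2 * t))⁻¹) ^ S.card := by
    simp_rw [← hprod]
    rw [integral_fintype_prod_eq_prod (μ := fun _ => gaussianReal 0 1) (f := f)]
    have : ∀ k, ∫ x, f k x ∂(gaussianReal 0 1) = if k ∈ S then (√(1 - 2 * t))⁻¹ else 1 := by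
      intro k
      simp only [hf]
      split_ifs
      · exact integral_exp_sq_gaussian ht
      · simp
    simp_rw [this]
    rw [Finset.prod_ite_mem]
    simp
  have hintg : Integrable (fun w : ι → ℝ => exp (t * ∑ k ∈ S, w k ^ 2)) (gpi ι) := by
    simp_rw [← hprod]
    refine Integrable.fintype_prod (μ := fun _ => gaussianReal 0 1) (f := f) fun k => ?_
    simp only [hf]
    split_ifs
    · exact integrable_exp_sq_gaussian ht
    · exact integrable_const _
  have hm := mul_meas_ge_le_integral_of_nonneg (μ := gpi ι)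
    (f := fun w : ι → ℝ => exp (t * ∑ k ∈ S, w k ^ 2))
    (Eventually.of_forall fun w => (exp_pos _).le) hintg (exp (t * c))
  have hsub : {w : ι → ℝ | c ≤ ∑ k ∈ S, w k ^ 2} ⊆
      {w | exp (t * c) ≤ exp (t * ∑ k ∈ S, w k ^ 2)} := by
    intro w hw
    exact exp_le_exp.2 (mul_le_mul_of_nonneg_left hw ht0)
  have h2 : (gpi ι).real {w | c ≤ ∑ k ∈ S, w k ^ 2} ≤
      (gpi ι).real {w | exp (t * c) ≤ exp (t * ∑ k ∈ S, w k ^ 2)} :=
    measureReal_mono hsub (measure_ne_top _ _)
  rw [hint] at hm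
  rw [exp_neg, inv_mul_eq_div, le_div_iff₀ (exp_pos _)]
  calc (gpi ι).real {w | c ≤ ∑ k ∈ S, w k ^ 2} * exp (t * c)
      ≤ (gpi ι).real {w | exp (t * c) ≤ exp (t * ∑ k ∈ S, w k ^ 2)} * exp (t * c) :=
        mul_le_mul_of_nonneg_right h2 (exp_pos _).le
    _ ≤ _ := by rw [mul_comm]; exact hm

lemma inv_sqrt_le {t : ℝ} (ht0 : 0 ≤ t) (ht : t ≤ 1 / 4) :
    (√(1 - 2 * t))⁻¹ ≤ exp (t + 2 * t ^ 2) := by
  have h1 : exp (-(t + 2 * t ^ 2)) ≤ √(1 - 2 * t) := by
    apply le_sqrt_of_sq_le
    rw [← exp_nat_mul]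
    -- exp (-(2t+4t^2)) ≤ 1 - 2t
    have hx : 0 < 1 - 2 * t := by linarith
    have : 1 ≤ exp (2 * t + 4 * t ^ 2) * (1 - 2 * t) := by
      have h := quadratic_le_exp_of_nonneg (x := 2 * t + 4 * t ^ 2) (by (clear * - ht0; positivity))
      have h' : 1 ≤ (1 + (2 * t + 4 * t ^ 2) + (2 * t + 4 * t ^ 2) ^ 2 / 2) * (1 - 2 * t) := by
        linarith only [mul_nonneg (mul_nonneg (mul_nonneg ht0 ht0) ht0) ht0, mul_nonneg (mul_nonneg ht0 ht0) (sub_nonneg.2 ht), mul_nonneg (mul_nonneg (mul_nonneg ht0 ht0) ht0) (sub_nonneg.2 ht), mul_nonneg (mul_nonneg (mul_nonneg (mul_nonneg ht0 ht0) ht0) ht0) (sub_nonneg.2 ht)]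
      (by_contra nlg; linarith only [nlg, mul_nonneg (le_of_lt (sub_pos.2 hx)) (sub_nonneg.2 h'), mul_nonneg (le_of_lt (sub_pos.2 hx)) (sub_nonneg.2 h), mul_nonneg (sub_nonneg.2 ht0) (sub_nonneg.2 h'), mul_pos (sub_pos.2 (not_le.1 nlg)) (sub_pos.2 hx), mul_nonneg (le_of_lt (sub_pos.2 (not_le.1 nlg))) (sub_nonneg.2 ht0)])
    have e : exp (((2 : ℕ) : ℝ) * -(t + 2 * t ^ 2)) = (exp (2 * t + 4 * t ^ 2))⁻¹ := by
      rw [← exp_neg]; congr 1; push_cast; ring
    rw [e, inv_le_iff_one_le_mul₀ (exp_pos _)]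
    linarith only [this]
  rw [inv_le_comm₀ (lt_of_lt_of_le (exp_pos _) h1) (exp_pos _), ← exp_neg]
  exact h1

/-- upper tail of chi-square: explicit exponential bound -/
lemma chi_sq_tail {ι : Type*} [Fintype ι] [DecidableEq ι] (S : Finset ι) {n : ℕ}
    (hS : S.card ≤ n) {ε : ℝ} (h0 : 0 < ε) (h1 : ε ≤ 1) :
    (gpi ι).real {w | (1 + ε) * n ≤ ∑ k ∈ S, w k ^ 2} ≤ exp (-(ε ^ 2 / 8 * n)) := by
  refine (chernoff_sq S (t := ε / 4) (by positivity) (by linarith only [h1]) _).trans ?_
  have h2 : (√(1 - 2 * (ε / 4)))⁻¹ ≤ exp (ε / 4 + 2 * (ε / 4) ^ 2) :=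
    inv_sqrt_le (by positivity) (by linarith only [h1])
  have h3 : 1 ≤ exp (ε / 4 + 2 * (ε / 4) ^ 2) := one_le_exp (by positivity)
  calc exp (-(ε / 4 * ((1 + ε) * n))) * ((√(1 - 2 * (ε / 4)))⁻¹) ^ S.card
      ≤ exp (-(ε / 4 * ((1 + ε) * n))) * (exp (ε / 4 + 2 * (ε / 4) ^ 2)) ^ n := by
        refine mul_le_mul_of_nonneg_left ?_ (exp_pos _).le
        exact (pow_le_pow_left₀ (by positivity) h2 _).trans (pow_le_pow_right₀ h3 hS)
    _ = exp (-(ε ^ 2 / 8 * n)) := by
        rw [← exp_nat_mul, ← exp_add]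
        congr 1
        ring

end Vale.Agent.P150
end

section

open MeasureTheory ProbabilityTheory Real Set Filter Topology

namespace Vale.Agent.P150

lemma sum_pairs {n : ℕ} (F : Fin n → Fin n → ℝ) :
    ∑ i, ∑ j, F i j = ∑ p : Pairs n, (F p.1.1 p.1.2 + F p.1.2 p.1.1) + ∑ i, F i i := by
  have h1 : ∀ i j : Fin n, F i j = (if i < j then F i j else 0) + (if j < i then F i j else 0)
      + (if i = j then F i j else 0) := by
    intro i j
    rcases lt_trichotomy i j with h | h | h
    · simp [h, h.ne, h.asymm]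
    · subst h; simp
    · simp [h, h.ne', h.asymm]
  have h2 : ∑ i, ∑ j, F i j = ∑ i, ∑ j, (if i < j then F i j else 0)
      + ∑ i, ∑ j, (if j < i then F i j else 0) + ∑ i, ∑ j, (if i = j then F i j else 0) := by
    rw [← Finset.sum_add_distrib, ← Finset.sum_add_distrib]
    refine Finset.sum_congr rfl fun i _ => ?_
    rw [← Finset.sum_add_distrib, ← Finset.sum_add_distrib]
    exact Finset.sum_congr rfl fun j _ => h1 i j
  have h3 : ∀ G : Fin n → Fin n → ℝ, ∑ i, ∑ j, (if i < j then G i j else 0)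
      = ∑ p : Pairs n, G p.1.1 p.1.2 := by
    intro G
    rw [← Finset.sum_product' (s := Finset.univ) (t := Finset.univ)
      (f := fun i j => if i < j then G i j else 0), ← Finset.sum_filter]
    rw [← Finset.sum_subtype (s := Finset.univ.filter fun p : Fin n × Fin n => p.1 < p.2)
      (p := fun p : Fin n × Fin n => p.1 < p.2) (f := fun p => G p.1 p.2) (by simp)]
    rfl
  have h4 : ∑ i, ∑ j, (if j < i then F i j else 0) = ∑ p : Pairs n, F p.1.2 p.1.1 := by
    rw [Finset.sum_comm]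
    exact h3 fun i j => F j i
  rw [h2, h3, h4, ← Finset.sum_add_distrib]
  simp

lemma gsym_pair {n : ℕ} (g : Pairs n → ℝ) (p : Pairs n) : gsym g p.1.1 p.1.2 = g p := by
  unfold gsym; rw [dif_pos p.2]

lemma gsym_pair' {n : ℕ} (g : Pairs n → ℝ) (p : Pairs n) : gsym g p.1.2 p.1.1 = g p := by
  unfold gsym; rw [dif_neg p.2.asymm, dif_pos p.2]

lemma gsym_self {n : ℕ} (g : Pairs n → ℝ) (i : Fin n) : gsym g i i = 0 := by
  unfold gsym; simp

lemma gsym_comm {n : ℕ} (g : Pairs n → ℝ) (i j : Fin n) : gsym g i j = gsym g j i := by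
  unfold gsym
  rcases lt_trichotomy i j with h | h | h
  · simp [h, h.asymm]
  · subst h; simp
  · simp [h, h.asymm]

lemma continuous_gsym {n : ℕ} (i j : Fin n) : Continuous fun g : Pairs n → ℝ => gsym g i j := by
  unfold gsym
  split_ifs <;> fun_prop

lemma quad_eq {n : ℕ} (g : Pairs n → ℝ) (v : Fin n → ℝ) :
    ∑ i, ∑ j, gsym g i j * v i * v j = ∑ p : Pairs n, 2 * (v p.1.1 * v p.1.2) * g p := by
  rw [sum_pairs]
  simp only [gsym_self, zero_mul, Finset.sum_const_zero, add_zero]
  refine Finset.sum_congr rfl fun p _ => ?_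
  rw [gsym_pair, gsym_pair']; ring

/-- index set for the Gaussian comparison -/
abbrev GI (n : ℕ) := Pairs n ⊕ (Fin n ⊕ (Unit ⊕ Fin n))

noncomputable def av {n : ℕ} (σ : ℝ) (v : Fin n → ℝ) : GI n → ℝ
  | Sum.inl p => σ * (2 * (v p.1.1 * v p.1.2))
  | Sum.inr (Sum.inl i) => √2 * v i ^ 2
  | Sum.inr (Sum.inr (Sum.inl _)) => √2
  | Sum.inr (Sum.inr (Sum.inr _)) => 0

noncomputable def bv {n : ℕ} (v : Fin n → ℝ) : GI n → ℝ
  | Sum.inl _ => 0
  | Sum.inr (Sum.inl _) => 0
  | Sum.inr (Sum.inr (Sum.inl _)) => 0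
  | Sum.inr (Sum.inr (Sum.inr i)) => 2 * v i

lemma av_dot_bv {n : ℕ} (σ : ℝ) (v u : Fin n → ℝ) : ∑ k, av σ v k * bv u k = 0 := by
  simp [Fintype.sum_sum_type, av, bv]

lemma av_dot_av {n : ℕ} {σ : ℝ} (hσ : σ ^ 2 = 1) (v u : Fin n → ℝ) :
    ∑ k, av σ v k * av σ u k = 2 * (∑ i, v i * u i) ^ 2 + 2 := by
  have h := sum_pairs (fun i j => (v i * u i) * (v j * u j))
  have h' : ∑ i, ∑ j, (v i * u i) * (v j * u j) = (∑ i, v i * u i) ^ 2 := by
    rw [sq, Finset.sum_mul_sum]
  rw [h'] at h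
  simp only [Fintype.sum_sum_type, av, mul_zero, Finset.sum_const_zero, add_zero,
    Finset.univ_unique, Finset.sum_singleton]
  have e2 : √2 * √2 = (2 : ℝ) := mul_self_sqrt (by norm_num)
  rw [e2, h]
  have h5 : ∑ p : Pairs n, σ * (2 * (v p.1.1 * v p.1.2)) * (σ * (2 * (u p.1.1 * u p.1.2)))
      = 2 * ∑ p : Pairs n, (v p.1.1 * u p.1.1 * (v p.1.2 * u p.1.2)
        + v p.1.2 * u p.1.2 * (v p.1.1 * u p.1.1)) := by
    rw [Finset.mul_sum]
    refine Finset.sum_congr rfl fun p _ => ?_
    linear_combination 4 * (v p.1.1 * v p.1.2 * u p.1.1 * u p.1.2) * hσ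
  have h6 : ∑ i, √2 * v i ^ 2 * (√2 * u i ^ 2) = 2 * ∑ i, v i * u i * (v i * u i) := by
    rw [Finset.mul_sum]
    refine Finset.sum_congr rfl fun i _ => ?_
    linear_combination (v i ^ 2 * u i ^ 2) * e2
  rw [h5, h6]
  ring

lemma bv_dot_bv {n : ℕ} (v u : Fin n → ℝ) :
    ∑ k, bv v k * bv u k = 4 * ∑ i, v i * u i := by
  simp only [Fintype.sum_sum_type, bv, mul_zero, Finset.sum_const_zero, zero_add]
  rw [Finset.mul_sum]
  refine Finset.sum_congr rfl fun i _ => ?_
  ring

lemma lin_av {n : ℕ} (σ : ℝ) (v : Fin n → ℝ) (w : GI n → ℝ) :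
    lin (av σ v) w = σ * ∑ p : Pairs n, 2 * (v p.1.1 * v p.1.2) * w (Sum.inl p)
      + √2 * ∑ i, v i ^ 2 * w (Sum.inr (Sum.inl i))
      + √2 * w (Sum.inr (Sum.inr (Sum.inl ()))) := by
  simp only [lin, Fintype.sum_sum_type, av, zero_mul, Finset.sum_const_zero, add_zero,
    Finset.univ_unique, Finset.sum_singleton, Finset.mul_sum]
  rw [add_assoc]
  congr 1
  · refine Finset.sum_congr rfl fun p _ => ?_
    ring
  · congr 1
    refine Finset.sum_congr rfl fun p _ => ?_
    ring

lemma lin_bv {n : ℕ} (v : Fin n → ℝ) (w : GI n → ℝ) :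
    lin (bv v) w = 2 * ∑ i, v i * w (Sum.inr (Sum.inr (Sum.inr i))) := by
  simp only [lin, Fintype.sum_sum_type, bv, zero_mul, Finset.sum_const_zero, zero_add,
    Finset.mul_sum]
  refine Finset.sum_congr rfl fun p _ => ?_
  ring

end Vale.Agent.P150
end

section

/-! The interface between the probabilistic and the deterministic part: the filter `whpF` of
sets of disorders having probability tending to one, and the structure `Good`. -/

open MeasureTheory ProbabilityTheory Filter Topology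
open scoped Matrix

namespace Vale.Agent.P150.F

/-- The index type: a size and a disorder. -/
abbrev Idx0 := Σ n : ℕ, (Pairs n → ℝ)

/-- `S ∈ whpF` iff the probability of the complement of `S` tends to zero. -/
def whpF : Filter Idx0 where
  sets := {S | Tendsto (fun n => disorder n {g | (⟨n, g⟩ : Idx0) ∉ S}) atTop (𝓝 0)}
  univ_sets := by simp
  sets_of_superset := by
    intro S T hS hST
    refine tendsto_of_tendsto_of_tendsto_of_le_of_le tendsto_const_nhds hS
      (fun n => bot_le) (fun n => measure_mono ?_)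
    intro g hg hgS
    exact hg (hST hgS)
  inter_sets := by
    intro S T hS hT
    have h : Tendsto (fun n => disorder n {g | (⟨n, g⟩ : Idx0) ∉ S}
        + disorder n {g | (⟨n, g⟩ : Idx0) ∉ T}) atTop (𝓝 0) := by
      simpa using hS.add hT
    refine tendsto_of_tendsto_of_tendsto_of_le_of_le tendsto_const_nhds h
      (fun n => bot_le) (fun n => ?_)
    refine (measure_mono ?_).trans (measure_union_le _ _)
    intro g hg
    by_contra hcon
    simp only [Set.mem_union, Set.mem_ofPred_eq, not_or, not_not] at hcon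
    exact hg ⟨hcon.1, hcon.2⟩

lemma eventually_whpF {P : Idx0 → Prop} :
    (∀ᶠ i in whpF, P i) ↔ Tendsto (fun n => disorder n {g | ¬ P ⟨n, g⟩}) atTop (𝓝 0) := Iff.rfl

/-- from a tail bound to `whpF` -/
lemma eventually_whpF_of_le {P : Idx0 → Prop} (f : ℕ → ℝ) (hf : Tendsto f atTop (𝓝 0))
    (h : ∀ᶠ n : ℕ in atTop, disorder n {g | ¬ P ⟨n, g⟩} ≤ ENNReal.ofReal (f n)) :
    ∀ᶠ i in whpF, P i := by
  rw [eventually_whpF]
  have h1 : Tendsto (fun n => ENNReal.ofReal (f n)) atTop (𝓝 0) := by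
    have := (ENNReal.continuous_ofReal.tendsto 0).comp hf
    simpa [Function.comp_def] using this
  exact tendsto_of_tendsto_of_tendsto_of_le_of_le' tendsto_const_nhds h1
    (Eventually.of_forall fun n => bot_le) h

lemma eventually_whpF_of_real {P : Idx0 → Prop} (f : ℕ → ℝ) (hf : Tendsto f atTop (𝓝 0))
    (h : ∀ᶠ n : ℕ in atTop, (disorder n).real {g | ¬ P ⟨n, g⟩} ≤ f n) :
    ∀ᶠ i in whpF, P i := by
  refine eventually_whpF_of_le f hf ?_
  filter_upwards [h] with n hn
  have : IsProbabilityMeasure (disorder n) := by unfold disorder; infer_instance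
  rw [Measure.real] at hn
  exact (ENNReal.le_ofReal_iff_toReal_le (measure_ne_top _ _)
    (le_trans ENNReal.toReal_nonneg hn)).2 hn

/-- sizes only -/
lemma eventually_whpF_nat {P : ℕ → Prop} (h : ∀ᶠ n in atTop, P n) :
    ∀ᶠ i in whpF, P i.1 := by
  rw [eventually_whpF]
  refine tendsto_const_nhds.congr' ?_
  filter_upwards [h] with n hn
  simp [hn]

lemma tendsto_fst_whpF : Tendsto (fun i : Idx0 => i.1) whpF atTop :=
  fun _ hS => eventually_whpF_nat hS

/-- All properties of the couplings used by the deterministic part, along a filter. -/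
structure Good (β : ℝ) {I : Type*} (F : Filter I) (n : I → ℕ) (J : ∀ i, Mat (n i)) : Prop where
  hn : Tendsto n F atTop
  symm : ∀ i a b, J i a b = J i b a
  diag : ∀ i a, J i a a = 0
  op : ∀ ε > 0, ∀ᶠ i in F, OpLe (J i) (2 + ε)
  sd : ∀ (ℓ : ℕ) (ε : ℝ), 0 < ε → ∀ᶠ i in F, SD (J i) ℓ ε
  od : ∀ (ℓ : ℕ) (ε : ℝ), 0 < ε → ∀ᶠ i in F, OD (J i) ℓ ε
  ss : ∀ q₀ > 0, ∃ c > 0, ∀ᶠ i in F, SS β q₀ c (J i)
  logZ : ∀ ε > 0, ∀ᶠ i in F,
    Real.log (∑ x : Cfg (n i), Real.exp (β / 2 * qf (J i) (sv x)))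
      ≤ n i * (Real.log 2 + β ^ 2 / 4 + ε)
  uc : ∃ c₁ > 0, ∃ L > 0, ∃ ρ₀ > 0, ∀ ρ, 0 < ρ → ρ ≤ ρ₀ → ∃ d : ℕ,
    ∀ᶠ i in F, UC β c₁ L ρ d (J i)
  kb : ∀ (κ₀ c K : ℝ) (d : ℕ), 4 ≤ κ₀ → 0 < c → ∃ C, ∀ᶠ i in F, KB β κ₀ c K d C (J i)

/-- What the PROB modules have to deliver. -/
def ProbStatement : Prop := ∀ β : ℝ, 0 ≤ β → β < 1 →
  Good β whpF (fun i => i.1) (fun i => skM i.2)

/-- D7: the gap theorem in filter form. -/
def GapStatement : Prop := ∀ (β : ℝ), 0 ≤ β → β < 1 →
  ∀ {I : Type} (F : Filter I) (n : I → ℕ) (J : ∀ i, Mat (n i)), Good β F n J →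
    ∃ c > 0, ∀ᶠ i in F, c ≤ gap (fun a b => β * J i a b) 0

end Vale.Agent.P150.F
end

section

open MeasureTheory Real Set
open scoped ENNReal Pointwise

namespace Vale.Agent.P150.F.PL

theorem bm_compact {K K' C : Set ℝ} (hK : IsCompact K) (hK' : IsCompact K')
    (hKn : K.Nonempty) (hKn' : K'.Nonempty) (h : ∀ a ∈ K, ∀ b ∈ K', a + b ∈ C) :
    volume K + volume K' ≤ volume C := by
  set a := sSup K with hadef
  have ha : a ∈ K := hK.sSup_mem hKn
  set b := sInf K' with hbdef
  have hb : b ∈ K' := hK'.sInf_mem hKn'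
  have h1 : volume ((fun x => x + b) '' K) = volume K := by
    rw [Set.image_add_right, measure_preimage_add_right]
  have h2 : volume ((fun x => a + x) '' K') = volume K' := by
    rw [Set.image_add_left, measure_preimage_add]
  have hc2 : IsCompact ((fun x => a + x) '' K') := hK'.image (by fun_prop)
  have hd : AEDisjoint volume ((fun x => x + b) '' K) ((fun x => a + x) '' K') := by
    have hsub : ((fun x => x + b) '' K) ∩ ((fun x => a + x) '' K') ⊆ {a + b} := by
      rintro z ⟨⟨x, hx, rfl⟩, ⟨y, hy, hxy⟩⟩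
      have hxa : x ≤ a := le_csSup hK.bddAbove hx
      have hby : b ≤ y := csInf_le hK'.bddBelow hy
      have hxy' : a + y = x + b := hxy
      have : x = a := by linarith
      simp [this]
    exact measure_mono_null hsub (measure_singleton _)
  calc volume K + volume K' = volume ((fun x => x + b) '' K) + volume ((fun x => a + x) '' K') := by
        rw [h1, h2]
    _ = volume (((fun x => x + b) '' K) ∪ ((fun x => a + x) '' K')) := by
        rw [measure_union₀ hc2.measurableSet.nullMeasurableSet hd]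
    _ ≤ volume C := by
        apply measure_mono
        rintro z (⟨x, hx, rfl⟩ | ⟨x, hx, rfl⟩)
        · exact h x hx b hb
        · exact h a ha x hx

theorem bm1 {A B C : Set ℝ} (hA : MeasurableSet A) (hB : MeasurableSet B)
    (hAn : A.Nonempty) (hBn : B.Nonempty) (h : ∀ a ∈ A, ∀ b ∈ B, a + b ∈ C) :
    volume A + volume B ≤ volume C := by
  obtain ⟨a, ha⟩ := hAn
  obtain ⟨b, hb⟩ := hBn
  rw [hA.measure_eq_iSup_isCompact, hB.measure_eq_iSup_isCompact]
  simp only [iSup_and']
  refine ENNReal.biSup_add_biSup_le' (p := fun K => K ⊆ A ∧ IsCompact K)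
    (q := fun K => K ⊆ B ∧ IsCompact K) ⟨∅, by simp⟩ ⟨∅, by simp⟩ ?_
  rintro K ⟨hKA, hK⟩ K' ⟨hKB, hK'⟩
  calc volume K + volume K' ≤ volume (insert a K) + volume (insert b K') := by
        gcongr <;> exact Set.subset_insert _ _
    _ ≤ volume C := by
        apply bm_compact (hK.insert a) (hK'.insert b) (Set.insert_nonempty _ _)
          (Set.insert_nonempty _ _)
        intro x hx y hy
        exact h x (Set.insert_subset ha hKA hx) y (Set.insert_subset hb hKB hy)

theorem amgm_ennreal {s : ℝ} (hs0 : 0 < s) (hs1 : s < 1) (x y : ℝ≥0∞) :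
    x ^ (1 - s) * y ^ s ≤ ENNReal.ofReal (1 - s) * x + ENNReal.ofReal s * y := by
  have h1s : 0 < 1 - s := by linarith
  by_cases hx : x = ∞
  · subst hx
    rw [ENNReal.mul_top (by simpa using h1s)]
    simp
  by_cases hy : y = ∞
  · subst hy
    rw [ENNReal.mul_top (by simpa using hs0)]
    simp
  lift x to NNReal using hx
  lift y to NNReal using hy
  have := Real.geom_mean_le_arith_mean2_weighted h1s.le hs0.le x.coe_nonneg y.coe_nonneg (by ring)
  have h2 := ENNReal.ofReal_le_ofReal this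
  rw [ENNReal.ofReal_add (by positivity) (by positivity), ENNReal.ofReal_mul (by positivity),
    ENNReal.ofReal_mul h1s.le, ENNReal.ofReal_mul hs0.le, ← ENNReal.ofReal_rpow_of_nonneg x.coe_nonneg h1s.le,
    ← ENNReal.ofReal_rpow_of_nonneg y.coe_nonneg hs0.le] at h2
  simpa using h2

theorem pl1_normalized {s : ℝ} (hs0 : 0 < s) (hs1 : s < 1) {f g : ℝ → ℝ} {w : ℝ → ℝ≥0∞}
    (hf : Measurable f) (hg : Measurable g) (hw : Measurable w)
    (hf0 : ∀ x, 0 ≤ f x) (hg0 : ∀ x, 0 ≤ g x) (hf1 : ∀ x, f x ≤ 1) (hg1 : ∀ x, g x ≤ 1)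
    (hfs : ∀ t < 1, ∃ x, t < f x) (hgs : ∀ t < 1, ∃ x, t < g x)
    (h : ∀ x y, ENNReal.ofReal (f x ^ (1 - s) * g y ^ s) ≤ w ((1 - s) * x + s * y)) :
    ENNReal.ofReal (1 - s) * (∫⁻ x, ENNReal.ofReal (f x))
      + ENNReal.ofReal s * (∫⁻ x, ENNReal.ofReal (g x)) ≤ ∫⁻ x, w x := by
  have h1s : 0 < 1 - s := by linarith
  set k : ℝ → ℝ := fun x => (min (w x) 1).toReal with hk
  have hkm : Measurable k := (hw.min measurable_const).ennreal_toReal
  have hk0 : ∀ x, 0 ≤ k x := fun x => ENNReal.toReal_nonneg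
  have hkw : ∫⁻ x, ENNReal.ofReal (k x) ≤ ∫⁻ x, w x := by
    apply lintegral_mono
    intro x
    have : min (w x) 1 ≠ ∞ := (lt_of_le_of_lt (min_le_right _ _) ENNReal.one_lt_top).ne
    simp only [hk]
    rw [ENNReal.ofReal_toReal this]
    exact min_le_left _ _
  refine le_trans ?_ hkw
  rw [lintegral_eq_lintegral_meas_lt volume (Filter.Eventually.of_forall hf0) hf.aemeasurable,
    lintegral_eq_lintegral_meas_lt volume (Filter.Eventually.of_forall hg0) hg.aemeasurable,
    lintegral_eq_lintegral_meas_lt volume (Filter.Eventually.of_forall hk0) hkm.aemeasurable]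
  have mf : Measurable fun t => volume {a | t < f a} := by
    apply Antitone.measurable
    intro t t' htt'
    exact measure_mono fun a ha => lt_of_le_of_lt htt' ha
  have mg : Measurable fun t => volume {a | t < g a} := by
    apply Antitone.measurable
    intro t t' htt'
    exact measure_mono fun a ha => lt_of_le_of_lt htt' ha
  rw [← lintegral_const_mul _ mf, ← lintegral_const_mul _ mg, ← lintegral_add_left (by fun_prop)]
  apply setLIntegral_mono' measurableSet_Ioi
  intro t ht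
  have ht0 : 0 < t := ht
  by_cases ht1 : t < 1
  swap
  · have e1 : {a | t < f a} = ∅ := by
      ext a; simp; linarith only [hf1 a, ht1]
    have e2 : {a | t < g a} = ∅ := by
      ext a; simp; linarith [hg1 a]
    simp [e1, e2]
  have hA : MeasurableSet ((1 - s) • {a | t < f a}) :=
    (measurableSet_lt measurable_const hf).const_smul₀ _
  have hB : MeasurableSet (s • {a | t < g a}) :=
    (measurableSet_lt measurable_const hg).const_smul₀ _
  have vA : volume ((1 - s) • {a | t < f a}) = ENNReal.ofReal (1 - s) * volume {a | t < f a} := by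
    rw [Measure.addHaar_smul]; simp [abs_of_pos h1s]
  have vB : volume (s • {a | t < g a}) = ENNReal.ofReal s * volume {a | t < g a} := by
    rw [Measure.addHaar_smul]; simp [abs_of_pos hs0]
  rw [← vA, ← vB]
  apply bm1 hA hB
  · obtain ⟨x, hx⟩ := hfs t ht1
    exact ⟨(1 - s) • x, Set.smul_mem_smul_set hx⟩
  · obtain ⟨x, hx⟩ := hgs t ht1
    exact ⟨s • x, Set.smul_mem_smul_set hx⟩
  · rintro _ ⟨x, hx, rfl⟩ _ ⟨y, hy, rfl⟩
    have hx' : t < f x := hx
    have hy' : t < g y := hy
    have h3 : t < f x ^ (1 - s) * g y ^ s := by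
      calc t = t ^ (1 - s) * t ^ s := by
            rw [← rpow_add ht0]; simp
        _ < f x ^ (1 - s) * g y ^ s := by
            apply mul_lt_mul'' (rpow_lt_rpow ht0.le hx' h1s) (rpow_lt_rpow ht0.le hy' hs0)
              (by (clear * - ht0; positivity)) (by (clear * - ht0; positivity))
    have h4 : ENNReal.ofReal t < w ((1 - s) * x + s * y) :=
      lt_of_lt_of_le ((ENNReal.ofReal_lt_ofReal_iff_of_nonneg ht0.le).mpr h3) (h x y)
    have h5 : ENNReal.ofReal t < 1 := by
      rw [← ENNReal.ofReal_one]; exact (ENNReal.ofReal_lt_ofReal_iff_of_nonneg ht0.le).mpr ht1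
    have h6 : ENNReal.ofReal t < min (w ((1 - s) * x + s * y)) 1 := lt_min h4 h5
    have : min (w ((1 - s) * x + s * y)) 1 ≠ ∞ :=
      (lt_of_le_of_lt (min_le_right _ _) ENNReal.one_lt_top).ne
    show t < k ((1 - s) • x + s • y)
    simp only [hk, smul_eq_mul]
    exact (ENNReal.ofReal_lt_iff_lt_toReal ht0.le this).mp h6

theorem pl1_bdd {s : ℝ} (hs0 : 0 < s) (hs1 : s < 1) {u v w : ℝ → ℝ≥0∞}
    (hu : Measurable u) (hv : Measurable v) (hw : Measurable w)
    (hub : ⨆ x, u x ≠ ∞) (hvb : ⨆ x, v x ≠ ∞)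
    (h : ∀ x y, u x ^ (1 - s) * v y ^ s ≤ w ((1 - s) * x + s * y)) :
    (∫⁻ x, u x) ^ (1 - s) * (∫⁻ x, v x) ^ s ≤ ∫⁻ x, w x := by
  have h1s : 0 < 1 - s := by linarith
  set Mu := ⨆ x, u x with hMu
  set Mv := ⨆ x, v x with hMv
  by_cases hu0 : Mu = 0
  · have : ∀ x, u x = 0 := fun x => le_antisymm (hu0 ▸ le_iSup u x) bot_le
    simp [this, h1s]
  by_cases hv0 : Mv = 0
  · have : ∀ x, v x = 0 := fun x => le_antisymm (hv0 ▸ le_iSup v x) bot_le
    simp [this, hs0]
  set f : ℝ → ℝ := fun x => (u x / Mu).toReal with hf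
  set g : ℝ → ℝ := fun x => (v x / Mv).toReal with hg
  have huM : ∀ x, u x / Mu ≤ 1 := fun x => by
    rw [ENNReal.div_le_iff hu0 hub, one_mul]; exact le_iSup u x
  have hvM : ∀ x, v x / Mv ≤ 1 := fun x => by
    rw [ENNReal.div_le_iff hv0 hvb, one_mul]; exact le_iSup v x
  have huf : ∀ x, u x / Mu ≠ ∞ := fun x => (lt_of_le_of_lt (huM x) ENNReal.one_lt_top).ne
  have hvf : ∀ x, v x / Mv ≠ ∞ := fun x => (lt_of_le_of_lt (hvM x) ENNReal.one_lt_top).ne
  have hfe : ∀ x, u x = Mu * ENNReal.ofReal (f x) := fun x => by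
    simp only [hf]; rw [ENNReal.ofReal_toReal (huf x), ENNReal.mul_div_cancel hu0 hub]
  have hge : ∀ x, v x = Mv * ENNReal.ofReal (g x) := fun x => by
    simp only [hg]; rw [ENNReal.ofReal_toReal (hvf x), ENNReal.mul_div_cancel hv0 hvb]
  set c := Mu ^ (1 - s) * Mv ^ s with hc
  have hc0 : c ≠ 0 := by
    rw [hc]
    apply mul_ne_zero
    · exact (ENNReal.rpow_pos (pos_iff_ne_zero.mpr hu0) hub).ne'
    · exact (ENNReal.rpow_pos (pos_iff_ne_zero.mpr hv0) hvb).ne'
  have hct : c ≠ ∞ := by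
    rw [hc]
    exact ENNReal.mul_ne_top (ENNReal.rpow_ne_top_of_nonneg h1s.le hub)
      (ENNReal.rpow_ne_top_of_nonneg hs0.le hvb)
  have hf0 : ∀ x, 0 ≤ f x := fun x => ENNReal.toReal_nonneg
  have hg0 : ∀ x, 0 ≤ g x := fun x => ENNReal.toReal_nonneg
  have key := pl1_normalized (f := f) (g := g) (w := fun x => c⁻¹ * w x) hs0 hs1
    (hu.div_const _).ennreal_toReal (hv.div_const _).ennreal_toReal (hw.const_mul _)
    hf0 hg0
    (fun x => (ENNReal.toReal_mono ENNReal.one_ne_top (huM x)).trans_eq ENNReal.toReal_one)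
    (fun x => (ENNReal.toReal_mono ENNReal.one_ne_top (hvM x)).trans_eq ENNReal.toReal_one)
    (by
      intro t ht
      by_cases ht0 : t < 0
      · exact ⟨0, lt_of_lt_of_le ht0 (hf0 0)⟩
      push Not at ht0
      have : Mu * ENNReal.ofReal t < ⨆ x, u x := by
        rw [← hMu]
        calc Mu * ENNReal.ofReal t < Mu * 1 := by
              apply ENNReal.mul_lt_mul_right hu0 hub
              rw [← ENNReal.ofReal_one]; exact (ENNReal.ofReal_lt_ofReal_iff_of_nonneg ht0).mpr ht
          _ = Mu := mul_one _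
      obtain ⟨x, hx⟩ := lt_iSup_iff.mp this
      refine ⟨x, ?_⟩
      rw [hfe x] at hx
      have h3 := lt_of_mul_lt_mul_left' hx
      exact (ENNReal.ofReal_lt_ofReal_iff_of_nonneg ht0).mp h3)
    (by
      intro t ht
      by_cases ht0 : t < 0
      · exact ⟨0, lt_of_lt_of_le ht0 (hg0 0)⟩
      push Not at ht0
      have : Mv * ENNReal.ofReal t < ⨆ x, v x := by
        rw [← hMv]
        calc Mv * ENNReal.ofReal t < Mv * 1 := by
              apply ENNReal.mul_lt_mul_right hv0 hvb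
              rw [← ENNReal.ofReal_one]; exact (ENNReal.ofReal_lt_ofReal_iff_of_nonneg ht0).mpr ht
          _ = Mv := mul_one _
      obtain ⟨x, hx⟩ := lt_iSup_iff.mp this
      refine ⟨x, ?_⟩
      rw [hge x] at hx
      have h3 := lt_of_mul_lt_mul_left' hx
      exact (ENNReal.ofReal_lt_ofReal_iff_of_nonneg ht0).mp h3)
    (by
      intro x y
      have h1 := h x y
      rw [hfe x, hge y, ENNReal.mul_rpow_of_nonneg _ _ h1s.le, ENNReal.mul_rpow_of_nonneg _ _ hs0.le,
        mul_mul_mul_comm, ← hc, ENNReal.ofReal_rpow_of_nonneg (hf0 x) h1s.le,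
        ENNReal.ofReal_rpow_of_nonneg (hg0 y) hs0.le, ← ENNReal.ofReal_mul (by (clear * -; positivity))] at h1
      calc ENNReal.ofReal (f x ^ (1 - s) * g y ^ s)
          = c⁻¹ * (c * ENNReal.ofReal (f x ^ (1 - s) * g y ^ s)) := by
            rw [← mul_assoc, ENNReal.inv_mul_cancel hc0 hct, one_mul]
        _ ≤ c⁻¹ * w ((1 - s) * x + s * y) := by gcongr)
  have key2 := (amgm_ennreal hs0 hs1 _ _).trans key
  have eu : ∫⁻ x, u x = Mu * ∫⁻ x, ENNReal.ofReal (f x) := by
    rw [← lintegral_const_mul' _ _ hub]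
    exact lintegral_congr hfe
  have ev : ∫⁻ x, v x = Mv * ∫⁻ x, ENNReal.ofReal (g x) := by
    rw [← lintegral_const_mul' _ _ hvb]
    exact lintegral_congr hge
  rw [eu, ev, ENNReal.mul_rpow_of_nonneg _ _ h1s.le, ENNReal.mul_rpow_of_nonneg _ _ hs0.le,
    mul_mul_mul_comm, ← hc]
  calc c * _ ≤ c * ∫⁻ x, c⁻¹ * w x := by gcongr
    _ = ∫⁻ x, w x := by
      rw [lintegral_const_mul _ hw, ← mul_assoc, ENNReal.mul_inv_cancel hc0 hct, one_mul]

theorem pl1 {s : ℝ} (hs0 : 0 < s) (hs1 : s < 1) {u v w : ℝ → ℝ≥0∞}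
    (hu : Measurable u) (hv : Measurable v) (hw : Measurable w)
    (h : ∀ x y, u x ^ (1 - s) * v y ^ s ≤ w ((1 - s) * x + s * y)) :
    (∫⁻ x, u x) ^ (1 - s) * (∫⁻ x, v x) ^ s ≤ ∫⁻ x, w x := by
  have h1s : 0 < 1 - s := by linarith
  have trunc : ∀ {q : ℝ → ℝ≥0∞}, Measurable q →
      ∫⁻ x, q x = ⨆ k : ℕ, ∫⁻ x, min (q x) k := by
    intro q hq
    rw [← lintegral_iSup (fun k => hq.min measurable_const)]
    · apply lintegral_congr
      intro x
      apply le_antisymm
      · by_cases hx : q x = ∞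
        · rw [hx]
          simp only [le_top, inf_of_le_right]
          exact ENNReal.iSup_natCast.ge
        · obtain ⟨k, hk⟩ := ENNReal.exists_nat_gt hx
          calc q x = min (q x) k := (min_eq_left hk.le).symm
            _ ≤ _ := le_iSup (fun k : ℕ => min (q x) (k : ℝ≥0∞)) k
      · exact iSup_le fun k => min_le_left _ _
    · intro i j hij x
      exact min_le_min_left _ (by exact_mod_cast hij)
  have hk : ∀ i j : ℕ, (∫⁻ x, min (u x) i) ^ (1 - s) * (∫⁻ x, min (v x) j) ^ s ≤ ∫⁻ x, w x := by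
    intro i j
    apply pl1_bdd hs0 hs1 (hu.min measurable_const) (hv.min measurable_const) hw
    · exact (lt_of_le_of_lt (iSup_le fun x => min_le_right _ _) (ENNReal.natCast_lt_top i)).ne
    · exact (lt_of_le_of_lt (iSup_le fun x => min_le_right _ _) (ENNReal.natCast_lt_top j)).ne
    · intro x y
      refine le_trans ?_ (h x y)
      gcongr
      · exact min_le_left _ _
      · exact min_le_left _ _
  have e1 : (∫⁻ x, u x) ^ (1 - s) = ⨆ i : ℕ, (∫⁻ x, min (u x) i) ^ (1 - s) := by
    rw [trunc hu]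
    exact (ENNReal.orderIsoRpow (1 - s) h1s).map_iSup _
  have e2 : (∫⁻ x, v x) ^ s = ⨆ i : ℕ, (∫⁻ x, min (v x) i) ^ s := by
    rw [trunc hv]
    exact (ENNReal.orderIsoRpow s hs0).map_iSup _
  rw [e1, e2, ENNReal.iSup_mul]
  apply iSup_le
  intro i
  rw [ENNReal.mul_iSup]
  exact iSup_le fun j => hk i j

theorem measurable_insertNth {n : ℕ} (i : Fin (n + 1)) :
    Measurable fun p : ℝ × (Fin n → ℝ) => (i.insertNth p.1 p.2 : Fin (n + 1) → ℝ) :=
  (MeasurableEquiv.piFinSuccAbove (fun _ : Fin (n + 1) => ℝ) i).symm.measurable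

theorem lintegral_insertNth {n : ℕ} (i : Fin (n + 1)) {F : (Fin (n + 1) → ℝ) → ℝ≥0∞}
    (hF : Measurable F) :
    ∫⁻ x, F x = ∫⁻ a : ℝ, ∫⁻ x : Fin n → ℝ, F (i.insertNth a x) := by
  have hmp := (volume_preserving_piFinSuccAbove (fun _ : Fin (n + 1) => ℝ) i).symm
  rw [← hmp.lintegral_comp hF, Measure.volume_eq_prod, lintegral_prod]
  · rfl
  · exact (hF.comp (MeasurableEquiv.measurable _)).aemeasurable

theorem prekopa_leindler {n : ℕ} {s : ℝ} (hs0 : 0 < s) (hs1 : s < 1)
    {u v w : (Fin n → ℝ) → ℝ≥0∞} (hu : Measurable u) (hv : Measurable v) (hw : Measurable w)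
    (h : ∀ x y, u x ^ (1 - s) * v y ^ s ≤ w ((1 - s) • x + s • y)) :
    (∫⁻ x, u x) ^ (1 - s) * (∫⁻ x, v x) ^ s ≤ ∫⁻ x, w x := by
  induction n with
  | zero =>
    have e : ∀ F : (Fin 0 → ℝ) → ℝ≥0∞, ∫⁻ x, F x = F 0 := by
      intro F
      rw [volume_pi, Measure.pi_of_empty (fun _ : Fin 0 => volume) 0, lintegral_dirac]
    rw [e, e, e]
    have := h 0 0
    simpa using this
  | succ n ih =>
    have mU : ∀ {q : (Fin (n + 1) → ℝ) → ℝ≥0∞}, Measurable q →
        Measurable fun a : ℝ => ∫⁻ x : Fin n → ℝ, q ((0 : Fin (n + 1)).insertNth a x) := by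
      intro q hq
      exact (hq.comp (measurable_insertNth 0)).lintegral_prod_right'
    rw [lintegral_insertNth 0 hu, lintegral_insertNth 0 hv, lintegral_insertNth 0 hw]
    apply pl1 hs0 hs1 (mU hu) (mU hv) (mU hw)
    intro a b
    have mc' : ∀ a : ℝ, Measurable fun x : Fin n → ℝ =>
        ((0 : Fin (n + 1)).insertNth a x : Fin (n + 1) → ℝ) :=
      fun a => (measurable_insertNth 0).comp (measurable_const.prodMk measurable_id)
    apply ih (hu.comp (mc' a)) (hv.comp (mc' b)) (hw.comp (mc' _))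
    intro x y
    have := h ((0 : Fin (n + 1)).insertNth a x) ((0 : Fin (n + 1)).insertNth b y)
    have e : (1 - s) • ((0 : Fin (n + 1)).insertNth a x : Fin (n + 1) → ℝ)
        + s • ((0 : Fin (n + 1)).insertNth b y : Fin (n + 1) → ℝ)
        = (0 : Fin (n + 1)).insertNth ((1 - s) * a + s * b) ((1 - s) • x + s • y) := by
      funext i
      refine Fin.cases ?_ (fun j => ?_) i <;> simp
    rw [e] at this
    exact this

end Vale.Agent.P150.F.PL
end

section

/-! Gaussian concentration for Lipschitz functions, from the Prekopa-Leindler inequality. -/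

open MeasureTheory ProbabilityTheory Real Set Filter Topology
open scoped ENNReal

namespace Vale.Agent.P150.F

variable {ι : Type*} [Fintype ι]

/-- Euclidean distance on `ι → ℝ` -/
noncomputable def ed (w w' : ι → ℝ) : ℝ := Real.sqrt (∑ i, (w i - w' i) ^ 2)

/-- `L`-Lipschitz for the Euclidean distance -/
def Lip (L : ℝ) (f : (ι → ℝ) → ℝ) : Prop := ∀ w w', |f w - f w'| ≤ L * ed w w'

theorem ed_nonneg (w w' : ι → ℝ) : 0 ≤ ed w w' := Real.sqrt_nonneg _

theorem ed_sq (w w' : ι → ℝ) : ed w w' ^ 2 = ∑ i, (w i - w' i) ^ 2 :=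
  Real.sq_sqrt (Finset.sum_nonneg fun _ _ => sq_nonneg _)

theorem ed_self (w : ι → ℝ) : ed w w = 0 := by simp [ed]

theorem continuous_ed (w' : ι → ℝ) : Continuous fun w : ι → ℝ => ed w w' := by
  unfold ed; fun_prop

theorem Lip.continuous {L : ℝ} {f : (ι → ℝ) → ℝ} (hf : Lip L f) : Continuous f := by
  rw [continuous_iff_continuousAt]
  intro w'
  have h : Tendsto (fun w => L * ed w w') (𝓝 w') (𝓝 0) := by
    have := ((continuous_ed w').const_mul L).tendsto w'
    simpa [ed_self] using this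
  have h2 : Tendsto (fun w => f w - f w') (𝓝 w') (𝓝 0) :=
    squeeze_zero_norm (fun w => by rw [Real.norm_eq_abs]; exact hf w w') h
  have h3 := h2.add_const (f w')
  simp only [sub_add_cancel, zero_add] at h3
  exact h3

theorem Lip.measurable {L : ℝ} {f : (ι → ℝ) → ℝ} (hf : Lip L f) : Measurable f :=
  hf.continuous.measurable

theorem Lip.neg {L : ℝ} {f : (ι → ℝ) → ℝ} (hf : Lip L f) : Lip L (fun w => -f w) := by
  intro w w'
  have := hf w w'
  rw [abs_sub_comm] at this
  have e : -f w - -f w' = f w' - f w := by ring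
  rw [e]
  exact this

theorem Lip.const_mul {L : ℝ} {f : (ι → ℝ) → ℝ} (hf : Lip L f) (c : ℝ) :
    Lip (|c| * L) (fun w => c * f w) := by
  intro w w'
  rw [← mul_sub, abs_mul, mul_assoc]
  exact mul_le_mul_of_nonneg_left (hf w w') (abs_nonneg c)

theorem Lip.add_const {L : ℝ} {f : (ι → ℝ) → ℝ} (hf : Lip L f) (c : ℝ) :
    Lip L (fun w => f w + c) := by
  intro w w'
  simpa using hf w w'

theorem Lip.mono {L L' : ℝ} {f : (ι → ℝ) → ℝ} (hf : Lip L f) (h : L ≤ L') : Lip L' f :=
  fun w w' => (hf w w').trans (mul_le_mul_of_nonneg_right h (ed_nonneg _ _))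

theorem ed_le_sum (w w' : ι → ℝ) : ed w w' ≤ ∑ i, |w i - w' i| := by
  unfold ed
  rw [Real.sqrt_le_left (Finset.sum_nonneg fun _ _ => abs_nonneg _)]
  calc ∑ i, (w i - w' i) ^ 2 = ∑ i, |w i - w' i| ^ 2 := by simp [sq_abs]
    _ ≤ (∑ i, |w i - w' i|) ^ 2 :=
        Finset.sum_sq_le_sq_sum_of_nonneg fun i _ => abs_nonneg _

/-! ### The density -/

/-- Gaussian density -/
noncomputable def gd (x : ι → ℝ) : ℝ := ∏ i, gaussianPDFReal 0 1 (x i)

theorem gd_eq (x : ι → ℝ) :
    gd x = ((√(2 * π))⁻¹) ^ Fintype.card ι * Real.exp (-(∑ i, x i ^ 2) / 2) := by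
  unfold gd gaussianPDFReal
  rw [Finset.prod_mul_distrib, Finset.prod_const, Finset.card_univ, ← Real.exp_sum]
  congr 2
  · simp
  · rw [← Finset.sum_neg_distrib, Finset.sum_div]
    refine Finset.sum_congr rfl fun i _ => ?_
    simp

theorem gd_nonneg (x : ι → ℝ) : 0 ≤ gd x := by
  rw [gd_eq]; positivity

theorem continuous_gd : Continuous (gd : (ι → ℝ) → ℝ) := by
  have : (gd : (ι → ℝ) → ℝ) = fun x =>
      ((√(2 * π))⁻¹) ^ Fintype.card ι * Real.exp (-(∑ i, x i ^ 2) / 2) := funext gd_eq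
  rw [this]
  fun_prop

theorem gpi_eq : gpi ι = (volume : Measure (ι → ℝ)).withDensity fun x => ENNReal.ofReal (gd x) := by
  refine Measure.pi_eq fun s hs => ?_
  rw [withDensity_apply _ (MeasurableSet.univ_pi hs), volume_pi, Measure.restrict_pi_pi,
    ← ofReal_integral_eq_lintegral_ofReal]
  · unfold gd
    rw [integral_fintype_prod_eq_prod (fun _ : ι => gaussianPDFReal 0 1),
      ENNReal.ofReal_prod_of_nonneg]
    · refine Finset.prod_congr rfl fun i _ => ?_
      rw [gaussianReal_of_var_ne_zero 0 (by norm_num), withDensity_apply _ (hs i),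
        ofReal_integral_eq_lintegral_ofReal]
      · rfl
      · exact (integrable_gaussianPDFReal 0 1).restrict
      · exact ae_of_all _ fun x => gaussianPDFReal_nonneg 0 1 x
    · exact fun i _ => integral_nonneg fun x => gaussianPDFReal_nonneg 0 1 x
  · exact Integrable.fintype_prod fun i => (integrable_gaussianPDFReal 0 1).restrict
  · exact ae_of_all _ fun x => gd_nonneg x

theorem lintegral_gpi {F : (ι → ℝ) → ℝ≥0∞} (hF : Measurable F) :
    ∫⁻ x, F x ∂gpi ι = ∫⁻ x, ENNReal.ofReal (gd x) * F x := by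
  rw [gpi_eq, lintegral_withDensity_eq_lintegral_mul _
    (continuous_gd.measurable.ennreal_ofReal) hF]
  rfl

/-! ### Property (τ) -/

theorem tau_fin {m : ℕ} {f : (Fin m → ℝ) → ℝ} {L : ℝ} (hf : Lip L f) :
    (∫⁻ w, ENNReal.ofReal (Real.exp (f w)) ∂gpi (Fin m)) *
      (∫⁻ w, ENNReal.ofReal (Real.exp (-f w)) ∂gpi (Fin m)) ≤ ENNReal.ofReal (Real.exp (L ^ 2)) := by
  have hfm := hf.measurable
  have hgm : Measurable (gd : (Fin m → ℝ) → ℝ) := continuous_gd.measurable
  set u : (Fin m → ℝ) → ℝ≥0∞ := fun x => ENNReal.ofReal (gd x * Real.exp (f x - L ^ 2)) with hu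
  set v : (Fin m → ℝ) → ℝ≥0∞ := fun x => ENNReal.ofReal (gd x * Real.exp (-f x)) with hv
  set w : (Fin m → ℝ) → ℝ≥0∞ := fun x => ENNReal.ofReal (gd x) with hw
  have key := PL.prekopa_leindler (n := m) (s := 1 / 2) (by norm_num) (by norm_num)
    (u := u) (v := v) (w := w) ((hgm.mul (hfm.sub_const _).exp).ennreal_ofReal)
    ((hgm.mul hfm.neg.exp).ennreal_ofReal) hgm.ennreal_ofReal ?_
  · have h1 : ∫⁻ x, w x = 1 := by
      have := lintegral_gpi (ι := Fin m) (F := fun _ => 1) measurable_const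
      simp only [mul_one, lintegral_const, measure_univ] at this
      exact this.symm
    have h2 : ∫⁻ x, u x = ENNReal.ofReal (Real.exp (-L ^ 2)) *
        ∫⁻ w, ENNReal.ofReal (Real.exp (f w)) ∂gpi (Fin m) := by
      have hm1 : Measurable fun x => ENNReal.ofReal (gd x) * ENNReal.ofReal (Real.exp (f x)) :=
        hgm.ennreal_ofReal.mul hfm.exp.ennreal_ofReal
      rw [lintegral_gpi hfm.exp.ennreal_ofReal, ← lintegral_const_mul _ hm1]
      refine lintegral_congr fun x => ?_
      rw [hu]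
      simp only
      rw [← ENNReal.ofReal_mul (gd_nonneg x), ← ENNReal.ofReal_mul (Real.exp_pos _).le]
      congr 1
      rw [sub_eq_add_neg, Real.exp_add]
      ring
    have h3 : ∫⁻ x, v x = ∫⁻ w, ENNReal.ofReal (Real.exp (-f w)) ∂gpi (Fin m) := by
      have hm1 : Measurable fun x => ENNReal.ofReal (Real.exp (-f x)) :=
        hfm.neg.exp.ennreal_ofReal
      rw [lintegral_gpi hm1]
      refine lintegral_congr fun x => ?_
      rw [hv]
      simp only
      rw [← ENNReal.ofReal_mul (gd_nonneg x)]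
    rw [h1, h2, h3] at key
    have e1 : (1 - 1 / 2 : ℝ) = 1 / 2 := by norm_num
    rw [e1, ← ENNReal.mul_rpow_of_nonneg _ _ (by norm_num)] at key
    have h4 := ENNReal.rpow_le_rpow key (z := 2) (by norm_num)
    rw [← ENNReal.rpow_mul, ENNReal.one_rpow] at h4
    norm_num at h4
    have h5 : ENNReal.ofReal (Real.exp (L ^ 2)) * ENNReal.ofReal (Real.exp (-L ^ 2)) = 1 := by
      rw [← ENNReal.ofReal_mul (Real.exp_pos _).le, ← Real.exp_add]
      simp
    calc _ = ENNReal.ofReal (Real.exp (L ^ 2)) * (ENNReal.ofReal (Real.exp (-L ^ 2)) *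
          (∫⁻ w, ENNReal.ofReal (Real.exp (f w)) ∂gpi (Fin m)) *
          (∫⁻ w, ENNReal.ofReal (Real.exp (-f w)) ∂gpi (Fin m))) := by
          rw [mul_assoc, ← mul_assoc, h5, one_mul]
      _ ≤ ENNReal.ofReal (Real.exp (L ^ 2)) * 1 := mul_le_mul_right h4 _
      _ = _ := mul_one _
  · intro x y
    rw [hu, hv, hw]
    simp only
    have hx : 0 ≤ gd x * Real.exp (f x - L ^ 2) := mul_nonneg (gd_nonneg _) (Real.exp_pos _).le
    have hy : 0 ≤ gd y * Real.exp (-f y) := mul_nonneg (gd_nonneg _) (Real.exp_pos _).le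
    rw [ENNReal.ofReal_rpow_of_nonneg hx (by norm_num), ENNReal.ofReal_rpow_of_nonneg hy (by norm_num),
      ← ENNReal.ofReal_mul (by (clear * - hx; positivity))]
    refine ENNReal.ofReal_le_ofReal ?_
    have e1 : (1 - 1 / 2 : ℝ) = 1 / 2 := by norm_num
    rw [e1, ← Real.mul_rpow hx hy, ← Real.sqrt_eq_rpow, Real.sqrt_le_left (gd_nonneg _)]
    rw [gd_eq, gd_eq, gd_eq]
    set c : ℝ := ((√(2 * π))⁻¹) ^ Fintype.card (Fin m) with hc
    have hc0 : 0 ≤ c := by positivity
    have e2 : c * Real.exp (-(∑ i, x i ^ 2) / 2) * Real.exp (f x - L ^ 2) *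
        (c * Real.exp (-(∑ i, y i ^ 2) / 2) * Real.exp (-f y)) =
        c ^ 2 * Real.exp (-(∑ i, x i ^ 2) / 2 + (f x - L ^ 2) + -(∑ i, y i ^ 2) / 2 + -f y) := by
      rw [Real.exp_add, Real.exp_add, Real.exp_add]
      ring
    rw [e2, mul_pow, ← Real.exp_nat_mul]
    refine mul_le_mul_of_nonneg_left (Real.exp_le_exp.2 ?_) (by positivity)
    have h1 := hf x y
    have h2 := le_abs_self (f x - f y)
    have h3 := ed_sq x y
    have h4 : ∑ i, (((1 / 2 : ℝ) • x + (1 / 2 : ℝ) • y) i) ^ 2 =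
        (∑ i, x i ^ 2) / 2 + (∑ i, y i ^ 2) / 2 - (∑ i, (x i - y i) ^ 2) / 4 := by
      rw [Finset.sum_div, Finset.sum_div, Finset.sum_div, ← Finset.sum_add_distrib,
        ← Finset.sum_sub_distrib]
      refine Finset.sum_congr rfl fun i _ => ?_
      simp only [Pi.add_apply, Pi.smul_apply, smul_eq_mul]
      ring
    rw [h4, ← h3]
    push_cast
    linarith only [h1, h2, sq_nonneg (L - ed x y / 2)]

/-- Property (τ) for Lipschitz functions. -/
theorem tau {f : (ι → ℝ) → ℝ} {L : ℝ} (hf : Lip L f) :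
    (∫⁻ w, ENNReal.ofReal (Real.exp (f w)) ∂gpi ι) *
      (∫⁻ w, ENNReal.ofReal (Real.exp (-f w)) ∂gpi ι) ≤ ENNReal.ofReal (Real.exp (L ^ 2)) := by
  set e : Fin (Fintype.card ι) ≃ ι := (Fintype.equivFin ι).symm with he
  set T := MeasurableEquiv.piCongrLeft (fun _ : ι => ℝ) e with hT
  have hmp : MeasurePreserving T (gpi (Fin (Fintype.card ι))) (gpi ι) :=
    measurePreserving_piCongrLeft (fun _ : ι => gaussianReal 0 1) e
  have hTa : ∀ (x : Fin (Fintype.card ι) → ℝ) (i : Fin (Fintype.card ι)), T x (e i) = x i := by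
    intro x i
    rw [hT, MeasurableEquiv.coe_piCongrLeft, Equiv.piCongrLeft_apply_apply]
  have hf' : Lip L (fun x => f (T x)) := by
    intro x y
    refine (hf (T x) (T y)).trans (le_of_eq ?_)
    congr 1
    unfold ed
    congr 1
    rw [← e.sum_comp]
    simp only [hTa]
  have key := tau_fin hf'
  have m1 : Measurable fun w => ENNReal.ofReal (Real.exp (f w)) := hf.measurable.exp.ennreal_ofReal
  have m2 : Measurable fun w => ENNReal.ofReal (Real.exp (-f w)) :=
    hf.measurable.neg.exp.ennreal_ofReal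
  rw [← hmp.lintegral_comp m1, ← hmp.lintegral_comp m2]
  exact key

/-! ### Integrability -/

theorem integrable_exp_abs_gauss (c : ℝ) :
    Integrable (fun x : ℝ => Real.exp (c * |x|)) (gaussianReal 0 1) := by
  refine ((integrable_exp_mul_gaussianReal c).add (integrable_exp_mul_gaussianReal (-c))).mono'
    (by exact Continuous.aestronglyMeasurable (by fun_prop)) (ae_of_all _ fun x => ?_)
  rw [Real.norm_eq_abs, abs_of_pos (Real.exp_pos _)]
  simp only [Pi.add_apply]
  rcases le_total 0 x with h | h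
  · rw [abs_of_nonneg h]
    linarith [Real.exp_pos (-c * x)]
  · rw [abs_of_nonpos h]
    have : c * -x = -c * x := by ring
    rw [this]
    linarith [Real.exp_pos (c * x)]

theorem integrable_exp_sum (c : ℝ) :
    Integrable (fun w : ι → ℝ => Real.exp (c * ∑ i, |w i|)) (gpi ι) := by
  have : (fun w : ι → ℝ => Real.exp (c * ∑ i, |w i|)) = fun w => ∏ i, Real.exp (c * |w i|) := by
    funext w
    rw [Finset.mul_sum, Real.exp_sum]
  rw [this]
  exact Integrable.fintype_prod fun _ => integrable_exp_abs_gauss c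

theorem Lip.abs_le {L : ℝ} {f : (ι → ℝ) → ℝ} (hf : Lip L f) (w : ι → ℝ) :
    |f w| ≤ |f 0| + |L| * ∑ i, |w i| := by
  have h1 := hf w 0
  have h2 := ed_le_sum w 0
  simp only [Pi.zero_apply, sub_zero] at h2
  have h3 : L * ed w 0 ≤ |L| * ∑ i, |w i| :=
    (mul_le_mul_of_nonneg_right (le_abs_self L) (ed_nonneg _ _)).trans
      (mul_le_mul_of_nonneg_left h2 (abs_nonneg _))
  have h4 := abs_sub_abs_le_abs_sub (f w) (f 0)
  linarith

theorem Lip.integrable_exp {L : ℝ} {f : (ι → ℝ) → ℝ} (hf : Lip L f) (c : ℝ) :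
    Integrable (fun w => Real.exp (c * f w)) (gpi ι) := by
  refine ((integrable_exp_sum (ι := ι) (|c| * |L|)).const_mul (Real.exp (|c| * |f 0|))).mono'
    (hf.measurable.const_mul c).exp.aestronglyMeasurable (ae_of_all _ fun w => ?_)
  rw [Real.norm_eq_abs, abs_of_pos (Real.exp_pos _), ← Real.exp_add]
  refine Real.exp_le_exp.2 ?_
  have h1 := mul_le_mul_of_nonneg_left (hf.abs_le w) (abs_nonneg c)
  have h2 : c * f w ≤ |c| * |f w| := by rw [← abs_mul]; exact le_abs_self _
  linarith only [h2, h1]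

theorem Lip.integrable_exp_abs {L : ℝ} {f : (ι → ℝ) → ℝ} (hf : Lip L f) (c : ℝ) :
    Integrable (fun w => Real.exp (c * |f w|)) (gpi ι) := by
  refine ((hf.integrable_exp c).add (hf.integrable_exp (-c))).mono'
    ((hf.measurable.abs).const_mul c).exp.aestronglyMeasurable (ae_of_all _ fun x => ?_)
  rw [Real.norm_eq_abs, abs_of_pos (Real.exp_pos _)]
  simp only [Pi.add_apply]
  rcases le_total 0 (f x) with h | h
  · rw [abs_of_nonneg h]
    linarith only [Real.exp_pos (-c * f x)]
  · rw [abs_of_nonpos h]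
    have : c * -f x = -c * f x := by ring
    rw [this]
    linarith [Real.exp_pos (c * f x)]

theorem Lip.integrable {L : ℝ} {f : (ι → ℝ) → ℝ} (hf : Lip L f) : Integrable f (gpi ι) := by
  refine (hf.integrable_exp_abs 1).mono' hf.measurable.aestronglyMeasurable
    (ae_of_all _ fun x => ?_)
  rw [Real.norm_eq_abs, one_mul]
  linarith [Real.add_one_le_exp |f x|]

theorem Lip.integrable_sq {L : ℝ} {f : (ι → ℝ) → ℝ} (hf : Lip L f) :
    Integrable (fun w => f w ^ 2) (gpi ι) := by
  refine ((hf.integrable_exp_abs 1).const_mul 2).mono' (hf.measurable.pow_const 2).aestronglyMeasurable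
    (ae_of_all _ fun x => ?_)
  rw [Real.norm_eq_abs, one_mul, abs_pow]
  have := Real.quadratic_le_exp_of_nonneg (abs_nonneg (f x))
  linarith only [this, abs_nonneg (f x)]

/-! ### Concentration -/

theorem Lip.mgf_le {L : ℝ} {f : (ι → ℝ) → ℝ} (hf : Lip L f) (c : ℝ) :
    ∫ w, Real.exp (c * (f w - ∫ w', f w' ∂gpi ι)) ∂gpi ι ≤ Real.exp (c ^ 2 * L ^ 2) := by
  set E := ∫ w', f w' ∂gpi ι with hE
  have h1 := tau (hf.const_mul c)
  have e1 : (|c| * L) ^ 2 = c ^ 2 * L ^ 2 := by rw [mul_pow, sq_abs]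
  rw [e1] at h1
  have i1 := hf.integrable_exp c
  have i2 : Integrable (fun w => Real.exp (-(c * f w))) (gpi ι) := by
    have := hf.integrable_exp (-c)
    refine this.congr (ae_of_all _ fun w => ?_)
    simp only
    congr 1; ring
  rw [← ofReal_integral_eq_lintegral_ofReal i1 (ae_of_all _ fun w => (Real.exp_pos _).le),
    ← ofReal_integral_eq_lintegral_ofReal i2 (ae_of_all _ fun w => (Real.exp_pos _).le),
    ← ENNReal.ofReal_mul (integral_nonneg fun w => (Real.exp_pos _).le),
    ENNReal.ofReal_le_ofReal_iff (Real.exp_pos _).le] at h1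
  have h2 : Real.exp (-(c * E)) ≤ ∫ w, Real.exp (-(c * f w)) ∂gpi ι := by
    have h3 : ∫ w, (Real.exp (-(c * E)) * (1 + (-(c * f w) - -(c * E)))) ∂gpi ι ≤
        ∫ w, Real.exp (-(c * f w)) ∂gpi ι := by
      refine integral_mono ?_ i2 fun w => ?_
      · exact ((integrable_const _).add (((hf.integrable.const_mul c).neg).sub
          (integrable_const _))).const_mul _
      · simp only
        have := Real.add_one_le_exp (-(c * f w) - -(c * E))
        have h4 : Real.exp (-(c * f w)) =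
            Real.exp (-(c * E)) * Real.exp (-(c * f w) - -(c * E)) := by
          rw [← Real.exp_add]; congr 1; ring
        rw [h4]
        exact mul_le_mul_of_nonneg_left (by linarith) (Real.exp_pos _).le
    refine le_trans (le_of_eq ?_) h3
    have i4 : Integrable (fun w => -(c * f w)) (gpi ι) := (hf.integrable.const_mul c).neg
    have i3 : Integrable (fun w => -(c * f w) - -(c * E)) (gpi ι) :=
      i4.sub (integrable_const _)
    rw [integral_const_mul, integral_add (integrable_const _) i3,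
      integral_sub i4 (integrable_const _), integral_neg,
      integral_const_mul, ← hE]
    simp
  have h5 : ∫ w, Real.exp (c * (f w - E)) ∂gpi ι =
      (∫ w, Real.exp (c * f w) ∂gpi ι) * Real.exp (-(c * E)) := by
    rw [← integral_mul_const]
    refine integral_congr_ae (ae_of_all _ fun w => ?_)
    simp only
    rw [← Real.exp_add]
    congr 1; ring
  rw [h5]
  exact (mul_le_mul_of_nonneg_left h2 (integral_nonneg fun w => (Real.exp_pos _).le)).trans h1

/-- **Gaussian concentration**, upper tail. -/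
theorem Lip.tail {L : ℝ} {f : (ι → ℝ) → ℝ} (hf : Lip L f) (hL : 0 < L) {t : ℝ} (ht : 0 ≤ t) :
    (gpi ι).real {w | (∫ w', f w' ∂gpi ι) + t ≤ f w} ≤ Real.exp (-(t ^ 2 / (4 * L ^ 2))) := by
  set E := ∫ w', f w' ∂gpi ι with hE
  set c := t / (2 * L ^ 2) with hc
  have hc0 : 0 ≤ c := by (clear * - ht hL; positivity)
  have h1 := hf.mgf_le c
  rw [← hE] at h1
  have i1 : Integrable (fun w => Real.exp (c * (f w - E))) (gpi ι) := by
    have := (hf.add_const (-E)).integrable_exp c
    refine this.congr (ae_of_all _ fun w => ?_)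
    simp only [sub_eq_add_neg]
  have h2 := mul_meas_ge_le_integral_of_nonneg (μ := gpi ι)
    (f := fun w => Real.exp (c * (f w - E))) (ae_of_all _ fun w => (Real.exp_pos _).le) i1
    (Real.exp (c * t))
  have h3 : (gpi ι).real {w | E + t ≤ f w} ≤ (gpi ι).real {w | Real.exp (c * t) ≤
      Real.exp (c * (f w - E))} := by
    refine measureReal_mono (fun w hw => ?_)
    have hw' : E + t ≤ f w := hw
    show Real.exp (c * t) ≤ Real.exp (c * (f w - E))
    exact Real.exp_le_exp.2 (mul_le_mul_of_nonneg_left (by linarith only [hw']) hc0)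
  have h4 : Real.exp (c * t) * (gpi ι).real {w | E + t ≤ f w} ≤ Real.exp (c ^ 2 * L ^ 2) :=
    (mul_le_mul_of_nonneg_left h3 (Real.exp_pos _).le).trans (h2.trans h1)
  have h5 : (gpi ι).real {w | E + t ≤ f w} ≤ Real.exp (c ^ 2 * L ^ 2) * Real.exp (-(c * t)) := by
    rw [Real.exp_neg, ← div_eq_mul_inv, le_div_iff₀ (Real.exp_pos _)]
    linarith
  refine h5.trans (le_of_eq ?_)
  rw [← Real.exp_add]
  congr 1
  rw [hc]
  field_simp
  ring

/-- **Gaussian concentration**, lower tail. -/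
theorem Lip.tail_lower {L : ℝ} {f : (ι → ℝ) → ℝ} (hf : Lip L f) (hL : 0 < L) {t : ℝ}
    (ht : 0 ≤ t) :
    (gpi ι).real {w | f w ≤ (∫ w', f w' ∂gpi ι) - t} ≤ Real.exp (-(t ^ 2 / (4 * L ^ 2))) := by
  have h := hf.neg.tail hL ht
  rw [integral_neg] at h
  refine le_trans (measureReal_mono fun w hw => ?_) h
  have hw' : f w ≤ (∫ w', f w' ∂gpi ι) - t := hw
  show -(∫ w', f w' ∂gpi ι) + t ≤ -f w
  linarith only [hw']

/-- **Gaussian concentration**, two sided. -/
theorem Lip.tail_abs {L : ℝ} {f : (ι → ℝ) → ℝ} (hf : Lip L f) (hL : 0 < L) {t : ℝ}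
    (ht : 0 ≤ t) :
    (gpi ι).real {w | t ≤ |f w - ∫ w', f w' ∂gpi ι|} ≤ 2 * Real.exp (-(t ^ 2 / (4 * L ^ 2))) := by
  have h1 := hf.tail hL ht
  have h2 := hf.tail_lower hL ht
  have h3 : {w | t ≤ |f w - ∫ w', f w' ∂gpi ι|} ⊆
      {w | (∫ w', f w' ∂gpi ι) + t ≤ f w} ∪ {w | f w ≤ (∫ w', f w' ∂gpi ι) - t} := by
    intro w hw
    have hw' : t ≤ |f w - ∫ w', f w' ∂gpi ι| := hw
    rcases le_abs.1 hw' with h | h
    · left
      show (∫ w', f w' ∂gpi ι) + t ≤ f w
      linarith only [h]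
    · right
      show f w ≤ (∫ w', f w' ∂gpi ι) - t
      linarith only [h]
  refine (measureReal_mono h3).trans ((measureReal_union_le _ _).trans ?_)
  linarith only [h2, h1]

theorem one_add_sq_div_two_le_cosh (x : ℝ) : 1 + x ^ 2 / 2 ≤ Real.cosh x := by
  have h1 : Real.cosh x = 1 + 2 * Real.sinh (x / 2) ^ 2 := by
    have h2 := Real.cosh_two_mul (x / 2)
    have h3 := Real.cosh_sq (x / 2)
    rw [mul_div_cancel₀ x (two_ne_zero)] at h2
    rw [h2, h3]
    ring
  have h4 : (x / 2) ^ 2 ≤ Real.sinh (x / 2) ^ 2 := by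
    rw [sq_le_sq]
    rcases le_total 0 (x / 2) with h | h
    · rw [abs_of_nonneg h, abs_of_nonneg (Real.sinh_nonneg_iff.2 h)]
      exact Real.self_le_sinh_iff.2 h
    · rw [abs_of_nonpos h, abs_of_nonpos (Real.sinh_nonpos_iff.2 h)]
      exact neg_le_neg (Real.sinh_le_self_iff.2 h)
  rw [h1]
  linarith only [h4]

/-- Variance of Lipschitz functions. -/
theorem Lip.var_le {L : ℝ} {f : (ι → ℝ) → ℝ} (hf : Lip L f) (hL : 0 < L) :
    ∫ w, (f w - ∫ w', f w' ∂gpi ι) ^ 2 ∂gpi ι ≤ 4 * L ^ 2 := by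
  set E := ∫ w', f w' ∂gpi ι with hE
  have hg : Lip L (fun w => f w + -E) := hf.add_const (-E)
  have h1 := hf.mgf_le (1 / L)
  have h2 := hf.mgf_le (-(1 / L))
  rw [← hE] at h1 h2
  have e1 : (1 / L) ^ 2 * L ^ 2 = 1 := by field_simp
  have e2 : (-(1 / L)) ^ 2 * L ^ 2 = 1 := by rw [neg_sq, e1]
  rw [e1] at h1
  rw [e2] at h2
  have i1 : Integrable (fun w => Real.exp (1 / L * (f w - E))) (gpi ι) := by
    refine (hg.integrable_exp (1 / L)).congr (ae_of_all _ fun w => ?_)
    simp only [sub_eq_add_neg]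
  have i2 : Integrable (fun w => Real.exp (-(1 / L) * (f w - E))) (gpi ι) := by
    refine (hg.integrable_exp (-(1 / L))).congr (ae_of_all _ fun w => ?_)
    simp only [sub_eq_add_neg]
  have i3 : Integrable (fun w => (f w - E) ^ 2) (gpi ι) := by
    refine hg.integrable_sq.congr (ae_of_all _ fun w => ?_)
    simp only [sub_eq_add_neg]
  have h3 : ∫ w, (1 / L ^ 2) * (f w - E) ^ 2 ∂gpi ι ≤ ∫ w, (Real.exp (1 / L * (f w - E)) +
      Real.exp (-(1 / L) * (f w - E)) - 2) ∂gpi ι := by
    refine integral_mono (i3.const_mul _) ((i1.add i2).sub (integrable_const _)) fun w => ?_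
    simp only
    have h4 := Real.cosh_eq (1 / L * (f w - E))
    have h5 := one_add_sq_div_two_le_cosh (1 / L * (f w - E))
    have e3 : -(1 / L) * (f w - E) = -(1 / L * (f w - E)) := by ring
    rw [e3]
    have e4 : 1 / L ^ 2 * (f w - E) ^ 2 = (1 / L * (f w - E)) ^ 2 := by rw [mul_pow, one_div_pow]
    rw [e4]
    linarith only [h5, h4]
  have i12 : Integrable (fun w => Real.exp (1 / L * (f w - E)) +
      Real.exp (-(1 / L) * (f w - E))) (gpi ι) := i1.add i2
  rw [integral_const_mul, integral_sub i12 (integrable_const _), integral_add i1 i2] at h3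
  simp only [integral_const, probReal_univ, smul_eq_mul, one_mul] at h3
  have h6 : 1 / L ^ 2 * ∫ w, (f w - E) ^ 2 ∂gpi ι ≤ 4 := by
    have := Real.exp_one_lt_d9
    linarith only [h1, h2, h3, this]
  rw [one_div, inv_mul_le_iff₀ (by positivity)] at h6
  linarith only [h6]

end Vale.Agent.P150.F
end

section

/-! P150 FULL: Euclidean norm `nv` of vectors `Fin n → ℝ` and elementary inequalities
(helper123). -/

open MeasureTheory ProbabilityTheory Filter Topology
open scoped Matrix

namespace Vale.Agent.P150.F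

variable {n : ℕ}

/-- the Euclidean norm -/
noncomputable def nv (v : Vec n) : ℝ := ‖(WithLp.toLp 2 v : EuclideanSpace ℝ (Fin n))‖

theorem nv_nonneg (v : Vec n) : 0 ≤ nv v := norm_nonneg _

theorem nv_sq (v : Vec n) : nv v ^ 2 = sq v := by
  rw [nv, EuclideanSpace.norm_sq_eq]
  simp [sq]

theorem sqN_nonneg (v : Vec n) : 0 ≤ sq v := by rw [← nv_sq]; positivity

theorem nv_eq_sqrt (v : Vec n) : nv v = √(sq v) := by
  rw [← nv_sq, Real.sqrt_sq (nv_nonneg v)]

theorem nv_zero : nv (0 : Vec n) = 0 := by simp [nv]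

theorem nv_add_le (u v : Vec n) : nv (u + v) ≤ nv u + nv v := by
  unfold nv
  rw [WithLp.toLp_add]
  exact norm_add_le _ _

theorem nv_sub_le (u v : Vec n) : nv (u - v) ≤ nv u + nv v := by
  unfold nv
  rw [WithLp.toLp_sub]
  exact norm_sub_le _ _

theorem nv_neg (u : Vec n) : nv (-u) = nv u := by
  unfold nv
  rw [WithLp.toLp_neg, norm_neg]

theorem nv_smul (c : ℝ) (u : Vec n) : nv (c • u) = |c| * nv u := by
  unfold nv
  rw [WithLp.toLp_smul, norm_smul, Real.norm_eq_abs]

theorem nv_sub_comm (u v : Vec n) : nv (u - v) = nv (v - u) := by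
  rw [← nv_neg, neg_sub]

theorem nv_sub_triangle (u v w : Vec n) : nv (u - w) ≤ nv (u - v) + nv (v - w) := by
  have h := nv_add_le (u - v) (v - w)
  rwa [sub_add_sub_cancel] at h

theorem nv_sum_le {ι : Type*} (s : Finset ι) (f : ι → Vec n) :
    nv (∑ k ∈ s, f k) ≤ ∑ k ∈ s, nv (f k) := by
  classical
  induction s using Finset.induction_on with
  | empty => simp [nv_zero]
  | insert a s ha ih =>
    rw [Finset.sum_insert ha, Finset.sum_insert ha]
    exact (nv_add_le _ _).trans (by linarith)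

theorem ipN_comm (u v : Vec n) : ip u v = ip v u := by
  unfold ip
  exact Finset.sum_congr rfl fun i _ => mul_comm _ _

theorem ipN_self (v : Vec n) : ip v v = sq v := by
  unfold ip sq
  exact Finset.sum_congr rfl fun i _ => (pow_two _).symm

theorem ip_add_left (u v w : Vec n) : ip (u + v) w = ip u w + ip v w := by
  unfold ip
  rw [← Finset.sum_add_distrib]
  exact Finset.sum_congr rfl fun i _ => by rw [Pi.add_apply, add_mul]

theorem ip_add_right (u v w : Vec n) : ip u (v + w) = ip u v + ip u w := by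
  rw [ipN_comm, ip_add_left, ipN_comm v, ipN_comm w]

theorem ip_sub_left (u v w : Vec n) : ip (u - v) w = ip u w - ip v w := by
  unfold ip
  rw [← Finset.sum_sub_distrib]
  exact Finset.sum_congr rfl fun i _ => by rw [Pi.sub_apply, sub_mul]

theorem ip_sub_right (u v w : Vec n) : ip u (v - w) = ip u v - ip u w := by
  rw [ipN_comm, ip_sub_left, ipN_comm v, ipN_comm w]

theorem ip_smul_left (c : ℝ) (u v : Vec n) : ip (c • u) v = c * ip u v := by
  unfold ip
  rw [Finset.mul_sum]
  exact Finset.sum_congr rfl fun i _ => by rw [Pi.smul_apply, smul_eq_mul, mul_assoc]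

theorem ip_smul_right (c : ℝ) (u v : Vec n) : ip u (c • v) = c * ip u v := by
  rw [ipN_comm, ip_smul_left, ipN_comm]

theorem ip_sum_right {ι : Type*} (s : Finset ι) (u : Vec n) (f : ι → Vec n) :
    ip u (∑ k ∈ s, f k) = ∑ k ∈ s, ip u (f k) := by
  unfold ip
  rw [Finset.sum_comm]
  refine Finset.sum_congr rfl fun i _ => ?_
  rw [Finset.sum_apply, Finset.mul_sum]

theorem ip_eq_inner (u v : Vec n) : ip u v =
    inner ℝ (WithLp.toLp 2 u : EuclideanSpace ℝ (Fin n)) (WithLp.toLp 2 v) := by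
  rw [PiLp.inner_apply]
  unfold ip
  refine Finset.sum_congr rfl fun i _ => ?_
  simp [mul_comm]

theorem abs_ip_le (u v : Vec n) : |ip u v| ≤ nv u * nv v := by
  rw [ip_eq_inner]
  exact abs_real_inner_le_norm _ _

theorem ip_le (u v : Vec n) : ip u v ≤ nv u * nv v := (le_abs_self _).trans (abs_ip_le u v)

theorem abs_le_nv (v : Vec n) (i : Fin n) : |v i| ≤ nv v := by
  rw [← abs_of_nonneg (nv_nonneg v)]
  refine sq_le_sq.1 ?_
  rw [nv_sq]
  exact Finset.single_le_sum (f := fun i => v i ^ 2) (fun i _ => sq_nonneg _) (Finset.mem_univ i)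

theorem nv_le_of_sq_le {v : Vec n} {C : ℝ} (hC : 0 ≤ C) (h : sq v ≤ C ^ 2) : nv v ≤ C := by
  rw [← nv_sq] at h
  exact (sq_le_sq₀ (nv_nonneg v) hC).1 h

theorem sq_le_of_nv_le {v : Vec n} {C : ℝ} (h : nv v ≤ C) : sq v ≤ C ^ 2 := by
  rw [← nv_sq]
  exact pow_le_pow_left₀ (nv_nonneg v) h 2

theorem nv_mono {u v : Vec n} (h : ∀ i, |u i| ≤ |v i|) : nv u ≤ nv v := by
  refine nv_le_of_sq_le (nv_nonneg v) ?_
  rw [nv_sq]
  exact Finset.sum_le_sum fun i _ => sq_le_sq.2 (h i)

/-- entrywise bound by a multiple -/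
theorem nv_le_mul {u v : Vec n} {C : ℝ} (hC : 0 ≤ C) (h : ∀ i, |u i| ≤ C * |v i|) :
    nv u ≤ C * nv v := by
  have h1 : nv u ≤ nv (C • v) := nv_mono fun i => by
    rw [Pi.smul_apply, smul_eq_mul, abs_mul, abs_of_nonneg hC]
    exact h i
  rwa [nv_smul, abs_of_nonneg hC] at h1

/-- `ℓ²` norm of a vector bounded in sup norm -/
theorem nv_le_sqrt {u : Vec n} {C : ℝ} (hC : 0 ≤ C) (h : ∀ i, |u i| ≤ C) : nv u ≤ C * √n := by
  refine nv_le_of_sq_le (by positivity) ?_
  rw [mul_pow, Real.sq_sqrt (Nat.cast_nonneg n)]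
  calc sq u ≤ ∑ _i : Fin n, C ^ 2 := Finset.sum_le_sum fun i _ =>
        sq_le_sq.2 (by rw [abs_of_nonneg hC]; exact h i)
    _ = C ^ 2 * n := by simp [mul_comm]

/-- products of vectors -/
theorem nv_mul_le (u v : Vec n) : nv (fun i => u i * v i) ≤ nv u * nv v := by
  refine (nv_le_mul (C := nv u) (nv_nonneg u) fun i => ?_ : nv (fun i => u i * v i) ≤ _)
  rw [abs_mul]
  exact mul_le_mul_of_nonneg_right (abs_le_nv u i) (abs_nonneg _)

theorem OpLe.nv_le {A : Mat n} {C : ℝ} (h : OpLe A C) (hC : 0 ≤ C) (v : Vec n) :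
    nv (A.mulVec v) ≤ C * nv v := by
  refine nv_le_of_sq_le (mul_nonneg hC (nv_nonneg v)) ?_
  rw [mul_pow, nv_sq]
  exact h v

theorem opLe_of_nv {A : Mat n} {C : ℝ} (h : ∀ v, nv (A.mulVec v) ≤ C * nv v) : OpLe A C := by
  intro v
  rw [← nv_sq, ← nv_sq, ← mul_pow]
  exact pow_le_pow_left₀ (nv_nonneg _) (h v) 2

theorem OpLe.monoN {A : Mat n} {C C' : ℝ} (h : OpLe A C) (hC : 0 ≤ C) (hCC : C ≤ C') :
    OpLe A C' := by
  intro v
  exact (h v).trans (mul_le_mul_of_nonneg_right (pow_le_pow_left₀ hC hCC 2) (sqN_nonneg v))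

theorem OpLe.add {A B : Mat n} {C C' : ℝ} (h : OpLe A C) (h' : OpLe B C') (hC : 0 ≤ C)
    (hC' : 0 ≤ C') : OpLe (A + B) (C + C') := by
  refine opLe_of_nv fun v => ?_
  rw [Matrix.add_mulVec, add_mul]
  exact (nv_add_le _ _).trans (add_le_add (h.nv_le hC v) (h'.nv_le hC' v))

theorem OpLe.sub {A B : Mat n} {C C' : ℝ} (h : OpLe A C) (h' : OpLe B C') (hC : 0 ≤ C)
    (hC' : 0 ≤ C') : OpLe (A - B) (C + C') := by
  refine opLe_of_nv fun v => ?_
  rw [Matrix.sub_mulVec, add_mul]
  exact (nv_sub_le _ _).trans (add_le_add (h.nv_le hC v) (h'.nv_le hC' v))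

theorem OpLe.smul {A : Mat n} {C : ℝ} (h : OpLe A C) (hC : 0 ≤ C) (c : ℝ) :
    OpLe (c • A) (|c| * C) := by
  refine opLe_of_nv fun v => ?_
  rw [Matrix.smul_mulVec, nv_smul, mul_assoc]
  exact mul_le_mul_of_nonneg_left (h.nv_le hC v) (abs_nonneg c)

theorem OpLe.mulN {A B : Mat n} {C C' : ℝ} (h : OpLe A C) (h' : OpLe B C') (hC : 0 ≤ C)
    (hC' : 0 ≤ C') : OpLe (A * B) (C * C') := by
  refine opLe_of_nv fun v => ?_
  rw [← Matrix.mulVec_mulVec, mul_assoc]
  exact (h.nv_le hC _).trans (mul_le_mul_of_nonneg_left (h'.nv_le hC' v) hC)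

theorem opLe_one : OpLe (1 : Mat n) 1 := by
  intro v
  rw [Matrix.one_mulVec, one_pow, one_mul]

theorem opLe_zero : OpLe (0 : Mat n) 0 := by
  intro v
  rw [Matrix.zero_mulVec]
  simp [sq]

theorem vecMulVec_mulVec (u v w : Vec n) :
    (Matrix.vecMulVec u v).mulVec w = ip v w • u := by
  funext i
  rw [Matrix.mulVec, dotProduct, Pi.smul_apply, smul_eq_mul, ip, Finset.sum_mul]
  refine Finset.sum_congr rfl fun j _ => ?_
  rw [Matrix.vecMulVec_apply]
  ring

theorem opLe_vecMulVec (u v : Vec n) : OpLe (Matrix.vecMulVec u v) (nv u * nv v) := by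
  refine opLe_of_nv fun w => ?_
  rw [vecMulVec_mulVec, nv_smul]
  calc |ip v w| * nv u ≤ (nv v * nv w) * nv u :=
        mul_le_mul_of_nonneg_right (abs_ip_le v w) (nv_nonneg u)
    _ = nv u * nv v * nv w := by ring

theorem ip_mulVec_comm {A : Mat n} (hA : A.IsSymm) (u v : Vec n) :
    ip u (A.mulVec v) = ip (A.mulVec u) v := by
  have h1 : ip u (A.mulVec v) = u ⬝ᵥ A.mulVec v := rfl
  have h2 : ip (A.mulVec u) v = A.mulVec u ⬝ᵥ v := rfl
  rw [h1, h2, Matrix.dotProduct_mulVec, ← Matrix.mulVec_transpose, hA.eq]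

theorem qq_nonneg (m : Vec n) : 0 ≤ qq m := by
  unfold qq
  exact div_nonneg (sqN_nonneg m) (Nat.cast_nonneg n)

theorem qq_le_one {m : Vec n} (h : ∀ i, |m i| ≤ 1) : qq m ≤ 1 := by
  unfold qq
  rcases Nat.eq_zero_or_pos n with rfl | hn
  · simp
  have hn' : (0 : ℝ) < n := by exact_mod_cast hn
  rw [div_le_one hn']
  calc sq m ≤ ∑ _i : Fin n, (1 : ℝ) := Finset.sum_le_sum fun i _ => by
        rw [← sq_abs]
        exact pow_le_one₀ (abs_nonneg _) (h i)
    _ = n := by simp

theorem nv_le_sqrt_n {m : Vec n} (h : ∀ i, |m i| ≤ 1) : nv m ≤ √n := by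
  simpa using nv_le_sqrt (C := 1) zero_le_one h

end Vale.Agent.P150.F
end

section

/-! P150 FULL, D6: the TAP equation (helper123). -/

open MeasureTheory ProbabilityTheory Filter Topology
open scoped Matrix

namespace Vale.Agent.P150.F

variable {n : ℕ}

/-- the non-entropic part of the TAP gradient (without the field `y`) -/
noncomputable def tapB (r : ℝ) (J A : Mat n) (m : Vec n) : Vec n := fun i =>
  A.mulVec m i - r * J.mulVec m i + r ^ 2 * (1 - qq m) * m i

/-- the gradient of the TAP free energy -/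
noncomputable def tapG (r : ℝ) (J A : Mat n) (y m : Vec n) : Vec n := fun i =>
  Real.artanh (m i) + tapB r J A m i - y i

/-- exact solutions of the TAP equation -/
def Tap (r : ℝ) (J A : Mat n) (y m : Vec n) : Prop :=
  ∀ i, m i = Real.tanh (y i - tapB r J A m i)

/-- the bounded part of the TAP Hessian: `Hess = dg (1/(1-m²)) + Bm` -/
noncomputable def Bm (r : ℝ) (J A : Mat n) (m : Vec n) : Mat n :=
  (r ^ 2 * (1 - qq m)) • (1 : Mat n) - r • J + A - (2 * r ^ 2 / n) • Matrix.vecMulVec m m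

theorem Hess_eq (r : ℝ) (J A : Mat n) (m : Vec n) :
    Hess r J A m = dg (fun i => 1 / (1 - m i ^ 2)) + Bm r J A m := by
  unfold Hess Bm
  abel

theorem Bm_mulVec (r : ℝ) (J A : Mat n) (m v : Vec n) (i : Fin n) :
    (Bm r J A m).mulVec v i = r ^ 2 * (1 - qq m) * v i - r * J.mulVec v i + A.mulVec v i
      - 2 * r ^ 2 / n * ip m v * m i := by
  unfold Bm
  rw [Matrix.sub_mulVec, Matrix.add_mulVec, Matrix.sub_mulVec, Matrix.smul_mulVec,
    Matrix.smul_mulVec, Matrix.smul_mulVec, Matrix.one_mulVec, vecMulVec_mulVec]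
  simp only [Pi.sub_apply, Pi.add_apply, Pi.smul_apply, smul_eq_mul]
  ring

theorem Hess_mulVec (r : ℝ) (J A : Mat n) (m v : Vec n) (i : Fin n) :
    (Hess r J A m).mulVec v i = v i / (1 - m i ^ 2) + (Bm r J A m).mulVec v i := by
  rw [Hess_eq, Matrix.add_mulVec, Pi.add_apply, dg, Matrix.mulVec_diagonal]
  congr 1
  ring

theorem Tap.abs_lt {r : ℝ} {J A : Mat n} {y m : Vec n} (h : Tap r J A y m) (i : Fin n) :
    |m i| < 1 := by
  rw [h i]
  exact Real.abs_tanh_lt_one _

theorem Tap.artanh {r : ℝ} {J A : Mat n} {y m : Vec n} (h : Tap r J A y m) (i : Fin n) :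
    Real.artanh (m i) = y i - tapB r J A m i := by
  rw [h i, Real.artanh_tanh]

theorem Tap.grad {r : ℝ} {J A : Mat n} {y m : Vec n} (h : Tap r J A y m) :
    tapG r J A y m = 0 := by
  funext i
  unfold tapG
  rw [h.artanh i, Pi.zero_apply]
  ring

theorem tap_of_grad {r : ℝ} {J A : Mat n} {y m : Vec n} (hm : ∀ i, |m i| < 1)
    (h : tapG r J A y m = 0) : Tap r J A y m := by
  intro i
  have h1 : Real.artanh (m i) + tapB r J A m i - y i = 0 := congrFun h i
  have h2 : y i - tapB r J A m i = Real.artanh (m i) := by linarith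
  rw [h2, Real.tanh_artanh ⟨(abs_lt.1 (hm i)).1, (abs_lt.1 (hm i)).2⟩]

theorem qq_add (m h : Vec n) : qq (m + h) = qq m + (2 * ip m h + sq h) / n := by
  unfold qq sq ip
  rw [← add_div]
  congr 1
  rw [Finset.mul_sum, ← Finset.sum_add_distrib, ← Finset.sum_add_distrib]
  refine Finset.sum_congr rfl fun i _ => ?_
  rw [Pi.add_apply]
  ring

/-- exact second-order expansion of `tapB` -/
theorem tapB_add (r : ℝ) (J A : Mat n) (m h : Vec n) (i : Fin n) :
    tapB r J A (m + h) i = tapB r J A m i + (Bm r J A m).mulVec h i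
      - 2 * r ^ 2 / n * ip m h * h i - r ^ 2 / n * sq h * (m i + h i) := by
  unfold tapB
  rw [Bm_mulVec, Matrix.mulVec_add, Matrix.mulVec_add, qq_add]
  simp only [Pi.add_apply]
  ring

end Vale.Agent.P150.F
end

section

/-! Definitions for the one-step Gaussian channel on the cube (module CH). -/

open MeasureTheory ProbabilityTheory Filter Topology Real
open scoped Matrix

namespace Vale.Agent.P150.F

variable {n m : ℕ}

/-- the Gibbs measure `exp(½ xᵀMx + ⟨y,x⟩)/Z` -/
noncomputable def gM (M : Mat n) (y : Vec n) (x : Cfg n) : ℝ :=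
  Real.exp (qf M (sv x) / 2 + ip y (sv x)) / ∑ x', Real.exp (qf M (sv x') / 2 + ip y (sv x'))

/-- mean vector of weights on the cube -/
def mean (ν : Cfg n → ℝ) : Vec n := fun i => ∑ x, ν x * sv x i

/-- covariance vector of `F` with the spins -/
def covF (ν : Cfg n → ℝ) (F : Cfg n → ℝ) : Vec n :=
  fun i => ∑ x, ν x * ((F x - Ex ν F) * (sv x i - mean ν i))

/-- covariance matrix -/
def covM (ν : Cfg n → ℝ) : Mat n :=
  fun i j => ∑ x, ν x * ((sv x i - mean ν i) * (sv x j - mean ν j))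

/-- variance -/
def VarX (ν : Cfg n → ℝ) (F : Cfg n → ℝ) : ℝ := Ex ν fun x => (F x - Ex ν F) ^ 2

/-- Shannon entropy -/
noncomputable def HS (ν : Cfg n → ℝ) : ℝ := - ∑ x, ν x * Real.log (ν x)

/-- relative entropy -/
noncomputable def KL (ν μ : Cfg n → ℝ) : ℝ := ∑ x, ν x * Real.log (ν x / μ x)

/-- entropy `μ(f log f) - μ(f) log μ(f)` -/
noncomputable def EntX (μ f : Cfg n → ℝ) : ℝ :=
  (Ex μ fun x => f x * Real.log (f x)) - Ex μ f * Real.log (Ex μ f)

/-- the label `z = δ Q σ + √δ R ξ`, `Q = R Rᵀ` -/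
noncomputable def obs (R : Matrix (Fin n) (Fin m) ℝ) (δ : ℝ) (x : Cfg n) (ξ : Fin m → ℝ) : Vec n :=
  fun i => δ * (R * Rᵀ).mulVec (sv x) i + √δ * R.mulVec ξ i

/-- expectation of `Φ(x, z)` for `x ∼ ν` -/
noncomputable def EC (ν : Cfg n → ℝ) (R : Matrix (Fin n) (Fin m) ℝ) (δ : ℝ)
    (Φ : Cfg n → Vec n → ℝ) : ℝ :=
  ∑ x, ν x * ∫ ξ, Φ x (obs R δ x ξ) ∂(gpi (Fin m))

/-- posterior law given the label `z` -/
noncomputable def pst (ν : Cfg n → ℝ) (Q : Mat n) (δ : ℝ) (z : Vec n) (x : Cfg n) : ℝ :=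
  ν x * Real.exp (ip z (sv x) - δ / 2 * qf Q (sv x)) /
    ∑ x', ν x' * Real.exp (ip z (sv x') - δ / 2 * qf Q (sv x'))

/-- heat-bath Dirichlet form of weights `μ` on the cube -/
noncomputable def DirW (μ : Cfg n → ℝ) (f g : Cfg n → ℝ) : ℝ :=
  (1 / 2) * ∑ i, ∑ x, μ x * μ (flip x i) / (μ x + μ (flip x i)) *
    ((f (flip x i) - f x) * (g (flip x i) - g x))

/-- `I'(ν|μ)`: Dirichlet form of the square root of the density -/
noncomputable def IP' (ν μ : Cfg n → ℝ) : ℝ :=
  DirW μ (fun x => √(ν x / μ x)) (fun x => √(ν x / μ x))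

/-- the standard Gaussian measure of P245 -/
theorem gpi_eq_gsn (m : ℕ) : gpi (Fin m) = P245.gsn m := by
  rw [gpi_eq]
  unfold P245.gsn
  congr 1
  funext x
  congr 1
  unfold gd P245.gd
  refine Finset.prod_congr rfl fun i _ => ?_
  rw [gaussianPDFReal]
  simp

end Vale.Agent.P150.F
end

section

/-! Interface statements of module CH (Gaussian channel on the cube). -/

open MeasureTheory ProbabilityTheory Filter Topology Real
open scoped Matrix

namespace Vale.Agent.P150.F

/-- the (unnormalised) evidence `∑ ν(x) exp(⟨z,x⟩ - δ/2 xᵀQx)`, the density of the law of the label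
with respect to the pure noise `N(0, δQ)` -/
noncomputable def evd {n : ℕ} (ν : Cfg n → ℝ) (Q : Mat n) (δ : ℝ) (z : Vec n) : ℝ :=
  ∑ x, ν x * Real.exp (ip z (sv x) - δ / 2 * qf Q (sv x))

/-- edge functional -/
noncomputable def AW {n : ℕ} (μ : Cfg n → ℝ) (a : Fin n → Cfg n → ℝ) : ℝ :=
  ∑ i, ∑ x, μ x * μ (flip x i) / (μ x + μ (flip x i)) * a i x

/-- CH1: Bayes formula -/
def CH1 : Prop :=
  ∀ (n m : ℕ) (R : Matrix (Fin n) (Fin m) ℝ) (δ : ℝ), 0 ≤ δ → ∀ ν : Cfg n → ℝ, IsProb ν →
    ∀ Φ : Cfg n → Vec n → ℝ, (∀ x, Integrable (fun ξ => Φ x (obs R δ x ξ)) (gpi (Fin m))) →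
      EC ν R δ Φ = EC ν R δ (fun _ z => ∑ x', pst ν (R * Rᵀ) δ z x' * Φ x' z)

/-- CH1': the label law under `ν` has density `μ^z(f)` with respect to the one under `μ`,
`f = ν/μ` -/
def CH1' : Prop :=
  ∀ (n m : ℕ) (R : Matrix (Fin n) (Fin m) ℝ) (δ : ℝ), 0 ≤ δ → ∀ μ f : Cfg n → ℝ, IsProb μ →
    (∀ x, 0 ≤ f x) → Ex μ f = 1 → ∀ Φ : Vec n → ℝ,
    (∀ x, Integrable (fun ξ => Φ (obs R δ x ξ)) (gpi (Fin m))) →
      EC (fun x => f x * μ x) R δ (fun _ z => Φ z)
        = EC μ R δ (fun _ z => Ex (pst μ (R * Rᵀ) δ z) f * Φ z)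

/-- posterior of a Gibbs measure -/
def CHG : Prop :=
  ∀ (n : ℕ) (M Q : Mat n) (y z : Vec n) (δ : ℝ), pst (gM M y) Q δ z = gM (M - δ • Q) (y + z)

/-- CH2: variance -/
def CH2 : Prop :=
  ∀ (n m : ℕ) (C : ℝ), ∃ K, 0 ≤ K ∧ ∀ (R : Matrix (Fin n) (Fin m) ℝ), (∀ i j, |R i j| ≤ C) →
    ∀ δ, 0 ≤ δ → δ ≤ 1 → ∀ ν : Cfg n → ℝ, IsProb ν → ∀ F : Cfg n → ℝ,
      VarX ν F ≤ EC ν R δ (fun _ z => VarX (pst ν (R * Rᵀ) δ z) F) + δ * qf (R * Rᵀ) (covF ν F)
        + K * (δ * √δ) * VarX ν F

/-- CH3: entropy -/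
def CH3 : Prop :=
  ∀ (n m : ℕ) (C : ℝ), ∃ K, 0 ≤ K ∧ ∀ (R : Matrix (Fin n) (Fin m) ℝ), (∀ i j, |R i j| ≤ C) →
    ∀ δ, 0 ≤ δ → δ ≤ 1 → ∀ ν : Cfg n → ℝ, IsProb ν →
      δ / 2 * (∑ i, (R * Rᵀ * covM ν) i i) - K * (δ * √δ)
        ≤ HS ν - EC ν R δ (fun _ z => HS (pst ν (R * Rᵀ) δ z))

/-- CH4': chain rule of relative entropy -/
def CH4' : Prop :=
  ∀ (n m : ℕ) (R : Matrix (Fin n) (Fin m) ℝ) (δ : ℝ), 0 ≤ δ → ∀ ν μ : Cfg n → ℝ, IsProb ν →
    IsProb μ → (∀ x, 0 < μ x) →
      KL ν μ = EC ν R δ (fun _ z => KL (pst ν (R * Rᵀ) δ z) (pst μ (R * Rᵀ) δ z))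
        + EC ν R δ (fun _ z => Real.log (evd ν (R * Rᵀ) δ z) - Real.log (evd μ (R * Rᵀ) δ z))

/-- CH4'': relative entropy of two label laws -/
def CH4'' : Prop :=
  ∀ (n m : ℕ) (C : ℝ), ∃ K, 0 ≤ K ∧ ∀ (R : Matrix (Fin n) (Fin m) ℝ), (∀ i j, |R i j| ≤ C) →
    ∀ δ, 0 ≤ δ → δ ≤ 1 → ∀ ν μ : Cfg n → ℝ, IsProb ν → IsProb μ →
      EC ν R δ (fun _ z => Real.log (evd ν (R * Rᵀ) δ z) - Real.log (evd μ (R * Rᵀ) δ z))
        ≤ δ / 2 * qf (R * Rᵀ) (fun i => mean ν i - mean μ i) + K * (δ * √δ)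

/-- CH5: monotonicity of edge functionals -/
def CH5 : Prop :=
  ∀ (n m : ℕ) (R : Matrix (Fin n) (Fin m) ℝ) (δ : ℝ), 0 ≤ δ → ∀ μ : Cfg n → ℝ, IsProb μ →
    ∀ a : Fin n → Cfg n → ℝ, (∀ i x, 0 ≤ a i x) →
      EC μ R δ (fun _ z => AW (pst μ (R * Rᵀ) δ z) a) ≤ AW μ a

/-- CH5a: Dirichlet form -/
def CH5a : Prop :=
  ∀ (n m : ℕ) (R : Matrix (Fin n) (Fin m) ℝ) (δ : ℝ), 0 ≤ δ → ∀ μ : Cfg n → ℝ, IsProb μ →
    ∀ F : Cfg n → ℝ,
      EC μ R δ (fun _ z => DirW (pst μ (R * Rᵀ) δ z) F F) ≤ DirW μ F F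

/-- CH5b: the square root Dirichlet form `I'` -/
def CH5b : Prop :=
  ∀ (n m : ℕ) (R : Matrix (Fin n) (Fin m) ℝ) (δ : ℝ), 0 ≤ δ → ∀ ν μ : Cfg n → ℝ, IsProb ν →
    IsProb μ → (∀ x, 0 < μ x) →
      EC ν R δ (fun _ z => IP' (pst ν (R * Rᵀ) δ z) (pst μ (R * Rᵀ) δ z)) ≤ IP' ν μ

/-- entropy production `Dir_μ(f, log f)`, `f = ν/μ` -/
noncomputable def EP {n : ℕ} (ν μ : Cfg n → ℝ) : ℝ :=
  DirW μ (fun x => ν x / μ x) (fun x => Real.log (ν x / μ x))

/-- CH5d: the DLR defect is controlled by `I'` -/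
def CH5d : Prop :=
  ∀ (n : ℕ) (M : Mat n) (y : Vec n), (∀ i j, M i j = M j i) → ∀ ν : Cfg n → ℝ, IsProb ν →
    (∀ x, 0 < ν x) → dlr M y ν ≤ 4 * IP' ν (gM M y)

/-- CH6: first moments -/
def CH6a : Prop :=
  ∀ (n m : ℕ) (R : Matrix (Fin n) (Fin m) ℝ) (δ : ℝ), 0 ≤ δ → ∀ ν : Cfg n → ℝ, IsProb ν →
    (∀ i, EC ν R δ (fun _ z => z i) = δ * (R * Rᵀ).mulVec (mean ν) i) ∧
    (∀ i, EC ν R δ (fun _ z => mean (pst ν (R * Rᵀ) δ z) i) = mean ν i) ∧
    (∀ F : Cfg n → ℝ, EC ν R δ (fun _ z => Ex (pst ν (R * Rᵀ) δ z) F) = Ex ν F) ∧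
    (∀ i j, EC ν R δ (fun _ z => z i * z j) = δ * (R * Rᵀ) i j
      + δ ^ 2 * ∑ x, ν x * ((R * Rᵀ).mulVec (sv x) i * (R * Rᵀ).mulVec (sv x) j))

end Vale.Agent.P150.F
end

section

/-! Adaptive Gaussian-channel processes on the cube: abstract interface for D6, D7, D8. -/

open MeasureTheory ProbabilityTheory Filter Topology Real
open scoped Matrix

namespace Vale.Agent.P150.F

variable {n m : ℕ} {S : Type} [MeasurableSpace S]

/-- an adaptive Gaussian channel process: in state `s` the spins have law `gM (M s) (y s)`, the label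
`z = δ Q σ + √δ R ξ` (`Q = R Rᵀ`, `R = R s`, `δ = δ s`) is observed and the new state is `nxt s z`. -/
structure Proc (n m : ℕ) (S : Type) [MeasurableSpace S] where
  /-- duration of the micro step -/
  δ : S → ℝ
  hδ : ∀ s, 0 < δ s
  hδ1 : ∀ s, δ s ≤ 1
  /-- coupling matrix of a state -/
  M : S → Mat n
  /-- field of a state -/
  y : S → Vec n
  /-- driving matrix of a state -/
  R : S → Matrix (Fin n) (Fin m) ℝ
  /-- new state -/
  nxt : S → Vec n → S
  measδ : Measurable δ
  measM : ∀ i j, Measurable fun s => M s i j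
  measy : ∀ i, Measurable fun s => y s i
  measR : ∀ i j, Measurable fun s => R s i j
  measnxt : Measurable fun p : S × Vec n => nxt p.1 p.2
  hM : ∀ s z, M (nxt s z) = M s - δ s • (R s * (R s)ᵀ)
  hy : ∀ s z, y (nxt s z) = y s + z

/-- exponential tilt of weights -/
noncomputable def tilt (μ : Cfg n → ℝ) (u : Vec n) (x : Cfg n) : ℝ :=
  μ x * Real.exp (ip u (sv x)) / ∑ x', μ x' * Real.exp (ip u (sv x'))

lemma gM_pos (M : Mat n) (y : Vec n) (x : Cfg n) : 0 < gM M y x :=
  div_pos (Real.exp_pos _) (Finset.sum_pos (fun _ _ => Real.exp_pos _) Finset.univ_nonempty)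

lemma gM_sum (M : Mat n) (y : Vec n) : ∑ x, gM M y x = 1 := by
  unfold gM
  rw [← Finset.sum_div]
  exact div_self (Finset.sum_pos (fun _ _ => Real.exp_pos _) Finset.univ_nonempty).ne'

lemma gM_isProb (M : Mat n) (y : Vec n) : IsProb (gM M y) :=
  ⟨fun x => (gM_pos M y x).le, gM_sum M y⟩

namespace Proc

variable (P : Proc n m S)

/-- the driving covariance `Q = R Rᵀ` of a state -/
def Q (s : S) : Mat n := P.R s * (P.R s)ᵀ

/-- law of the spins in state `s` -/
noncomputable def law (s : S) : Cfg n → ℝ := gM (P.M s) (P.y s)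

/-- new state, in terms of the true spins and the noise -/
noncomputable def nx (s : S) (x : Cfg n) (ξ : Fin m → ℝ) : S := P.nxt s (obs (P.R s) (P.δ s) x ξ)

/-- one step of the process driven by the true spins `x` -/
noncomputable def T (Φ : S → Cfg n → ℝ) (s : S) (x : Cfg n) : ℝ :=
  ∫ ξ, Φ (P.nx s x ξ) x ∂(gpi (Fin m))

/-- average over the posterior law -/
noncomputable def avg (Φ : S → Cfg n → ℝ) (s : S) : ℝ := ∑ x, P.law s x * Φ s x

open Classical in
/-- probability, given the current state `s` with `k` remaining steps and the true spins `x`, that the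
process is in the (time dependent) set `B` at one of the remaining times `k, k-1, …, 0` -/
noncomputable def hit (B : ℕ → Set S) : ℕ → S → Cfg n → ℝ
  | 0, s, _ => if s ∈ B 0 then 1 else 0
  | (k + 1), s, x => if s ∈ B (k + 1) then 1 else P.T (hit B k) s x

/-- probability of hitting `B` under the posterior law of state `s` -/
noncomputable def hitE (B : ℕ → Set S) (k : ℕ) (s : S) : ℝ := P.avg (P.hit B k) s

lemma law_pos (s : S) (x : Cfg n) : 0 < P.law s x := gM_pos _ _ _
lemma law_sum (s : S) : ∑ x, P.law s x = 1 := gM_sum _ _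
lemma law_isProb (s : S) : IsProb (P.law s) := gM_isProb _ _

/-- measurability of the Gibbs weights -/
lemma meas_law (x : Cfg n) : Measurable fun s => P.law s x := by
  have hm : ∀ x : Cfg n, Measurable fun s => Real.exp (qf (P.M s) (sv x) / 2 + ip (P.y s) (sv x)) := by
    intro x
    apply Real.measurable_exp.comp
    apply Measurable.add
    · apply Measurable.div_const
      unfold qf ip Matrix.mulVec dotProduct
      refine Finset.measurable_fun_sum _ fun i _ => Measurable.const_mul ?_ _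
      refine Finset.measurable_fun_sum _ fun j _ => (P.measM i j).mul_const _
    · unfold ip
      exact Finset.measurable_fun_sum _ fun i _ => (P.measy i).mul_const _
  unfold law gM
  exact (hm x).div (Finset.measurable_fun_sum _ fun x' _ => hm x')

lemma meas_obs (x : Cfg n) :
    Measurable fun p : S × (Fin m → ℝ) => obs (P.R p.1) (P.δ p.1) x p.2 := by
  refine measurable_pi_lambda _ fun i => ?_
  unfold obs Matrix.mulVec dotProduct
  have hR : ∀ i j, Measurable fun p : S × (Fin m → ℝ) => P.R p.1 i j :=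
    fun i j => (P.measR i j).comp measurable_fst
  have hd : Measurable fun p : S × (Fin m → ℝ) => P.δ p.1 := P.measδ.comp measurable_fst
  apply Measurable.add
  · refine hd.mul (Finset.measurable_fun_sum _ fun j _ => Measurable.mul_const ?_ _)
    simp only [Matrix.mul_apply, Matrix.transpose_apply]
    exact Finset.measurable_fun_sum _ fun k _ => (hR i k).mul (hR j k)
  · refine (Real.continuous_sqrt.measurable.comp hd).mul
      (Finset.measurable_fun_sum _ fun j _ => (hR i j).mul ?_)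
    exact (measurable_pi_apply j).comp measurable_snd

lemma meas_nx (x : Cfg n) : Measurable fun p : S × (Fin m → ℝ) => P.nx p.1 x p.2 :=
  P.measnxt.comp (measurable_fst.prodMk (P.meas_obs x))

lemma meas_nx_right (s : S) (x : Cfg n) : Measurable fun ξ : Fin m → ℝ => P.nx s x ξ :=
  (P.meas_nx x).comp (measurable_const.prodMk measurable_id)

instance : IsProbabilityMeasure (gpi (Fin m)) := by unfold gpi; infer_instance

lemma meas_T {Φ : S → Cfg n → ℝ} (hΦ : ∀ x, Measurable fun s => Φ s x) (x : Cfg n) :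
    Measurable fun s => P.T Φ s x := by
  unfold T
  have h : Measurable fun p : S × (Fin m → ℝ) => Φ (P.nx p.1 x p.2) x := (hΦ x).comp (P.meas_nx x)
  exact (h.stronglyMeasurable.integral_prod_right').measurable

lemma meas_avg {Φ : S → Cfg n → ℝ} (hΦ : ∀ x, Measurable fun s => Φ s x) :
    Measurable fun s => P.avg Φ s := by
  unfold avg
  exact Finset.measurable_fun_sum _ fun x _ => (P.meas_law x).mul (hΦ x)

/-- integrability of bounded measurable functionals of the new state -/
lemma integrable_nx {Φ : S → Cfg n → ℝ} (hΦ : ∀ x, Measurable fun s => Φ s x) {C : ℝ}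
    (hC : ∀ s x, |Φ s x| ≤ C) (s : S) (x x' : Cfg n) :
    Integrable (fun ξ => Φ (P.nx s x ξ) x') (gpi (Fin m)) := by
  refine Integrable.of_bound ((hΦ x').comp (P.meas_nx_right s x)).aestronglyMeasurable C ?_
  exact Eventually.of_forall fun ξ => by rw [Real.norm_eq_abs]; exact hC _ _

lemma T_const (c : ℝ) (s : S) (x : Cfg n) : P.T (fun _ _ => c) s x = c := by
  unfold T; simp

lemma avg_mono {Φ Ψ : S → Cfg n → ℝ} {s : S} (h : ∀ x, Φ s x ≤ Ψ s x) : P.avg Φ s ≤ P.avg Ψ s :=
  Finset.sum_le_sum fun x _ => mul_le_mul_of_nonneg_left (h x) (P.law_pos s x).le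

lemma avg_const (c : ℝ) (s : S) : P.avg (fun _ _ => c) s = c := by
  unfold avg; rw [← Finset.sum_mul, law_sum, one_mul]

lemma avg_of_const (Φ : S → ℝ) (s : S) : P.avg (fun s _ => Φ s) s = Φ s := by
  unfold avg; rw [← Finset.sum_mul, law_sum, one_mul]

/-! ### hitting probabilities -/

lemma hit_zero (B : ℕ → Set S) (s : S) (x : Cfg n) [Decidable (s ∈ B 0)] :
    P.hit B 0 s x = if s ∈ B 0 then 1 else 0 := by
  unfold hit; split_ifs <;> rfl

lemma hit_of_mem (B : ℕ → Set S) {k : ℕ} {s : S} (h : s ∈ B k) (x : Cfg n) : P.hit B k s x = 1 := by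
  cases k with
  | zero => unfold hit; simp [h]
  | succ k => unfold hit; simp [h]

lemma hit_zero_not (B : ℕ → Set S) {s : S} (h : s ∉ B 0) (x : Cfg n) : P.hit B 0 s x = 0 := by
  unfold hit; simp [h]

lemma hit_succ_not (B : ℕ → Set S) {k : ℕ} {s : S} (h : s ∉ B (k + 1)) (x : Cfg n) :
    P.hit B (k + 1) s x = P.T (P.hit B k) s x := by
  conv_lhs => unfold hit
  simp [h]

lemma meas_hit (B : ℕ → Set S) (hB : ∀ k, MeasurableSet (B k)) :
    ∀ k x, Measurable fun s => P.hit B k s x := by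
  classical
  intro k
  induction k with
  | zero =>
    intro x
    have : (fun s => P.hit B 0 s x) = fun s => if s ∈ B 0 then (1 : ℝ) else 0 := by
      funext s; exact P.hit_zero B s x
    rw [this]
    exact Measurable.ite (hB 0) measurable_const measurable_const
  | succ k ih =>
    intro x
    have : (fun s => P.hit B (k + 1) s x)
        = fun s => if s ∈ B (k + 1) then (1 : ℝ) else P.T (P.hit B k) s x := by
      funext s
      by_cases h : s ∈ B (k + 1)
      · rw [P.hit_of_mem B h, if_pos h]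
      · rw [P.hit_succ_not B h, if_neg h]
    rw [this]
    exact Measurable.ite (hB (k + 1)) measurable_const (P.meas_T ih x)

lemma hit_nonneg (B : ℕ → Set S) : ∀ k s x, 0 ≤ P.hit B k s x := by
  intro k
  induction k with
  | zero =>
    intro s x
    by_cases h : s ∈ B 0
    · rw [P.hit_of_mem B h]; norm_num
    · rw [P.hit_zero_not B h]
  | succ k ih =>
    intro s x
    by_cases h : s ∈ B (k + 1)
    · rw [P.hit_of_mem B h]; norm_num
    · rw [P.hit_succ_not B h]; exact integral_nonneg fun _ => ih _ _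

lemma hit_le_one (B : ℕ → Set S) : ∀ k s x, P.hit B k s x ≤ 1 := by
  intro k
  induction k with
  | zero =>
    intro s x
    by_cases h : s ∈ B 0
    · rw [P.hit_of_mem B h]
    · rw [P.hit_zero_not B h]; norm_num
  | succ k ih =>
    intro s x
    by_cases h : s ∈ B (k + 1)
    · rw [P.hit_of_mem B h]
    · rw [P.hit_succ_not B h]
      unfold T
      by_cases hi : Integrable (fun ξ => P.hit B k (P.nx s x ξ) x) (gpi (Fin m))
      · calc _ ≤ ∫ _ξ, (1 : ℝ) ∂(gpi (Fin m)) := integral_mono hi (integrable_const _) fun _ => ih _ _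
          _ = 1 := by simp
      · rw [integral_undef hi]; norm_num

lemma abs_hit_le (B : ℕ → Set S) (k : ℕ) (s : S) (x : Cfg n) : |P.hit B k s x| ≤ 1 := by
  rw [abs_of_nonneg (P.hit_nonneg B k s x)]; exact P.hit_le_one B k s x

lemma hitE_nonneg (B : ℕ → Set S) (k : ℕ) (s : S) : 0 ≤ P.hitE B k s :=
  Finset.sum_nonneg fun x _ => mul_nonneg (P.law_pos s x).le (P.hit_nonneg B k s x)

lemma hitE_le_one (B : ℕ → Set S) (k : ℕ) (s : S) : P.hitE B k s ≤ 1 := by
  calc _ ≤ P.avg (fun _ _ => (1 : ℝ)) s := P.avg_mono fun x => P.hit_le_one B k s x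
    _ = 1 := P.avg_const 1 s

lemma hitE_of_mem (B : ℕ → Set S) {k : ℕ} {s : S} (h : s ∈ B k) : P.hitE B k s = 1 := by
  unfold hitE avg
  calc _ = ∑ x, P.law s x * 1 := Finset.sum_congr rfl fun x _ => by rw [P.hit_of_mem B h]
    _ = 1 := by rw [← Finset.sum_mul, law_sum, one_mul]

lemma meas_hitE (B : ℕ → Set S) (hB : ∀ k, MeasurableSet (B k)) (k : ℕ) :
    Measurable fun s => P.hitE B k s := P.meas_avg fun x => P.meas_hit B hB k x

/-! ### Bayes formula -/

/-- `avg (T Φ) = avg (T (avg Φ))` -/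
theorem avg_T (h1 : CH1) (hG : CHG) (Φ : S → Cfg n → ℝ) (s : S)
    (hΦ : ∀ x, Integrable (fun ξ => Φ (P.nx s x ξ) x) (gpi (Fin m))) :
    P.avg (P.T Φ) s = P.avg (P.T fun s' _ => P.avg Φ s') s := by
  have := h1 n m (P.R s) (P.δ s) (P.hδ s).le (P.law s) (P.law_isProb s)
    (fun x z => Φ (P.nxt s z) x) hΦ
  unfold EC at this
  unfold avg T nx
  rw [this]
  refine Finset.sum_congr rfl fun x _ => ?_
  congr 1
  refine integral_congr_ae (Eventually.of_forall fun ξ => ?_)
  beta_reduce
  refine Finset.sum_congr rfl fun x' _ => ?_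
  unfold law
  rw [hG, P.hM, P.hy]

theorem avg_T_bdd (h1 : CH1) (hG : CHG) {Φ : S → Cfg n → ℝ} (hΦ : ∀ x, Measurable fun s => Φ s x)
    {C : ℝ} (hC : ∀ s x, |Φ s x| ≤ C) (s : S) :
    P.avg (P.T Φ) s = P.avg (P.T fun s' _ => P.avg Φ s') s :=
  P.avg_T h1 hG Φ s fun x => P.integrable_nx hΦ hC s x x

theorem hitE_succ (h1 : CH1) (hG : CHG) (B : ℕ → Set S) (hB : ∀ k, MeasurableSet (B k)) {k : ℕ}
    {s : S} (h : s ∉ B (k + 1)) :
    P.hitE B (k + 1) s = P.avg (P.T fun s' _ => P.hitE B k s') s := by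
  have e : P.hitE B (k + 1) s = P.avg (P.T (P.hit B k)) s := by
    unfold hitE avg
    exact Finset.sum_congr rfl fun x _ => by rw [P.hit_succ_not B h]
  rw [e, P.avg_T_bdd h1 hG (P.meas_hit B hB k) (P.abs_hit_le B k)]
  rfl

/-- the set of bad states: exit states and states from which the exit probability exceeds `θ` -/
def badSet (E : ℕ → Set S) (θ : ℝ) (k : ℕ) : Set S := {s | s ∈ E k ∨ θ < P.hitE E k s}

lemma meas_badSet (E : ℕ → Set S) (hE : ∀ k, MeasurableSet (E k)) (θ : ℝ) (k : ℕ) :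
    MeasurableSet (P.badSet E θ k) :=
  (hE k).union (measurableSet_lt measurable_const (P.meas_hitE E hE k))

/-- **maximal inequality** -/
theorem hitE_badSet_le (h1 : CH1) (hG : CHG) (E : ℕ → Set S) (hE : ∀ k, MeasurableSet (E k)) {θ : ℝ}
    (hθ : 0 < θ) (hθ1 : θ ≤ 1) : ∀ k s, P.hitE (P.badSet E θ) k s ≤ P.hitE E k s / θ := by
  have hbad : ∀ k s, s ∈ P.badSet E θ k → P.hitE (P.badSet E θ) k s ≤ P.hitE E k s / θ := by
    intro k s hs
    rw [P.hitE_of_mem _ hs, le_div_iff₀ hθ, one_mul]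
    rcases hs with hs | hs
    · rw [P.hitE_of_mem _ hs]; exact hθ1
    · exact hs.le
  intro k
  induction k with
  | zero =>
    intro s
    by_cases hs : s ∈ P.badSet E θ 0
    · exact hbad 0 s hs
    · have h0 : P.hitE (P.badSet E θ) 0 s = 0 := by
        unfold hitE avg
        exact Finset.sum_eq_zero fun x _ => by rw [P.hit_zero_not _ hs, mul_zero]
      rw [h0]; exact div_nonneg (P.hitE_nonneg _ _ _) hθ.le
  | succ k ih =>
    intro s
    by_cases hs : s ∈ P.badSet E θ (k + 1)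
    · exact hbad _ s hs
    · have hs' : s ∉ E (k + 1) := fun h => hs (Or.inl h)
      rw [P.hitE_succ h1 hG _ (P.meas_badSet E hE θ) hs, P.hitE_succ h1 hG _ hE hs', le_div_iff₀ hθ]
      unfold avg
      rw [Finset.sum_mul]
      refine Finset.sum_le_sum fun x _ => ?_
      rw [mul_assoc]
      refine mul_le_mul_of_nonneg_left ?_ (P.law_pos s x).le
      unfold T
      rw [← integral_mul_const]
      refine integral_mono ?_ ?_ fun ξ => ?_
      · refine Integrable.mul_const ?_ _
        refine P.integrable_nx (Φ := fun s' _ => P.hitE (P.badSet E θ) k s') (C := 1)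
          (fun _ => P.meas_hitE _ (P.meas_badSet E hE θ) k) (fun s' _ => ?_) s x x
        rw [abs_of_nonneg (P.hitE_nonneg _ _ _)]; exact P.hitE_le_one _ _ _
      · refine P.integrable_nx (Φ := fun s' _ => P.hitE E k s') (C := 1)
          (fun _ => P.meas_hitE _ hE k) (fun s' _ => ?_) s x x
        rw [abs_of_nonneg (P.hitE_nonneg _ _ _)]; exact P.hitE_le_one _ _ _
      · beta_reduce
        have := ih (P.nx s x ξ)
        rwa [le_div_iff₀ hθ] at this

end Proc

end Vale.Agent.P150.F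
end

section

/-! P150 FULL, D6: the concrete schedule of couplings, directions and driving matrices (definitions by
helper123; note 6567). -/

open MeasureTheory ProbabilityTheory Filter Topology
open scoped Matrix

namespace Vale.Agent.P150.F

/-- parameters of the concrete scheme -/
structure SPar (n : ℕ) where
  /-- inverse temperature -/
  β : ℝ
  /-- multiple of the identity added to `J` -/
  κ₀ : ℝ
  /-- number of windows -/
  Nw : ℕ
  /-- number of steering directions per window -/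
  d : ℕ
  /-- steering strength -/
  Ks : ℝ
  /-- strength of the final killing -/
  Kp : ℝ
  /-- relative radius of the balls -/
  ρ : ℝ
  /-- micro steps per phase -/
  q : ℕ
  /-- grid of the centres -/
  ℓ : ℕ
  /-- couplings -/
  J : Mat n
  /-- root of `J + κ₀` -/
  S0 : Mat n
  /-- `dirs i p a`: direction `a` of window `i` for the centre `p` -/
  dirs : ℕ → Vec n → ℕ → Vec n
  hβ : 0 ≤ β
  hβ1 : β < 1
  hκ : 0 ≤ κ₀
  hNw : 0 < Nw
  hd : 0 < d
  hKs : 0 ≤ Ks
  hKp : Nw * d * Ks ≤ Kp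
  hρ : 0 < ρ
  hq : 0 < q
  hℓ : 0 < ℓ
  hJ : J.IsSymm
  hJ3 : OpLe J 3
  hS0 : S0 * S0ᵀ = J + κ₀ • (1 : Mat n)
  hdirs : ∀ i p a, dirs i p a = 0 ∨ sq (dirs i p a) = 1

/-- the kind of a phase -/
inductive Kind (Nw d : ℕ) where
  | steer (i : Fin Nw) (a : Fin d)
  | kill (i : Fin Nw)
  | last
  | idle

namespace SPar

variable {n : ℕ} (p : SPar n)

/-- rounded centres of the windows -/
abbrev Ctr := Fin p.Nw → Fin n → ℤ

/-- duration of a window -/
noncomputable def τ : ℝ := p.β / p.Nw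

/-- size of a micro step -/
noncomputable def dl : ℝ := 1 / p.q

/-- number of phases -/
def nF : ℕ := p.Nw * (p.d + 1) + 1

/-- number of levels -/
def N : ℕ := p.nF * p.q

/-- completed fraction of phase `f` at level `k` -/
noncomputable def th (f k : ℕ) : ℝ := ((min (k - f * p.q) p.q : ℕ) : ℝ) / p.q

/-- the kind of the micro step from level `k` to level `k + 1` -/
def kind (k : ℕ) : Kind p.Nw p.d :=
  if h : k / p.q / (p.d + 1) < p.Nw then
    if h2 : k / p.q % (p.d + 1) < p.d then .steer ⟨_, h⟩ ⟨_, h2⟩ else .kill ⟨_, h⟩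
  else if k < p.N then .last else .idle

/-- centre of window `i` -/
noncomputable def ctr (P : p.Ctr) (i : Fin p.Nw) : Vec n := fun j => (P i j : ℝ) / p.ℓ

/-- centre used for the ball in the steering phases of window `i` -/
noncomputable def ctrPrev (P : p.Ctr) (i : Fin p.Nw) : Vec n :=
  if h : 0 < (i : ℕ) then p.ctr P ⟨i - 1, by omega⟩ else 0

/-- steering direction `a` of window `i` -/
noncomputable def vd (P : p.Ctr) (i : Fin p.Nw) (a : Fin p.d) : Vec n := p.dirs i (p.ctr P i) a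

/-- the parameter `r` at level `k` -/
noncomputable def rr (k : ℕ) : ℝ :=
  p.β - p.τ * ∑ i : Fin p.Nw, p.th (i * (p.d + 1) + p.d) k

/-- the steering matrix with all directions completed -/
noncomputable def Atot (P : p.Ctr) : Mat n :=
  ∑ i : Fin p.Nw, ∑ a : Fin p.d, p.Ks • Matrix.vecMulVec (p.vd P i a) (p.vd P i a)

/-- the steering matrix at level `k` -/
noncomputable def AA (k : ℕ) (P : p.Ctr) : Mat n :=
  (1 - p.th (p.Nw * (p.d + 1)) k) • ∑ i : Fin p.Nw, ∑ a : Fin p.d,
    (p.th (i * (p.d + 1) + a) k * p.Ks) • Matrix.vecMulVec (p.vd P i a) (p.vd P i a)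

/-- the multiple of the identity at level `k` -/
noncomputable def cc (k : ℕ) : ℝ :=
  p.κ₀ * (p.β - p.rr k) + p.Kp * p.th (p.Nw * (p.d + 1)) k

/-- the couplings at level `k` -/
noncomputable def MM (k : ℕ) (P : p.Ctr) : Mat n := p.rr k • p.J - p.AA k P - p.cc k • (1 : Mat n)

open Classical in
/-- a root of `Kp - Atot` -/
noncomputable def rootF (P : p.Ctr) : Mat n :=
  if h : ∃ B : Mat n, B * Bᵀ = p.Kp • (1 : Mat n) - p.Atot P then h.choose else 0

/-- the driving matrix at level `k` -/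
noncomputable def RR (k : ℕ) (P : p.Ctr) : Mat n :=
  match p.kind k with
  | .steer i a => √p.Ks • Matrix.vecMulVec (p.vd P i a) (p.vd P i a)
  | .kill _ => √p.τ • p.S0
  | .last => p.rootF P
  | .idle => 0

/-- the centre of the ball containing the tracked solution at level `k` -/
noncomputable def cen (k : ℕ) (P : p.Ctr) : Vec n :=
  match p.kind k with
  | .steer i _ => p.ctrPrev P i
  | .kill i => p.ctr P i
  | .last => 0
  | .idle => 0

/-- the radius of the ball containing the tracked solution at level `k` -/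
noncomputable def rad (k : ℕ) : ℝ :=
  match p.kind k with
  | .steer _ _ => p.ρ * √n
  | .kill _ => p.ρ * √n
  | .last => √n
  | .idle => √n

/-- `m` is too far from the centres which are tested at level `k` -/
def far (k : ℕ) (P : p.Ctr) (m : Vec n) : Prop :=
  match p.kind k with
  | .steer i _ => p.ρ * √n / 2 < nv (m - p.ctrPrev P i) ∨ p.ρ * √n / 2 < nv (m - p.ctr P i)
  | .kill i => p.ρ * √n / 2 < nv (m - p.ctr P i)
  | .last => False
  | .idle => False

/-- new centres, when level `k` is reached with tracked solution `m` -/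
noncomputable def updC (k : ℕ) (P : p.Ctr) (m : Vec n) : p.Ctr := fun i j =>
  if k = i * (p.d + 1) * p.q then ⌊p.ℓ * m j⌋ else P i j

end SPar

end Vale.Agent.P150.F
end
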