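import Mathlib
import Vale.Agent.P150.Bdl.B1

set_option linter.all false

section

/-! Module D6b (window facts): monotonicity, uniqueness and existence of the TAP solution in a
window where the TAP Hessian is bounded below; steered Hessian from the uniform count. -/

open Finset Filter Topology

namespace Vale.Agent.P150.F

namespace Win

variable {n : ℕ}

/-! ### vectors -/

lemma sq_add_smul (m v : Vec n) (t : ℝ) :
    sq (m + t • v) = sq m + 2 * t * ip m v + t ^ 2 * sq v := by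
  rw [← ipN_self, ip_add_left, ip_add_right, ip_add_right, ip_smul_left, ip_smul_right,
    ip_smul_right, ip_smul_left, ipN_self, ipN_self, ipN_comm v m]
  ring

/-! ### artanh -/

lemma hasDerivAt_artanh {x : ℝ} (hx : |x| < 1) :
    HasDerivAt Real.artanh (1 / (1 - x ^ 2)) x := by
  obtain ⟨h1, h2⟩ := abs_lt.1 hx
  have a1 : HasDerivAt (fun x : ℝ => Real.log (1 + x)) (1 / (1 + x)) x := by
    have := ((hasDerivAt_id x).const_add 1).log (by simp only [id]; linarith)
    simpa using this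
  have a2 : HasDerivAt (fun x : ℝ => Real.log (1 - x)) (-1 / (1 - x)) x := by
    have := ((hasDerivAt_id x).const_sub 1).log (by simp only [id]; linarith)
    simpa using this
  have hd := (a1.sub a2).const_mul (1 / 2 : ℝ)
  have e : 1 / 2 * (1 / (1 + x) - -1 / (1 - x)) = 1 / (1 - x ^ 2) := by
    have e1 : (1 + x) ≠ 0 := by linarith
    have e2 : (1 - x) ≠ 0 := by linarith
    have e3 : (1 - x ^ 2) ≠ 0 := by nlinarith
    field_simp
    ring
  rw [e] at hd
  refine hd.congr_of_eventuallyEq ?_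
  filter_upwards [Ioo_mem_nhds h1 h2] with z hz
  rw [Real.artanh_eq_half_log ⟨hz.1.le, hz.2.le⟩,
    Real.log_div (by linarith [hz.1]) (by linarith [hz.2])]
  rfl

lemma tanh_mem (x : ℝ) : Real.tanh x ∈ Set.Ioo (-1 : ℝ) 1 :=
  ⟨Real.neg_one_lt_tanh x, Real.tanh_lt_one x⟩

lemma tanh_le {a b : ℝ} (h : a ≤ b) : Real.tanh a ≤ Real.tanh b :=
  (Real.artanh_le_artanh_iff (tanh_mem a) (tanh_mem b)).1
    (by rwa [Real.artanh_tanh, Real.artanh_tanh])

/-- the entropy -/
noncomputable def ent (x : ℝ) : ℝ := x * Real.artanh x + 1 / 2 * Real.log (1 - x ^ 2)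

lemma hasDerivAt_ent {x : ℝ} (hx : |x| < 1) : HasDerivAt ent (Real.artanh x) x := by
  obtain ⟨h1, h2⟩ := abs_lt.1 hx
  have e3 : (1 - x ^ 2) ≠ 0 := by nlinarith
  have a1 := (hasDerivAt_id x).mul (hasDerivAt_artanh hx)
  have a2 : HasDerivAt (fun x : ℝ => Real.log (1 - x ^ 2)) (-(2 * x) / (1 - x ^ 2)) x := by
    have := ((hasDerivAt_pow 2 x).const_sub 1).log e3
    simpa using this
  have := a1.add (a2.const_mul (1 / 2 : ℝ))
  refine HasDerivAt.congr_deriv this ?_
  simp only [id]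
  field_simp
  ring

/-! ### the TAP gradient and free energy along lines -/

/-- the TAP free energy -/
noncomputable def tapF (r : ℝ) (J A : Mat n) (y m : Vec n) : ℝ :=
  (∑ i, ent (m i)) - 1 / 2 * (r * qf J m - qf A m) - ip y m - r ^ 2 * n / 4 * (1 - qq m) ^ 2

lemma mulVec_line (J : Mat n) (m v : Vec n) (t : ℝ) :
    J.mulVec (m + t • v) = J.mulVec m + t • J.mulVec v := by
  rw [Matrix.mulVec_add, Matrix.mulVec_smul]

lemma qf_line {J : Mat n} (hJ : J.IsSymm) (m v : Vec n) (t : ℝ) :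
    qf J (m + t • v) = qf J m + 2 * t * ip v (J.mulVec m) + t ^ 2 * qf J v := by
  unfold qf
  have e : ip m (J.mulVec v) = ip v (J.mulVec m) := by rw [ip_mulVec_comm hJ, ipN_comm]
  rw [mulVec_line, ip_add_left, ip_add_right, ip_add_right, ip_smul_left, ip_smul_left,
    ip_smul_right, ip_smul_right, e]
  ring

lemma qq_line (m v : Vec n) (t : ℝ) :
    qq (m + t • v) = (sq m + 2 * t * ip m v + t ^ 2 * sq v) / n := by
  unfold qq; rw [sq_add_smul]

lemma tapG_ip (r : ℝ) (J A : Mat n) (y m v : Vec n) :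
    ip (tapG r J A y m) v = (∑ i, Real.artanh (m i) * v i) - r * ip (J.mulVec m) v
      + ip (A.mulVec m) v - ip y v + r ^ 2 * (1 - qq m) * ip m v := by
  unfold ip tapG tapB
  rw [Finset.mul_sum, Finset.mul_sum, ← Finset.sum_sub_distrib, ← Finset.sum_add_distrib,
    ← Finset.sum_sub_distrib, ← Finset.sum_add_distrib]
  exact Finset.sum_congr rfl fun i _ => by ring

lemma dg_mulVec (a v : Vec n) (i : Fin n) : (dg a).mulVec v i = a i * v i := by
  unfold dg; rw [Matrix.mulVec_diagonal]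

lemma qf_add (A B : Mat n) (v : Vec n) : qf (A + B) v = qf A v + qf B v := by
  unfold qf; rw [Matrix.add_mulVec, ip_add_right]

lemma qf_smul (a : ℝ) (A : Mat n) (v : Vec n) : qf (a • A) v = a * qf A v := by
  unfold qf; rw [Matrix.smul_mulVec, ip_smul_right]

lemma qf_sub (A B : Mat n) (v : Vec n) : qf (A - B) v = qf A v - qf B v := by
  unfold qf; rw [Matrix.sub_mulVec, ip_sub_right]

lemma qf_one (v : Vec n) : qf (1 : Mat n) v = sq v := by
  unfold qf; rw [Matrix.one_mulVec, ipN_self]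

lemma qf_dg (a v : Vec n) : qf (dg a) v = ∑ i, a i * v i ^ 2 := by
  unfold qf ip
  exact Finset.sum_congr rfl fun i _ => by rw [dg_mulVec]; ring

lemma qf_vecMulVec (m v : Vec n) : qf (Matrix.vecMulVec m m) v = ip m v ^ 2 := by
  unfold qf
  have : (Matrix.vecMulVec m m).mulVec v = (ip m v) • m := by
    funext i
    simp only [Matrix.mulVec, Matrix.vecMulVec, dotProduct, ip, Matrix.of_apply, Pi.smul_apply,
      smul_eq_mul, Finset.sum_mul]
    exact Finset.sum_congr rfl fun j _ => by ring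
  rw [this, ip_smul_right, ipN_comm]; ring

lemma qf_Hess (r : ℝ) (J A : Mat n) (m v : Vec n) :
    qf (Hess r J A m) v = (∑ i, 1 / (1 - m i ^ 2) * v i ^ 2) + r ^ 2 * (1 - qq m) * sq v
      - r * qf J v + qf A v - 2 * r ^ 2 / n * ip m v ^ 2 := by
  unfold Hess
  rw [qf_sub, qf_add, qf_sub, qf_add, qf_dg, qf_smul, qf_smul, qf_smul, qf_one, qf_vecMulVec]

/-- derivative of the TAP gradient along a line -/
lemma hasDerivAt_tapG_line (r : ℝ) (J A : Mat n) (y m v : Vec n) (t : ℝ)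
    (h : ∀ i, |(m + t • v) i| < 1) :
    HasDerivAt (fun t : ℝ => ip (tapG r J A y (m + t • v)) v)
      (qf (Hess r J A (m + t • v)) v) t := by
  have e1 : (fun t : ℝ => ip (tapG r J A y (m + t • v)) v) = fun t : ℝ =>
      (∑ i, Real.artanh (m i + t * v i) * v i) - r * (ip (J.mulVec m) v + t * ip (J.mulVec v) v)
      + (ip (A.mulVec m) v + t * ip (A.mulVec v) v) - ip y v
      + r ^ 2 * (1 - (sq m + 2 * t * ip m v + t ^ 2 * sq v) / n) * (ip m v + t * sq v) := by
    funext t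
    rw [tapG_ip, mulVec_line, mulVec_line, ip_add_left, ip_add_left, ip_smul_left, ip_smul_left,
      ip_add_left, ip_smul_left, ipN_self, qq_line]
    rfl
  rw [e1]
  have d1 : HasDerivAt (fun t : ℝ => ∑ i, Real.artanh (m i + t * v i) * v i)
      (∑ i, 1 / (1 - (m + t • v) i ^ 2) * v i ^ 2) t := by
    have : ∀ i ∈ (Finset.univ : Finset (Fin n)),
        HasDerivAt (fun t : ℝ => Real.artanh (m i + t * v i) * v i)
          (1 / (1 - (m + t • v) i ^ 2) * v i ^ 2) t := by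
      intro i _
      have hl : HasDerivAt (fun t : ℝ => m i + t * v i) (v i) t := by
        simpa using ((hasDerivAt_id t).mul_const (v i)).const_add (m i)
      have ha := (hasDerivAt_artanh (h i))
      have hc := (HasDerivAt.comp t ha hl).mul_const (v i)
      exact HasDerivAt.congr_deriv hc (by ring)
    simpa using HasDerivAt.fun_sum this
  have d2 : HasDerivAt (fun t : ℝ => r * (ip (J.mulVec m) v + t * ip (J.mulVec v) v))
      (r * ip (J.mulVec v) v) t := by
    simpa using ((((hasDerivAt_id t).mul_const (ip (J.mulVec v) v)).const_add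
      (ip (J.mulVec m) v)).const_mul r)
  have d3 : HasDerivAt (fun t : ℝ => (ip (A.mulVec m) v + t * ip (A.mulVec v) v))
      (ip (A.mulVec v) v) t := by
    simpa using (((hasDerivAt_id t).mul_const (ip (A.mulVec v) v)).const_add
      (ip (A.mulVec m) v))
  have d4 : HasDerivAt (fun t : ℝ => ip m v + t * sq v) (sq v) t := by
    simpa using (((hasDerivAt_id t).mul_const (sq v)).const_add (ip m v))
  have d5 : HasDerivAt (fun t : ℝ => r ^ 2 * (1 - (sq m + 2 * t * ip m v + t ^ 2 * sq v) / n))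
      (r ^ 2 * (-((2 * ip m v + 2 * t * sq v) / n))) t := by
    have a : HasDerivAt (fun t : ℝ => sq m + 2 * t * ip m v + t ^ 2 * sq v)
        (2 * ip m v + 2 * t * sq v) t := by
      have b1 : HasDerivAt (fun t : ℝ => sq m + 2 * t * ip m v) (2 * ip m v) t := by
        simpa using ((((hasDerivAt_id t).const_mul 2).mul_const (ip m v)).const_add (sq m))
      have b2 : HasDerivAt (fun t : ℝ => t ^ 2 * sq v) (2 * t * sq v) t := by
        simpa using ((hasDerivAt_pow 2 t).mul_const (sq v))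
      exact b1.add b2
    exact ((a.div_const (n : ℝ)).const_sub 1).const_mul (r ^ 2)
  have := (((d1.sub d2).add d3).sub_const (ip y v)).add (d5.mul d4)
  refine HasDerivAt.congr_deriv this ?_
  rw [qf_Hess, qq_line, ip_add_left, ip_smul_left, ipN_self]
  unfold qf
  rw [ipN_comm v (J.mulVec v), ipN_comm v (A.mulVec v)]
  ring

/-- derivative of the TAP free energy along a line -/
lemma hasDerivAt_tapF_line (hn : 0 < n) (r : ℝ) {J A : Mat n} (hJ : J.IsSymm) (hA : A.IsSymm)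
    (y m v : Vec n) (t : ℝ) (h : ∀ i, |(m + t • v) i| < 1) :
    HasDerivAt (fun t : ℝ => tapF r J A y (m + t • v))
      (ip (tapG r J A y (m + t • v)) v) t := by
  have e1 : (fun t : ℝ => tapF r J A y (m + t • v)) = fun t : ℝ =>
      (∑ i, ent (m i + t * v i))
      - 1 / 2 * (r * (qf J m + 2 * t * ip v (J.mulVec m) + t ^ 2 * qf J v)
        - (qf A m + 2 * t * ip v (A.mulVec m) + t ^ 2 * qf A v))
      - (ip y m + t * ip y v)
      - r ^ 2 * n / 4 * (1 - (sq m + 2 * t * ip m v + t ^ 2 * sq v) / n) ^ 2 := by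
    funext t
    unfold tapF
    rw [qf_line hJ, qf_line hA, ip_add_right, ip_smul_right, qq_line]
    rfl
  rw [e1]
  have d1 : HasDerivAt (fun t : ℝ => ∑ i, ent (m i + t * v i))
      (∑ i, Real.artanh ((m + t • v) i) * v i) t := by
    have : ∀ i ∈ (Finset.univ : Finset (Fin n)),
        HasDerivAt (fun t : ℝ => ent (m i + t * v i))
          (Real.artanh ((m + t • v) i) * v i) t := by
      intro i _
      have hl : HasDerivAt (fun t : ℝ => m i + t * v i) (v i) t := by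
        simpa using ((hasDerivAt_id t).mul_const (v i)).const_add (m i)
      exact HasDerivAt.comp t (hasDerivAt_ent (h i)) hl
    simpa using HasDerivAt.fun_sum this
  have quad : ∀ a b c : ℝ, HasDerivAt (fun t : ℝ => a + 2 * t * b + t ^ 2 * c)
      (2 * b + 2 * t * c) t := by
    intro a b c
    have b1 : HasDerivAt (fun t : ℝ => a + 2 * t * b) (2 * b) t := by
      simpa using ((((hasDerivAt_id t).const_mul 2).mul_const b).const_add a)
    have b2 : HasDerivAt (fun t : ℝ => t ^ 2 * c) (2 * t * c) t := by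
      simpa using ((hasDerivAt_pow 2 t).mul_const c)
    exact b1.add b2
  have d4 : HasDerivAt (fun t : ℝ => ip y m + t * ip y v) (ip y v) t := by
    simpa using (((hasDerivAt_id t).mul_const (ip y v)).const_add (ip y m))
  have d5 := (((quad (sq m) (ip m v) (sq v)).div_const (n : ℝ)).const_sub 1).pow 2
  have d6 := (d5.const_mul (r ^ 2 * n / 4))
  have d7 := (((quad (qf J m) (ip v (J.mulVec m)) (qf J v)).const_mul r).sub
    (quad (qf A m) (ip v (A.mulVec m)) (qf A v))).const_mul (1 / 2 : ℝ)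
  have := ((d1.sub d7).sub d4).sub d6
  refine HasDerivAt.congr_deriv this ?_
  rw [tapG_ip, qq_line, mulVec_line, mulVec_line, ip_add_left, ip_add_left, ip_add_left,
    ip_smul_left, ip_smul_left, ip_smul_left, ipN_self]
  unfold qf
  rw [ipN_comm v (J.mulVec v), ipN_comm v (A.mulVec v), ipN_comm v (J.mulVec m),
    ipN_comm v (A.mulVec m)]
  have hn' : (n : ℝ) ≠ 0 := by positivity
  simp only [show (2 - 1 : ℕ) = 1 from rfl, pow_one, Nat.cast_ofNat]
  have hX : r ^ 2 * n / 4 * (2 * (1 - (sq m + 2 * t * ip m v + t ^ 2 * sq v) / n) *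
      -((2 * ip m v + 2 * t * sq v) / n)) = - (r ^ 2 *
      (1 - (sq m + 2 * t * ip m v + t ^ 2 * sq v) / n) * (ip m v + t * sq v)) := by
    generalize (1 - (sq m + 2 * t * ip m v + t ^ 2 * sq v) / (n : ℝ)) = X
    field_simp
    ring
  rw [hX]
  ring

/-! ### monotonicity, uniqueness, Lipschitz dependence -/

/-- the window: a ball intersected with the open cube -/
def window (p : Vec n) (R : ℝ) : Set (Vec n) := {m | (∀ i, |m i| < 1) ∧ nv (m - p) ≤ R}

lemma window_line {p : Vec n} {R : ℝ} {m m' : Vec n} (h : m ∈ window p R) (h' : m' ∈ window p R)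
    {t : ℝ} (ht : t ∈ Set.Icc (0 : ℝ) 1) : m + t • (m' - m) ∈ window p R := by
  obtain ⟨t0, t1⟩ := ht
  constructor
  · intro i
    have e : (m + t • (m' - m)) i = (1 - t) * m i + t * m' i := by
      simp; ring
    rw [e]
    have h1 := abs_lt.1 (h.1 i)
    have h2 := abs_lt.1 (h'.1 i)
    rw [abs_lt]
    constructor
    · rcases eq_or_lt_of_le t0 with h0 | h0
      · rw [← h0]; linarith [h1.1]
      · nlinarith [mul_pos h0 (by linarith [h2.1] : 0 < m' i + 1),
          mul_nonneg (sub_nonneg.2 t1) (by linarith [h1.1] : 0 ≤ m i + 1)]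
    · rcases eq_or_lt_of_le t0 with h0 | h0
      · rw [← h0]; linarith [h1.2]
      · nlinarith [mul_pos h0 (by linarith [h2.2] : 0 < 1 - m' i),
          mul_nonneg (sub_nonneg.2 t1) (by linarith [h1.2] : 0 ≤ 1 - m i)]
  · have e : m + t • (m' - m) - p = (1 - t) • (m - p) + t • (m' - p) := by
      ext i; simp; ring
    rw [e]
    calc nv ((1 - t) • (m - p) + t • (m' - p)) ≤ nv ((1 - t) • (m - p)) + nv (t • (m' - p)) :=
          nv_add_le _ _
      _ = (1 - t) * nv (m - p) + t * nv (m' - p) := by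
          rw [nv_smul, nv_smul, abs_of_nonneg (sub_nonneg.2 t1), abs_of_nonneg t0]
      _ ≤ (1 - t) * R + t * R := by
          have := h.2; have := h'.2
          have := mul_le_mul_of_nonneg_left h.2 (sub_nonneg.2 t1)
          have := mul_le_mul_of_nonneg_left h'.2 t0
          linarith
      _ = R := by ring

/-- strong monotonicity of the TAP gradient in a window -/
lemma tapG_mono {r : ℝ} {J A : Mat n} {y p : Vec n} {R c : ℝ}
    (hH : ∀ m ∈ window p R, ∀ v, c * sq v ≤ qf (Hess r J A m) v) {m m' : Vec n}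
    (h : m ∈ window p R) (h' : m' ∈ window p R) :
    c * sq (m' - m) ≤ ip (tapG r J A y m' - tapG r J A y m) (m' - m) := by
  set v := m' - m with hv
  have hd : ∀ t ∈ Set.Icc (0 : ℝ) 1, HasDerivAt (fun t : ℝ => ip (tapG r J A y (m + t • v)) v)
      (qf (Hess r J A (m + t • v)) v) t := fun t ht =>
    hasDerivAt_tapG_line r J A y m v t (window_line h h' ht).1
  obtain ⟨ξ, hξ, he⟩ := exists_hasDerivAt_eq_slope (fun t : ℝ => ip (tapG r J A y (m + t • v)) v)
    (fun t => qf (Hess r J A (m + t • v)) v) (zero_lt_one)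
    (fun t ht => (hd t ht).continuousAt.continuousWithinAt)
    (fun t ht => hd t ⟨ht.1.le, ht.2.le⟩)
  have h1 := hH _ (window_line h h' ⟨hξ.1.le, hξ.2.le⟩) v
  rw [he] at h1
  have e1 : m + (1 : ℝ) • v = m' := by rw [hv]; simp
  have e0 : m + (0 : ℝ) • v = m := by simp
  rw [e1, e0, sub_zero, div_one, ← ip_sub_left] at h1
  exact h1

/-- distance of two points of the window in terms of the gradients -/
lemma dist_le {r : ℝ} {J A : Mat n} {y p : Vec n} {R c : ℝ}
    (hH : ∀ m ∈ window p R, ∀ v, c * sq v ≤ qf (Hess r J A m) v) {m m' : Vec n}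
    (h : m ∈ window p R) (h' : m' ∈ window p R) :
    c * nv (m' - m) ≤ nv (tapG r J A y m' - tapG r J A y m) := by
  have h1 := tapG_mono (y := y) hH h h'
  have h2 := ip_le (tapG r J A y m' - tapG r J A y m) (m' - m)
  rcases eq_or_lt_of_le (nv_nonneg (m' - m)) with h0 | h0
  · rw [← h0, mul_zero]; exact nv_nonneg _
  · rw [← nv_sq] at h1
    have : c * nv (m' - m) * nv (m' - m) ≤ nv (tapG r J A y m' - tapG r J A y m) * nv (m' - m) := by
      linarith only [h2, h1]
    exact le_of_mul_le_mul_right this h0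

/-- uniqueness of the TAP solution in a window -/
lemma tap_unique {r : ℝ} {J A : Mat n} {y p : Vec n} {R c : ℝ} (hc : 0 < c)
    (hH : ∀ m ∈ window p R, ∀ v, c * sq v ≤ qf (Hess r J A m) v) {m m' : Vec n}
    (h : m ∈ window p R) (h' : m' ∈ window p R) (hm : tapG r J A y m = 0)
    (hm' : tapG r J A y m' = 0) : m' = m := by
  have h1 := dist_le (y := y) hH h h'
  rw [hm, hm', sub_zero] at h1
  have h2 : nv (0 : Vec n) = 0 := nv_zero
  rw [h2] at h1
  have h3 : nv (m' - m) = 0 := by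
    have := nv_nonneg (m' - m)
    nlinarith
  have h4 : sq (m' - m) = 0 := by rw [← nv_sq, h3]; ring
  have h5 : ∀ i, (m' - m) i = 0 := by
    intro i
    have := (Finset.sum_eq_zero_iff_of_nonneg (fun i _ => sq_nonneg ((m' - m) i))).1 h4 i
      (Finset.mem_univ i)
    exact pow_eq_zero_iff (two_ne_zero) |>.1 this
  funext i
  have := h5 i
  simp only [Pi.sub_apply] at this
  linarith

/-! ### existence -/

/-- the part of the TAP gradient which is bounded on the cube -/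
noncomputable def tapL (r : ℝ) (J A : Mat n) (y m : Vec n) : Vec n := fun i =>
  tapB r J A m i - y i

lemma tapG_eq (r : ℝ) (J A : Mat n) (y m : Vec n) (i : Fin n) :
    tapG r J A y m i = Real.artanh (m i) + tapL r J A y m i := by
  unfold tapG tapL; ring

lemma continuous_sq : Continuous (sq : Vec n → ℝ) := by
  unfold sq; fun_prop

lemma continuous_nv : Continuous (nv : Vec n → ℝ) := by
  have : (nv : Vec n → ℝ) = fun v => √(sq v) := funext nv_eq_sqrt
  rw [this]
  exact Real.continuous_sqrt.comp continuous_sq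

lemma continuous_qq : Continuous (qq : Vec n → ℝ) := by
  unfold qq; exact continuous_sq.div_const _

lemma continuous_mulVec (A : Mat n) : Continuous (fun m : Vec n => A.mulVec m) := by
  unfold Matrix.mulVec dotProduct; fun_prop

lemma continuous_qf (A : Mat n) : Continuous (qf A : Vec n → ℝ) := by
  unfold qf ip
  exact continuous_finsetSum _ fun i _ =>
    (continuous_apply i).mul ((continuous_apply i).comp (continuous_mulVec A))

lemma continuous_tapL (r : ℝ) (J A : Mat n) (y : Vec n) : Continuous (tapL r J A y) := by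
  refine continuous_pi fun i => ?_
  have h1 : Continuous fun m : Vec n => J.mulVec m i :=
    (continuous_apply i).comp (continuous_mulVec J)
  have h2 : Continuous fun m : Vec n => A.mulVec m i :=
    (continuous_apply i).comp (continuous_mulVec A)
  have h3 : Continuous fun m : Vec n => r ^ 2 * (1 - qq m) * m i :=
    (continuous_const.mul (continuous_const.sub continuous_qq)).mul (continuous_apply i)
  exact ((h2.sub (continuous_const.mul h1)).add h3).sub continuous_const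

lemma ip_single (u : Vec n) (i : Fin n) (s : ℝ) : ip u (Pi.single i s) = u i * s := by
  unfold ip
  rw [Finset.sum_eq_single i]
  · simp
  · intro j _ hj; simp [hj]
  · simp

lemma nv_single (i : Fin n) (s : ℝ) : nv (Pi.single i s : Vec n) = |s| := by
  rw [nv_eq_sqrt, ← ipN_self, ip_single]
  simp [Real.sqrt_mul_self_eq_abs]

/-- a minimum at the left end of an interval has nonnegative derivative -/
lemma deriv_nonneg_of_min {g : ℝ → ℝ} {g' : ℝ} (hg : HasDerivAt g g' 0)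
    (h : ∀ t ∈ Set.Ioo (0 : ℝ) 1, g 0 ≤ g t) : 0 ≤ g' := by
  have ht := hg.tendsto_slope_zero_right
  refine ge_of_tendsto ht ?_
  filter_upwards [Ioo_mem_nhdsGT (zero_lt_one' ℝ)] with t ht
  have := h t ht
  simp only [zero_add, smul_eq_mul]
  exact mul_nonneg (inv_nonneg.2 ht.1.le) (by linarith)

/-- the truncated cube intersected with a ball -/
def box (a : ℝ) (p : Vec n) (R : ℝ) : Set (Vec n) :=
  Set.pi Set.univ (fun _ : Fin n => Set.Icc (-a) a) ∩ {m | nv (m - p) ≤ R}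

lemma mem_box {a R : ℝ} {p m : Vec n} : m ∈ box a p R ↔ (∀ i, |m i| ≤ a) ∧ nv (m - p) ≤ R := by
  unfold box
  constructor
  · rintro ⟨h1, h2⟩
    exact ⟨fun i => abs_le.2 ⟨(h1 i (Set.mem_univ i)).1, (h1 i (Set.mem_univ i)).2⟩, h2⟩
  · rintro ⟨h1, h2⟩
    exact ⟨fun i _ => ⟨(abs_le.1 (h1 i)).1, (abs_le.1 (h1 i)).2⟩, h2⟩

lemma box_window {a R : ℝ} (ha1 : a < 1) {p m : Vec n} (h : m ∈ box a p R) : m ∈ window p R :=
  ⟨fun i => ((mem_box.1 h).1 i).trans_lt ha1, (mem_box.1 h).2⟩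

lemma isCompact_box (a R : ℝ) (p : Vec n) : IsCompact (box a p R) :=
  (isCompact_univ_pi fun _ => isCompact_Icc).inter_right
    (isClosed_le (continuous_nv.comp (continuous_id.sub continuous_const)) continuous_const)

lemma box_line {a R : ℝ} {p : Vec n} {m z : Vec n} (hm : m ∈ box a p R) (hz : z ∈ box a p R)
    {t : ℝ} (t0 : 0 ≤ t) (t1 : 0 ≤ 1 - t) : m + t • (z - m) ∈ box a p R := by
  rw [mem_box] at hm hz ⊢
  constructor
  · intro i
    have e : (m + t • (z - m)) i = (1 - t) * m i + t * z i := by simp; ring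
    rw [e]
    calc |(1 - t) * m i + t * z i| ≤ |(1 - t) * m i| + |t * z i| := abs_add_le _ _
      _ = (1 - t) * |m i| + t * |z i| := by rw [abs_mul, abs_mul, abs_of_nonneg t1,
          abs_of_nonneg t0]
      _ ≤ (1 - t) * a + t * a := add_le_add (mul_le_mul_of_nonneg_left (hm.1 i) t1)
          (mul_le_mul_of_nonneg_left (hz.1 i) t0)
      _ = a := by ring
  · have e : m + t • (z - m) - p = (1 - t) • (m - p) + t • (z - p) := by
      ext i; simp; ring
    rw [e]
    calc nv ((1 - t) • (m - p) + t • (z - p)) ≤ nv ((1 - t) • (m - p)) + nv (t • (z - p)) :=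
          nv_add_le _ _
      _ = (1 - t) * nv (m - p) + t * nv (z - p) := by
          rw [nv_smul, nv_smul, abs_of_nonneg t1, abs_of_nonneg t0]
      _ ≤ (1 - t) * R + t * R := add_le_add (mul_le_mul_of_nonneg_left hm.2 t1)
          (mul_le_mul_of_nonneg_left hz.2 t0)
      _ = R := by ring

lemma continuousOn_tapF {a R : ℝ} (ha1 : a < 1) (r : ℝ) (J A : Mat n) (y p : Vec n) :
    ContinuousOn (tapF r J A y) (box a p R) := by
  have h1 : ContinuousOn (fun m : Vec n => ∑ i, ent (m i)) (box a p R) := by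
    refine continuousOn_finsetSum _ fun i _ => ?_
    intro m hm
    have := ((hasDerivAt_ent ((box_window ha1 hm).1 i)).continuousAt)
    exact (ContinuousAt.comp (f := fun m : Vec n => m i) (g := ent) this
      (continuous_apply i).continuousAt).continuousWithinAt
  have h2 : Continuous (fun m : Vec n => 1 / 2 * (r * qf J m - qf A m)) :=
    continuous_const.mul ((continuous_const.mul (continuous_qf J)).sub (continuous_qf A))
  have h3 : Continuous (fun m : Vec n => ip y m) := by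
    unfold ip; fun_prop
  have h4 : Continuous (fun m : Vec n => r ^ 2 * n / 4 * (1 - qq m) ^ 2) :=
    continuous_const.mul ((continuous_const.sub continuous_qq).pow 2)
  exact ((h1.sub h2.continuousOn).sub h3.continuousOn).sub h4.continuousOn

/-- a solution of the variational inequality on the truncated cube -/
lemma exists_var (hn : 0 < n) {a R : ℝ} (ha1 : a < 1) {r : ℝ} {J A : Mat n} (hJ : J.IsSymm)
    (hA : A.IsSymm) {y p m0 : Vec n} (h0 : m0 ∈ box a p R) :
    ∃ m ∈ box a p R, ∀ z ∈ box a p R, 0 ≤ ip (tapG r J A y m) (z - m) := by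
  obtain ⟨m, hmK, hmin⟩ := (isCompact_box a R p).exists_isMinOn ⟨m0, h0⟩
    (continuousOn_tapF ha1 r J A y p)
  refine ⟨m, hmK, fun z hz => ?_⟩
  have e0 : m + (0 : ℝ) • (z - m) = m := by simp
  have hd := hasDerivAt_tapF_line hn r hJ hA y m (z - m) 0
    (by rw [e0]; exact (box_window ha1 hmK).1)
  rw [e0] at hd
  refine deriv_nonneg_of_min hd fun t ht => ?_
  rw [e0]
  exact hmin (box_line hmK hz ht.1.le (by linarith only [ht.2]))

/-- distance of the solution of the variational inequality -/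
lemma var_dist {r c R : ℝ} {J A : Mat n} {y p m m0 : Vec n}
    (hH : ∀ m ∈ window p R, ∀ v, c * sq v ≤ qf (Hess r J A m) v) (h : m ∈ window p R)
    (h0 : m0 ∈ window p R) (h2 : 0 ≤ ip (tapG r J A y m) (m0 - m)) :
    c * nv (m - m0) ≤ nv (tapG r J A y m0) := by
  have h1 := tapG_mono (y := y) hH h0 h
  have h3 := ip_le (tapG r J A y m0) (m0 - m)
  rw [ip_sub_left] at h1
  have e1 : ip (tapG r J A y m) (m0 - m) = - ip (tapG r J A y m) (m - m0) := by
    rw [ip_sub_right, ip_sub_right]; ring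
  have e2 : ip (tapG r J A y m0) (m0 - m) = - ip (tapG r J A y m0) (m - m0) := by
    rw [ip_sub_right, ip_sub_right]; ring
  rw [e1] at h2
  rw [e2, nv_sub_comm m0 m] at h3
  rcases eq_or_lt_of_le (nv_nonneg (m - m0)) with h0 | h0
  · rw [← h0, mul_zero]; exact nv_nonneg _
  · rw [← nv_sq] at h1
    have : c * nv (m - m0) * nv (m - m0) ≤ nv (tapG r J A y m0) * nv (m - m0) := by
      linarith only [h3, h1, h2]
    exact le_of_mul_le_mul_right this h0

/-- the gradient vanishes at a solution of the variational inequality inside the ball, when the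
truncation level is large -/
lemma var_zero {r C T a R : ℝ} {J A : Mat n} {y p m : Vec n} (ha : a = Real.tanh T)
    (hCT : C < T) (hL : ∀ i, |tapL r J A y m i| ≤ C) (hm : m ∈ box a p R)
    (hball : nv (m - p) < R) (hvar : ∀ z ∈ box a p R, 0 ≤ ip (tapG r J A y m) (z - m)) :
    tapG r J A y m = 0 := by
  have hTa : Real.artanh a = T := by rw [ha]; exact Real.artanh_tanh T
  have hmb := (mem_box.1 hm).1
  have hmove : ∀ (i : Fin n) (s : ℝ), |m i + s| ≤ a → |s| ≤ R - nv (m - p) →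
      0 ≤ tapG r J A y m i * s := by
    intro i s h1 h2
    have hz : m + Pi.single i s ∈ box a p R := by
      rw [mem_box]
      refine ⟨fun j => ?_, ?_⟩
      · by_cases hj : j = i
        · subst hj
          have : (m + (Pi.single j s : Vec n)) j = m j + s := by simp
          rw [this]; exact h1
        · have : (m + (Pi.single i s : Vec n)) j = m j := by simp [hj]
          rw [this]; exact hmb j
      · have e : m + Pi.single i s - p = (m - p) + Pi.single i s := by abel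
        have h3 := nv_add_le (m - p) (Pi.single i s)
        rw [nv_single] at h3
        rw [e]; linarith
    have := hvar _ hz
    rwa [add_sub_cancel_left, ip_single] at this
  funext i
  have hmi := abs_le.1 (hmb i)
  have hgap : 0 < R - nv (m - p) := by linarith
  by_contra hne
  rcases lt_or_gt_of_ne hne with hlt | hgt
  · -- negative gradient: move up
    have hlt' : tapG r J A y m i < 0 := hlt
    rcases eq_or_lt_of_le hmi.2 with h1 | h1
    · have h2 := tapG_eq r J A y m i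
      rw [h1, hTa] at h2
      have h3 := (abs_le.1 (hL i)).1
      linarith only [h3, h2, hlt', hCT]
    · have hs0 : 0 < min (a - m i) (R - nv (m - p)) := lt_min (by linarith) hgap
      have hs1 : min (a - m i) (R - nv (m - p)) ≤ a - m i := min_le_left _ _
      have h2 := hmove i (min (a - m i) (R - nv (m - p)))
        (abs_le.2 ⟨by linarith [hmi.1], by linarith⟩)
        (by rw [abs_of_pos hs0]; exact min_le_right _ _)
      exact absurd h2 (not_le.2 (mul_neg_of_neg_of_pos hlt' hs0))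
  · have hgt' : 0 < tapG r J A y m i := hgt
    rcases eq_or_lt_of_le hmi.1 with h1 | h1
    · have h2 := tapG_eq r J A y m i
      rw [← h1, ha, ← Real.tanh_neg, Real.artanh_tanh] at h2
      have h3 := (abs_le.1 (hL i)).2
      linarith
    · have hs0 : 0 < min (m i + a) (R - nv (m - p)) := lt_min (by linarith) hgap
      have hs1 : min (m i + a) (R - nv (m - p)) ≤ m i + a := min_le_left _ _
      have h2 := hmove i (-min (m i + a) (R - nv (m - p)))
        (abs_le.2 ⟨by linarith, by linarith [hmi.2]⟩)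
        (by rw [abs_neg, abs_of_pos hs0]; exact min_le_right _ _)
      exact absurd h2 (not_le.2 (mul_neg_of_pos_of_neg hgt' (neg_lt_zero.2 hs0)))

/-- existence of a TAP solution in a window, close to an approximate one -/
theorem exists_tap {r c R : ℝ} {J A : Mat n} {y p m0 : Vec n} (hJ : J.IsSymm) (hA : A.IsSymm)
    (hc : 0 < c) (hH : ∀ m ∈ window p R, ∀ v, c * sq v ≤ qf (Hess r J A m) v)
    (hm0 : ∀ i, |m0 i| < 1) (hR : nv (m0 - p) + nv (tapG r J A y m0) / c < R) :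
    ∃ m ∈ window p R, tapG r J A y m = 0 ∧ c * nv (m - m0) ≤ nv (tapG r J A y m0) := by
  have hg0 : 0 ≤ nv (tapG r J A y m0) / c := div_nonneg (nv_nonneg _) hc.le
  have hm0R : nv (m0 - p) ≤ R := by linarith
  rcases Nat.eq_zero_or_pos n with hn | hn
  · subst hn
    refine ⟨m0, ⟨hm0, hm0R⟩, Subsingleton.elim _ _, ?_⟩
    have : nv (m0 - m0) = 0 := by rw [sub_self]; exact nv_zero
    rw [this, mul_zero]; exact nv_nonneg _
  -- bound on the cube
  have hcube : IsCompact (Set.pi Set.univ (fun _ : Fin n => Set.Icc (-1 : ℝ) 1)) :=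
    isCompact_univ_pi fun _ => isCompact_Icc
  obtain ⟨C, hC⟩ := hcube.exists_bound_of_continuousOn (f := tapL r J A y)
    (continuous_tapL r J A y).continuousOn
  have hsum : 0 ≤ ∑ i, |Real.artanh (m0 i)| := Finset.sum_nonneg fun _ _ => abs_nonneg _
  have hC0 := abs_nonneg C
  obtain ⟨T, hT⟩ : ∃ T, T = |C| + 1 + ∑ i, |Real.artanh (m0 i)| := ⟨_, rfl⟩
  obtain ⟨a, ha⟩ : ∃ a, a = Real.tanh T := ⟨_, rfl⟩
  have ha1 : a < 1 := by rw [ha]; exact Real.tanh_lt_one T
  have hm0a : ∀ i, |m0 i| ≤ a := by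
    intro i
    have h1 : m0 i ∈ Set.Ioo (-1 : ℝ) 1 := ⟨(abs_lt.1 (hm0 i)).1, (abs_lt.1 (hm0 i)).2⟩
    have h2 : |Real.artanh (m0 i)| ≤ T := by
      have := Finset.single_le_sum (fun j _ => abs_nonneg (Real.artanh (m0 j)))
        (Finset.mem_univ i)
      linarith only [this, hT, hC0]
    have h3 := abs_le.1 h2
    rw [← Real.tanh_artanh h1, abs_le]
    constructor
    · rw [ha, ← Real.tanh_neg]; exact tanh_le h3.1
    · rw [ha]; exact tanh_le h3.2
  have hm0K : m0 ∈ box a p R := mem_box.2 ⟨hm0a, hm0R⟩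
  obtain ⟨m, hmK, hvar⟩ := exists_var hn ha1 (r := r) hJ hA (y := y) hm0K
  have hmw := box_window ha1 hmK
  have hdist := var_dist hH hmw (box_window ha1 hm0K) (hvar m0 hm0K)
  have hball : nv (m - p) < R := by
    have h1 := nv_sub_triangle m m0 p
    have h2 : nv (m - m0) ≤ nv (tapG r J A y m0) / c := by
      rw [le_div_iff₀ hc]; linarith only [hdist]
    linarith only [hR, h1, h2]
  have hL : ∀ i, |tapL r J A y m i| ≤ |C| := by
    intro i
    have h1 := hC m (fun j _ => ⟨(abs_lt.1 (hmw.1 j)).1.le, (abs_lt.1 (hmw.1 j)).2.le⟩)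
    have h2 := norm_le_pi_norm (tapL r J A y m) i
    rw [Real.norm_eq_abs] at h2
    exact h2.trans (h1.trans (le_abs_self C))
  exact ⟨m, hmw, var_zero ha (by linarith only [hT, hsum]) hL hmK hball hvar, hdist⟩

/-! ### steering -/

/-- the truncated diagonal -/
noncomputable def dT (L : ℝ) (m : Vec n) (i : Fin n) : ℝ := min (1 / (1 - m i ^ 2)) L

/-- the bilinear form of `HL` -/
noncomputable def HB (L r : ℝ) (J : Mat n) (m u w : Vec n) : ℝ :=
  (∑ i, dT L m i * u i * w i) + r ^ 2 * (1 - qq m) * ip u w - r * ip u (J.mulVec w)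
    - 2 * r ^ 2 / n * (ip m u * ip m w)

lemma HL_add (L r : ℝ) {J : Mat n} (hJ : J.IsSymm) (m u w : Vec n) :
    HL L r J m (u + w) = HL L r J m u + 2 * HB L r J m u w + HL L r J m w := by
  have e : ip w (J.mulVec u) = ip u (J.mulVec w) := by rw [ip_mulVec_comm hJ, ipN_comm]
  have e1 : ∑ i, min (1 / (1 - m i ^ 2)) L * (u + w) i ^ 2
      = (∑ i, min (1 / (1 - m i ^ 2)) L * u i ^ 2) + 2 * (∑ i, dT L m i * u i * w i)
        + ∑ i, min (1 / (1 - m i ^ 2)) L * w i ^ 2 := by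
    rw [Finset.mul_sum, ← Finset.sum_add_distrib, ← Finset.sum_add_distrib]
    refine Finset.sum_congr rfl fun i _ => ?_
    unfold dT
    rw [Pi.add_apply]; ring
  have e2 : sq (u + w) = sq u + 2 * ip u w + sq w := by
    have := sq_add_smul u w 1
    rw [one_smul] at this
    rw [this]; ring
  unfold HL HB qf
  rw [e1, e2, Matrix.mulVec_add, ip_add_left, ip_add_right, ip_add_right, ip_add_right, e]
  ring

lemma dT_nonneg {L : ℝ} (hL : 0 ≤ L) {m : Vec n} (hm : ∀ i, |m i| < 1) (i : Fin n) :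
    0 ≤ dT L m i := by
  have : 0 < 1 - m i ^ 2 := by
    have := abs_lt.1 (hm i); nlinarith
  exact le_min (by positivity) hL

lemma dT_le (L : ℝ) (m : Vec n) (i : Fin n) : dT L m i ≤ L := min_le_right _ _

lemma nv_m_le {m : Vec n} (hm : ∀ i, |m i| < 1) : nv m ^ 2 ≤ n := by
  have := nv_le_sqrt_n (fun i => (hm i).le)
  calc nv m ^ 2 ≤ √n ^ 2 := pow_le_pow_left₀ (nv_nonneg m) this 2
    _ = n := Real.sq_sqrt (Nat.cast_nonneg n)

lemma rank_one_le {m : Vec n} (hm : ∀ i, |m i| < 1) (u w : Vec n) :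
    1 / n * (|ip m u| * |ip m w|) ≤ nv u * nv w := by
  rcases Nat.eq_zero_or_pos n with hn | hn
  · subst hn
    simp only [Nat.cast_zero, div_zero, zero_mul]
    exact mul_nonneg (nv_nonneg _) (nv_nonneg _)
  have hn' : (0 : ℝ) < n := by exact_mod_cast hn
  rw [div_mul_eq_mul_div, div_le_iff₀ hn', one_mul]
  have h1 := abs_ip_le m u
  have h2 := abs_ip_le m w
  have h3 := nv_m_le hm
  calc |ip m u| * |ip m w| ≤ (nv m * nv u) * (nv m * nv w) :=
        mul_le_mul h1 h2 (abs_nonneg _) (mul_nonneg (nv_nonneg _) (nv_nonneg _))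
    _ = nv m ^ 2 * (nv u * nv w) := by ring
    _ ≤ n * (nv u * nv w) :=
        mul_le_mul_of_nonneg_right h3 (mul_nonneg (nv_nonneg _) (nv_nonneg _))
    _ = nv u * nv w * n := by ring

/-- the bilinear form is bounded -/
lemma abs_HB_le {L r : ℝ} (hL : 0 ≤ L) (hr : r ∈ Set.Icc (0 : ℝ) 1) {J : Mat n} (hJ3 : OpLe J 3)
    {m : Vec n} (hm : ∀ i, |m i| < 1) (u w : Vec n) :
    |HB L r J m u w| ≤ (L + 6) * (nv u * nv w) := by
  obtain ⟨r0, r1⟩ := hr
  have hr2 : r ^ 2 ≤ 1 := pow_le_one₀ r0 r1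
  have hP : 0 ≤ nv u * nv w := mul_nonneg (nv_nonneg _) (nv_nonneg _)
  have hq0 := qq_nonneg m
  have hq1 := qq_le_one (fun i => (hm i).le)
  have t1 : |∑ i, dT L m i * u i * w i| ≤ L * (nv u * nv w) := by
    have e : ∑ i, dT L m i * u i * w i = ip (fun i => dT L m i * u i) w := rfl
    rw [e]
    refine (abs_ip_le _ _).trans ?_
    have : nv (fun i => dT L m i * u i) ≤ L * nv u := by
      refine nv_le_mul hL fun i => ?_
      rw [abs_mul, abs_of_nonneg (dT_nonneg hL hm i)]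
      exact mul_le_mul_of_nonneg_right (dT_le L m i) (abs_nonneg _)
    calc nv (fun i => dT L m i * u i) * nv w ≤ (L * nv u) * nv w :=
          mul_le_mul_of_nonneg_right this (nv_nonneg _)
      _ = L * (nv u * nv w) := by ring
  have t2 : |r ^ 2 * (1 - qq m) * ip u w| ≤ 1 * (nv u * nv w) := by
    rw [abs_mul]
    refine mul_le_mul ?_ (abs_ip_le u w) (abs_nonneg _) zero_le_one
    rw [abs_of_nonneg (mul_nonneg (sq_nonneg r) (by linarith))]
    linarith only [mul_nonneg (sub_nonneg.2 hr2) (sub_nonneg.2 hq1), mul_nonneg (sub_nonneg.2 hq0) (sub_nonneg.2 hq0), mul_nonneg (sub_nonneg.2 hq0) (sub_nonneg.2 hq1)]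
  have t3 : |r * ip u (J.mulVec w)| ≤ 3 * (nv u * nv w) := by
    rw [abs_mul, abs_of_nonneg r0]
    have h1 := abs_ip_le u (J.mulVec w)
    have h2 := hJ3.nv_le (by norm_num) w
    have h3 : |ip u (J.mulVec w)| ≤ 3 * (nv u * nv w) := by
      calc |ip u (J.mulVec w)| ≤ nv u * nv (J.mulVec w) := h1
        _ ≤ nv u * (3 * nv w) := mul_le_mul_of_nonneg_left h2 (nv_nonneg _)
        _ = 3 * (nv u * nv w) := by ring
    calc r * |ip u (J.mulVec w)| ≤ 1 * |ip u (J.mulVec w)| :=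
          mul_le_mul_of_nonneg_right r1 (abs_nonneg _)
      _ ≤ 3 * (nv u * nv w) := by rw [one_mul]; exact h3
  have t4 : |2 * r ^ 2 / n * (ip m u * ip m w)| ≤ 2 * (nv u * nv w) := by
    have h1 := rank_one_le hm u w
    have e : |2 * r ^ 2 / n * (ip m u * ip m w)| = 2 * r ^ 2 * (1 / n * (|ip m u| * |ip m w|)) := by
      rw [abs_mul, abs_mul, abs_of_nonneg (by (clear * -; positivity) : (0 : ℝ) ≤ 2 * r ^ 2 / n)]
      ring
    rw [e]
    have h2 : 0 ≤ 1 / (n : ℝ) * (|ip m u| * |ip m w|) := by (clear * -; positivity)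
    linarith only [mul_nonneg (sub_nonneg.2 hq1) (sub_nonneg.2 h1), mul_nonneg (sub_nonneg.2 hq0) (sub_nonneg.2 h1), mul_nonneg (sub_nonneg.2 hr2) (sub_nonneg.2 h2)]
  unfold HB
  calc _ ≤ |(∑ i, dT L m i * u i * w i) + r ^ 2 * (1 - qq m) * ip u w - r * ip u (J.mulVec w)|
          + |2 * r ^ 2 / n * (ip m u * ip m w)| := abs_sub _ _
    _ ≤ (|(∑ i, dT L m i * u i * w i) + r ^ 2 * (1 - qq m) * ip u w|
          + |r * ip u (J.mulVec w)|) + |2 * r ^ 2 / n * (ip m u * ip m w)| := by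
        gcongr; exact abs_sub _ _
    _ ≤ ((|∑ i, dT L m i * u i * w i| + |r ^ 2 * (1 - qq m) * ip u w|)
          + |r * ip u (J.mulVec w)|) + |2 * r ^ 2 / n * (ip m u * ip m w)| := by
        gcongr; exact abs_add_le _ _
    _ ≤ (L + 6) * (nv u * nv w) := by linarith only [t4, t3, t2, t1]

lemma HL_eq_HB (L r : ℝ) (J : Mat n) (m v : Vec n) : HL L r J m v = HB L r J m v v := by
  unfold HL HB qf dT
  rw [ipN_self]
  congr 1
  · congr 2
    exact Finset.sum_congr rfl fun i _ => by ring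
  · ring

/-- the untruncated Hessian dominates the truncated one -/
lemma HL_le_Hess (L : ℝ) (r : ℝ) (J A : Mat n) {m : Vec n} (v : Vec n) :
    HL L r J m v + qf A v ≤ qf (Hess r J A m) v := by
  rw [qf_Hess]
  unfold HL
  have : ∑ i, min (1 / (1 - m i ^ 2)) L * v i ^ 2 ≤ ∑ i, 1 / (1 - m i ^ 2) * v i ^ 2 :=
    Finset.sum_le_sum fun i _ => mul_le_mul_of_nonneg_right (min_le_left _ _) (sq_nonneg _)
  linarith only [this]

/-- orthogonal families of unit or zero vectors -/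
def Orth {d : ℕ} (W : Fin d → Vec n) : Prop :=
  (∀ a, sq (W a) = 1 ∨ W a = 0) ∧ ∀ a b, a ≠ b → ip (W a) (W b) = 0

/-- the projection on the span -/
noncomputable def prj {d : ℕ} (W : Fin d → Vec n) (v : Vec n) : Vec n := ∑ a, ip (W a) v • W a

lemma ip_W_prj {d : ℕ} {W : Fin d → Vec n} (hW : Orth W) (v : Vec n) (a : Fin d) :
    ip (W a) (prj W v) = ip (W a) v := by
  unfold prj
  rw [ip_sum_right, Finset.sum_eq_single a]
  · rw [ip_smul_right, ipN_self]
    rcases hW.1 a with h | h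
    · rw [h, mul_one]
    · rw [h]; unfold ip sq; simp
  · intro b _ hb
    rw [ip_smul_right, hW.2 a b (Ne.symm hb), mul_zero]
  · simp

lemma sq_prj {d : ℕ} {W : Fin d → Vec n} (hW : Orth W) (v : Vec n) :
    sq (prj W v) = ∑ a, ip (W a) v ^ 2 := by
  rw [← ipN_self]
  have e : ip (prj W v) (prj W v) = ip (prj W v) (∑ a, ip (W a) v • W a) := rfl
  rw [e, ip_sum_right]
  refine Finset.sum_congr rfl fun a _ => ?_
  rw [ip_smul_right, ipN_comm _ (W a), ip_W_prj hW]; ring

/-- the strength of the steering -/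
noncomputable def Ks (c₁ L : ℝ) : ℝ := 2 * (L + 6) ^ 2 / c₁ + (L + 6) + c₁ / 2

/-- steered Hessian -/
theorem hess_steer {c₁ L r : ℝ} (hc : 0 < c₁) (hL : 0 ≤ L) (hr : r ∈ Set.Icc (0 : ℝ) 1)
    {J A : Mat n} (hJ : J.IsSymm) (hJ3 : OpLe J 3) {m : Vec n} (hm : ∀ i, |m i| < 1) {d : ℕ}
    {W : Fin d → Vec n} (hW : Orth W)
    (h : ∀ v, (∀ a, ip (W a) v = 0) → c₁ * sq v ≤ HL L r J m v)
    (hA : ∀ v, Ks c₁ L * ∑ a, ip (W a) v ^ 2 ≤ qf A v) (v : Vec n) :
    c₁ / 2 * sq v ≤ qf (Hess r J A m) v := by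
  have hsplit : v = (v - prj W v) + prj W v := by abel
  have horth : ∀ a, ip (W a) (v - prj W v) = 0 := by
    intro a; rw [ip_sub_right, ip_W_prj hW, sub_self]
  have h0 : ip (v - prj W v) (prj W v) = 0 := by
    have e : ip (v - prj W v) (prj W v) = ip (v - prj W v) (∑ a, ip (W a) v • W a) := rfl
    rw [e, ip_sum_right]
    refine Finset.sum_eq_zero fun a _ => ?_
    rw [ip_smul_right, ipN_comm _ (W a), horth a, mul_zero]
  have hsq : sq v = nv (v - prj W v) ^ 2 + nv (prj W v) ^ 2 := by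
    have := sq_add_smul (v - prj W v) (prj W v) 1
    rw [one_smul, ← hsplit, h0] at this
    rw [this, nv_sq, nv_sq]; ring
  have h1 := h _ horth
  rw [← nv_sq] at h1
  have h2 := abs_HB_le hL hr hJ3 hm (v - prj W v) (prj W v)
  have h3 := abs_HB_le hL hr hJ3 hm (prj W v) (prj W v)
  rw [← HL_eq_HB] at h3
  have h4 := hA v
  rw [← sq_prj hW, ← nv_sq] at h4
  have h5 := HL_le_Hess L r J A (m := m) v
  have h6 := HL_add L r hJ m (v - prj W v) (prj W v)
  rw [← hsplit] at h6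
  set s := nv (v - prj W v) with hs
  set t := nv (prj W v) with ht
  have h2' := (abs_le.1 h2).1
  have h3' := (abs_le.1 h3).1
  have hkey : c₁ / 2 * (s ^ 2 + t ^ 2) ≤ c₁ * s ^ 2 - 2 * ((L + 6) * (s * t)) - (L + 6) * (t * t)
      + Ks c₁ L * t ^ 2 := by
    have e : c₁ * s ^ 2 - 2 * ((L + 6) * (s * t)) - (L + 6) * (t * t) + Ks c₁ L * t ^ 2
        - c₁ / 2 * (s ^ 2 + t ^ 2) = c₁ / 2 * (s - 2 * (L + 6) / c₁ * t) ^ 2 := by
      unfold Ks
      field_simp
      ring
    have : 0 ≤ c₁ / 2 * (s - 2 * (L + 6) / c₁ * t) ^ 2 := by (clear * - hc; positivity)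
    linarith only [this, e]
  rw [hsq]
  linarith only [hkey, h3', h2', h4, h1, h6, h5]

/-- normalisation of the steering directions in `UC` -/
theorem UC.orth {β c₁ L ρ : ℝ} {d : ℕ} {J : Mat n} (h : UC β c₁ L ρ d J) :
    ∀ r ∈ Set.Icc 0 β, ∀ p : Vec n, (∀ i, |p i| ≤ 1) →
    ∃ W : Fin d → Vec n, Orth W ∧
      ∀ m : Vec n, (∀ i, |m i| < 1) → sq (m - p) ≤ ρ ^ 2 * n →
        ∀ v : Vec n, (∀ a, ip (W a) v = 0) → c₁ * sq v ≤ HL L r J m v := by
  intro r hr p hp
  obtain ⟨W, _, h2, h3⟩ := h r hr p hp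
  refine ⟨fun a => (nv (W a))⁻¹ • W a, ⟨fun a => ?_, fun a b hab => ?_⟩, fun m hm hmp v hv => ?_⟩
  · by_cases h0 : nv (W a) = 0
    · right; simp only [h0]; simp
    · left
      rw [← nv_sq, nv_smul, abs_of_nonneg (inv_nonneg.2 (nv_nonneg _)), inv_mul_cancel₀ h0]
      norm_num
  · rw [ip_smul_left, ip_smul_right, h2 a b hab]; ring
  · refine h3 m hm hmp v fun a => ?_
    by_cases h0 : nv (W a) = 0
    · have h4 := abs_ip_le (W a) v
      rw [h0, zero_mul] at h4
      exact abs_nonpos_iff.1 h4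
    · have := hv a
      rw [ip_smul_left] at this
      rcases mul_eq_zero.1 this with h5 | h5
      · exact absurd h5 (inv_ne_zero h0)
      · exact h5

/-- the Hessian is Lipschitz in `r` -/
theorem hess_r {r r' : ℝ} (hr : r ∈ Set.Icc (0 : ℝ) 1) (hr' : r' ∈ Set.Icc (0 : ℝ) 1)
    {J : Mat n} (hJ3 : OpLe J 3) (A : Mat n) {m : Vec n} (hm : ∀ i, |m i| < 1) (v : Vec n) :
    |qf (Hess r J A m) v - qf (Hess r' J A m) v| ≤ 9 * |r - r'| * sq v := by
  have hq0 := qq_nonneg m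
  have hq1 := qq_le_one (fun i => (hm i).le)
  have hsv := sqN_nonneg v
  have e : qf (Hess r J A m) v - qf (Hess r' J A m) v = (r - r') *
      ((r + r') * (1 - qq m) * sq v - qf J v - 2 * (r + r') * (1 / n * (ip m v * ip m v))) := by
    rw [qf_Hess, qf_Hess]; ring
  rw [e, abs_mul]
  have h1 : |qf J v| ≤ 3 * sq v := by
    have h1 := abs_ip_le v (J.mulVec v)
    have h2 := hJ3.nv_le (by norm_num) v
    calc |qf J v| ≤ nv v * nv (J.mulVec v) := h1
      _ ≤ nv v * (3 * nv v) := mul_le_mul_of_nonneg_left h2 (nv_nonneg _)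
      _ = 3 * nv v ^ 2 := by ring
      _ = 3 * sq v := by rw [nv_sq]
  have h2 : 1 / n * (ip m v * ip m v) ≤ sq v := by
    have := rank_one_le hm v v
    rw [abs_mul_abs_self] at this
    calc _ ≤ nv v * nv v := this
      _ = sq v := by rw [← nv_sq]; ring
  have h2' : 0 ≤ 1 / (n : ℝ) * (ip m v * ip m v) :=
    mul_nonneg (by (clear * -; positivity)) (mul_self_nonneg _)
  have h3 : |(r + r') * (1 - qq m) * sq v - qf J v - 2 * (r + r') * (1 / n * (ip m v * ip m v))|
      ≤ 9 * sq v := by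
    have a1 := abs_le.1 h1
    have b1 : 0 ≤ (r + r') * (1 - qq m) := mul_nonneg (by linarith only [hr'.1, hr.1]) (by linarith only [hq1])
    have b2 : (r + r') * (1 - qq m) ≤ 2 := by linarith only [mul_nonneg (sub_nonneg.2 hr'.2) (sub_nonneg.2 hr'.2), mul_nonneg (sub_nonneg.2 hr'.1) (sub_nonneg.2 hr'.2), mul_nonneg (sub_nonneg.2 hq1) (sub_nonneg.2 hr.2), mul_nonneg (sub_nonneg.2 hq0) (sub_nonneg.2 hr'.2), mul_nonneg (sub_nonneg.2 hq0) (sub_nonneg.2 hr'.1)]
    have b3 : (r + r') * (1 - qq m) * sq v ≤ 2 * sq v := mul_le_mul_of_nonneg_right b2 hsv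
    have b4 := mul_nonneg b1 hsv
    have c1 : 0 ≤ 2 * (r + r') := by linarith only [hr'.1, hr.1]
    have c2 : 2 * (r + r') ≤ 4 := by linarith only [hr.2, hr'.2]
    have c3 : 2 * (r + r') * (1 / n * (ip m v * ip m v)) ≤ 4 * sq v :=
      mul_le_mul c2 h2 h2' (by norm_num)
    have c4 := mul_nonneg c1 h2'
    rw [abs_le]
    constructor <;> linarith [a1.1, a1.2]
  calc |r - r'| * _ ≤ |r - r'| * (9 * sq v) := mul_le_mul_of_nonneg_left h3 (abs_nonneg _)
    _ = 9 * |r - r'| * sq v := by ring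

/-- change of the TAP gradient with the parameters -/
theorem tapG_param {r r' : ℝ} (hr : r ∈ Set.Icc (0 : ℝ) 1) (hr' : r' ∈ Set.Icc (0 : ℝ) 1)
    {J : Mat n} (hJ3 : OpLe J 3) (A A' : Mat n) (y y' : Vec n) {m : Vec n}
    (hm : ∀ i, |m i| ≤ 1) :
    nv (tapG r J A y m - tapG r' J A' y' m) ≤
      5 * |r - r'| * √n + nv ((A - A').mulVec m) + nv (y - y') := by
  have e : tapG r J A y m - tapG r' J A' y' m = (-(r - r')) • J.mulVec m
      + ((r - r') * ((r + r') * (1 - qq m))) • m + (A - A').mulVec m - (y - y') := by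
    funext i
    rw [Matrix.sub_mulVec]
    simp only [Pi.sub_apply, Pi.add_apply, Pi.smul_apply, smul_eq_mul, tapG, tapB]
    ring
  have hq0 := qq_nonneg m
  have hq1 := qq_le_one hm
  have hm1 := nv_le_sqrt_n hm
  have hJm := hJ3.nv_le (by norm_num) m
  have b1 : 0 ≤ (r + r') * (1 - qq m) := mul_nonneg (by linarith [hr.1, hr'.1]) (by linarith)
  have b2 : (r + r') * (1 - qq m) ≤ 2 := by linarith only [mul_nonneg (sub_nonneg.2 hr'.2) (sub_nonneg.2 hr'.2), mul_nonneg (sub_nonneg.2 hr'.1) (sub_nonneg.2 hr'.2), mul_nonneg (sub_nonneg.2 hq1) (sub_nonneg.2 hr.2), mul_nonneg (sub_nonneg.2 hq0) (sub_nonneg.2 hr'.2), mul_nonneg (sub_nonneg.2 hq0) (sub_nonneg.2 hr'.1)]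
  rw [e]
  have t1 : nv ((-(r - r')) • J.mulVec m) ≤ 3 * |r - r'| * √n := by
    rw [nv_smul, abs_neg]
    calc |r - r'| * nv (J.mulVec m) ≤ |r - r'| * (3 * √n) :=
          mul_le_mul_of_nonneg_left (hJm.trans (by linarith)) (abs_nonneg _)
      _ = 3 * |r - r'| * √n := by ring
  have t2 : nv (((r - r') * ((r + r') * (1 - qq m))) • m) ≤ 2 * |r - r'| * √n := by
    rw [nv_smul, abs_mul, abs_of_nonneg b1]
    calc |r - r'| * ((r + r') * (1 - qq m)) * nv m ≤ |r - r'| * 2 * √n := by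
          refine mul_le_mul (mul_le_mul_of_nonneg_left b2 (abs_nonneg _)) hm1 (nv_nonneg _) ?_
          positivity
      _ = 2 * |r - r'| * √n := by ring
  calc _ ≤ nv ((-(r - r')) • J.mulVec m + ((r - r') * ((r + r') * (1 - qq m))) • m
          + (A - A').mulVec m) + nv (y - y') := nv_sub_le _ _
    _ ≤ (nv ((-(r - r')) • J.mulVec m) + nv (((r - r') * ((r + r') * (1 - qq m))) • m)
          + nv ((A - A').mulVec m)) + nv (y - y') := by
        gcongr
        exact (nv_add_le _ _).trans (by gcongr; exact nv_add_le _ _)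
    _ ≤ _ := by linarith only [t2, t1]

/-- the initial window: a ball about the origin -/
theorem hess_init {β ε ρ : ℝ} (hβ1 : β < 1) {J : Mat n} (hJ : OpLe J (2 + ε)) (hε : 0 ≤ ε)
    (hρ : ε + 3 * ρ ^ 2 ≤ (1 - β) ^ 2 / 2) {r : ℝ} (hr : r ∈ Set.Icc 0 β)
    {A : Mat n} (hA : ∀ v, 0 ≤ qf A v) {m : Vec n} (hm : ∀ i, |m i| < 1)
    (hm2 : sq m ≤ ρ ^ 2 * n) (v : Vec n) :
    (1 - β) ^ 2 / 2 * sq v ≤ qf (Hess r J A m) v := by
  obtain ⟨r0, r1⟩ := hr
  have hsv := sqN_nonneg v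
  have h1 : sq v ≤ ∑ i, 1 / (1 - m i ^ 2) * v i ^ 2 := by
    refine Finset.sum_le_sum fun i _ => ?_
    have h0 : 0 < 1 - m i ^ 2 := by
      have := abs_lt.1 (hm i); nlinarith
    have : 1 ≤ 1 / (1 - m i ^ 2) := by
      rw [le_div_iff₀ h0]; linarith only [sq_nonneg (m i)]
    (by_contra nlg; linarith only [mul_pos (sub_pos.2 (not_le.1 nlg)) (sub_pos.2 hβ1), mul_nonneg (le_of_lt (sub_pos.2 (not_le.1 nlg))) (sub_nonneg.2 r0), mul_nonneg (le_of_lt (sub_pos.2 (not_le.1 nlg))) (sub_nonneg.2 r1), mul_nonneg (sub_nonneg.2 this) (sq_nonneg (v i))])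
  have h2 : |qf J v| ≤ (2 + ε) * sq v := by
    have h1 := abs_ip_le v (J.mulVec v)
    have h2 := hJ.nv_le (by linarith only [hε]) v
    calc |qf J v| ≤ nv v * nv (J.mulVec v) := h1
      _ ≤ nv v * ((2 + ε) * nv v) := mul_le_mul_of_nonneg_left h2 (nv_nonneg _)
      _ = (2 + ε) * nv v ^ 2 := by ring
      _ = (2 + ε) * sq v := by rw [nv_sq]
  have hq : qq m * sq v ≤ ρ ^ 2 * sq v ∧ 1 / n * ip m v ^ 2 ≤ ρ ^ 2 * sq v := by
    rcases Nat.eq_zero_or_pos n with hn | hn
    · subst hn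
      constructor
      · unfold qq; simp only [Nat.cast_zero, div_zero, zero_mul]; (clear * - hsv; positivity)
      · simp only [Nat.cast_zero, div_zero, zero_mul]; (clear * - hsv; positivity)
    have hn' : (0 : ℝ) < n := by exact_mod_cast hn
    have hq1 : qq m ≤ ρ ^ 2 := by
      unfold qq; rw [div_le_iff₀ hn']; exact hm2
    refine ⟨mul_le_mul_of_nonneg_right hq1 hsv, ?_⟩
    rw [div_mul_eq_mul_div, div_le_iff₀ hn', one_mul]
    have h3 := abs_ip_le m v
    calc ip m v ^ 2 = |ip m v| ^ 2 := (sq_abs _).symm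
      _ ≤ (nv m * nv v) ^ 2 := pow_le_pow_left₀ (abs_nonneg _) h3 2
      _ = sq m * sq v := by rw [mul_pow, nv_sq, nv_sq]
      _ ≤ (ρ ^ 2 * n) * sq v := mul_le_mul_of_nonneg_right hm2 hsv
      _ = ρ ^ 2 * sq v * n := by ring
  have h3 := (abs_le.1 h2).2
  have hA' := hA v
  rw [qf_Hess]
  have hr2 : r ^ 2 ≤ 1 := by (by_contra nlg; linarith only [nlg, mul_nonneg (sub_nonneg.2 r1) (sub_nonneg.2 r1), mul_nonneg (sub_nonneg.2 r0) (sub_nonneg.2 r1), mul_nonneg (le_of_lt (sub_pos.2 hβ1)) (sub_nonneg.2 r1), mul_nonneg (le_of_lt (sub_pos.2 hβ1)) (sub_nonneg.2 r0), mul_pos (sub_pos.2 hβ1) (sub_pos.2 hβ1), mul_nonneg (le_of_lt (sub_pos.2 (not_le.1 nlg))) (sub_nonneg.2 r1), mul_nonneg (le_of_lt (sub_pos.2 (not_le.1 nlg))) (sub_nonneg.2 r0), mul_pos (sub_pos.2 (not_le.1 nlg)) (sub_pos.2 hβ1)])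
  have e1 : r * qf J v ≤ 2 * r * sq v + ε * sq v := by
    have : r * qf J v ≤ r * ((2 + ε) * sq v) := mul_le_mul_of_nonneg_left h3 r0
    have : r * (ε * sq v) ≤ 1 * (ε * sq v) :=
      mul_le_mul_of_nonneg_right (by linarith only [r1, hβ1]) (mul_nonneg hε hsv)
    linarith
  have e2 : r ^ 2 * (1 - qq m) * sq v ≥ r ^ 2 * sq v - ρ ^ 2 * sq v := by
    have : r ^ 2 * (qq m * sq v) ≤ 1 * (ρ ^ 2 * sq v) :=
      mul_le_mul hr2 hq.1 (mul_nonneg (qq_nonneg m) hsv) zero_le_one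
    linarith only [this]
  have e3 : 2 * r ^ 2 / n * ip m v ^ 2 ≤ 2 * (ρ ^ 2 * sq v) := by
    have h4 : 0 ≤ 1 / (n : ℝ) * ip m v ^ 2 := by (clear * -; positivity)
    have : r ^ 2 * (1 / n * ip m v ^ 2) ≤ 1 * (ρ ^ 2 * sq v) := mul_le_mul hr2 hq.2 h4 zero_le_one
    have e : 2 * r ^ 2 / n * ip m v ^ 2 = 2 * (r ^ 2 * (1 / n * ip m v ^ 2)) := by ring
    rw [e]; linarith only [this]
  have e4 : (1 - β) ^ 2 * sq v ≤ (1 - r) ^ 2 * sq v := by
    apply mul_le_mul_of_nonneg_right _ hsv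
    (by_contra nlg; linarith only [mul_pos (sub_pos.2 (not_le.1 nlg)) (sub_pos.2 hβ1), mul_nonneg (le_of_lt (sub_pos.2 (not_le.1 nlg))) (sub_nonneg.2 r0), mul_nonneg (le_of_lt (sub_pos.2 (not_le.1 nlg))) (sub_nonneg.2 r1), mul_nonneg (le_of_lt (sub_pos.2 hβ1)) (sub_nonneg.2 r1), mul_nonneg (sub_nonneg.2 r1) (sub_nonneg.2 r1)])
  have e5 : (ε + 3 * ρ ^ 2) * sq v ≤ (1 - β) ^ 2 / 2 * sq v := mul_le_mul_of_nonneg_right hρ hsv
  linarith only [e5, e4, e3, e2, e1, hA', h1]

/-! ### summary statements -/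

lemma mem_window {p m : Vec n} {R : ℝ} : m ∈ window p R ↔ (∀ i, |m i| < 1) ∧ nv (m - p) ≤ R :=
  Iff.rfl

lemma mem_window_sqrt {p m : Vec n} {ρ : ℝ} (hρ : 0 ≤ ρ) :
    m ∈ window p (ρ * √n) ↔ (∀ i, |m i| < 1) ∧ sq (m - p) ≤ ρ ^ 2 * n := by
  have h0 : 0 ≤ ρ * √n := mul_nonneg hρ (Real.sqrt_nonneg _)
  have e : (ρ * √n) ^ 2 = ρ ^ 2 * n := by rw [mul_pow, Real.sq_sqrt (Nat.cast_nonneg n)]
  rw [mem_window, ← e]
  exact and_congr_right fun _ => ⟨sq_le_of_nv_le, nv_le_of_sq_le h0⟩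

/-- distance of two approximate TAP solutions in a window -/
theorem dist_approx {r : ℝ} {J A : Mat n} {y p : Vec n} {R c : ℝ}
    (hH : ∀ m ∈ window p R, ∀ v, c * sq v ≤ qf (Hess r J A m) v) {m m' : Vec n}
    (h : m ∈ window p R) (h' : m' ∈ window p R) :
    c * nv (m' - m) ≤ nv (tapG r J A y m') + nv (tapG r J A y m) :=
  (dist_le hH h h').trans (nv_sub_le _ _)

/-- existence and uniqueness of the TAP solution near an approximate one -/
theorem exists_unique_tap {r c R : ℝ} {J A : Mat n} {y p m0 : Vec n} (hJ : J.IsSymm)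
    (hA : A.IsSymm) (hc : 0 < c) (hH : ∀ m ∈ window p R, ∀ v, c * sq v ≤ qf (Hess r J A m) v)
    (hm0 : ∀ i, |m0 i| < 1) (hR : nv (m0 - p) + nv (tapG r J A y m0) / c < R) :
    ∃ m ∈ window p R, Tap r J A y m ∧ c * nv (m - m0) ≤ nv (tapG r J A y m0) ∧
      ∀ m' ∈ window p R, Tap r J A y m' → m' = m := by
  obtain ⟨m, hm, h1, h2⟩ := exists_tap hJ hA hc hH hm0 hR
  exact ⟨m, hm, tap_of_grad hm.1 h1, h2, fun m' hm' h' => tap_unique hc hH hm hm' h1 h'.grad⟩

/-- the initial window -/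
theorem window_init {β ε ρ : ℝ} (hβ1 : β < 1) {J : Mat n} (hJ : OpLe J (2 + ε)) (hε : 0 ≤ ε)
    (hρ0 : 0 ≤ ρ) (hρ : ε + 3 * ρ ^ 2 ≤ (1 - β) ^ 2 / 2) {r : ℝ} (hr : r ∈ Set.Icc 0 β)
    {A : Mat n} (hA : ∀ v, 0 ≤ qf A v) :
    ∀ m ∈ window 0 (ρ * √n), ∀ v, (1 - β) ^ 2 / 2 * sq v ≤ qf (Hess r J A m) v := by
  intro m hm v
  rw [mem_window_sqrt hρ0, sub_zero] at hm
  exact hess_init hβ1 hJ hε hρ hr hA hm.1 hm.2 v

end Win

end Vale.Agent.P150.F
end

section

/-! P150 FULL, D6c: bounds for the TAP drift error in the steering and `A`-killing phases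
(helper739). -/

open MeasureTheory ProbabilityTheory Filter Topology
open scoped Matrix

namespace Vale.Agent.P150.F

variable {n : ℕ}

/-- the inverse of a matrix with quadratic form at least `c` -/
theorem ginv_nv_le {H G : Mat n} {c : ℝ} (hc : 0 < c) (hH : ∀ v, c * sq v ≤ qf H v)
    (hG : H * G = 1) (v : Vec n) : nv (G.mulVec v) ≤ c⁻¹ * nv v := by
  have h1 : H.mulVec (G.mulVec v) = v := by
    rw [Matrix.mulVec_mulVec, hG, Matrix.one_mulVec]
  have h2 := hH (G.mulVec v)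
  unfold qf at h2
  rw [h1] at h2
  have h3 := h2.trans (ip_le (G.mulVec v) v)
  rw [← nv_sq] at h3
  have h0 := nv_nonneg (G.mulVec v)
  rw [inv_mul_eq_div, le_div_iff₀ hc]
  rcases h0.eq_or_lt with h | h
  · rw [← h, zero_mul]
    exact nv_nonneg v
  · refine le_of_mul_le_mul_left ?_ h
    linarith only [h3]

theorem ginv_opLe {H G : Mat n} {c : ℝ} (hc : 0 < c) (hH : ∀ v, c * sq v ≤ qf H v)
    (hG : H * G = 1) : OpLe G c⁻¹ := opLe_of_nv (ginv_nv_le hc hH hG)

theorem ginv_symm {H G : Mat n} (hH : H.IsSymm) (hG : H * G = 1) : G.IsSymm := by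
  have h1 : Gᵀ * H = 1 := by
    have h := congrArg Matrix.transpose hG
    rwa [Matrix.transpose_mul, hH.eq, Matrix.transpose_one] at h
  calc Gᵀ = Gᵀ * (H * G) := by rw [hG, Matrix.mul_one]
    _ = (Gᵀ * H) * G := by rw [Matrix.mul_assoc]
    _ = G := by rw [h1, Matrix.one_mul]

theorem vecMulVec_self_symm (w : Vec n) : (Matrix.vecMulVec w w).IsSymm := by
  unfold Matrix.IsSymm
  rw [Matrix.transpose_vecMulVec]

theorem dg_symm (a : Vec n) : (dg a).IsSymm := by
  unfold dg Matrix.IsSymm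
  rw [Matrix.diagonal_transpose]

theorem Steer.opLe {d : ℕ} {K : ℝ} {A : Mat n} (hA : Steer d K A) : OpLe A (d * K) := by
  obtain ⟨w, hw, rfl⟩ := hA
  refine opLe_of_nv fun v => ?_
  rw [Matrix.sum_mulVec]
  refine (nv_sum_le _ _).trans ?_
  calc ∑ a, nv ((Matrix.vecMulVec (w a) (w a)).mulVec v) ≤ ∑ _a : Fin d, K * nv v := by
        refine Finset.sum_le_sum fun a _ => ?_
        refine ((opLe_vecMulVec (w a) (w a)).nv_le
          (mul_nonneg (nv_nonneg _) (nv_nonneg _)) v).trans ?_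
        refine mul_le_mul_of_nonneg_right ?_ (nv_nonneg v)
        have := nv_sq (w a)
        linarith only [hw a, this]
    _ = d * K * nv v := by simp; ring

/-- Hilbert-Schmidt norm through columns -/
theorem hsq_mul_le_nv {A B : Mat n} {C : ℝ} (hA : OpLe A C) : hsq (A * B) ≤ C ^ 2 * hsq B := by
  have h (M : Mat n) : hsq M = ∑ j, sq (fun i => M i j) := by
    unfold hsq sq
    rw [Finset.sum_comm]
  rw [h, h, Finset.mul_sum]
  refine Finset.sum_le_sum fun j _ => ?_
  have h2 : (fun i => (A * B) i j) = A.mulVec (fun i => B i j) := by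
    funext i
    rw [Matrix.mul_apply, Matrix.mulVec, dotProduct]
  rw [h2]
  exact hA _

theorem hsq_vecMulVec (u v : Vec n) : hsq (Matrix.vecMulVec u v) = sq u * sq v := by
  unfold hsq sq
  rw [Finset.sum_mul_sum]
  refine Finset.sum_congr rfl fun i _ => Finset.sum_congr rfl fun j _ => ?_
  rw [Matrix.vecMulVec_apply]
  ring

/-- the bounded part of the Hessian is bounded -/
theorem Bm_opLe {r : ℝ} {J A : Mat n} {m : Vec n} {a : ℝ} (hr : 0 ≤ r) (hr1 : r ≤ 1)
    (hJ : OpLe J 3) (ha : 0 ≤ a) (hA : OpLe A a) (hm : ∀ i, |m i| ≤ 1) :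
    OpLe (Bm r J A m) (6 + a) := by
  refine opLe_of_nv fun v => ?_
  unfold Bm
  rw [Matrix.sub_mulVec, Matrix.add_mulVec, Matrix.sub_mulVec]
  have hq0 := qq_nonneg m
  have hq1 := qq_le_one hm
  have h1 : nv (((r ^ 2 * (1 - qq m)) • (1 : Mat n)).mulVec v) ≤ 1 * nv v := by
    rw [Matrix.smul_mulVec, nv_smul, Matrix.one_mulVec]
    refine mul_le_mul_of_nonneg_right ?_ (nv_nonneg v)
    rw [abs_of_nonneg (mul_nonneg (sq_nonneg r) (by linarith))]
    linarith only [mul_nonneg (sub_nonneg.2 hq1) (sub_nonneg.2 (mul_nonneg (sq_nonneg r) hq0)), mul_nonneg (sub_nonneg.2 hq0) (sub_nonneg.2 (mul_nonneg (sq_nonneg r) hq0)), mul_nonneg (sub_nonneg.2 hr1) (sub_nonneg.2 hq1), mul_nonneg (sub_nonneg.2 hr1) (sub_nonneg.2 hq0), mul_nonneg (sub_nonneg.2 hr) (sub_nonneg.2 hr1)]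
  have h2 : nv ((r • J).mulVec v) ≤ 3 * nv v := by
    rw [Matrix.smul_mulVec, nv_smul, abs_of_nonneg hr]
    calc r * nv (J.mulVec v) ≤ 1 * nv (J.mulVec v) :=
          mul_le_mul_of_nonneg_right hr1 (nv_nonneg _)
      _ ≤ 3 * nv v := by rw [one_mul]; exact hJ.nv_le (by norm_num) v
  have h3 := hA.nv_le ha v
  have h4 : nv (((2 * r ^ 2 / n) • Matrix.vecMulVec m m).mulVec v) ≤ 2 * nv v := by
    rcases Nat.eq_zero_or_pos n with rfl | hn
    · rw [show ((2 * r ^ 2 / ((0 : ℕ) : ℝ)) • Matrix.vecMulVec m m).mulVec v = 0 from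
        Subsingleton.elim _ _, nv_zero]
      exact mul_nonneg zero_le_two (nv_nonneg v)
    have hn' : (0 : ℝ) < n := by exact_mod_cast hn
    rw [Matrix.smul_mulVec, nv_smul, vecMulVec_mulVec, nv_smul,
      abs_of_nonneg (by (clear * - hn; positivity) : (0 : ℝ) ≤ 2 * r ^ 2 / n)]
    have h5 := abs_ip_le m v
    have h6 := nv_le_sqrt_n hm
    have h7 : |ip m v| * nv m ≤ n * nv v := by
      calc |ip m v| * nv m ≤ (nv m * nv v) * nv m :=
            mul_le_mul_of_nonneg_right h5 (nv_nonneg m)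
        _ = nv m ^ 2 * nv v := by ring
        _ ≤ (√n) ^ 2 * nv v := mul_le_mul_of_nonneg_right
            (pow_le_pow_left₀ (nv_nonneg m) h6 2) (nv_nonneg v)
        _ = n * nv v := by rw [Real.sq_sqrt hn'.le]
    calc 2 * r ^ 2 / n * (|ip m v| * nv m) ≤ 2 * r ^ 2 / n * (n * nv v) :=
          mul_le_mul_of_nonneg_left h7 (by (clear * - hn; positivity))
      _ = 2 * r ^ 2 * nv v := by field_simp
      _ ≤ 2 * nv v := by
          refine mul_le_mul_of_nonneg_right ?_ (nv_nonneg v)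
          linarith only [mul_nonneg (sub_nonneg.2 hr1) (sub_nonneg.2 hq1), mul_nonneg (sub_nonneg.2 hr1) (sub_nonneg.2 hq0), mul_nonneg (sub_nonneg.2 hr) (sub_nonneg.2 hr1)]
  have h5 := nv_sub_le ((((r ^ 2 * (1 - qq m)) • (1 : Mat n)).mulVec v) - (r • J).mulVec v
    + A.mulVec v) (((2 * r ^ 2 / n) • Matrix.vecMulVec m m).mulVec v)
  have h6 := nv_add_le ((((r ^ 2 * (1 - qq m)) • (1 : Mat n)).mulVec v) - (r • J).mulVec v)
    (A.mulVec v)
  have h7 := nv_sub_le (((r ^ 2 * (1 - qq m)) • (1 : Mat n)).mulVec v) ((r • J).mulVec v)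
  linarith

/-- dividing `G v` by `1 - m²` keeps it bounded -/
theorem Ginv_div {r c : ℝ} {J A G : Mat n} {m : Vec n} {a : ℝ} (hc : 0 < c) (hr : 0 ≤ r)
    (hr1 : r ≤ 1) (hJ : OpLe J 3) (ha : 0 ≤ a) (hA : OpLe A a) (hm : ∀ i, |m i| ≤ 1)
    (hH : ∀ v, c * sq v ≤ qf (Hess r J A m) v) (hG : Hess r J A m * G = 1) (v : Vec n) :
    nv (fun i => G.mulVec v i / (1 - m i ^ 2)) ≤ (1 + (6 + a) * c⁻¹) * nv v := by
  have h1 : (fun i => G.mulVec v i / (1 - m i ^ 2)) = v - (Bm r J A m).mulVec (G.mulVec v) := by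
    funext i
    have h2 := Hess_mulVec r J A m (G.mulVec v) i
    rw [Matrix.mulVec_mulVec, hG, Matrix.one_mulVec] at h2
    rw [Pi.sub_apply]
    linarith
  rw [h1]
  have h3 := nv_sub_le v ((Bm r J A m).mulVec (G.mulVec v))
  have h4 := (Bm_opLe hr hr1 hJ ha hA hm).nv_le (by positivity) (G.mulVec v)
  have h5 := ginv_nv_le hc hH hG v
  have h6 : (6 + a) * nv (G.mulVec v) ≤ (6 + a) * (c⁻¹ * nv v) :=
    mul_le_mul_of_nonneg_left h5 (by positivity)
  linarith only [h6, h4, h3]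

theorem Hess_symm {r : ℝ} {J A : Mat n} {m : Vec n} (hJ : J.IsSymm) (hA : A.IsSymm) :
    (Hess r J A m).IsSymm := by
  unfold Hess Matrix.IsSymm
  rw [Matrix.transpose_sub, Matrix.transpose_add, Matrix.transpose_sub, Matrix.transpose_add,
    Matrix.transpose_smul, Matrix.transpose_smul, Matrix.transpose_smul, Matrix.transpose_one,
    (dg_symm _).eq, hJ.eq, hA.eq, (vecMulVec_self_symm m).eq]

theorem sandwich_vecMulVec {G : Mat n} (hG : G.IsSymm) (v : Vec n) :
    G * Matrix.vecMulVec v v * G = Matrix.vecMulVec (G.mulVec v) (G.mulVec v) := by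
  rw [Matrix.mul_vecMulVec, Matrix.vecMulVec_mul, ← Matrix.mulVec_transpose, hG.eq]

/-- **steering phase**: the drift error for `Q = v vᵀ`, `|v| ≤ 1` -/
theorem kap_steer {r c : ℝ} {J A G : Mat n} {m v : Vec n} {a : ℝ} (hc : 0 < c) (hr : 0 ≤ r)
    (hr1 : r ≤ 1) (hJs : J.IsSymm) (hJ : OpLe J 3) (ha : 0 ≤ a) (hAs : A.IsSymm) (hA : OpLe A a)
    (hm : ∀ i, |m i| ≤ 1) (hH : ∀ v, c * sq v ≤ qf (Hess r J A m) v)
    (hG : Hess r J A m * G = 1) (hv : sq v ≤ 1) :
    ∑ j, kap r 0 0 (Matrix.vecMulVec v v) G m j ^ 2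
      ≤ 3 * ((1 + (6 + a) * c⁻¹) ^ 4 + 5 * c⁻¹ ^ 4) := by
  rcases Nat.eq_zero_or_pos n with rfl | hn
  · simp
    (clear * - ha hc; positivity)
  have hn' : (1 : ℝ) ≤ n := by exact_mod_cast hn
  have hGs := ginv_symm (Hess_symm hJs hAs) hG
  set u := G.mulVec v with hu
  have hv1 : nv v ≤ 1 := nv_le_of_sq_le zero_le_one (by rw [one_pow]; exact hv)
  have hu1 : nv u ≤ c⁻¹ := by
    refine (ginv_nv_le hc hH hG v).trans ?_
    calc c⁻¹ * nv v ≤ c⁻¹ * 1 := mul_le_mul_of_nonneg_left hv1 (by positivity)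
      _ = c⁻¹ := mul_one _
  have hw1 : nv (fun i => u i / (1 - m i ^ 2)) ≤ 1 + (6 + a) * c⁻¹ := by
    refine (Ginv_div hc hr hr1 hJ ha hA hm hH hG v).trans ?_
    calc (1 + (6 + a) * c⁻¹) * nv v ≤ (1 + (6 + a) * c⁻¹) * 1 :=
          mul_le_mul_of_nonneg_left hv1 (by (clear * - ha hc; positivity))
      _ = _ := mul_one _
  have hS := sandwich_vecMulVec hGs v
  rw [← hu] at hS
  have htr : trN (G * Matrix.vecMulVec v v * G) = sq u / n := by
    unfold trN
    rw [hS]
    congr 1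
    unfold sq
    exact Finset.sum_congr rfl fun i _ => by rw [Matrix.vecMulVec_apply]; ring
  have hk (j : Fin n) : kap r 0 0 (Matrix.vecMulVec v v) G m j
      = -(m j * (u j / (1 - m j ^ 2)) ^ 2) + m j * (r ^ 2 * (sq u / n))
        + 2 * r ^ 2 / n * ip u m * u j := by
    unfold kap
    rw [htr, hS, vecMulVec_mulVec, Matrix.vecMulVec_apply, Pi.smul_apply, smul_eq_mul, div_pow]
    ring
  have h3 (x y z : ℝ) : (x + y + z) ^ 2 ≤ 3 * (x ^ 2 + (y ^ 2 + z ^ 2)) := by
    linarith only [sq_nonneg (x - y), sq_nonneg (y - z), sq_nonneg (x - z)]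
  have hu4 : sq u ^ 2 ≤ c⁻¹ ^ 4 := by
    rw [← nv_sq, ← pow_mul]
    exact pow_le_pow_left₀ (nv_nonneg u) hu1 4
  have hm2 (j : Fin n) : m j ^ 2 ≤ 1 := by
    rw [← sq_abs]
    exact pow_le_one₀ (abs_nonneg _) (hm j)
  have hr4 : r ^ 4 ≤ 1 := pow_le_one₀ hr hr1
  have t1 : ∑ j, (-(m j * (u j / (1 - m j ^ 2)) ^ 2)) ^ 2 ≤ (1 + (6 + a) * c⁻¹) ^ 4 := by
    set w : Vec n := fun i => u i / (1 - m i ^ 2) with hw
    calc ∑ j, (-(m j * (u j / (1 - m j ^ 2)) ^ 2)) ^ 2 ≤ ∑ j, (w j * w j) ^ 2 := by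
          refine Finset.sum_le_sum fun j _ => ?_
          have : (-(m j * (u j / (1 - m j ^ 2)) ^ 2)) ^ 2 = m j ^ 2 * (w j * w j) ^ 2 := by
            rw [hw]
            ring
          rw [this]
          exact mul_le_of_le_one_left (sq_nonneg _) (hm2 j)
      _ = nv (fun i => w i * w i) ^ 2 := by rw [nv_sq]; rfl
      _ ≤ (nv w * nv w) ^ 2 := pow_le_pow_left₀ (nv_nonneg _) (nv_mul_le w w) 2
      _ = nv w ^ 4 := by ring
      _ ≤ _ := pow_le_pow_left₀ (nv_nonneg _) hw1 4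
  have t2 : ∑ j, (m j * (r ^ 2 * (sq u / n))) ^ 2 ≤ c⁻¹ ^ 4 := by
    calc ∑ j, (m j * (r ^ 2 * (sq u / n))) ^ 2 ≤ ∑ _j : Fin n, c⁻¹ ^ 4 / n ^ 2 := by
          refine Finset.sum_le_sum fun j _ => ?_
          have h5 : (m j * (r ^ 2 * (sq u / n))) ^ 2 = m j ^ 2 * (r ^ 4 * (sq u ^ 2 / n ^ 2)) := by
            ring
          rw [h5]
          refine (mul_le_of_le_one_left (by (clear * - hn; positivity)) (hm2 j)).trans ?_
          refine (mul_le_of_le_one_left (by (clear * - hn; positivity)) hr4).trans ?_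
          gcongr
      _ = c⁻¹ ^ 4 / n := by
          rw [Finset.sum_const, Finset.card_univ, Fintype.card_fin, nsmul_eq_mul]
          field_simp
      _ ≤ c⁻¹ ^ 4 := div_le_self (by positivity) hn'
  have t3 : ∑ j, (2 * r ^ 2 / n * ip u m * u j) ^ 2 ≤ 4 * c⁻¹ ^ 4 := by
    calc ∑ j, (2 * r ^ 2 / n * ip u m * u j) ^ 2 = 4 * r ^ 4 / n ^ 2 * ip u m ^ 2 * sq u := by
          unfold sq
          rw [Finset.mul_sum]
          exact Finset.sum_congr rfl fun j _ => by ring
      _ ≤ 4 * 1 / n ^ 2 * (sq u * n) * sq u := by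
          gcongr
          · exact sqN_nonneg u
          · have h6 := abs_ip_le u m
            have h7 := nv_le_sqrt_n hm
            calc ip u m ^ 2 = |ip u m| ^ 2 := (sq_abs _).symm
              _ ≤ (nv u * nv m) ^ 2 := pow_le_pow_left₀ (abs_nonneg _) h6 2
              _ = sq u * nv m ^ 2 := by rw [mul_pow, nv_sq]
              _ ≤ sq u * (√n) ^ 2 := by
                  refine mul_le_mul_of_nonneg_left ?_ (sqN_nonneg u)
                  exact pow_le_pow_left₀ (nv_nonneg m) h7 2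
              _ = sq u * n := by rw [Real.sq_sqrt (by positivity)]
      _ = 4 * (sq u ^ 2 / n) := by field_simp
      _ ≤ 4 * sq u ^ 2 := by
          gcongr
          exact div_le_self (sq_nonneg _) hn'
      _ ≤ 4 * c⁻¹ ^ 4 := by gcongr
  calc ∑ j, kap r 0 0 (Matrix.vecMulVec v v) G m j ^ 2
      ≤ ∑ j, 3 * ((-(m j * (u j / (1 - m j ^ 2)) ^ 2)) ^ 2
        + ((m j * (r ^ 2 * (sq u / n))) ^ 2 + (2 * r ^ 2 / n * ip u m * u j) ^ 2)) := by
        refine Finset.sum_le_sum fun j _ => ?_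
        rw [hk j]
        exact h3 _ _ _
    _ = 3 * (∑ j, (-(m j * (u j / (1 - m j ^ 2)) ^ 2)) ^ 2
        + (∑ j, (m j * (r ^ 2 * (sq u / n))) ^ 2
          + ∑ j, (2 * r ^ 2 / n * ip u m * u j) ^ 2)) := by
        rw [← Finset.mul_sum, Finset.sum_add_distrib, Finset.sum_add_distrib]
    _ ≤ _ := by linarith

/-- the diagonal of a matrix in `ℓ²` -/
theorem nv_diag_le {M : Mat n} {s : ℝ} (hs : 0 ≤ s) (h : hsq M ≤ s ^ 2) :
    nv (fun j => M j j) ≤ s := by
  refine nv_le_of_sq_le hs (le_trans ?_ h)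
  unfold sq hsq
  exact Finset.sum_le_sum fun j _ =>
    Finset.single_le_sum (f := fun k => M j k ^ 2) (fun k _ => sq_nonneg _) (Finset.mem_univ j)

theorem hsq_mul_bd {A B : Mat n} {C s : ℝ} (hA : OpLe A C) (hB : hsq B ≤ s ^ 2) :
    hsq (A * B) ≤ (C * s) ^ 2 := by
  refine (hsq_mul_le_nv hA).trans ?_
  rw [mul_pow]
  exact mul_le_mul_of_nonneg_left hB (sq_nonneg C)

/-- **`A`-killing phase** (`r = 0`): the drift error for `Q = κ' - A₀` -/
theorem kap_kill {c κ' : ℝ} {J A A₀ G : Mat n} {m : Vec n} {a : ℝ} (hc : 0 < c)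
    (ha : 0 ≤ a) (hAs : A.IsSymm) (hA : OpLe A a) (hA0s : A₀.IsSymm) (hA0 : OpLe A₀ a)
    (hAh : hsq A ≤ a ^ 2) (hA0h : hsq A₀ ≤ a ^ 2)
    (hm : ∀ i, |m i| < 1) (hH : ∀ v, c * sq v ≤ qf (Hess 0 J A m) v)
    (hG : Hess 0 J A m * G = 1) :
    ∑ j, kap 0 0 κ' (κ' • (1 : Mat n) - A₀) G m j ^ 2
      ≤ (a + 2 * ((|κ'| + a) * (c⁻¹ * a)) + a * (c⁻¹ * ((|κ'| + a) * (c⁻¹ * a)))) ^ 2 := by
  have hc' : 0 ≤ c⁻¹ := by positivity
  have hBm : Bm 0 J A m = A := by
    unfold Bm
    simp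
  have hHs : (Hess 0 J A m).IsSymm := by
    rw [Hess_eq, hBm]
    unfold Matrix.IsSymm
    rw [Matrix.transpose_add, (dg_symm _).eq, hAs.eq]
  have hGs := ginv_symm hHs hG
  have hGo := ginv_opLe hc hH hG
  set Q : Mat n := κ' • (1 : Mat n) - A₀ with hQ
  have hQs : Q.IsSymm := by
    unfold Matrix.IsSymm
    rw [hQ, Matrix.transpose_sub, Matrix.transpose_smul, Matrix.transpose_one, hA0s.eq]
  have hQo : OpLe Q (|κ'| + a) := by
    have h1 : OpLe (κ' • (1 : Mat n)) (|κ'| * 1) := opLe_one.smul zero_le_one κ'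
    rw [mul_one] at h1
    exact h1.sub hA0 (abs_nonneg _) ha
  set D : Mat n := dg (fun i => 1 / (1 - m i ^ 2)) with hD
  have h1 : D * G = 1 - A * G := by
    have h2 := hG
    rw [Hess_eq, hBm, Matrix.add_mul] at h2
    rw [← h2, add_sub_cancel_right]
  have h2 : G * D = 1 - G * A := by
    have h3 := congrArg Matrix.transpose h1
    rwa [Matrix.transpose_mul, Matrix.transpose_sub, Matrix.transpose_mul, hGs.eq,
      (dg_symm _).eq, Matrix.transpose_one, hAs.eq] at h3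
  have h3 (j : Fin n) : (G * Q * G) j j / (1 - m j ^ 2) ^ 2 = (D * (G * Q * G) * D) j j := by
    rw [hD, dg, Matrix.mul_diagonal, Matrix.diagonal_mul]
    generalize 1 - m j ^ 2 = t
    rw [div_eq_mul_inv, one_div, ← inv_pow]
    ring
  have h4 : D * (G * Q * G) * D = (1 - A * G) * Q * (1 - G * A) := by
    rw [← h1, ← h2]
    simp only [Matrix.mul_assoc]
  have h5 : (1 - A * G) * Q * (1 - G * A)
      = Q - A * (G * Q) - Q * (G * A) + A * (G * (Q * (G * A))) := by
    noncomm_ring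
  set T := Q * (G * A) with hT
  have hTh : hsq T ≤ ((|κ'| + a) * (c⁻¹ * a)) ^ 2 :=
    hsq_mul_bd hQo (hsq_mul_bd hGo hAh)
  have hTt : A * (G * Q) = Tᵀ := by
    rw [hT, Matrix.transpose_mul, Matrix.transpose_mul, hGs.eq, hAs.eq, hQs.eq,
      Matrix.mul_assoc]
  have hkap (j : Fin n) : kap 0 0 κ' Q G m j
      = m j * (A₀ j j + (T j j + T j j) - (A * (G * T)) j j) := by
    unfold kap
    rw [h3 j, h4, h5, hTt]
    simp only [Matrix.add_apply, Matrix.sub_apply, Matrix.transpose_apply]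
    rw [hQ, Matrix.sub_apply, Matrix.smul_apply, Matrix.one_apply_eq]
    simp only [smul_eq_mul]
    ring
  have hp : 0 ≤ (|κ'| + a) * (c⁻¹ * a) := by (clear * - ha hc; positivity)
  have hb0 := nv_diag_le ha hA0h
  have hb1 := nv_diag_le hp hTh
  have hb2 := nv_diag_le (M := A * (G * T)) (by (clear * - ha hc; positivity)) (hsq_mul_bd hA (hsq_mul_bd hGo hTh))
  have hfin : nv (fun j => kap 0 0 κ' Q G m j)
      ≤ a + 2 * ((|κ'| + a) * (c⁻¹ * a)) + a * (c⁻¹ * ((|κ'| + a) * (c⁻¹ * a))) := by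
    have e1 : nv (fun j => kap 0 0 κ' Q G m j)
        ≤ nv ((fun j => A₀ j j) + ((fun j => T j j) + (fun j => T j j))
          - (fun j => (A * (G * T)) j j)) := by
      refine nv_mono fun j => ?_
      rw [hkap j, abs_mul]
      exact mul_le_of_le_one_left (abs_nonneg _) (hm j).le
    have e2 := nv_sub_le ((fun j => A₀ j j) + ((fun j => T j j) + (fun j => T j j)))
      (fun j => (A * (G * T)) j j)
    have e3 := nv_add_le (fun j => A₀ j j) ((fun j => T j j) + (fun j => T j j))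
    have e4 := nv_add_le (fun j => T j j) (fun j => T j j)
    linarith only [e4, e3, e2, e1, hb2, hb1, hb0]
  exact sq_le_of_nv_le hfin

theorem Steer.hsq_le {d : ℕ} {K : ℝ} {A : Mat n} (hA : Steer d K A) :
    hsq A ≤ (d * K) ^ 2 := by
  obtain ⟨w, hw, rfl⟩ := hA
  have h1 (i j : Fin n) : (∑ a, Matrix.vecMulVec (w a) (w a)) i j ^ 2
      ≤ d * ∑ a, (Matrix.vecMulVec (w a) (w a)) i j ^ 2 := by
    rw [Matrix.sum_apply]
    have := sq_sum_le_card_mul_sum_sq (s := (Finset.univ : Finset (Fin d)))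
      (f := fun a => (Matrix.vecMulVec (w a) (w a)) i j)
    simpa using this
  calc hsq (∑ a, Matrix.vecMulVec (w a) (w a))
      ≤ ∑ i, ∑ j, d * ∑ a, (Matrix.vecMulVec (w a) (w a)) i j ^ 2 :=
        Finset.sum_le_sum fun i _ => Finset.sum_le_sum fun j _ => h1 i j
    _ = d * ∑ a, hsq (Matrix.vecMulVec (w a) (w a)) := by
        unfold hsq
        rw [Finset.mul_sum]
        calc ∑ i, ∑ j, d * ∑ a, (Matrix.vecMulVec (w a) (w a)) i j ^ 2
            = ∑ i, ∑ a, ∑ j, d * (Matrix.vecMulVec (w a) (w a)) i j ^ 2 := by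
              refine Finset.sum_congr rfl fun i _ => ?_
              rw [Finset.sum_comm]
              exact Finset.sum_congr rfl fun j _ => by rw [Finset.mul_sum]
          _ = ∑ a, ∑ i, ∑ j, d * (Matrix.vecMulVec (w a) (w a)) i j ^ 2 := Finset.sum_comm
          _ = _ := by
              refine Finset.sum_congr rfl fun a _ => ?_
              rw [Finset.mul_sum]
              exact Finset.sum_congr rfl fun i _ => by rw [Finset.mul_sum]
    _ ≤ d * ∑ _a : Fin d, K ^ 2 := by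
        refine mul_le_mul_of_nonneg_left ?_ (Nat.cast_nonneg d)
        refine Finset.sum_le_sum fun a _ => ?_
        rw [hsq_vecMulVec, ← pow_two]
        exact pow_le_pow_left₀ (sqN_nonneg _) (hw a) 2
    _ = (d * K) ^ 2 := by simp; ring

end Vale.Agent.P150.F
end

section

/-! P150 FULL, D6: second-order expansion of the displacement of the TAP solution in one micro step
(definitions, helper123). -/

open MeasureTheory ProbabilityTheory Filter Topology
open scoped Matrix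

namespace Vale.Agent.P150.F

variable {n : ℕ}

/-- second-order expansion of the displacement of the TAP solution when the (normalised) field
changes by `ε`; `B = Bm r J A m`, `G` the inverse Hessian -/
noncomputable def disp2 (r : ℝ) (B G : Mat n) (m ε : Vec n) : Vec n :=
  G.mulVec (ε - (fun i => m i * ((ε - B.mulVec (G.mulVec ε)) i) ^ 2)
    + (2 * r ^ 2 / n * ip m (G.mulVec ε)) • G.mulVec ε
    + (r ^ 2 / n * sq (G.mulVec ε)) • m)

/-- effective change of the field in one micro step, with spins `x` and noise `ξ` -/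
noncomputable def effE (r ρ κ₀ δ : ℝ) (R : Mat n) (m : Vec n) (x : Cfg n) (ξ : Vec n) : Vec n :=
  δ • ((R * Rᵀ).mulVec (sv x - m) + (κ₀ + (2 * r * ρ + δ * ρ ^ 2) * (1 - qq m)) • m)
    + √δ • R.mulVec ξ

/-- the expectation step (D6a2): from the second-order expansion to the drift -/
def DriftCore : Prop :=
  ∀ (n : ℕ) (C e₀ : ℝ), 1 ≤ C → 0 < e₀ → ∃ K : ℝ, ∀ δ : ℝ, 0 < δ → δ ≤ 1 →
    ∀ (r ρ κ₀ : ℝ) (J A R G : Mat n) (m : Vec n), r ∈ Set.Icc (0 : ℝ) 1 → |ρ| ≤ C → |κ₀| ≤ C →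
    OpLe R C → OpLe G C → OpLe (Bm r J A m) C → G.IsSymm → (∀ i, |m i| < 1) →
    Hess r J A m * G = 1 → ∀ F : Cfg n → Vec n → Vec n,
    (∀ x i, Measurable fun ξ => F x ξ i) → (∀ x ξ, nv (F x ξ) ≤ C) →
    (∀ x ξ, nv (effE r ρ κ₀ δ R m x ξ) ≤ e₀ →
      nv (F x ξ - disp2 r (Bm r J A m) G m (effE r ρ κ₀ δ R m x ξ))
        ≤ C * nv (effE r ρ κ₀ δ R m x ξ) ^ 3) →
    ∀ ν : Cfg n → ℝ, IsProb ν →
      nv ((fun i => ∑ x, ν x * ∫ ξ, F x ξ i ∂(gpi (Fin n)))
        - δ • G.mulVec ((R * Rᵀ).mulVec (mean ν - m) + kap r ρ κ₀ (R * Rᵀ) G m))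
        ≤ K * (δ * √δ)

end Vale.Agent.P150.F
end

section

/-! P150 FULL, D6: the drift of the tracked mean in one micro step, abstract form (helper123). -/

open MeasureTheory ProbabilityTheory Filter Topology
open scoped Matrix

namespace Vale.Agent.P150.F

/-- deterministic second-order expansion (helper558, F/Tap1.lean) -/
def TapDisp2 : Prop :=
  ∀ (n : ℕ) (C : ℝ), 1 ≤ C → ∀ (r : ℝ) (J A G : Mat n) (m m' ε : Vec n),
    r ∈ Set.Icc (0 : ℝ) 1 → (∀ i, |m i| < 1) → (∀ i, |m' i| < 1) →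
    (∀ i, Real.artanh (m' i) - Real.artanh (m i)
      = ε i - (tapB r J A m' i - tapB r J A m i)) →
    Hess r J A m * G = 1 → OpLe G C → OpLe (Bm r J A m) C → nv (m' - m) ≤ C * nv ε →
    nv ε ≤ 1 / (5 * C ^ 2) →
    nv (m' - m - disp2 r (Bm r J A m) G m ε) ≤ 3200 * C ^ 9 * nv ε ^ 3

/-- the effective change of the field (helper999, F/Tap3.lean) -/
def EffEq : Prop :=
  ∀ (n : ℕ) (δ r r' ρ₁ κ₁ c c' : ℝ) (J A A' R : Mat n) (m : Vec n) (x : Cfg n) (ξ : Vec n),
    r' = r - δ * ρ₁ → c' = c + δ * κ₁ →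
    r' • J - A' - c' • (1 : Mat n) = r • J - A - c • (1 : Mat n) - δ • (R * Rᵀ) →
    obs R δ x ξ - (tapB r' J A' m - tapB r J A m) = effE r' ρ₁ κ₁ δ R m x ξ

theorem tapG_of_tap {n : ℕ} {r : ℝ} {J A : Mat n} {y m : Vec n} (h : Tap r J A y m) (r' : ℝ)
    (A' : Mat n) (z : Vec n) :
    tapG r' J A' (y + z) m = -(z - (tapB r' J A' m - tapB r J A m)) := by
  funext i
  have h1 := h.artanh i
  unfold tapG
  simp only [Pi.add_apply, Pi.neg_apply, Pi.sub_apply]
  rw [h1]
  ring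

theorem exists_inv {n : ℕ} {H : Mat n} {c : ℝ} (hc : 0 < c) (hH : ∀ v, c * sq v ≤ qf H v) :
    ∃ G : Mat n, H * G = 1 := by
  have h1 : IsUnit H := by
    rw [← Matrix.mulVec_injective_iff_isUnit]
    intro u v huv
    have h2 : H.mulVec (u - v) = 0 := by rw [Matrix.mulVec_sub, huv, sub_self]
    have h3 := hH (u - v)
    unfold qf at h3
    rw [h2] at h3
    have h4 : ip (u - v) (0 : Vec n) = 0 := by unfold ip; simp
    rw [h4] at h3
    have h5 : sq (u - v) = 0 := le_antisymm (by (by_contra nlg; linarith only [h3, mul_pos (sub_pos.2 (not_le.1 nlg)) (sub_pos.2 hc)])) (sqN_nonneg _)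
    funext i
    have h6 := (Finset.sum_eq_zero_iff_of_nonneg (fun i _ => sq_nonneg ((u - v) i))).1 h5 i
      (Finset.mem_univ i)
    have h7 : (u - v) i = 0 := by simpa using h6
    simpa [sub_eq_zero] using h7
  obtain ⟨⟨a, b, h, h'⟩, rfl⟩ := h1
  exact ⟨b, h⟩

theorem step_drift (h1 : TapDisp2) (h2 : DriftCore) (h3 : EffEq) (n : ℕ) (c C e₁ : ℝ)
    (hc : 0 < c) (he₁ : 0 < e₁) (hC : 1 ≤ C) :
    ∃ K : ℝ, ∀ δ : ℝ, 0 < δ → δ ≤ 1 →
    ∀ (r r' ρ₁ κ₁ a a' : ℝ) (J A A' R : Mat n) (y m : Vec n) (mn : Vec n → Vec n),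
    r' ∈ Set.Icc (0 : ℝ) 1 → |ρ₁| ≤ C → |κ₁| ≤ C → J.IsSymm → A'.IsSymm → OpLe R C → OpLe J 3 →
    OpLe A' C → r' = r - δ * ρ₁ → a' = a + δ * κ₁ →
    r' • J - A' - a' • (1 : Mat n) = r • J - A - a • (1 : Mat n) - δ • (R * Rᵀ) →
    Tap r J A y m → (∀ v, c * sq v ≤ qf (Hess r' J A' m) v) →
    (∀ i, Measurable fun z => mn z i) → (∀ z i, |mn z i| ≤ 1) →
    (∀ z, nv (tapG r' J A' (y + z) m) ≤ e₁ → Tap r' J A' (y + z) (mn z) ∧
      c * nv (mn z - m) ≤ nv (tapG r' J A' (y + z) m)) →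
    ∃ G : Mat n, Hess r' J A' m * G = 1 ∧ G.IsSymm ∧ OpLe G c⁻¹ ∧ ∀ ν : Cfg n → ℝ, IsProb ν →
      nv ((fun i => EC ν R δ (fun _ z => mn z i)) - m
        - δ • G.mulVec ((R * Rᵀ).mulVec (mean ν - m) + kap r' ρ₁ κ₁ (R * Rᵀ) G m))
        ≤ K * (δ * √δ) := by
  have hci : 0 < c⁻¹ := inv_pos.2 hc
  obtain ⟨C2, hC2⟩ : ∃ C2, C2 = 6 + C + c⁻¹ := ⟨_, rfl⟩
  have hC21 : 1 ≤ C2 := by rw [hC2]; linarith only [hci, hC]
  obtain ⟨C3, hC3⟩ : ∃ C3, C3 = C2 + 2 * √n + 3200 * C2 ^ 9 := ⟨_, rfl⟩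
  have hsn : 0 ≤ √(n : ℝ) := Real.sqrt_nonneg _
  have hC29 : 0 ≤ C2 ^ 9 := by positivity
  have hC32 : C2 ≤ C3 := by rw [hC3]; linarith
  have he0 : 0 < min e₁ (1 / (5 * C2 ^ 2)) := lt_min he₁ (by positivity)
  obtain ⟨K, hK⟩ := h2 n C3 (min e₁ (1 / (5 * C2 ^ 2))) (by linarith only [hC32, hC2, hci, hC]) he0
  refine ⟨K, fun δ hδ hδ1 r r' ρ₁ κ₁ a a' J A A' R y m mn hr' hρ hκ hJs hAs hR hJ3 hA' hr ha hM
    hm hH hmn hmn1 hstep => ?_⟩
  have hml : ∀ i, |m i| < 1 := hm.abs_lt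
  obtain ⟨G, hG⟩ := exists_inv hc hH
  have hGs : G.IsSymm := ginv_symm (Hess_symm hJs hAs) hG
  have hGo : OpLe G c⁻¹ := ginv_opLe hc hH hG
  have hBo : OpLe (Bm r' J A' m) (6 + C) :=
    Bm_opLe hr'.1 hr'.2 hJ3 (by linarith only [hC]) hA' fun i => (hml i).le
  refine ⟨G, hG, hGs, hGo, fun ν hν => ?_⟩
  have hG3 : OpLe G C3 := hGo.monoN hci.le (by rw [hC2] at hC32; linarith only [hC32, hC])
  have hB3 : OpLe (Bm r' J A' m) C3 := hBo.monoN (by linarith only [hC]) (by rw [hC2] at hC32; linarith only [hC32, hci])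
  have hR3 : OpLe R C3 := hR.monoN (by linarith only [hC]) (by rw [hC2] at hC32; linarith only [hC32, hci])
  have hG2 : OpLe G C2 := hGo.monoN hci.le (by rw [hC2]; linarith only [hC])
  have hB2 : OpLe (Bm r' J A' m) C2 := hBo.monoN (by linarith only [hC]) (by rw [hC2]; linarith only [hci])
  have hobs : ∀ x : Cfg n, Measurable fun ξ : Vec n => obs R δ x ξ := by
    intro x
    refine measurable_pi_lambda _ fun i => ?_
    unfold obs Matrix.mulVec dotProduct
    exact measurable_const.add (measurable_const.mul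
      (Finset.measurable_fun_sum _ fun j _ => measurable_const.mul (measurable_pi_apply j)))
  have hmeas : ∀ (x : Cfg n) (i : Fin n), Measurable fun ξ : Vec n => mn (obs R δ x ξ) i :=
    fun x i => (hmn i).comp (hobs x)
  have key := hK δ hδ hδ1 r' ρ₁ κ₁ J A' R G m hr' (hρ.trans (by rw [hC2] at hC32; linarith only [hC32, hci]))
    (hκ.trans (by rw [hC2] at hC32; linarith only [hC32, hci])) hR3 hG3 hB3 hGs hml hG
    (fun x ξ => mn (obs R δ x ξ) - m) (fun x i => (hmeas x i).sub_const _) ?_ ?_ ν hν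
  · refine le_trans (le_of_eq ?_) key
    congr 2
    funext i
    simp only [Pi.sub_apply]
    unfold EC
    have hint : ∀ x : Cfg n, Integrable (fun ξ => mn (obs R δ x ξ) i) (gpi (Fin n)) := by
      intro x
      refine Integrable.of_bound (hmeas x i).aestronglyMeasurable 1 ?_
      exact Eventually.of_forall fun ξ => by rw [Real.norm_eq_abs]; exact hmn1 _ _
    have e1 : ∀ x : Cfg n, ∫ ξ, (mn (obs R δ x ξ) i - m i) ∂(gpi (Fin n))
        = ∫ ξ, mn (obs R δ x ξ) i ∂(gpi (Fin n)) - m i := by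
      intro x
      rw [integral_sub (hint x) (integrable_const _), integral_const]
      simp
    simp_rw [e1, mul_sub, Finset.sum_sub_distrib, ← Finset.sum_mul, hν.2, one_mul]
  · intro x ξ
    have h4 : nv (mn (obs R δ x ξ)) ≤ √n := nv_le_sqrt_n (hmn1 _)
    have h5 : nv m ≤ √n := nv_le_sqrt_n fun i => (hml i).le
    have := nv_sub_le (mn (obs R δ x ξ)) m
    rw [hC3]; linarith only [this, h5, h4, hC29, hC2, hci, hC]
  · intro x ξ hε
    have e1 := h3 n δ r r' ρ₁ κ₁ a a' J A A' R m x ξ hr ha hM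
    have e2 := tapG_of_tap hm r' A' (obs R δ x ξ)
    rw [e1] at e2
    have e3 : nv (tapG r' J A' (y + obs R δ x ξ) m) = nv (effE r' ρ₁ κ₁ δ R m x ξ) := by
      rw [e2, nv_neg]
    obtain ⟨ht, hd⟩ := hstep (obs R δ x ξ) (by rw [e3]; exact hε.trans (min_le_left _ _))
    rw [e3] at hd
    have h6 := h1 n C2 hC21 r' J A' G m (mn (obs R δ x ξ)) (effE r' ρ₁ κ₁ δ R m x ξ) hr' hml
      ht.abs_lt ?_ hG hG2 hB2 ?_ (hε.trans (min_le_right _ _))
    · refine h6.trans (mul_le_mul_of_nonneg_right ?_ (pow_nonneg (nv_nonneg _) 3))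
      rw [hC3]; linarith only [hC, hci, hC2, hsn]
    · intro i
      rw [ht.artanh i, hm.artanh i, ← e1]
      simp only [Pi.add_apply, Pi.sub_apply]
      ring
    · have h7 : nv (mn (obs R δ x ξ) - m) ≤ c⁻¹ * nv (effE r' ρ₁ κ₁ δ R m x ξ) := by
        rw [inv_mul_eq_div, le_div_iff₀ hc]; linarith only [hd]
      refine h7.trans (mul_le_mul_of_nonneg_right ?_ (nv_nonneg _))
      rw [hC2]; linarith only [hC]

end Vale.Agent.P150.F
end

section

/-! P150 FULL, D6: the effective change of the field in one micro step (helper999). -/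

open MeasureTheory ProbabilityTheory Filter Topology
open scoped Matrix

namespace Vale.Agent.P150.F

theorem effEq : EffEq := by
  intro n δ r r' ρ₁ κ₁ c c' J A A' R m x ξ hr hc hM
  funext i
  have h1 := congrFun (congrArg (fun M : Mat n => M.mulVec m) hM) i
  simp only [Matrix.sub_mulVec, Matrix.smul_mulVec, Matrix.one_mulVec, Pi.sub_apply,
    Pi.smul_apply, smul_eq_mul] at h1
  have h2 : (R * Rᵀ).mulVec (sv x - m) i = (R * Rᵀ).mulVec (sv x) i - (R * Rᵀ).mulVec m i := by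
    rw [Matrix.mulVec_sub, Pi.sub_apply]
  simp only [obs, tapB, effE, Pi.sub_apply, Pi.add_apply, Pi.smul_apply, smul_eq_mul, h2]
  subst hr hc
  linear_combination h1

end Vale.Agent.P150.F
end
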