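import Mathlib

set_option linter.all false

section
open Real

namespace Vale.Agent.P150

lemma abs_mul_le_half_sq (a b : ℝ) : |a * b| ≤ (a^2 + b^2) / 2 := by
  rw [abs_le]; constructor <;> nlinarith [sq_nonneg (a-b), sq_nonneg (a+b)]

lemma abs_mul_le_of_le_one {w X B : ℝ} (hw : |w| ≤ 1) (hX : |X| ≤ B) : |w * X| ≤ B := by
  rw [abs_mul]
  calc |w| * |X| ≤ 1 * |X| := mul_le_mul_of_nonneg_right hw (abs_nonneg _)
    _ ≤ B := by rw [one_mul]; exact hX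

lemma poly_aux1 (u w t β γ δ : ℝ) (hu : |u| ≤ 1) (hw : |w| ≤ 1) :
    t^3 * (u*w*(w*(δ*β) + u*(δ*γ) + u*w*(β*γ))) ≤ |t|^3 * (δ^2 + β^2 + γ^2) := by
  have huw : |u*w| ≤ 1 := abs_mul_le_of_le_one hu hw
  have c1 : |w*(δ*β)| ≤ (δ^2+β^2)/2 := abs_mul_le_of_le_one hw (abs_mul_le_half_sq _ _)
  have c2 : |u*(δ*γ)| ≤ (δ^2+γ^2)/2 := abs_mul_le_of_le_one hu (abs_mul_le_half_sq _ _)
  have c3 : |u*w*(β*γ)| ≤ (β^2+γ^2)/2 := abs_mul_le_of_le_one huw (abs_mul_le_half_sq _ _)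
  have c4 : |w*(δ*β) + u*(δ*γ) + u*w*(β*γ)| ≤ δ^2 + β^2 + γ^2 := by
    have h1 := abs_add_le (w*(δ*β) + u*(δ*γ)) (u*w*(β*γ))
    have h2 := abs_add_le (w*(δ*β)) (u*(δ*γ))
    linarith
  have b1 : |u*w*(w*(δ*β) + u*(δ*γ) + u*w*(β*γ))| ≤ δ^2 + β^2 + γ^2 :=
    abs_mul_le_of_le_one huw c4
  calc t^3 * (u*w*(w*(δ*β) + u*(δ*γ) + u*w*(β*γ))) ≤ |t^3 * (u*w*(w*(δ*β) + u*(δ*γ) + u*w*(β*γ)))| := le_abs_self _
    _ = |t|^3 * |u*w*(w*(δ*β) + u*(δ*γ) + u*w*(β*γ))| := by rw [abs_mul, abs_pow]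
    _ ≤ _ := mul_le_mul_of_nonneg_left b1 (by positivity)

lemma sq_le_of_abs_le {a c : ℝ} (h : |a| ≤ c) : a^2 ≤ c^2 := by
  rw [← sq_abs]; exact pow_le_pow_left₀ (abs_nonneg a) h 2

lemma poly_aux2 (u w t : ℝ) (hu : |u| ≤ 1) (hw : |w| ≤ 1) (ht : |t| ≤ 1/1000) :
    99/100 ≤ (1 + t^2 * (1 + (u*w)^2 - 2*u^2 - 2*w^2) - (u*w*t)*t^2 + (u*w*t)^2 * t^2) := by
  have hu2 : u^2 ≤ 1 := by simpa using sq_le_of_abs_le hu
  have hw2 : w^2 ≤ 1 := by simpa using sq_le_of_abs_le hw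
  have ht2 : t^2 ≤ (1/1000)^2 := sq_le_of_abs_le ht
  have ht0 : 0 ≤ t^2 := sq_nonneg t
  have huw : |u*w| ≤ 1 := abs_mul_le_of_le_one hu hw
  have huwt : |u*w*t| ≤ 1/1000 := abs_mul_le_of_le_one huw ht
  have a1 : t^2 * (-3) ≤ t^2 * (1 + (u*w)^2 - 2*u^2 - 2*w^2) := by
    apply mul_le_mul_of_nonneg_left _ ht0
    have := sq_nonneg (u*w)
    linarith only [hu2, hw2, this]
  have a2 : (u*w*t)*t^2 ≤ 1 * t^2 := by
    apply mul_le_mul_of_nonneg_right _ ht0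
    have := le_abs_self (u*w*t); linarith only [huwt, this]
  have a3 : 0 ≤ (u*w*t)^2 * t^2 := by (clear * -; positivity)
  linarith only [a3, a2, a1, ht2]

/-- the polynomial part -/
lemma poly_part (u w t β γ δ : ℝ) (hu : |u| ≤ 1) (hw : |w| ≤ 1) (ht : |t| ≤ 1/1000) :
    (9/10) * δ^2 - |t|^3 * (β^2 + γ^2) ≤
    (1 - u*w*t) * ((δ - u*t*β)*(δ - w*t*γ) - t*(β - u*t*δ)*(γ - w*t*δ)) +
    ((1+u*1)*(1+w*1)/4 * (t * (1 + t*(1*1 - 2*u*1 - 2*w*1 + u*w))) * ((β+δ*1)*(γ+δ*1)) +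
     (1+u*1)*(1+w*(-1))/4 * (t * (1 + t*(1*(-1) - 2*u*(-1) - 2*w*1 + u*w))) * ((β+δ*(-1))*(γ+δ*1)) +
     (1+u*(-1))*(1+w*1)/4 * (t * (1 + t*((-1)*1 - 2*u*1 - 2*w*(-1) + u*w))) * ((β+δ*1)*(γ+δ*(-1))) +
     (1+u*(-1))*(1+w*(-1))/4 * (t * (1 + t*((-1)*(-1) - 2*u*(-1) - 2*w*(-1) + u*w))) * ((β+δ*(-1))*(γ+δ*(-1)))) := by
  have e : (1 - u*w*t) * ((δ - u*t*β)*(δ - w*t*γ) - t*(β - u*t*δ)*(γ - w*t*δ)) +
    ((1+u*1)*(1+w*1)/4 * (t * (1 + t*(1*1 - 2*u*1 - 2*w*1 + u*w))) * ((β+δ*1)*(γ+δ*1)) +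
     (1+u*1)*(1+w*(-1))/4 * (t * (1 + t*(1*(-1) - 2*u*(-1) - 2*w*1 + u*w))) * ((β+δ*(-1))*(γ+δ*1)) +
     (1+u*(-1))*(1+w*1)/4 * (t * (1 + t*((-1)*1 - 2*u*1 - 2*w*(-1) + u*w))) * ((β+δ*1)*(γ+δ*(-1))) +
     (1+u*(-1))*(1+w*(-1))/4 * (t * (1 + t*((-1)*(-1) - 2*u*(-1) - 2*w*(-1) + u*w))) * ((β+δ*(-1))*(γ+δ*(-1))))
     = δ^2 * (1 + t^2 * (1 + (u*w)^2 - 2*u^2 - 2*w^2) - (u*w*t)*t^2 + (u*w*t)^2 * t^2) -
       t^3 * (u*w*(w*(δ*β) + u*(δ*γ) + u*w*(β*γ))) := by ring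
  rw [e]
  have h1 := poly_aux2 u w t hu hw ht
  have h2 := poly_aux1 u w t β γ δ hu hw
  have h3 : |t|^3 ≤ 1/1000 := by
    have : |t|^3 ≤ (1/1000)^3 := pow_le_pow_left₀ (abs_nonneg t) ht 3
    norm_num at this ⊢; linarith only [this]
  have h4 : δ^2 * (99/100) ≤ δ^2 * (1 + t^2 * (1 + (u*w)^2 - 2*u^2 - 2*w^2) - (u*w*t)*t^2 + (u*w*t)^2 * t^2) :=
    mul_le_mul_of_nonneg_left h1 (sq_nonneg δ)
  have h5 : |t|^3 * δ^2 ≤ 1/1000 * δ^2 := mul_le_mul_of_nonneg_right h3 (sq_nonneg δ)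
  have := sq_nonneg δ
  linarith only [this, h5, h4, h2]


/-- composition of first-order jets -/
lemma jet_mul {t X Y a b A C D : ℝ} (ht : |t| ≤ 1/10) (hA : 0 ≤ A) (hA10 : A ≤ 10) (hC : 0 ≤ C)
    (hDD : D ≤ 100)
    (ha : |a| ≤ A) (hb : |b| ≤ A)
    (hX : |X - (1 + t * a)| ≤ C * t^2) (hY : |Y - (1 + t * b)| ≤ D * t^2) :
    |X * Y - (1 + t * (a + b))| ≤ (3 * C + 2 * D + A^2) * t^2 := by
  have e : X * Y - (1 + t * (a + b)) = (X - (1 + t*a)) * Y + (1 + t * a) * (Y - (1 + t * b)) + t^2 * (a*b) := by ring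
  have ht2 : 0 ≤ t^2 := sq_nonneg t
  have hta : |t * a| ≤ 1 := by
    rw [abs_mul]; linarith only [mul_nonneg (sub_nonneg.2 ha) (sub_nonneg.2 (abs_nonneg a)), mul_nonneg (sub_nonneg.2 ha) (sub_nonneg.2 ha), mul_nonneg (sub_nonneg.2 hA10) (sub_nonneg.2 (abs_nonneg a)), mul_nonneg (sub_nonneg.2 hA10) (sub_nonneg.2 ha), mul_nonneg (sub_nonneg.2 hA10) (sub_nonneg.2 hA10), mul_nonneg (sub_nonneg.2 ht) (sub_nonneg.2 (abs_nonneg a))]
  have htb : |t * b| ≤ 1 := by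
    rw [abs_mul]; linarith only [mul_nonneg (sub_nonneg.2 ht) (sub_nonneg.2 (abs_nonneg b)), mul_nonneg (sub_nonneg.2 hA10) (sub_nonneg.2 hA10), mul_nonneg (sub_nonneg.2 hA10) (sub_nonneg.2 hb), mul_nonneg (sub_nonneg.2 hA10) (sub_nonneg.2 (abs_nonneg b)), mul_nonneg (sub_nonneg.2 hb) (sub_nonneg.2 hb), mul_nonneg (sub_nonneg.2 hb) (sub_nonneg.2 (abs_nonneg b))]
  have ht2' : t^2 ≤ 1/100 := by
    have := abs_nonneg t
    linarith only [mul_eq_zero_of_left (sub_eq_zero.2 (sq_abs t)) (10 - (A)), mul_eq_zero_of_left (sub_eq_zero.2 (sq_abs t)) (A - (0)), mul_nonneg (sub_nonneg.2 ht) (sub_nonneg.2 this), mul_nonneg (sub_nonneg.2 ht) (sub_nonneg.2 hA10), mul_nonneg (sub_nonneg.2 ht) (sub_nonneg.2 hA)]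
  have hYb : |Y| ≤ 3 := by
    have h1 : |Y| ≤ |Y - (1 + t*b)| + |1 + t * b| := by
      have := abs_add_le (Y - (1 + t*b)) (1 + t*b)
      simpa using this
    have h2 : |1 + t * b| ≤ 2 := by
      have := abs_add_le 1 (t*b)
      rw [abs_one] at this
      linarith only [htb, this]
    linarith [mul_nonneg (sub_nonneg.2 hDD) (sub_nonneg.2 ht2), mul_nonneg (sub_nonneg.2 hY) (sub_nonneg.2 ht2), mul_nonneg (sub_nonneg.2 hY) (sub_nonneg.2 ht2'), mul_nonneg (sub_nonneg.2 ht2) (sub_nonneg.2 ht2'), mul_nonneg (sub_nonneg.2 ht2) (sub_nonneg.2 h1), mul_nonneg (sub_nonneg.2 ht2) (sub_nonneg.2 h2), mul_nonneg (sub_nonneg.2 ht2') (sub_nonneg.2 ht2'), mul_nonneg (sub_nonneg.2 ht2') (sub_nonneg.2 h1), mul_nonneg (sub_nonneg.2 ht2') (sub_nonneg.2 h2)]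
  have h1 : |(X - (1 + t*a)) * Y| ≤ 3 * C * t^2 := by
    rw [abs_mul]
    have := mul_le_mul hX hYb (abs_nonneg _) (by (clear * - hC; positivity))
    linarith only [this]
  have h2 : |(1 + t * a) * (Y - (1 + t * b))| ≤ 2 * D * t^2 := by
    rw [abs_mul]
    have h3 : |1 + t * a| ≤ 2 := by
      have := abs_add_le 1 (t*a)
      rw [abs_one] at this
      linarith only [this, hta]
    have := mul_le_mul h3 hY (abs_nonneg _) (by norm_num)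
    linarith only [this]
  have h3 : |t^2 * (a*b)| ≤ A^2 * t^2 := by
    rw [abs_mul, abs_of_nonneg ht2, abs_mul]
    have := mul_le_mul ha hb (abs_nonneg _) hA
    linarith only [mul_nonneg (sub_nonneg.2 ht2) (sub_nonneg.2 this)]
  rw [e]
  calc _ ≤ |(X - (1 + t*a)) * Y + (1 + t * a) * (Y - (1 + t * b))| + |t^2 * (a*b)| := abs_add_le _ _
    _ ≤ |(X - (1 + t*a)) * Y| + |(1 + t * a) * (Y - (1 + t * b))| + |t^2 * (a*b)| := by
      have := abs_add_le ((X - (1 + t*a)) * Y) ((1 + t * a) * (Y - (1 + t * b))); linarith only [this]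
    _ ≤ _ := by linarith only [h3, h2, h1]

/-- jet of an inverse -/
lemma jet_inv {t a : ℝ} (ht : |t| ≤ 1/10) (ha : |a| ≤ 1) :
    |(1 + t * a)⁻¹ - (1 + t * (-a))| ≤ 2 * t^2 := by
  have hta : |t * a| ≤ 1/10 := by
    rw [abs_mul]; nlinarith [abs_nonneg t, abs_nonneg a]
  have hpos : 9/10 ≤ 1 + t * a := by
    have := neg_abs_le (t*a); linarith only [hta, this]
  have hne : 1 + t*a ≠ 0 := by linarith only [hpos]
  have e : (1 + t * a)⁻¹ - (1 + t * (-a)) = (t*a)^2 / (1 + t*a) := by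
    rw [eq_div_iff hne, sub_mul, inv_mul_cancel₀ hne]; ring
  rw [e, abs_div, abs_of_nonneg (sq_nonneg (t*a)), abs_of_pos (by linarith only [hpos]), div_le_iff₀ (by linarith only [hpos])]
  have h1 : (t*a)^2 ≤ t^2 := by
    rw [mul_pow]
    have : a^2 ≤ 1 := by rw [← sq_abs]; linarith only [mul_nonneg (sub_nonneg.2 ha) (sub_nonneg.2 ha), mul_nonneg (sub_nonneg.2 ha) (sub_nonneg.2 (abs_nonneg a))]
    linarith only [mul_nonneg (sub_nonneg.2 this) (sq_nonneg t)]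
  linarith only [mul_nonneg (sub_nonneg.2 hpos) (sq_nonneg t), mul_nonneg (mul_self_nonneg (1 : ℝ)) (sq_nonneg t), mul_nonneg (mul_self_nonneg (1 : ℝ)) (sub_nonneg.2 h1)]

/-- the weight ratio appearing in the two-site computation -/
noncomputable def jetX (u w t x y : ℝ) : ℝ :=
  (1 + t*(x*y)) * (1 + 2*t*(((u + t*y) / (1 + t*(u*y))) * ((w + t*x) / (1 + t*(w*x))))) *
    (1 + t*(u*w))⁻¹ * (1 + t*(u*y))⁻¹ * (1 + t*(u*y))⁻¹ * (1 + t*(w*x))⁻¹ * (1 + t*(w*x))⁻¹ *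
    (1 - t^2)^2

lemma tau_jet {u t y : ℝ} (ht : |t| ≤ 1/10) (hu : |u| ≤ 1) (hy : |y| ≤ 1) (hy2 : y^2 = 1) :
    |(u + t*y) / (1 + t*(u*y)) - u| ≤ 2 * |t| ∧ |(u + t*y) / (1 + t*(u*y))| ≤ 1 := by
  have huy : |u*y| ≤ 1 := abs_mul_le_of_le_one hu hy
  have hta : |t * (u*y)| ≤ 1/10 := by
    rw [abs_mul]; linarith only [mul_nonneg (sub_nonneg.2 ht) (sub_nonneg.2 (abs_nonneg (u*y))), mul_nonneg (sub_nonneg.2 huy) (sub_nonneg.2 huy), mul_nonneg (sub_nonneg.2 huy) (sub_nonneg.2 (abs_nonneg (u*y)))]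
  have hpos : 9/10 ≤ 1 + t * (u*y) := by
    have := neg_abs_le (t*(u*y)); linarith only [hta, this]
  have hu2 : u^2 ≤ 1 := by simpa using sq_le_of_abs_le hu
  constructor
  · have hne : 1 + t*(u*y) ≠ 0 := by linarith only [hpos]
    have e : (u + t*y) / (1 + t*(u*y)) - u = (t*y)*(1-u^2) / (1 + t*(u*y)) := by
      rw [eq_div_iff hne, sub_mul, div_mul_cancel₀ _ hne]; ring
    rw [e, abs_div, abs_of_pos (show (0:ℝ) < 1 + t*(u*y) by linarith only [hpos]), div_le_iff₀ (by linarith only [hpos]), abs_mul]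
    have h1 : |t*y| ≤ |t| := by
      rw [abs_mul]; linarith only [mul_nonneg (sub_nonneg.2 hy) (sub_nonneg.2 (abs_nonneg t))]
    have h2 : |1 - u^2| ≤ 1 := by rw [abs_le]; constructor <;> nlinarith [sq_nonneg u]
    have h3 : |t*y| * |1-u^2| ≤ |t| * 1 := mul_le_mul h1 h2 (abs_nonneg _) (abs_nonneg _)
    linarith only [mul_nonneg (sub_nonneg.2 (abs_nonneg t)) (sub_nonneg.2 (abs_nonneg t)), mul_nonneg (sub_nonneg.2 h3) (sub_nonneg.2 (abs_nonneg t)), mul_nonneg (sub_nonneg.2 hpos) (sub_nonneg.2 (abs_nonneg t)), mul_nonneg (sub_nonneg.2 ht) (sub_nonneg.2 (abs_nonneg t)), mul_nonneg (sub_nonneg.2 ht) (sub_nonneg.2 h3)]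
  · rw [abs_div, abs_of_pos (show (0:ℝ) < 1 + t*(u*y) by linarith only [hpos]), div_le_iff₀ (by linarith only [hpos]), one_mul]
    have ht1 : t^2 ≤ 1 := by
      have := sq_le_of_abs_le ht; linarith only [this]
    apply abs_le_of_sq_le_sq _ (by linarith only [hpos])
    have : (1 + t*(u*y))^2 - (u + t*y)^2 = (1-u^2)*(1-t^2) := by
      linear_combination (t^2*u^2 - t^2) * hy2
    linarith only [this, mul_nonneg (sub_nonneg.2 hu2) (sub_nonneg.2 ht1)]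

lemma jetX_bound {u w t x y : ℝ} (ht : |t| ≤ 1/10) (hu : |u| ≤ 1) (hw : |w| ≤ 1)
    (hx : |x| ≤ 1) (hy : |y| ≤ 1) (hx2 : x^2 = 1) (hy2 : y^2 = 1) :
    |jetX u w t x y - (1 + t * (x*y - 2*u*y - 2*w*x + u*w))| ≤ 21000 * t^2 := by
  have hxy : |x*y| ≤ 1 := abs_mul_le_of_le_one hx hy
  have huw : |u*w| ≤ 1 := abs_mul_le_of_le_one hu hw
  have huy : |u*y| ≤ 1 := abs_mul_le_of_le_one hu hy
  have hwx : |w*x| ≤ 1 := abs_mul_le_of_le_one hw hx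
  have f1 : |(1 + t*(x*y)) - (1 + t*(x*y))| ≤ 0 * t^2 := by simp
  have f3 : |(1 + 2*t*(((u + t*y) / (1 + t*(u*y))) * ((w + t*x) / (1 + t*(w*x))))) -
      (1 + t*(2*(u*w)))| ≤ 8 * t^2 := by
    obtain ⟨a1, a2⟩ := tau_jet ht hu hy hy2
    obtain ⟨b1, b2⟩ := tau_jet ht hw hx hx2
    set p := (u + t*y) / (1 + t*(u*y)) with hp
    set q := (w + t*x) / (1 + t*(w*x)) with hq
    have e : (1 + 2*t*(p*q)) - (1 + t*(2*(u*w))) = 2*t*((p-u)*q + u*(q-w)) := by ring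
    rw [e, abs_mul, abs_mul, abs_two]
    have c1 : |(p-u)*q| ≤ 2 * |t| := by
      rw [mul_comm]; exact abs_mul_le_of_le_one b2 a1
    have c2 : |u*(q-w)| ≤ 2 * |t| := abs_mul_le_of_le_one hu b1
    have c3 : |(p-u)*q + u*(q-w)| ≤ 4 * |t| := by
      have := abs_add_le ((p-u)*q) (u*(q-w)); linarith only [c1, c2, this]
    have c4 : 2 * |t| * |(p-u)*q + u*(q-w)| ≤ 2 * |t| * (4 * |t|) :=
      mul_le_mul_of_nonneg_left c3 (by (clear * -; positivity))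
    calc _ ≤ 2 * |t| * (4 * |t|) := c4
      _ = 8 * |t|^2 := by ring
      _ = 8 * t^2 := by rw [sq_abs]
  have f4 := jet_inv ht huw
  have f5 := jet_inv ht huy
  have f6 := jet_inv ht hwx
  have f2 : |(1 - t^2)^2 - (1 + t * 0)| ≤ 2 * t^2 := by
    have e : (1 - t^2)^2 - (1 + t * 0) = -(t^2 * (2 - t^2)) := by ring
    have ht1 : t^2 ≤ (1/10)^2 := sq_le_of_abs_le ht
    rw [e, abs_neg, abs_of_nonneg (by linarith only [mul_nonneg (sub_nonneg.2 ht1) (sq_nonneg t), mul_nonneg (sq_nonneg t) (sq_nonneg t)])]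
    (by_contra nlg; linarith only [mul_nonneg (sq_nonneg (1 - t ^ 2 : ℝ)) (le_of_lt (sub_pos.2 (not_le.1 nlg))), mul_pos (sub_pos.2 (not_le.1 nlg)) (sub_pos.2 (not_le.1 nlg)), mul_nonneg (le_of_lt (sub_pos.2 (not_le.1 nlg))) (sq_nonneg t), mul_nonneg (sq_nonneg t) (sq_nonneg t)])
  have hn1 : |-(u*w)| ≤ 1 := by rw [abs_neg]; exact huw
  have hn2 : |-(u*y)| ≤ 1 := by rw [abs_neg]; exact huy
  have hn3 : |-(w*x)| ≤ 1 := by rw [abs_neg]; exact hwx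
  have h2uw : |2*(u*w)| ≤ 2 := by rw [abs_mul, abs_two]; linarith only [huw]
  -- successive partial sums
  have s1 : |x*y + 2*(u*w)| ≤ 3 := by have := abs_add_le (x*y) (2*(u*w)); linarith only [this, h2uw, hxy]
  have s2 : |x*y + 2*(u*w) + -(u*w)| ≤ 4 := by
    have := abs_add_le (x*y + 2*(u*w)) (-(u*w)); linarith only [this, s1, hn1]
  have s3 : |x*y + 2*(u*w) + -(u*w) + -(u*y)| ≤ 5 := by
    have := abs_add_le (x*y + 2*(u*w) + -(u*w)) (-(u*y)); linarith only [this, s2, hn2]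
  have s4 : |x*y + 2*(u*w) + -(u*w) + -(u*y) + -(u*y)| ≤ 6 := by
    have := abs_add_le (x*y + 2*(u*w) + -(u*w) + -(u*y)) (-(u*y)); linarith only [this, s3, hn2]
  have s5 : |x*y + 2*(u*w) + -(u*w) + -(u*y) + -(u*y) + -(w*x)| ≤ 7 := by
    have := abs_add_le (x*y + 2*(u*w) + -(u*w) + -(u*y) + -(u*y)) (-(w*x)); linarith only [this, s4, hn3]
  have s6 : |x*y + 2*(u*w) + -(u*w) + -(u*y) + -(u*y) + -(w*x) + -(w*x)| ≤ 8 := by
    have := abs_add_le (x*y + 2*(u*w) + -(u*w) + -(u*y) + -(u*y) + -(w*x)) (-(w*x)); linarith only [this, s5, hn3]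
  have g1 := jet_mul ht (by norm_num : (0:ℝ) ≤ 2) (by norm_num) le_rfl (by norm_num) (by linarith only [hxy]) h2uw f1 f3
  have g2 := jet_mul ht (by norm_num : (0:ℝ) ≤ 3) (by norm_num) (by norm_num) (by norm_num) s1 (by linarith only [hn1]) g1 f4
  have g3 := jet_mul ht (by norm_num : (0:ℝ) ≤ 4) (by norm_num) (by norm_num) (by norm_num) s2 (by linarith only [hn2]) g2 f5
  have g4 := jet_mul ht (by norm_num : (0:ℝ) ≤ 5) (by norm_num) (by norm_num) (by norm_num) s3 (by linarith only [hn2]) g3 f5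
  have g5 := jet_mul ht (by norm_num : (0:ℝ) ≤ 6) (by norm_num) (by norm_num) (by norm_num) s4 (by linarith only [hn3]) g4 f6
  have g6 := jet_mul ht (by norm_num : (0:ℝ) ≤ 7) (by norm_num) (by norm_num) (by norm_num) s5 (by linarith only [hn3]) g5 f6
  have g7 := jet_mul ht (by norm_num : (0:ℝ) ≤ 8) (by norm_num) (by norm_num) (by norm_num) s6 (by norm_num) g6 f2
  have e : x*y - 2*u*y - 2*w*x + u*w = x*y + 2*(u*w) + -(u*w) + -(u*y) + -(u*y) + -(w*x) + -(w*x) + 0 := by ring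
  rw [e]
  unfold jetX
  refine g7.trans ?_
  norm_num
  linarith only [sq_nonneg t]

lemma kappa_bound {u w t : ℝ} (ht : |t| ≤ 1/10) (hu : |u| ≤ 1) (hw : |w| ≤ 1) :
    |(1 + t*(u*w))⁻¹ * (1 - (u*t)^2)⁻¹ * (1 - (w*t)^2)⁻¹ * (1 - t^2) - (1 + t*(-(u*w)))| ≤ 1000 * t^2 := by
  have huw : |u*w| ≤ 1 := abs_mul_le_of_le_one hu hw
  have hn1 : |-(u*w)| ≤ 1 := by rw [abs_neg]; exact huw
  have ht1 : t^2 ≤ (1/10)^2 := sq_le_of_abs_le ht
  have key : ∀ a : ℝ, |a| ≤ 1 → |(1 - (a*t)^2)⁻¹ - (1 + t*0)| ≤ 2 * t^2 := by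
    intro a ha
    have ha2 : a^2 ≤ 1 := by simpa using sq_le_of_abs_le ha
    have hat : (a*t)^2 ≤ t^2 := by rw [mul_pow]; linarith only [mul_nonneg (sub_nonneg.2 ha2) (sq_nonneg t)]
    have hpos : 99/100 ≤ 1 - (a*t)^2 := by linarith only [ht1, hat]
    have hne : 1 - (a*t)^2 ≠ 0 := by linarith only [hpos]
    have e : (1 - (a*t)^2)⁻¹ - (1 + t*0) = (a*t)^2 / (1 - (a*t)^2) := by
      rw [eq_div_iff hne, sub_mul, inv_mul_cancel₀ hne]; ring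
    rw [e, abs_div, abs_of_nonneg (sq_nonneg _), abs_of_pos (by linarith only [hpos]), div_le_iff₀ (by linarith only [hpos])]
    linarith only [mul_nonneg (sq_nonneg t) (sq_nonneg t), mul_nonneg (sub_nonneg.2 hpos) (sq_nonneg t), mul_nonneg (sub_nonneg.2 ha2) (sq_nonneg t), mul_nonneg (sub_nonneg.2 ht1) (sq_nonneg t)]
  have f1 := jet_inv ht huw
  have f2 := key u hu
  have f3 := key w hw
  have f4 : |(1 - t^2) - (1 + t * 0)| ≤ 1 * t^2 := by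
    have e : (1 - t^2) - (1 + t * 0) = -(t^2) := by ring
    rw [e, abs_neg, abs_of_nonneg (sq_nonneg t), one_mul]
  have z : |(0:ℝ)| ≤ 1 := by simp
  have s2 : |-(u*w) + 0| ≤ 1 := by simpa using hn1
  have s3 : |-(u*w) + 0 + 0| ≤ 1 := by simpa using hn1
  have g1 := jet_mul ht (by norm_num : (0:ℝ) ≤ 1) (by norm_num) (by norm_num) (by norm_num) hn1 z f1 f2
  have g2 := jet_mul ht (by norm_num : (0:ℝ) ≤ 1) (by norm_num) (by norm_num) (by norm_num) s2 z g1 f3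
  have g3 := jet_mul ht (by norm_num : (0:ℝ) ≤ 1) (by norm_num) (by norm_num) (by norm_num) s3 z g2 f4
  simp only [add_zero] at g3
  refine g3.trans ?_
  norm_num
  linarith only [sq_nonneg t]


/-- four-point sum over signs -/
def S4 (F : ℝ → ℝ → ℝ) : ℝ := F 1 1 + F 1 (-1) + F (-1) 1 + F (-1) (-1)

lemma S4_le {F G : ℝ → ℝ → ℝ}
    (h : ∀ x y : ℝ, (x = 1 ∨ x = -1) → (y = 1 ∨ y = -1) → F x y ≤ G x y) : S4 F ≤ S4 G := by
  have h1 := h 1 1 (Or.inl rfl) (Or.inl rfl)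
  have h2 := h 1 (-1) (Or.inl rfl) (Or.inr rfl)
  have h3 := h (-1) 1 (Or.inr rfl) (Or.inl rfl)
  have h4 := h (-1) (-1) (Or.inr rfl) (Or.inr rfl)
  unfold S4; linarith

lemma S4_congr {F G : ℝ → ℝ → ℝ}
    (h : ∀ x y : ℝ, (x = 1 ∨ x = -1) → (y = 1 ∨ y = -1) → F x y = G x y) : S4 F = S4 G :=
  le_antisymm (S4_le fun x y hx hy => (h x y hx hy).le) (S4_le fun x y hx hy => (h x y hx hy).ge)

/-- the quadratic expression `Q` of the cross term -/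
def crossQ (u w t β γ δ : ℝ) : ℝ :=
  (δ - u*t*β)*(δ - w*t*γ) - t*(β - u*t*δ)*(γ - w*t*δ)

noncomputable def kap (u w t : ℝ) : ℝ :=
  (1 + t*(u*w))⁻¹ * (1 - (u*t)^2)⁻¹ * (1 - (w*t)^2)⁻¹ * (1 - t^2)

/-- product weight -/
noncomputable def P0 (u w x y : ℝ) : ℝ := (1+u*x)*(1+w*y)/4

lemma P0_nonneg {u w x y : ℝ} (hu : |u| ≤ 1) (hw : |w| ≤ 1) (hx : |x| ≤ 1) (hy : |y| ≤ 1) :
    0 ≤ P0 u w x y := by
  have h1 : |u*x| ≤ 1 := abs_mul_le_of_le_one hu hx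
  have h2 : |w*y| ≤ 1 := abs_mul_le_of_le_one hw hy
  have h3 := neg_abs_le (u*x)
  have h4 := neg_abs_le (w*y)
  unfold P0
  apply div_nonneg _ (by norm_num)
  apply mul_nonneg <;> linarith

lemma sum_P0 (u w : ℝ) : S4 (P0 u w) = 1 := by
  unfold S4 P0; ring

lemma crossQ_bound {u w t β γ δ : ℝ} (hu : |u| ≤ 1) (hw : |w| ≤ 1) (ht : |t| ≤ 1/10) :
    |crossQ u w t β γ δ| ≤ 3 * δ^2 + 2 * |t| * (β^2 + γ^2) := by
  have ht2 : t^2 ≤ (1/10)*|t| := by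
    rw [← sq_abs]; linarith only [mul_nonneg (sub_nonneg.2 ht) (sub_nonneg.2 (abs_nonneg t))]
  have ht0 : 0 ≤ |t| := abs_nonneg t
  have a1 : (δ - u*t*β)^2 ≤ 2*δ^2 + 2*(t^2*β^2) := by
    have h0 : (u*t*β)^2 ≤ t^2*β^2 := by
      have hu2 : u^2 ≤ 1 := by simpa using sq_le_of_abs_le hu
      have : (u*t*β)^2 = u^2*(t^2*β^2) := by ring
      rw [this]
      calc u^2*(t^2*β^2) ≤ 1 * (t^2*β^2) := mul_le_mul_of_nonneg_right hu2 (by positivity)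
        _ = _ := one_mul _
    linarith only [h0, sq_nonneg (δ + u*t*β)]
  have a2 : (δ - w*t*γ)^2 ≤ 2*δ^2 + 2*(t^2*γ^2) := by
    have h0 : (w*t*γ)^2 ≤ t^2*γ^2 := by
      have hu2 : w^2 ≤ 1 := by simpa using sq_le_of_abs_le hw
      have : (w*t*γ)^2 = w^2*(t^2*γ^2) := by ring
      rw [this]
      calc w^2*(t^2*γ^2) ≤ 1 * (t^2*γ^2) := mul_le_mul_of_nonneg_right hu2 (by (clear * -; positivity))
        _ = _ := one_mul _
    linarith only [h0, sq_nonneg (δ + w*t*γ)]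
  have a3 : (β - u*t*δ)^2 ≤ 2*β^2 + 2*(t^2*δ^2) := by
    have h0 : (u*t*δ)^2 ≤ t^2*δ^2 := by
      have hu2 : u^2 ≤ 1 := by simpa using sq_le_of_abs_le hu
      have : (u*t*δ)^2 = u^2*(t^2*δ^2) := by ring
      rw [this]
      calc u^2*(t^2*δ^2) ≤ 1 * (t^2*δ^2) := mul_le_mul_of_nonneg_right hu2 (by positivity)
        _ = _ := one_mul _
    linarith only [sq_nonneg (β + u*t*δ), h0]
  have a4 : (γ - w*t*δ)^2 ≤ 2*γ^2 + 2*(t^2*δ^2) := by
    have h0 : (w*t*δ)^2 ≤ t^2*δ^2 := by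
      have hu2 : w^2 ≤ 1 := by simpa using sq_le_of_abs_le hw
      have : (w*t*δ)^2 = w^2*(t^2*δ^2) := by ring
      rw [this]
      calc w^2*(t^2*δ^2) ≤ 1 * (t^2*δ^2) := mul_le_mul_of_nonneg_right hu2 (by (clear * -; positivity))
        _ = _ := one_mul _
    linarith only [h0, sq_nonneg (γ + w*t*δ)]
  have b1 : |(δ - u*t*β)*(δ - w*t*γ)| ≤ 2*δ^2 + t^2*β^2 + t^2*γ^2 := by
    have := abs_mul_le_half_sq (δ - u*t*β) (δ - w*t*γ)
    linarith only [a1, a2, this]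
  have b2 : |t*(β - u*t*δ)*(γ - w*t*δ)| ≤ |t| * (β^2 + γ^2 + 2*(t^2*δ^2)) := by
    rw [mul_assoc, abs_mul]
    apply mul_le_mul_of_nonneg_left _ ht0
    have := abs_mul_le_half_sq (β - u*t*δ) (γ - w*t*δ)
    linarith only [this, a4, a3]
  have b3 : |crossQ u w t β γ δ| ≤ |(δ - u*t*β)*(δ - w*t*γ)| + |t*(β - u*t*δ)*(γ - w*t*δ)| := by
    unfold crossQ
    exact abs_sub _ _
  have c1 : t^2*β^2 ≤ |t| * β^2 := mul_le_mul_of_nonneg_right (by linarith only [ht0, ht2]) (sq_nonneg _)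
  have c2 : t^2*γ^2 ≤ |t| * γ^2 := mul_le_mul_of_nonneg_right (by linarith only [ht0, ht2]) (sq_nonneg _)
  have c3 : |t| * (2*(t^2*δ^2)) ≤ δ^2 := by
    have : |t| * (2*(t^2*δ^2)) = (2 * |t| * t^2) * δ^2 := by ring
    rw [this]
    calc (2 * |t| * t^2) * δ^2 ≤ 1 * δ^2 := by
          apply mul_le_mul_of_nonneg_right _ (sq_nonneg _)
          (by_contra nlg; linarith only [nlg, mul_nonneg (sub_nonneg.2 ht2) (sub_nonneg.2 ht0), mul_nonneg (sub_nonneg.2 ht) (sub_nonneg.2 ht0), mul_nonneg (sub_nonneg.2 ht) (sub_nonneg.2 ht), mul_nonneg (le_of_lt (sub_pos.2 (not_le.1 nlg))) (sub_nonneg.2 ht0), mul_nonneg (le_of_lt (sub_pos.2 (not_le.1 nlg))) (sub_nonneg.2 ht)])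
      _ = δ^2 := one_mul _
  linarith only [c3, c2, c1, b3, b2, b1]

lemma beta_le {u w β γ δ : ℝ} (hu : |u| ≤ 1) (hw : |w| ≤ 1) :
    β^2 + γ^2 ≤ 2 * S4 (fun x y => P0 u w x y * ((β+δ*y)^2 + (γ+δ*x)^2)) + 4 * δ^2 := by
  have h : S4 (fun x y => P0 u w x y * (β^2 + γ^2)) ≤
      S4 (fun x y => P0 u w x y * (2*((β+δ*y)^2 + (γ+δ*x)^2) + 4*δ^2)) := by
    apply S4_le
    intro x y hx hy
    have hx1 : |x| ≤ 1 := by rcases hx with rfl | rfl <;> simp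
    have hy1 : |y| ≤ 1 := by rcases hy with rfl | rfl <;> simp
    apply mul_le_mul_of_nonneg_left _ (P0_nonneg hu hw hx1 hy1)
    have hx2 : x^2 = 1 := by rcases hx with rfl | rfl <;> norm_num
    have hy2 : y^2 = 1 := by rcases hy with rfl | rfl <;> norm_num
    (by_contra nlg; linarith only [nlg, mul_eq_zero_of_left (sub_eq_zero.2 hy2) ((γ + 2 * (δ * x)) ^ 2 - (0)), mul_eq_zero_of_left (sub_eq_zero.2 hy2) ((β + 2 * (δ * y)) ^ 2 - (0)), mul_eq_zero_of_left (sub_eq_zero.2 hx2) ((β + 2 * (δ * y)) ^ 2 - (0)), mul_eq_zero_of_left (sub_eq_zero.2 hx2) (β ^ 2 + γ ^ 2 - (2 * ((β + δ * y) ^ 2 + (γ + δ * x) ^ 2) + 4 * δ ^ 2)), mul_eq_zero_of_left (sub_eq_zero.2 hy2) (0 - (0 - γ ^ 2)), mul_eq_zero_of_left (sub_eq_zero.2 hx2) (0 - (0 - γ ^ 2)), mul_eq_zero_of_left (sub_eq_zero.2 hy2) (0 - (0 - (γ + δ * x) ^ 2)), mul_eq_zero_of_left (sub_eq_zero.2 hx2) (0 - (0 - (γ + δ * x) ^ 2)), mul_nonneg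 (sq_nonneg (y : ℝ)) (sq_nonneg (γ + 2*(δ*x))), mul_nonneg (sq_nonneg (y : ℝ)) (sq_nonneg (β + 2*(δ*y)))])
  have e1 : S4 (fun x y => P0 u w x y * (β^2 + γ^2)) = β^2 + γ^2 := by
    have : S4 (fun x y => P0 u w x y * (β^2 + γ^2)) = S4 (P0 u w) * (β^2 + γ^2) := by
      unfold S4; ring
    rw [this, sum_P0, one_mul]
  have e2 : S4 (fun x y => P0 u w x y * (2*((β+δ*y)^2 + (γ+δ*x)^2) + 4*δ^2)) =
      2 * S4 (fun x y => P0 u w x y * ((β+δ*y)^2 + (γ+δ*x)^2)) + 4 * δ^2 := by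
    have : S4 (fun x y => P0 u w x y * (2*((β+δ*y)^2 + (γ+δ*x)^2) + 4*δ^2)) =
      2 * S4 (fun x y => P0 u w x y * ((β+δ*y)^2 + (γ+δ*x)^2)) + S4 (P0 u w) * (4 * δ^2) := by
      unfold S4; ring
    rw [this, sum_P0, one_mul]
  linarith

lemma two_site_alg {u w t β γ δ : ℝ} (hu : |u| ≤ 1) (hw : |w| ≤ 1) (ht : |t| ≤ 1/1000) :
    -(15000 * |t|^3 * S4 (fun x y => P0 u w x y * ((β+δ*y)^2 + (γ+δ*x)^2))) ≤
    kap u w t * crossQ u w t β γ δ +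
      S4 (fun x y => P0 u w x y * (t * jetX u w t x y) * ((β+δ*y)*(γ+δ*x))) := by
  have ht10 : |t| ≤ 1/10 := by linarith only [ht]
  have ht0 : 0 ≤ |t| := abs_nonneg t
  set E := S4 (fun x y => P0 u w x y * ((β+δ*y)^2 + (γ+δ*x)^2)) with hE
  have hE0 : 0 ≤ E := by
    have : S4 (fun _ _ => (0:ℝ)) ≤ E := by
      apply S4_le
      intro x y hx hy
      have hx1 : |x| ≤ 1 := by rcases hx with rfl | rfl <;> simp
      have hy1 : |y| ≤ 1 := by rcases hy with rfl | rfl <;> simp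
      exact mul_nonneg (P0_nonneg hu hw hx1 hy1) (by (clear * -; positivity))
    simpa [S4] using this
  -- step 1: replace jetX by its linearization
  have step1 : S4 (fun x y => P0 u w x y * (t * (1 + t*(x*y - 2*u*y - 2*w*x + u*w))) * ((β+δ*y)*(γ+δ*x)))
      - 10500 * |t|^3 * E ≤ S4 (fun x y => P0 u w x y * (t * jetX u w t x y) * ((β+δ*y)*(γ+δ*x))) := by
    have h : S4 (fun x y => P0 u w x y * (t * (1 + t*(x*y - 2*u*y - 2*w*x + u*w))) * ((β+δ*y)*(γ+δ*x)))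
      ≤ S4 (fun x y => P0 u w x y * (t * jetX u w t x y) * ((β+δ*y)*(γ+δ*x)) +
        10500 * |t|^3 * (P0 u w x y * ((β+δ*y)^2 + (γ+δ*x)^2))) := by
      apply S4_le
      intro x y hx hy
      have hx1 : |x| ≤ 1 := by rcases hx with rfl | rfl <;> simp
      have hy1 : |y| ≤ 1 := by rcases hy with rfl | rfl <;> simp
      have hx2 : x^2 = 1 := by rcases hx with rfl | rfl <;> norm_num
      have hy2 : y^2 = 1 := by rcases hy with rfl | rfl <;> norm_num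
      have hP := P0_nonneg hu hw hx1 hy1
      have hb := jetX_bound ht10 hu hw hx1 hy1 hx2 hy2
      set X := jetX u w t x y
      set l := 1 + t*(x*y - 2*u*y - 2*w*x + u*w)
      have h1 : |t * (l - X) * ((β+δ*y)*(γ+δ*x))| ≤ 10500 * |t|^3 * ((β+δ*y)^2 + (γ+δ*x)^2) := by
        rw [abs_mul, abs_mul]
        have h2 := abs_mul_le_half_sq (β+δ*y) (γ+δ*x)
        have h3 : |l - X| ≤ 21000 * t^2 := by rw [abs_sub_comm]; exact hb
        have h4 : |t| * |l - X| ≤ |t| * (21000 * t^2) := mul_le_mul_of_nonneg_left h3 ht0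
        have h5 := mul_le_mul h4 h2 (abs_nonneg _) (by (clear * -; positivity))
        calc _ ≤ _ := h5
          _ = 10500 * (|t| * |t|^2) * ((β+δ*y)^2 + (γ+δ*x)^2) := by rw [sq_abs]; ring
          _ = _ := by ring
      have h6 := le_abs_self (t * (l - X) * ((β+δ*y)*(γ+δ*x)))
      have h7 : P0 u w x y * (t * (l - X) * ((β+δ*y)*(γ+δ*x))) ≤
          P0 u w x y * (10500 * |t|^3 * ((β+δ*y)^2 + (γ+δ*x)^2)) :=
        mul_le_mul_of_nonneg_left (h6.trans h1) hP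
      linarith only [h7]
    have e : S4 (fun x y => P0 u w x y * (t * jetX u w t x y) * ((β+δ*y)*(γ+δ*x)) +
        10500 * |t|^3 * (P0 u w x y * ((β+δ*y)^2 + (γ+δ*x)^2))) =
        S4 (fun x y => P0 u w x y * (t * jetX u w t x y) * ((β+δ*y)*(γ+δ*x))) + 10500 * |t|^3 * E := by
      rw [hE]; unfold S4; ring
    linarith only [h, e]
  -- step 2: replace kap by its linearization
  have step2 : (1 - u*w*t) * crossQ u w t β γ δ - 1000 * t^2 * (3 * δ^2 + 2 * |t| * (β^2 + γ^2)) ≤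
      kap u w t * crossQ u w t β γ δ := by
    have hk := kappa_bound ht10 hu hw
    have hQ := crossQ_bound (β := β) (γ := γ) (δ := δ) hu hw ht10
    have e : (1 - u*w*t) * crossQ u w t β γ δ - kap u w t * crossQ u w t β γ δ =
      -((kap u w t - (1 + t*(-(u*w)))) * crossQ u w t β γ δ) := by ring
    have h1 : |(kap u w t - (1 + t*(-(u*w)))) * crossQ u w t β γ δ| ≤
        1000 * t^2 * (3 * δ^2 + 2 * |t| * (β^2 + γ^2)) := by
      rw [abs_mul]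
      exact mul_le_mul hk hQ (abs_nonneg _) (by (clear * -; positivity))
    have h2 := neg_abs_le ((kap u w t - (1 + t*(-(u*w)))) * crossQ u w t β γ δ)
    linarith only [h2, h1]
  -- step 3: polynomial part
  have step3 := poly_part u w t β γ δ hu hw ht
  have e3 : S4 (fun x y => P0 u w x y * (t * (1 + t*(x*y - 2*u*y - 2*w*x + u*w))) * ((β+δ*y)*(γ+δ*x))) =
    ((1+u*1)*(1+w*1)/4 * (t * (1 + t*(1*1 - 2*u*1 - 2*w*1 + u*w))) * ((β+δ*1)*(γ+δ*1)) +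
     (1+u*1)*(1+w*(-1))/4 * (t * (1 + t*(1*(-1) - 2*u*(-1) - 2*w*1 + u*w))) * ((β+δ*(-1))*(γ+δ*1)) +
     (1+u*(-1))*(1+w*1)/4 * (t * (1 + t*((-1)*1 - 2*u*1 - 2*w*(-1) + u*w))) * ((β+δ*1)*(γ+δ*(-1))) +
     (1+u*(-1))*(1+w*(-1))/4 * (t * (1 + t*((-1)*(-1) - 2*u*(-1) - 2*w*(-1) + u*w))) * ((β+δ*(-1))*(γ+δ*(-1)))) := by
    unfold S4 P0; rfl
  rw [← e3] at step3
  have step3' : (9/10) * δ^2 - |t|^3 * (β^2 + γ^2) ≤ (1 - u*w*t) * crossQ u w t β γ δ +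
      S4 (fun x y => P0 u w x y * (t * (1 + t*(x*y - 2*u*y - 2*w*x + u*w))) * ((β+δ*y)*(γ+δ*x))) := step3
  have hβ := beta_le (β := β) (γ := γ) (δ := δ) hu hw
  rw [← hE] at hβ
  have ht2 : t^2 ≤ (1/1000)^2 := sq_le_of_abs_le ht
  have ht3 : |t|^3 = t^2 * |t| := by rw [← sq_abs]; ring
  have ht3' : |t|^3 ≤ (1/1000)^3 := pow_le_pow_left₀ ht0 ht 3
  have ht3n : 0 ≤ |t|^3 := by (clear * -; positivity)
  have k1 : 1000 * t^2 * (3 * δ^2 + 2 * |t| * (β^2 + γ^2)) = 3000 * t^2 * δ^2 + 2000 * |t|^3 * (β^2+γ^2) := by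
    rw [ht3]; ring
  have k2 : |t|^3 * (β^2+γ^2) ≤ |t|^3 * (2 * E + 4 * δ^2) := mul_le_mul_of_nonneg_left hβ ht3n
  have k3 : t^2 * δ^2 ≤ (1/1000)^2 * δ^2 := mul_le_mul_of_nonneg_right ht2 (sq_nonneg _)
  have k4 : |t|^3 * δ^2 ≤ (1/1000)^3 * δ^2 := mul_le_mul_of_nonneg_right ht3' (sq_nonneg _)
  have k5 : 0 ≤ |t|^3 * E := mul_nonneg ht3n hE0
  have k6 := sq_nonneg δ
  norm_num at k3 k4
  linarith only [k4, k3, k6, k5, k2, k1, step3', step2, step1]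


lemma exp_sign (a : ℝ) {x : ℝ} (hx : x = 1 ∨ x = -1) :
    Real.exp (a * x) = Real.cosh a * (1 + Real.tanh a * x) := by
  have hc : Real.cosh a ≠ 0 := (Real.cosh_pos a).ne'
  rcases hx with rfl | rfl
  · rw [Real.tanh_eq_sinh_div_cosh]; field_simp
    rw [Real.cosh_add_sinh]
  · rw [Real.tanh_eq_sinh_div_cosh]; field_simp
    rw [← Real.cosh_sub_sinh]; ring_nf

lemma abs_tanh_lt (a : ℝ) : |Real.tanh a| < 1 := by
  rw [Real.tanh_eq_sinh_div_cosh, abs_div, abs_of_pos (Real.cosh_pos a), div_lt_one (Real.cosh_pos a)]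
  rw [abs_lt]
  constructor
  · have := Real.exp_pos a
    rw [← Real.cosh_add_sinh] at this; linarith
  · have := Real.exp_pos (-a)
    rw [← Real.cosh_sub_sinh] at this; linarith

lemma tanh_add_sign (a θ : ℝ) {y : ℝ} (hy : y = 1 ∨ y = -1) :
    Real.tanh (a + θ * y) = (Real.tanh a + Real.tanh θ * y) / (1 + Real.tanh θ * (Real.tanh a * y)) := by
  have hc : Real.cosh a ≠ 0 := (Real.cosh_pos a).ne'
  have hc' : Real.cosh θ ≠ 0 := (Real.cosh_pos θ).ne'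
  have h1 := abs_tanh_lt a
  have h2 := abs_tanh_lt θ
  have hy1 : |y| ≤ 1 := by rcases hy with rfl | rfl <;> simp
  have h3 : |Real.tanh θ * (Real.tanh a * y)| < 1 := by
    rw [abs_mul]
    have h4 : |Real.tanh a * y| ≤ 1 := abs_mul_le_of_le_one h1.le hy1
    calc |Real.tanh θ| * |Real.tanh a * y| ≤ |Real.tanh θ| * 1 :=
          mul_le_mul_of_nonneg_left h4 (abs_nonneg _)
      _ < 1 := by rw [mul_one]; exact h2
  have h5 : 1 + Real.tanh θ * (Real.tanh a * y) ≠ 0 := by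
    have := neg_abs_le (Real.tanh θ * (Real.tanh a * y)); linarith
  rw [eq_div_iff h5]
  rw [Real.tanh_eq_sinh_div_cosh (a + θ * y)]
  have h6 : Real.cosh (a + θ * y) ≠ 0 := (Real.cosh_pos _).ne'
  rw [div_mul_eq_mul_div, div_eq_iff h6]
  rcases hy with rfl | rfl
  · simp only [mul_one]
    rw [Real.tanh_eq_sinh_div_cosh, Real.tanh_eq_sinh_div_cosh, Real.sinh_add, Real.cosh_add]
    field_simp
  · rw [mul_neg_one, Real.tanh_eq_sinh_div_cosh, Real.tanh_eq_sinh_div_cosh, ← sub_eq_add_neg,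
      Real.sinh_sub, Real.cosh_sub]
    field_simp
    ring

lemma weight_eq (θ a b : ℝ) {x y : ℝ} (hx : x = 1 ∨ x = -1) (hy : y = 1 ∨ y = -1) :
    Real.exp (θ * (x*y) + a * x + b * y) = (4 * Real.cosh θ * Real.cosh a * Real.cosh b) *
      (P0 (Real.tanh a) (Real.tanh b) x y * (1 + Real.tanh θ * (x*y))) := by
  have hxy : x * y = 1 ∨ x * y = -1 := by
    rcases hx with rfl | rfl <;> rcases hy with rfl | rfl <;> norm_num
  rw [Real.exp_add, Real.exp_add, exp_sign θ hxy, exp_sign a hx, exp_sign b hy]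
  unfold P0; ring

lemma den_pos {t v : ℝ} (ht : |t| ≤ 1/1000) (hv : |v| ≤ 1) : 999/1000 ≤ 1 + t * v := by
  have h : |t * v| ≤ 1/1000 := by rw [mul_comm]; exact abs_mul_le_of_le_one hv ht
  have := neg_abs_le (t*v); linarith only [this, h]

lemma den_le {t v : ℝ} (ht : |t| ≤ 1/1000) (hv : |v| ≤ 1) : 1 + t * v ≤ 1001/1000 := by
  have h : |t * v| ≤ 1/1000 := by rw [mul_comm]; exact abs_mul_le_of_le_one hv ht
  have := le_abs_self (t*v); linarith only [this, h]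


lemma tau_sub {u t x y : ℝ} (hx2 : x^2 = 1) (hd : 1 + t*(u*y) ≠ 0) :
    x - (u + t*y)/(1 + t*(u*y)) = (x - u) * (1 - t*(x*y)) / (1 + t*(u*y)) := by
  rw [eq_div_iff hd, sub_mul, div_mul_cancel₀ _ hd]
  linear_combination (t * y) * hx2

lemma cross_point {u w t : ℝ} (β γ δ : ℝ) {x y : ℝ} (hu : |u| ≤ 1) (hw : |w| ≤ 1)
    (ht : |t| ≤ 1/1000) (hx : x = 1 ∨ x = -1) (hy : y = 1 ∨ y = -1) :
    P0 u w x y * (1 + t*(x*y)) *
      ((x - (u + t*y)/(1 + t*(u*y))) * (β + δ*y) * ((y - (w + t*x)/(1 + t*(w*x))) * (γ + δ*x))) =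
    (1-u^2)*(1-w^2)*(1-t^2) * (1 - (u*t)^2)⁻¹ * (1 - (w*t)^2)⁻¹ / 4 *
      (x*y*(1 - t*(x*y))*(1 - t*(u*y))*(1 - t*(w*x))*(β + δ*y)*(γ + δ*x)) := by
  have hx1 : |x| ≤ 1 := by rcases hx with rfl | rfl <;> simp
  have hy1 : |y| ≤ 1 := by rcases hy with rfl | rfl <;> simp
  have hx2 : x^2 = 1 := by rcases hx with rfl | rfl <;> norm_num
  have hy2 : y^2 = 1 := by rcases hy with rfl | rfl <;> norm_num
  have huy : |u*y| ≤ 1 := abs_mul_le_of_le_one hu hy1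
  have hwx : |w*x| ≤ 1 := abs_mul_le_of_le_one hw hx1
  have hmuy : |-(u*y)| ≤ 1 := by rwa [abs_neg]
  have hmwx : |-(w*x)| ≤ 1 := by rwa [abs_neg]
  have d1 := den_pos ht huy
  have d2 := den_pos ht hwx
  have d3 := den_pos ht hmuy
  have d4 := den_pos ht hmwx
  have e1 : 1 + t * (u*y) ≠ 0 := by linarith only [d1]
  have e2 : 1 + t * (w*x) ≠ 0 := by linarith only [d2]
  have e3 : 1 - t * (u*y) ≠ 0 := by have : 1 + t * -(u*y) = 1 - t * (u*y) := by ring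
                                    linarith only [d3]
  have e4 : 1 - t * (w*x) ≠ 0 := by have : 1 + t * -(w*x) = 1 - t * (w*x) := by ring
                                    linarith only [d4]
  have i6 : 1 - (u*t)^2 = (1 + t*(u*y)) * (1 - t*(u*y)) := by
    linear_combination (u^2*t^2) * hy2
  have i7 : 1 - (w*t)^2 = (1 + t*(w*x)) * (1 - t*(w*x)) := by
    linear_combination (w^2*t^2) * hx2
  rw [tau_sub hx2 e1, tau_sub (x := y) (y := x) hy2 e2, i6, i7, mul_inv, mul_inv]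
  unfold P0
  have hyx : y * x = x * y := mul_comm y x
  rw [hyx]
  have k1 : (1 + u*x) * (x - u) = x * (1 - u^2) := by linear_combination u * hx2
  have k2 : (1 + w*y) * (y - w) = y * (1 - w^2) := by linear_combination w * hy2
  have k3 : (1 + t*(x*y)) * (1 - t*(x*y)) = 1 - t^2 := by
    have : x^2*y^2 = 1 := by rw [hx2, hy2, one_mul]
    linear_combination (-t^2) * this
  have lhs : (1 + u * x) * (1 + w * y) / 4 * (1 + t * (x * y)) *
      ((x - u) * (1 - t * (x * y)) / (1 + t * (u * y)) * (β + δ * y) *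
        ((y - w) * (1 - t * (x * y)) / (1 + t * (w * x)) * (γ + δ * x))) =
      ((1 + u*x) * (x - u)) * ((1 + w*y) * (y - w)) * ((1 + t*(x*y)) * (1 - t*(x*y))) / 4 *
       ((1 - t*(x*y)) * (β + δ * y) * (γ + δ * x)) * (1 + t * (u * y))⁻¹ * (1 + t * (w * x))⁻¹ := by
    rw [div_eq_mul_inv _ (1 + t * (u * y)), div_eq_mul_inv _ (1 + t * (w * x))]; ring
  rw [lhs, k1, k2, k3]
  have c1 : (1 - t * (u * y))⁻¹ * (1 - t * (u * y)) = 1 := inv_mul_cancel₀ e3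
  have c2 : (1 - t * (w * x))⁻¹ * (1 - t * (w * x)) = 1 := inv_mul_cancel₀ e4
  have rhs : (1 - u ^ 2) * (1 - w ^ 2) * (1 - t ^ 2) * ((1 + t * (u * y))⁻¹ * (1 - t * (u * y))⁻¹) *
          ((1 + t * (w * x))⁻¹ * (1 - t * (w * x))⁻¹) / 4 *
      (x * y * (1 - t * (x * y)) * (1 - t * (u * y)) * (1 - t * (w * x)) * (β + δ * y) * (γ + δ * x)) =
      (x * (1 - u ^ 2)) * (y * (1 - w ^ 2)) * (1 - t ^ 2) / 4 *
       ((1 - t*(x*y)) * (β + δ * y) * (γ + δ * x)) * (1 + t * (u * y))⁻¹ * (1 + t * (w * x))⁻¹ *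
       ((1 - t * (u * y))⁻¹ * (1 - t * (u * y))) * ((1 - t * (w * x))⁻¹ * (1 - t * (w * x))) := by ring
  rw [rhs, c1, c2, mul_one, mul_one]

lemma cross_sum {u w t : ℝ} (β γ δ : ℝ) (hu : |u| ≤ 1) (hw : |w| ≤ 1) (ht : |t| ≤ 1/1000) :
    S4 (fun x y => P0 u w x y * (1 + t*(x*y)) *
      ((x - (u + t*y)/(1 + t*(u*y))) * (β + δ*y) * ((y - (w + t*x)/(1 + t*(w*x))) * (γ + δ*x)))) =
    (1-u^2)*(1-w^2)*(1 + t*(u*w)) * (kap u w t * crossQ u w t β γ δ) := by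
  rw [S4_congr (fun x y hx hy => cross_point β γ δ hu hw ht hx hy)]
  have d5 := den_pos ht (abs_mul_le_of_le_one hu hw)
  have e5 : 1 + t * (u * w) ≠ 0 := by linarith only [d5]
  have c : (1 + t * (u * w)) * (1 + t*(u*w))⁻¹ = 1 := mul_inv_cancel₀ e5
  have r : (1-u^2)*(1-w^2)*(1 + t*(u*w)) * (kap u w t * crossQ u w t β γ δ) =
    (1-u^2)*(1-w^2)* ((1 + t * (u * w)) * (1 + t*(u*w))⁻¹) * (1 - (u*t)^2)⁻¹ * (1 - (w*t)^2)⁻¹ * (1 - t^2)
      * crossQ u w t β γ δ := by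
    unfold kap; ring
  rw [r, c]
  unfold S4 crossQ; ring

/-- `s_i = 1 - τ_i²` in rational form -/
lemma one_sub_tau_sq {u t y : ℝ} (hy2 : y^2 = 1) (hd : 1 + t*(u*y) ≠ 0) :
    1 - ((u + t*y)/(1 + t*(u*y)))^2 = (1-u^2)*(1-t^2) * ((1 + t*(u*y))⁻¹)^2 := by
  rw [div_pow, inv_pow]
  have h : (1 + t*(u*y))^2 ≠ 0 := pow_ne_zero 2 hd
  rw [← div_eq_mul_inv, eq_div_iff h, sub_mul, div_mul_cancel₀ _ h]
  linear_combination (t^2*u^2 - t^2) * hy2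

lemma main_point {u w t : ℝ} {x y : ℝ} (hu : |u| ≤ 1) (hw : |w| ≤ 1)
    (ht : |t| ≤ 1/1000) (hx : x = 1 ∨ x = -1) (hy : y = 1 ∨ y = -1) :
    (1 + t*(x*y)) * ((t + 2*t^2*(((u + t*y)/(1 + t*(u*y))) * ((w + t*x)/(1 + t*(w*x))))) *
      (1 - ((u + t*y)/(1 + t*(u*y)))^2) * (1 - ((w + t*x)/(1 + t*(w*x)))^2)) =
    (1-u^2)*(1-w^2)*(1 + t*(u*w)) * (t * jetX u w t x y) := by
  have hx1 : |x| ≤ 1 := by rcases hx with rfl | rfl <;> simp
  have hy1 : |y| ≤ 1 := by rcases hy with rfl | rfl <;> simp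
  have hx2 : x^2 = 1 := by rcases hx with rfl | rfl <;> norm_num
  have hy2 : y^2 = 1 := by rcases hy with rfl | rfl <;> norm_num
  have huy : |u*y| ≤ 1 := abs_mul_le_of_le_one hu hy1
  have hwx : |w*x| ≤ 1 := abs_mul_le_of_le_one hw hx1
  have d1 := den_pos ht huy
  have d2 := den_pos ht hwx
  have d5 := den_pos ht (abs_mul_le_of_le_one hu hw)
  have e1 : 1 + t * (u*y) ≠ 0 := by linarith only [d1]
  have e2 : 1 + t * (w*x) ≠ 0 := by linarith only [d2]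
  have e5 : 1 + t * (u * w) ≠ 0 := by linarith only [d5]
  have c : (1 + t * (u * w)) * (1 + t*(u*w))⁻¹ = 1 := mul_inv_cancel₀ e5
  rw [one_sub_tau_sq hy2 e1, one_sub_tau_sq (u := w) (y := x) hx2 e2]
  unfold jetX
  have r : (1-u^2)*(1-w^2)*(1 + t*(u*w)) * (t * ((1 + t*(x*y)) * (1 + 2*t*(((u + t*y) / (1 + t*(u*y))) * ((w + t*x) / (1 + t*(w*x))))) *
    (1 + t*(u*w))⁻¹ * (1 + t*(u*y))⁻¹ * (1 + t*(u*y))⁻¹ * (1 + t*(w*x))⁻¹ * (1 + t*(w*x))⁻¹ *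
    (1 - t^2)^2)) = ((1 + t * (u * w)) * (1 + t*(u*w))⁻¹) * ((1-u^2)*(1-w^2) * (t * ((1 + t*(x*y)) * (1 + 2*t*(((u + t*y) / (1 + t*(u*y))) * ((w + t*x) / (1 + t*(w*x))))) *
     (1 + t*(u*y))⁻¹ * (1 + t*(u*y))⁻¹ * (1 + t*(w*x))⁻¹ * (1 + t*(w*x))⁻¹ *
    (1 - t^2)^2))) := by ring
  rw [r, c, one_mul]
  ring

/-- lower bound on the weights `s_i s_j` -/
lemma ss_lower {u w t : ℝ} {x y : ℝ} (hu : |u| ≤ 1) (hw : |w| ≤ 1)
    (ht : |t| ≤ 1/1000) (hx : x = 1 ∨ x = -1) (hy : y = 1 ∨ y = -1) :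
    (1-u^2)*(1-w^2)*(1 + t*(u*w)) ≤ 2 * ((1 + t*(x*y)) *
      ((1 - ((u + t*y)/(1 + t*(u*y)))^2) * (1 - ((w + t*x)/(1 + t*(w*x)))^2))) := by
  have hx1 : |x| ≤ 1 := by rcases hx with rfl | rfl <;> simp
  have hy1 : |y| ≤ 1 := by rcases hy with rfl | rfl <;> simp
  have hx2 : x^2 = 1 := by rcases hx with rfl | rfl <;> norm_num
  have hy2 : y^2 = 1 := by rcases hy with rfl | rfl <;> norm_num
  have huy : |u*y| ≤ 1 := abs_mul_le_of_le_one hu hy1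
  have hwx : |w*x| ≤ 1 := abs_mul_le_of_le_one hw hx1
  have hxy : |x*y| ≤ 1 := abs_mul_le_of_le_one hx1 hy1
  have d1 := den_pos ht huy
  have d2 := den_pos ht hwx
  have d3 := den_pos ht hxy
  have l1 := den_le ht huy
  have l2 := den_le ht hwx
  have l5 := den_le ht (abs_mul_le_of_le_one hu hw)
  have e1 : 1 + t * (u*y) ≠ 0 := by linarith only [d1]
  have e2 : 1 + t * (w*x) ≠ 0 := by linarith only [d2]
  rw [one_sub_tau_sq hy2 e1, one_sub_tau_sq (u := w) (y := x) hx2 e2]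
  have hu2 : 0 ≤ 1 - u^2 := by have := sq_le_of_abs_le hu; linarith only [this]
  have hw2 : 0 ≤ 1 - w^2 := by have := sq_le_of_abs_le hw; linarith only [this]
  have hS : 0 ≤ (1-u^2)*(1-w^2) := mul_nonneg hu2 hw2
  have ht2 : t^2 ≤ (1/1000)^2 := sq_le_of_abs_le ht
  have ia : ∀ D : ℝ, 999/1000 ≤ D → D ≤ 1001/1000 → 99/100 ≤ (D⁻¹)^2 := by
    intro D hD hD'
    have hpos : 0 < D := by linarith only [hD]
    have : (1001/1000 : ℝ)⁻¹ ≤ D⁻¹ := inv_anti₀ hpos hD'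
    have h2 : ((1001/1000 : ℝ)⁻¹)^2 ≤ (D⁻¹)^2 := pow_le_pow_left₀ (by positivity) this 2
    refine le_trans ?_ h2
    norm_num
  have i1 := ia _ d1 l1
  have i2 := ia _ d2 l2
  have q : 1/2 * (1 + t*(u*w)) ≤ (1 + t*(x*y)) * ((1-t^2)^2 * (((1 + t*(u*y))⁻¹)^2 * ((1 + t*(w*x))⁻¹)^2)) := by
    have a1 : (99/100:ℝ) * (99/100) ≤ ((1 + t*(u*y))⁻¹)^2 * ((1 + t*(w*x))⁻¹)^2 :=
      mul_le_mul i1 i2 (by norm_num) (by (clear * - d1; positivity))
    have a2 : (99/100:ℝ) ≤ (1-t^2)^2 := by (by_contra nlg; linarith only [nlg, mul_nonneg (sub_nonneg.2 ht2) (sq_nonneg t), mul_nonneg (sub_nonneg.2 ht2) (sub_nonneg.2 ht2), mul_nonneg (le_of_lt (sub_pos.2 (not_le.1 nlg))) (sq_nonneg t), mul_nonneg (le_of_lt (sub_pos.2 (not_le.1 nlg))) (sub_nonneg.2 ht2)])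
    have a3 : (99/100:ℝ) * ((99/100:ℝ) * (99/100)) ≤ (1-t^2)^2 * (((1 + t*(u*y))⁻¹)^2 * ((1 + t*(w*x))⁻¹)^2) :=
      mul_le_mul a2 a1 (by norm_num) (by (clear * - a2; positivity))
    have a4 : (999/1000:ℝ) * ((99/100:ℝ) * ((99/100:ℝ) * (99/100))) ≤
      (1 + t*(x*y)) * ((1-t^2)^2 * (((1 + t*(u*y))⁻¹)^2 * ((1 + t*(w*x))⁻¹)^2)) :=
      mul_le_mul d3 a3 (by norm_num) (by linarith only [d3])
    refine le_trans ?_ a4
    norm_num; linarith only [l5]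
  have q2 := mul_le_mul_of_nonneg_left q hS
  calc (1-u^2)*(1-w^2)*(1 + t*(u*w)) = 2 * ((1-u^2)*(1-w^2) * (1/2 * (1 + t*(u*w)))) := by ring
    _ ≤ 2 * ((1-u^2)*(1-w^2) * ((1 + t*(x*y)) * ((1-t^2)^2 * (((1 + t*(u*y))⁻¹)^2 * ((1 + t*(w*x))⁻¹)^2)))) := by linarith only [q2]
    _ = _ := by ring


lemma tanh_bounds {θ : ℝ} (hθ : |θ| ≤ 1/2000) :
    |Real.tanh θ - θ| ≤ 3 * |θ|^3 ∧ |Real.tanh θ| ≤ 1/1000 ∧ |Real.tanh θ|^3 ≤ (101/100) * |θ|^3 := by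
  have h0 : 0 ≤ |θ| := abs_nonneg θ
  have e2 : Real.tanh θ = (Real.exp (2*θ) - 1) / (Real.exp (2*θ) + 1) := by
    rw [Real.tanh_eq_sinh_div_cosh, Real.sinh_eq, Real.cosh_eq]
    have h1 : Real.exp (2*θ) = Real.exp θ * Real.exp θ := by rw [← Real.exp_add]; ring_nf
    have h2 : Real.exp (-θ) = (Real.exp θ)⁻¹ := Real.exp_neg θ
    have h3 := Real.exp_pos θ
    rw [h1, h2]
    field_simp
  have hb := Real.exp_bound (x := 2*θ) (by rw [abs_mul, abs_two]; linarith only [hθ]) (n := 3) (by norm_num)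
  simp [Finset.sum_range_succ, Nat.factorial] at hb
  set r := Real.exp (2*θ) - (1 + 2*θ + (2*θ)^2/2) with hr
  have hr1 : |r| ≤ 2 * |θ|^3 := by
    rw [hr]
    refine hb.trans ?_
    have : (|2 * θ|)^3 = 8 * |θ|^3 := by rw [abs_mul, abs_two]; ring
    have h3 : 0 ≤ |θ|^3 := by positivity
    norm_num [mul_pow]
    linarith only [h3]
  have hE : Real.exp (2*θ) = 1 + 2*θ + 2*θ^2 + r := by rw [hr]; ring
  have hden : 19/10 ≤ Real.exp (2*θ) + 1 := by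
    have h3 : |r| ≤ 1/1000 := by
      have : |θ|^3 ≤ (1/2000)^3 := pow_le_pow_left₀ h0 hθ 3
      norm_num at this; linarith only [this, hb]
    have h4 := neg_abs_le r
    have h5 := neg_abs_le θ
    rw [hE]; linarith only [sq_nonneg θ, h5, h4, h3, hθ]
  have hne : Real.exp (2*θ) + 1 ≠ 0 := by linarith only [hden]
  have hd : Real.tanh θ - θ = (r - θ * r - 2*θ^3) / (Real.exp (2*θ) + 1) := by
    rw [e2, eq_div_iff hne, sub_mul, div_mul_cancel₀ _ hne, hE]; ring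
  have h1 : |Real.tanh θ - θ| ≤ 3 * |θ|^3 := by
    rw [hd, abs_div, abs_of_pos (show (0:ℝ) < Real.exp (2*θ) + 1 by linarith only [hden]), div_le_iff₀ (by linarith only [hden])]
    have a1 : |θ * r| ≤ |r| := by
      rw [abs_mul]; linarith only [mul_nonneg (sub_nonneg.2 h0) (sub_nonneg.2 (abs_nonneg r)), mul_nonneg (sub_nonneg.2 hθ) (sub_nonneg.2 (abs_nonneg r))]
    have a2 : |2*θ^3| = 2 * |θ|^3 := by rw [abs_mul, abs_two, abs_pow]
    have a3 := abs_sub (r - θ * r) (2*θ^3)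
    have a4 := abs_sub r (θ*r)
    have h3 : 0 ≤ |θ|^3 := by (clear * -; positivity)
    have a5 : |θ * r| ≤ (1/2000) * (2 * |θ|^3) := by
      rw [abs_mul]
      exact mul_le_mul hθ hr1 (abs_nonneg _) (by norm_num)
    have a6 : 3 * |θ|^3 * (19/10) ≤ 3 * |θ|^3 * (Real.exp (2*θ) + 1) :=
      mul_le_mul_of_nonneg_left hden (by positivity)
    linarith only [a6, a5, h3, a4, a3, a2, hr1]
  have h3 : |θ|^3 ≤ (1/2000)^2 * |θ| := by
    have : |θ|^3 = |θ|^2 * |θ| := by ring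
    rw [this]
    exact mul_le_mul_of_nonneg_right (pow_le_pow_left₀ h0 hθ 2) h0
  have h4 : |Real.tanh θ| ≤ (1001/1000) * |θ| := by
    have := abs_add_le (Real.tanh θ - θ) θ
    rw [sub_add_cancel] at this
    norm_num at h3
    linarith only [h3, this, h1, h0]
  refine ⟨h1, by linarith only [h4, hθ], ?_⟩
  calc |Real.tanh θ|^3 ≤ ((1001/1000) * |θ|)^3 := pow_le_pow_left₀ (abs_nonneg _) h4 3
    _ = (1001/1000)^3 * |θ|^3 := by ring
    _ ≤ _ := by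
      apply mul_le_mul_of_nonneg_right _ (by positivity)
      norm_num


lemma key_abs {P c t θ p q X V W S T : ℝ} (hP : 0 ≤ P) (hc : 0 ≤ c)
    (m2 : (t + 2*t^2*(p*q)) * (((1 - p^2) * (1 - q^2)) * V) -
      (θ + 2*θ^2*(p*q)) * (((1 - p^2) * (1 - q^2)) * V) ≤ 2 * T * (((1 - p^2) * (1 - q^2)) * W))
    (m3 : S ≤ c * (30300 * T * ((1 - p^2) * (1 - q^2)))) (hW : 0 ≤ W) (hT : 0 ≤ T)
    (hs : 0 ≤ (1 - p^2) * (1 - q^2)) :
    P*c*X + P*(c*((t + 2*t^2*(p*q))*(1 - p^2)*(1 - q^2)))*V + S*(P*W) ≤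
    P*c*(X + (θ + 2*θ^2*(p*q))*((1 - p^2)*(1 - q^2)*V) + 50000*T*((1 - p^2)*(1 - q^2)*W)) := by
  have m4 := mul_le_mul_of_nonneg_right m3 (mul_nonneg hP hW)
  have m5 := mul_le_mul_of_nonneg_left m2 (mul_nonneg hP hc)
  have m6 : 0 ≤ P * c * (T * (((1 - p^2) * (1 - q^2)) * W)) := by (clear * - hP hc hT hs hW; positivity)
  have e : P*c*(X + (θ + 2*θ^2*(p*q))*((1 - p^2)*(1 - q^2)*V) + 50000*T*((1 - p^2)*(1 - q^2)*W)) -
    (P*c*X + P*(c*((t + 2*t^2*(p*q))*(1 - p^2)*(1 - q^2)))*V + S*(P*W)) =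
    (P * c * (2 * T * (((1 - p^2) * (1 - q^2)) * W)) - P * c * ((t + 2*t^2*(p*q)) * (((1 - p^2) * (1 - q^2)) * V) -
      (θ + 2*θ^2*(p*q)) * (((1 - p^2) * (1 - q^2)) * V))) +
    (c * (30300 * T * ((1 - p^2) * (1 - q^2))) * (P * W) - S * (P * W)) +
    19698 * (P * c * (T * (((1 - p^2) * (1 - q^2)) * W))) := by ring
  linarith only [m6, m5, m4]

/-- **Two-site inequality.** -/
theorem two_site (θ a b β γ δ : ℝ) (hθ : |θ| ≤ 1/2000) :
    0 ≤ S4 (fun x y => Real.exp (θ * (x*y) + a * x + b * y) *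
      ((x - Real.tanh (a + θ * y)) * (β + δ*y) * ((y - Real.tanh (b + θ * x)) * (γ + δ*x)) +
       (θ + 2*θ^2*(Real.tanh (a + θ * y) * Real.tanh (b + θ * x))) *
        ((1 - Real.tanh (a + θ * y)^2) * (1 - Real.tanh (b + θ * x)^2) * ((β + δ*y) * (γ + δ*x))) +
       50000 * |θ|^3 * ((1 - Real.tanh (a + θ * y)^2) * (1 - Real.tanh (b + θ * x)^2) *
        ((β + δ*y)^2 + (γ + δ*x)^2)))) := by
  obtain ⟨hb1, hb2, hb3⟩ := tanh_bounds hθ
  set u := Real.tanh a with hu_def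
  set w := Real.tanh b with hw_def
  set t := Real.tanh θ with ht_def
  have hu : |u| ≤ 1 := (abs_tanh_lt a).le
  have hw : |w| ≤ 1 := (abs_tanh_lt b).le
  have hθ0 : 0 ≤ |θ| := abs_nonneg θ
  set G := 4 * Real.cosh θ * Real.cosh a * Real.cosh b with hG
  have hGpos : 0 < G := by
    have := Real.cosh_pos θ; have := Real.cosh_pos a; have := Real.cosh_pos b; positivity
  have key : S4 (fun x y => G * (
      (P0 u w x y * (1 + t*(x*y)) *
      ((x - (u + t*y)/(1 + t*(u*y))) * (β + δ*y) * ((y - (w + t*x)/(1 + t*(w*x))) * (γ + δ*x))) +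
       P0 u w x y * ((1-u^2)*(1-w^2)*(1 + t*(u*w)) * (t * jetX u w t x y)) * ((β + δ*y) * (γ + δ*x)) +
       15000 * |t|^3 * ((1-u^2)*(1-w^2)*(1 + t*(u*w))) * (P0 u w x y * ((β + δ*y)^2 + (γ + δ*x)^2))))) ≤
    S4 (fun x y => Real.exp (θ * (x*y) + a * x + b * y) *
      ((x - Real.tanh (a + θ * y)) * (β + δ*y) * ((y - Real.tanh (b + θ * x)) * (γ + δ*x)) +
       (θ + 2*θ^2*(Real.tanh (a + θ * y) * Real.tanh (b + θ * x))) *
        ((1 - Real.tanh (a + θ * y)^2) * (1 - Real.tanh (b + θ * x)^2) * ((β + δ*y) * (γ + δ*x))) +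
       50000 * |θ|^3 * ((1 - Real.tanh (a + θ * y)^2) * (1 - Real.tanh (b + θ * x)^2) *
        ((β + δ*y)^2 + (γ + δ*x)^2)))) := by
    apply S4_le
    intro x y hx hy
    have hx1 : |x| ≤ 1 := by rcases hx with rfl | rfl <;> simp
    have hy1 : |y| ≤ 1 := by rcases hy with rfl | rfl <;> simp
    have hx2 : x^2 = 1 := by rcases hx with rfl | rfl <;> norm_num
    have hy2 : y^2 = 1 := by rcases hy with rfl | rfl <;> norm_num
    rw [weight_eq θ a b hx hy, tanh_add_sign a θ hy, tanh_add_sign b θ hx]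
    rw [← hu_def, ← hw_def, ← ht_def, ← hG, mul_assoc G]
    apply mul_le_mul_of_nonneg_left _ hGpos.le
    have hP := P0_nonneg hu hw hx1 hy1
    have hmp := main_point hu hw hb2 hx hy
    have hss := ss_lower hu hw hb2 hx hy
    have htau1 := (tau_jet (show |t| ≤ 1/10 by linarith only [hb2]) hu hy1 hy2).2
    have htau2 := (tau_jet (show |t| ≤ 1/10 by linarith only [hb2]) hw hx1 hx2).2
    have d3 := den_pos hb2 (abs_mul_le_of_le_one hx1 hy1)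
    set p := (u + t*y)/(1 + t*(u*y)) with hp
    set q := (w + t*x)/(1 + t*(w*x)) with hq
    have hs1 : 0 ≤ 1 - p^2 := by have := sq_le_of_abs_le htau1; linarith only [this]
    have hs2 : 0 ≤ 1 - q^2 := by have := sq_le_of_abs_le htau2; linarith only [this]
    have hpq : |p * q| ≤ 1 := abs_mul_le_of_le_one htau1 htau2
    have hs0 : 0 ≤ (1 - p^2) * (1 - q^2) := mul_nonneg hs1 hs2
    have hW0 : 0 ≤ (β + δ*y)^2 + (γ + δ*x)^2 := by (clear * -; positivity)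
    have hVW : |(β + δ*y) * (γ + δ*x)| ≤ ((β + δ*y)^2 + (γ + δ*x)^2) / 2 := abs_mul_le_half_sq _ _
    have m2 : (t + 2*t^2*(p*q)) * (((1 - p^2) * (1 - q^2)) * ((β + δ*y) * (γ + δ*x))) -
        (θ + 2*θ^2*(p*q)) * (((1 - p^2) * (1 - q^2)) * ((β + δ*y) * (γ + δ*x))) ≤
        2 * |θ|^3 * (((1 - p^2) * (1 - q^2)) * ((β + δ*y)^2 + (γ + δ*x)^2)) := by
      generalize (1 - p^2) * (1 - q^2) = s at *
      generalize (β + δ*y) * (γ + δ*x) = V at *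
      generalize (β + δ*y)^2 + (γ + δ*x)^2 = W at *
      have m1 : |(t + 2*t^2*(p*q)) - (θ + 2*θ^2*(p*q))| ≤ 4 * |θ|^3 := by
        have e : (t + 2*t^2*(p*q)) - (θ + 2*θ^2*(p*q)) = (t-θ) * (1 + 2 * ((p*q) * (t+θ))) := by ring
        rw [e, abs_mul]
        have a1 : |(p*q) * (t+θ)| ≤ 1/500 := by
          apply abs_mul_le_of_le_one hpq
          have := abs_add_le t θ; linarith only [hθ, hb2, this]
        have a2 : |1 + 2 * ((p*q) * (t+θ))| ≤ 4/3 := by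
          have := abs_add_le 1 (2 * ((p*q) * (t+θ)))
          rw [abs_mul, abs_two, abs_one] at this
          linarith only [this, a1]
        have := mul_le_mul hb1 a2 (abs_nonneg _) (by (clear * -; positivity))
        linarith only [this]
      have e : (t + 2*t^2*(p*q)) * (s * V) - (θ + 2*θ^2*(p*q)) * (s * V) =
        ((t + 2*t^2*(p*q)) - (θ + 2*θ^2*(p*q))) * (s * V) := by ring
      rw [e]
      have a1 : |s * V| ≤ s * (W/2) := by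
        rw [abs_mul, abs_of_nonneg hs0]; exact mul_le_mul_of_nonneg_left hVW hs0
      have a2 := mul_le_mul m1 a1 (abs_nonneg _) (by (clear * -; positivity))
      rw [← abs_mul] at a2
      have a3 := le_abs_self (((t + 2*t^2*(p*q)) - (θ + 2*θ^2*(p*q))) * (s * V))
      linarith only [a2, a3]
    have m3 : 15000 * |t|^3 * ((1-u^2)*(1-w^2)*(1 + t*(u*w))) ≤ (1 + t*(x*y)) * (30300 * |θ|^3 * ((1 - p^2) * (1 - q^2))) := by
      have hu2 : 0 ≤ 1 - u^2 := by have := sq_le_of_abs_le hu; linarith only [this]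
      have hw2 : 0 ≤ 1 - w^2 := by have := sq_le_of_abs_le hw; linarith only [this]
      have hS : 0 ≤ (1-u^2)*(1-w^2) := mul_nonneg hu2 hw2
      have d5 := den_pos hb2 (abs_mul_le_of_le_one hu hw)
      have hSS : 0 ≤ (1-u^2)*(1-w^2)*(1 + t*(u*w)) := mul_nonneg hS (by linarith only [d5])
      calc 15000 * |t|^3 * ((1-u^2)*(1-w^2)*(1 + t*(u*w)))
          ≤ 15000 * ((101/100) * |θ|^3) * ((1-u^2)*(1-w^2)*(1 + t*(u*w))) := by
            apply mul_le_mul_of_nonneg_right _ hSS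
            linarith only [hb3]
        _ ≤ 15000 * ((101/100) * |θ|^3) * (2 * ((1 + t*(x*y)) * ((1 - p^2) * (1 - q^2)))) := by
            apply mul_le_mul_of_nonneg_left hss (by (clear * -; positivity))
        _ = _ := by ring
    rw [← hmp]
    exact key_abs hP (by linarith only [d3]) m2 m3 hW0 (by (clear * -; positivity)) hs0
  refine le_trans ?_ key
  have alg := two_site_alg (β := β) (γ := γ) (δ := δ) hu hw hb2
  have cs := cross_sum β γ δ hu hw hb2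
  have hu2 : 0 ≤ 1 - u^2 := by have := sq_le_of_abs_le hu; linarith only [this]
  have hw2 : 0 ≤ 1 - w^2 := by have := sq_le_of_abs_le hw; linarith only [this]
  have hS : 0 ≤ (1-u^2)*(1-w^2) := mul_nonneg hu2 hw2
  have d5 := den_pos hb2 (abs_mul_le_of_le_one hu hw)
  have hSS : 0 ≤ (1-u^2)*(1-w^2)*(1 + t*(u*w)) := mul_nonneg hS (by linarith only [d5])
  have split : S4 (fun x y => G * (
      (P0 u w x y * (1 + t*(x*y)) *
      ((x - (u + t*y)/(1 + t*(u*y))) * (β + δ*y) * ((y - (w + t*x)/(1 + t*(w*x))) * (γ + δ*x))) +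
       P0 u w x y * ((1-u^2)*(1-w^2)*(1 + t*(u*w)) * (t * jetX u w t x y)) * ((β + δ*y) * (γ + δ*x)) +
       15000 * |t|^3 * ((1-u^2)*(1-w^2)*(1 + t*(u*w))) * (P0 u w x y * ((β + δ*y)^2 + (γ + δ*x)^2))))) =
      G * (S4 (fun x y => P0 u w x y * (1 + t*(x*y)) *
      ((x - (u + t*y)/(1 + t*(u*y))) * (β + δ*y) * ((y - (w + t*x)/(1 + t*(w*x))) * (γ + δ*x)))) +
       ((1-u^2)*(1-w^2)*(1 + t*(u*w))) * S4 (fun x y => P0 u w x y * (t * jetX u w t x y) * ((β+δ*y)*(γ+δ*x))) +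
       ((1-u^2)*(1-w^2)*(1 + t*(u*w))) * (15000 * |t|^3 * S4 (fun x y => P0 u w x y * ((β+δ*y)^2 + (γ+δ*x)^2)))) := by
    unfold S4; ring
  rw [split, cs]
  apply mul_nonneg hGpos.le
  have := mul_le_mul_of_nonneg_left alg hSS
  linarith only [this]

end Vale.Agent.P150
end
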