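import Mathlib
import Vale.Agent.P150.Defs
import Vale.Agent.P367.GT.Stein

set_option linter.all false

section

open MeasureTheory ProbabilityTheory Filter Topology

namespace Vale.Agent.P150

namespace Poinc

variable {n : ℕ} (J : Fin n → Fin n → ℝ) (b : Fin n → ℝ)

/-! ### Basic facts on spins and the energy -/

lemma sp_sq (s : Bool) : sp s ^ 2 = 1 := by
  cases s <;> simp [sp]

lemma sp_not (s : Bool) : sp (!s) = - sp s := by
  cases s <;> simp [sp]

/-- The local field does not depend on the spin at `i`. -/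
lemma locField_update (x : Cfg n) (i : Fin n) (s : Bool) :
    locField J b (Function.update x i s) i = locField J b x i := by
  unfold locField
  congr 1
  apply Finset.sum_congr rfl
  intro j _
  by_cases h : j = i
  · simp [h]
  · simp [h]

/-- Part of the energy not involving spin `i`. -/
noncomputable def rest (x : Cfg n) (i : Fin n) : ℝ :=
  (∑ k, ∑ j, if k < j then (if k = i ∨ j = i then 0 else J k j * sp (x k) * sp (x j)) else 0)
    + ∑ k, if k = i then 0 else b k * sp (x k)

lemma rest_update (x : Cfg n) (i : Fin n) (s : Bool) :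
    rest J b (Function.update x i s) i = rest J b x i := by
  unfold rest
  congr 1
  · apply Finset.sum_congr rfl
    intro k _
    apply Finset.sum_congr rfl
    intro j _
    by_cases hkj : k < j
    · simp only [hkj, if_true]
      by_cases h : k = i ∨ j = i
      · simp [h]
      · push Not at h
        simp [h.1, h.2]
    · simp [hkj]
  · apply Finset.sum_congr rfl
    intro k _
    by_cases h : k = i
    · simp [h]
    · simp [h]

/-- Energy splits as `rest + x_i h_i`. -/
lemma energy_eq (hJs : ∀ i j, J i j = J j i) (x : Cfg n) (i : Fin n) :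
    energy J b x = rest J b x i + sp (x i) * locField J b x i := by
  unfold energy rest locField
  have h1 : (∑ k, ∑ j, if k < j then J k j * sp (x k) * sp (x j) else 0)
      = (∑ k, ∑ j, if k < j then (if k = i ∨ j = i then 0 else J k j * sp (x k) * sp (x j)) else 0)
        + sp (x i) * ∑ j, if j = i then 0 else J i j * sp (x j) := by
    have e1 : ∀ k j, (if k < j then J k j * sp (x k) * sp (x j) else 0)
        = (if k < j then (if k = i ∨ j = i then 0 else J k j * sp (x k) * sp (x j)) else 0)
          + ((if k = i then (if i < j then J i j * sp (x i) * sp (x j) else 0) else 0)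
            + (if j = i then (if k < i then J k i * sp (x k) * sp (x i) else 0) else 0)) := by
      intro k j
      by_cases hkj : k < j
      · by_cases hk : k = i
        · subst hk
          have : j ≠ k := ne_of_gt hkj
          simp [hkj, this]
        · by_cases hj : j = i
          · subst hj
            simp [hkj, hk]
          · simp [hkj, hk, hj]
      · by_cases hk : k = i
        · subst hk
          by_cases hj : j = k
          · subst hj; simp
          · simp [hkj, hj]
        · by_cases hj : j = i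
          · subst hj; simp [hkj, hk]
          · simp [hkj, hk, hj]
    rw [Finset.sum_congr rfl (fun k _ => Finset.sum_congr rfl (fun j _ => e1 k j))]
    simp only [Finset.sum_add_distrib]
    congr 1
    have e2 : (∑ k, ∑ j, if k = i then (if i < j then J i j * sp (x i) * sp (x j) else 0) else 0)
        = ∑ j, if i < j then J i j * sp (x i) * sp (x j) else 0 := by
      rw [Finset.sum_eq_single i]
      · simp
      · intro k _ hk
        simp [hk]
      · simp
    have e3 : (∑ k, ∑ j, if j = i then (if k < i then J k i * sp (x k) * sp (x i) else 0) else 0)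
        = ∑ k, if k < i then J k i * sp (x k) * sp (x i) else 0 := by
      apply Finset.sum_congr rfl
      intro k _
      simp
    rw [e2, e3, Finset.mul_sum, ← Finset.sum_add_distrib]
    apply Finset.sum_congr rfl
    intro j _
    rcases lt_trichotomy i j with h | h | h
    · have h1 : ¬ j < i := not_lt.mpr h.le
      have h2 : j ≠ i := ne_of_gt h
      simp [h, h1, h2]; ring
    · subst h; simp
    · have h1 : ¬ i < j := not_lt.mpr h.le
      have h2 : j ≠ i := ne_of_lt h
      rw [hJs j i]
      simp [h, h1, h2]; ring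
  have h2 : (∑ k, b k * sp (x k)) = (∑ k, if k = i then 0 else b k * sp (x k)) + sp (x i) * b i := by
    have : ∀ k, b k * sp (x k) = (if k = i then 0 else b k * sp (x k)) +
        (if k = i then sp (x i) * b i else 0) := by
      intro k
      by_cases hk : k = i
      · subst hk; simp [mul_comm]
      · simp [hk]
    rw [Finset.sum_congr rfl (fun k _ => this k), Finset.sum_add_distrib]
    simp
  rw [h1, h2]; ring

lemma Z_pos : 0 < ∑ y : Cfg n, Real.exp (energy J b y) :=
  Finset.sum_pos (fun _ _ => Real.exp_pos _) Finset.univ_nonempty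

lemma gibbs_pos (x : Cfg n) : 0 < gibbs J b x :=
  div_pos (Real.exp_pos _) (Z_pos J b)

lemma gibbs_sum : ∑ x, gibbs J b x = 1 := by
  unfold gibbs
  rw [← Finset.sum_div, div_self (Z_pos J b).ne']

/-- conditional weights -/
noncomputable def cw (x : Cfg n) (i : Fin n) (s : Bool) : ℝ :=
  Real.exp (sp s * locField J b x i) / (2 * Real.cosh (locField J b x i))

lemma cw_sum (x : Cfg n) (i : Fin n) : cw J b x i true + cw J b x i false = 1 := by
  unfold cw
  have h := Real.cosh_pos (locField J b x i)
  rw [← add_div, div_eq_one_iff_eq (by positivity)]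
  simp [sp, Real.cosh_eq]
  ring

lemma cw_update (x : Cfg n) (i : Fin n) (s t : Bool) :
    cw J b (Function.update x i t) i s = cw J b x i s := by
  unfold cw
  rw [locField_update]

/-- Detailed balance. -/
lemma detailed (hJs : ∀ i j, J i j = J j i) (x : Cfg n) (i : Fin n) (s : Bool) :
    gibbs J b (Function.update x i s) =
      cw J b x i s * (gibbs J b (Function.update x i true) + gibbs J b (Function.update x i false)) := by
  have hZ := Z_pos J b
  have hc := Real.cosh_pos (locField J b x i)
  unfold gibbs cw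
  simp only [energy_eq J b hJs _ i, rest_update, locField_update, Function.update_self]
  set h := locField J b x i
  set R := rest J b x i
  have this : (∑ y : Cfg n, Real.exp (rest J b y i + sp (y i) * locField J b y i))
      = ∑ y : Cfg n, Real.exp (energy J b y) := by
    apply Finset.sum_congr rfl
    intro y _
    rw [energy_eq J b hJs y i]
  rw [this]
  rw [← add_div, div_mul_div_comm, div_eq_div_iff hZ.ne' (by (clear * -; positivity))]
  have e : Real.exp (R + sp true * h) + Real.exp (R + sp false * h)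
      = Real.exp R * (2 * Real.cosh h) := by
    rw [Real.exp_add, Real.exp_add, Real.cosh_eq]
    simp [sp]
    ring
  rw [e, Real.exp_add]
  ring

/-! ### Sums over configurations -/

/-- flip of spin `i` -/
def flip (x : Cfg n) (i : Fin n) : Cfg n := Function.update x i (!(x i))

lemma flip_flip (x : Cfg n) (i : Fin n) : flip (flip x i) i = x := by
  unfold flip
  simp

lemma update_sum (x : Cfg n) (i : Fin n) (F : Cfg n → ℝ) :
    F (Function.update x i true) + F (Function.update x i false) = F x + F (flip x i) := by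
  unfold flip
  cases h : x i
  · have : Function.update x i false = x := by
      rw [← h]; exact Function.update_eq_self i x
    rw [this, add_comm]; simp
  · have : Function.update x i true = x := by
      rw [← h]; exact Function.update_eq_self i x
    rw [this]; simp

lemma sum_flip (i : Fin n) (F : Cfg n → ℝ) : ∑ x, F (flip x i) = ∑ x, F x := by
  apply Finset.sum_bij' (fun x _ => flip x i) (fun x _ => flip x i)
  · intro x _; simp
  · intro x _; simp
  · intro x _; exact flip_flip x i
  · intro x _; exact flip_flip x i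
  · intro x _; rfl

lemma sum_update (i : Fin n) (F : Cfg n → ℝ) :
    ∑ x, (F (Function.update x i true) + F (Function.update x i false)) = 2 * ∑ x, F x := by
  simp_rw [update_sum]
  rw [Finset.sum_add_distrib, sum_flip]
  ring

/-! ### The resampling operators -/

lemma resample_eq (i : Fin n) (f : Cfg n → ℝ) (x : Cfg n) :
    resample J b i f x = cw J b x i true * f (Function.update x i true)
      + cw J b x i false * f (Function.update x i false) := by
  unfold resample cw
  simp

lemma resample_update (i : Fin n) (f : Cfg n → ℝ) (x : Cfg n) (s : Bool) :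
    resample J b i f (Function.update x i s) = resample J b i f x := by
  rw [resample_eq, resample_eq, cw_update, cw_update]
  simp

lemma resample_mul (i : Fin n) (f g : Cfg n → ℝ) (x : Cfg n) :
    resample J b i (fun y => g y * resample J b i f y) x
      = resample J b i g x * resample J b i f x := by
  rw [resample_eq J b i (fun y => g y * resample J b i f y)]
  simp only [resample_update]
  rw [resample_eq J b i g]
  ring

lemma resample_one (i : Fin n) (c : ℝ) (x : Cfg n) :
    resample J b i (fun _ => c) x = c := by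
  rw [resample_eq]
  have := cw_sum J b x i
  linear_combination c * this

lemma resample_idem (i : Fin n) (f : Cfg n → ℝ) (x : Cfg n) :
    resample J b i (fun y => resample J b i f y) x = resample J b i f x := by
  have := resample_mul J b i f (fun _ => 1) x
  simp only [one_mul] at this
  rw [this, resample_one, one_mul]

lemma resample_add (i : Fin n) (f g : Cfg n → ℝ) (x : Cfg n) :
    resample J b i (fun y => f y + g y) x = resample J b i f x + resample J b i g x := by
  simp only [resample_eq]; ring

lemma resample_smul (i : Fin n) (c : ℝ) (f : Cfg n → ℝ) (x : Cfg n) :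
    resample J b i (fun y => c * f y) x = c * resample J b i f x := by
  simp only [resample_eq]; ring

/-- total mass of the pair -/
noncomputable def mass (x : Cfg n) (i : Fin n) : ℝ :=
  gibbs J b (Function.update x i true) + gibbs J b (Function.update x i false)

lemma ex_eq (hJs : ∀ i j, J i j = J j i) (i : Fin n) (F : Cfg n → ℝ) :
    ex J b F = (1 / 2) * ∑ x, mass J b x i * resample J b i F x := by
  have h := sum_update i (fun x => gibbs J b x * F x)
  unfold ex
  have e : ∀ x : Cfg n, gibbs J b (Function.update x i true) * F (Function.update x i true)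
      + gibbs J b (Function.update x i false) * F (Function.update x i false)
      = mass J b x i * resample J b i F x := by
    intro x
    have ht : gibbs J b (Function.update x i true) = cw J b x i true * mass J b x i :=
      detailed J b hJs x i true
    have hf : gibbs J b (Function.update x i false) = cw J b x i false * mass J b x i :=
      detailed J b hJs x i false
    rw [ht, hf, resample_eq]
    ring
  simp only [e] at h
  rw [h]; ring

lemma ex_resample (hJs : ∀ i j, J i j = J j i) (i : Fin n) (F : Cfg n → ℝ) :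
    ex J b (resample J b i F) = ex J b F := by
  rw [ex_eq J b hJs i F, ex_eq J b hJs i (resample J b i F)]
  congr 1
  apply Finset.sum_congr rfl
  intro x _
  rw [resample_idem]

lemma ex_mul_resample (hJs : ∀ i j, J i j = J j i) (i : Fin n) (g f : Cfg n → ℝ) :
    ex J b (fun x => g x * resample J b i f x)
      = ex J b (fun x => resample J b i g x * resample J b i f x) := by
  rw [← ex_resample J b hJs i (fun x => g x * resample J b i f x)]
  congr 1
  ext x
  rw [resample_mul]

lemma ex_mul_resample_comm (hJs : ∀ i j, J i j = J j i) (i : Fin n) (g f : Cfg n → ℝ) :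
    ex J b (fun x => g x * resample J b i f x)
      = ex J b (fun x => resample J b i g x * f x) := by
  rw [ex_mul_resample J b hJs i g f]
  have := ex_mul_resample J b hJs i f g
  simp only [mul_comm (f _)] at this
  rw [this]
  congr 1
  ext x
  ring

/-! ### Linearity of `ex` and `gen` -/

lemma ex_add (f g : Cfg n → ℝ) : ex J b (fun x => f x + g x) = ex J b f + ex J b g := by
  unfold ex; simp only [mul_add, Finset.sum_add_distrib]

lemma ex_sub (f g : Cfg n → ℝ) : ex J b (fun x => f x - g x) = ex J b f - ex J b g := by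
  unfold ex; simp only [mul_sub, Finset.sum_sub_distrib]

lemma ex_smul (c : ℝ) (f : Cfg n → ℝ) : ex J b (fun x => c * f x) = c * ex J b f := by
  unfold ex; rw [Finset.mul_sum]; apply Finset.sum_congr rfl; intro x _; ring

lemma ex_const (c : ℝ) : ex J b (fun _ => c) = c := by
  unfold ex; rw [← Finset.sum_mul, gibbs_sum, one_mul]

lemma ex_sum {ι : Type*} (s : Finset ι) (F : ι → Cfg n → ℝ) :
    ex J b (fun x => ∑ i ∈ s, F i x) = ∑ i ∈ s, ex J b (F i) := by
  unfold ex
  simp only [Finset.mul_sum]
  rw [Finset.sum_comm]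

lemma ex_nonneg {f : Cfg n → ℝ} (hf : ∀ x, 0 ≤ f x) : 0 ≤ ex J b f :=
  Finset.sum_nonneg fun x _ => mul_nonneg (gibbs_pos J b x).le (hf x)

lemma ex_mono {f g : Cfg n → ℝ} (h : ∀ x, f x ≤ g x) : ex J b f ≤ ex J b g :=
  Finset.sum_le_sum fun x _ => mul_le_mul_of_nonneg_left (h x) (gibbs_pos J b x).le

lemma ex_eq_zero {f : Cfg n → ℝ} (hf : ∀ x, 0 ≤ f x) (h : ex J b f = 0) : ∀ x, f x = 0 := by
  intro x
  unfold ex at h
  rw [Finset.sum_eq_zero_iff_of_nonneg (fun x _ => mul_nonneg (gibbs_pos J b x).le (hf x))] at h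
  have := h x (Finset.mem_univ _)
  rcases mul_eq_zero.mp this with h | h
  · exact absurd h (gibbs_pos J b x).ne'
  · exact h

lemma gen_add (f g : Cfg n → ℝ) (x : Cfg n) :
    gen J b (fun y => f y + g y) x = gen J b f x + gen J b g x := by
  unfold gen
  simp only [resample_add]
  rw [← Finset.sum_add_distrib]
  apply Finset.sum_congr rfl; intro i _; ring

lemma gen_smul (c : ℝ) (f : Cfg n → ℝ) (x : Cfg n) :
    gen J b (fun y => c * f y) x = c * gen J b f x := by
  unfold gen
  simp only [resample_smul]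
  rw [Finset.mul_sum]
  apply Finset.sum_congr rfl; intro i _; ring

lemma gen_const (c : ℝ) (x : Cfg n) : gen J b (fun _ => c) x = 0 := by
  unfold gen
  simp [resample_one]

/-- Reversibility. -/
lemma ex_mul_gen (hJs : ∀ i j, J i j = J j i) (f g : Cfg n → ℝ) :
    ex J b (fun x => f x * gen J b g x) = ex J b (fun x => gen J b f x * g x) := by
  unfold gen
  simp only [Finset.mul_sum, Finset.sum_mul, mul_sub, sub_mul]
  rw [ex_sum, ex_sum]
  apply Finset.sum_congr rfl
  intro i _
  rw [ex_sub, ex_sub, ex_mul_resample_comm J b hJs]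

lemma dir_comm (hJs : ∀ i j, J i j = J j i) (f g : Cfg n → ℝ) :
    dir J b f g = dir J b g f := by
  unfold dir
  rw [ex_mul_gen J b hJs]
  congr 2
  ext x; ring

lemma dir_eq_sum (hJs : ∀ i j, J i j = J j i) (f g : Cfg n → ℝ) :
    dir J b f g = ∑ i, ex J b (fun x => (f x - resample J b i f x) * (g x - resample J b i g x)) := by
  unfold dir gen
  simp only [Finset.mul_sum]
  rw [ex_sum, ← Finset.sum_neg_distrib]
  apply Finset.sum_congr rfl
  intro i _
  have h1 : ex J b (fun x => (f x - resample J b i f x) * (g x - resample J b i g x))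
      = ex J b (fun x => f x * g x) - ex J b (fun x => f x * resample J b i g x)
        - ex J b (fun x => resample J b i f x * g x)
        + ex J b (fun x => resample J b i f x * resample J b i g x) := by
    rw [← ex_sub, ← ex_sub, ← ex_add]
    congr 1
    ext x; ring
  have h2 : ex J b (fun x => f x * (resample J b i g x - g x))
      = ex J b (fun x => f x * resample J b i g x) - ex J b (fun x => f x * g x) := by
    rw [← ex_sub]
    congr 1
    ext x; ring
  rw [h1, h2, ← ex_mul_resample_comm J b hJs i f g, ← ex_mul_resample J b hJs i f g]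
  ring

lemma dir_self_nonneg (hJs : ∀ i j, J i j = J j i) (f : Cfg n → ℝ) : 0 ≤ dir J b f f := by
  rw [dir_eq_sum J b hJs]
  exact Finset.sum_nonneg fun i _ => ex_nonneg J b fun x => mul_self_nonneg _

/-- The kernel of the Dirichlet form consists of constants. -/
lemma const_of_dir_eq_zero (hJs : ∀ i j, J i j = J j i) (f : Cfg n → ℝ) (h : dir J b f f = 0)
    (x y : Cfg n) : f y = f x := by
  rw [dir_eq_sum J b hJs, Finset.sum_eq_zero_iff_of_nonneg
    (fun i _ => ex_nonneg J b fun x => mul_self_nonneg _)] at h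
  have h1 : ∀ i (x : Cfg n), f x = resample J b i f x := by
    intro i x
    have := ex_eq_zero J b (fun x => mul_self_nonneg _) (h i (Finset.mem_univ _)) x
    have := mul_self_eq_zero.mp this
    linarith
  have h2 : ∀ (x : Cfg n) i s, f (Function.update x i s) = f x := by
    intro x i s
    rw [h1 i, resample_update, ← h1 i]
  have h3 : ∀ S : Finset (Fin n), f (S.piecewise y x) = f x := by
    intro S
    induction S using Finset.induction_on with
    | empty => simp
    | insert i S hi ih => rw [Finset.piecewise_insert, h2, ih]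
  have := h3 Finset.univ
  simpa using this

/-- Surjectivity of the generator on mean-zero functions. -/
lemma exists_gen_eq (hJs : ∀ i j, J i j = J j i) (f : Cfg n → ℝ) (hf : ex J b f = 0) :
    ∃ g : Cfg n → ℝ, ∀ x, gen J b g x = - f x := by
  let T : (Cfg n → ℝ) →ₗ[ℝ] (Cfg n → ℝ) :=
    { toFun := fun g x => - gen J b g x + ex J b g
      map_add' := by
        intro g h
        ext x
        have h1 := gen_add J b g h x
        have h2 := ex_add J b g h
        simp only [Pi.add_apply]
        have h1' : gen J b (g + h) x = gen J b g x + gen J b h x := h1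
        have h2' : ex J b (g + h) = ex J b g + ex J b h := h2
        rw [h1', h2']; ring
      map_smul' := by
        intro c g
        ext x
        have h1' : gen J b (c • g) x = c * gen J b g x := gen_smul J b c g x
        have h2' : ex J b (c • g) = c * ex J b g := ex_smul J b c g
        simp only [Pi.smul_apply, RingHom.id_apply, smul_eq_mul]
        rw [h1', h2']; ring }
  have hgen0 : ∀ g : Cfg n → ℝ, ex J b (gen J b g) = 0 := by
    intro g
    have := ex_mul_gen J b hJs (fun _ => 1) g
    simp only [one_mul, gen_const, zero_mul] at this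
    have h0 : ex J b (fun _ => (0:ℝ)) = 0 := ex_const J b 0
    rw [h0] at this
    exact this
  have hexT : ∀ g, ex J b (T g) = ex J b g := by
    intro g
    have : ex J b (T g) = ex J b (fun x => ex J b g - gen J b g x) := by
      congr 1
      ext x
      show - gen J b g x + ex J b g = _
      ring
    rw [this, ex_sub J b (fun _ => ex J b g) (gen J b g), ex_const, hgen0]
    ring
  have hinj : Function.Injective T := by
    rw [← LinearMap.ker_eq_bot, LinearMap.ker_eq_bot']
    intro g hg
    have h1 : ex J b g = 0 := by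
      rw [← hexT g, hg]
      exact ex_const J b 0
    have h2 : ∀ x, gen J b g x = 0 := by
      intro x
      have : T g x = 0 := by rw [hg]; rfl
      have h3 : - gen J b g x + ex J b g = 0 := this
      linarith
    have h3 : dir J b g g = 0 := by
      unfold dir
      simp only [h2, mul_zero]
      rw [ex_const]; ring
    have h4 := const_of_dir_eq_zero J b hJs g h3
    ext x
    have h5 : ex J b g = g x := by
      have : g = fun _ => g x := by ext y; exact h4 x y
      rw [this, ex_const]
    show g x = 0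
    rw [← h5, h1]
  have hsurj : Function.Surjective T := LinearMap.injective_iff_surjective.mp hinj
  obtain ⟨g, hg⟩ := hsurj f
  refine ⟨g, fun x => ?_⟩
  have h1 : ex J b g = 0 := by rw [← hexT g, hg, hf]
  have h2 : - gen J b g x + ex J b g = f x := by
    have : T g x = f x := by rw [hg]
    exact this
  linarith

lemma dir_add_left (f g h : Cfg n → ℝ) :
    dir J b (fun x => f x + g x) h = dir J b f h + dir J b g h := by
  unfold dir
  simp only [add_mul]
  rw [ex_add]; ring

lemma dir_add_right (f g h : Cfg n → ℝ) :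
    dir J b h (fun x => f x + g x) = dir J b h f + dir J b h g := by
  unfold dir
  simp only [gen_add, mul_add]
  rw [ex_add]; ring

lemma dir_smul_left (c : ℝ) (f g : Cfg n → ℝ) :
    dir J b (fun x => c * f x) g = c * dir J b f g := by
  unfold dir
  simp only [mul_assoc]
  rw [ex_smul]; ring

lemma dir_smul_right (c : ℝ) (f g : Cfg n → ℝ) :
    dir J b f (fun x => c * g x) = c * dir J b f g := by
  unfold dir
  simp only [gen_smul]
  have : (fun x => f x * (c * gen J b g x)) = fun x => c * (f x * gen J b g x) := by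
    ext x; ring
  rw [this, ex_smul]; ring

/-- Cauchy-Schwarz for the Dirichlet form. -/
lemma dir_cs (hJs : ∀ i j, J i j = J j i) (f g : Cfg n → ℝ) :
    dir J b f g ^ 2 ≤ dir J b f f * dir J b g g := by
  have h : ∀ t : ℝ, 0 ≤ dir J b g g * (t * t) + (2 * dir J b f g) * t + dir J b f f := by
    intro t
    have := dir_self_nonneg J b hJs (fun x => f x + t * g x)
    rw [dir_add_left, dir_add_right J b f (fun x => t * g x) f,
      dir_add_right J b f (fun x => t * g x) (fun x => t * g x), dir_smul_left,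
      dir_smul_left, dir_smul_right, dir_smul_right, dir_comm J b hJs g f] at this
    linarith
  have := discrim_le_zero h
  unfold discrim at this
  linarith only [this]

lemma var_eq (f : Cfg n → ℝ) : var J b f = ex J b (fun x => f x ^ 2) - ex J b f ^ 2 := by
  unfold var
  have : (fun x => (f x - ex J b f) ^ 2)
      = fun x => (f x ^ 2 - 2 * ex J b f * f x) + ex J b f ^ 2 := by
    ext x; ring
  rw [this, ex_add J b (fun x => f x ^ 2 - 2 * ex J b f * f x) (fun _ => ex J b f ^ 2),
    ex_sub J b (fun x => f x ^ 2) (fun x => 2 * ex J b f * f x), ex_smul, ex_const]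
  ring

lemma var_nonneg (f : Cfg n → ℝ) : 0 ≤ var J b f :=
  ex_nonneg J b fun _ => sq_nonneg _

end Poinc

open Poinc

/-- `L²`-Bochner inequality implies the Poincaré inequality. -/
theorem poincare_of_bochner {n : ℕ} {J : Fin n → Fin n → ℝ} {b : Fin n → ℝ}
    (hJs : ∀ i j, J i j = J j i) {gam : ℝ} (hgam : 0 < gam)
    (h : ∀ f : Cfg n → ℝ, gam * dir J b f f ≤ ex J b (fun x => gen J b f x ^ 2))
    (f : Cfg n → ℝ) : gam * var J b f ≤ dir J b f f := by
  -- centre `f`
  set m := ex J b f with hm
  set f0 : Cfg n → ℝ := fun x => f x + (-m) with hf0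
  have hex0 : ex J b f0 = 0 := by
    rw [hf0, ex_add J b f (fun _ => -m), ex_const]; linarith
  have hdir : dir J b f0 f0 = dir J b f f := by
    have h1 : ∀ x, gen J b f0 x = gen J b f x := by
      intro x
      rw [hf0, gen_add J b f (fun _ => -m), gen_const, add_zero]
    have h2 : dir J b f0 f0 = dir J b f0 f := by
      unfold dir
      simp only [h1]
    rw [h2, dir_comm J b hJs]
    unfold dir
    simp only [h1]
  obtain ⟨g, hg⟩ := exists_gen_eq J b hJs f0 hex0
  have hV : var J b f = ex J b (fun x => f0 x ^ 2) := by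
    unfold var
    congr 1
  have hVd : dir J b f0 g = var J b f := by
    rw [hV]
    unfold dir
    simp only [hg]
    have : (fun x => f0 x * -f0 x) = fun x => (-1) * (f0 x ^ 2) := by ext x; ring
    rw [this, ex_smul]; ring
  have hcs := dir_cs J b hJs f0 g
  have hb := h g
  have hgen2 : ex J b (fun x => gen J b g x ^ 2) = var J b f := by
    rw [hV]
    congr 1
    ext x
    rw [hg]; ring
  rw [hgen2] at hb
  rw [hVd, hdir] at hcs
  have hV0 := var_nonneg J b f
  have hD0 := dir_self_nonneg J b hJs f
  have hG0 := dir_self_nonneg J b hJs g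
  rcases hV0.eq_or_lt with hz | hpos
  · rw [← hz, mul_zero]; exact hD0
  · -- V^2 ≤ D * G, gam * G ≤ V
    have h1 : gam * var J b f ^ 2 ≤ dir J b f f * var J b f := by
      calc gam * var J b f ^ 2 ≤ gam * (dir J b f f * dir J b g g) :=
            mul_le_mul_of_nonneg_left hcs hgam.le
        _ = dir J b f f * (gam * dir J b g g) := by ring
        _ ≤ dir J b f f * var J b f := mul_le_mul_of_nonneg_left hb hD0
    have h2 : (gam * var J b f) * var J b f ≤ dir J b f f * var J b f := by
      calc (gam * var J b f) * var J b f = gam * var J b f ^ 2 := by ring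
        _ ≤ _ := h1
    exact le_of_mul_le_mul_right h2 hpos

namespace Poinc

variable {n : ℕ} (J : Fin n → Fin n → ℝ) (b : Fin n → ℝ)

lemma resample_lin (i : Fin n) (v : Fin n → ℝ) (x : Cfg n) :
    (∑ j, v j * sp (x j)) - resample J b i (fun x => ∑ j, v j * sp (x j)) x
      = v i * (sp (x i) - resample J b i (fun x => sp (x i)) x) := by
  have hc := cw_sum J b x i
  have e : ∀ s, (∑ j, v j * sp (Function.update x i s j))
      = (∑ j, v j * sp (x j)) - v i * sp (x i) + v i * sp s := by
    intro s
    have : ∀ j, v j * sp (Function.update x i s j)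
        = v j * sp (x j) + (if j = i then (- v i * sp (x i) + v i * sp s) else 0) := by
      intro j
      by_cases h : j = i
      · subst h; simp
      · simp [h]
    rw [Finset.sum_congr rfl (fun j _ => this j), Finset.sum_add_distrib]
    simp
    ring
  simp only [resample_eq, e, Function.update_self]
  linear_combination (v i * sp (x i) - ∑ j, v j * sp (x j)) * hc

lemma ex_sq_sub_resample (hJs : ∀ i j, J i j = J j i) (i : Fin n) (f : Cfg n → ℝ) :
    ex J b (fun x => (f x - resample J b i f x) * (f x - resample J b i f x))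
      = ex J b (fun x => f x ^ 2) - ex J b (fun x => resample J b i f x ^ 2) := by
  have h1 : ex J b (fun x => (f x - resample J b i f x) * (f x - resample J b i f x))
      = ex J b (fun x => f x ^ 2) - 2 * ex J b (fun x => f x * resample J b i f x)
        + ex J b (fun x => resample J b i f x ^ 2) := by
    rw [← ex_smul, ← ex_sub, ← ex_add]
    congr 1
    ext x; ring
  have h2 : ex J b (fun x => f x * resample J b i f x)
      = ex J b (fun x => resample J b i f x ^ 2) := by
    rw [ex_mul_resample J b hJs]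
    congr 1
    ext x; ring
  rw [h1, h2]; ring

/-- The Dirichlet form of a linear function. -/
lemma dir_lin_le (hJs : ∀ i j, J i j = J j i) (v : Fin n → ℝ) :
    dir J b (fun x => ∑ j, v j * sp (x j)) (fun x => ∑ j, v j * sp (x j)) ≤ ∑ i, v i ^ 2 := by
  rw [dir_eq_sum J b hJs]
  apply Finset.sum_le_sum
  intro i _
  simp only [resample_lin]
  have h1 : ex J b (fun x => v i * (sp (x i) - resample J b i (fun x => sp (x i)) x) *
      (v i * (sp (x i) - resample J b i (fun x => sp (x i)) x)))
      = v i ^ 2 * ex J b (fun x => (sp (x i) - resample J b i (fun x => sp (x i)) x) *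
        (sp (x i) - resample J b i (fun x => sp (x i)) x)) := by
    rw [← ex_smul]
    congr 1
    ext x; ring
  rw [h1, ex_sq_sub_resample J b hJs i (fun x => sp (x i))]
  have h2 : ex J b (fun x => sp (x i) ^ 2) = 1 := by
    simp only [sp_sq]
    exact ex_const J b 1
  have h3 : 0 ≤ ex J b (fun x => resample J b i (fun x => sp (x i)) x ^ 2) :=
    ex_nonneg J b fun _ => sq_nonneg _
  rw [h2]
  linarith only [mul_nonneg (sub_nonneg.2 h3) (sq_nonneg (v i))]

lemma var_sp_ne_zero (i : Fin n) : var J b (fun x => sp (x i)) ≠ 0 := by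
  intro h
  have h1 := ex_eq_zero J b (fun x => sq_nonneg _) h
  have ht := h1 (fun _ => true)
  have hf := h1 (fun _ => false)
  simp only [sp] at ht hf
  have ht' := pow_eq_zero_iff (two_ne_zero) |>.mp ht
  have hf' := pow_eq_zero_iff (two_ne_zero) |>.mp hf
  simp at ht' hf'
  linarith only [hf', ht']

/-- With zero external field the Gibbs measure is symmetric. -/
lemma gibbs_neg (x : Cfg n) : gibbs J (fun _ => 0) (fun i => !(x i)) = gibbs J (fun _ => 0) x := by
  unfold gibbs energy
  congr 1
  congr 1
  simp only [zero_mul, Finset.sum_const_zero, add_zero]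
  apply Finset.sum_congr rfl; intro i _
  apply Finset.sum_congr rfl; intro j _
  simp only [sp_not]
  by_cases h : i < j
  · simp only [h, if_true]; ring
  · simp [h]

lemma ex_sp_zero (i : Fin n) : ex J (fun _ => 0) (fun x => sp (x i)) = 0 := by
  have h : ex J (fun _ => 0) (fun x => sp (x i)) = - ex J (fun _ => 0) (fun x => sp (x i)) := by
    conv_lhs => unfold ex
    rw [← Finset.sum_bij' (s := Finset.univ) (t := Finset.univ)
      (f := fun x : Cfg n => gibbs J (fun _ => 0) (fun i => !(x i)) * sp (!(x i)))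
      (fun (x : Cfg n) _ => fun i => !(x i)) (fun (x : Cfg n) _ => fun i => !(x i))
      (by intros; simp) (by intros; simp) (by intros; simp) (by intros; simp) (by intros; rfl)]
    unfold ex
    rw [← Finset.sum_neg_distrib]
    apply Finset.sum_congr rfl
    intro x _
    rw [gibbs_neg, sp_not]; ring
  linarith

end Poinc

/-- A Poincaré inequality bounds the gap from below. -/
theorem le_gap {n : ℕ} (hn : 0 < n) {J : Fin n → Fin n → ℝ} {b : Fin n → ℝ} {gam : ℝ}
    (h : ∀ f : Cfg n → ℝ, gam * var J b f ≤ dir J b f f) : gam ≤ gap J b := by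
  unfold gap
  apply le_csInf
  · exact ⟨_, (fun x => sp (x ⟨0, hn⟩)), var_sp_ne_zero J b ⟨0, hn⟩, rfl⟩
  · rintro r ⟨f, hf, rfl⟩
    have hpos : 0 < var J b f := lt_of_le_of_ne (var_nonneg J b f) (Ne.symm hf)
    rw [le_div_iff₀ hpos]
    exact h f

theorem gap_le {n : ℕ} {J : Fin n → Fin n → ℝ} {b : Fin n → ℝ} (hJs : ∀ i j, J i j = J j i)
    (f : Cfg n → ℝ) (hf : var J b f ≠ 0) : gap J b ≤ dir J b f f / var J b f := by
  unfold gap
  apply csInf_le
  · refine ⟨0, ?_⟩
    rintro r ⟨f, hf, rfl⟩
    exact div_nonneg (dir_self_nonneg J b hJs f) (var_nonneg J b f)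
  · exact ⟨f, hf, rfl⟩

/-- With zero external field, the gap is at most one. -/
theorem gap_le_one {n : ℕ} (hn : 0 < n) {J : Fin n → Fin n → ℝ} (hJs : ∀ i j, J i j = J j i) :
    gap J (fun _ => 0) ≤ 1 := by
  set i : Fin n := ⟨0, hn⟩
  have h1 := gap_le (b := fun _ => 0) hJs (fun x => sp (x i)) (var_sp_ne_zero J _ i)
  have h2 : var J (fun _ => 0) (fun x => sp (x i)) = 1 := by
    rw [Vale.Agent.P150.Poinc.var_eq, ex_sp_zero]
    simp only [Vale.Agent.P150.Poinc.sp_sq]
    rw [ex_const]; ring
  have h3 := dir_lin_le J (fun _ => 0) hJs (fun j => if j = i then 1 else 0)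
  have h4 : (fun x : Cfg n => ∑ j, (if j = i then (1:ℝ) else 0) * sp (x j)) = fun x => sp (x i) := by
    ext x; simp
  rw [h4] at h3
  have h5 : (∑ j, (if j = i then (1:ℝ) else 0) ^ 2) = 1 := by simp
  rw [h5] at h3
  rw [h2, div_one] at h1
  exact h1.trans h3

/-- Poincaré inequality implies a covariance bound. -/
theorem cov_le {n : ℕ} {J : Fin n → Fin n → ℝ} {b : Fin n → ℝ} (hJs : ∀ i j, J i j = J j i)
    {gam : ℝ} (hgam : 0 < gam) (h : ∀ f : Cfg n → ℝ, gam * var J b f ≤ dir J b f f)
    (v : Fin n → ℝ) : var J b (fun x => ∑ i, v i * sp (x i)) ≤ gam⁻¹ * ∑ i, v i ^ 2 := by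
  have h1 := (h (fun x => ∑ i, v i * sp (x i))).trans (dir_lin_le J b hJs v)
  rw [inv_mul_eq_div, le_div_iff₀ hgam]
  linarith

end Vale.Agent.P150
end

section

open Filter Topology Set

namespace Vale.Agent.P150.Chan

/-- the coercive penalty -/
noncomputable def rho {m : ℕ} (y : Fin m → ℝ) : ℝ := ∑ k, Real.sqrt (1 + y k ^ 2)

lemma abs_le_rho {m : ℕ} (y : Fin m → ℝ) (k : Fin m) : |y k| ≤ rho y := by
  have h1 : |y k| ≤ Real.sqrt (1 + y k ^ 2) := by
    apply Real.le_sqrt_of_sq_le
    rw [sq_abs]; linarith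
  have h2 : Real.sqrt (1 + y k ^ 2) ≤ rho y :=
    Finset.single_le_sum (f := fun k => Real.sqrt (1 + y k ^ 2)) (fun _ _ => Real.sqrt_nonneg _)
      (Finset.mem_univ k)
  linarith

lemma rho_nonneg {m : ℕ} (y : Fin m → ℝ) : 0 ≤ rho y :=
  Finset.sum_nonneg (fun _ _ => Real.sqrt_nonneg _)

lemma norm_le_rho {m : ℕ} (y : Fin m → ℝ) : ‖y‖ ≤ rho y := by
  rw [pi_norm_le_iff_of_nonneg (rho_nonneg y)]
  intro i
  rw [Real.norm_eq_abs]
  exact abs_le_rho y i

lemma continuous_rho {m : ℕ} : Continuous (rho (m := m)) := by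
  unfold rho
  fun_prop

/-- existence of a touching point for the penalized function -/
theorem exists_touch {m : ℕ} (F : ℝ → (Fin m → ℝ) → ℝ) (M Λ : ℝ) (hΛ : 0 ≤ Λ)
    (hcont : ContinuousOn (fun p : ℝ × (Fin m → ℝ) => F p.1 p.2) (Icc 0 1 ×ˢ univ))
    (hM : ∀ s ∈ Icc (0:ℝ) 1, ∀ y, -M ≤ F s y)
    (h0 : ∀ y, 0 ≤ F 0 y)
    (s₁ : ℝ) (hs₁ : s₁ ∈ Icc (0:ℝ) 1) (y₁ : Fin m → ℝ) (hneg : F s₁ y₁ < 0) :
    ∃ η > 0, ∃ c < 0, ∃ s₀ ∈ Ioc (0:ℝ) 1, ∃ y₀ : Fin m → ℝ,
      F s₀ y₀ + η * (rho y₀ + Λ * s₀) = c ∧
      ∀ s ∈ Icc (0:ℝ) 1, ∀ y, c ≤ F s y + η * (rho y + Λ * s) := by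
  -- choose η
  set A := rho y₁ + Λ * s₁ with hA
  have hA0 : 0 ≤ A := add_nonneg (rho_nonneg _) (mul_nonneg hΛ hs₁.1)
  set η := (-F s₁ y₁) / (2 * (A + 1)) with hη
  have hηpos : 0 < η := by
    apply div_pos <;> linarith
  have hηA : η * A < -F s₁ y₁ := by
    have h1 : η * (A + 1) = (-F s₁ y₁) / 2 := by
      rw [hη]; field_simp
    linarith only [h1, hηpos, hneg]
  have hg1 : F s₁ y₁ + η * A < 0 := by linarith
  -- the penalized function
  let g : ℝ × (Fin m → ℝ) → ℝ := fun p => F p.1 p.2 + η * (rho p.2 + Λ * p.1)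
  have hgcont : ContinuousOn g (Icc 0 1 ×ˢ univ) := by
    apply hcont.add
    apply Continuous.continuousOn
    have := continuous_rho (m := m)
    fun_prop
  set R := max (‖y₁‖) (|M| / η) with hR
  have hK : IsCompact (Icc (0:ℝ) 1 ×ˢ Metric.closedBall (0 : Fin m → ℝ) R) :=
    isCompact_Icc.prod (isCompact_closedBall _ _)
  have hmem1 : (s₁, y₁) ∈ Icc (0:ℝ) 1 ×ˢ Metric.closedBall (0 : Fin m → ℝ) R := by
    refine ⟨hs₁, ?_⟩
    simp only [Metric.mem_closedBall, dist_zero_right]
    exact le_max_left _ _
  obtain ⟨p₀, hp₀, hmin⟩ := hK.exists_isMinOn ⟨_, hmem1⟩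
    (hgcont.mono (prod_mono_right (subset_univ _)))
  have hgp₀ : g p₀ < 0 := lt_of_le_of_lt (hmin hmem1) hg1
  have hs₀ : p₀.1 ∈ Icc (0:ℝ) 1 := hp₀.1
  refine ⟨η, hηpos, g p₀, hgp₀, p₀.1, ⟨?_, hs₀.2⟩, p₀.2, rfl, ?_⟩
  · -- s₀ > 0
    rcases lt_or_eq_of_le hs₀.1 with h | h
    · exact h
    · exfalso
      have h1 : 0 ≤ g p₀ := by
        change 0 ≤ F p₀.1 p₀.2 + η * (rho p₀.2 + Λ * p₀.1)
        rw [← h]
        have := h0 p₀.2
        have := rho_nonneg p₀.2
        have : 0 ≤ η * (rho p₀.2 + Λ * 0) := by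
          apply mul_nonneg hηpos.le; simpa using this
        linarith
      linarith only [h1, hgp₀]
  · intro s hs y
    by_cases hy : ‖y‖ ≤ R
    · exact hmin (show (s, y) ∈ Icc (0:ℝ) 1 ×ˢ Metric.closedBall (0 : Fin m → ℝ) R from
        ⟨hs, by simpa using hy⟩)
    · push Not at hy
      have h1 : |M| / η < ‖y‖ := lt_of_le_of_lt (le_max_right _ _) hy
      have h2 : |M| < η * ‖y‖ := by
        rw [div_lt_iff₀ hηpos] at h1; linarith only [h1]
      have h3 := hM s hs y
      have h4 := norm_le_rho y
      have h5 : 0 ≤ Λ * s := mul_nonneg hΛ hs.1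
      have h6 : η * ‖y‖ ≤ η * (rho y + Λ * s) := by
        apply mul_le_mul_of_nonneg_left _ hηpos.le; linarith only [h5, h4]
      have h7 := le_abs_self M
      linarith only [h7, h6, h3, h2, hgp₀]

/-- first order condition at a left minimum -/
lemma deriv_nonpos_of_left_min {φ : ℝ → ℝ} {φ' s₀ : ℝ} (h : HasDerivAt φ φ' s₀) (hs₀ : 0 < s₀)
    (hmin : ∀ s ∈ Icc 0 s₀, φ s₀ ≤ φ s) : φ' ≤ 0 := by
  by_contra hcon
  push Not at hcon
  have h1 : Tendsto (fun s => (s - s₀)⁻¹ • (φ s - φ s₀)) (𝓝[≠] s₀) (𝓝 φ') := by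
    exact hasDerivAt_iff_tendsto_slope.1 h
  have h2 : Tendsto (fun s => (s - s₀)⁻¹ • (φ s - φ s₀)) (𝓝[<] s₀) (𝓝 φ') :=
    h1.mono_left (nhdsWithin_mono _ (fun x hx => ne_of_lt hx))
  have h3 : ∀ᶠ s in 𝓝[<] s₀, (s - s₀)⁻¹ • (φ s - φ s₀) ≤ 0 := by
    have : Ioo 0 s₀ ∈ 𝓝[<] s₀ := Ioo_mem_nhdsLT hs₀
    filter_upwards [this] with s hs
    have h4 : (s - s₀)⁻¹ ≤ 0 := inv_nonpos.2 (by linarith [hs.2])
    have h5 : 0 ≤ φ s - φ s₀ := by linarith [hmin s ⟨hs.1.le, hs.2.le⟩]
    exact mul_nonpos_of_nonpos_of_nonneg h4 h5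
  have : φ' ≤ 0 := le_of_tendsto h2 h3
  linarith

/-- second order condition at a minimum -/
lemma second_deriv_nonneg_of_min {φ φ1 : ℝ → ℝ} {φ2 : ℝ} (h1 : ∀ r, HasDerivAt φ (φ1 r) r)
    (h2 : HasDerivAt φ1 φ2 0) (hmin : ∀ r, φ 0 ≤ φ r) : 0 ≤ φ2 := by
  have hloc : IsLocalMin φ 0 := Eventually.of_forall hmin
  have hz : φ1 0 = 0 := hloc.hasDerivAt_eq_zero (h1 0)
  by_contra hcon
  push Not at hcon
  -- φ1 r < 0 for small r > 0
  have h3 : Tendsto (fun r => (r - 0)⁻¹ • (φ1 r - φ1 0)) (𝓝[≠] 0) (𝓝 φ2) :=
    hasDerivAt_iff_tendsto_slope.1 h2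
  have h4 : Tendsto (fun r => (r - 0)⁻¹ • (φ1 r - φ1 0)) (𝓝[>] 0) (𝓝 φ2) :=
    h3.mono_left (nhdsWithin_mono _ (fun x hx => ne_of_gt hx))
  have h5 : ∀ᶠ r in 𝓝[>] (0:ℝ), (r - 0)⁻¹ • (φ1 r - φ1 0) < 0 := h4.eventually (gt_mem_nhds hcon)
  obtain ⟨δ, hδ, hδ'⟩ := mem_nhdsGT_iff_exists_Ioo_subset.1 h5
  have hδpos : (0:ℝ) < δ := hδ
  have h6 : ∀ r ∈ Ioo (0:ℝ) δ, φ1 r < 0 := by
    intro r hr
    have := hδ' hr
    simp only [mem_ofPred_eq, smul_eq_mul, hz, sub_zero] at this
    have hr0 : 0 < r⁻¹ := inv_pos.2 hr.1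
    by_contra hc
    push Not at hc
    have := mul_nonneg hr0.le hc
    linarith
  have hanti : StrictAntiOn φ (Icc 0 (δ/2)) := by
    apply strictAntiOn_of_deriv_neg (convex_Icc _ _)
    · exact fun r _ => (h1 r).continuousAt.continuousWithinAt
    · intro r hr
      rw [interior_Icc] at hr
      rw [(h1 r).deriv]
      exact h6 r ⟨hr.1, by linarith [hr.2]⟩
  have h7 : φ (δ/2) < φ 0 := hanti ⟨le_refl _, by linarith⟩ ⟨by linarith, le_refl _⟩ (by linarith)
  linarith [hmin (δ/2)]

end Vale.Agent.P150.Chan
end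

section

open Filter Topology Set

namespace Vale.Agent.P150.Chan

lemma hasDerivAt_ent1 {U V Z : ℝ → ℝ} {U' V' Z' r : ℝ}
    (hU : HasDerivAt U U' r) (hV : HasDerivAt V V' r) (hZ : HasDerivAt Z Z' r)
    (hU0 : 0 < U r) (hZ0 : 0 < Z r) :
    HasDerivAt (fun r => V r - U r * (Real.log (U r) - Real.log (Z r)))
      (V' - U' * (Real.log (U r) - Real.log (Z r)) - U' + U r * Z' / Z r) r := by
  have h1 := hV.sub (hU.mul ((hU.log hU0.ne').sub (hZ.log hZ0.ne')))
  refine h1.congr_deriv ?_
  simp only [Pi.sub_apply]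
  field_simp
  ring

lemma hasDerivAt_ent2 {U Z U1 V1 Z1 : ℝ → ℝ} {U2 V2 Z2 r : ℝ}
    (hU : HasDerivAt U (U1 r) r) (hZ : HasDerivAt Z (Z1 r) r)
    (hU1 : HasDerivAt U1 U2 r) (hV1 : HasDerivAt V1 V2 r) (hZ1 : HasDerivAt Z1 Z2 r)
    (hU0 : 0 < U r) (hZ0 : 0 < Z r) :
    HasDerivAt (fun r => V1 r - U1 r * (Real.log (U r) - Real.log (Z r)) - U1 r
        + U r * Z1 r / Z r)
      (V2 - U2 * (1 + (Real.log (U r) - Real.log (Z r))) + U r / Z r * Z2
        - U r * (U1 r / U r - Z1 r / Z r) ^ 2) r := by
  have h1 := ((hV1.sub (hU1.mul ((hU.log hU0.ne').sub (hZ.log hZ0.ne')))).sub hU1).add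
    ((hU.mul hZ1).div hZ hZ0.ne')
  refine h1.congr_deriv ?_
  simp only [Pi.mul_apply, Pi.sub_apply]
  field_simp
  ring

lemma hasDerivAt_sig (a r : ℝ) :
    HasDerivAt (fun r => Real.sqrt (1 + (a + r) ^ 2)) ((a + r) / Real.sqrt (1 + (a + r) ^ 2)) r := by
  have h0 : HasDerivAt (fun r : ℝ => 1 + (a + r) ^ 2) (2 * (a + r)) r := by
    have := (((hasDerivAt_id r).const_add a).pow 2).const_add 1
    refine this.congr_deriv ?_
    simp
  have hpos : (1 + (a + r) ^ 2) ≠ 0 := by positivity
  refine (h0.sqrt hpos).congr_deriv ?_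
  rw [mul_div_mul_left _ _ (two_ne_zero)]

lemma hasDerivAt_sig2 (a r : ℝ) :
    HasDerivAt (fun r => (a + r) / Real.sqrt (1 + (a + r) ^ 2))
      (1 / (Real.sqrt (1 + (a + r) ^ 2)) ^ 3) r := by
  have hpos : (0:ℝ) < 1 + (a + r) ^ 2 := by positivity
  have hs : 0 < Real.sqrt (1 + (a + r) ^ 2) := Real.sqrt_pos.2 hpos
  have h1 : HasDerivAt (fun r : ℝ => a + r) 1 r := (hasDerivAt_id r).const_add a
  have h2 := h1.div (hasDerivAt_sig a r) hs.ne'
  refine h2.congr_deriv ?_
  have hsq : Real.sqrt (1 + (a + r) ^ 2) ^ 2 = 1 + (a + r) ^ 2 := Real.sq_sqrt hpos.le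
  rw [div_eq_div_iff (by positivity) (by positivity)]
  have h3 : (1 * Real.sqrt (1 + (a + r) ^ 2) - (a + r) * ((a + r) / Real.sqrt (1 + (a + r) ^ 2)))
      * Real.sqrt (1 + (a + r) ^ 2) = 1 := by
    field_simp
    rw [hsq]; ring
  calc _ = ((1 * Real.sqrt (1 + (a + r) ^ 2) - (a + r) * ((a + r) / Real.sqrt (1 + (a + r) ^ 2)))
      * Real.sqrt (1 + (a + r) ^ 2)) * Real.sqrt (1 + (a + r) ^ 2) ^ 2 := by ring
    _ = _ := by rw [h3]

lemma sig1_abs_le (a r : ℝ) : |(a + r) / Real.sqrt (1 + (a + r) ^ 2)| ≤ 1 := by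
  have hpos : (0:ℝ) < 1 + (a + r) ^ 2 := by positivity
  have hs : 0 < Real.sqrt (1 + (a + r) ^ 2) := Real.sqrt_pos.2 hpos
  rw [abs_div, abs_of_pos hs, div_le_one hs]
  apply Real.le_sqrt_of_sq_le
  rw [sq_abs]; linarith

lemma sig2_le (a r : ℝ) : 1 / (Real.sqrt (1 + (a + r) ^ 2)) ^ 3 ≤ 1 := by
  have h1 : 1 ≤ Real.sqrt (1 + (a + r) ^ 2) := by
    rw [Real.one_le_sqrt]
    linarith only [sq_nonneg (a + r)]
  rw [div_le_one (by positivity)]
  exact one_le_pow₀ h1

lemma rho_shift {m : ℕ} (y : Fin m → ℝ) (k : Fin m) (r : ℝ) :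
    rho (y + Pi.single k r) = (rho y - Real.sqrt (1 + y k ^ 2)) + Real.sqrt (1 + (y k + r) ^ 2) := by
  unfold rho
  rw [← Finset.add_sum_erase _ _ (Finset.mem_univ k), ← Finset.add_sum_erase (a := k) _
    (fun k => Real.sqrt (1 + y k ^ 2)) (Finset.mem_univ k)]
  have : ∑ j ∈ Finset.univ.erase k, Real.sqrt (1 + (y + Pi.single k r : Fin m → ℝ) j ^ 2)
      = ∑ j ∈ Finset.univ.erase k, Real.sqrt (1 + y j ^ 2) := by
    apply Finset.sum_congr rfl
    intro j hj
    rw [Pi.add_apply, Pi.single_eq_of_ne (Finset.ne_of_mem_erase hj), add_zero]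
  rw [this]
  simp only [Pi.add_apply, Pi.single_eq_same]
  ring

end Vale.Agent.P150.Chan
end

section

open MeasureTheory ProbabilityTheory

namespace Vale.Agent.P367.GT

variable {S ι : Type*} [Fintype S] [Nonempty S] [Fintype ι]

/-- linear form -/
noncomputable def zf (v : S → ι → ℝ) (J : ι → ℝ) (s : S) : ℝ := ∑ e, v s e * J e

/-- partition function -/
noncomputable def part (v : S → ι → ℝ) (J : ι → ℝ) : ℝ := ∑ s, Real.exp (zf v J s)

/-- Gibbs weights -/
noncomputable def pp (v : S → ι → ℝ) (J : ι → ℝ) (s : S) : ℝ := Real.exp (zf v J s) / part v J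

omit [Fintype S] [Nonempty S] in
lemma continuous_zf (v : S → ι → ℝ) (s : S) : Continuous fun J => zf v J s := by
  unfold zf; fun_prop

lemma part_pos (v : S → ι → ℝ) (J : ι → ℝ) : 0 < part v J :=
  Finset.sum_pos (fun _ _ => Real.exp_pos _) Finset.univ_nonempty

omit [Nonempty S] in
lemma continuous_part (v : S → ι → ℝ) : Continuous fun J => part v J := by
  unfold part
  exact continuous_finsetSum _ fun s _ => Real.continuous_exp.comp (continuous_zf v s)

lemma continuous_pp (v : S → ι → ℝ) (s : S) : Continuous fun J => pp v J s := by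
  unfold pp
  exact (Real.continuous_exp.comp (continuous_zf v s)).div (continuous_part v)
    fun J => (part_pos v J).ne'

lemma pp_nonneg (v : S → ι → ℝ) (J : ι → ℝ) (s : S) : 0 ≤ pp v J s :=
  div_nonneg (Real.exp_pos _).le (part_pos v J).le

lemma sum_pp (v : S → ι → ℝ) (J : ι → ℝ) : ∑ s, pp v J s = 1 := by
  unfold pp
  rw [← Finset.sum_div]
  exact div_self (part_pos v J).ne'

lemma pp_le_one (v : S → ι → ℝ) (J : ι → ℝ) (s : S) : pp v J s ≤ 1 := by
  rw [← sum_pp v J]
  exact Finset.single_le_sum (fun t _ => pp_nonneg v J t) (Finset.mem_univ s)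

lemma softmax_deriv (z : S → ℝ → ℝ) (z' : S → ℝ) (x : ℝ) (hz : ∀ s, HasDerivAt (z s) (z' s) x)
    (s : S) :
    HasDerivAt (fun y => Real.exp (z s y) / ∑ t, Real.exp (z t y))
      ((Real.exp (z s x) / ∑ t, Real.exp (z t x)) *
        (z' s - ∑ t, (Real.exp (z t x) / ∑ r, Real.exp (z r x)) * z' t)) x := by
  have h1 : HasDerivAt (fun y => Real.exp (z s y)) (Real.exp (z s x) * z' s) x := (hz s).exp
  have h2 : HasDerivAt (fun y => ∑ t, Real.exp (z t y)) (∑ t, Real.exp (z t x) * z' t) x :=
    HasDerivAt.fun_sum fun t _ => (hz t).exp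
  have hpos : 0 < ∑ t, Real.exp (z t x) :=
    Finset.sum_pos (fun _ _ => Real.exp_pos _) Finset.univ_nonempty
  have h3 := h1.div h2 hpos.ne'
  have h4 : (Real.exp (z s x) * z' s * (∑ t, Real.exp (z t x))
      - Real.exp (z s x) * (∑ t, Real.exp (z t x) * z' t)) / (∑ t, Real.exp (z t x)) ^ 2
      = (Real.exp (z s x) / ∑ t, Real.exp (z t x)) *
        (z' s - ∑ t, (Real.exp (z t x) / ∑ r, Real.exp (z r x)) * z' t) := by
    have h5 : ∑ t, (Real.exp (z t x) / ∑ r, Real.exp (z r x)) * z' t
        = (∑ t, Real.exp (z t x) * z' t) / ∑ r, Real.exp (z r x) := by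
      rw [Finset.sum_div]
      apply Finset.sum_congr rfl
      intro t _
      ring
    rw [h5]
    field_simp
  rw [← h4]
  exact h3

lemma log_deriv (z : S → ℝ → ℝ) (z' : S → ℝ) (x : ℝ) (hz : ∀ s, HasDerivAt (z s) (z' s) x) :
    HasDerivAt (fun y => Real.log (∑ t, Real.exp (z t y)))
      (∑ t, (Real.exp (z t x) / ∑ r, Real.exp (z r x)) * z' t) x := by
  have h2 : HasDerivAt (fun y => ∑ t, Real.exp (z t y)) (∑ t, Real.exp (z t x) * z' t) x :=
    HasDerivAt.fun_sum fun t _ => (hz t).exp
  have hpos : 0 < ∑ t, Real.exp (z t x) :=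
    Finset.sum_pos (fun _ _ => Real.exp_pos _) Finset.univ_nonempty
  have h3 := h2.log hpos.ne'
  rw [Finset.sum_div] at h3
  refine h3.congr_deriv ?_
  apply Finset.sum_congr rfl
  intro t _
  ring

lemma integrable_coord (e : ι) : Integrable (fun J : ι → ℝ => J e) (gM ι) :=
  integrable_comp_eval (μ := fun _ : ι => gaussianReal 0 1) (i := e) (f := fun x => x)
    ((memLp_id_gaussianReal 1).integrable le_rfl)

omit [Fintype S] [Nonempty S] in
lemma integrable_zf (v : S → ι → ℝ) (s : S) : Integrable (fun J => zf v J s) (gM ι) := by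
  unfold zf
  exact integrable_finsetSum _ fun e _ => (integrable_coord e).const_mul _

/-- Integration by parts for Gibbs weights. -/
lemma ibp (v : S → ι → ℝ) (c : ι → ℝ) (s : S) :
    ∫ J, (∑ e, c e * J e) * pp v J s ∂(gM ι)
      = ∫ J, pp v J s * ((∑ e, c e * v s e) - ∑ t, pp v J t * ∑ e, c e * v t e) ∂(gM ι) := by
  classical
  have hone : ∀ e, ∫ J, J e * pp v J s ∂(gM ι)
      = ∫ J, pp v J s * (v s e - ∑ t, pp v J t * v t e) ∂(gM ι) := by
    intro e
    have hcont : Continuous fun J => pp v J s * (v s e - ∑ t, pp v J t * v t e) := by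
      refine (continuous_pp v s).mul (continuous_const.sub ?_)
      exact continuous_finsetSum _ fun t _ => (continuous_pp v t).mul continuous_const
    apply stein_pi e (fun J => pp v J s)
      (fun J => pp v J s * (v s e - ∑ t, pp v J t * v t e))
      (1 + |v s e| + ∑ t, |v t e|) (continuous_pp v s).measurable hcont.measurable
    · intro J x
      have hz : ∀ t, HasDerivAt (fun y => zf v (Function.update J e y) t) (v t e) x := by
        intro t
        unfold zf
        have h1 : HasDerivAt (fun y => ∑ e', v t e' * Function.update J e y e')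
            (∑ e', v t e' * (Pi.single e (1 : ℝ) : ι → ℝ) e') x := by
          apply HasDerivAt.fun_sum
          intro e' _
          exact ((hasDerivAt_pi.mp (hasDerivAt_update J e x)) e').const_mul _
        have h2 : ∑ e', v t e' * (Pi.single e (1 : ℝ) : ι → ℝ) e' = v t e := by
          simp [Pi.single_apply]
        rw [h2] at h1
        exact h1
      exact softmax_deriv (fun t y => zf v (Function.update J e y) t) (fun t => v t e) x hz s
    · intro J
      rw [abs_of_nonneg (pp_nonneg v J s)]
      have := pp_le_one v J s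
      have h2 := abs_nonneg (v s e)
      have h3 : 0 ≤ ∑ t, |v t e| := Finset.sum_nonneg fun t _ => abs_nonneg _
      linarith only [h3, h2, this]
    · intro J
      rw [abs_mul, abs_of_nonneg (pp_nonneg v J s)]
      have h1 : |v s e - ∑ t, pp v J t * v t e| ≤ |v s e| + ∑ t, |v t e| := by
        refine (abs_sub _ _).trans ?_
        have h2 : |∑ t, pp v J t * v t e| ≤ ∑ t, |v t e| := by
          refine (Finset.abs_sum_le_sum_abs _ _).trans (Finset.sum_le_sum fun t _ => ?_)
          rw [abs_mul, abs_of_nonneg (pp_nonneg v J t)]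
          exact mul_le_of_le_one_left (abs_nonneg _) (pp_le_one v J t)
        linarith
      have h3 := pp_le_one v J s
      have h4 := pp_nonneg v J s
      have h5 := abs_nonneg (v s e - ∑ t, pp v J t * v t e)
      (by_contra nlg; linarith only [mul_nonneg (le_of_lt (sub_pos.2 (not_le.1 nlg))) (sub_nonneg.2 h3), mul_nonneg (le_of_lt (sub_pos.2 (not_le.1 nlg))) (sub_nonneg.2 h4), mul_nonneg (sub_nonneg.2 h1) (sub_nonneg.2 h3), mul_nonneg (sub_nonneg.2 h1) (sub_nonneg.2 h4), mul_nonneg (sub_nonneg.2 h3) (sub_nonneg.2 h5)])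
  have hint1 : ∀ e, Integrable (fun J : ι → ℝ => J e * pp v J s) (gM ι) := by
    intro e
    have := (integrable_coord e).bdd_mul (c := 1) (f := fun J => pp v J s)
      (continuous_pp v s).measurable.aestronglyMeasurable
      (Filter.Eventually.of_forall fun J => by
        rw [Real.norm_eq_abs, abs_of_nonneg (pp_nonneg v J s)]; exact pp_le_one v J s)
    refine this.congr (Filter.Eventually.of_forall fun J => ?_)
    simp only [mul_comm]
  have hint2 : ∀ e, Integrable (fun J : ι → ℝ => pp v J s * (v s e - ∑ t, pp v J t * v t e))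
      (gM ι) := by
    intro e
    have hcont : Continuous fun J => pp v J s * (v s e - ∑ t, pp v J t * v t e) := by
      refine (continuous_pp v s).mul (continuous_const.sub ?_)
      exact continuous_finsetSum _ fun t _ => (continuous_pp v t).mul continuous_const
    refine Integrable.mono' (integrable_const (|v s e| + ∑ t, |v t e|))
      hcont.measurable.aestronglyMeasurable (Filter.Eventually.of_forall fun J => ?_)
    rw [Real.norm_eq_abs, abs_mul, abs_of_nonneg (pp_nonneg v J s)]
    have h1 : |v s e - ∑ t, pp v J t * v t e| ≤ |v s e| + ∑ t, |v t e| := by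
      refine (abs_sub _ _).trans ?_
      have h2 : |∑ t, pp v J t * v t e| ≤ ∑ t, |v t e| := by
        refine (Finset.abs_sum_le_sum_abs _ _).trans (Finset.sum_le_sum fun t _ => ?_)
        rw [abs_mul, abs_of_nonneg (pp_nonneg v J t)]
        exact mul_le_of_le_one_left (abs_nonneg _) (pp_le_one v J t)
      linarith
    have h3 := pp_le_one v J s
    have h4 := pp_nonneg v J s
    have h5 := abs_nonneg (v s e - ∑ t, pp v J t * v t e)
    linarith [mul_nonneg (sub_nonneg.2 h3) (sub_nonneg.2 h5), mul_nonneg (sub_nonneg.2 h1) (sub_nonneg.2 h4), mul_nonneg (sub_nonneg.2 h1) (sub_nonneg.2 h3)]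
  calc ∫ J, (∑ e, c e * J e) * pp v J s ∂(gM ι)
      = ∫ J, ∑ e, c e * (J e * pp v J s) ∂(gM ι) := by
        congr 1; funext J
        rw [Finset.sum_mul]
        apply Finset.sum_congr rfl
        intro e _; ring
    _ = ∑ e, c e * ∫ J, J e * pp v J s ∂(gM ι) := by
        rw [integral_finsetSum _ fun e _ => (hint1 e).const_mul _]
        simp only [integral_const_mul]
    _ = ∑ e, c e * ∫ J, pp v J s * (v s e - ∑ t, pp v J t * v t e) ∂(gM ι) := by
        simp only [hone]
    _ = ∫ J, ∑ e, c e * (pp v J s * (v s e - ∑ t, pp v J t * v t e)) ∂(gM ι) := by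
        rw [integral_finsetSum _ fun e _ => (hint2 e).const_mul _]
        simp only [integral_const_mul]
    _ = _ := by
        congr 1; funext J
        have h1 : ∑ t, pp v J t * ∑ e, c e * v t e = ∑ e, c e * ∑ t, pp v J t * v t e := by
          simp only [Finset.mul_sum]
          rw [Finset.sum_comm]
          apply Finset.sum_congr rfl
          intro e _
          apply Finset.sum_congr rfl
          intro t _
          ring
        rw [h1, ← Finset.sum_sub_distrib, Finset.mul_sum]
        apply Finset.sum_congr rfl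
        intro e _
        ring

end Vale.Agent.P367.GT
end

section

open MeasureTheory ProbabilityTheory

namespace Vale.Agent.P367.GT

variable {S ι : Type*} [Fintype S] [Nonempty S] [Fintype ι]

/-- interpolating vectors -/
noncomputable def ww (a b : S → ι → ℝ) (θ : ℝ) (s : S) (e : ι) : ℝ :=
  Real.cos θ * a s e + Real.sin θ * b s e

/-- derivative of the interpolating vectors -/
noncomputable def wd (a b : S → ι → ℝ) (θ : ℝ) (s : S) (e : ι) : ℝ :=
  -Real.sin θ * a s e + Real.cos θ * b s e

omit [Fintype S] [Nonempty S] in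
lemma hasDerivAt_zf (a b : S → ι → ℝ) (J : ι → ℝ) (s : S) (θ : ℝ) :
    HasDerivAt (fun θ => zf (ww a b θ) J s) (zf (wd a b θ) J s) θ := by
  unfold zf
  apply HasDerivAt.fun_sum
  intro e _
  apply HasDerivAt.mul_const
  unfold ww wd
  exact ((Real.hasDerivAt_cos θ).mul_const _).add ((Real.hasDerivAt_sin θ).mul_const _)

/-- interpolating free energy -/
noncomputable def phi (a b : S → ι → ℝ) (θ : ℝ) : ℝ :=
  ∫ J, Real.log (part (ww a b θ) J) ∂(gM ι)

omit [Fintype S] [Nonempty S] [Fintype ι] in
lemma abs_wd_le (a b : S → ι → ℝ) (θ : ℝ) (s : S) (e : ι) :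
    |wd a b θ s e| ≤ |a s e| + |b s e| := by
  unfold wd
  refine (abs_add_le _ _).trans ?_
  rw [abs_mul, abs_mul, abs_neg]
  have h1 := Real.abs_cos_le_one θ
  have h2 := Real.abs_sin_le_one θ
  have h3 := abs_nonneg (a s e)
  have h4 := abs_nonneg (b s e)
  linarith only [mul_nonneg (sub_nonneg.2 h2) (sub_nonneg.2 h3), mul_nonneg (sub_nonneg.2 h1) (sub_nonneg.2 h4)]

/-- dominating function -/
noncomputable def bnd (a b : S → ι → ℝ) (J : ι → ℝ) : ℝ :=
  ∑ s, ∑ e, (|a s e| + |b s e|) * |J e|

omit [Nonempty S] in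
lemma integrable_bnd (a b : S → ι → ℝ) : Integrable (bnd a b) (gM ι) := by
  unfold bnd
  exact integrable_finsetSum _ fun s _ => integrable_finsetSum _ fun e _ =>
    ((integrable_coord e).abs).const_mul _

omit [Nonempty S] in
lemma abs_zf_le (a b v : S → ι → ℝ) (hv : ∀ s e, |v s e| ≤ |a s e| + |b s e|) (J : ι → ℝ)
    (s : S) : |zf v J s| ≤ bnd a b J := by
  unfold zf bnd
  have h1 : |∑ e, v s e * J e| ≤ ∑ e, (|a s e| + |b s e|) * |J e| := by
    refine (Finset.abs_sum_le_sum_abs _ _).trans (Finset.sum_le_sum fun e _ => ?_)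
    rw [abs_mul]
    exact mul_le_mul_of_nonneg_right (hv s e) (abs_nonneg _)
  refine h1.trans ?_
  exact Finset.single_le_sum (f := fun s => ∑ e, (|a s e| + |b s e|) * |J e|)
    (fun s _ => Finset.sum_nonneg fun e _ => by (clear * -; positivity)) (Finset.mem_univ s)

lemma log_part_bounds (v : S → ι → ℝ) (J : ι → ℝ) (M : ℝ) (h : ∀ s, |zf v J s| ≤ M) :
    |Real.log (part v J)| ≤ M + Real.log (Fintype.card S) := by
  obtain ⟨s0⟩ := (inferInstance : Nonempty S)
  have hc : (1 : ℝ) ≤ Fintype.card S := by
    exact_mod_cast Fintype.card_pos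
  have hlc : 0 ≤ Real.log (Fintype.card S) := Real.log_nonneg hc
  have h1 : Real.exp (-M) ≤ part v J := by
    have h2 : Real.exp (zf v J s0) ≤ part v J :=
      Finset.single_le_sum (f := fun s => Real.exp (zf v J s)) (fun _ _ => (Real.exp_pos _).le)
        (Finset.mem_univ s0)
    refine (Real.exp_le_exp.mpr ?_).trans h2
    exact (abs_le.mp (h s0)).1
  have h2 : part v J ≤ Fintype.card S * Real.exp M := by
    unfold part
    refine (Finset.sum_le_sum fun s _ => Real.exp_le_exp.mpr (abs_le.mp (h s)).2).trans ?_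
    simp
  rw [abs_le]
  constructor
  · have h3 := Real.log_le_log (Real.exp_pos _) h1
    rw [Real.log_exp] at h3
    linarith
  · have h3 := Real.log_le_log (part_pos v J) h2
    rw [Real.log_mul (by positivity) (Real.exp_pos _).ne', Real.log_exp] at h3
    linarith

lemma continuous_log_part (v : S → ι → ℝ) : Continuous fun J => Real.log (part v J) :=
  (continuous_part v).log fun J => (part_pos v J).ne'

lemma integrable_log_part (v : S → ι → ℝ) :
    Integrable (fun J => Real.log (part v J)) (gM ι) := by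
  refine Integrable.mono' ((integrable_bnd v v).add (integrable_const
    (Real.log (Fintype.card S)))) (continuous_log_part v).measurable.aestronglyMeasurable
    (Filter.Eventually.of_forall fun J => ?_)
  rw [Real.norm_eq_abs]
  exact log_part_bounds v J _ fun s => abs_zf_le v v v (fun s e => by
    have := abs_nonneg (v s e); linarith) J s

lemma phi_deriv (a b : S → ι → ℝ) (θ : ℝ) :
    HasDerivAt (phi a b) (∫ J, ∑ s, pp (ww a b θ) J s * zf (wd a b θ) J s ∂(gM ι)) θ := by
  have key := hasDerivAt_integral_of_dominated_loc_of_deriv_le (μ := gM ι) (s := Set.univ)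
    (F := fun θ J => Real.log (part (ww a b θ) J)) (x₀ := θ)
    (F' := fun θ J => ∑ s, pp (ww a b θ) J s * zf (wd a b θ) J s)
    (bound := bnd a b) Filter.univ_mem
    (Filter.Eventually.of_forall fun x =>
      (continuous_log_part (ww a b x)).measurable.aestronglyMeasurable)
    (integrable_log_part _)
    (by
      apply Continuous.aestronglyMeasurable
      exact continuous_finsetSum _ fun s _ => (continuous_pp _ s).mul (continuous_zf _ s))
    (Filter.Eventually.of_forall fun J x _ => by
      rw [Real.norm_eq_abs]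
      refine (Finset.abs_sum_le_sum_abs _ _).trans ?_
      calc ∑ s, |pp (ww a b x) J s * zf (wd a b x) J s|
          ≤ ∑ s, pp (ww a b x) J s * bnd a b J := by
            apply Finset.sum_le_sum
            intro s _
            rw [abs_mul, abs_of_nonneg (pp_nonneg _ J s)]
            exact mul_le_mul_of_nonneg_left
              (abs_zf_le a b _ (fun s e => abs_wd_le a b x s e) J s) (pp_nonneg _ J s)
        _ = bnd a b J := by rw [← Finset.sum_mul, sum_pp, one_mul])
    (integrable_bnd a b)
    (Filter.Eventually.of_forall fun J x _ => by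
      have := log_deriv (fun s θ => zf (ww a b θ) J s) (fun s => zf (wd a b x) J s) x
        (fun s => hasDerivAt_zf a b J s x)
      exact this)
  exact key.2

lemma integrable_pp_zf (v u : S → ι → ℝ) (s : S) :
    Integrable (fun J => pp v J s * zf u J s) (gM ι) := by
  refine (integrable_zf u s).bdd_mul (c := 1) (continuous_pp v s).measurable.aestronglyMeasurable
    (Filter.Eventually.of_forall fun J => ?_)
  rw [Real.norm_eq_abs, abs_of_nonneg (pp_nonneg v J s)]
  exact pp_le_one v J s

/-- The derivative of the interpolation is nonnegative. -/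
lemma phi_deriv_nonneg (a b : S → ι → ℝ) (horth : ∀ s t, ∑ e, a s e * b t e = 0)
    (hinc : ∀ s t, ∑ e, (a s e - a t e) ^ 2 ≤ ∑ e, (b s e - b t e) ^ 2)
    (θ : ℝ) (hθ : 0 ≤ Real.sin θ * Real.cos θ) :
    0 ≤ ∫ J, ∑ s, pp (ww a b θ) J s * zf (wd a b θ) J s ∂(gM ι) := by
  set v := ww a b θ with hv
  set c := wd a b θ with hc
  set K : S → S → ℝ := fun s t => ∑ e, c s e * v t e with hK
  have hKe : ∀ s t, K s t = Real.sin θ * Real.cos θ *
      ((∑ e, b s e * b t e) - ∑ e, a s e * a t e) := by
    intro s t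
    have h1 := horth s t
    have h2 := horth t s
    have h3 : K s t = Real.sin θ * Real.cos θ * ((∑ e, b s e * b t e) - ∑ e, a s e * a t e)
        - Real.sin θ ^ 2 * (∑ e, a s e * b t e) + Real.cos θ ^ 2 * (∑ e, a t e * b s e) := by
      rw [hK, ← Finset.sum_sub_distrib, Finset.mul_sum, Finset.mul_sum, Finset.mul_sum,
        ← Finset.sum_sub_distrib, ← Finset.sum_add_distrib]
      apply Finset.sum_congr rfl
      intro e _
      simp only [hv, hc, ww, wd]
      ring
    rw [h3, h1, h2]
    ring
  have h1 : ∫ J, ∑ s, pp v J s * zf c J s ∂(gM ι)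
      = ∑ s, ∫ J, pp v J s * (K s s - ∑ t, pp v J t * K s t) ∂(gM ι) := by
    rw [integral_finsetSum _ fun s _ => integrable_pp_zf v c s]
    apply Finset.sum_congr rfl
    intro s _
    have := ibp v (c s) s
    rw [← this]
    congr 1
    funext J
    unfold zf
    ring
  have hint : ∀ s, Integrable (fun J => pp v J s * (K s s - ∑ t, pp v J t * K s t)) (gM ι) := by
    intro s
    have hcont : Continuous fun J => pp v J s * (K s s - ∑ t, pp v J t * K s t) := by
      refine (continuous_pp v s).mul (continuous_const.sub ?_)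
      exact continuous_finsetSum _ fun t _ => (continuous_pp v t).mul continuous_const
    refine Integrable.mono' (integrable_const (|K s s| + ∑ t, |K s t|))
      hcont.measurable.aestronglyMeasurable (Filter.Eventually.of_forall fun J => ?_)
    rw [Real.norm_eq_abs, abs_mul, abs_of_nonneg (pp_nonneg v J s)]
    have h1 : |K s s - ∑ t, pp v J t * K s t| ≤ |K s s| + ∑ t, |K s t| := by
      refine (abs_sub _ _).trans ?_
      have h2 : |∑ t, pp v J t * K s t| ≤ ∑ t, |K s t| := by
        refine (Finset.abs_sum_le_sum_abs _ _).trans (Finset.sum_le_sum fun t _ => ?_)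
        rw [abs_mul, abs_of_nonneg (pp_nonneg v J t)]
        exact mul_le_of_le_one_left (abs_nonneg _) (pp_le_one v J t)
      linarith
    have h3 := pp_le_one v J s
    have h4 := pp_nonneg v J s
    have h5 := abs_nonneg (K s s - ∑ t, pp v J t * K s t)
    linarith only [mul_nonneg (sub_nonneg.2 h3) (sub_nonneg.2 h5), mul_nonneg (sub_nonneg.2 h1) (sub_nonneg.2 h4), mul_nonneg (sub_nonneg.2 h1) (sub_nonneg.2 h3)]
  rw [h1, ← integral_finsetSum _ fun s _ => hint s]
  apply integral_nonneg
  intro J
  simp only [Pi.zero_apply]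
  have h2 : ∑ s, pp v J s * (K s s - ∑ t, pp v J t * K s t)
      = (∑ s, ∑ t, pp v J s * pp v J t * (K s s + K t t - K s t - K t s)) / 2 := by
    have e1 : ∑ s, ∑ t, pp v J s * pp v J t * K s s = ∑ s, pp v J s * K s s := by
      apply Finset.sum_congr rfl
      intro s _
      calc ∑ t, pp v J s * pp v J t * K s s = (pp v J s * K s s) * ∑ t, pp v J t := by
            rw [Finset.mul_sum]
            apply Finset.sum_congr rfl
            intro t _; ring
        _ = _ := by rw [sum_pp, mul_one]
    have e2 : ∑ s, ∑ t, pp v J s * pp v J t * K t t = ∑ s, pp v J s * K s s := by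
      rw [Finset.sum_comm, ← e1]
      apply Finset.sum_congr rfl
      intro s _
      apply Finset.sum_congr rfl
      intro t _; ring
    have e3 : ∑ s, ∑ t, pp v J s * pp v J t * K t s = ∑ s, ∑ t, pp v J s * pp v J t * K s t := by
      rw [Finset.sum_comm]
      apply Finset.sum_congr rfl
      intro s _
      apply Finset.sum_congr rfl
      intro t _; ring
    have e4 : ∑ s, pp v J s * (K s s - ∑ t, pp v J t * K s t)
        = ∑ s, pp v J s * K s s - ∑ s, ∑ t, pp v J s * pp v J t * K s t := by
      rw [← Finset.sum_sub_distrib]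
      apply Finset.sum_congr rfl
      intro s _
      have h6 : pp v J s * (∑ t, pp v J t * K s t) = ∑ t, pp v J s * pp v J t * K s t := by
        rw [Finset.mul_sum]
        apply Finset.sum_congr rfl
        intro t _; ring
      rw [mul_sub, h6]
    have e5 : ∑ s, ∑ t, pp v J s * pp v J t * (K s s + K t t - K s t - K t s)
        = ∑ s, ∑ t, pp v J s * pp v J t * K s s + ∑ s, ∑ t, pp v J s * pp v J t * K t t
          - ∑ s, ∑ t, pp v J s * pp v J t * K s t - ∑ s, ∑ t, pp v J s * pp v J t * K t s := by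
      simp only [← Finset.sum_add_distrib, ← Finset.sum_sub_distrib]
      apply Finset.sum_congr rfl
      intro s _
      apply Finset.sum_congr rfl
      intro t _; ring
    rw [e4, e5, e1, e2, e3]
    ring
  rw [h2]
  apply div_nonneg _ (by norm_num)
  apply Finset.sum_nonneg
  intro s _
  apply Finset.sum_nonneg
  intro t _
  apply mul_nonneg (mul_nonneg (pp_nonneg v J s) (pp_nonneg v J t))
  rw [hKe, hKe, hKe, hKe]
  have h3 : Real.sin θ * Real.cos θ * ((∑ e, b s e * b s e) - ∑ e, a s e * a s e)
      + Real.sin θ * Real.cos θ * ((∑ e, b t e * b t e) - ∑ e, a t e * a t e)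
      - Real.sin θ * Real.cos θ * ((∑ e, b s e * b t e) - ∑ e, a s e * a t e)
      - Real.sin θ * Real.cos θ * ((∑ e, b t e * b s e) - ∑ e, a t e * a s e)
      = Real.sin θ * Real.cos θ * ((∑ e, (b s e - b t e) ^ 2) - ∑ e, (a s e - a t e) ^ 2) := by
    have e1 : ∀ x : S → ι → ℝ, ∑ e, (x s e - x t e) ^ 2 = ∑ e, x s e * x s e
        + ∑ e, x t e * x t e - ∑ e, x s e * x t e - ∑ e, x t e * x s e := by
      intro x
      rw [← Finset.sum_add_distrib, ← Finset.sum_sub_distrib, ← Finset.sum_sub_distrib]
      apply Finset.sum_congr rfl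
      intro e _; ring
    rw [e1 b, e1 a]
    ring
  rw [h3]
  exact mul_nonneg hθ (sub_nonneg.mpr (hinc s t))

/-- Comparison of free energies. -/
lemma free_le (a b : S → ι → ℝ) (horth : ∀ s t, ∑ e, a s e * b t e = 0)
    (hinc : ∀ s t, ∑ e, (a s e - a t e) ^ 2 ≤ ∑ e, (b s e - b t e) ^ 2) :
    ∫ J, Real.log (part a J) ∂(gM ι) ≤ ∫ J, Real.log (part b J) ∂(gM ι) := by
  have hpi := Real.pi_pos
  have hmono : MonotoneOn (phi a b) (Set.Icc 0 (Real.pi / 2)) := by
    apply monotoneOn_of_deriv_nonneg (convex_Icc _ _)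
    · exact fun θ _ => (phi_deriv a b θ).continuousAt.continuousWithinAt
    · exact fun θ _ => (phi_deriv a b θ).differentiableAt.differentiableWithinAt
    · intro θ hθ
      rw [interior_Icc] at hθ
      rw [(phi_deriv a b θ).deriv]
      apply phi_deriv_nonneg a b horth hinc
      apply mul_nonneg
      · exact Real.sin_nonneg_of_nonneg_of_le_pi hθ.1.le (by linarith [hθ.2])
      · exact Real.cos_nonneg_of_neg_pi_div_two_le_of_le (by linarith [hθ.1]) hθ.2.le
  have h := hmono (Set.left_mem_Icc.mpr (by positivity)) (Set.right_mem_Icc.mpr (by positivity))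
    (by positivity)
  have h0 : phi a b 0 = ∫ J, Real.log (part a J) ∂(gM ι) := by
    unfold phi
    have : ww a b 0 = a := by
      funext s e; simp [ww]
    rw [this]
  have h1 : phi a b (Real.pi / 2) = ∫ J, Real.log (part b J) ∂(gM ι) := by
    unfold phi
    have : ww a b (Real.pi / 2) = b := by
      funext s e; simp [ww]
    rw [this]
  rw [h0, h1] at h
  exact h

end Vale.Agent.P367.GT
end

section

/-! P150 FULL: elementary facts on `tanh` (helper383). -/

open Real

namespace Vale.Agent.P150.F

theorem hasDerivAt_tanh (x : ℝ) : HasDerivAt Real.tanh (1 - Real.tanh x ^ 2) x := by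
  have hc : Real.cosh x ≠ 0 := (Real.cosh_pos x).ne'
  have h := (Real.hasDerivAt_sinh x).div (Real.hasDerivAt_cosh x) hc
  have e2 : (Real.cosh x * Real.cosh x - Real.sinh x * Real.sinh x) / Real.cosh x ^ 2
      = 1 - Real.tanh x ^ 2 := by
    rw [Real.tanh_eq_sinh_div_cosh]; field_simp
  have e3 : (Real.sinh / Real.cosh) = Real.tanh := by
    funext y; rw [Pi.div_apply, Real.tanh_eq_sinh_div_cosh]
  rw [e2] at h
  rw [e3] at h
  exact h

theorem one_sub_tanh_sq_pos (x : ℝ) : 0 < 1 - Real.tanh x ^ 2 := by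
  have := Real.tanh_sq_lt_one x; linarith

theorem one_sub_tanh_sq_le (x : ℝ) : 1 - Real.tanh x ^ 2 ≤ 1 := by
  have := sq_nonneg (Real.tanh x); linarith

theorem abs_tanh_sub_le (a b : ℝ) : |Real.tanh a - Real.tanh b| ≤ |a - b| := by
  have h := Convex.norm_image_sub_le_of_norm_hasDerivWithin_le (f := Real.tanh)
    (f' := fun x => 1 - Real.tanh x ^ 2) (s := Set.univ) (x := b) (y := a) (C := 1)
    (fun x _ => (hasDerivAt_tanh x).hasDerivWithinAt) (fun x _ => by
      rw [Real.norm_eq_abs, abs_of_pos (one_sub_tanh_sq_pos x)]; exact one_sub_tanh_sq_le x)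
    convex_univ (Set.mem_univ _) (Set.mem_univ _)
  simpa [Real.norm_eq_abs] using h

theorem abs_tanh_le (a : ℝ) : |Real.tanh a| ≤ |a| := by
  simpa using abs_tanh_sub_le a 0

theorem abs_tanh_sq_sub_le (a b : ℝ) : |Real.tanh a ^ 2 - Real.tanh b ^ 2| ≤ |a - b| := by
  have hd : ∀ x : ℝ, HasDerivAt (fun x => Real.tanh x ^ 2)
      (2 * Real.tanh x * (1 - Real.tanh x ^ 2)) x := by
    intro x
    have h := (hasDerivAt_tanh x).pow 2
    have e : (fun x => Real.tanh x ^ 2) = Real.tanh ^ 2 := rfl
    rw [e]
    simpa using h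
  have h := Convex.norm_image_sub_le_of_norm_hasDerivWithin_le (f := fun x => Real.tanh x ^ 2)
    (f' := fun x => 2 * Real.tanh x * (1 - Real.tanh x ^ 2)) (s := Set.univ) (x := b) (y := a)
    (C := 1)
    (fun x _ => (hd x).hasDerivWithinAt) (fun x _ => by
      rw [Real.norm_eq_abs, abs_le]
      have h1 := Real.neg_one_lt_tanh x
      have h2 := Real.tanh_lt_one x
      set T := Real.tanh x
      constructor
      · linarith only [mul_nonneg (sub_nonneg.2 h2.le) (sq_nonneg (T + 1/2)), h1]
      · nlinarith [sq_nonneg (T - 1/2), sq_nonneg (T + 1/2), mul_nonneg (sub_nonneg.2 h2.le) (sq_nonneg (T + 1/2)), mul_nonneg (by linarith : (0:ℝ) ≤ 1 + T) (sq_nonneg (T - 1/2))])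
    convex_univ (Set.mem_univ _) (Set.mem_univ _)
  simpa [Real.norm_eq_abs] using h

/-- second order expansion of `tanh` -/
theorem abs_tanh_taylor (b u : ℝ) :
    |Real.tanh (b + u) - Real.tanh b - u * (1 - Real.tanh b ^ 2)| ≤ u ^ 2 := by
  set s : Set ℝ := Metric.closedBall b |u|
  have h := Convex.norm_image_sub_le_of_norm_hasDerivWithin_le
    (f := fun x => Real.tanh x - (x - b) * (1 - Real.tanh b ^ 2))
    (f' := fun x => (1 - Real.tanh x ^ 2) - (1 - Real.tanh b ^ 2)) (s := s) (x := b) (y := b + u)
    (C := |u|)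
    (fun x _ => by
      have h1 := ((hasDerivAt_id x).sub_const b).mul_const (1 - Real.tanh b ^ 2)
      have h2 := ((hasDerivAt_tanh x).sub h1).hasDerivWithinAt (s := s)
      rw [one_mul] at h2
      exact h2)
    (fun x hx => by
      rw [Real.norm_eq_abs]
      have e : (1 - Real.tanh x ^ 2) - (1 - Real.tanh b ^ 2)
          = Real.tanh b ^ 2 - Real.tanh x ^ 2 := by ring
      rw [e]
      refine (abs_tanh_sq_sub_le b x).trans ?_
      have := Metric.mem_closedBall.1 hx
      rwa [Real.dist_eq, abs_sub_comm] at this)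
    (convex_closedBall _ _) (Metric.mem_closedBall_self (abs_nonneg _))
    (by rw [Metric.mem_closedBall, Real.dist_eq]; simp)
  simp only [Real.norm_eq_abs] at h
  have e : Real.tanh (b + u) - (b + u - b) * (1 - Real.tanh b ^ 2)
      - (Real.tanh b - (b - b) * (1 - Real.tanh b ^ 2))
      = Real.tanh (b + u) - Real.tanh b - u * (1 - Real.tanh b ^ 2) := by ring
  rw [e] at h
  refine h.trans (le_of_eq ?_)
  rw [add_sub_cancel_left, ← abs_mul, abs_of_nonneg (mul_self_nonneg u)]
  ring

end Vale.Agent.P150.F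
end
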