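import Mathlib
import Vale.Agent.P150.Bdl.B1
import Vale.Agent.P150.Bdl.B2
import Vale.Agent.P150.Bdl.B3

set_option linter.all false

section

open MeasureTheory ProbabilityTheory Real Set Filter Topology

namespace Vale.Agent.P150

section
variable {ι : Type*} [Fintype ι]

lemma tendsto_Phi_one {T : Type*} [Fintype T] (s : ℝ) (c : T → ι → ℝ) (w : ι → ℝ)
    (h : ∀ x, lin (c x) w < s) :
    Tendsto (fun m : ℕ => Phi (m : ℝ) s c w) atTop (𝓝 1) := by
  unfold Phi
  have h1 : ∀ x, Tendsto (fun m : ℕ => uu (m : ℝ) s c x w) atTop (𝓝 0) := by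
    intro x
    unfold uu
    refine tendsto_exp_atBot.comp ?_
    have hneg : lin (c x) w - s < 0 := by linarith only [h x]
    exact (tendsto_natCast_atTop_atTop (R := ℝ)).atTop_mul_const_of_neg hneg
  have h2 : Tendsto (fun m : ℕ => -∑ x, uu (m : ℝ) s c x w) atTop (𝓝 0) := by
    have := (tendsto_finsetSum (Finset.univ : Finset T) fun x _ => h1 x).neg
    simpa using this
  have h3 := (continuous_exp.tendsto 0).comp h2
  rw [exp_zero] at h3
  exact h3

lemma tendsto_Phi_zero {T : Type*} [Fintype T] (s : ℝ) (c : T → ι → ℝ) (w : ι → ℝ)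
    (x : T) (h : s < lin (c x) w) :
    Tendsto (fun m : ℕ => Phi (m : ℝ) s c w) atTop (𝓝 0) := by
  unfold Phi
  have h1 : Tendsto (fun m : ℕ => uu (m : ℝ) s c x w) atTop atTop := by
    unfold uu
    refine tendsto_exp_atTop.comp ?_
    have hpos : 0 < lin (c x) w - s := by linarith
    exact (tendsto_natCast_atTop_atTop (R := ℝ)).atTop_mul_const hpos
  refine tendsto_exp_atBot.comp (tendsto_neg_atTop_atBot.comp ?_)
  refine tendsto_atTop_mono (fun m => ?_) h1
  exact Finset.single_le_sum (f := fun x => uu (m : ℝ) s c x w) (fun x _ => (uu_pos _ s c x w).le)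
      (Finset.mem_univ x)

/-- **Slepian's inequality** for finite families. -/
theorem slepian_prob {T : Type*} [Fintype T] (a b : T → ι → ℝ)
    (hab : ∀ x y, ∑ k, a x k * b y k = 0)
    (hvar : ∀ x, ∑ k, b x k * b x k = ∑ k, a x k * a x k)
    (hcov : ∀ x y, ∑ k, b x k * b y k ≤ ∑ k, a x k * a y k) (s : ℝ) :
    (gpi ι).real {w | ∀ x, lin (b x) w < s} ≤ (gpi ι).real {w | ∀ x, lin (a x) w ≤ s} := by
  set A : Set (ι → ℝ) := {w | ∀ x, lin (b x) w < s} with hA
  set B : Set (ι → ℝ) := {w | ∀ x, lin (a x) w ≤ s} with hB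
  have mA : MeasurableSet A := by
    have : A = ⋂ x, {w | lin (b x) w < s} := by ext w; simp [hA]
    rw [this]
    exact MeasurableSet.iInter fun x => measurableSet_lt (measurable_lin _) measurable_const
  have mB : MeasurableSet B := by
    have : B = ⋂ x, {w | lin (a x) w ≤ s} := by ext w; simp [hB]
    rw [this]
    exact MeasurableSet.iInter fun x => measurableSet_le (measurable_lin _) measurable_const
  have mP : ∀ (m : ℕ) (c : T → ι → ℝ), Measurable (Phi (m : ℝ) s c) := fun m c => measurable_Phi _ _ _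
  have iP : ∀ (m : ℕ) (c : T → ι → ℝ), Integrable (Phi (m : ℝ) s c) (gpi ι) := fun m c =>
    Integrable.of_bound (mP m c).aestronglyMeasurable 1
      (Eventually.of_forall fun w => by
        rw [Real.norm_eq_abs, abs_of_pos (Phi_pos ..)]; exact Phi_le_one ..)
  have L1 : Tendsto (fun m : ℕ => ∫ w, A.indicator (Phi (m : ℝ) s b) w ∂(gpi ι)) atTop
      (𝓝 (∫ w, A.indicator (fun _ => (1 : ℝ)) w ∂(gpi ι))) := by
    refine tendsto_integral_of_dominated_convergence (fun _ => (1 : ℝ))
      (fun m => ((mP m b).indicator mA).aestronglyMeasurable) (integrable_const _)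
      (fun m => Eventually.of_forall fun w => ?_) (Eventually.of_forall fun w => ?_)
    · rw [Real.norm_eq_abs]
      by_cases hw : w ∈ A
      · rw [indicator_of_mem hw, abs_of_pos (Phi_pos ..)]; exact Phi_le_one ..
      · rw [indicator_of_notMem hw]; simp
    · by_cases hw : w ∈ A
      · simp only [indicator_of_mem hw]
        exact tendsto_Phi_one s b w hw
      · simp only [indicator_of_notMem hw]
        exact tendsto_const_nhds
  have L2 : Tendsto (fun m : ℕ => (gpi ι).real B + ∫ w, Bᶜ.indicator (Phi (m : ℝ) s a) w ∂(gpi ι))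
      atTop (𝓝 ((gpi ι).real B + ∫ w, (0 : ℝ) ∂(gpi ι))) := by
    refine tendsto_const_nhds.add ?_
    refine tendsto_integral_of_dominated_convergence (fun _ => (1 : ℝ))
      (fun m => ((mP m a).indicator mB.compl).aestronglyMeasurable) (integrable_const _)
      (fun m => Eventually.of_forall fun w => ?_) (Eventually.of_forall fun w => ?_)
    · rw [Real.norm_eq_abs]
      by_cases hw : w ∈ Bᶜ
      · rw [indicator_of_mem hw, abs_of_pos (Phi_pos ..)]; exact Phi_le_one ..
      · rw [indicator_of_notMem hw]; simp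
    · by_cases hw : w ∈ Bᶜ
      · simp only [indicator_of_mem hw]
        have : ∃ x, s < lin (a x) w := by
          by_contra hcon
          push Not at hcon
          exact hw hcon
        obtain ⟨x, hx⟩ := this
        exact tendsto_Phi_zero s a w x hx
      · simp only [indicator_of_notMem hw]
        exact tendsto_const_nhds
  have key : ∀ m : ℕ, ∫ w, A.indicator (Phi (m : ℝ) s b) w ∂(gpi ι)
      ≤ (gpi ι).real B + ∫ w, Bᶜ.indicator (Phi (m : ℝ) s a) w ∂(gpi ι) := by
    intro m
    have h1 : ∫ w, A.indicator (Phi (m : ℝ) s b) w ∂(gpi ι) ≤ ∫ w, Phi (m : ℝ) s b w ∂(gpi ι) := by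
      refine integral_mono ((iP m b).indicator mA) (iP m b) fun w => ?_
      exact indicator_le_self' (fun _ _ => (Phi_pos ..).le) w
    have h2 := slepian_smooth a b hab hvar hcov (m : ℝ) s
    have h3 : ∫ w, Phi (m : ℝ) s a w ∂(gpi ι) ≤
        ∫ w, (B.indicator (fun _ => (1 : ℝ)) w + Bᶜ.indicator (Phi (m : ℝ) s a) w) ∂(gpi ι) := by
      refine integral_mono (iP m a) (((integrable_const _).indicator mB).add
        ((iP m a).indicator mB.compl)) fun w => ?_
      by_cases hw : w ∈ B
      · simp [hw, Phi_le_one]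
      · simp [hw]
    rw [integral_add ((integrable_const _).indicator mB) ((iP m a).indicator mB.compl),
      integral_indicator_const _ mB] at h3
    simp only [smul_eq_mul, mul_one] at h3
    linarith only [h3, h2, h1]
  have := le_of_tendsto_of_tendsto' L1 L2 key
  rw [integral_indicator_const _ mA] at this
  simpa using this

/-- **Slepian's inequality** for countable families. -/
theorem slepian_prob_nat (a b : ℕ → ι → ℝ)
    (hab : ∀ x y, ∑ k, a x k * b y k = 0)
    (hvar : ∀ x, ∑ k, b x k * b x k = ∑ k, a x k * a x k)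
    (hcov : ∀ x y, ∑ k, b x k * b y k ≤ ∑ k, a x k * a y k) (s : ℝ) :
    (gpi ι).real {w | ∀ x, lin (b x) w < s} ≤ (gpi ι).real {w | ∀ x, lin (a x) w ≤ s} := by
  set BN : ℕ → Set (ι → ℝ) := fun N => {w | ∀ x : Fin N, lin (a x) w ≤ s} with hBN
  have mB : ∀ N, MeasurableSet (BN N) := by
    intro N
    have : BN N = ⋂ x : Fin N, {w | lin (a x) w ≤ s} := by ext w; simp [hBN]
    rw [this]
    exact MeasurableSet.iInter fun x => measurableSet_le (measurable_lin _) measurable_const
  have hanti : Antitone BN := by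
    intro N M hNM w hw x
    exact hw ⟨x, x.2.trans_le hNM⟩
  have hinter : (⋂ N, BN N) = {w | ∀ x, lin (a x) w ≤ s} := by
    ext w
    simp only [mem_iInter, hBN, mem_ofPred_eq]
    constructor
    · intro h x
      exact h (x + 1) ⟨x, Nat.lt_succ_self x⟩
    · intro h N x
      exact h x
  have htend := tendsto_measure_iInter_atTop (μ := gpi ι) (s := BN)
    (fun N => (mB N).nullMeasurableSet) hanti ⟨0, measure_ne_top _ _⟩
  rw [hinter] at htend
  have htend' : Tendsto (fun N => (gpi ι).real (BN N)) atTop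
      (𝓝 ((gpi ι).real {w | ∀ x, lin (a x) w ≤ s})) :=
    (ENNReal.tendsto_toReal (measure_ne_top _ _)).comp htend
  refine ge_of_tendsto' htend' fun N => ?_
  refine le_trans ?_ (slepian_prob (T := Fin N) (fun x => a x) (fun x => b x)
    (fun x y => hab x y) (fun x => hvar x) (fun x y => hcov x y) s)
  refine measureReal_mono (fun w hw x => hw x) (measure_ne_top _ _)

end

end Vale.Agent.P150
end

section

open MeasureTheory ProbabilityTheory Real Set Filter Topology

namespace Vale.Agent.P150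

instance (n : ℕ) : IsProbabilityMeasure (disorder n) := by
  unfold disorder; infer_instance

lemma disorder_eq (n : ℕ) : disorder n = gpi (Pairs n) := rfl

lemma measurePreserving_inl (n : ℕ) :
    MeasurePreserving (fun (w : GI n → ℝ) (p : Pairs n) => w (Sum.inl p)) (gpi (GI n))
      (disorder n) := by
  have h1 := measurePreserving_sumPiEquivProdPi (X := fun _ : GI n => ℝ)
    (fun _ : GI n => gaussianReal 0 1)
  have h2 := (measurePreserving_fst (μ := Measure.pi fun _ : Pairs n => gaussianReal 0 1)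
    (ν := Measure.pi fun _ : (Fin n ⊕ (Unit ⊕ Fin n)) => gaussianReal 0 1)).comp h1
  exact h2

/-- the bad event for one sign -/
def Bad (n : ℕ) (σ c : ℝ) : Set (Pairs n → ℝ) :=
  {g | ∃ v : Fin n → ℝ, c * ∑ i, v i ^ 2 < σ * ∑ i, ∑ j, gsym g i j * v i * v j}

lemma continuous_quad {n : ℕ} (v : Fin n → ℝ) :
    Continuous fun g : Pairs n → ℝ => ∑ i, ∑ j, gsym g i j * v i * v j :=
  continuous_finsetSum _ fun i _ => continuous_finsetSum _ fun j _ =>
    ((continuous_gsym i j).mul_const _).mul_const _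

lemma isOpen_Bad (n : ℕ) (σ c : ℝ) : IsOpen (Bad n σ c) := by
  have : Bad n σ c = ⋃ v : Fin n → ℝ,
      {g | c * ∑ i, v i ^ 2 < σ * ∑ i, ∑ j, gsym g i j * v i * v j} := by
    ext g; simp [Bad]
  rw [this]
  exact isOpen_iUnion fun v => isOpen_lt continuous_const ((continuous_quad v).const_mul σ)

/-- unit sphere (in coordinates) -/
def Sph (n : ℕ) : Set (Fin n → ℝ) := {v | ∑ i, v i ^ 2 = 1}

lemma sph_nonempty {n : ℕ} (hn : 0 < n) : (Sph n).Nonempty := by
  refine ⟨fun i => if i = ⟨0, hn⟩ then 1 else 0, ?_⟩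
  simp [Sph]

lemma single_le_sum_sq {n : ℕ} (v : Fin n → ℝ) (i : Fin n) : v i ^ 2 ≤ ∑ i, v i ^ 2 :=
  Finset.single_le_sum (f := fun i => v i ^ 2) (fun _ _ => sq_nonneg _) (Finset.mem_univ i)


/-- countable dense sequence in the sphere -/
noncomputable def useq {n : ℕ} (hn : 0 < n) (k : ℕ) : Fin n → ℝ :=
  haveI : Nonempty (Sph n) := (sph_nonempty hn).to_subtype
  (TopologicalSpace.denseSeq (Sph n) k : Fin n → ℝ)

lemma useq_mem {n : ℕ} (hn : 0 < n) (k : ℕ) : ∑ i, useq hn k i ^ 2 = 1 := by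
  haveI : Nonempty (Sph n) := (sph_nonempty hn).to_subtype
  exact (TopologicalSpace.denseSeq (Sph n) k).2

lemma useq_mem' {n : ℕ} (hn : 0 < n) (k : ℕ) : ∑ i, useq hn k i * useq hn k i = 1 := by
  rw [← useq_mem hn k]; exact Finset.sum_congr rfl fun i _ => (sq _).symm

lemma continuous_quad_v {n : ℕ} (σ : ℝ) (g : Pairs n → ℝ) :
    Continuous fun v : Fin n → ℝ => σ * ∑ i, ∑ j, gsym g i j * v i * v j := by
  refine Continuous.mul continuous_const ?_
  refine continuous_finsetSum _ fun i _ => continuous_finsetSum _ fun j _ => ?_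
  exact (continuous_const.mul (continuous_apply i)).mul (continuous_apply j)

lemma sphere_extend {n : ℕ} (hn : 0 < n) (σ c : ℝ) (g : Pairs n → ℝ)
    (h : ∀ k, σ * ∑ i, ∑ j, gsym g i j * useq hn k i * useq hn k j ≤ c) :
    ∀ v ∈ Sph n, σ * ∑ i, ∑ j, gsym g i j * v i * v j ≤ c := by
  haveI : Nonempty (Sph n) := (sph_nonempty hn).to_subtype
  have hcl : IsClosed {v : Sph n | σ * ∑ i, ∑ j, gsym g i j * v.1 i * v.1 j ≤ c} :=
    isClosed_le ((continuous_quad_v σ g).comp continuous_subtype_val) continuous_const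
  have hd : Dense (Set.range (TopologicalSpace.denseSeq (Sph n))) :=
    TopologicalSpace.denseRange_denseSeq _
  have h1 : closure (Set.range (TopologicalSpace.denseSeq (Sph n))) ⊆
      {v : Sph n | σ * ∑ i, ∑ j, gsym g i j * v.1 i * v.1 j ≤ c} := by
    refine closure_minimal ?_ hcl
    rintro _ ⟨k, rfl⟩
    exact h k
  rw [hd.closure_eq] at h1
  intro v hv
  exact h1 (Set.mem_univ (⟨v, hv⟩ : Sph n))

lemma all_extend {n : ℕ} (σ c : ℝ) (g : Pairs n → ℝ)
    (h : ∀ v ∈ Sph n, σ * ∑ i, ∑ j, gsym g i j * v i * v j ≤ c) (v : Fin n → ℝ) :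
    σ * ∑ i, ∑ j, gsym g i j * v i * v j ≤ c * ∑ i, v i ^ 2 := by
  set N : ℝ := ∑ i, v i ^ 2 with hN
  have hN0 : 0 ≤ N := Finset.sum_nonneg fun i _ => sq_nonneg _
  rcases hN0.eq_or_lt with hz | hpos
  · have hv0 : ∀ i, v i = 0 := by
      intro i
      have := single_le_sum_sq v i
      rw [← hN, ← hz] at this
      nlinarith [sq_nonneg (v i)]
    simp [hv0, ← hz]
  · set r : ℝ := (√N)⁻¹ with hr
    have hr2 : r ^ 2 * N = 1 := by
      rw [hr, inv_pow, sq_sqrt hN0, inv_mul_cancel₀ hpos.ne']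
    have hmem : (fun i => r * v i) ∈ Sph n := by
      change ∑ i, (r * v i) ^ 2 = 1
      simp_rw [mul_pow]
      rw [← Finset.mul_sum]; exact hr2
    have h := h _ hmem
    have e : ∑ i, ∑ j, gsym g i j * (r * v i) * (r * v j)
        = r ^ 2 * ∑ i, ∑ j, gsym g i j * v i * v j := by
      simp only [Finset.mul_sum]
      refine Finset.sum_congr rfl fun i _ => Finset.sum_congr rfl fun j _ => ?_
      ring
    rw [e] at h
    have h10 : N * (σ * (r ^ 2 * ∑ i, ∑ j, gsym g i j * v i * v j)) ≤ N * c :=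
      mul_le_mul_of_nonneg_left h hN0
    have h11 : N * (σ * (r ^ 2 * ∑ i, ∑ j, gsym g i j * v i * v j))
        = σ * ∑ i, ∑ j, gsym g i j * v i * v j := by
      linear_combination (σ * ∑ i, ∑ j, gsym g i j * v i * v j) * hr2
    rw [h11] at h10
    linarith only [h10]

lemma right_side {n : ℕ} (hn : 0 < n) {ε : ℝ} (h0 : 0 < ε) (h1 : ε ≤ 1) :
    1 - exp (-((ε / 4) ^ 2 / 8 * n)) ≤
      (gpi (GI n)).real {w | ∀ k, lin (bv (useq hn k)) w < (2 + ε / 2) * √n} := by
  classical
  have hsn : 0 < √(n : ℝ) := sqrt_pos.2 (by exact_mod_cast hn)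
  have hsn2 : √(n : ℝ) ^ 2 = n := sq_sqrt (by positivity)
  set S : Finset (GI n) := Finset.univ.map
    ⟨fun i : Fin n => (Sum.inr (Sum.inr (Sum.inr i)) : GI n), fun a b h => by simpa using h⟩
    with hS
  have hcard : S.card ≤ n := by simp [hS]
  have ht := chi_sq_tail S hcard (ε := ε / 4) (by positivity) (by linarith only [h1])
  have hsum : ∀ w : GI n → ℝ, ∑ k ∈ S, w k ^ 2 = ∑ i, w (Sum.inr (Sum.inr (Sum.inr i))) ^ 2 := by
    intro w; rw [hS, Finset.sum_map]; rfl
  have hm : MeasurableSet {w : GI n → ℝ | (1 + ε / 4) * n ≤ ∑ k ∈ S, w k ^ 2} := by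
    refine measurableSet_le measurable_const ?_
    exact Finset.measurable_sum _ fun k _ => (measurable_pi_apply k).pow_const 2
  have hc : (gpi (GI n)).real {w | (1 + ε / 4) * n ≤ ∑ k ∈ S, w k ^ 2}ᶜ
      = 1 - (gpi (GI n)).real {w | (1 + ε / 4) * n ≤ ∑ k ∈ S, w k ^ 2} :=
    probReal_compl_eq_one_sub hm
  have hsub : {w | (1 + ε / 4) * n ≤ ∑ k ∈ S, w k ^ 2}ᶜ ⊆
      {w : GI n → ℝ | ∀ k, lin (bv (useq hn k)) w < (2 + ε / 2) * √n} := by
    intro w hw k
    simp only [mem_compl_iff, mem_ofPred_eq, not_le, hsum] at hw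
    rw [lin_bv]
    have hcs := Finset.sum_mul_sq_le_sq_mul_sq Finset.univ (useq hn k)
      (fun i => w (Sum.inr (Sum.inr (Sum.inr i))))
    rw [useq_mem hn k, one_mul] at hcs
    set a := ∑ i, useq hn k i * w (Sum.inr (Sum.inr (Sum.inr i)))
    have h3 : a ^ 2 < ((1 + ε / 4) * √n) ^ 2 := by
      have : ((1 + ε / 4) * √n) ^ 2 = (1 + ε / 4) ^ 2 * n := by rw [mul_pow, hsn2]
      rw [this]
      have hnn : (0 : ℝ) < n := by exact_mod_cast hn
      have : (1 + ε / 4) * n ≤ (1 + ε / 4) ^ 2 * n :=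
        mul_le_mul_of_nonneg_right (by (by_contra nlg; linarith only [mul_pos (sub_pos.2 (not_le.1 nlg)) (sub_pos.2 h0), mul_nonneg (le_of_lt (sub_pos.2 (not_le.1 nlg))) (sub_nonneg.2 h1), mul_pos (sub_pos.2 h0) (sub_pos.2 h0), mul_nonneg (le_of_lt (sub_pos.2 h0)) (sub_nonneg.2 h1)])) hnn.le
      linarith only [hw, hcs, this]
    have h4 : a < (1 + ε / 4) * √n := lt_of_pow_lt_pow_left₀ 2 (by positivity) h3
    linarith only [h4]
  have := measureReal_mono (μ := gpi (GI n)) hsub (measure_ne_top _ _)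
  linarith only [this, hc, ht]

/-- the indices of the auxiliary coordinates -/
def Idx (n : ℕ) : Finset (GI n) := Finset.univ.map
    ⟨fun i : Option (Fin n) => match i with
      | none => (Sum.inr (Sum.inr (Sum.inl ())) : GI n)
      | some i => Sum.inr (Sum.inl i), by
        intro a b h
        cases a <;> cases b <;> simp_all⟩

def Dk {n : ℕ} (ε : ℝ) (k : GI n) : Set (GI n → ℝ) := {w | (ε / 8) ^ 2 * n ≤ w k ^ 2}

lemma diag_side {n : ℕ} {ε : ℝ} :
    (gpi (GI n)).real (⋃ k ∈ Idx n, Dk ε k) ≤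
      (n + 1) * (exp (-(1 / 4 * ((ε / 8) ^ 2 * n))) * 2) := by
  classical
  have hDkle : ∀ k, (gpi (GI n)).real (Dk ε k) ≤ exp (-(1 / 4 * ((ε / 8) ^ 2 * n))) * 2 := by
    intro k
    have h := chernoff_sq (ι := GI n) {k} (t := 1 / 4) (by norm_num) (by norm_num)
      ((ε / 8) ^ 2 * n)
    simp only [Finset.sum_singleton, Finset.card_singleton, pow_one] at h
    refine h.trans (mul_le_mul_of_nonneg_left ?_ (exp_pos _).le)
    rw [inv_le_comm₀ (by positivity) (by norm_num)]
    apply le_sqrt_of_sq_le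
    norm_num
  have hIcard : (Idx n).card = n + 1 := by simp [Idx]
  refine (measureReal_biUnion_finset_le (Idx n) (Dk ε)).trans ?_
  refine (Finset.sum_le_card_nsmul _ _ _ fun k _ => hDkle k).trans ?_
  rw [hIcard, nsmul_eq_mul]
  push_cast
  exact le_rfl

lemma dense_bound {n : ℕ} (hn : 0 < n) (σ : ℝ) {ε : ℝ} (h0 : 0 < ε) (w : GI n → ℝ)
    (hA : ∀ k, lin (av σ (useq hn k)) w ≤ (2 + ε / 2) * √n)
    (hB : ∀ k ∈ Idx n, w ∉ Dk ε k) (k : ℕ) :
    σ * ∑ i, ∑ j, gsym (fun p => w (Sum.inl p)) i j * useq hn k i * useq hn k j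
      ≤ (2 + ε) * √n := by
  have hsn2 : √(n : ℝ) ^ 2 = n := sq_sqrt (by positivity)
  have hB1 : ∀ i, |w (Sum.inr (Sum.inl i))| ≤ ε / 8 * √n := by
    intro i
    have := hB (Sum.inr (Sum.inl i)) (by
      unfold Idx; simp only [Finset.mem_map, Finset.mem_univ, true_and]
      exact ⟨some i, rfl⟩)
    simp only [Dk, mem_ofPred_eq, not_le] at this
    refine abs_le_of_sq_le_sq ?_ (by positivity)
    rw [mul_pow, hsn2]; exact this.le
  have hB2 : |w (Sum.inr (Sum.inr (Sum.inl ())))| ≤ ε / 8 * √n := by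
    have := hB (Sum.inr (Sum.inr (Sum.inl ()))) (by
      unfold Idx; simp only [Finset.mem_map, Finset.mem_univ, true_and]
      exact ⟨none, rfl⟩)
    simp only [Dk, mem_ofPred_eq, not_le] at this
    refine abs_le_of_sq_le_sq ?_ (by positivity)
    rw [mul_pow, hsn2]; exact this.le
  have hsq2 : √(2 : ℝ) ≤ 3 / 2 := by
    rw [sqrt_le_left (by norm_num)]; norm_num
  have hk := hA k
  rw [lin_av] at hk
  rw [quad_eq]
  have h5 : |∑ i, useq hn k i ^ 2 * w (Sum.inr (Sum.inl i))| ≤ ε / 8 * √n := by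
    refine (Finset.abs_sum_le_sum_abs _ _).trans ?_
    calc ∑ i, |useq hn k i ^ 2 * w (Sum.inr (Sum.inl i))|
        ≤ ∑ i, useq hn k i ^ 2 * (ε / 8 * √n) := by
          refine Finset.sum_le_sum fun i _ => ?_
          rw [abs_mul, abs_of_nonneg (sq_nonneg _)]
          exact mul_le_mul_of_nonneg_left (hB1 i) (sq_nonneg _)
      _ = ε / 8 * √n := by rw [← Finset.sum_mul, useq_mem hn k, one_mul]
  have hpos : 0 ≤ ε / 8 * √n := by positivity
  have h6 : -(3 / 2 * (ε / 8 * √n)) ≤ √2 * ∑ i, useq hn k i ^ 2 * w (Sum.inr (Sum.inl i)) := by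
    have h := (abs_le.1 h5).1
    linarith only [mul_nonneg (sub_nonneg.2 h) (sub_nonneg.2 (sqrt_nonneg (2 : ℝ))), mul_nonneg (sub_nonneg.2 hsq2) (sub_nonneg.2 hpos)]
  have h7 : -(3 / 2 * (ε / 8 * √n)) ≤ √2 * w (Sum.inr (Sum.inr (Sum.inl ()))) := by
    have h := (abs_le.1 hB2).1
    linarith only [mul_nonneg (sub_nonneg.2 hsq2) (sub_nonneg.2 hpos), mul_nonneg (sub_nonneg.2 h) (sub_nonneg.2 (sqrt_nonneg (2 : ℝ)))]
  have h9 : 0 ≤ ε * √n := by positivity
  linarith only [h9, h7, h6, hk]

/-- main quantitative estimate -/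
lemma bad_le {n : ℕ} (hn : 0 < n) {σ : ℝ} (hσ : σ ^ 2 = 1) {ε : ℝ} (h0 : 0 < ε) (h1 : ε ≤ 1) :
    (disorder n).real (Bad n σ ((2 + ε) * √n)) ≤
      exp (-((ε / 4) ^ 2 / 8 * n)) + (n + 1) * (exp (-(1 / 4 * ((ε / 8) ^ 2 * n))) * 2) := by
  -- Slepian
  have hslep := slepian_prob_nat (fun k => av σ (useq hn k)) (fun k => bv (useq hn k))
    (fun x y => av_dot_bv σ _ _)
    (fun x => by rw [bv_dot_bv, av_dot_av hσ, useq_mem']; norm_num)
    (fun x y => by
      rw [bv_dot_bv, av_dot_av hσ]
      linarith only [sq_nonneg (∑ i, useq hn x i * useq hn y i - 1)]) ((2 + ε / 2) * √n)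
  have hY := right_side hn h0 h1
  have hD := diag_side (n := n) (ε := ε)
  have hsubset : (fun (w : GI n → ℝ) (p : Pairs n) => w (Sum.inl p)) ⁻¹' (Bad n σ ((2 + ε) * √n)) ⊆
      {w | ∀ k, lin (av σ (useq hn k)) w ≤ (2 + ε / 2) * √n}ᶜ ∪ ⋃ k ∈ Idx n, Dk ε k := by
    intro w hw
    by_contra hcon
    simp only [mem_union, mem_compl_iff, not_or, not_not, mem_iUnion, not_exists,
      mem_ofPred_eq] at hcon
    obtain ⟨hA, hB⟩ := hcon
    obtain ⟨v, hv⟩ := hw
    have := all_extend σ ((2 + ε) * √n) (fun p => w (Sum.inl p))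
      (sphere_extend hn σ _ _ (dense_bound hn σ h0 w hA hB)) v
    exact absurd hv (not_lt.2 this)
  have mA : MeasurableSet {w : GI n → ℝ | ∀ k, lin (av σ (useq hn k)) w ≤ (2 + ε / 2) * √n} := by
    have : {w : GI n → ℝ | ∀ k, lin (av σ (useq hn k)) w ≤ (2 + ε / 2) * √n}
        = ⋂ k, {w | lin (av σ (useq hn k)) w ≤ (2 + ε / 2) * √n} := by
      ext w; simp
    rw [this]
    exact MeasurableSet.iInter fun x => measurableSet_le (measurable_lin _) measurable_const
  have hcompl : (gpi (GI n)).real {w : GI n → ℝ | ∀ k, lin (av σ (useq hn k)) w ≤ (2 + ε / 2) * √n}ᶜ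
      = 1 - (gpi (GI n)).real {w : GI n → ℝ | ∀ k, lin (av σ (useq hn k)) w ≤ (2 + ε / 2) * √n} :=
    probReal_compl_eq_one_sub mA
  have hpre : (disorder n).real (Bad n σ ((2 + ε) * √n)) = (gpi (GI n)).real
      ((fun (w : GI n → ℝ) (p : Pairs n) => w (Sum.inl p)) ⁻¹' (Bad n σ ((2 + ε) * √n))) := by
    rw [measureReal_def, measureReal_def,
      (measurePreserving_inl n).measure_preimage (isOpen_Bad n σ _).measurableSet.nullMeasurableSet]
  rw [hpre]
  refine (measureReal_mono hsubset (measure_ne_top _ _)).trans ?_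
  refine (measureReal_union_le _ _).trans ?_
  rw [hcompl]
  linarith only [hslep, hY, hD]

end Vale.Agent.P150
end

section

namespace Vale.Agent.P150

namespace Boch

open Poinc

variable {n : ℕ} (J : Fin n → Fin n → ℝ) (b : Fin n → ℝ)

/-- conditional mean of spin `i` -/
noncomputable def tau (x : Cfg n) (i : Fin n) : ℝ := Real.tanh (locField J b x i)

/-- conditional variance of spin `i` -/
noncomputable def ss (x : Cfg n) (i : Fin n) : ℝ := 1 - tau J b x i ^ 2

/-- discrete gradient -/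
noncomputable def grad (f : Cfg n → ℝ) (x : Cfg n) (i : Fin n) : ℝ :=
  (f (Function.update x i true) - f (Function.update x i false)) / 2

lemma cw_true (x : Cfg n) (i : Fin n) : cw J b x i true = (1 + tau J b x i) / 2 := by
  unfold cw tau
  have h := Real.cosh_pos (locField J b x i)
  rw [Real.tanh_eq_sinh_div_cosh]
  simp only [sp, if_true, one_mul]
  rw [← Real.cosh_add_sinh]
  field_simp

lemma cw_false (x : Cfg n) (i : Fin n) : cw J b x i false = (1 - tau J b x i) / 2 := by
  have h1 := cw_sum J b x i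
  have h2 := cw_true J b x i
  linarith

lemma sub_resample (f : Cfg n → ℝ) (x : Cfg n) (i : Fin n) :
    f x - resample J b i f x = (sp (x i) - tau J b x i) * grad f x i := by
  rw [resample_eq, cw_true, cw_false]
  unfold grad
  cases h : x i
  · have e : Function.update x i false = x := by
      rw [← h]; exact Function.update_eq_self i x
    rw [e]; simp [sp]; ring
  · have e : Function.update x i true = x := by
      rw [← h]; exact Function.update_eq_self i x
    rw [e]; simp [sp]; ring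

lemma tau_update (x : Cfg n) (i : Fin n) (s : Bool) :
    tau J b (Function.update x i s) i = tau J b x i := by
  unfold tau; rw [locField_update]

lemma ss_update (x : Cfg n) (i : Fin n) (s : Bool) :
    ss J b (Function.update x i s) i = ss J b x i := by
  unfold ss; rw [tau_update]

lemma grad_update (f : Cfg n → ℝ) (x : Cfg n) (i : Fin n) (s : Bool) :
    grad f (Function.update x i s) i = grad f x i := by
  unfold grad; simp

lemma ex_diag (hJs : ∀ i j, J i j = J j i) (f : Cfg n → ℝ) (i : Fin n) :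
    ex J b (fun x => (f x - resample J b i f x) * (f x - resample J b i f x)) =
      ex J b (fun x => ss J b x i * grad f x i ^ 2) := by
  rw [← ex_resample J b hJs i (fun x => (f x - resample J b i f x) * (f x - resample J b i f x)),
    ← ex_resample J b hJs i (fun x => ss J b x i * grad f x i ^ 2)]
  congr 1
  ext x
  rw [resample_eq J b i (fun x => (f x - resample J b i f x) * (f x - resample J b i f x)),
    resample_eq J b i (fun x => ss J b x i * grad f x i ^ 2)]
  simp only [sub_resample, tau_update, grad_update, ss_update, Function.update_self]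
  rw [cw_true, cw_false]
  have h1 : sp true = 1 := by simp [sp]
  have h2 : sp false = -1 := by simp [sp]
  rw [h1, h2]
  unfold ss
  ring

lemma dir_eq_grad (hJs : ∀ i j, J i j = J j i) (f : Cfg n → ℝ) :
    dir J b f f = ex J b (fun x => ∑ i, ss J b x i * grad f x i ^ 2) := by
  rw [dir_eq_sum J b hJs, ex_sum]
  exact Finset.sum_congr rfl fun i _ => ex_diag J b hJs f i

/-- two-site update -/
def up2 (x : Cfg n) (i j : Fin n) (s t : Bool) : Cfg n := Function.update (Function.update x i s) j t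

lemma up2_i {i j : Fin n} (hij : i ≠ j) (x : Cfg n) (s t s' : Bool) :
    Function.update (up2 x i j s t) i s' = up2 x i j s' t := by
  unfold up2
  rw [Function.update_comm hij.symm, Function.update_idem, Function.update_comm hij]

lemma up2_j (i j : Fin n) (x : Cfg n) (s t t' : Bool) :
    Function.update (up2 x i j s t) j t' = up2 x i j s t' := by
  unfold up2
  rw [Function.update_idem]

lemma up2_apply_i {i j : Fin n} (hij : i ≠ j) (x : Cfg n) (s t : Bool) : up2 x i j s t i = s := by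
  unfold up2; rw [Function.update_of_ne hij, Function.update_self]

lemma up2_apply_j (i j : Fin n) (x : Cfg n) (s t : Bool) : up2 x i j s t j = t := by
  unfold up2; rw [Function.update_self]

/-- field at `i` with the contribution of `j` removed -/
noncomputable def fld (x : Cfg n) (i j : Fin n) : ℝ :=
  b i + ∑ k, if k = i ∨ k = j then 0 else J i k * sp (x k)

lemma locField_up2_i {i j : Fin n} (hij : i ≠ j) (x : Cfg n) (s t : Bool) :
    locField J b (up2 x i j s t) i = fld J b x i j + J i j * sp t := by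
  unfold locField fld
  rw [add_assoc]
  congr 1
  have h : ∀ k, (if k = i then 0 else J i k * sp (up2 x i j s t k)) =
      (if k = i ∨ k = j then 0 else J i k * sp (x k)) + (if k = j then J i j * sp t else 0) := by
    intro k
    by_cases hk : k = i
    · subst hk; simp [hij]
    · by_cases hkj : k = j
      · subst hkj; simp [hk, up2]
      · simp [hk, hkj, up2]
  rw [Finset.sum_congr rfl (fun k _ => h k), Finset.sum_add_distrib]
  simp

lemma locField_up2_j {i j : Fin n} (hij : i ≠ j) (x : Cfg n) (s t : Bool) :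
    locField J b (up2 x i j s t) j = fld J b x j i + J j i * sp s := by
  unfold locField fld
  rw [add_assoc]
  congr 1
  have h : ∀ k, (if k = j then 0 else J j k * sp (up2 x i j s t k)) =
      (if k = j ∨ k = i then 0 else J j k * sp (x k)) + (if k = i then J j i * sp s else 0) := by
    intro k
    by_cases hk : k = j
    · subst hk; simp [hij.symm]
    · by_cases hki : k = i
      · subst hki; simp [hk, up2]
      · simp [hk, hki, up2]
  rw [Finset.sum_congr rfl (fun k _ => h k), Finset.sum_add_distrib]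
  simp

lemma energy_up2 (hJs : ∀ i j, J i j = J j i) {i j : Fin n} (hij : i ≠ j) (x : Cfg n) :
    ∃ c : ℝ, ∀ s t, energy J b (up2 x i j s t) =
      c + (J i j * (sp s * sp t) + fld J b x i j * sp s + fld J b x j i * sp t) := by
  have hi : ∀ s t, energy J b (up2 x i j s t) = rest J b (up2 x i j true t) i +
      sp s * (fld J b x i j + J i j * sp t) := by
    intro s t
    rw [Vale.Agent.P150.Poinc.energy_eq J b hJs _ i, up2_apply_i hij, locField_up2_i J b hij]
    congr 1
    rw [← up2_i hij x true t s, rest_update]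
  have hj : ∀ s t, energy J b (up2 x i j s t) = rest J b (up2 x i j s true) j +
      sp t * (fld J b x j i + J j i * sp s) := by
    intro s t
    rw [Vale.Agent.P150.Poinc.energy_eq J b hJs _ j, up2_apply_j, locField_up2_j J b hij]
    congr 1
    rw [← up2_j i j x s true t, rest_update]
  refine ⟨rest J b (up2 x i j true true) i - fld J b x j i * sp true, ?_⟩
  intro s t
  have e1 := hi s t
  have e2 := hi s true
  have e3 := hi true t
  have e4 := hi true true
  have f1 := hj s t
  have f2 := hj s true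
  have f3 := hj true t
  have f4 := hj true true
  have hs := hJs j i
  rw [hs] at f1 f2 f3 f4
  linarith

lemma sum_up2 (i j : Fin n) (F : Cfg n → ℝ) :
    ∑ x, (F (up2 x i j true true) + F (up2 x i j true false) + F (up2 x i j false true) +
      F (up2 x i j false false)) = 4 * ∑ x, F x := by
  have h1 := sum_update j F
  have h2 := sum_update i (fun x => F (Function.update x j true) + F (Function.update x j false))
  rw [h1] at h2
  have : ∑ x, (F (up2 x i j true true) + F (up2 x i j true false) + F (up2 x i j false true) +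
      F (up2 x i j false false)) = ∑ x, (F (Function.update (Function.update x i true) j true) +
      F (Function.update (Function.update x i true) j false) +
      (F (Function.update (Function.update x i false) j true) +
      F (Function.update (Function.update x i false) j false))) := by
    apply Finset.sum_congr rfl
    intro x _
    unfold up2; ring
  rw [this, h2]; ring

/-- **Pair inequality** -/
lemma pair_ineq (hJs : ∀ i j, J i j = J j i) {i j : Fin n} (hij : i ≠ j) (f : Cfg n → ℝ)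
    (hsmall : |J i j| ≤ 1/2000) :
    0 ≤ ex J b (fun x => (f x - resample J b i f x) * (f x - resample J b j f x) +
      (J i j + 2 * (J i j)^2 * (tau J b x i * tau J b x j)) *
        (ss J b x i * ss J b x j * (grad f x i * grad f x j)) +
      50000 * |J i j|^3 * (ss J b x i * ss J b x j * (grad f x i ^ 2 + grad f x j ^ 2))) := by
  set F : Cfg n → ℝ := fun x => (f x - resample J b i f x) * (f x - resample J b j f x) +
      (J i j + 2 * (J i j)^2 * (tau J b x i * tau J b x j)) *
        (ss J b x i * ss J b x j * (grad f x i * grad f x j)) +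
      50000 * |J i j|^3 * (ss J b x i * ss J b x j * (grad f x i ^ 2 + grad f x j ^ 2)) with hF
  have h4 := sum_up2 i j (fun x => gibbs J b x * F x)
  have goal : 0 ≤ ∑ x, (gibbs J b (up2 x i j true true) * F (up2 x i j true true) +
      gibbs J b (up2 x i j true false) * F (up2 x i j true false) +
      gibbs J b (up2 x i j false true) * F (up2 x i j false true) +
      gibbs J b (up2 x i j false false) * F (up2 x i j false false)) := by
    apply Finset.sum_nonneg
    intro x _
    obtain ⟨c, hc⟩ := energy_up2 J b hJs hij x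
    set θ := J i j with hθ
    set a := fld J b x i j with ha
    set a' := fld J b x j i with ha'
    set δ := (f (up2 x i j true true) - f (up2 x i j true false) - f (up2 x i j false true)
      + f (up2 x i j false false)) / 4 with hδ
    set β := (f (up2 x i j true true) + f (up2 x i j true false) - f (up2 x i j false true)
      - f (up2 x i j false false)) / 4 with hβ
    set γ := (f (up2 x i j true true) - f (up2 x i j true false) + f (up2 x i j false true)
      - f (up2 x i j false false)) / 4 with hγ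
    have hgi : ∀ s t, grad f (up2 x i j s t) i = β + δ * sp t := by
      intro s t
      unfold grad
      rw [up2_i hij, up2_i hij]
      cases t <;> simp only [sp, if_true, Bool.false_eq_true, if_false, hβ, hδ] <;> ring
    have hgj : ∀ s t, grad f (up2 x i j s t) j = γ + δ * sp s := by
      intro s t
      unfold grad
      rw [up2_j, up2_j]
      cases s <;> simp only [sp, if_true, Bool.false_eq_true, if_false, hγ, hδ] <;> ring
    have hti : ∀ s t, tau J b (up2 x i j s t) i = Real.tanh (a + θ * sp t) := by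
      intro s t
      unfold tau
      rw [locField_up2_i J b hij]
    have htj : ∀ s t, tau J b (up2 x i j s t) j = Real.tanh (a' + θ * sp s) := by
      intro s t
      unfold tau
      rw [locField_up2_j J b hij, hJs j i]
    have hg : ∀ s t, gibbs J b (up2 x i j s t) =
        (Real.exp c / ∑ y, Real.exp (energy J b y)) * Real.exp (θ * (sp s * sp t) + a * sp s + a' * sp t) := by
      intro s t
      unfold gibbs
      rw [hc s t, Real.exp_add c]; ring
    have hFst : ∀ s t, gibbs J b (up2 x i j s t) * F (up2 x i j s t) =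
        (Real.exp c / ∑ y, Real.exp (energy J b y)) * (Real.exp (θ * (sp s * sp t) + a * sp s + a' * sp t) *
      ((sp s - Real.tanh (a + θ * sp t)) * (β + δ*sp t) * ((sp t - Real.tanh (a' + θ * sp s)) * (γ + δ*sp s)) +
       (θ + 2*θ^2*(Real.tanh (a + θ * sp t) * Real.tanh (a' + θ * sp s))) *
        ((1 - Real.tanh (a + θ * sp t)^2) * (1 - Real.tanh (a' + θ * sp s)^2) * ((β + δ*sp t) * (γ + δ*sp s))) +
       50000 * |θ|^3 * ((1 - Real.tanh (a + θ * sp t)^2) * (1 - Real.tanh (a' + θ * sp s)^2) *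
        ((β + δ*sp t)^2 + (γ + δ*sp s)^2)))) := by
      intro s t
      rw [hg, hF]
      simp only [sub_resample, ss, hti, htj, hgi, hgj, up2_apply_i hij, up2_apply_j]
      ring
    rw [hFst, hFst, hFst, hFst]
    have h1 : sp true = 1 := by simp [sp]
    have h2 : sp false = -1 := by simp [sp]
    have hts := two_site θ a a' β γ δ hsmall
    unfold S4 at hts
    rw [h1, h2, ← mul_add, ← mul_add, ← mul_add]
    apply mul_nonneg _ hts
    exact div_nonneg (Real.exp_pos _).le (Z_pos J b).le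
  have e : ex J b F = ∑ x, gibbs J b x * F x := rfl
  rw [e]
  linarith only [goal, h4]

lemma ss_nonneg (x : Cfg n) (i : Fin n) : 0 ≤ ss J b x i := by
  unfold ss tau
  have := sq_le_of_abs_le (abs_tanh_lt (locField J b x i)).le
  linarith

lemma ss_le_one (x : Cfg n) (i : Fin n) : ss J b x i ≤ 1 := by
  unfold ss; have := sq_nonneg (tau J b x i); linarith

lemma schur_sq (p : Fin n → ℝ) {r : ℝ} (hJs : ∀ i j, J i j = J j i)
    (hr : ∀ i, ∑ j, J i j ^ 2 ≤ r) :
    ∑ i, ∑ j, J i j ^ 2 * (p i * p j) ≤ r * ∑ i, p i ^ 2 := by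
  have h1 : ∑ i, ∑ j, J i j ^ 2 * (p i * p j) ≤ ∑ i, ∑ j, J i j ^ 2 * ((p i ^ 2 + p j ^ 2) / 2) := by
    apply Finset.sum_le_sum; intro i _
    apply Finset.sum_le_sum; intro j _
    apply mul_le_mul_of_nonneg_left _ (sq_nonneg _)
    exact (le_abs_self _).trans (abs_mul_le_half_sq _ _)
  have h2 : ∑ i, ∑ j, J i j ^ 2 * ((p i ^ 2 + p j ^ 2) / 2) = ∑ i, (∑ j, J i j ^ 2) * p i ^ 2 := by
    have e1 : ∑ i, ∑ j, J i j ^ 2 * ((p i ^ 2 + p j ^ 2) / 2) =
      (∑ i, ∑ j, J i j ^ 2 * p i ^ 2 + ∑ i, ∑ j, J i j ^ 2 * p j ^ 2) / 2 := by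
      rw [← Finset.sum_add_distrib, Finset.sum_div]
      apply Finset.sum_congr rfl; intro i _
      rw [← Finset.sum_add_distrib, Finset.sum_div]
      apply Finset.sum_congr rfl; intro j _
      ring
    have e2 : ∑ i, ∑ j, J i j ^ 2 * p j ^ 2 = ∑ i, ∑ j, J i j ^ 2 * p i ^ 2 := by
      rw [Finset.sum_comm]
      apply Finset.sum_congr rfl; intro i _
      apply Finset.sum_congr rfl; intro j _
      rw [hJs j i]
    rw [e1, e2]
    have e3 : ∑ i, (∑ j, J i j ^ 2) * p i ^ 2 = ∑ i, ∑ j, J i j ^ 2 * p i ^ 2 := by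
      apply Finset.sum_congr rfl; intro i _
      rw [Finset.sum_mul]
    rw [e3]; ring
  rw [h2] at h1
  refine h1.trans ?_
  rw [Finset.mul_sum]
  apply Finset.sum_le_sum; intro i _
  exact mul_le_mul_of_nonneg_right (hr i) (sq_nonneg _)

/-- Pointwise matrix inequality. -/
lemma pointwise (hJs : ∀ i j, J i j = J j i) {lam r eta : ℝ}
    (hlam : ∀ v : Fin n → ℝ, ∑ i, ∑ j, J i j * v i * v j ≤ lam * ∑ i, v i ^ 2)
    (hr : ∀ i, ∑ j, J i j ^ 2 ≤ r) (hr0 : 0 ≤ r) (h2r : 2 * r ≤ lam) (heta : ∀ i j, |J i j| ≤ eta)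
    (heta0 : 0 ≤ eta)
    (s τ v : Fin n → ℝ) (hs0 : ∀ i, 0 ≤ s i) (hs1 : ∀ i, s i ≤ 1) (hst : ∀ i, s i = 1 - τ i ^ 2) :
    (1 - lam - 100000 * eta * r) * ∑ i, s i * v i ^ 2 ≤
      ∑ i, s i * v i ^ 2 - ∑ i, ∑ j, ((J i j + 2 * (J i j)^2 * (τ i * τ j)) * (s i * s j * (v i * v j)) +
        50000 * |J i j|^3 * (s i * s j * (v i ^ 2 + v j ^ 2))) := by
  have hlam0 : 0 ≤ lam := by linarith
  have A1 := hlam (fun i => s i * v i)
  have A2 := schur_sq J (fun i => τ i * (s i * v i)) hJs hr
  have A3 : ∑ i, ∑ j, |J i j|^3 * (s i * s j * (v i ^ 2 + v j ^ 2)) ≤ 2 * eta * r * ∑ i, s i * v i ^ 2 := by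
    have e0 : ∀ i j, |J i j|^3 * (s i * s j * (v i ^ 2 + v j ^ 2)) ≤
        eta * (J i j ^ 2 * (s i * v i ^ 2)) + eta * (J i j ^ 2 * (s j * v j ^ 2)) := by
      intro i j
      have c1 : |J i j|^3 ≤ eta * J i j ^ 2 := by
        have : |J i j|^3 = |J i j| * J i j ^ 2 := by rw [← sq_abs]; ring
        rw [this]; exact mul_le_mul_of_nonneg_right (heta i j) (sq_nonneg _)
      have c2 : s i * s j * (v i ^ 2 + v j ^ 2) ≤ s i * v i ^ 2 + s j * v j ^ 2 := by
        have d1 : s i * s j * v i ^ 2 ≤ s i * v i ^ 2 := by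
          have : s i * s j ≤ s i * 1 := mul_le_mul_of_nonneg_left (hs1 j) (hs0 i)
          have := mul_le_mul_of_nonneg_right this (sq_nonneg (v i))
          linarith
        have d2 : s i * s j * v j ^ 2 ≤ s j * v j ^ 2 := by
          have : s i * s j ≤ 1 * s j := mul_le_mul_of_nonneg_right (hs1 i) (hs0 j)
          have := mul_le_mul_of_nonneg_right this (sq_nonneg (v j))
          linarith
        linarith
      have c3 : 0 ≤ s i * s j * (v i ^ 2 + v j ^ 2) :=
        mul_nonneg (mul_nonneg (hs0 i) (hs0 j)) (by (clear * -; positivity))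
      have c4 : |J i j|^3 * (s i * s j * (v i ^ 2 + v j ^ 2)) ≤ eta * J i j ^ 2 * (s i * v i ^ 2 + s j * v j ^ 2) :=
        mul_le_mul c1 c2 c3 (mul_nonneg heta0 (sq_nonneg _))
      linarith
    have e1 : ∑ i, ∑ j, |J i j|^3 * (s i * s j * (v i ^ 2 + v j ^ 2)) ≤
      ∑ i, ∑ j, (eta * (J i j ^ 2 * (s i * v i ^ 2)) + eta * (J i j ^ 2 * (s j * v j ^ 2))) :=
      Finset.sum_le_sum fun i _ => Finset.sum_le_sum fun j _ => e0 i j
    have e2 : ∑ i, ∑ j, (eta * (J i j ^ 2 * (s i * v i ^ 2)) + eta * (J i j ^ 2 * (s j * v j ^ 2))) =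
        2 * eta * ∑ i, (∑ j, J i j ^ 2) * (s i * v i ^ 2) := by
      simp only [Finset.sum_add_distrib]
      have f1 : ∑ i, ∑ j, eta * (J i j ^ 2 * (s j * v j ^ 2)) = ∑ i, ∑ j, eta * (J i j ^ 2 * (s i * v i ^ 2)) := by
        rw [Finset.sum_comm]
        apply Finset.sum_congr rfl; intro i _
        apply Finset.sum_congr rfl; intro j _
        rw [hJs j i]
      rw [f1]
      have f2 : ∑ i, ∑ j, eta * (J i j ^ 2 * (s i * v i ^ 2)) = eta * ∑ i, (∑ j, J i j ^ 2) * (s i * v i ^ 2) := by
        rw [Finset.mul_sum]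
        apply Finset.sum_congr rfl; intro i _
        rw [Finset.sum_mul, Finset.mul_sum]
      rw [f2]; ring
    have e3 : ∑ i, (∑ j, J i j ^ 2) * (s i * v i ^ 2) ≤ r * ∑ i, s i * v i ^ 2 := by
      rw [Finset.mul_sum]
      apply Finset.sum_le_sum; intro i _
      exact mul_le_mul_of_nonneg_right (hr i) (mul_nonneg (hs0 i) (sq_nonneg _))
    rw [e2] at e1
    have e4 := mul_le_mul_of_nonneg_left e3 (show 0 ≤ 2 * eta by linarith)
    linarith
  have split : ∑ i, ∑ j, ((J i j + 2 * (J i j)^2 * (τ i * τ j)) * (s i * s j * (v i * v j)) +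
        50000 * |J i j|^3 * (s i * s j * (v i ^ 2 + v j ^ 2))) =
      ∑ i, ∑ j, J i j * (s i * v i) * (s j * v j) +
      2 * ∑ i, ∑ j, J i j ^ 2 * ((τ i * (s i * v i)) * (τ j * (s j * v j))) +
      50000 * ∑ i, ∑ j, |J i j|^3 * (s i * s j * (v i ^ 2 + v j ^ 2)) := by
    simp only [Finset.mul_sum, ← Finset.sum_add_distrib]
    apply Finset.sum_congr rfl; intro i _
    apply Finset.sum_congr rfl; intro j _
    ring
  rw [split]
  have B : lam * ∑ i, (s i * v i) ^ 2 + 2 * (r * ∑ i, (τ i * (s i * v i)) ^ 2) ≤ lam * ∑ i, s i * v i ^ 2 := by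
    rw [Finset.mul_sum, Finset.mul_sum, Finset.mul_sum, Finset.mul_sum, ← Finset.sum_add_distrib]
    apply Finset.sum_le_sum; intro i _
    have h1 : τ i ^ 2 = 1 - s i := by have := hst i; linarith
    have h2 : 0 ≤ s i * v i ^ 2 := mul_nonneg (hs0 i) (sq_nonneg _)
    have h3 : (τ i * (s i * v i))^2 = (1 - s i) * s i * (s i * v i ^ 2) := by
      rw [mul_pow, h1]; ring
    rw [h3]
    have h4 : 0 ≤ (1 - s i) * s i := mul_nonneg (by linarith [hs1 i]) (hs0 i)
    have h5 : 2 * r * ((1 - s i) * s i) ≤ lam * ((1 - s i) * s i) := mul_le_mul_of_nonneg_right h2r h4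
    have h6 : lam * s i + lam * ((1 - s i) * s i) ≤ lam * 1 := by
      rw [← mul_add]
      apply mul_le_mul_of_nonneg_left _ hlam0
      linarith only [sq_nonneg (1 - s i)]
    have h7 : (lam * s i + 2 * r * ((1 - s i) * s i)) * (s i * v i ^ 2) ≤ lam * 1 * (s i * v i ^ 2) :=
      mul_le_mul_of_nonneg_right (by linarith) h2
    calc lam * (s i * v i)^2 + 2 * (r * ((1 - s i) * s i * (s i * v i ^ 2)))
        = (lam * s i + 2 * r * ((1 - s i) * s i)) * (s i * v i ^ 2) := by ring
      _ ≤ lam * 1 * (s i * v i ^ 2) := h7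
      _ = lam * (s i * v i ^ 2) := by ring
  linarith

end Boch

open Boch Poinc in
/-- **Bochner-type inequality for heat-bath dynamics.** -/
theorem bochner {n : ℕ} (J : Fin n → Fin n → ℝ) (hJs : ∀ i j, J i j = J j i)
    (hJ0 : ∀ i, J i i = 0) (lam r eta : ℝ)
    (hlam : ∀ v : Fin n → ℝ, ∑ i, ∑ j, J i j * v i * v j ≤ lam * ∑ i, v i ^ 2)
    (hr : ∀ i, ∑ j, J i j ^ 2 ≤ r) (hr0 : 0 ≤ r) (h2r : 2 * r ≤ lam)
    (heta : ∀ i j, |J i j| ≤ eta) (heta0 : 0 ≤ eta) (heta1 : eta ≤ 1 / 2000)
    (b : Fin n → ℝ) (f : Cfg n → ℝ) :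
    (1 - lam - 100000 * eta * r) * dir J b f f ≤ ex J b (fun x => gen J b f x ^ 2) := by
  have h1 : ex J b (fun x => gen J b f x ^ 2) =
      ∑ i, ∑ j, ex J b (fun x => (f x - resample J b i f x) * (f x - resample J b j f x)) := by
    have e : (fun x => gen J b f x ^ 2) =
        fun x => ∑ i, ∑ j, (f x - resample J b i f x) * (f x - resample J b j f x) := by
      ext x
      unfold gen
      rw [sq, Finset.sum_mul_sum]
      apply Finset.sum_congr rfl; intro i _
      apply Finset.sum_congr rfl; intro j _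
      ring
    rw [e, ex_sum]
    apply Finset.sum_congr rfl; intro i _
    rw [ex_sum]
  have h2 : ∀ i j, (if i = j then ex J b (fun x => ss J b x i * grad f x i ^ 2) else 0) -
      ex J b (fun x => (J i j + 2 * (J i j)^2 * (tau J b x i * tau J b x j)) *
        (ss J b x i * ss J b x j * (grad f x i * grad f x j)) +
      50000 * |J i j|^3 * (ss J b x i * ss J b x j * (grad f x i ^ 2 + grad f x j ^ 2))) ≤
      ex J b (fun x => (f x - resample J b i f x) * (f x - resample J b j f x)) := by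
    intro i j
    by_cases hij : i = j
    · subst hij
      rw [if_pos rfl, ex_diag J b hJs f i]
      have : ex J b (fun x => (J i i + 2 * (J i i)^2 * (tau J b x i * tau J b x i)) *
        (ss J b x i * ss J b x i * (grad f x i * grad f x i)) +
        50000 * |J i i|^3 * (ss J b x i * ss J b x i * (grad f x i ^ 2 + grad f x i ^ 2))) = 0 := by
        have e : (fun x : Cfg n => (J i i + 2 * (J i i)^2 * (tau J b x i * tau J b x i)) *
          (ss J b x i * ss J b x i * (grad f x i * grad f x i)) +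
          50000 * |J i i|^3 * (ss J b x i * ss J b x i * (grad f x i ^ 2 + grad f x i ^ 2))) =
          fun _ => 0 := by
          ext x; rw [hJ0 i]; simp
        rw [e, ex_const]
      rw [this]; simp
    · rw [if_neg hij]
      have h3 := pair_ineq J b hJs hij f ((heta i j).trans heta1)
      have e : ex J b (fun x => (f x - resample J b i f x) * (f x - resample J b j f x) +
        (J i j + 2 * (J i j)^2 * (tau J b x i * tau J b x j)) *
          (ss J b x i * ss J b x j * (grad f x i * grad f x j)) +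
        50000 * |J i j|^3 * (ss J b x i * ss J b x j * (grad f x i ^ 2 + grad f x j ^ 2))) =
        ex J b (fun x => (f x - resample J b i f x) * (f x - resample J b j f x)) +
        ex J b (fun x => (J i j + 2 * (J i j)^2 * (tau J b x i * tau J b x j)) *
          (ss J b x i * ss J b x j * (grad f x i * grad f x j)) +
        50000 * |J i j|^3 * (ss J b x i * ss J b x j * (grad f x i ^ 2 + grad f x j ^ 2))) := by
        rw [← ex_add]; congr 1; ext x; ring
      rw [e] at h3
      linarith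
  have h3 : ∑ i, ∑ j, ((if i = j then ex J b (fun x => ss J b x i * grad f x i ^ 2) else 0) -
      ex J b (fun x => (J i j + 2 * (J i j)^2 * (tau J b x i * tau J b x j)) *
        (ss J b x i * ss J b x j * (grad f x i * grad f x j)) +
      50000 * |J i j|^3 * (ss J b x i * ss J b x j * (grad f x i ^ 2 + grad f x j ^ 2)))) ≤
      ex J b (fun x => gen J b f x ^ 2) := by
    rw [h1]
    exact Finset.sum_le_sum fun i _ => Finset.sum_le_sum fun j _ => h2 i j
  refine le_trans ?_ h3
  have h4 : ∑ i, ∑ j, ((if i = j then ex J b (fun x => ss J b x i * grad f x i ^ 2) else 0) -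
      ex J b (fun x => (J i j + 2 * (J i j)^2 * (tau J b x i * tau J b x j)) *
        (ss J b x i * ss J b x j * (grad f x i * grad f x j)) +
      50000 * |J i j|^3 * (ss J b x i * ss J b x j * (grad f x i ^ 2 + grad f x j ^ 2)))) =
      ex J b (fun x => ∑ i, ss J b x i * grad f x i ^ 2 - ∑ i, ∑ j,
        ((J i j + 2 * (J i j)^2 * (tau J b x i * tau J b x j)) *
        (ss J b x i * ss J b x j * (grad f x i * grad f x j)) +
      50000 * |J i j|^3 * (ss J b x i * ss J b x j * (grad f x i ^ 2 + grad f x j ^ 2)))) := by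
    rw [ex_sub, ex_sum, ex_sum]
    simp only [Finset.sum_sub_distrib]
    congr 1
    · apply Finset.sum_congr rfl; intro i _
      simp
    · apply Finset.sum_congr rfl; intro i _
      rw [ex_sum]
  rw [h4, dir_eq_grad J b hJs, ← ex_smul]
  apply ex_mono
  intro x
  exact pointwise J hJs hlam hr hr0 h2r heta heta0 _ _ _ (fun i => ss_nonneg J b x i)
    (fun i => ss_le_one J b x i) (fun i => rfl)

end Vale.Agent.P150
end

section

open MeasureTheory ProbabilityTheory Real Set Filter Topology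

namespace Vale.Agent.P150

lemma tendsto_one_of_bad (G B : ∀ n, Set (Pairs n → ℝ)) (err : ℕ → ℝ)
    (h : ∀ᶠ n in atTop, (G n)ᶜ ⊆ B n) (he : Tendsto err atTop (𝓝 0))
    (hb : ∀ᶠ n in atTop, (disorder n).real (B n) ≤ err n) :
    Tendsto (fun n => disorder n (G n)) atTop (𝓝 1) := by
  have h1 : Tendsto (fun n => 1 - ENNReal.ofReal (err n)) atTop (𝓝 (1 - ENNReal.ofReal 0)) :=
    ENNReal.Tendsto.sub tendsto_const_nhds (ENNReal.tendsto_ofReal he) (Or.inl ENNReal.one_ne_top)
  rw [ENNReal.ofReal_zero, tsub_zero] at h1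
  refine tendsto_of_tendsto_of_tendsto_of_le_of_le' h1 tendsto_const_nhds ?_
    (Eventually.of_forall fun n => prob_le_one)
  filter_upwards [h, hb] with n hn hbn
  rw [tsub_le_iff_right]
  have h2 : disorder n (B n) ≤ ENNReal.ofReal (err n) := by
    rw [← ENNReal.ofReal_toReal (measure_ne_top (disorder n) (B n))]
    exact ENNReal.ofReal_le_ofReal hbn
  calc (1 : ENNReal) = disorder n Set.univ := measure_univ.symm
    _ = disorder n (G n ∪ (G n)ᶜ) := by rw [union_compl_self]
    _ ≤ disorder n (G n) + disorder n (G n)ᶜ := measure_union_le _ _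
    _ ≤ disorder n (G n) + ENNReal.ofReal (err n) := by
        gcongr
        exact (measure_mono hn).trans h2

lemma tendsto_exp_lin {c : ℝ} (hc : 0 < c) (k : ℕ) :
    Tendsto (fun n : ℕ => (n : ℝ) ^ k * exp (-(c * n))) atTop (𝓝 0) := by
  have h := (tendsto_pow_mul_exp_neg_atTop_nhds_zero k).comp
    ((tendsto_natCast_atTop_atTop (R := ℝ)).const_mul_atTop hc)
  have h2 := h.const_mul ((c ^ k)⁻¹)
  rw [mul_zero] at h2
  refine h2.congr fun n => ?_
  simp only [Function.comp]
  rw [mul_pow]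
  field_simp

lemma tendsto_err (ε : ℝ) (hε : 0 < ε) : Tendsto (fun n : ℕ =>
    exp (-((ε / 4) ^ 2 / 8 * n)) + (n + 1) * (exp (-(1 / 4 * ((ε / 8) ^ 2 * n))) * 2)) atTop
    (𝓝 0) := by
  have h1 := tendsto_exp_lin (c := (ε / 4) ^ 2 / 8) (by positivity) 0
  have h2 := tendsto_exp_lin (c := 1 / 4 * (ε / 8) ^ 2) (by positivity) 0
  have h3 := tendsto_exp_lin (c := 1 / 4 * (ε / 8) ^ 2) (by positivity) 1
  have := h1.add ((h3.add h2).mul_const 2)
  simp only [add_zero, zero_mul] at this
  refine this.congr fun n => ?_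
  have e : 1 / 4 * (ε / 8) ^ 2 * (n : ℝ) = 1 / 4 * ((ε / 8) ^ 2 * n) := by ring
  rw [e]
  ring

/-- **(A)** the operator norm of the zero-diagonal Gaussian matrix is at most `(2+ε)√n` w.h.p. -/
theorem goe_norm {ε : ℝ} (hε : 0 < ε) :
    Tendsto (fun n : ℕ => disorder n {g | ∀ v : Fin n → ℝ,
      |∑ i, ∑ j, gsym g i j * v i * v j| ≤ (2 + ε) * √n * ∑ i, v i ^ 2}) atTop (𝓝 1) := by
  set δ : ℝ := min ε 1 with hδ
  have hδ0 : 0 < δ := lt_min hε one_pos
  have hδ1 : δ ≤ 1 := min_le_right _ _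
  have hδε : δ ≤ ε := min_le_left _ _
  have he := (tendsto_err δ hδ0).add (tendsto_err δ hδ0)
  rw [add_zero] at he
  refine tendsto_one_of_bad _ (fun n => Bad n 1 ((2 + δ) * √n) ∪ Bad n (-1) ((2 + δ) * √n)) _
    (Eventually.of_forall fun n => ?_) he ?_
  · intro g hg
    simp only [mem_compl_iff, mem_ofPred_eq, not_forall, not_le] at hg
    obtain ⟨v, hv⟩ := hg
    have hle : (2 + δ) * √n * ∑ i, v i ^ 2 ≤ (2 + ε) * √n * ∑ i, v i ^ 2 := by
      refine mul_le_mul_of_nonneg_right (mul_le_mul_of_nonneg_right (by linarith) (sqrt_nonneg _))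
        (Finset.sum_nonneg fun i _ => sq_nonneg _)
    rcases lt_abs.1 hv with h | h
    · left
      refine ⟨v, ?_⟩
      linarith
    · right
      refine ⟨v, ?_⟩
      linarith
  · filter_upwards [eventually_gt_atTop 0] with n hn
    refine (measureReal_union_le _ _).trans (add_le_add ?_ ?_)
    · exact bad_le hn (by norm_num) hδ0 hδ1
    · exact bad_le hn (by norm_num) hδ0 hδ1

/-- pairs containing `i` -/
def Row {n : ℕ} (i : Fin n) : Finset (Pairs n) :=
  Finset.univ.filter fun p => p.1.1 = i ∨ p.1.2 = i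

lemma row_sum {n : ℕ} (g : Pairs n → ℝ) (i : Fin n) :
    ∑ j, gsym g i j ^ 2 = ∑ p ∈ Row i, g p ^ 2 := by
  have h := sum_pairs (fun a b => if a = i then gsym g a b ^ 2 else 0)
  have h1 : ∑ a, ∑ b, (if a = i then gsym g a b ^ 2 else 0) = ∑ j, gsym g i j ^ 2 := by
    rw [Finset.sum_eq_single i]
    · simp
    · intro b _ hb; simp [hb]
    · simp
  rw [← h1, h]
  have h2 : ∑ a, (if a = i then gsym g a a ^ 2 else 0) = 0 := by
    refine Finset.sum_eq_zero fun a _ => ?_
    rw [gsym_self]; simp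
  rw [h2, add_zero, Row, Finset.sum_filter]
  refine Finset.sum_congr rfl fun p _ => ?_
  rw [gsym_pair, gsym_pair']
  have hne : p.1.1 ≠ p.1.2 := p.2.ne
  by_cases h3 : p.1.1 = i
  · have h4 : p.1.2 ≠ i := fun h => hne (h3.trans h.symm)
    simp [h3, h4]
  · simp [h3]

lemma card_row {n : ℕ} (i : Fin n) : (Row i).card ≤ n := by
  have h := row_sum (fun _ => (1 : ℝ)) i
  have h1 : ∑ j, gsym (fun _ : Pairs n => (1 : ℝ)) i j ^ 2 ≤ ∑ j : Fin n, (1 : ℝ) := by
    refine Finset.sum_le_sum fun j _ => ?_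
    unfold gsym
    split_ifs <;> norm_num
  rw [h] at h1
  simp only [one_pow, Finset.sum_const, nsmul_eq_mul, mul_one, Finset.card_univ,
    Fintype.card_fin] at h1
  exact_mod_cast h1

/-- **(B)** all rows have squared norm at most `(1+ε) n` w.h.p. -/
theorem goe_rows {ε : ℝ} (hε : 0 < ε) :
    Tendsto (fun n : ℕ => disorder n {g | ∀ i : Fin n, ∑ j, gsym g i j ^ 2 ≤ (1 + ε) * n})
      atTop (𝓝 1) := by
  set δ : ℝ := min ε 1 with hδ
  have hδ0 : 0 < δ := lt_min hε one_pos
  have hδ1 : δ ≤ 1 := min_le_right _ _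
  have hδε : δ ≤ ε := min_le_left _ _
  have he := tendsto_exp_lin (c := δ ^ 2 / 8) (by positivity) 1
  refine tendsto_one_of_bad _ (fun n => ⋃ i : Fin n, {g | (1 + δ) * n ≤ ∑ k ∈ Row i, g k ^ 2}) _
    (Eventually.of_forall fun n => ?_) he (Eventually.of_forall fun n => ?_)
  · intro g hg
    simp only [mem_compl_iff, mem_ofPred_eq, not_forall, not_le] at hg
    obtain ⟨i, hi⟩ := hg
    rw [mem_iUnion]
    refine ⟨i, ?_⟩
    simp only [mem_ofPred_eq]
    rw [row_sum] at hi
    have : (1 + δ) * (n : ℝ) ≤ (1 + ε) * n :=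
      mul_le_mul_of_nonneg_right (by linarith) (Nat.cast_nonneg n)
    linarith
  · refine (measureReal_iUnion_fintype_le _).trans ?_
    refine (Finset.sum_le_card_nsmul _ _ (exp (-(δ ^ 2 / 8 * n))) fun i _ => ?_).trans ?_
    · classical
      exact chi_sq_tail (Row i) (card_row i) hδ0 hδ1
    · simp

lemma card_pairs (n : ℕ) : Fintype.card (Pairs n) ≤ n ^ 2 := by
  refine (Fintype.card_subtype_le _).trans ?_
  simp [sq]

/-- quantitative form of the maximum bound -/
lemma max_bound (n : ℕ) {c : ℝ} (hc : 0 ≤ c) :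
    (disorder n).real {g | ∃ p, c < |g p|} ≤ (n : ℝ) ^ 2 * (exp (-(1 / 4 * c ^ 2)) * 2) := by
  classical
  have hsub : {g : Pairs n → ℝ | ∃ p, c < |g p|} ⊆ ⋃ p : Pairs n, {g | c ^ 2 ≤ g p ^ 2} := by
    rintro g ⟨p, hp⟩
    rw [mem_iUnion]
    refine ⟨p, ?_⟩
    simp only [mem_ofPred_eq]
    rw [← sq_abs (g p)]
    exact pow_le_pow_left₀ hc hp.le 2
  refine (measureReal_mono hsub (measure_ne_top _ _)).trans ?_
  refine (measureReal_iUnion_fintype_le _).trans ?_
  refine (Finset.sum_le_card_nsmul _ _ (exp (-(1 / 4 * c ^ 2)) * 2) fun k _ => ?_).trans ?_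
  · have h := chernoff_sq (ι := Pairs n) {k} (t := 1 / 4) (by norm_num) (by norm_num) (c ^ 2)
    simp only [Finset.sum_singleton, Finset.card_singleton, pow_one] at h
    refine h.trans (mul_le_mul_of_nonneg_left ?_ (exp_pos _).le)
    rw [inv_le_comm₀ (by positivity) (by norm_num)]
    apply le_sqrt_of_sq_le
    norm_num
  · rw [nsmul_eq_mul, Finset.card_univ]
    refine mul_le_mul_of_nonneg_right ?_ (by positivity)
    exact_mod_cast card_pairs n

lemma abs_gsym_le {n : ℕ} {g : Pairs n → ℝ} {c : ℝ} (hc : 0 ≤ c) (h : ∀ p, |g p| ≤ c)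
    (i j : Fin n) : |gsym g i j| ≤ c := by
  unfold gsym
  split_ifs
  · exact h _
  · exact h _
  · simpa using hc

/-- **(C)** the entries are at most `ε √n` w.h.p. -/
theorem goe_max {ε : ℝ} (hε : 0 < ε) :
    Tendsto (fun n : ℕ => disorder n {g | ∀ i j : Fin n, |gsym g i j| ≤ ε * √n})
      atTop (𝓝 1) := by
  have he := (tendsto_exp_lin (c := 1 / 4 * ε ^ 2) (by positivity) 2).mul_const 2
  rw [zero_mul] at he
  refine tendsto_one_of_bad _ (fun n => {g | ∃ p, ε * √n < |g p|}) _
    (Eventually.of_forall fun n => ?_) he (Eventually.of_forall fun n => ?_)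
  · intro g hg
    by_contra hcon
    simp only [mem_ofPred_eq, not_exists, not_lt] at hcon
    exact hg fun i j => abs_gsym_le (by (clear * - hε; positivity)) hcon i j
  · refine (max_bound n (by positivity)).trans ?_
    rw [mul_pow, sq_sqrt (Nat.cast_nonneg n), ← mul_assoc, ← mul_assoc]

end Vale.Agent.P150
end

section

/-! Gaussian concentration toolbox, part 2: McShane extensions, the SK matrix. -/

open MeasureTheory ProbabilityTheory Real Set Filter Topology
open scoped ENNReal NNReal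

namespace Vale.Agent.P150.F

section general

variable {ι : Type*} [Fintype ι]

theorem ed_eq_dist (w w' : ι → ℝ) : ed w w' = dist (WithLp.toLp 2 w) (WithLp.toLp 2 w') := by
  rw [EuclideanSpace.dist_eq]
  unfold ed
  congr 1
  refine Finset.sum_congr rfl fun i _ => ?_
  rw [Real.dist_eq, sq_abs]

theorem ed_comm (w w' : ι → ℝ) : ed w w' = ed w' w := by
  rw [ed_eq_dist, ed_eq_dist, dist_comm]

/-- McShane extension. -/
theorem exists_ext {L : ℝ} (hL : 0 ≤ L) {S : Set (ι → ℝ)} {f : (ι → ℝ) → ℝ}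
    (hf : ∀ w ∈ S, ∀ w' ∈ S, |f w - f w'| ≤ L * ed w w') :
    ∃ fe : (ι → ℝ) → ℝ, Lip L fe ∧ ∀ w ∈ S, fe w = f w := by
  set F : EuclideanSpace ℝ ι → ℝ := fun x => f (WithLp.ofLp x) with hF
  have h1 : LipschitzOnWith ⟨L, hL⟩ F ((WithLp.ofLp : EuclideanSpace ℝ ι → (ι → ℝ)) ⁻¹' S) := by
    refine LipschitzOnWith.of_dist_le_mul fun x hx y hy => ?_
    have h2 := hf (WithLp.ofLp x) hx (WithLp.ofLp y) hy
    rw [ed_eq_dist] at h2
    exact h2
  obtain ⟨G, hG, hGF⟩ := h1.extend_real
  refine ⟨fun w => G (WithLp.toLp 2 w), fun w w' => ?_, fun w hw => ?_⟩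
  · have := hG.dist_le_mul (WithLp.toLp 2 w) (WithLp.toLp 2 w')
    rw [ed_eq_dist]
    exact this
  · exact (hGF (show WithLp.toLp 2 w ∈ _ from hw)).symm

theorem Lip.congr {L : ℝ} {f g : (ι → ℝ) → ℝ} (hf : Lip L f) (h : ∀ w, f w = g w) : Lip L g := by
  intro w w'
  rw [← h, ← h]
  exact hf w w'

theorem Lip.abs {L : ℝ} {f : (ι → ℝ) → ℝ} (hf : Lip L f) : Lip L (fun w => |f w|) :=
  fun w w' => (abs_abs_sub_abs_le_abs_sub _ _).trans (hf w w')

/-- Suprema of Lipschitz functions. -/
theorem Lip.iSup {T : Type*} [Nonempty T] {L : ℝ} {F : T → (ι → ℝ) → ℝ} (hF : ∀ t, Lip L (F t))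
    (hb : ∀ w, BddAbove (range fun t => F t w)) : Lip L (fun w => ⨆ t, F t w) := by
  have key : ∀ w w', (⨆ t, F t w) ≤ (⨆ t, F t w') + L * ed w w' := by
    intro w w'
    refine ciSup_le fun t => ?_
    have h1 := (_root_.abs_le.1 (hF t w w')).2
    have h2 := le_ciSup (hb w') t
    linarith
  intro w w'
  rw [_root_.abs_le]
  have h1 := key w w'
  have h2 := key w' w
  rw [ed_comm w' w] at h2
  constructor <;> linarith

/-- Suprema of finitely many Lipschitz functions. -/
theorem Lip.iSup_fin {T : Type*} [Finite T] [Nonempty T] {L : ℝ} {F : T → (ι → ℝ) → ℝ}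
    (hF : ∀ t, Lip L (F t)) : Lip L (fun w => _root_.iSup fun t => F t w) :=
  Lip.iSup hF fun _ => Set.finite_range _ |>.bddAbove

/-- Linear functionals. -/
theorem Lip.lin (a : ι → ℝ) : Lip (√(∑ i, a i ^ 2)) (fun w => ∑ i, a i * w i) := by
  intro w w'
  rw [← Finset.sum_sub_distrib]
  have h1 : ∑ i, (a i * w i - a i * w' i) = ∑ i, a i * (w i - w' i) :=
    Finset.sum_congr rfl fun i _ => by ring
  rw [h1]
  unfold ed
  rw [← Real.sqrt_mul (Finset.sum_nonneg fun _ _ => sq_nonneg _)]
  exact Real.abs_le_sqrt (Finset.sum_mul_sq_le_sq_mul_sq _ _ _)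

theorem integrable_sq_coord (i : ι) : Integrable (fun w : ι → ℝ => w i ^ 2) (gpi ι) := by
  classical
  have h := (Lip.lin (fun j : ι => if j = i then (1 : ℝ) else 0)).integrable_sq
  refine h.congr (ae_of_all _ fun w => ?_)
  simp

theorem integral_sq_coord (i : ι) : ∫ w : ι → ℝ, w i ^ 2 ∂gpi ι = 1 := by
  have hmp : MeasurePreserving (Function.eval i) (gpi ι) (gaussianReal 0 1) :=
    measurePreserving_eval (fun _ : ι => gaussianReal 0 1) i
  have h1 : ∫ w : ι → ℝ, w i ^ 2 ∂gpi ι = ∫ x, x ^ 2 ∂gaussianReal 0 1 := by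
    rw [← hmp.map_eq, integral_map hmp.measurable.aemeasurable (by fun_prop)]
  rw [h1]
  have h2 := variance_id_gaussianReal (μ := 0) (v := 1)
  rw [variance_eq_integral (by fun_prop)] at h2
  simpa using h2

theorem integral_sq_norm : ∫ w : ι → ℝ, (∑ i, w i ^ 2) ∂gpi ι = Fintype.card ι := by
  rw [integral_finsetSum _ fun i _ => integrable_sq_coord i]
  simp [integral_sq_coord]

/-- Second moment of Lipschitz functions. -/
theorem Lip.integral_sq_le {L : ℝ} {f : (ι → ℝ) → ℝ} (hf : Lip L f) :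
    ∫ w, f w ^ 2 ∂gpi ι ≤ 2 * f 0 ^ 2 + 2 * L ^ 2 * Fintype.card ι := by
  have h1 : ∫ w, f w ^ 2 ∂gpi ι ≤ ∫ w : ι → ℝ, (2 * f 0 ^ 2 + 2 * L ^ 2 * ∑ i, w i ^ 2) ∂gpi ι := by
    refine integral_mono hf.integrable_sq ((integrable_const _).add
      ((integrable_finsetSum _ fun i _ => integrable_sq_coord i).const_mul _)) fun w => ?_
    simp only
    have h2 := hf w 0
    have h3 := ed_sq w 0
    simp only [Pi.zero_apply, sub_zero] at h3
    rw [← h3]
    have h4 : (f w - f 0) ^ 2 ≤ (L * ed w 0) ^ 2 := by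
      rw [_root_.abs_le] at h2
      exact sq_le_sq' (by linarith [h2.1]) h2.2
    linarith only [h4, sq_nonneg (f w - 2 * f 0)]
  refine h1.trans (le_of_eq ?_)
  rw [integral_add (integrable_const _) ((integrable_finsetSum _ fun i _ =>
    integrable_sq_coord i).const_mul _), integral_const_mul (2 * L ^ 2), integral_sq_norm]
  simp

/-- The mean of a Lipschitz function and its mean over a set of large probability. -/
theorem Lip.abs_integral_compl_le {L : ℝ} {f : (ι → ℝ) → ℝ} (hf : Lip L f) {S : Set (ι → ℝ)}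
    (hS : MeasurableSet S) :
    |∫ w, f w ∂gpi ι - ∫ w in S, f w ∂gpi ι| ≤
      √(2 * f 0 ^ 2 + 2 * L ^ 2 * Fintype.card ι) * √((gpi ι).real Sᶜ) := by
  have h1 : ∫ w, f w ∂gpi ι - ∫ w in S, f w ∂gpi ι = ∫ w in Sᶜ, f w ∂gpi ι := by
    rw [← integral_add_compl hS hf.integrable]
    ring
  rw [h1]
  have h2 : |∫ w in Sᶜ, f w ∂gpi ι| ≤ ∫ w in Sᶜ, |f w| ∂gpi ι := abs_integral_le_integral_abs
  refine h2.trans ?_
  have h3 : ∫ w in Sᶜ, |f w| ∂gpi ι = ∫ w, |f w| * Sᶜ.indicator (fun _ => (1 : ℝ)) w ∂gpi ι := by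
    rw [← integral_indicator hS.compl]
    refine integral_congr_ae (ae_of_all _ fun w => ?_)
    by_cases h : w ∈ Sᶜ
    · simp [indicator_of_mem h]
    · simp [indicator_of_notMem h]
  rw [h3]
  have hi : Integrable (fun w => Sᶜ.indicator (fun _ => (1 : ℝ)) w ^ 2) (gpi ι) := by
    have : (fun w => Sᶜ.indicator (fun _ => (1 : ℝ)) w ^ 2) = Sᶜ.indicator (fun _ => (1 : ℝ)) := by
      funext w
      by_cases h : w ∈ Sᶜ
      · simp [indicator_of_mem h]
      · simp [indicator_of_notMem h]
    rw [this]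
    exact (integrable_const _).indicator hS.compl
  have h4 : (∫ w, |f w| * Sᶜ.indicator (fun _ => (1 : ℝ)) w ∂gpi ι) ^ 2 ≤
      (∫ w, f w ^ 2 ∂gpi ι) * (gpi ι).real Sᶜ := by
    have h5 : (∫ w, Sᶜ.indicator (fun _ => (1 : ℝ)) w ^ 2 ∂gpi ι) = (gpi ι).real Sᶜ := by
      have : (fun w => Sᶜ.indicator (fun _ => (1 : ℝ)) w ^ 2) =
          Sᶜ.indicator (fun _ => (1 : ℝ)) := by
        funext w
        by_cases h : w ∈ Sᶜ
        · simp [indicator_of_mem h]
        · simp [indicator_of_notMem h]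
      rw [this, integral_indicator_const _ hS.compl]
      simp
    rw [← h5]
    set i1 : (ι → ℝ) → ℝ := Sᶜ.indicator (fun _ => (1 : ℝ)) with hi1
    have hi0 : ∀ w, |i1 w| ≤ 1 := fun w => by
      by_cases h : w ∈ Sᶜ
      · simp [hi1, indicator_of_mem h]
      · simp [hi1, indicator_of_notMem h]
    have him : Measurable i1 := measurable_const.indicator hS.compl
    have hfi : Integrable (fun w => |f w| * i1 w) (gpi ι) := by
      refine hf.integrable.abs.mono' (hf.measurable.abs.mul him).aestronglyMeasurable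
        (ae_of_all _ fun w => ?_)
      rw [Real.norm_eq_abs, abs_mul, abs_abs]
      exact mul_le_of_le_one_right (abs_nonneg _) (hi0 w)
    have hd := discrim_le_zero (a := ∫ w, i1 w ^ 2 ∂gpi ι)
      (b := -2 * ∫ w, |f w| * i1 w ∂gpi ι) (c := ∫ w, f w ^ 2 ∂gpi ι) (fun t => by
        have h6 : 0 ≤ ∫ w, (|f w| - t * i1 w) ^ 2 ∂gpi ι := integral_nonneg fun w => sq_nonneg _
        have h7 : ∫ w, (|f w| - t * i1 w) ^ 2 ∂gpi ι =
            ∫ w, (f w ^ 2 + (-2 * t) * (|f w| * i1 w) + t ^ 2 * i1 w ^ 2) ∂gpi ι := by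
          refine integral_congr_ae (ae_of_all _ fun w => ?_)
          simp only
          rw [← sq_abs (f w)]
          ring
        have hA : Integrable (fun w => f w ^ 2 + (-2 * t) * (|f w| * i1 w)) (gpi ι) :=
          hf.integrable_sq.add (hfi.const_mul _)
        rw [h7, integral_add hA (hi.const_mul _),
          integral_add hf.integrable_sq (hfi.const_mul _), integral_const_mul,
          integral_const_mul] at h6
        linarith)
    unfold discrim at hd
    linarith only [hd]
  rw [← Real.sqrt_mul (by (clear * -; positivity))]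
  refine Real.le_sqrt_of_sq_le (h4.trans ?_)
  exact mul_le_mul_of_nonneg_right hf.integral_sq_le measureReal_nonneg

/-- Sign flips preserve the Gaussian measure. -/
theorem mp_flip (ε : ι → ℝ) (hε : ∀ i, ε i = 1 ∨ ε i = -1) :
    MeasurePreserving (fun (w : ι → ℝ) i => ε i * w i) (gpi ι) (gpi ι) := by
  refine measurePreserving_pi (fun _ => gaussianReal 0 1) (fun _ => gaussianReal 0 1) fun i => ?_
  refine ⟨by fun_prop, ?_⟩
  rw [gaussianReal_map_const_mul]
  congr 1
  · simp
  · rcases hε i with h | h <;> ext <;> simp [h]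

end general

/-! ### Matrices -/

section mat

variable {n : ℕ}

theorem sq_nonneg' (v : Vec n) : 0 ≤ sq v := Finset.sum_nonneg fun _ _ => sq_nonneg _

theorem ip_self (v : Vec n) : ip v v = sq v :=
  Finset.sum_congr rfl fun i _ => (pow_two _).symm

theorem qf_eq_sum (A : Mat n) (v : Vec n) : qf A v = ∑ i, ∑ j, A i j * v i * v j := by
  unfold qf ip Matrix.mulVec dotProduct
  refine Finset.sum_congr rfl fun i _ => ?_
  rw [Finset.mul_sum]
  exact Finset.sum_congr rfl fun j _ => by ring

theorem ip_mulVec_symm {A : Mat n} (hA : ∀ i j, A i j = A j i) (u v : Vec n) :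
    ip u (A.mulVec v) = ip v (A.mulVec u) := by
  unfold ip Matrix.mulVec dotProduct
  simp_rw [Finset.mul_sum]
  rw [Finset.sum_comm]
  refine Finset.sum_congr rfl fun i _ => Finset.sum_congr rfl fun j _ => ?_
  rw [hA j i]
  ring

theorem qf_add_smul {A : Mat n} (hA : ∀ i j, A i j = A j i) (u v : Vec n) (s : ℝ) :
    qf A (v + s • u) = qf A v + 2 * s * ip u (A.mulVec v) + s ^ 2 * qf A u := by
  have h1 : ip u (A.mulVec v) = ip v (A.mulVec u) := ip_mulVec_symm hA u v
  unfold qf
  rw [Matrix.mulVec_add, Matrix.mulVec_smul]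
  have h2 : ∀ a b c d : Vec n, ip (a + s • b) (c + s • d) =
      ip a c + s * ip a d + s * ip b c + s ^ 2 * ip b d := by
    intro a b c d
    unfold ip
    rw [Finset.mul_sum, Finset.mul_sum, Finset.mul_sum, ← Finset.sum_add_distrib,
      ← Finset.sum_add_distrib, ← Finset.sum_add_distrib]
    refine Finset.sum_congr rfl fun i _ => ?_
    simp only [Pi.add_apply, Pi.smul_apply, smul_eq_mul]
    ring
  rw [h2, ← h1]
  ring

theorem sq_add_smul (u v : Vec n) (s : ℝ) :
    sq (v + s • u) = sq v + 2 * s * ip u v + s ^ 2 * sq u := by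
  unfold sq ip
  rw [Finset.mul_sum, Finset.mul_sum, ← Finset.sum_add_distrib, ← Finset.sum_add_distrib]
  refine Finset.sum_congr rfl fun i _ => ?_
  simp only [Pi.add_apply, Pi.smul_apply, smul_eq_mul]
  ring

/-- A symmetric matrix with quadratic form at most `C` has operator norm at most `C`. -/
theorem opLe_of_qf {A : Mat n} (hA : ∀ i j, A i j = A j i) {C : ℝ} (hC : 0 < C)
    (h : ∀ v, |qf A v| ≤ C * sq v) : OpLe A C := by
  intro v
  set u := A.mulVec v with hu
  set s := 1 / C with hs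
  have h1 := qf_add_smul hA u v s
  have h2 := qf_add_smul hA u v (-s)
  have h3 := h (v + s • u)
  have h4 := h (v + (-s) • u)
  rw [sq_add_smul] at h3 h4
  rw [← hu, ip_self] at h1 h2
  have h5 : qf A (v + s • u) - qf A (v + (-s) • u) = 4 * s * sq u := by
    rw [h1, h2]; ring
  have h6 := (abs_le.1 h3).2
  have h7 := (abs_le.1 h4).1
  have h8 : 4 * s * sq u ≤ C * (2 * sq v + 2 * s ^ 2 * sq u) := by
    rw [← h5]
    linarith only [h7, h6]
  rw [hs] at h8
  have h9 : C * (2 * sq v + 2 * (1 / C) ^ 2 * sq u) = 2 * C * sq v + 2 * (1 / C) * sq u := by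
    field_simp
  rw [h9] at h8
  have h10 : 1 / C * sq u ≤ C * sq v := by linarith only [h8]
  rw [one_div, inv_mul_le_iff₀ hC] at h10
  calc sq u ≤ C * (C * sq v) := h10
    _ = C ^ 2 * sq v := by ring

theorem skM_symm (g : Pairs n → ℝ) (i j : Fin n) : skM g i j = skM g j i := by
  unfold skM; rw [gsym_comm]

theorem skM_self (g : Pairs n → ℝ) (i : Fin n) : skM g i i = 0 := by
  unfold skM; rw [gsym_self, zero_div]

theorem skM_sub (g g' : Pairs n → ℝ) : skM g - skM g' = skM (g - g') := by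
  ext i j
  simp only [Matrix.sub_apply, skM, ← sub_div]
  congr 1
  unfold gsym
  split_ifs <;> simp

theorem hsq_skM (g : Pairs n → ℝ) : hsq (skM g) = 2 / n * ∑ p, g p ^ 2 := by
  unfold hsq
  rw [sum_pairs]
  simp only [skM_self]
  rw [Finset.mul_sum]
  simp only [ne_eq, OfNat.ofNat_ne_zero, not_false_eq_true, zero_pow, Finset.sum_const_zero,
    add_zero]
  refine Finset.sum_congr rfl fun p _ => ?_
  unfold skM
  rw [gsym_pair, gsym_pair', div_pow, Real.sq_sqrt (Nat.cast_nonneg n)]
  ring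

/-- `g ↦ skM g` scales distances by `√(2/n)`. -/
theorem hsq_skM_sub (g g' : Pairs n → ℝ) : hsq (skM g - skM g') = 2 / n * ed g g' ^ 2 := by
  rw [skM_sub, hsq_skM, ed_sq]
  rfl

theorem sqrt_hsq_skM_sub (g g' : Pairs n → ℝ) :
    √(hsq (skM g - skM g')) = √(2 / n) * ed g g' := by
  rw [hsq_skM_sub, Real.sqrt_mul (by positivity), Real.sqrt_sq (ed_nonneg _ _)]

theorem qf_skM (g : Pairs n → ℝ) (v : Vec n) :
    qf (skM g) v = (∑ i, ∑ j, gsym g i j * v i * v j) / √n := by
  rw [qf_eq_sum, Finset.sum_div]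
  refine Finset.sum_congr rfl fun i _ => ?_
  rw [Finset.sum_div]
  refine Finset.sum_congr rfl fun j _ => ?_
  unfold skM
  ring

/-- A bound on the operator norm from the complement of the bad events. -/
theorem opLe_of_not_bad (hn : 0 < n) {δ : ℝ} (hδ : 0 < δ) {g : Pairs n → ℝ}
    (h1 : g ∉ Bad n 1 ((2 + δ) * √n)) (h2 : g ∉ Bad n (-1) ((2 + δ) * √n)) :
    OpLe (skM g) (2 + δ) := by
  refine opLe_of_qf (skM_symm g) (by linarith only [hδ]) fun v => ?_
  have hs : 0 < √(n : ℝ) := Real.sqrt_pos.2 (by exact_mod_cast hn)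
  rw [qf_skM, abs_div, abs_of_pos hs, div_le_iff₀ hs, _root_.abs_le]
  have a1 : ¬ (2 + δ) * √n * ∑ i, v i ^ 2 < 1 * ∑ i, ∑ j, gsym g i j * v i * v j :=
    fun h => h1 ⟨v, h⟩
  have a2 : ¬ (2 + δ) * √n * ∑ i, v i ^ 2 < -1 * ∑ i, ∑ j, gsym g i j * v i * v j :=
    fun h => h2 ⟨v, h⟩
  have e : (2 + δ) * sq v * √n = (2 + δ) * √n * ∑ i, v i ^ 2 := by
    unfold sq; ring
  rw [e]
  rw [not_lt] at a1 a2
  constructor <;> linarith

/-- **[G0]** with exponential probability. -/
theorem opLe_exp {δ : ℝ} (hδ : 0 < δ) : ∃ a : ℝ, 0 < a ∧ ∃ N : ℕ, ∀ n ≥ N,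
    (disorder n).real {g | ¬ OpLe (skM g) (2 + δ)} ≤ Real.exp (-(a * n)) := by
  set ε := min δ 1 with hε
  have hε0 : 0 < ε := lt_min hδ one_pos
  have hε1 : ε ≤ 1 := min_le_right _ _
  have hεδ : ε ≤ δ := min_le_left _ _
  set a := (ε / 8) ^ 2 / 8 with ha
  have ha0 : 0 < a := by positivity
  have hlim : Tendsto (fun n : ℕ => 2 * (Real.exp (-(a * n)) + 2 * ((n : ℝ) * Real.exp (-(a * n)) +
      Real.exp (-(a * n))))) atTop (𝓝 0) := by
    have t1 := tendsto_exp_lin ha0 0
    have t2 := tendsto_exp_lin ha0 1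
    have := (t1.add ((t2.add t1).const_mul 2)).const_mul 2
    simp only [add_zero, mul_zero] at this
    refine this.congr fun n => ?_
    simp
  obtain ⟨N, hN⟩ := Filter.eventually_atTop.1 ((tendsto_order.1 hlim).2 1 one_pos)
  refine ⟨a, ha0, max N 1, fun n hn => ?_⟩
  have hn0 : 0 < n := lt_of_lt_of_le one_pos ((le_max_right _ _).trans hn)
  have hnN := hN n ((le_max_left _ _).trans hn)
  have hsub : {g : Pairs n → ℝ | ¬ OpLe (skM g) (2 + δ)} ⊆
      Bad n 1 ((2 + ε) * √n) ∪ Bad n (-1) ((2 + ε) * √n) := by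
    intro g hg
    by_contra hc
    rw [mem_union, not_or] at hc
    refine hg fun v => ((opLe_of_not_bad hn0 hε0 hc.1 hc.2) v).trans ?_
    exact mul_le_mul_of_nonneg_right (pow_le_pow_left₀ (by linarith only [hε0]) (by linarith only [hεδ]) 2)
      (sq_nonneg' v)
  have b1 := bad_le hn0 (σ := 1) (by norm_num) hε0 hε1
  have b2 := bad_le hn0 (σ := -1) (by norm_num) hε0 hε1
  refine (measureReal_mono hsub).trans ((measureReal_union_le _ _).trans ?_)
  have e1 : Real.exp (-((ε / 4) ^ 2 / 8 * n)) ≤ Real.exp (-(a * n)) * Real.exp (-(a * n)) := by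
    rw [← Real.exp_add]
    refine Real.exp_le_exp.2 ?_
    rw [ha]
    have : (0 : ℝ) ≤ n := Nat.cast_nonneg n
    linarith only [mul_nonneg (sq_nonneg ε) this]
  have e2 : Real.exp (-(1 / 4 * ((ε / 8) ^ 2 * n))) = Real.exp (-(a * n)) * Real.exp (-(a * n)) := by
    rw [← Real.exp_add]
    congr 1
    rw [ha]; ring
  rw [e2] at b1 b2
  set E := Real.exp (-(a * n)) with hE
  have hE0 : 0 < E := Real.exp_pos _
  have hn' : (0 : ℝ) ≤ n := Nat.cast_nonneg n
  calc _ ≤ (E * E + (n + 1) * (E * E * 2)) + (E * E + (n + 1) * (E * E * 2)) :=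
        add_le_add (b1.trans (add_le_add e1 le_rfl)) (b2.trans (add_le_add e1 le_rfl))
    _ = E * (2 * (E + 2 * (n * E + E))) := by ring
    _ ≤ E * 1 := mul_le_mul_of_nonneg_left hnN.le hE0.le
    _ = E := mul_one _

/-- **[G0]** -/
theorem opLe_three : ∃ a : ℝ, 0 < a ∧ ∃ N : ℕ, ∀ n ≥ N,
    (disorder n).real {g | ¬ OpLe (skM g) 3} ≤ Real.exp (-(a * n)) := by
  have := opLe_exp (δ := 1) one_pos
  norm_num at this
  exact this

theorem continuous_skM : Continuous fun g : Pairs n → ℝ => skM g := by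
  refine continuous_matrix fun i j => ?_
  unfold skM
  exact (continuous_gsym i j).div_const _

theorem isClosed_opLe (C : ℝ) : IsClosed {A : Mat n | OpLe A C} := by
  have : {A : Mat n | OpLe A C} = ⋂ v : Vec n, {A | sq (A.mulVec v) ≤ C ^ 2 * sq v} := by
    ext A
    simp [OpLe]
  rw [this]
  refine isClosed_iInter fun v => isClosed_le ?_ continuous_const
  unfold sq Matrix.mulVec dotProduct
  fun_prop

theorem measurableSet_opLe (C : ℝ) : MeasurableSet {g : Pairs n → ℝ | OpLe (skM g) C} :=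
  ((isClosed_opLe C).preimage continuous_skM).measurableSet

end mat

end Vale.Agent.P150.F
end
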