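import Mathlib
import Vale.Agent.P150.Bdl.B1
import Vale.Agent.P150.Bdl.B3

set_option linter.all false

section

/-! The output of D6 (steered stochastic localization with a tracked TAP solution) in the form used
by D7 and D8, and the statement of D3M. -/

open MeasureTheory ProbabilityTheory Filter Topology Real
open scoped Matrix

namespace Vale.Agent.P150.F

/-- A localization process started from `gM (β J) 0`, with `N` micro steps, which ends in product
measures, with a tracked mean `mh`. `C`: uniform constant; `T`: bound for the total duration;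
`exp (-c n)`: bound for the exit probability; `δ₀`: bound for the micro steps. -/
structure D6Out (β C T c : ℝ) {n : ℕ} (J : Mat n) (δ₀ : ℝ) where
  /-- states -/
  S : Type
  /-- measurable structure -/
  ms : MeasurableSpace S
  /-- the process -/
  P : Proc n n S
  /-- number of micro steps -/
  N : ℕ
  /-- initial state -/
  s0 : S
  /-- `Inv k s`: `s` is a valid state with `k` remaining steps -/
  Inv : ℕ → S → Prop
  /-- exit states -/
  Exit : Set S
  /-- tracked mean -/
  mh : S → Vec n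
  /-- `dur k`: duration of the step from `k + 1` to `k` remaining steps -/
  dur : ℕ → ℝ
  measExit : MeasurableSet Exit
  measmh : ∀ i, Measurable fun s => mh s i
  mh_le : ∀ s i, |mh s i| ≤ 1
  M0 : P.M s0 = β • J
  y0 : P.y s0 = 0
  inv0 : Inv N s0
  invS : ∀ k s z, Inv (k + 1) s → Inv k (P.nxt s z)
  δ_eq : ∀ k s, Inv (k + 1) s → P.δ s = dur k
  dur_pos : ∀ k, 0 < dur k
  dur_le : ∀ k, dur k ≤ δ₀
  dur_sum : ∑ k ∈ Finset.range N, dur k ≤ T
  R_le : ∀ k s, Inv (k + 1) s → ∀ i j, |P.R s i j| ≤ C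
  Q_le : ∀ k s, Inv (k + 1) s → OpLe (P.Q s) C
  fin_M : ∀ s, Inv 0 s → ∀ i j, i ≠ j → P.M s i j = 0
  fin_mh : ∀ s, Inv 0 s → s ∉ Exit → nv (mh s - fun i => Real.tanh (P.y s i)) ≤ 1
  /-- one-step drift of the tracked mean, for EVERY law `ν` of the spins -/
  drift : ∀ k s, Inv (k + 1) s → s ∉ Exit → ∀ ν : Cfg n → ℝ, IsProb ν →
    nv ((fun i => EC ν (P.R s) (P.δ s) (fun _ z => mh (P.nxt s z) i)) - mh s)
      ≤ C * P.δ s * (nv (mean ν - mh s) + 1)
  exit_le : P.hitE (fun _ => Exit) N s0 ≤ Real.exp (-(c * n))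

attribute [instance] D6Out.ms

/-- D6 in filter form -/
def D6Statement : Prop := ∀ (β : ℝ), 0 ≤ β → β < 1 →
  ∀ {I : Type} (F : Filter I) (n : I → ℕ) (J : ∀ i, Mat (n i)), Good β F n J →
    ∃ C T c : ℝ, 0 < C ∧ 0 < T ∧ 0 < c ∧ ∀ᶠ i in F, ∀ δ₀ > 0, Nonempty (D6Out β C T c (J i) δ₀)

/-- D3M in filter form: an entropy bound for near-DLR laws (positive densities) -/
def D3MStatement : Prop := ∀ (β : ℝ), 0 ≤ β → β < 1 →
  ∀ {I : Type} (F : Filter I) (n : I → ℕ) (J : ∀ i, Mat (n i)), Good β F n J →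
    ∀ ε > 0, ∃ η > 0, ∀ᶠ i in F, ∀ ν : Cfg (n i) → ℝ, IsProb ν → (∀ x, 0 < ν x) →
      IP' ν (gM (β • J i) 0) ≤ η * n i → KL ν (gM (β • J i) 0) ≤ ε * n i

end Vale.Agent.P150.F
end

section

/-! Truncation of densities (module D8, part A): the entropy / entropy production inequality for all
laws follows from the one for laws with density at most `8 e^{an}`, given the macroscopic
statement that a small Dirichlet form of the root density implies small relative entropy. -/

open Finset

namespace Vale.Agent.P150.F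

variable {n : ℕ}

namespace D8T

lemma wt_nonneg {μ : Cfg n → ℝ} (hμ : ∀ x, 0 < μ x) (i : Fin n) (x : Cfg n) :
    0 ≤ μ x * μ (flip x i) / (μ x + μ (flip x i)) :=
  div_nonneg (mul_nonneg (hμ _).le (hμ _).le) (add_pos (hμ _) (hμ _)).le

lemma DirW_le {μ : Cfg n → ℝ} (hμ : ∀ x, 0 < μ x) {f g f' g' : Cfg n → ℝ} (c : ℝ)
    (h : ∀ x y, (f y - f x) * (g y - g x) ≤ c * ((f' y - f' x) * (g' y - g' x))) :
    DirW μ f g ≤ c * DirW μ f' g' := by
  unfold DirW
  have h1 : ∀ i x, μ x * μ (flip x i) / (μ x + μ (flip x i)) *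
      ((f (flip x i) - f x) * (g (flip x i) - g x)) ≤
      c * (μ x * μ (flip x i) / (μ x + μ (flip x i)) *
      ((f' (flip x i) - f' x) * (g' (flip x i) - g' x))) := by
    intro i x
    have := mul_le_mul_of_nonneg_left (h x (flip x i)) (wt_nonneg hμ i x)
    linarith only [this]
  have h2 := Finset.sum_le_sum fun i (_ : i ∈ univ) =>
    Finset.sum_le_sum fun x (_ : x ∈ univ) => h1 i x
  simp only [← Finset.mul_sum] at h2
  linarith only [h2]

lemma DirW_sq_nonneg {μ : Cfg n → ℝ} (hμ : ∀ x, 0 < μ x) (f : Cfg n → ℝ) : 0 ≤ DirW μ f f := by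
  unfold DirW
  refine mul_nonneg (by norm_num) (Finset.sum_nonneg fun i _ => Finset.sum_nonneg fun x _ => ?_)
  exact mul_nonneg (wt_nonneg hμ i x) (mul_self_nonneg _)

/-- `(√a-√b)² ≤ ½ (a-b)(log a - log b)` -/
lemma sqrt_log_ineq {a b : ℝ} (ha : 0 < a) (hb : 0 < b) :
    (√a - √b) * (√a - √b) ≤ 1 / 2 * ((a - b) * (Real.log a - Real.log b)) := by
  have key : ∀ a b : ℝ, 0 < b → b ≤ a →
      (√a - √b) * (√a - √b) ≤ 1 / 2 * ((a - b) * (Real.log a - Real.log b)) := by
    intro a b hb hab
    have ha : 0 < a := lt_of_lt_of_le hb hab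
    set u := √a with hu
    set v := √b with hv
    have hu0 : 0 < u := Real.sqrt_pos.2 ha
    have hv0 : 0 < v := Real.sqrt_pos.2 hb
    have huv : v ≤ u := Real.sqrt_le_sqrt hab
    have hua : a = u ^ 2 := (Real.sq_sqrt ha.le).symm
    have hvb : b = v ^ 2 := (Real.sq_sqrt hb.le).symm
    have hl : 1 - (u / v)⁻¹ ≤ Real.log (u / v) := Real.one_sub_inv_le_log_of_pos (div_pos hu0 hv0)
    rw [Real.log_div hu0.ne' hv0.ne', inv_div] at hl
    have e1 : Real.log a - Real.log b = 2 * (Real.log u - Real.log v) := by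
      rw [hua, hvb, Real.log_pow, Real.log_pow]; push_cast; ring
    rw [e1, hua, hvb]
    have h1 : (u - v) ≤ u * (Real.log u - Real.log v) := by
      have := mul_le_mul_of_nonneg_left hl hu0.le
      have e : u * (1 - v / u) = u - v := by field_simp
      linarith only [e, this]
    have h2 : 0 ≤ u - v := by linarith only [huv]
    have h3 : 0 ≤ Real.log u - Real.log v := by
      have := Real.log_le_log hv0 huv; linarith only [this]
    have h4 : (u - v) * (u - v) ≤ (u - v) * (u * (Real.log u - Real.log v)) :=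
      mul_le_mul_of_nonneg_left h1 h2
    have h5 : 0 ≤ (u - v) * (v * (Real.log u - Real.log v)) :=
      mul_nonneg h2 (mul_nonneg hv0.le h3)
    linarith only [h4, h5]
  rcases le_total b a with h | h
  · exact key a b hb h
  · have := key b a ha h
    linarith [this]

lemma IP_le_prod {μ : Cfg n → ℝ} (hμ : ∀ x, 0 < μ x) (ν : Cfg n → ℝ) (hν : ∀ x, 0 < ν x) :
    IP' ν μ ≤ 1 / 2 * DirW μ (fun x => ν x / μ x) (fun x => Real.log (ν x / μ x)) := by
  unfold IP'
  apply DirW_le hμ
  intro x y
  exact sqrt_log_ineq (div_pos (hν y) (hμ y)) (div_pos (hν x) (hμ x))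

/-- supported entropy bound -/
lemma KL_ge_supp {μ ν : Cfg n → ℝ} (hμ : ∀ x, 0 < μ x) (hν : IsProb ν) (S : Finset (Cfg n))
    (hS : ∀ x, x ∉ S → ν x = 0) (hS0 : 0 < ∑ x ∈ S, μ x) :
    - Real.log (∑ x ∈ S, μ x) ≤ KL ν μ := by
  unfold KL
  set Z := ∑ x ∈ S, μ x with hZ
  have hsum : ∑ x ∈ S, ν x = 1 := by
    rw [← hν.2]
    exact Finset.sum_subset (Finset.subset_univ _) fun x _ hx => hS x hx
  have e1 : ∑ x, ν x * Real.log (ν x / μ x) = ∑ x ∈ S, ν x * Real.log (ν x / μ x) := by
    symm
    exact Finset.sum_subset (Finset.subset_univ _) fun x _ hx => by rw [hS x hx]; simp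
  rw [e1]
  have h1 : ∀ x ∈ S, ν x - μ x / Z ≤ ν x * Real.log (ν x / μ x) + ν x * Real.log Z := by
    intro x _
    rcases (hν.1 x).eq_or_lt with h | h
    · rw [← h]; simp only [zero_mul, add_zero, zero_sub]
      have := div_pos (hμ x) hS0
      linarith only [this]
    · have hq : 0 < ν x / (μ x / Z) := div_pos h (div_pos (hμ x) hS0)
      have h2 := Real.one_sub_inv_le_log_of_pos hq
      have h3 := mul_le_mul_of_nonneg_left h2 h.le
      have e3 : ν x * (1 - (ν x / (μ x / Z))⁻¹) = ν x - μ x / Z := by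
        have := h.ne'
        field_simp
      have e4 : Real.log (ν x / (μ x / Z)) = Real.log (ν x / μ x) + Real.log Z := by
        rw [← Real.log_mul (div_pos h (hμ x)).ne' hS0.ne']
        congr 1
        have := (hμ x).ne'
        field_simp
      rw [e3, e4] at h3
      linarith only [h3]
  have h2 := Finset.sum_le_sum h1
  rw [Finset.sum_sub_distrib, Finset.sum_add_distrib, ← Finset.sum_mul, hsum, ← Finset.sum_div,
    ← hZ, div_self hS0.ne'] at h2
  linarith only [h2]

lemma KL_le_log {μ ν : Cfg n → ℝ} (hμ : ∀ x, 0 < μ x) (hν : IsProb ν) {B : ℝ}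
    (hB : ∀ x, - Real.log (μ x) ≤ B) : KL ν μ ≤ B := by
  unfold KL
  have h1 : ∀ x ∈ univ, ν x * Real.log (ν x / μ x) ≤ ν x * B := by
    intro x _
    rcases (hν.1 x).eq_or_lt with h | h
    · rw [← h]; simp
    · apply mul_le_mul_of_nonneg_left _ h.le
      rw [Real.log_div h.ne' (hμ x).ne']
      have hle : ν x ≤ 1 := by
        rw [← hν.2]; exact Finset.single_le_sum (fun y _ => hν.1 y) (Finset.mem_univ x)
      have := Real.log_nonpos h.le hle
      linarith [hB x]
  have h2 := Finset.sum_le_sum h1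
  rw [← Finset.sum_mul, hν.2, one_mul] at h2
  exact h2

/-- mass of the part where the density is large -/
lemma large_mass {μ ν : Cfg n → ℝ} (hμ : ∀ x, 0 < μ x) (hν : IsProb ν) (hn : 0 < n)
    {a η : ℝ} (ha : 0 < a)
    (hD : ∀ ν', IsProb ν' → IP' ν' μ ≤ η * n → KL ν' μ ≤ a / 2 * n) :
    ∑ x ∈ univ.filter (fun x => 4 * Real.exp (a * n) * μ x ≤ ν x), ν x * (η * n)
      ≤ 4 * IP' ν μ := by
  have hn' : (0 : ℝ) < n := by exact_mod_cast hn
  set A := Real.exp (a * n) with hA
  have hA0 : 0 < A := Real.exp_pos _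
  set f : Cfg n → ℝ := fun x => ν x / μ x with hf
  have hf0 : ∀ x, 0 ≤ f x := fun x => div_nonneg (hν.1 x) (hμ x).le
  set h : Cfg n → ℝ := fun x => max (√(f x) - √A) 0 with hh
  set p := ∑ x, μ x * h x ^ 2 with hp
  have hp0 : 0 ≤ p := Finset.sum_nonneg fun x _ => mul_nonneg (hμ x).le (sq_nonneg _)
  -- Dirichlet form of h
  have hDh : DirW μ h h ≤ IP' ν μ := by
    have := DirW_le hμ (f := h) (g := h) (f' := fun x => √(ν x / μ x))
      (g' := fun x => √(ν x / μ x)) 1 (by
        intro x y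
        rw [one_mul, ← pow_two, ← pow_two]
        apply sq_le_sq.2
        have h1 : |max (√(f y) - √A) 0 - max (√(f x) - √A) 0| ≤ |(√(f y) - √A) - (√(f x) - √A)| :=
          abs_max_sub_max_le_abs _ _ _
        have e : (√(f y) - √A) - (√(f x) - √A) = √(f y) - √(f x) := by ring
        rw [e] at h1
        exact h1)
    rw [one_mul] at this
    exact this
  -- key: p η n ≤ IP'
  have hkey : p * (η * n) ≤ IP' ν μ := by
    rcases hp0.eq_or_lt with h0 | hpos
    · rw [← h0, zero_mul]
      exact DirW_sq_nonneg hμ _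
    · set ν' : Cfg n → ℝ := fun x => μ x * h x ^ 2 / p with hν'
      have hν'P : IsProb ν' := by
        refine ⟨fun x => div_nonneg (mul_nonneg (hμ x).le (sq_nonneg _)) hpos.le, ?_⟩
        simp only [hν', ← Finset.sum_div]
        rw [← hp, div_self hpos.ne']
      have hh0 : ∀ x, 0 ≤ h x := fun x => le_max_right _ _
      have e1 : IP' ν' μ = DirW μ h h / p := by
        unfold IP'
        have e2 : (fun x => √(ν' x / μ x)) = fun x => h x / √p := by
          funext x
          have : ν' x / μ x = h x ^ 2 / p := by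
            simp only [hν']
            have := (hμ x).ne'
            field_simp
          rw [this, Real.sqrt_div (sq_nonneg _), Real.sqrt_sq (hh0 x)]
        rw [e2]
        unfold DirW
        rw [mul_div_assoc]
        congr 1
        rw [Finset.sum_div]
        refine Finset.sum_congr rfl fun i _ => ?_
        rw [Finset.sum_div]
        refine Finset.sum_congr rfl fun x _ => ?_
        have hsp : √p * √p = p := Real.mul_self_sqrt hpos.le
        have e3 : (h (flip x i) / √p - h x / √p) * (h (flip x i) / √p - h x / √p)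
            = (h (flip x i) - h x) * (h (flip x i) - h x) / p := by
          rw [← sub_div, div_mul_div_comm, hsp]
        rw [e3]
        ring
      -- support
      set S := univ.filter (fun x => A < f x) with hS
      have hSz : ∀ x, x ∉ S → ν' x = 0 := by
        intro x hx
        have : f x ≤ A := by
          by_contra hc
          exact hx (Finset.mem_filter.2 ⟨Finset.mem_univ _, not_le.1 hc⟩)
        have hx0 : h x = 0 := by
          simp only [hh]
          exact max_eq_right (sub_nonpos.2 (Real.sqrt_le_sqrt this))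
        simp only [hν', hx0]
        simp
      have hSne : S.Nonempty := by
        by_contra hc
        rw [Finset.not_nonempty_iff_eq_empty] at hc
        have : ∑ x, ν' x = 0 := Finset.sum_eq_zero fun x _ => hSz x (by rw [hc]; simp)
        rw [hν'P.2] at this
        exact one_ne_zero this
      have hS0 : 0 < ∑ x ∈ S, μ x := Finset.sum_pos (fun x _ => hμ x) hSne
      have hSA : (∑ x ∈ S, μ x) * A ≤ 1 := by
        rw [← hν.2, Finset.sum_mul]
        calc ∑ x ∈ S, μ x * A ≤ ∑ x ∈ S, ν x := by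
              apply Finset.sum_le_sum
              intro x hx
              have h1 : A < f x := (Finset.mem_filter.1 hx).2
              have h2 : A < ν x / μ x := h1
              rw [lt_div_iff₀ (hμ x)] at h2
              linarith only [h2]
          _ ≤ ∑ x, ν x := Finset.sum_le_sum_of_subset_of_nonneg (Finset.subset_univ _)
              fun x _ _ => hν.1 x
      have hlog : a * n ≤ - Real.log (∑ x ∈ S, μ x) := by
        have h1 : Real.log ((∑ x ∈ S, μ x) * A) ≤ 0 :=
          Real.log_nonpos (mul_pos hS0 hA0).le hSA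
        rw [Real.log_mul hS0.ne' hA0.ne', hA, Real.log_exp] at h1
        linarith only [h1]
      have hKL := KL_ge_supp hμ hν'P S hSz hS0
      have hnot : ¬ IP' ν' μ ≤ η * n := by
        intro hc
        have := hD ν' hν'P hc
        linarith only [mul_pos ha hn', this, hKL, hlog]
      rw [not_le, e1, lt_div_iff₀ hpos] at hnot
      linarith only [hnot, hDh]
  -- large part
  have hlarge : ∀ x ∈ univ.filter (fun x => 4 * A * μ x ≤ ν x), ν x ≤ 4 * (μ x * h x ^ 2) := by
    intro x hx
    have h1 : 4 * A * μ x ≤ ν x := (Finset.mem_filter.1 hx).2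
    have h2 : 4 * A ≤ f x := by
      simp only [hf]
      rw [le_div_iff₀ (hμ x)]
      exact h1
    have h3 : 2 * √A ≤ √(f x) := by
      have : √(4 * A) = 2 * √A := by
        rw [Real.sqrt_mul (by norm_num)]
        congr 1
        rw [show (4 : ℝ) = 2 ^ 2 by norm_num, Real.sqrt_sq (by norm_num)]
      rw [← this]
      exact Real.sqrt_le_sqrt h2
    have h4 : √(f x) / 2 ≤ h x := by
      simp only [hh]
      exact le_trans (by linarith only [h3]) (le_max_left _ _)
    have h5 : f x ≤ 4 * h x ^ 2 := by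
      have h6 : 0 ≤ √(f x) := Real.sqrt_nonneg _
      have h7 : √(f x) ^ 2 = f x := Real.sq_sqrt (hf0 x)
      linarith only [mul_nonneg (sub_nonneg.2 h4) (sub_nonneg.2 h6), mul_nonneg (sub_nonneg.2 h4) (sub_nonneg.2 h4), h7]
    have h8 : ν x = μ x * f x := by
      simp only [hf]
      have := (hμ x).ne'
      field_simp
    rw [h8]
    have := mul_le_mul_of_nonneg_left h5 (hμ x).le
    linarith only [this]
  have hIP0 : 0 ≤ IP' ν μ := DirW_sq_nonneg hμ _
  rcases le_total 0 η with hη | hη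
  · have h9 : ∑ x ∈ univ.filter (fun x => 4 * A * μ x ≤ ν x), ν x ≤ 4 * p := by
      calc ∑ x ∈ univ.filter (fun x => 4 * A * μ x ≤ ν x), ν x
          ≤ ∑ x ∈ univ.filter (fun x => 4 * A * μ x ≤ ν x), 4 * (μ x * h x ^ 2) :=
            Finset.sum_le_sum hlarge
        _ ≤ ∑ x, 4 * (μ x * h x ^ 2) := Finset.sum_le_sum_of_subset_of_nonneg
            (Finset.subset_univ _) fun x _ _ => by
              have := mul_nonneg (hμ x).le (sq_nonneg (h x)); linarith only [this]
        _ = 4 * p := by rw [← Finset.mul_sum]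
    rw [← Finset.sum_mul]
    have := mul_le_mul_of_nonneg_right h9 (mul_nonneg hη hn'.le)
    linarith only [this, hkey]
  · rw [← Finset.sum_mul]
    have h10 : 0 ≤ ∑ x ∈ univ.filter (fun x => 4 * A * μ x ≤ ν x), ν x :=
      Finset.sum_nonneg fun x _ => hν.1 x
    have h11 : (∑ x ∈ univ.filter (fun x => 4 * A * μ x ≤ ν x), ν x) * (η * n) ≤ 0 :=
      mul_nonpos_of_nonneg_of_nonpos h10 (mul_nonpos_of_nonpos_of_nonneg hη hn'.le)
    linarith only [h11, hIP0]

/-- convexity of `x log x` -/
lemma xlogx_sub {u v : ℝ} (hv : 0 < v) (huv : v ≤ u) :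
    u * Real.log u - v * Real.log v ≤ (u - v) * (1 + Real.log u) := by
  have hu : 0 < u := lt_of_lt_of_le hv huv
  have h1 := Real.one_sub_inv_le_log_of_pos (div_pos hv hu)
  rw [Real.log_div hv.ne' hu.ne', inv_div] at h1
  have h2 := mul_le_mul_of_nonneg_left h1 hv.le
  have e : v * (1 - u / v) = v - u := by field_simp
  rw [e] at h2
  linarith only [h2]

/-- truncated density: monotonicity of the entropy production -/
lemma min_log_mono {a b c : ℝ} (ha : 0 < a) (hb : 0 < b) (hc : 0 < c) :
    (min a c - min b c) * (Real.log (min a c) - Real.log (min b c))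
      ≤ (a - b) * (Real.log a - Real.log b) := by
  have key : ∀ a b : ℝ, 0 < b → b ≤ a →
      (min a c - min b c) * (Real.log (min a c) - Real.log (min b c))
      ≤ (a - b) * (Real.log a - Real.log b) := by
    intro a b hb hab
    have ha : 0 < a := lt_of_lt_of_le hb hab
    have h0 : 0 < min b c := lt_min hb hc
    have h0' : 0 < min a c := lt_min ha hc
    have h1 : min b c ≤ min a c := min_le_min_right _ hab
    have h2 : min a c - min b c ≤ a - b := by
      rcases le_total a c with h | h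
      · rw [min_eq_left h, min_eq_left (hab.trans h)]
      · rw [min_eq_right h]
        rcases le_total b c with h' | h'
        · rw [min_eq_left h']; linarith
        · rw [min_eq_right h']; linarith
    have h3 : Real.log (min a c) - Real.log (min b c) ≤ Real.log a - Real.log b := by
      rcases le_total a c with h | h
      · rw [min_eq_left h, min_eq_left (hab.trans h)]
      · rw [min_eq_right h]
        rcases le_total b c with h' | h'
        · rw [min_eq_left h']
          have := Real.log_le_log hc h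
          linarith
        · rw [min_eq_right h']
          have := Real.log_le_log hb hab
          linarith
    have h4 : 0 ≤ Real.log (min a c) - Real.log (min b c) :=
      sub_nonneg.2 (Real.log_le_log h0 h1)
    exact mul_le_mul h2 h3 h4 (by linarith)
  rcases le_total b a with h | h
  · exact key a b hb h
  · have := key b a ha h
    linarith

/-- **Truncation.** -/
theorem truncation (hn : 0 < n) {μ : Cfg n → ℝ} (hμ : ∀ x, 0 < μ x) (hμ1 : ∑ x, μ x = 1)
    {a η B C₁ : ℝ} (ha : 0 < a) (hη : 0 < η) (hB0 : 0 ≤ B) (hC₁ : 0 ≤ C₁)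
    (hB : ∀ x, - Real.log (μ x) ≤ B * n)
    (hD : ∀ ν, IsProb ν → IP' ν μ ≤ η * n → KL ν μ ≤ a / 2 * n)
    (hM : ∀ ν, IsProb ν → (∀ x, 0 < ν x) → (∀ x, ν x ≤ 8 * Real.exp (a * n) * μ x) →
      KL ν μ ≤ C₁ * (DirW μ (fun x => ν x / μ x) (fun x => Real.log (ν x / μ x)) + 1))
    (ν : Cfg n → ℝ) (hν : IsProb ν) (hν0 : ∀ x, 0 < ν x) :
    KL ν μ ≤ (2 * C₁ + 2 * (1 + B) / η + 4 * B / η)
      * (DirW μ (fun x => ν x / μ x) (fun x => Real.log (ν x / μ x)) + 1) := by
  have hn' : (0 : ℝ) < n := by exact_mod_cast hn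
  have hn1 : (1 : ℝ) ≤ n := by exact_mod_cast hn
  set P := DirW μ (fun x => ν x / μ x) (fun x => Real.log (ν x / μ x)) with hP
  have hIP := IP_le_prod hμ ν hν0
  rw [← hP] at hIP
  have hIP0 : 0 ≤ IP' ν μ := DirW_sq_nonneg hμ _
  have hP0 : 0 ≤ P := by linarith only [hIP, hIP0]
  have hc1 : 0 ≤ 2 * (1 + B) / η := by positivity
  have hc2 : 0 ≤ 4 * B / η := by (clear * - hB0 hη; positivity)
  rcases le_total (η * n / 8) (IP' ν μ) with hbig | hsmall
  · -- large I'
    have h1 := KL_le_log hμ hν hB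
    have h2 : B * n ≤ 4 * B / η * P := by
      have h3 : n ≤ 8 / η * IP' ν μ := by
        rw [div_mul_eq_mul_div, le_div_iff₀ hη]
        linarith only [hbig]
      have h4 : B * n ≤ B * (8 / η * IP' ν μ) := mul_le_mul_of_nonneg_left h3 hB0
      have h5 : B * (8 / η * IP' ν μ) ≤ B * (8 / η * (1 / 2 * P)) := by
        apply mul_le_mul_of_nonneg_left _ hB0
        apply mul_le_mul_of_nonneg_left hIP
        positivity
      have e : B * (8 / η * (1 / 2 * P)) = 4 * B / η * P := by ring
      linarith only [e, h5, h4]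
    have h6 : 4 * B / η * P ≤ (2 * C₁ + 2 * (1 + B) / η + 4 * B / η) * (P + 1) := by
      have : 4 * B / η * P ≤ 4 * B / η * (P + 1) := mul_le_mul_of_nonneg_left (by linarith only []) hc2
      have h7 : 0 ≤ (2 * C₁ + 2 * (1 + B) / η) * (P + 1) := by (clear * - hC₁ hB0 hη hP0; positivity)
      linarith only [h7, this]
    linarith only [h6, h2, h1]
  · -- small I'
    set A := 4 * Real.exp (a * n) with hA
    have hA1 : 4 ≤ A := by
      have : 1 ≤ Real.exp (a * n) := Real.one_le_exp (by (clear * - ha hn; positivity))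
      linarith only [this]
    have hA0 : 0 < A := by linarith only [hA1]
    have hL := large_mass hμ hν hn ha hD
    rw [← Finset.sum_mul] at hL
    set f : Cfg n → ℝ := fun x => ν x / μ x with hf
    have hf0 : ∀ x, 0 < f x := fun x => div_pos (hν0 x) (hμ x)
    have hνf : ∀ x, ν x = μ x * f x := by
      intro x
      simp only [hf]
      have := (hμ x).ne'
      field_simp
    have hBf : ∀ x, Real.log (f x) ≤ B * n := by
      intro x
      simp only [hf]
      rw [Real.log_div (hν0 x).ne' (hμ x).ne']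
      have hle : ν x ≤ 1 := by
        rw [← hν.2]; exact Finset.single_le_sum (fun y _ => hν.1 y) (Finset.mem_univ x)
      have := Real.log_nonpos (hν0 x).le hle
      linarith only [this, hB x]
    set T := univ.filter (fun x => 4 * Real.exp (a * n) * μ x ≤ ν x) with hT
    set L := ∑ x ∈ T, ν x with hLdef
    have hL0 : 0 ≤ L := Finset.sum_nonneg fun x _ => hν.1 x
    have hLle : L ≤ 4 * IP' ν μ / (η * n) := by
      rw [le_div_iff₀ (mul_pos hη hn')]
      exact hL
    have hLhalf : L ≤ 1 / 2 := by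
      refine hLle.trans ?_
      rw [div_le_div_iff₀ (mul_pos hη hn') (by norm_num)]
      linarith only [hsmall]
    -- truncated density
    set f₁ : Cfg n → ℝ := fun x => min (f x) A with hf₁
    have hf₁0 : ∀ x, 0 < f₁ x := fun x => lt_min (hf0 x) hA0
    have hnotT : ∀ x, x ∉ T → f₁ x = f x := by
      intro x hx
      have : ν x < A * μ x := by
        by_contra hc
        exact hx (Finset.mem_filter.2 ⟨Finset.mem_univ _, not_lt.1 hc⟩)
      have h1 : f x ≤ A := by
        simp only [hf]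
        rw [div_le_iff₀ (hμ x)]
        exact this.le
      exact min_eq_left h1
    have hTA : ∀ x ∈ T, A ≤ f x := by
      intro x hx
      have h1 : A * μ x ≤ ν x := (Finset.mem_filter.1 hx).2
      simp only [hf]
      rw [le_div_iff₀ (hμ x)]
      exact h1
    set m₁ := ∑ x, μ x * f₁ x with hm₁
    have hm_le : m₁ ≤ 1 := by
      rw [hm₁, ← hν.2]
      apply Finset.sum_le_sum
      intro x _
      rw [hνf x]
      exact mul_le_mul_of_nonneg_left (min_le_left _ _) (hμ x).le
    have hm_ge : 1 / 2 ≤ m₁ := by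
      have h1 : 1 - m₁ ≤ L := by
        rw [hm₁, ← hν.2, ← Finset.sum_sub_distrib, hLdef]
        have h2 : ∑ x, (ν x - μ x * f₁ x) = ∑ x ∈ T, (ν x - μ x * f₁ x) := by
          symm
          apply Finset.sum_subset (Finset.subset_univ _)
          intro x _ hx
          rw [hnotT x hx, hνf x, sub_self]
        rw [h2]
        apply Finset.sum_le_sum
        intro x _
        have := mul_pos (hμ x) (hf₁0 x)
        linarith only [this]
      linarith only [h1, hLhalf]
    have hm0 : 0 < m₁ := by linarith only [hm_ge]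
    set ν₁ : Cfg n → ℝ := fun x => μ x * f₁ x / m₁ with hν₁
    have hν₁P : IsProb ν₁ := by
      refine ⟨fun x => div_nonneg (mul_nonneg (hμ x).le (hf₁0 x).le) hm0.le, ?_⟩
      simp only [hν₁, ← Finset.sum_div]
      rw [← hm₁, div_self hm0.ne']
    have hν₁0 : ∀ x, 0 < ν₁ x := fun x => div_pos (mul_pos (hμ x) (hf₁0 x)) hm0
    have hν₁d : ∀ x, ν₁ x / μ x = f₁ x / m₁ := by
      intro x
      simp only [hν₁]
      have := (hμ x).ne'
      field_simp
    have hν₁b : ∀ x, ν₁ x ≤ 8 * Real.exp (a * n) * μ x := by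
      intro x
      simp only [hν₁]
      rw [div_le_iff₀ hm0]
      have h1 : f₁ x ≤ A := min_le_right _ _
      have h2 : μ x * f₁ x ≤ μ x * A := mul_le_mul_of_nonneg_left h1 (hμ x).le
      have h3 : μ x * A ≤ 8 * Real.exp (a * n) * μ x * m₁ := by
        have h4 : 8 * Real.exp (a * n) * μ x * (1 / 2) ≤ 8 * Real.exp (a * n) * μ x * m₁ :=
          mul_le_mul_of_nonneg_left hm_ge (mul_nonneg (by positivity) (hμ x).le)
        have h5 : μ x * A = 8 * Real.exp (a * n) * μ x * (1 / 2) := by rw [hA]; ring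
        linarith only [h4]
      linarith only [h3, h2]
    have hmain := hM ν₁ hν₁P hν₁0 hν₁b
    -- entropy production of ν₁
    have hprod : DirW μ (fun x => ν₁ x / μ x) (fun x => Real.log (ν₁ x / μ x)) ≤ 2 * P := by
      have h1 : DirW μ (fun x => ν₁ x / μ x) (fun x => Real.log (ν₁ x / μ x))
          ≤ (1 / m₁) * P := by
        rw [hP]
        apply DirW_le hμ
        intro x y
        rw [hν₁d, hν₁d, Real.log_div (hf₁0 y).ne' hm0.ne', Real.log_div (hf₁0 x).ne' hm0.ne']
        have h2 := min_log_mono (hf0 y) (hf0 x) hA0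
        have h3 : (f₁ y / m₁ - f₁ x / m₁) *
            (Real.log (f₁ y) - Real.log m₁ - (Real.log (f₁ x) - Real.log m₁))
            = (1 / m₁) * ((f₁ y - f₁ x) * (Real.log (f₁ y) - Real.log (f₁ x))) := by
          ring
        rw [h3]
        exact mul_le_mul_of_nonneg_left h2 (by (clear * - hm_ge; positivity))
      have h4 : 1 / m₁ ≤ 2 := by
        rw [div_le_iff₀ hm0]; linarith only [hm_ge]
      have := mul_le_mul_of_nonneg_right h4 hP0
      linarith only [this, h1]
    -- entropy comparison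
    have hKL0 : 0 ≤ KL ν₁ μ := by
      have := KL_ge_supp hμ hν₁P univ (fun x hx => absurd (Finset.mem_univ x) hx)
        (by rw [hμ1]; norm_num)
      rw [hμ1, Real.log_one] at this
      linarith only [this]
    have hent : ∑ x, μ x * (f₁ x * Real.log (f₁ x)) ≤ KL ν₁ μ := by
      have h1 : KL ν₁ μ = (∑ x, μ x * (f₁ x * Real.log (f₁ x))) / m₁ - Real.log m₁ := by
        unfold KL
        have h2 : ∀ x, ν₁ x * Real.log (ν₁ x / μ x)
            = (μ x * (f₁ x * Real.log (f₁ x)) - μ x * f₁ x * Real.log m₁) / m₁ := by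
          intro x
          rw [hν₁d, Real.log_div (hf₁0 x).ne' hm0.ne']
          simp only [hν₁]
          ring
        simp only [h2]
        rw [← Finset.sum_div, Finset.sum_sub_distrib, ← Finset.sum_mul, ← hm₁]
        field_simp
      have h3 : ∑ x, μ x * (f₁ x * Real.log (f₁ x)) = m₁ * (KL ν₁ μ + Real.log m₁) := by
        rw [h1]; field_simp; ring
      rw [h3]
      have h4 : Real.log m₁ ≤ 0 := Real.log_nonpos hm0.le hm_le
      have h5 : m₁ * Real.log m₁ ≤ 0 := mul_nonpos_of_nonneg_of_nonpos hm0.le h4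
      have h6 : m₁ * KL ν₁ μ ≤ 1 * KL ν₁ μ := mul_le_mul_of_nonneg_right hm_le hKL0
      linarith only [h6, h5]
    have hdiff : KL ν μ ≤ ∑ x, μ x * (f₁ x * Real.log (f₁ x)) + (1 + B * n) * L := by
      have h1 : KL ν μ = ∑ x, μ x * (f x * Real.log (f x)) := by
        unfold KL
        refine Finset.sum_congr rfl fun x _ => ?_
        rw [hνf x]
        have : μ x * f x / μ x = f x := by
          have := (hμ x).ne'
          field_simp
        rw [this]; ring
      have h2 : KL ν μ - ∑ x, μ x * (f₁ x * Real.log (f₁ x))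
          = ∑ x ∈ T, (μ x * (f x * Real.log (f x)) - μ x * (f₁ x * Real.log (f₁ x))) := by
        rw [h1, ← Finset.sum_sub_distrib]
        symm
        apply Finset.sum_subset (Finset.subset_univ _)
        intro x _ hx
        rw [hnotT x hx, sub_self]
      have h3 : ∑ x ∈ T, (μ x * (f x * Real.log (f x)) - μ x * (f₁ x * Real.log (f₁ x)))
          ≤ ∑ x ∈ T, ν x * (1 + B * n) := by
        apply Finset.sum_le_sum
        intro x hx
        have h4 : f₁ x ≤ f x := min_le_left _ _
        have h5 := xlogx_sub (hf₁0 x) h4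
        have h6 : 0 ≤ 1 + Real.log (f x) := by
          have : 0 ≤ Real.log (f x) := Real.log_nonneg (by linarith only [hTA x hx, hA1])
          linarith only [this]
        have h7 : (f x - f₁ x) * (1 + Real.log (f x)) ≤ f x * (1 + B * n) := by
          apply mul_le_mul _ _ h6 (hf0 x).le
          · linarith only [hf₁0 x]
          · linarith only [hBf x]
        have h8 : f x * Real.log (f x) - f₁ x * Real.log (f₁ x) ≤ f x * (1 + B * n) := by
          linarith only [h7, h5]
        have h9 := mul_le_mul_of_nonneg_left h8 (hμ x).le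
        rw [hνf x]
        linarith only [h9]
      rw [← Finset.sum_mul, ← hLdef] at h3
      linarith only [h3, h2]
    have hlast : (1 + B * n) * L ≤ 2 * (1 + B) / η * P := by
      have h1 : (1 + B * n) ≤ (1 + B) * n := by linarith only [hn1]
      have h2 : (1 + B * n) * L ≤ (1 + B) * n * (4 * IP' ν μ / (η * n)) := by
        apply mul_le_mul h1 hLle hL0
        (clear * - hB0 hn; positivity)
      have h3 : (1 + B) * n * (4 * IP' ν μ / (η * n)) = 4 * (1 + B) / η * IP' ν μ := by
        field_simp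
      have h4 : 4 * (1 + B) / η * IP' ν μ ≤ 4 * (1 + B) / η * (1 / 2 * P) :=
        mul_le_mul_of_nonneg_left hIP (by (clear * - hB0 hη; positivity))
      have h5 : 4 * (1 + B) / η * (1 / 2 * P) = 2 * (1 + B) / η * P := by ring
      linarith only [h2, h3, h4, h5]
    have h10 : C₁ * (DirW μ (fun x => ν₁ x / μ x) (fun x => Real.log (ν₁ x / μ x)) + 1)
        ≤ C₁ * (2 * P + 1) := mul_le_mul_of_nonneg_left (by linarith only [hprod]) hC₁
    have h11 : C₁ * (2 * P + 1) ≤ 2 * C₁ * (P + 1) := by linarith only [hC₁]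
    have h12 : 2 * (1 + B) / η * P ≤ 2 * (1 + B) / η * (P + 1) :=
      mul_le_mul_of_nonneg_left (by linarith only []) hc1
    have h13 : 0 ≤ 4 * B / η * (P + 1) := by (clear * - hB0 hη hP0; positivity)
    linarith

end D8T

end Vale.Agent.P150.F
end

section

/-! D7, final step: from the variance recursion and the macroscopic entropy statement to the
spectral gap. -/

open MeasureTheory ProbabilityTheory Filter Topology Real
open scoped Matrix

namespace Vale.Agent.P150.F

variable {n : ℕ}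

/-! ### entropy inequality -/

/-- Donsker–Varadhan on the cube -/
theorem donsker {μ ν : Cfg n → ℝ} (hμ : ∀ x, 0 < μ x) (hν : IsProb ν) (h : Cfg n → ℝ) :
    Ex ν h ≤ KL ν μ + Real.log (Ex μ fun x => Real.exp (h x)) := by
  set Z := Ex μ fun x => Real.exp (h x) with hZ
  have hZ0 : 0 < Z := Finset.sum_pos (fun x _ => mul_pos (hμ x) (Real.exp_pos _))
    Finset.univ_nonempty
  have key : ∀ x, ν x * h x ≤ ν x * Real.log (ν x / μ x) + ν x * Real.log Z
      + (μ x * Real.exp (h x) / Z - ν x) := by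
    intro x
    rcases (hν.1 x).eq_or_lt with h0 | h0
    · rw [← h0]
      simp only [zero_mul, zero_add, sub_zero]
      exact (div_pos (mul_pos (hμ x) (Real.exp_pos _)) hZ0).le
    · have h1 : 0 < μ x * Real.exp (h x) / (Z * ν x) :=
        div_pos (mul_pos (hμ x) (Real.exp_pos _)) (mul_pos hZ0 h0)
      have h2 := Real.log_le_sub_one_of_pos h1
      rw [Real.log_div (mul_pos (hμ x) (Real.exp_pos _)).ne' (mul_pos hZ0 h0).ne',
        Real.log_mul (hμ x).ne' (Real.exp_pos _).ne', Real.log_exp,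
        Real.log_mul hZ0.ne' h0.ne'] at h2
      have h3 := mul_le_mul_of_nonneg_left h2 h0.le
      have e1 : ν x * (μ x * Real.exp (h x) / (Z * ν x) - 1) = μ x * Real.exp (h x) / Z - ν x := by
        have := h0.ne'
        have := hZ0.ne'
        field_simp
      rw [e1] at h3
      rw [Real.log_div h0.ne' (hμ x).ne']
      linarith only [h3]
  have h2 := Finset.sum_le_sum fun x (_ : x ∈ Finset.univ) => key x
  rw [Finset.sum_add_distrib, Finset.sum_add_distrib, Finset.sum_sub_distrib, ← Finset.sum_mul,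
    hν.2, ← Finset.sum_div] at h2
  have e2 : (∑ x, μ x * Real.exp (h x)) / Z = 1 := div_self hZ0.ne'
  rw [e2] at h2
  unfold Ex KL
  linarith only [h2]

lemma exp_mul_le_line {l b : ℝ} (hb0 : 0 ≤ b) (hb1 : b ≤ 1) :
    Real.exp (l * b) ≤ 1 + (Real.exp l - 1) * b := by
  have := convexOn_exp.2 (Set.mem_univ (0:ℝ)) (Set.mem_univ l) (by linarith : (0:ℝ) ≤ 1 - b) hb0
    (by ring)
  simp only [smul_eq_mul, mul_zero, zero_add, Real.exp_zero, mul_one] at this
  have e : b * l = l * b := mul_comm _ _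
  rw [e] at this
  linarith

/-- the entropy inequality for an event (or a `[0,1]`-valued function) of small probability -/
theorem entropy_event {μ ν : Cfg n → ℝ} (hμ : ∀ x, 0 < μ x) (hμ1 : ∑ x, μ x = 1) (hν : IsProb ν)
    {b : Cfg n → ℝ} (hb0 : ∀ x, 0 ≤ b x) (hb1 : ∀ x, b x ≤ 1) {l : ℝ}
    (hp : Ex μ b ≤ Real.exp (-l)) : l * Ex ν b ≤ KL ν μ + Real.log 2 := by
  have h1 := donsker hμ hν fun x => l * b x
  have e1 : Ex ν (fun x => l * b x) = l * Ex ν b := by
    unfold Ex
    rw [Finset.mul_sum]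
    exact Finset.sum_congr rfl fun x _ => by ring
  rw [e1] at h1
  have hpos : 0 < Ex μ fun x => Real.exp (l * b x) :=
    Finset.sum_pos (fun x _ => mul_pos (hμ x) (Real.exp_pos _)) Finset.univ_nonempty
  have hb : 0 ≤ Ex μ b := Finset.sum_nonneg fun x _ => mul_nonneg (hμ x).le (hb0 x)
  have h2 : (Ex μ fun x => Real.exp (l * b x)) ≤ 2 := by
    calc (Ex μ fun x => Real.exp (l * b x)) ≤ ∑ x, μ x * (1 + (Real.exp l - 1) * b x) :=
          Finset.sum_le_sum fun x _ => mul_le_mul_of_nonneg_left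
            (exp_mul_le_line (hb0 x) (hb1 x)) (hμ x).le
      _ = 1 + (Real.exp l - 1) * Ex μ b := by
          unfold Ex
          have e : ∀ x, μ x * (1 + (Real.exp l - 1) * b x)
              = μ x + (Real.exp l - 1) * (μ x * b x) := fun x => by ring
          rw [Finset.sum_congr rfl fun x _ => e x, Finset.sum_add_distrib, hμ1, Finset.mul_sum]
      _ ≤ 1 + Real.exp l * Ex μ b := by linarith only [hb]
      _ ≤ 1 + Real.exp l * Real.exp (-l) := by
          have := mul_le_mul_of_nonneg_left hp (Real.exp_pos l).le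
          linarith
      _ = 2 := by rw [← Real.exp_add]; simp; norm_num
  have h3 := Real.log_le_log hpos h2
  linarith

/-! ### one system -/

lemma Ex_sub_const {μ : Cfg n → ℝ} (hμ1 : ∑ x, μ x = 1) (G : Cfg n → ℝ) (c : ℝ) :
    Ex μ (fun x => G x - c) = Ex μ G - c := by
  unfold Ex
  rw [show (c : ℝ) = ∑ x, μ x * c by rw [← Finset.sum_mul, hμ1, one_mul], ← Finset.sum_sub_distrib]
  refine Finset.sum_congr rfl fun x _ => ?_
  rw [← Finset.sum_mul, hμ1, one_mul]; ring

lemma abs_sqrt_sub_le (a b : ℝ) :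
    (√((b ^ 2 + 1) / 2) - √((a ^ 2 + 1) / 2)) * (√((b ^ 2 + 1) / 2) - √((a ^ 2 + 1) / 2))
      ≤ 1 / 2 * ((b - a) * (b - a)) := by
  have ha : 0 ≤ (a ^ 2 + 1) / 2 := by positivity
  have hb : 0 ≤ (b ^ 2 + 1) / 2 := by positivity
  have h1 : √((b ^ 2 + 1) / 2) * √((a ^ 2 + 1) / 2) = √(((b ^ 2 + 1) / 2) * ((a ^ 2 + 1) / 2)) :=
    (Real.sqrt_mul hb _).symm
  have h2 : (a * b + 1) / 2 ≤ √(((b ^ 2 + 1) / 2) * ((a ^ 2 + 1) / 2)) := by
    apply Real.le_sqrt_of_sq_le
    linarith only [sq_nonneg (a - b)]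
  have h3 := Real.mul_self_sqrt ha
  have h4 := Real.mul_self_sqrt hb
  linarith only [h4, h3, h2, h1]

/-- the final step for one system -/
theorem poincare_final {μ : Cfg n → ℝ} (hμ : ∀ x, 0 < μ x) (hμ1 : ∑ x, μ x = 1)
    {A c' ε η : ℝ} (hA : 0 < A) (hn : 0 < n) (hc' : 0 < c')
    {b : Cfg n → ℝ} (hb0 : ∀ x, 0 ≤ b x) (hb1 : ∀ x, b x ≤ 1)
    (hp : Ex μ b ≤ Real.exp (-(c' * n)))
    (hrec : ∀ G : Cfg n → ℝ, VarX μ G ≤ A * (DirW μ G G + Ex μ fun x => G x ^ 2 * b x)
      + 1 / 4 * Ex μ fun x => G x ^ 2)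
    (hD : ∀ ν, IsProb ν → (∀ x, 0 < ν x) → IP' ν μ ≤ η * n → KL ν μ ≤ ε * n)
    (hε : ε ≤ c' / (16 * A)) (hlog : Real.log 2 ≤ c' * n / (16 * A)) (G : Cfg n → ℝ) :
    min (2 * η) (1 / (2 * A)) * VarX μ G ≤ DirW μ G G := by
  set V := VarX μ G with hV
  have hn1 : (1:ℝ) ≤ n := by exact_mod_cast hn
  have hV0 : 0 ≤ V := by
    rw [hV]; unfold VarX Ex
    exact Finset.sum_nonneg fun x _ => mul_nonneg (hμ x).le (sq_nonneg _)
  have hDir0 : 0 ≤ DirW μ G G := D8T.DirW_sq_nonneg hμ G
  rcases hV0.eq_or_lt with h0 | h0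
  · rw [← h0, mul_zero]; exact hDir0
  -- centering
  set m0 := Ex μ G with hm0
  set G' : Cfg n → ℝ := fun x => G x - m0 with hG'
  have hcen : Ex μ G' = 0 := by rw [hG', Ex_sub_const hμ1]; simp [hm0]
  have hV' : VarX μ G' = V := by
    rw [hV]; unfold VarX
    rw [hcen]
    simp only [sub_zero, hG', hm0]
  have hE2 : (Ex μ fun x => G' x ^ 2) = V := by
    rw [hV]; unfold VarX
    simp only [hG', hm0]
  have hDir' : DirW μ G' G' = DirW μ G G := by
    unfold DirW
    simp only [hG']
    congr 1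
    refine Finset.sum_congr rfl fun i _ => Finset.sum_congr rfl fun x _ => ?_
    ring
  have hr := hrec G'
  rw [hV', hDir', hE2] at hr
  by_cases hcase : 2 * η * n * V ≤ DirW μ G G
  · rcases le_or_gt η 0 with hη | hη
    · have : min (2 * η) (1 / (2 * A)) * V ≤ 0 := by
        apply mul_nonpos_of_nonpos_of_nonneg _ hV0
        exact (min_le_left _ _).trans (by linarith only [hη])
      linarith only [hDir0, this]
    · calc min (2 * η) (1 / (2 * A)) * V ≤ 2 * η * V :=
            mul_le_mul_of_nonneg_right (min_le_left _ _) hV0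
        _ ≤ 2 * η * n * V := by
            have : 0 ≤ 2 * η * V := by (clear * - hη h0; positivity)
            linarith only [mul_nonneg (sub_nonneg.2 hn1) (sub_nonneg.2 this)]
        _ ≤ _ := hcase
  · push Not at hcase
    -- the tilted law
    set s := √V with hs
    have hs0 : 0 < s := Real.sqrt_pos.2 h0
    have hss : s ^ 2 = V := Real.sq_sqrt hV0
    set ν : Cfg n → ℝ := fun x => μ x * (((G' x / s) ^ 2 + 1) / 2) with hν
    have hνpos : ∀ x, 0 < ν x := fun x => mul_pos (hμ x) (by (clear * -; positivity))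
    have hνsum : ∑ x, ν x = 1 := by
      have e : ∀ x, ν x = (1 / (2 * V)) * (μ x * G' x ^ 2) + (1 / 2) * μ x := by
        intro x
        rw [hν]
        simp only [div_pow, hss]
        have := h0.ne'
        field_simp
      rw [Finset.sum_congr rfl fun x _ => e x, Finset.sum_add_distrib, ← Finset.mul_sum,
        ← Finset.mul_sum, hμ1]
      have : ∑ x, μ x * G' x ^ 2 = V := hE2
      rw [this]
      have := h0.ne'
      field_simp
      norm_num
    have hνP : IsProb ν := ⟨fun x => (hνpos x).le, hνsum⟩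
    have hratio : ∀ x, ν x / μ x = ((G' x / s) ^ 2 + 1) / 2 := by
      intro x
      rw [hν]
      have := (hμ x).ne'
      field_simp
    have hIP : IP' ν μ ≤ 1 / (2 * V) * DirW μ G G := by
      unfold IP'
      apply D8T.DirW_le hμ
      intro x y
      rw [hratio, hratio]
      refine (abs_sqrt_sub_le _ _).trans (le_of_eq ?_)
      have : (G' y / s - G' x / s) = (G y - G x) / s := by
        simp only [hG']; ring
      rw [this]
      have e : (G y - G x) / s * ((G y - G x) / s) = (G y - G x) * (G y - G x) / s ^ 2 := by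
        rw [div_mul_div_comm, pow_two]
      rw [e, hss]
      have := h0.ne'
      field_simp
    have hIP2 : IP' ν μ ≤ η * n := by
      refine hIP.trans ?_
      rw [div_mul_eq_mul_div, one_mul, div_le_iff₀ (by (clear * - h0; positivity))]
      linarith only [hcase]
    have hKL := hD ν hνP hνpos hIP2
    have hent := entropy_event hμ hμ1 hνP hb0 hb1 (l := c' * n) hp
    have hEb : (Ex μ fun x => G' x ^ 2 * b x) ≤ 2 * V * Ex ν b := by
      unfold Ex
      rw [Finset.mul_sum]
      refine Finset.sum_le_sum fun x _ => ?_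
      rw [hν]
      simp only [div_pow, hss]
      have e : 2 * V * (μ x * ((G' x ^ 2 / V + 1) / 2) * b x)
          = μ x * (G' x ^ 2 * b x) + V * (μ x * b x) := by
        have := h0.ne'
        field_simp
      rw [e]
      have := mul_nonneg hV0 (mul_nonneg (hμ x).le (hb0 x))
      linarith only [this]
    have hcn : 0 < c' * n := by positivity
    have hb' : Ex ν b ≤ 1 / (8 * A) := by
      have h1 : c' * n * Ex ν b ≤ ε * n + Real.log 2 := hent.trans (by linarith only [hKL])
      have h2 : ε * n ≤ c' / (16 * A) * n := mul_le_mul_of_nonneg_right hε (by positivity)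
      have h3 : c' * n * Ex ν b ≤ c' * n * (1 / (8 * A)) := by
        calc c' * n * Ex ν b ≤ c' / (16 * A) * n + c' * n / (16 * A) := by linarith only [hlog, h1, h2]
          _ = c' * n * (1 / (8 * A)) := by field_simp; ring
      exact le_of_mul_le_mul_left h3 hcn
    have h5 : A * (Ex μ fun x => G' x ^ 2 * b x) ≤ V / 4 := by
      calc A * (Ex μ fun x => G' x ^ 2 * b x) ≤ A * (2 * V * Ex ν b) :=
            mul_le_mul_of_nonneg_left hEb hA.le
        _ ≤ A * (2 * V * (1 / (8 * A))) :=
            mul_le_mul_of_nonneg_left (mul_le_mul_of_nonneg_left hb' (by (clear * - h0; positivity))) hA.le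
        _ = V / 4 := by field_simp; norm_num
    have h6 : V / 2 ≤ A * DirW μ G G := by
      have : V ≤ A * DirW μ G G + A * (Ex μ fun x => G' x ^ 2 * b x) + 1 / 4 * V := by
        rw [← mul_add]; exact hr
      linarith only [h5, this]
    calc min (2 * η) (1 / (2 * A)) * V ≤ 1 / (2 * A) * V :=
          mul_le_mul_of_nonneg_right (min_le_right _ _) hV0
      _ = (V / 2) / A := by field_simp
      _ ≤ DirW μ G G := by
          rw [div_le_iff₀ hA]; linarith only [h6]

/-! ### bridge to the definitions of the statement -/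

lemma gM_eq_gibbs {J : Mat n} (hs : ∀ a b, J a b = J b a) (hd : ∀ a, J a a = 0) (β : ℝ)
    (x : Cfg n) : gM (β • J) 0 x = gibbs (fun a b => β * J a b) (fun _ => 0) x := by
  have e : ∀ x : Cfg n, energy (fun a b => β * J a b) (fun _ => 0) x
      = qf (β • J) (sv x) / 2 + ip 0 (sv x) := by
    intro x
    rw [Vale.Agent.P150.energy_eq (J := fun a b => β * J a b) (fun a b => by rw [hs])]
    have h1 : ∀ i j, Jo (fun a b => β * J a b) i j = β * J i j := by
      intro i j
      unfold Jo
      split_ifs with h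
      · subst h; rw [hd]; ring
      · rfl
    simp only [h1]
    unfold qf ip Matrix.mulVec dotProduct sv
    simp only [Matrix.smul_apply, smul_eq_mul, Pi.zero_apply, zero_mul, Finset.sum_const_zero,
      add_zero, Finset.mul_sum]
    rw [Finset.sum_div]
    refine Finset.sum_congr rfl fun i _ => ?_
    rw [Finset.sum_div]
    refine Finset.sum_congr rfl fun j _ => ?_
    ring
  unfold gM gibbs
  rw [e]
  simp only [e]

lemma var_eq_VarX {J : Mat n} (hs : ∀ a b, J a b = J b a) (hd : ∀ a, J a a = 0) (β : ℝ)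
    (f : Cfg n → ℝ) :
    var (fun a b => β * J a b) (fun _ => 0) f = VarX (gM (β • J) 0) f := by
  unfold var VarX ex Ex
  simp only [gM_eq_gibbs hs hd β]

lemma dir_eq_DirW {J : Mat n} (hs : ∀ a b, J a b = J b a) (hd : ∀ a, J a a = 0) (β : ℝ)
    (f g : Cfg n → ℝ) :
    dir (fun a b => β * J a b) (fun _ => 0) f g = DirW (gM (β • J) 0) f g := by
  rw [Vale.Agent.P150.dir_eq (J := fun a b => β * J a b) (fun a b => by rw [hs])]
  unfold DirW
  simp only [gM_eq_gibbs hs hd β]

/-! ### filter form -/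

/-- D3M -/
def D3MStmt (β : ℝ) {I : Type*} (F : Filter I) (n : I → ℕ) (J : ∀ i, Mat (n i)) : Prop :=
  ∀ ε > 0, ∃ η > 0, ∀ᶠ i in F, ∀ ν, IsProb ν → (∀ x, 0 < ν x) →
    IP' ν (gM (β • J i) 0) ≤ η * n i → KL ν (gM (β • J i) 0) ≤ ε * n i

/-- output of the variance recursion -/
def RecStmt (β : ℝ) {I : Type*} (F : Filter I) (n : I → ℕ) (J : ∀ i, Mat (n i)) : Prop :=
  ∃ A > 0, ∃ c' > 0, ∀ᶠ i in F, ∃ b : Cfg (n i) → ℝ, (∀ x, 0 ≤ b x) ∧ (∀ x, b x ≤ 1) ∧
    Ex (gM (β • J i) 0) b ≤ Real.exp (-(c' * n i)) ∧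
    ∀ G : Cfg (n i) → ℝ, VarX (gM (β • J i) 0) G
      ≤ A * (DirW (gM (β • J i) 0) G G + Ex (gM (β • J i) 0) fun x => G x ^ 2 * b x)
        + 1 / 4 * Ex (gM (β • J i) 0) fun x => G x ^ 2

theorem gap_of_rec {β : ℝ} {I : Type*} {F : Filter I} {n : I → ℕ} {J : ∀ i, Mat (n i)}
    (hn : Tendsto n F atTop) (hs : ∀ i a b, J i a b = J i b a) (hd : ∀ i a, J i a a = 0)
    (hD : D3MStmt β F n J) (hR : RecStmt β F n J) :
    ∃ c > 0, ∀ᶠ i in F, c ≤ gap (fun a b => β * J i a b) (fun _ => 0) := by
  obtain ⟨A, hA, c', hc', hrec⟩ := hR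
  obtain ⟨η, hη, hDi⟩ := hD (c' / (16 * A)) (by (clear * - hc' hA; positivity))
  refine ⟨min (2 * η) (1 / (2 * A)), lt_min (by positivity) (by positivity), ?_⟩
  have hlarge : ∀ᶠ i in F, Real.log 2 ≤ c' * n i / (16 * A) := by
    have h1 : Tendsto (fun i => (n i : ℝ)) F atTop := tendsto_natCast_atTop_atTop.comp hn
    have h2 := h1.eventually_ge_atTop (Real.log 2 * (16 * A) / c')
    filter_upwards [h2] with i hi
    rw [le_div_iff₀ (by positivity)]
    rw [div_le_iff₀ hc'] at hi
    linarith only [hi]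
  filter_upwards [hrec, hDi, hlarge, hn.eventually_ge_atTop 1] with i h1 h2 h3 h4
  obtain ⟨b, hb0, hb1, hp, hr⟩ := h1
  refine le_gap h4 fun f => ?_
  rw [var_eq_VarX (hs i) (hd i), dir_eq_DirW (hs i) (hd i)]
  have hpos : ∀ x, 0 < gM (β • J i) 0 x := fun x =>
    div_pos (Real.exp_pos _) (Finset.sum_pos (fun _ _ => Real.exp_pos _) Finset.univ_nonempty)
  have hsum : ∑ x, gM (β • J i) 0 x = 1 := by
    unfold gM
    rw [← Finset.sum_div]
    exact div_self (Finset.sum_pos (fun _ _ => Real.exp_pos _) Finset.univ_nonempty).ne'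
  exact poincare_final hpos hsum hA h4 hc' hb0 hb1 hp hr h2 le_rfl h3 f

end Vale.Agent.P150.F
end

section

/-! D7, static part: covariance bound from the tracking of tilted means, covariance of a function
with the spins, entropy inequality. -/

open MeasureTheory ProbabilityTheory Filter Topology Real
open scoped Matrix

namespace Vale.Agent.P150.F

variable {n : ℕ}

lemma one_add_sq_le_cosh (t : ℝ) : 1 + t ^ 2 / 2 ≤ Real.cosh t := by
  have h1 : Real.cosh t = Real.cosh (2 * (t / 2)) := by congr 1; ring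
  rw [h1, Real.cosh_two_mul, Real.cosh_sq]
  have h2 : |t / 2| ≤ |Real.sinh (t / 2)| := by
    rw [Real.abs_sinh]
    exact Real.self_le_sinh_iff.2 (abs_nonneg _)
  have h3 := sq_le_sq.2 h2
  linarith only [h3]

/-- partition function of the tilt -/
noncomputable def lapl (μ : Cfg n → ℝ) (u : Vec n) : ℝ := ∑ x, μ x * Real.exp (ip u (sv x))

lemma lapl_pos {μ : Cfg n → ℝ} (hμ : IsProb μ) (u : Vec n) : 0 < lapl μ u := by
  unfold lapl
  have h1 : ∃ x, 0 < μ x := by
    by_contra h
    push Not at h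
    have : ∑ x, μ x ≤ 0 := Finset.sum_nonpos fun x _ => h x
    rw [hμ.2] at this
    linarith
  obtain ⟨x, hx⟩ := h1
  refine Finset.sum_pos' (fun y _ => mul_nonneg (hμ.1 y) (Real.exp_pos _).le)
    ⟨x, Finset.mem_univ _, mul_pos hx (Real.exp_pos _)⟩

lemma lapl_zero {μ : Cfg n → ℝ} (hμ : IsProb μ) : lapl μ 0 = 1 := by
  unfold lapl ip
  simp [hμ.2]

lemma ip_smul_leftD (t : ℝ) (u v : Vec n) : ip (t • u) v = t * ip u v := by
  unfold ip
  rw [Finset.mul_sum]
  refine Finset.sum_congr rfl fun i _ => ?_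
  simp only [Pi.smul_apply, smul_eq_mul]; ring

lemma ip_mean (μ : Cfg n → ℝ) (u : Vec n) : ip u (mean μ) = ∑ x, μ x * ip u (sv x) := by
  unfold ip mean
  simp only [Finset.mul_sum]
  rw [Finset.sum_comm]
  refine Finset.sum_congr rfl fun x _ => Finset.sum_congr rfl fun i _ => ?_
  ring

lemma tilt_zero {μ : Cfg n → ℝ} (hμ : IsProb μ) : tilt μ 0 = μ := by
  funext x
  unfold tilt ip
  simp [hμ.2]

/-- derivative of the log-Laplace transform -/
lemma hasDerivAt_log_lapl {μ : Cfg n → ℝ} (hμ : IsProb μ) (u : Vec n) (t : ℝ) :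
    HasDerivAt (fun t => Real.log (lapl μ (t • u))) (ip u (mean (tilt μ (t • u)))) t := by
  have h1 : HasDerivAt (fun t => lapl μ (t • u))
      (∑ x, μ x * (Real.exp (ip (t • u) (sv x)) * ip u (sv x))) t := by
    unfold lapl
    apply HasDerivAt.fun_sum
    intro x _
    apply HasDerivAt.const_mul
    have h2 : HasDerivAt (fun t : ℝ => ip (t • u) (sv x)) (ip u (sv x)) t := by
      simp only [ip_smul_leftD]
      simpa using (hasDerivAt_id t).mul_const (ip u (sv x))
    exact h2.exp
  have h3 := h1.log (lapl_pos hμ (t • u)).ne'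
  convert h3 using 1
  rw [ip_mean]
  unfold tilt
  rw [Finset.sum_div]
  refine Finset.sum_congr rfl fun x _ => ?_
  unfold lapl
  ring

/-- log-Laplace bound from the tracking of the tilted means -/
theorem lapl_le_of_track {μ : Cfg n → ℝ} (hμ : IsProb μ) {mh : Vec n} {C : ℝ} (hC : 0 ≤ C)
    {u : Vec n} (hu : sq u ≤ 1)
    (h : ∀ w : Vec n, sq w ≤ 1 → nv (mean (tilt μ w) - mh) ≤ C) :
    lapl μ u ≤ Real.exp (ip u (mean μ) + 2 * C) := by
  have hnu : nv u ≤ 1 := by
    rw [nv_eq_sqrt]
    exact Real.sqrt_le_one.2 hu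
  have hsq : ∀ t : ℝ, t ∈ Set.Icc (0:ℝ) 1 → sq (t • u) ≤ 1 := by
    intro t ht
    have e : sq (t • u) = t ^ 2 * sq u := by
      unfold sq
      rw [Finset.mul_sum]
      refine Finset.sum_congr rfl fun i _ => ?_
      simp only [Pi.smul_apply, smul_eq_mul]; ring
    rw [e]
    have h0 : 0 ≤ sq u := Finset.sum_nonneg fun i _ => sq_nonneg _
    have h1 : t ^ 2 ≤ 1 := by
      have := ht.1; have := ht.2
      nlinarith
    calc t ^ 2 * sq u ≤ 1 * sq u := mul_le_mul_of_nonneg_right h1 h0
      _ ≤ 1 := by linarith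
  have key : ∀ t : ℝ, t ∈ Set.Icc (0:ℝ) 1 → ip u (mean (tilt μ (t • u))) ≤ ip u (mean μ) + 2 * C := by
    intro t ht
    have h1 := h (t • u) (hsq t ht)
    have h2 := h 0 (by simp [sq])
    rw [tilt_zero hμ] at h2
    have e : ip u (mean (tilt μ (t • u))) - ip u (mean μ)
        = ip u (mean (tilt μ (t • u)) - mh) - ip u (mean μ - mh) := by
      unfold ip
      rw [← Finset.sum_sub_distrib, ← Finset.sum_sub_distrib]
      refine Finset.sum_congr rfl fun i _ => ?_
      simp only [Pi.sub_apply]; ring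
    have a1 := (abs_le.1 (abs_ip_le u (mean (tilt μ (t • u)) - mh))).2
    have a2 := (abs_le.1 (abs_ip_le u (mean μ - mh))).1
    have b1 : nv u * nv (mean (tilt μ (t • u)) - mh) ≤ 1 * C :=
      mul_le_mul hnu h1 (nv_nonneg _) (by norm_num)
    have b2 : nv u * nv (mean μ - mh) ≤ 1 * C := mul_le_mul hnu h2 (nv_nonneg _) (by norm_num)
    linarith only [b2, b1, a2, a1, e]
  have hd := fun t => hasDerivAt_log_lapl hμ u t
  have hanti : AntitoneOn (fun t => Real.log (lapl μ (t • u)) - t * (ip u (mean μ) + 2 * C))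
      (Set.Icc (0:ℝ) 1) := by
    apply antitoneOn_of_deriv_nonpos (convex_Icc 0 1)
    · exact fun t _ => (((hd t).sub ((hasDerivAt_id t).mul_const _)).continuousAt).continuousWithinAt
    · exact fun t _ => ((hd t).sub ((hasDerivAt_id t).mul_const _)).differentiableAt.differentiableWithinAt
    · intro t ht
      rw [interior_Icc] at ht
      have e := ((hd t).sub ((hasDerivAt_id t).mul_const (ip u (mean μ) + 2 * C))).deriv
      have e' : deriv (fun t => Real.log (lapl μ (t • u)) - t * (ip u (mean μ) + 2 * C)) t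
          = ip u (mean (tilt μ (t • u))) - 1 * (ip u (mean μ) + 2 * C) := e
      rw [e']
      have := key t ⟨ht.1.le, ht.2.le⟩
      linarith
  have h1 := hanti (Set.left_mem_Icc.2 zero_le_one) (Set.right_mem_Icc.2 zero_le_one) zero_le_one
  simp only [one_smul, zero_smul, lapl_zero hμ, Real.log_one, zero_mul, sub_zero, one_mul] at h1
  have h2 : Real.log (lapl μ u) ≤ ip u (mean μ) + 2 * C := by linarith
  rwa [Real.log_le_iff_le_exp (lapl_pos hμ u)] at h2

/-- quadratic form of the covariance -/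
lemma qf_covM (μ : Cfg n → ℝ) (v : Vec n) :
    qf (covM μ) v = ∑ x, μ x * (ip v (sv x) - ip v (mean μ)) ^ 2 := by
  have e : ∀ x, ip v (sv x) - ip v (mean μ) = ∑ i, v i * (sv x i - mean μ i) := by
    intro x
    unfold ip
    rw [← Finset.sum_sub_distrib]
    refine Finset.sum_congr rfl fun i _ => ?_
    ring
  simp only [e, Finset.sum_mul_sum, pow_two]
  unfold qf ip Matrix.mulVec dotProduct covM
  simp only [Finset.mul_sum, Finset.sum_mul]
  rw [Finset.sum_congr rfl fun i _ => Finset.sum_comm]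
  rw [Finset.sum_comm]
  refine Finset.sum_congr rfl fun x _ => Finset.sum_congr rfl fun i _ =>
    Finset.sum_congr rfl fun j _ => ?_
  ring

/-- **covariance bound** from tracking of the tilted means -/
theorem qf_covM_le_of_track {μ : Cfg n → ℝ} (hμ : IsProb μ) {mh : Vec n} {C : ℝ} (hC : 0 ≤ C)
    (h : ∀ w : Vec n, sq w ≤ 1 → nv (mean (tilt μ w) - mh) ≤ C) (v : Vec n) :
    qf (covM μ) v ≤ 2 * Real.exp (2 * C) * sq v := by
  -- unit vectors
  have h1 : ∀ u : Vec n, sq u ≤ 1 → qf (covM μ) u ≤ 2 * Real.exp (2 * C) := by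
    intro u hu
    have a := lapl_le_of_track hμ hC hu h
    have hu' : sq (-u) ≤ 1 := by
      have : sq (-u) = sq u := by unfold sq; simp
      rwa [this]
    have b := lapl_le_of_track hμ hC hu' h
    have e1 : ∑ x, μ x * Real.exp (ip u (sv x) - ip u (mean μ)) ≤ Real.exp (2 * C) := by
      have : ∑ x, μ x * Real.exp (ip u (sv x) - ip u (mean μ))
          = lapl μ u * Real.exp (-ip u (mean μ)) := by
        unfold lapl
        rw [Finset.sum_mul]
        refine Finset.sum_congr rfl fun x _ => ?_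
        rw [sub_eq_add_neg, Real.exp_add]; ring
      rw [this]
      calc _ ≤ Real.exp (ip u (mean μ) + 2 * C) * Real.exp (-ip u (mean μ)) :=
            mul_le_mul_of_nonneg_right a (Real.exp_pos _).le
        _ = _ := by rw [← Real.exp_add]; congr 1; ring
    have e2 : ∑ x, μ x * Real.exp (-(ip u (sv x) - ip u (mean μ))) ≤ Real.exp (2 * C) := by
      have hneg : ∀ w : Vec n, ip (-u) w = - ip u w := by
        intro w; unfold ip; simp
      have : ∑ x, μ x * Real.exp (-(ip u (sv x) - ip u (mean μ)))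
          = lapl μ (-u) * Real.exp (ip u (mean μ)) := by
        unfold lapl
        rw [Finset.sum_mul]
        refine Finset.sum_congr rfl fun x _ => ?_
        rw [hneg, neg_sub, sub_eq_add_neg, Real.exp_add]; ring
      rw [this]
      rw [hneg] at b
      calc _ ≤ Real.exp (-ip u (mean μ) + 2 * C) * Real.exp (ip u (mean μ)) :=
            mul_le_mul_of_nonneg_right b (Real.exp_pos _).le
        _ = _ := by rw [← Real.exp_add]; congr 1; ring
    rw [qf_covM]
    have e3 : ∑ x, μ x * (ip u (sv x) - ip u (mean μ)) ^ 2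
        ≤ ∑ x, μ x * (Real.exp (ip u (sv x) - ip u (mean μ))
            + Real.exp (-(ip u (sv x) - ip u (mean μ)))) := by
      refine Finset.sum_le_sum fun x _ => mul_le_mul_of_nonneg_left ?_ (hμ.1 x)
      set t := ip u (sv x) - ip u (mean μ)
      have := one_add_sq_le_cosh t
      rw [Real.cosh_eq] at this
      linarith only [this]
    rw [Finset.sum_congr rfl fun x _ => mul_add _ _ _, Finset.sum_add_distrib] at e3
    linarith
  rcases (Finset.sum_nonneg fun i _ => sq_nonneg (v i) : 0 ≤ ∑ i, v i ^ 2).eq_or_lt with h0 | h0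
  · -- v = 0
    have hv : v = 0 := by
      funext i
      have := (Finset.sum_eq_zero_iff_of_nonneg fun i _ => sq_nonneg (v i)).1 h0.symm i
        (Finset.mem_univ i)
      simpa using this
    subst hv
    have : qf (covM μ) (0 : Vec n) = 0 := by unfold qf ip; simp
    rw [this]
    have : sq (0 : Vec n) = 0 := by unfold sq; simp
    rw [this]; simp
  · have h0' : 0 < sq v := h0
    have hs : 0 < √(sq v) := Real.sqrt_pos.2 h0'
    have h2 := h1 ((√(sq v))⁻¹ • v) (by
      have e : sq ((√(sq v))⁻¹ • v) = ((√(sq v))⁻¹) ^ 2 * sq v := by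
        conv_lhs => unfold sq
        rw [show sq v = ∑ i, v i ^ 2 from rfl, Finset.mul_sum]
        refine Finset.sum_congr rfl fun i _ => ?_
        simp only [Pi.smul_apply, smul_eq_mul]; ring
      rw [e, inv_pow, Real.sq_sqrt h0'.le, inv_mul_cancel₀ h0'.ne'])
    have e2 : qf (covM μ) ((√(sq v))⁻¹ • v) = (sq v)⁻¹ * qf (covM μ) v := by
      rw [qf_covM, qf_covM, Finset.mul_sum]
      refine Finset.sum_congr rfl fun x _ => ?_
      rw [ip_smul_leftD, ip_smul_leftD]
      have : ((√(sq v))⁻¹) ^ 2 = (sq v)⁻¹ := by rw [inv_pow, Real.sq_sqrt h0'.le]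
      rw [← this]; ring
    rw [e2, inv_mul_le_iff₀ h0'] at h2
    linarith

/-- covariance of a function with the spins -/
theorem sq_covF_le {μ : Cfg n → ℝ} (hμ : IsProb μ) {K : ℝ}
    (hK : ∀ v, qf (covM μ) v ≤ K * sq v) (F : Cfg n → ℝ) :
    sq (covF μ F) ≤ K * VarX μ F := by
  set v := covF μ F with hv
  have hV0 : 0 ≤ VarX μ F := by
    unfold VarX Ex
    exact Finset.sum_nonneg fun x _ => mul_nonneg (hμ.1 x) (sq_nonneg _)
  have e : sq v = ∑ x, μ x * ((F x - Ex μ F) * (ip v (sv x) - ip v (mean μ))) := by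
    have e0 : ∀ x, ip v (sv x) - ip v (mean μ) = ∑ i, v i * (sv x i - mean μ i) := by
      intro x
      unfold ip
      rw [← Finset.sum_sub_distrib]
      refine Finset.sum_congr rfl fun i _ => ?_
      ring
    simp only [e0, Finset.mul_sum]
    rw [Finset.sum_comm]
    unfold sq
    refine Finset.sum_congr rfl fun i _ => ?_
    conv_lhs => rw [pow_two]; rw [hv]
    rw [← hv]
    nth_rewrite 2 [hv]
    unfold covF
    rw [Finset.mul_sum]
    refine Finset.sum_congr rfl fun x _ => ?_
    ring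
  have hcs : sq v ^ 2 ≤ VarX μ F * qf (covM μ) v := by
    rw [e, qf_covM]
    unfold VarX
    have := Finset.sum_mul_sq_le_sq_mul_sq Finset.univ (fun x => √(μ x) * (F x - Ex μ F))
      (fun x => √(μ x) * (ip v (sv x) - ip v (mean μ)))
    have e1 : ∑ x, (√(μ x) * (F x - Ex μ F)) * (√(μ x) * (ip v (sv x) - ip v (mean μ)))
        = ∑ x, μ x * ((F x - Ex μ F) * (ip v (sv x) - ip v (mean μ))) := by
      refine Finset.sum_congr rfl fun x _ => ?_
      have := Real.mul_self_sqrt (hμ.1 x)
      calc _ = (√(μ x) * √(μ x)) * ((F x - Ex μ F) * (ip v (sv x) - ip v (mean μ))) := by ring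
        _ = _ := by rw [this]
    have e2 : ∑ x, (√(μ x) * (F x - Ex μ F)) ^ 2 = ∑ x, μ x * (F x - Ex μ F) ^ 2 := by
      refine Finset.sum_congr rfl fun x _ => ?_
      rw [mul_pow, Real.sq_sqrt (hμ.1 x)]
    have e3 : ∑ x, (√(μ x) * (ip v (sv x) - ip v (mean μ))) ^ 2
        = ∑ x, μ x * (ip v (sv x) - ip v (mean μ)) ^ 2 := by
      refine Finset.sum_congr rfl fun x _ => ?_
      rw [mul_pow, Real.sq_sqrt (hμ.1 x)]
    rw [e1, e2, e3] at this
    exact this
  have h0 : 0 ≤ sq v := Finset.sum_nonneg fun i _ => sq_nonneg _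
  rcases h0.eq_or_lt with h | h
  · rw [← h]
    by_cases hK0 : 0 ≤ K
    · exact mul_nonneg hK0 hV0
    · -- K < 0 forces n = 0-like situation; use a nonzero vector or emptiness
      push Not at hK0
      by_contra hcon
      push Not at hcon
      -- VarX > 0, hence n ≠ 0
      rcases Nat.eq_zero_or_pos n with hn | hn
      · subst hn
        have : VarX μ F = 0 := by
          unfold VarX Ex
          have hx : ∀ x : Cfg 0, x = default := fun x => Subsingleton.elim _ _
          have h1 := hμ.2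
          rw [Fintype.sum_eq_single default (fun x hx' => absurd (hx x) hx')] at h1 ⊢
          rw [Fintype.sum_eq_single default (fun x hx' => absurd (hx x) hx'), h1]
          ring
        rw [this] at hcon; simp at hcon
      · have h2 := hK (Pi.single ⟨0, hn⟩ 1)
        have h3 : sq (Pi.single (⟨0, hn⟩ : Fin n) (1:ℝ)) = 1 := by
          unfold sq
          rw [Finset.sum_eq_single ⟨0, hn⟩]
          · simp
          · intro j _ hj; simp [Pi.single_eq_of_ne hj]
          · simp
        have h4 : 0 ≤ qf (covM μ) (Pi.single (⟨0, hn⟩ : Fin n) (1:ℝ)) := by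
          rw [qf_covM]
          exact Finset.sum_nonneg fun x _ => mul_nonneg (hμ.1 x) (sq_nonneg _)
        rw [h3] at h2
        linarith only [h4, h2, hK0]
  · have h5 : sq v ^ 2 ≤ VarX μ F * (K * sq v) :=
      hcs.trans (mul_le_mul_of_nonneg_left (hK v) hV0)
    have h6 : sq v * sq v ≤ (K * VarX μ F) * sq v := by linarith only [h5]
    exact le_of_mul_le_mul_right h6 h

end Vale.Agent.P150.F
end

section

/-! D7, tracking: the backward recursion for the distance between the mean of a reweighted law and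
the tracked mean, and the covariance bound at non-bad states. -/

open MeasureTheory ProbabilityTheory Filter Topology Real
open scoped Matrix

namespace Vale.Agent.P150.F

variable {n m : ℕ}

/-! ### reweighted laws -/

/-- the law with density proportional to `f` -/
noncomputable def rew (f : Cfg n → ℝ) (μ : Cfg n → ℝ) (x : Cfg n) : ℝ :=
  μ x * f x / ∑ x', μ x' * f x'

lemma tilt_eq_rew (μ : Cfg n → ℝ) (u : Vec n) :
    tilt μ u = rew (fun x => Real.exp (ip u (sv x))) μ := rfl

lemma rew_sum_pos {f μ : Cfg n → ℝ} (hf : ∀ x, 0 < f x) (hμ : ∀ x, 0 < μ x) :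
    0 < ∑ x, μ x * f x :=
  Finset.sum_pos (fun x _ => mul_pos (hμ x) (hf x)) Finset.univ_nonempty

lemma rew_pos {f μ : Cfg n → ℝ} (hf : ∀ x, 0 < f x) (hμ : ∀ x, 0 < μ x) (x : Cfg n) :
    0 < rew f μ x := div_pos (mul_pos (hμ x) (hf x)) (rew_sum_pos hf hμ)

lemma rew_isProb {f μ : Cfg n → ℝ} (hf : ∀ x, 0 < f x) (hμ : ∀ x, 0 < μ x) :
    IsProb (rew f μ) := by
  refine ⟨fun x => (rew_pos hf hμ x).le, ?_⟩
  unfold rew
  rw [← Finset.sum_div]
  exact div_self (rew_sum_pos hf hμ).ne'

/-- reweighting commutes with taking posteriors -/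
lemma pst_rew {f μ : Cfg n → ℝ} (hf : ∀ x, 0 < f x) (hμ : ∀ x, 0 < μ x) (Q : Mat n) (δ : ℝ)
    (z : Vec n) : pst (rew f μ) Q δ z = rew f (pst μ Q δ z) := by
  have hs := (rew_sum_pos hf hμ).ne'
  set e : Cfg n → ℝ := fun x => Real.exp (ip z (sv x) - δ / 2 * qf Q (sv x)) with he
  have he0 : ∀ x, 0 < e x := fun x => Real.exp_pos _
  have hE : 0 < ∑ x, μ x * e x :=
    Finset.sum_pos (fun x _ => mul_pos (hμ x) (he0 x)) Finset.univ_nonempty
  have hEf : 0 < ∑ x, μ x * f x * e x :=
    Finset.sum_pos (fun x _ => mul_pos (mul_pos (hμ x) (hf x)) (he0 x)) Finset.univ_nonempty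
  funext x
  have h1 : pst (rew f μ) Q δ z x = μ x * f x * e x / ∑ x', μ x' * f x' * e x' := by
    unfold pst rew
    have e1 : ∀ x, μ x * f x / (∑ x', μ x' * f x') * Real.exp (ip z (sv x) - δ / 2 * qf Q (sv x))
        = (μ x * f x * e x) / ∑ x', μ x' * f x' := by
      intro x; rw [he]; ring
    simp only [e1]
    rw [← Finset.sum_div, div_div_div_cancel_right₀ hs]
  have h2 : rew f (pst μ Q δ z) x = μ x * f x * e x / ∑ x', μ x' * f x' * e x' := by
    unfold rew pst
    have e2 : ∀ x, μ x * Real.exp (ip z (sv x) - δ / 2 * qf Q (sv x)) /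
        (∑ x', μ x' * Real.exp (ip z (sv x') - δ / 2 * qf Q (sv x'))) * f x
        = (μ x * f x * e x) / ∑ x', μ x' * e x' := by
      intro x; rw [he]; ring
    simp only [e2]
    rw [← Finset.sum_div, div_div_div_cancel_right₀ hE.ne']
  rw [h1, h2]

namespace D7T

/-! ### Jensen for the Euclidean norm -/

/-- Jensen's inequality for `nv` and the channel expectation -/
theorem nv_EC_le {ν : Cfg n → ℝ} (hν : IsProb ν) (R : Matrix (Fin n) (Fin m) ℝ) (δ : ℝ)
    (V : Vec n → Vec n) (hV : ∀ x i, Integrable (fun ξ => V (obs R δ x ξ) i) (gpi (Fin m)))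
    (hVn : ∀ x, Integrable (fun ξ => nv (V (obs R δ x ξ))) (gpi (Fin m))) :
    nv (fun i => EC ν R δ (fun _ z => V z i)) ≤ EC ν R δ (fun _ z => nv (V z)) := by
  set w : Vec n := fun i => EC ν R δ (fun _ z => V z i) with hw
  have hEC0 : 0 ≤ EC ν R δ (fun _ z => nv (V z)) :=
    Finset.sum_nonneg fun x _ => mul_nonneg (hν.1 x) (integral_nonneg fun _ => nv_nonneg _)
  have key : nv w ^ 2 ≤ nv w * EC ν R δ (fun _ z => nv (V z)) := by
    rw [nv_sq, ← ipN_self]
    have e1 : ip w w = EC ν R δ (fun _ z => ip w (V z)) := by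
      conv_lhs => unfold ip
      unfold EC
      have : ∀ i, w i * w i = ∑ x, ν x * ∫ ξ, w i * V (obs R δ x ξ) i ∂(gpi (Fin m)) := by
        intro i
        have e0 : w i * w i = w i * EC ν R δ (fun _ z => V z i) := rfl
        rw [e0]
        unfold EC
        rw [Finset.mul_sum]
        refine Finset.sum_congr rfl fun x _ => ?_
        rw [integral_const_mul]; ring
      rw [Finset.sum_congr rfl fun i _ => this i, Finset.sum_comm]
      refine Finset.sum_congr rfl fun x _ => ?_
      rw [← Finset.mul_sum]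
      congr 1
      unfold ip
      rw [integral_finsetSum]
      exact fun i _ => (hV x i).const_mul _
    rw [e1]
    unfold EC
    rw [Finset.mul_sum]
    refine Finset.sum_le_sum fun x _ => ?_
    rw [mul_left_comm]
    refine mul_le_mul_of_nonneg_left ?_ (hν.1 x)
    rw [← integral_const_mul]
    refine integral_mono ?_ ((hVn x).const_mul _) fun ξ => ip_le _ _
    unfold ip
    exact integrable_finsetSum _ fun i _ => (hV x i).const_mul _
  rcases (nv_nonneg w).eq_or_lt with h | h
  · rw [← h]; exact hEC0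
  · have : nv w * nv w ≤ nv w * EC ν R δ (fun _ z => nv (V z)) := by rw [← pow_two]; exact key
    exact le_of_mul_le_mul_left this h

lemma EC_add {ν : Cfg n → ℝ} (R : Matrix (Fin n) (Fin m) ℝ) (δ : ℝ) {Φ Ψ : Cfg n → Vec n → ℝ}
    (hΦ : ∀ x, Integrable (fun ξ => Φ x (obs R δ x ξ)) (gpi (Fin m)))
    (hΨ : ∀ x, Integrable (fun ξ => Ψ x (obs R δ x ξ)) (gpi (Fin m))) :
    EC ν R δ (fun x z => Φ x z + Ψ x z) = EC ν R δ Φ + EC ν R δ Ψ := by
  unfold EC
  rw [← Finset.sum_add_distrib]
  refine Finset.sum_congr rfl fun x _ => ?_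
  rw [integral_add (hΦ x) (hΨ x)]; ring

lemma EC_sub {ν : Cfg n → ℝ} (R : Matrix (Fin n) (Fin m) ℝ) (δ : ℝ) {Φ Ψ : Cfg n → Vec n → ℝ}
    (hΦ : ∀ x, Integrable (fun ξ => Φ x (obs R δ x ξ)) (gpi (Fin m)))
    (hΨ : ∀ x, Integrable (fun ξ => Ψ x (obs R δ x ξ)) (gpi (Fin m))) :
    EC ν R δ (fun x z => Φ x z - Ψ x z) = EC ν R δ Φ - EC ν R δ Ψ := by
  unfold EC
  rw [← Finset.sum_sub_distrib]
  refine Finset.sum_congr rfl fun x _ => ?_
  rw [integral_sub (hΦ x) (hΨ x)]; ring

lemma EC_cmul {ν : Cfg n → ℝ} (R : Matrix (Fin n) (Fin m) ℝ) (δ c : ℝ) (Φ : Cfg n → Vec n → ℝ) :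
    EC ν R δ (fun x z => c * Φ x z) = c * EC ν R δ Φ := by
  unfold EC
  rw [Finset.mul_sum]
  refine Finset.sum_congr rfl fun x _ => ?_
  rw [integral_const_mul]; ring

theorem prob_gpi : IsProbabilityMeasure (gpi (Fin m)) := by unfold gpi; infer_instance

attribute [local instance] prob_gpi

lemma EC_const {ν : Cfg n → ℝ} (hν : IsProb ν) (R : Matrix (Fin n) (Fin m) ℝ) (δ c : ℝ) :
    EC ν R δ (fun _ _ => c) = c := by
  unfold EC
  simp only [integral_const, probReal_univ, one_smul]
  rw [← Finset.sum_mul, hν.2, one_mul]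

lemma EC_mono {ν : Cfg n → ℝ} (hν : IsProb ν) (R : Matrix (Fin n) (Fin m) ℝ) (δ : ℝ)
    {Φ Ψ : Cfg n → Vec n → ℝ}
    (hΦ : ∀ x, Integrable (fun ξ => Φ x (obs R δ x ξ)) (gpi (Fin m)))
    (hΨ : ∀ x, Integrable (fun ξ => Ψ x (obs R δ x ξ)) (gpi (Fin m)))
    (h : ∀ x z, Φ x z ≤ Ψ x z) : EC ν R δ Φ ≤ EC ν R δ Ψ :=
  Finset.sum_le_sum fun x _ => mul_le_mul_of_nonneg_left
    (integral_mono (hΦ x) (hΨ x) fun _ => h _ _) (hν.1 x)

/-! ### elementary bounds -/

lemma abs_sv (x : Cfg n) (i : Fin n) : |sv x i| = 1 := by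
  unfold sv sp
  split_ifs <;> simp

lemma nv_sv_le (x : Cfg n) : nv (sv x) ≤ √n := by
  have := nv_le_sqrt (u := sv x) (C := 1) zero_le_one fun i => (abs_sv x i).le
  linarith

lemma abs_mean_le {ν : Cfg n → ℝ} (hν : IsProb ν) (i : Fin n) : |mean ν i| ≤ 1 := by
  unfold mean
  calc |∑ x, ν x * sv x i| ≤ ∑ x, |ν x * sv x i| := Finset.abs_sum_le_sum_abs _ _
    _ = ∑ x, ν x := Finset.sum_congr rfl fun x _ => by
        rw [abs_mul, abs_sv, mul_one, abs_of_nonneg (hν.1 x)]
    _ = 1 := hν.2

lemma nv_mean_sub_le {ν : Cfg n → ℝ} (hν : IsProb ν) {v : Vec n} (hv : ∀ i, |v i| ≤ 1) :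
    nv (mean ν - v) ≤ 2 * √n := by
  refine nv_le_sqrt (by norm_num) fun i => ?_
  have h1 := abs_mean_le hν i
  have h2 := hv i
  have h3 : |mean ν i - v i| ≤ |mean ν i| + |v i| := abs_sub _ _
  rw [Pi.sub_apply]
  linarith

lemma measurable_nv' {α : Type*} [MeasurableSpace α] {g : α → Vec n}
    (hg : ∀ i, Measurable fun a => g a i) : Measurable fun a => nv (g a) := by
  simp only [nv_eq_sqrt]
  unfold sq
  exact (Finset.measurable_fun_sum _ fun i _ => (hg i).pow_const 2).sqrt

end D7T

open D7T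

attribute [local instance] D7T.prob_gpi

/-! ### the recursion -/

namespace D6Out

variable {β C T c : ℝ} {J : Mat n} {δ₀ : ℝ} (D : D6Out β C T c J δ₀)

/-- total duration of the last `k` steps -/
noncomputable def rem (k : ℕ) : ℝ := ∑ j ∈ Finset.range k, D.dur j

lemma rem_succ (k : ℕ) : D.rem (k + 1) = D.rem k + D.dur k := Finset.sum_range_succ _ _

lemma rem_nonneg (k : ℕ) : 0 ≤ D.rem k := Finset.sum_nonneg fun j _ => (D.dur_pos j).le

lemma rem_le {k : ℕ} (hk : k ≤ D.N) : D.rem k ≤ T :=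
  (Finset.sum_le_sum_of_subset_of_nonneg (Finset.range_mono hk)
    fun j _ _ => (D.dur_pos j).le).trans D.dur_sum

/-- hitting probability of the exit set under the reweighted law -/
noncomputable def hitR (f : Cfg n → ℝ) (k : ℕ) (s : D.S) : ℝ :=
  ∑ x, rew f (D.P.law s) x * D.P.hit (fun _ => D.Exit) k s x

lemma pst_law (hG : CHG) (s : D.S) (z : Vec n) :
    pst (D.P.law s) (D.P.R s * (D.P.R s)ᵀ) (D.P.δ s) z = D.P.law (D.P.nxt s z) := by
  unfold Proc.law
  rw [hG, D.P.hM, D.P.hy]

lemma pst_rew_law (hG : CHG) {f : Cfg n → ℝ} (hf : ∀ x, 0 < f x) (s : D.S) (z : Vec n) :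
    pst (rew f (D.P.law s)) (D.P.R s * (D.P.R s)ᵀ) (D.P.δ s) z = rew f (D.P.law (D.P.nxt s z)) := by
  rw [pst_rew hf (D.P.law_pos s), D.pst_law hG]

lemma meas_rew {f : Cfg n → ℝ} (x : Cfg n) : Measurable fun s => rew f (D.P.law s) x := by
  unfold rew
  exact ((D.P.meas_law x).mul_const _).div
    (Finset.measurable_fun_sum _ fun x' _ => (D.P.meas_law x').mul_const _)

lemma meas_mean {f : Cfg n → ℝ} (i : Fin n) :
    Measurable fun s => mean (rew f (D.P.law s)) i := by
  unfold mean
  exact Finset.measurable_fun_sum _ fun x _ => (D.meas_rew x).mul_const _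

lemma meas_hitR {f : Cfg n → ℝ} (k : ℕ) : Measurable fun s => D.hitR f k s := by
  unfold hitR
  exact Finset.measurable_fun_sum _ fun x _ => (D.meas_rew x).mul
    (D.P.meas_hit _ (fun _ => D.measExit) k x)

lemma hitR_nonneg {f : Cfg n → ℝ} (hf : ∀ x, 0 < f x) (k : ℕ) (s : D.S) : 0 ≤ D.hitR f k s :=
  Finset.sum_nonneg fun x _ => mul_nonneg (rew_pos hf (D.P.law_pos s) x).le
    (D.P.hit_nonneg _ _ _ _)

lemma hitR_le_one {f : Cfg n → ℝ} (hf : ∀ x, 0 < f x) (k : ℕ) (s : D.S) : D.hitR f k s ≤ 1 := by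
  calc D.hitR f k s ≤ ∑ x, rew f (D.P.law s) x * 1 :=
        Finset.sum_le_sum fun x _ => mul_le_mul_of_nonneg_left (D.P.hit_le_one _ _ _ _)
          (rew_pos hf (D.P.law_pos s) x).le
    _ = 1 := by
        rw [← Finset.sum_mul, (rew_isProb hf (D.P.law_pos s)).2, one_mul]

lemma hitR_exit {f : Cfg n → ℝ} (hf : ∀ x, 0 < f x) (k : ℕ) {s : D.S} (hs : s ∈ D.Exit) :
    D.hitR f k s = 1 := by
  unfold hitR
  rw [Finset.sum_congr rfl fun x _ => by
    rw [D.P.hit_of_mem (fun _ => D.Exit) (k := k) (s := s) hs x]]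
  rw [← Finset.sum_mul, (rew_isProb hf (D.P.law_pos s)).2, one_mul]

/-- integrability of a bounded measurable functional of the next state -/
lemma integrable_next {Φ : D.S → ℝ} (hΦ : Measurable Φ) {K : ℝ} (hK : ∀ s, |Φ s| ≤ K) (s : D.S)
    (x : Cfg n) :
    Integrable (fun ξ => Φ (D.P.nxt s (obs (D.P.R s) (D.P.δ s) x ξ))) (gpi (Fin n)) := by
  have := D.P.integrable_nx (Φ := fun s _ => Φ s) (fun _ => hΦ) (C := K) (fun s _ => hK s) s x x
  exact this

lemma hitR_succ (h1 : CH1) (hG : CHG) {f : Cfg n → ℝ} (hf : ∀ x, 0 < f x) (k : ℕ) {s : D.S}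
    (hs : s ∉ D.Exit) :
    D.hitR f (k + 1) s = EC (rew f (D.P.law s)) (D.P.R s) (D.P.δ s)
      (fun _ z => D.hitR f k (D.P.nxt s z)) := by
  have h := h1 n n (D.P.R s) (D.P.δ s) (D.P.hδ s).le (rew f (D.P.law s))
    (rew_isProb hf (D.P.law_pos s)) (fun x z => D.P.hit (fun _ => D.Exit) k (D.P.nxt s z) x)
    (fun x => D.P.integrable_nx (D.P.meas_hit _ (fun _ => D.measExit) k)
      (D.P.abs_hit_le _ k) s x x)
  have e1 : D.hitR f (k + 1) s = EC (rew f (D.P.law s)) (D.P.R s) (D.P.δ s)
      (fun x z => D.P.hit (fun _ => D.Exit) k (D.P.nxt s z) x) := by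
    unfold hitR EC
    refine Finset.sum_congr rfl fun x _ => ?_
    rw [D.P.hit_succ_not (fun _ => D.Exit) (k := k) (s := s) hs x]
    rfl
  rw [e1, h]
  unfold EC
  refine Finset.sum_congr rfl fun x _ => ?_
  congr 1
  refine integral_congr_ae (Eventually.of_forall fun ξ => ?_)
  beta_reduce
  rw [D.pst_rew_law hG hf]
  rfl

/-- **(O2)**: backward recursion for the tracking error of a reweighted law -/
theorem o2_gen (h1 : CH1) (hG : CHG) (h6 : CH6a) (hC : 0 < C) (hδ : C * δ₀ ≤ 1 / 2)
    {f : Cfg n → ℝ} (hf : ∀ x, 0 < f x) {A0 : ℝ}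
    (hend : ∀ s, D.Inv 0 s → s ∉ D.Exit → nv (mean (rew f (D.P.law s)) - D.mh s) ≤ A0)
    (hA0 : 0 ≤ A0) :
    ∀ k s, D.Inv k s → nv (mean (rew f (D.P.law s)) - D.mh s)
      ≤ Real.exp (2 * C * D.rem k) * (A0 + C * D.rem k + 2 * √n * D.hitR f k s) := by
  have hexit : ∀ k s, s ∈ D.Exit → nv (mean (rew f (D.P.law s)) - D.mh s)
      ≤ Real.exp (2 * C * D.rem k) * (A0 + C * D.rem k + 2 * √n * D.hitR f k s) := by
    intro k s hs
    have h1 := nv_mean_sub_le (rew_isProb hf (D.P.law_pos s)) (D.mh_le s)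
    rw [D.hitR_exit hf k hs, mul_one]
    have h2 : 1 ≤ Real.exp (2 * C * D.rem k) := by
      apply Real.one_le_exp
      have := D.rem_nonneg k
      positivity
    have h3 : 0 ≤ A0 + C * D.rem k + 2 * √n := by
      have := D.rem_nonneg k
      (clear * - hA0 hC this; positivity)
    calc nv (mean (rew f (D.P.law s)) - D.mh s) ≤ 2 * √n := h1
      _ ≤ 1 * (A0 + C * D.rem k + 2 * √n) := by
          have := D.rem_nonneg k
          have h4 : 0 ≤ C * D.rem k := by positivity
          linarith only [h4, hA0]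
      _ ≤ _ := mul_le_mul_of_nonneg_right h2 h3
  intro k
  induction k with
  | zero =>
    intro s hs
    by_cases he : s ∈ D.Exit
    · exact hexit 0 s he
    · have h1 := hend s hs he
      have h0 : D.rem 0 = 0 := by unfold rem; simp
      rw [h0]
      simp only [mul_zero, Real.exp_zero, one_mul, add_zero]
      have := D.hitR_nonneg hf 0 s
      have h2 : 0 ≤ 2 * √n * D.hitR f 0 s := by (clear * - this; positivity)
      linarith only [h2, h1]
  | succ k ih =>
    intro s hs
    by_cases he : s ∈ D.Exit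
    · exact hexit (k + 1) s he
    set ν := rew f (D.P.law s) with hν
    have hνP : IsProb ν := rew_isProb hf (D.P.law_pos s)
    set a := nv (mean ν - D.mh s) with ha
    have ha0 : 0 ≤ a := nv_nonneg _
    set R := D.P.R s
    set δ := D.P.δ s with hδs
    have hδk : δ = D.dur k := D.δ_eq k s hs
    have hδ0 : 0 < δ := D.P.hδ s
    have hCδ : C * δ ≤ 1 / 2 := by
      refine le_trans (mul_le_mul_of_nonneg_left ?_ hC.le) hδ
      rw [hδk]; exact D.dur_le k
    have hrem := D.rem_nonneg k
    -- the vector field of differences at the next state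
    set V : Vec n → Vec n := fun z => mean (rew f (D.P.law (D.P.nxt s z))) - D.mh (D.P.nxt s z)
      with hV
    have hmeasV : ∀ i, Measurable fun s' => (mean (rew f (D.P.law s')) - D.mh s') i := fun i =>
      (D.meas_mean i).sub (D.measmh i)
    have hVi : ∀ x i, Integrable (fun ξ => V (obs R δ x ξ) i) (gpi (Fin n)) := by
      intro x i
      refine D.integrable_next (Φ := fun s' => (mean (rew f (D.P.law s')) - D.mh s') i)
        (hmeasV i) (K := 2) (fun s' => ?_) s x
      have h1 := abs_mean_le (rew_isProb hf (D.P.law_pos s')) i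
      have h2 := D.mh_le s' i
      have h3 := abs_sub (mean (rew f (D.P.law s')) i) (D.mh s' i)
      rw [Pi.sub_apply]; linarith only [h1, h2, h3]
    have hVn : ∀ x, Integrable (fun ξ => nv (V (obs R δ x ξ))) (gpi (Fin n)) := by
      intro x
      refine D.integrable_next (Φ := fun s' => nv (mean (rew f (D.P.law s')) - D.mh s'))
        (measurable_nv' hmeasV) (K := 2 * √n) (fun s' => ?_) s x
      rw [abs_of_nonneg (nv_nonneg _)]
      exact nv_mean_sub_le (rew_isProb hf (D.P.law_pos s')) (D.mh_le s')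
    have hjen := nv_EC_le hνP R δ V hVi hVn
    -- decomposition
    have hmean : ∀ i, EC ν R δ (fun _ z => mean (rew f (D.P.law (D.P.nxt s z))) i) = mean ν i := by
      intro i
      have := (h6 n n R δ hδ0.le ν hνP).2.1 i
      rw [← this]
      unfold EC
      refine Finset.sum_congr rfl fun x _ => ?_
      congr 1
      refine integral_congr_ae (Eventually.of_forall fun ξ => ?_)
      beta_reduce
      rw [hν, D.pst_rew_law hG hf]
    have hdec : mean ν - D.mh s = (fun i => EC ν R δ (fun _ z => V z i))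
        + ((fun i => EC ν R δ (fun _ z => D.mh (D.P.nxt s z) i)) - D.mh s) := by
      funext i
      have e : EC ν R δ (fun _ z => V z i)
          = EC ν R δ (fun _ z => mean (rew f (D.P.law (D.P.nxt s z))) i)
            - EC ν R δ (fun _ z => D.mh (D.P.nxt s z) i) := by
        rw [← EC_sub]
        · rfl
        · intro x
          refine D.integrable_next (Φ := fun s' => mean (rew f (D.P.law s')) i)
            (D.meas_mean i) (K := 1) (fun s' => ?_) s x
          exact abs_mean_le (rew_isProb hf (D.P.law_pos s')) i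
        · intro x
          exact D.integrable_next (Φ := fun s' => D.mh s' i) (D.measmh i) (K := 1)
            (fun s' => D.mh_le s' i) s x
      simp only [Pi.sub_apply, Pi.add_apply]
      rw [e, hmean i]
      ring
    have hdrift := D.drift k s hs he ν hνP
    have hstep : a ≤ EC ν R δ (fun _ z => nv (V z)) + C * δ * (a + 1) := by
      rw [ha]
      calc nv (mean ν - D.mh s) ≤ nv (fun i => EC ν R δ (fun _ z => V z i))
            + nv ((fun i => EC ν R δ (fun _ z => D.mh (D.P.nxt s z) i)) - D.mh s) := by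
              conv_lhs => rw [hdec]
              exact nv_add_le _ _
        _ ≤ _ := add_le_add hjen hdrift
    -- induction hypothesis inside
    have hIH : EC ν R δ (fun _ z => nv (V z)) ≤ Real.exp (2 * C * D.rem k) *
        (A0 + C * D.rem k + 2 * √n * D.hitR f (k + 1) s) := by
      have hint : ∀ x : Cfg n, Integrable
          (fun ξ => D.hitR f k (D.P.nxt s (obs R δ x ξ))) (gpi (Fin n)) := by
        intro x
        refine D.integrable_next (Φ := fun s' => D.hitR f k s') (D.meas_hitR k) (K := 1)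
          (fun s' => ?_) s x
        rw [abs_of_nonneg (D.hitR_nonneg hf k s')]
        exact D.hitR_le_one hf k s'
      calc EC ν R δ (fun _ z => nv (V z))
          ≤ EC ν R δ (fun _ z => Real.exp (2 * C * D.rem k) *
              (A0 + C * D.rem k + 2 * √n * D.hitR f k (D.P.nxt s z))) := by
            refine Vale.Agent.P150.F.D7T.EC_mono hνP R δ hVn (fun x => ?_) fun x z => ih _ (D.invS k s z hs)
            exact ((integrable_const _).add ((hint x).const_mul _)).const_mul _
        _ = Real.exp (2 * C * D.rem k) *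
              (A0 + C * D.rem k + 2 * √n * D.hitR f (k + 1) s) := by
            rw [EC_cmul, Vale.Agent.P150.F.D7T.EC_add, Vale.Agent.P150.F.D7T.EC_const hνP, EC_cmul, D.hitR_succ h1 hG hf k he]
            · exact fun x => integrable_const _
            · exact fun x => (hint x).const_mul _
    have hfac : a ≤ Real.exp (2 * C * δ) * (EC ν R δ (fun _ z => nv (V z)) + C * δ) := by
      have hE0 : 0 ≤ EC ν R δ (fun _ z => nv (V z)) :=
        Finset.sum_nonneg fun x _ => mul_nonneg (hνP.1 x) (integral_nonneg fun _ => nv_nonneg _)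
      have h2 : (1 - C * δ) * a ≤ EC ν R δ (fun _ z => nv (V z)) + C * δ := by linarith only [hstep]
      have h3 : 1 ≤ Real.exp (2 * C * δ) * (1 - C * δ) := by
        have h4 : 1 + 2 * C * δ ≤ Real.exp (2 * C * δ) := by
          have := Real.add_one_le_exp (2 * C * δ); linarith only [this]
        have h5 : 0 ≤ 1 - C * δ := by linarith only [hCδ]
        have h6 : 0 ≤ C * δ := by (clear * - hC hδ0; positivity)
        have h7 := mul_le_mul_of_nonneg_right h4 h5
        linarith only [mul_nonneg (sub_nonneg.2 hCδ) (sub_nonneg.2 h6), mul_nonneg (sub_nonneg.2 h5) (sub_nonneg.2 h7), mul_nonneg (sub_nonneg.2 h6) (sub_nonneg.2 h7)]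
      calc a = 1 * a := (one_mul a).symm
        _ ≤ Real.exp (2 * C * δ) * (1 - C * δ) * a := mul_le_mul_of_nonneg_right h3 ha0
        _ = Real.exp (2 * C * δ) * ((1 - C * δ) * a) := by ring
        _ ≤ _ := mul_le_mul_of_nonneg_left h2 (Real.exp_pos _).le
    have hone : 1 ≤ Real.exp (2 * C * D.rem k) := Real.one_le_exp (by (clear * - hC hrem; positivity))
    calc a ≤ Real.exp (2 * C * δ) * (EC ν R δ (fun _ z => nv (V z)) + C * δ) := hfac
      _ ≤ Real.exp (2 * C * δ) * (Real.exp (2 * C * D.rem k) *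
          (A0 + C * D.rem k + 2 * √n * D.hitR f (k + 1) s)
            + Real.exp (2 * C * D.rem k) * (C * δ)) := by
          refine mul_le_mul_of_nonneg_left (add_le_add hIH ?_) (Real.exp_pos _).le
          have : 0 ≤ C * δ := by positivity
          linarith only [mul_nonneg (sub_nonneg.2 hone) (sub_nonneg.2 this)]
      _ = Real.exp (2 * C * D.rem (k + 1)) *
          (A0 + C * D.rem (k + 1) + 2 * √n * D.hitR f (k + 1) s) := by
          rw [D.rem_succ, ← hδk, mul_add (2 * C), Real.exp_add]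
          ring

end D6Out

/-! ### the final product measures -/

namespace D7T

lemma tanh_deriv (x : ℝ) : HasDerivAt Real.tanh (1 / Real.cosh x ^ 2) x := by
  have h := (Real.hasDerivAt_sinh x).div (Real.hasDerivAt_cosh x) (Real.cosh_pos x).ne'
  have h2 : Real.cosh x * Real.cosh x - Real.sinh x * Real.sinh x = 1 := by
    have := Real.cosh_sq x; nlinarith
  have h3 : Real.sinh / Real.cosh = Real.tanh := by
    funext x; rw [Real.tanh_eq_sinh_div_cosh]; rfl
  rw [h2, h3] at h
  exact h

lemma tanh_sub_le (a b : ℝ) : |Real.tanh a - Real.tanh b| ≤ |a - b| := by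
  have h := Convex.norm_image_sub_le_of_norm_hasDerivWithin_le (f := Real.tanh)
    (f' := fun x => 1 / Real.cosh x ^ 2) (s := Set.univ) (C := 1) (x := b) (y := a)
    (fun x _ => (tanh_deriv x).hasDerivWithinAt)
    (fun x _ => by
      rw [Real.norm_eq_abs, abs_of_nonneg (by positivity), div_le_one (by positivity)]
      exact one_le_pow₀ (Real.one_le_cosh x))
    convex_univ (Set.mem_univ _) (Set.mem_univ _)
  simpa [Real.norm_eq_abs] using h

lemma tanh_refl (a : ℝ) : (1 + Real.tanh a) * Real.exp (-2 * a) = 1 - Real.tanh a := by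
  have h1 : Real.exp a * Real.exp (-a) = 1 := by rw [← Real.exp_add]; simp
  have h2 : Real.exp (-2 * a) = Real.exp (-a) * Real.exp (-a) := by
    rw [← Real.exp_add]; ring_nf
  have h3 : 0 < Real.exp a + Real.exp (-a) := by positivity
  rw [Real.tanh_eq, h2]
  field_simp
  nlinarith [h1]

lemma sv_flip_self (x : Cfg n) (i : Fin n) : sv (flip x i) i = - sv x i := by
  unfold sv; exact sp_flip_self x i

lemma sv_flip_ne (x : Cfg n) {i j : Fin n} (h : j ≠ i) : sv (flip x i) j = sv x j := by
  unfold sv; exact sp_flip_ne x h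

lemma sv_mul_self (x : Cfg n) (i : Fin n) : sv x i * sv x i = 1 := by
  unfold sv; exact Vale.Agent.P150.sp_sq _

lemma qf_diag {M : Mat n} (hM : ∀ i j, i ≠ j → M i j = 0) (x : Cfg n) :
    qf M (sv x) = ∑ i, M i i := by
  unfold qf ip Matrix.mulVec dotProduct
  refine Finset.sum_congr rfl fun i _ => ?_
  rw [Finset.sum_eq_single i]
  · have := sv_mul_self x i
    calc sv x i * (M i i * sv x i) = M i i * (sv x i * sv x i) := by ring
      _ = M i i := by rw [this, mul_one]
  · intro j _ hj
    have h0 := hM i j (Ne.symm hj)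
    beta_reduce
    rw [h0, zero_mul]
  · simp

lemma ip_flip (y : Vec n) (x : Cfg n) (i : Fin n) :
    ip y (sv (flip x i)) = ip y (sv x) - 2 * (y i * sv x i) := by
  have h : ∀ j, y j * sv (flip x i) j = y j * sv x j - (if j = i then 2 * (y i * sv x i) else 0) := by
    intro j
    by_cases hj : j = i
    · subst hj; rw [sv_flip_self, if_pos rfl]; ring
    · rw [sv_flip_ne x hj, if_neg hj]; ring
  unfold ip
  rw [Finset.sum_congr rfl fun j _ => h j, Finset.sum_sub_distrib]
  simp

lemma sv_cases (x : Cfg n) (i : Fin n) : sv x i = 1 ∨ sv x i = -1 := by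
  unfold sv sp
  split_ifs
  · exact Or.inl rfl
  · exact Or.inr rfl

/-- mean of a product measure -/
lemma mean_diag {M : Mat n} (hM : ∀ i j, i ≠ j → M i j = 0) (y : Vec n) (i : Fin n) :
    mean (gM M y) i = Real.tanh (y i) := by
  have hflip : ∀ x, gM M y (flip x i) = gM M y x * Real.exp (-2 * (y i * sv x i)) := by
    intro x
    unfold gM
    rw [qf_diag hM, qf_diag hM x, ip_flip, sub_eq_add_neg, ← add_assoc, Real.exp_add]
    rw [show -2 * (y i * sv x i) = -(2 * (y i * sv x i)) by ring]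
    ring
  set g : Cfg n → ℝ := fun x => gM M y x * (sv x i - Real.tanh (y i)) with hg
  have hpair : ∀ x, g x + g (flip x i) = 0 := by
    intro x
    simp only [hg]
    rw [hflip, sv_flip_self]
    rcases sv_cases x i with h | h
    · rw [h]
      have := tanh_refl (y i)
      have e : -2 * (y i * 1) = -2 * y i := by ring
      rw [e]
      calc gM M y x * (1 - Real.tanh (y i))
            + gM M y x * Real.exp (-2 * y i) * (-1 - Real.tanh (y i))
          = gM M y x * ((1 - Real.tanh (y i)) - (1 + Real.tanh (y i)) * Real.exp (-2 * y i)) := by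
            ring
        _ = 0 := by rw [this]; ring
    · rw [h]
      have := tanh_refl (-(y i))
      rw [Real.tanh_neg] at this
      have e : -2 * (y i * -1) = -2 * -(y i) := by ring
      rw [e]
      calc gM M y x * (-1 - Real.tanh (y i))
            + gM M y x * Real.exp (-2 * -(y i)) * (- -1 - Real.tanh (y i))
          = gM M y x * ((1 + -Real.tanh (y i)) * Real.exp (-2 * -(y i))
              - (1 - -Real.tanh (y i))) := by ring
        _ = 0 := by rw [this]; ring
  have hsum : ∑ x, g x = 0 := by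
    have h1 : ∑ x, g (flip x i) = ∑ x, g x := sum_flip i g
    have h2 : ∑ x, (g x + g (flip x i)) = 0 := Finset.sum_eq_zero fun x _ => hpair x
    rw [Finset.sum_add_distrib, h1] at h2
    linarith
  have h3 : ∑ x, g x = mean (gM M y) i - Real.tanh (y i) := by
    simp only [hg, mul_sub, Finset.sum_sub_distrib]
    rw [← Finset.sum_mul, gM_sum, one_mul]
    rfl
  linarith

/-- a tilted Gibbs measure is a Gibbs measure -/
lemma tilt_gM (M : Mat n) (y u : Vec n) : tilt (gM M y) u = gM M (y + u) := by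
  have hZ : 0 < ∑ x : Cfg n, Real.exp (qf M (sv x) / 2 + ip y (sv x)) :=
    Finset.sum_pos (fun _ _ => Real.exp_pos _) Finset.univ_nonempty
  have e : ∀ x : Cfg n, gM M y x * Real.exp (ip u (sv x))
      = Real.exp (qf M (sv x) / 2 + ip (y + u) (sv x)) /
        ∑ x', Real.exp (qf M (sv x') / 2 + ip y (sv x')) := by
    intro x
    unfold gM
    rw [div_mul_eq_mul_div, ← Real.exp_add, ip_add_left]
    ring_nf
  funext x
  unfold tilt
  simp only [e]
  rw [← Finset.sum_div, div_div_div_cancel_right₀ hZ.ne']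
  rfl

end D7T

/-! ### tilts -/

namespace D6Out

variable {β C T c : ℝ} {J : Mat n} {δ₀ : ℝ} (D : D6Out β C T c J δ₀)

/-- tracking of the tilted means -/
theorem o2_tilt (h1 : CH1) (hG : CHG) (h6 : CH6a) (hC : 0 < C) (hδ : C * δ₀ ≤ 1 / 2)
    {k : ℕ} (hk : k ≤ D.N) {s : D.S} (hs : D.Inv k s) {u : Vec n} (hu : sq u ≤ 1) :
    nv (mean (tilt (D.P.law s) u) - D.mh s)
      ≤ Real.exp (2 * C * T) * (2 + C * T + 2 * √n *
        ∑ x, tilt (D.P.law s) u x * D.P.hit (fun _ => D.Exit) k s x) := by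
  have hnu : nv u ≤ 1 := by
    rw [nv_eq_sqrt]; exact Real.sqrt_le_one.2 hu
  have hend : ∀ s, D.Inv 0 s → s ∉ D.Exit →
      nv (mean (rew (fun x => Real.exp (ip u (sv x))) (D.P.law s)) - D.mh s) ≤ 2 := by
    intro s hs he
    rw [← tilt_eq_rew]
    have e : mean (tilt (D.P.law s) u) = fun i => Real.tanh (D.P.y s i + u i) := by
      funext i
      unfold Proc.law
      rw [tilt_gM, mean_diag (D.fin_M s hs)]
      rfl
    have hfin := D.fin_mh s hs he
    have h2 : nv ((fun i => Real.tanh (D.P.y s i + u i)) - fun i => Real.tanh (D.P.y s i))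
        ≤ nv u := by
      refine nv_mono fun i => ?_
      rw [Pi.sub_apply]
      refine (tanh_sub_le _ _).trans (le_of_eq ?_)
      congr 1; ring
    have h3 := nv_sub_triangle (fun i => Real.tanh (D.P.y s i + u i))
      (fun i => Real.tanh (D.P.y s i)) (D.mh s)
    rw [nv_sub_comm (D.mh s)] at hfin
    rw [e]
    linarith only [h3, h2, hfin, hnu]
  have h := D.o2_gen h1 hG h6 hC hδ (f := fun x => Real.exp (ip u (sv x)))
    (fun x => Real.exp_pos _) hend (by norm_num) k s hs
  rw [← tilt_eq_rew] at h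
  refine h.trans ?_
  have hr0 := D.rem_nonneg k
  have hrT := D.rem_le hk
  have hh0 : 0 ≤ D.hitR (fun x => Real.exp (ip u (sv x))) k s :=
    D.hitR_nonneg (fun x => Real.exp_pos _) k s
  refine mul_le_mul (Real.exp_le_exp.2 ?_) ?_ ?_ (Real.exp_pos _).le
  · have : 0 < 2 * C := by positivity
    linarith only [mul_nonneg (sub_nonneg.2 hrT) (le_of_lt (sub_pos.2 this))]
  · have h5 : C * D.rem k ≤ C * T := mul_le_mul_of_nonneg_left hrT hC.le
    have h6 : D.hitR (fun x => Real.exp (ip u (sv x))) k s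
        = ∑ x, tilt (D.P.law s) u x * D.P.hit (fun _ => D.Exit) k s x := rfl
    rw [h6]
    linarith only [h5]
  · have : 0 ≤ 2 * √(n:ℝ) * D.hitR (fun x => Real.exp (ip u (sv x))) k s := by (clear * - hh0; positivity)
    have h7 : 0 ≤ C * D.rem k := by (clear * - hC hr0; positivity)
    linarith only [h7, this]

/-- hitting probability under a tilt -/
lemma hit_tilt_le {u : Vec n} (hu : sq u ≤ 1) (k : ℕ) (s : D.S) :
    ∑ x, tilt (D.P.law s) u x * D.P.hit (fun _ => D.Exit) k s x
      ≤ Real.exp (2 * √n) * D.P.hitE (fun _ => D.Exit) k s := by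
  have hnu : nv u ≤ 1 := by
    rw [nv_eq_sqrt]; exact Real.sqrt_le_one.2 hu
  have hip : ∀ x : Cfg n, |ip u (sv x)| ≤ √n := by
    intro x
    calc |ip u (sv x)| ≤ nv u * nv (sv x) := abs_ip_le _ _
      _ ≤ 1 * √n := mul_le_mul hnu (Vale.Agent.P150.F.D7T.nv_sv_le x) (nv_nonneg _) zero_le_one
      _ = √n := one_mul _
  have hZ : Real.exp (-√n) ≤ ∑ x, D.P.law s x * Real.exp (ip u (sv x)) := by
    calc Real.exp (-√n) = ∑ x, D.P.law s x * Real.exp (-√n) := by
          rw [← Finset.sum_mul, D.P.law_sum, one_mul]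
      _ ≤ _ := Finset.sum_le_sum fun x _ => mul_le_mul_of_nonneg_left
          (Real.exp_le_exp.2 (abs_le.1 (hip x)).1) (D.P.law_pos s x).le
  have hZ0 : 0 < ∑ x, D.P.law s x * Real.exp (ip u (sv x)) :=
    lt_of_lt_of_le (Real.exp_pos _) hZ
  unfold Proc.hitE Proc.avg
  rw [Finset.mul_sum]
  refine Finset.sum_le_sum fun x _ => ?_
  have hh := D.P.hit_nonneg (fun _ => D.Exit) k s x
  have hlaw := D.P.law_pos s x
  have h1 : tilt (D.P.law s) u x ≤ Real.exp (2 * √n) * D.P.law s x := by
    unfold tilt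
    rw [div_le_iff₀ hZ0]
    calc D.P.law s x * Real.exp (ip u (sv x)) ≤ D.P.law s x * Real.exp (√n) :=
          mul_le_mul_of_nonneg_left (Real.exp_le_exp.2 (abs_le.1 (hip x)).2) hlaw.le
      _ = Real.exp (2 * √n) * D.P.law s x * Real.exp (-√n) := by
          have : Real.exp (2 * √n) * Real.exp (-√(n:ℝ)) = Real.exp (√n) := by
            rw [← Real.exp_add]; congr 1; ring
          rw [← this]; ring
      _ ≤ _ := mul_le_mul_of_nonneg_left hZ (by positivity)
  calc tilt (D.P.law s) u x * D.P.hit (fun _ => D.Exit) k s x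
      ≤ (Real.exp (2 * √n) * D.P.law s x) * D.P.hit (fun _ => D.Exit) k s x :=
        mul_le_mul_of_nonneg_right h1 hh
    _ = _ := by ring

end D6Out

namespace D7T

lemma tendsto_small {c : ℝ} (hc : 0 < c) :
    ∀ᶠ n : ℕ in atTop, 2 * √(n:ℝ) * (Real.exp (2 * √n) * Real.exp (-(c / 2 * n))) ≤ 1 := by
  -- with t = √n: 2 t e^{2t - c t²/2} → 0
  have h1 : Tendsto (fun n : ℕ => √(n:ℝ)) atTop atTop :=
    Real.tendsto_sqrt_atTop.comp tendsto_natCast_atTop_atTop
  have h2 : ∀ᶠ t : ℝ in atTop, 2 * t * (Real.exp (2 * t) * Real.exp (-(c / 2 * t ^ 2))) ≤ 1 := by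
    filter_upwards [eventually_ge_atTop (8 / c), eventually_ge_atTop 1] with t ht ht1
    have h3 : 4 * t ≤ c / 2 * t ^ 2 := by
      have ht' := (div_le_iff₀ hc).1 ht
      nlinarith
    have h4 : 2 * t ≤ Real.exp (2 * t) := by
      have := Real.add_one_le_exp (2 * t); linarith only [this]
    have ht0 : 0 < t := by linarith only [ht1]
    calc 2 * t * (Real.exp (2 * t) * Real.exp (-(c / 2 * t ^ 2)))
        ≤ Real.exp (2 * t) * (Real.exp (2 * t) * Real.exp (-(c / 2 * t ^ 2))) :=
          mul_le_mul_of_nonneg_right h4 (by positivity)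
      _ = Real.exp (4 * t - c / 2 * t ^ 2) := by
          rw [← Real.exp_add, ← Real.exp_add]; congr 1; ring
      _ ≤ 1 := Real.exp_le_one_iff.2 (by linarith only [h3])
  filter_upwards [h1.eventually h2] with n hn
  rwa [Real.sq_sqrt (Nat.cast_nonneg n)] at hn

end D7T

/-- the constant in the tracking bound -/
noncomputable def trC (C T : ℝ) : ℝ := Real.exp (2 * C * T) * (3 + C * T)

/-- **tracking at non-bad states** (for all unit tilts) -/
theorem D6Out.track_nonbad (h1 : CH1) (hG : CHG) (h6 : CH6a) {C T c : ℝ} (hC : 0 < C)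
    (hn : 2 * √(n:ℝ) * (Real.exp (2 * √n) * Real.exp (-(c / 2 * n))) ≤ 1)
    {β : ℝ} {J : Mat n} {δ₀ : ℝ} (D : D6Out β C T c J δ₀) (hδ : C * δ₀ ≤ 1 / 2)
    {k : ℕ} (hk : k ≤ D.N) {s : D.S} (hs : D.Inv k s)
    (hb : s ∉ D.P.badSet (fun _ => D.Exit) (Real.exp (-(c / 2 * n))) k)
    {u : Vec n} (hu : sq u ≤ 1) :
    nv (mean (tilt (D.P.law s) u) - D.mh s) ≤ trC C T := by
  have hE : D.P.hitE (fun _ => D.Exit) k s ≤ Real.exp (-(c / 2 * n)) := by
    by_contra h
    push Not at h
    exact hb (Or.inr h)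
  refine (D.o2_tilt h1 hG h6 hC hδ hk hs hu).trans ?_
  unfold trC
  refine mul_le_mul_of_nonneg_left ?_ (Real.exp_pos _).le
  have h2 := D.hit_tilt_le hu k s
  have h3 : 2 * √(n:ℝ) * ∑ x, tilt (D.P.law s) u x * D.P.hit (fun _ => D.Exit) k s x ≤ 1 := by
    refine le_trans (mul_le_mul_of_nonneg_left (h2.trans
      (mul_le_mul_of_nonneg_left hE (Real.exp_pos _).le)) (by (clear * -; positivity))) hn
  linarith only [h3]

lemma D6Out.trC_nonneg {β C T c : ℝ} {J : Mat n} {δ₀ : ℝ} (D : D6Out β C T c J δ₀) (hC : 0 < C) :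
    0 ≤ trC C T := by
  have hT : 0 ≤ T := (D.rem_nonneg D.N).trans (D.rem_le le_rfl)
  unfold trC
  positivity

/-- **covariance bound at non-bad states** -/
theorem D6Out.cov_nonbad (h1 : CH1) (hG : CHG) (h6 : CH6a) {C T c : ℝ} (hC : 0 < C)
    (hn : 2 * √(n:ℝ) * (Real.exp (2 * √n) * Real.exp (-(c / 2 * n))) ≤ 1)
    {β : ℝ} {J : Mat n} {δ₀ : ℝ} (D : D6Out β C T c J δ₀) (hδ : C * δ₀ ≤ 1 / 2)
    {k : ℕ} (hk : k ≤ D.N) {s : D.S} (hs : D.Inv k s)
    (hb : s ∉ D.P.badSet (fun _ => D.Exit) (Real.exp (-(c / 2 * n))) k) (v : Vec n) :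
    qf (covM (D.P.law s)) v ≤ 2 * Real.exp (2 * trC C T) * sq v :=
  qf_covM_le_of_track (D.P.law_isProb s) (D.trC_nonneg hC)
    (fun _ hw => D.track_nonbad h1 hG h6 hC hn hδ hk hs hb hw) v

/-- in terms of `covF` -/
theorem D6Out.covF_nonbad (h1 : CH1) (hG : CHG) (h6 : CH6a) {C T c : ℝ} (hC : 0 < C)
    (hn : 2 * √(n:ℝ) * (Real.exp (2 * √n) * Real.exp (-(c / 2 * n))) ≤ 1)
    {β : ℝ} {J : Mat n} {δ₀ : ℝ} (D : D6Out β C T c J δ₀) (hδ : C * δ₀ ≤ 1 / 2)
    {k : ℕ} (hk : k ≤ D.N) {s : D.S} (hs : D.Inv k s)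
    (hb : s ∉ D.P.badSet (fun _ => D.Exit) (Real.exp (-(c / 2 * n))) k) (F : Cfg n → ℝ) :
    sq (covF (D.P.law s) F) ≤ 2 * Real.exp (2 * trC C T) * VarX (D.P.law s) F :=
  sq_covF_le (D.P.law_isProb s) (D.cov_nonbad h1 hG h6 hC hn hδ hk hs hb) F

end Vale.Agent.P150.F
end

section

/-! P150 FULL, D6: localization schemes (helper123), on top of `Proc` (helper486). The micro step
`dl` tends to `0` at fixed `n` and `J`, so error constants `K` may depend on `n` and `J` in an
arbitrary way. -/

open MeasureTheory ProbabilityTheory Filter Topology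
open scoped Matrix

namespace Vale.Agent.P150.F

/-- A localization scheme of `N` micro steps of the same size `dl`: a process `P`, the level `lev s`
(number of steps done), a tracked mean `mh s`, exit states and an initial state. -/
structure Loc (n : ℕ) (S : Type) [MeasurableSpace S] where
  /-- the process -/
  P : Proc n n S
  /-- step size -/
  dl : ℝ
  /-- number of steps -/
  N : ℕ
  /-- level -/
  lev : S → ℕ
  /-- tracked mean -/
  mh : S → Vec n
  /-- exit states -/
  exit : Set S
  /-- the initial state -/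
  s0 : S

namespace Loc

variable {n : ℕ} {S : Type} [MeasurableSpace S] (L : Loc n S)

/-- the structural properties of a scheme; `β J` are the initial couplings, zero field -/
structure OK (β : ℝ) (J : Mat n) (C : ℝ) : Prop where
  dl_pos : 0 < L.dl
  step : ∀ s, L.P.δ s = L.dl
  time : L.N * L.dl ≤ C
  lev_s0 : L.lev L.s0 = 0
  M_s0 : L.P.M L.s0 = β • J
  y_s0 : L.P.y L.s0 = 0
  lev_next : ∀ s z, L.lev (L.P.nxt s z) = L.lev s + 1
  symm : ∀ s, (L.P.M s).IsSymm
  term : ∀ s, L.lev s = L.N → ∀ i j, i ≠ j → L.P.M s i j = 0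
  term_mh : ∀ s, L.lev s = L.N → ∀ i, L.mh s i = Real.tanh (L.P.y s i)
  mh_le : ∀ s i, |L.mh s i| ≤ 1
  opQ : ∀ s, OpLe (L.P.Q s) C
  bddR : ∀ s i j, |L.P.R s i j| ≤ C
  meas_lev : Measurable L.lev
  meas_mh : ∀ i, Measurable fun s => L.mh s i
  meas_exit : MeasurableSet L.exit

/-- the one-step drift of the tracked mean at non-exit states, for every law `ν` of the spins:
`E_ν[mh(s')] - mh(s) = dl G (Q (mean ν - mh s) + κ) + O(dl^{3/2})` with `|κ| ≤ C`. -/
def Drift (C K : ℝ) : Prop :=
  ∀ s : S, L.lev s < L.N → s ∉ L.exit → ∃ (G : Mat n) (κ : Vec n), OpLe G C ∧ nv κ ≤ C ∧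
    ∀ ν : Cfg n → ℝ, IsProb ν →
      nv ((fun i => EC ν (L.P.R s) L.dl (fun _ z => L.mh (L.P.nxt s z) i)) - L.mh s
        - L.dl • G.mulVec ((L.P.Q s).mulVec (mean ν - L.mh s) + κ)) ≤ K * (L.dl * √L.dl)

/-- the exit probability of the whole scheme under the Gibbs measure -/
noncomputable def pexit : ℝ := L.P.hitE (fun _ => L.exit) L.N L.s0

end Loc

end Vale.Agent.P150.F
end
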