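import Mathlib
import Vale.Agent.P150.Defs
import Vale.Agent.P150.MathlibUsed
import Vale.Agent.P245.GaussD

set_option linter.all false

section

open Finset Matrix

namespace Vale.Agent.P150.Semi

variable {ι : Type*} [Fintype ι] [DecidableEq ι]

set_option backward.isDefEq.respectTransparency false in
lemma sg_deriv_mat (A : Matrix ι ι ℝ) (t : ℝ) :
    HasDerivAt (fun s : ℝ => NormedSpace.exp (s • A)) (NormedSpace.exp (t • A) * A) t :=
  open scoped Matrix.Norms.Operator in hasDerivAt_exp_smul_const A t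

set_option backward.isDefEq.respectTransparency false in
lemma sg_deriv_mat' (A : Matrix ι ι ℝ) (t : ℝ) :
    HasDerivAt (fun s : ℝ => NormedSpace.exp (s • A)) (A * NormedSpace.exp (t • A)) t :=
  open scoped Matrix.Norms.Operator in hasDerivAt_exp_smul_const' A t

lemma sg_deriv (A : Matrix ι ι ℝ) (t : ℝ) (x y : ι) :
    HasDerivAt (fun s : ℝ => NormedSpace.exp (s • A) x y) ((NormedSpace.exp (t • A) * A) x y) t :=
  (hasDerivAt_pi.1 ((hasDerivAt_pi.1 (sg_deriv_mat A t)) x)) y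

lemma sg_deriv' (A : Matrix ι ι ℝ) (t : ℝ) (x y : ι) :
    HasDerivAt (fun s : ℝ => NormedSpace.exp (s • A) x y) ((A * NormedSpace.exp (t • A)) x y) t :=
  (hasDerivAt_pi.1 ((hasDerivAt_pi.1 (sg_deriv_mat' A t)) x)) y

set_option backward.isDefEq.respectTransparency false in
lemma sg_hasSum (A : Matrix ι ι ℝ) :
    HasSum (fun n : ℕ => ((n.factorial : ℝ)⁻¹) • A ^ n) (NormedSpace.exp A) :=
  open scoped Matrix.Norms.Operator in NormedSpace.exp_series_hasSum_exp' A

lemma sg_pow_nonneg (A : Matrix ι ι ℝ) (hA : ∀ x y, 0 ≤ A x y) (k : ℕ) :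
    ∀ x y, 0 ≤ (A ^ k) x y := by
  induction k with
  | zero =>
    intro x y
    rw [pow_zero, Matrix.one_apply]
    split_ifs <;> norm_num
  | succ k ih =>
    intro x y
    rw [pow_succ, Matrix.mul_apply]
    exact Finset.sum_nonneg fun z _ => mul_nonneg (ih x z) (hA z y)

lemma sg_exp_nonneg (A : Matrix ι ι ℝ) (hA : ∀ x y, 0 ≤ A x y) (x y : ι) :
    0 ≤ NormedSpace.exp A x y := by
  have h := sg_hasSum A
  have h1 := Pi.hasSum.1 (Pi.hasSum.1 h x) y
  refine h1.nonneg ?_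
  intro k
  have := sg_pow_nonneg A hA k x y
  simp only [Matrix.smul_apply, smul_eq_mul]
  (clear * - this; positivity)

lemma sg_zero (A : Matrix ι ι ℝ) : NormedSpace.exp ((0 : ℝ) • A) = 1 := by
  rw [zero_smul, NormedSpace.exp_zero]

lemma sg_exp_scalar (r : ℝ) :
    NormedSpace.exp (r • (1 : Matrix ι ι ℝ)) = Real.exp r • (1 : Matrix ι ι ℝ) := by
  have h1 : r • (1 : Matrix ι ι ℝ) = Matrix.diagonal (fun _ => r) := by
    rw [← Matrix.diagonal_one]
    ext x y
    by_cases h : x = y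
    · subst h; simp
    · simp [h]
  have h2 : Real.exp r • (1 : Matrix ι ι ℝ) = Matrix.diagonal (fun _ => Real.exp r) := by
    rw [← Matrix.diagonal_one]
    ext x y
    by_cases h : x = y
    · subst h; simp
    · simp [h]
  rw [h1, h2, Matrix.exp_diagonal]
  congr 1
  ext x
  rw [Pi.coe_exp, Real.exp_eq_exp_ℝ]

/-- the exponential of a matrix with nonnegative off-diagonal entries is nonnegative -/
lemma sg_nonneg (A : Matrix ι ι ℝ) (c : ℝ) (hA : ∀ x y, 0 ≤ (A + c • (1 : Matrix ι ι ℝ)) x y)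
    (t : ℝ) (ht : 0 ≤ t) (x y : ι) : 0 ≤ NormedSpace.exp (t • A) x y := by
  have h1 : t • A = t • (A + c • (1 : Matrix ι ι ℝ)) + (-(t * c)) • (1 : Matrix ι ι ℝ) := by
    rw [smul_add, smul_smul, add_assoc, ← add_smul]
    simp
  have hc : Commute (t • (A + c • (1 : Matrix ι ι ℝ))) ((-(t * c)) • (1 : Matrix ι ι ℝ)) :=
    (Commute.one_right _).smul_right _
  rw [h1, Matrix.exp_add_of_commute _ _ hc, sg_exp_scalar, mul_smul_comm, mul_one,
    Matrix.smul_apply, smul_eq_mul]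
  refine mul_nonneg (Real.exp_pos _).le (sg_exp_nonneg _ ?_ x y)
  intro x y
  rw [Matrix.smul_apply, smul_eq_mul]
  exact mul_nonneg ht (hA x y)

lemma sg_eigen (A : Matrix ι ι ℝ) (f : ι → ℝ) (c : ℝ) (hf : ∀ x, ∑ y, A x y * f y = c * f x)
    (t : ℝ) (x : ι) :
    ∑ y, NormedSpace.exp (t • A) x y * f y = Real.exp (c * t) * f x := by
  set F : ℝ → ℝ := fun s => Real.exp (-(c * s)) * ∑ y, NormedSpace.exp (s • A) x y * f y with hF
  have hd : ∀ s, HasDerivAt F 0 s := by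
    intro s
    have h1 : HasDerivAt (fun s : ℝ => Real.exp (-(c * s))) (Real.exp (-(c * s)) * (-(c * 1))) s :=
      ((((hasDerivAt_id s).const_mul c)).neg).exp
    have h2 : HasDerivAt (fun s : ℝ => ∑ y, NormedSpace.exp (s • A) x y * f y)
        (∑ y, (NormedSpace.exp (s • A) * A) x y * f y) s := by
      apply HasDerivAt.fun_sum
      intro y _
      exact (sg_deriv A s x y).mul_const (f y)
    have h3 : ∑ y, (NormedSpace.exp (s • A) * A) x y * f y
        = c * ∑ y, NormedSpace.exp (s • A) x y * f y := by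
      simp only [Matrix.mul_apply, Finset.sum_mul]
      rw [Finset.sum_comm, Finset.mul_sum]
      apply Finset.sum_congr rfl
      intro z _
      have := hf z
      calc ∑ y, NormedSpace.exp (s • A) x z * A z y * f y
          = NormedSpace.exp (s • A) x z * ∑ y, A z y * f y := by
            rw [Finset.mul_sum]; apply Finset.sum_congr rfl; intro y _; ring
        _ = c * (NormedSpace.exp (s • A) x z * f z) := by rw [this]; ring
    have h4 := h1.mul h2
    rw [h3] at h4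
    have h5 : Real.exp (-(c * s)) * (-(c * 1)) * ∑ y, NormedSpace.exp (s • A) x y * f y
        + Real.exp (-(c * s)) * (c * ∑ y, NormedSpace.exp (s • A) x y * f y) = 0 := by ring
    rw [h5] at h4
    exact h4
  have hconst : F t = F 0 := by
    have hdiff : Differentiable ℝ F := fun s => (hd s).differentiableAt
    exact is_const_of_deriv_eq_zero hdiff (fun s => (hd s).deriv) t 0
  have h0 : F 0 = f x := by
    simp only [hF, sg_zero, Matrix.one_apply]
    simp
  have h1 : F t = Real.exp (-(c * t)) * ∑ y, NormedSpace.exp (t • A) x y * f y := rfl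
  have h2 : Real.exp (c * t) * Real.exp (-(c * t)) = 1 := by
    rw [← Real.exp_add]; simp
  calc ∑ y, NormedSpace.exp (t • A) x y * f y
      = (Real.exp (c * t) * Real.exp (-(c * t))) * ∑ y, NormedSpace.exp (t • A) x y * f y := by
        rw [h2, one_mul]
    _ = Real.exp (c * t) * F t := by rw [h1]; ring
    _ = Real.exp (c * t) * f x := by rw [hconst, h0]

end Vale.Agent.P150.Semi
end

section

open MeasureTheory ProbabilityTheory Filter Topology

namespace Vale.Agent.P150.Cav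

/-- the standard Gaussian density -/
noncomputable def gd (x : ℝ) : ℝ := (Real.sqrt (2 * Real.pi))⁻¹ * Real.exp (-x ^ 2 / 2)

lemma gaussianPDFReal_eq_gd (x : ℝ) : gaussianPDFReal 0 1 x = gd x := by
  simp [gaussianPDFReal, gd]

lemma hasDerivAt_gd (x : ℝ) : HasDerivAt gd (-(x * gd x)) x := by
  have h : HasDerivAt (fun x : ℝ => -x ^ 2 / 2) (-x) x := by
    have := ((hasDerivAt_pow 2 x).fun_neg).div_const 2
    exact this.congr_deriv (by push_cast; ring)
  have h2 := (h.exp).const_mul ((Real.sqrt (2 * Real.pi))⁻¹)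
  exact h2.congr_deriv (by simp only [gd]; ring)

lemma integrable_gd : Integrable gd := by
  have := integrable_gaussianPDFReal 0 1
  refine this.congr (Eventually.of_forall fun x => gaussianPDFReal_eq_gd x)

lemma integrable_mul_gd : Integrable (fun x : ℝ => x * gd x) := by
  have h : Integrable (fun x : ℝ => x) (gaussianReal 0 1) := IsGaussian.integrable_id
  rw [gaussianReal_of_var_ne_zero 0 one_ne_zero,
    integrable_withDensity_iff_integrable_smul' (measurable_gaussianPDF 0 1)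
      (Eventually.of_forall fun x => gaussianPDF_lt_top)] at h
  refine h.congr (Eventually.of_forall fun x => ?_)
  simp only [toReal_gaussianPDF, smul_eq_mul, gaussianPDFReal_eq_gd]
  ring

/-- One-dimensional Gaussian integration by parts for bounded functions. -/
lemma ibp_one (f f' : ℝ → ℂ) (hm : Measurable f) (hm' : Measurable f') (C : ℝ)
    (hC : ∀ x, ‖f x‖ ≤ C) (hC' : ∀ x, ‖f' x‖ ≤ C) (hd : ∀ x, HasDerivAt f (f' x) x) :
    ∫ x, (x : ℂ) * f x ∂(gaussianReal 0 1) = ∫ x, f' x ∂(gaussianReal 0 1) := by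
  rw [integral_gaussianReal_eq_integral_smul one_ne_zero,
    integral_gaussianReal_eq_integral_smul one_ne_zero]
  simp only [gaussianPDFReal_eq_gd, Complex.real_smul]
  have hgc : Measurable gd := by unfold gd; fun_prop
  have hv : ∀ x, HasDerivAt (fun x : ℝ => -((gd x : ℝ) : ℂ)) (((x * gd x : ℝ)) : ℂ) x := by
    intro x
    have := ((hasDerivAt_gd x).ofReal_comp).fun_neg
    simpa using this
  have hi1 : Integrable (f * fun x : ℝ => (((x * gd x : ℝ)) : ℂ)) := by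
    refine (integrable_mul_gd.ofReal (𝕜 := ℂ)).bdd_mul (c := C) ?_ ?_
    · exact hm.aestronglyMeasurable
    · exact Eventually.of_forall hC
  have hi2 : Integrable (f' * fun x : ℝ => -((gd x : ℝ) : ℂ)) := by
    refine (integrable_gd.ofReal (𝕜 := ℂ)).neg.bdd_mul (c := C) ?_ ?_
    · exact hm'.aestronglyMeasurable
    · exact Eventually.of_forall hC'
  have hi3 : Integrable (f * fun x : ℝ => -((gd x : ℝ) : ℂ)) := by
    refine (integrable_gd.ofReal (𝕜 := ℂ)).neg.bdd_mul (c := C) ?_ ?_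
    · exact hm.aestronglyMeasurable
    · exact Eventually.of_forall hC
  have key := integral_mul_deriv_eq_deriv_mul_of_integrable (u := f) (u' := f')
    (v := fun x : ℝ => -((gd x : ℝ) : ℂ)) (v' := fun x : ℝ => (((x * gd x : ℝ)) : ℂ))
    (fun x _ => hd x) (fun x _ => hv x) hi1 hi2 hi3
  have e1 : ∫ x : ℝ, ((gd x : ℝ) : ℂ) * ((x : ℂ) * f x) =
      ∫ x : ℝ, f x * (((x * gd x : ℝ)) : ℂ) := by
    congr 1; ext x; push_cast; ring
  rw [e1, key, ← integral_neg]
  congr 1; ext x; ring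

section product

variable {ι : Type*} [Fintype ι] [DecidableEq ι]

/-- Resampling one coordinate preserves the product measure. -/
lemma measurePreserving_update (γ : Measure ℝ) [IsProbabilityMeasure γ] (p : ι) :
    MeasurePreserving (fun q : (ι → ℝ) × ℝ => Function.update q.1 p q.2)
      ((Measure.pi (fun _ : ι => γ)).prod γ) (Measure.pi (fun _ : ι => γ)) := by
  have hmeas : Measurable (fun q : (ι → ℝ) × ℝ => Function.update q.1 p q.2) := by
    rw [measurable_pi_iff]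
    intro i
    by_cases h : i = p
    · subst h
      simpa using measurable_snd
    · simp only [Function.update_of_ne h]
      exact (measurable_pi_apply i).comp measurable_fst
  refine ⟨hmeas, ?_⟩
  refine (Measure.pi_eq fun s hs => ?_).symm
  rw [Measure.map_apply hmeas (MeasurableSet.univ_pi hs)]
  have hpre : (fun q : (ι → ℝ) × ℝ => Function.update q.1 p q.2) ⁻¹' (Set.pi Set.univ s) =
      (Set.pi Set.univ (Function.update s p Set.univ)) ×ˢ (s p) := by
    ext q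
    simp only [Set.mem_preimage, Set.mem_pi, Set.mem_univ, forall_true_left, Set.mem_prod]
    constructor
    · intro h
      refine ⟨fun i => ?_, ?_⟩
      · by_cases hi : i = p
        · subst hi; simp
        · have := h i
          simpa [Function.update_of_ne hi] using this
      · simpa using h p
    · rintro ⟨h1, h2⟩ i
      by_cases hi : i = p
      · subst hi; simpa using h2
      · have := h1 i
        simpa [Function.update_of_ne hi] using this
  rw [hpre, Measure.prod_prod, Measure.pi_pi]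
  rw [← Finset.mul_prod_erase Finset.univ (fun i => γ (s i)) (Finset.mem_univ p),
    ← Finset.mul_prod_erase Finset.univ (fun i => γ (Function.update s p Set.univ i))
      (Finset.mem_univ p)]
  simp only [Function.update_self, measure_univ, one_mul]
  rw [mul_comm]
  congr 1
  refine Finset.prod_congr rfl fun i hi => ?_
  rw [Function.update_of_ne (Finset.ne_of_mem_erase hi)]

/-- Gaussian integration by parts in one coordinate of a product Gaussian measure. -/
lemma ibp (p : ι) (F F' : (ι → ℝ) → ℂ) (hm : Measurable F) (hm' : Measurable F') (C : ℝ)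
    (hC : ∀ g, ‖F g‖ ≤ C) (hC' : ∀ g, ‖F' g‖ ≤ C)
    (hd : ∀ g, HasDerivAt (fun s => F (Function.update g p s)) (F' g) (g p)) :
    ∫ g, (g p : ℂ) * F g ∂(Measure.pi (fun _ : ι => gaussianReal 0 1)) =
      ∫ g, F' g ∂(Measure.pi (fun _ : ι => gaussianReal 0 1)) := by
  set γ := gaussianReal 0 1 with hγ
  set μ := Measure.pi (fun _ : ι => γ) with hμ
  have hmp := measurePreserving_update (ι := ι) γ p
  have hum : Measurable (fun q : (ι → ℝ) × ℝ => Function.update q.1 p q.2) := hmp.measurable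
  have hum1 : ∀ g : ι → ℝ, Measurable (fun t : ℝ => Function.update g p t) := fun g =>
    hum.comp (measurable_const.prodMk measurable_id)
  have e1 : ∫ g, (g p : ℂ) * F g ∂μ =
      ∫ q : (ι → ℝ) × ℝ, (q.2 : ℂ) * F (Function.update q.1 p q.2) ∂(μ.prod γ) := by
    conv_lhs => rw [hμ, ← hmp.map_eq]
    rw [integral_map hum.aemeasurable]
    · simp [hμ]
    · exact (Measurable.mul (by fun_prop) hm).aestronglyMeasurable
  have e2 : ∫ g, F' g ∂μ =
      ∫ q : (ι → ℝ) × ℝ, F' (Function.update q.1 p q.2) ∂(μ.prod γ) := by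
    conv_lhs => rw [hμ, ← hmp.map_eq]
    rw [integral_map hum.aemeasurable]
    exact hm'.aestronglyMeasurable
  rw [e1, e2]
  have hid : Integrable (fun x : ℝ => (x : ℂ)) γ :=
    (IsGaussian.integrable_id (μ := γ)).ofReal
  rw [integral_prod, integral_prod]
  · congr 1
    ext g
    refine ibp_one (fun t => F (Function.update g p t)) (fun t => F' (Function.update g p t))
      (hm.comp (hum1 g)) (hm'.comp (hum1 g)) C (fun _ => hC _) (fun _ => hC' _) ?_
    intro t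
    have := hd (Function.update g p t)
    simpa using this
  · refine Integrable.mono' (g := fun _ => C) (integrable_const _)
      (hm'.comp hum).aestronglyMeasurable (Eventually.of_forall fun q => hC' _)
  · have h1 : Integrable (fun q : (ι → ℝ) × ℝ => (q.2 : ℂ)) (μ.prod γ) := by
      have := Integrable.mul_prod (f := fun _ : ι → ℝ => (1 : ℂ)) (integrable_const (μ := μ) 1) hid
      simpa using this
    have h2 := h1.bdd_mul (f := fun q : (ι → ℝ) × ℝ => F (Function.update q.1 p q.2)) (c := C)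
      (hm.comp hum).aestronglyMeasurable (Eventually.of_forall fun q => hC _)
    refine h2.congr (Eventually.of_forall fun q => ?_)
    simp only
    ring

end product

end Vale.Agent.P150.Cav
end

section

open MeasureTheory ProbabilityTheory Filter Topology

namespace Vale.Agent.P150.Cav

variable {n : ℕ}

/-- squared Euclidean norm of a complex vector -/
noncomputable def nsq (v : Fin n → ℂ) : ℝ := ∑ i, ‖v i‖ ^ 2

lemma nsq_nonneg (v : Fin n → ℂ) : 0 ≤ nsq v := Finset.sum_nonneg fun _ _ => sq_nonneg _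

lemma nsq_eq_zero {v : Fin n → ℂ} (h : nsq v = 0) : v = 0 := by
  ext i
  have := (Finset.sum_eq_zero_iff_of_nonneg (fun i _ => sq_nonneg ‖v i‖)).1 h i (Finset.mem_univ i)
  simpa using this

lemma sum_norm_mul_sq_le (u v : Fin n → ℂ) : (∑ i, ‖u i‖ * ‖v i‖) ^ 2 ≤ nsq u * nsq v :=
  Finset.sum_mul_sq_le_sq_mul_sq _ _ _

lemma sum_norm_mul_le (u v : Fin n → ℂ) :
    ∑ i, ‖u i‖ * ‖v i‖ ≤ Real.sqrt (nsq u) * Real.sqrt (nsq v) := by
  rw [← Real.sqrt_mul (nsq_nonneg u)]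
  exact Real.le_sqrt_of_sq_le (sum_norm_mul_sq_le u v)

lemma norm_sum_mul_le (u v : Fin n → ℂ) :
    ‖∑ i, u i * v i‖ ≤ Real.sqrt (nsq u) * Real.sqrt (nsq v) := by
  refine le_trans (norm_sum_le _ _) ?_
  refine le_trans (le_of_eq (Finset.sum_congr rfl fun i _ => norm_mul _ _)) (sum_norm_mul_le u v)

lemma nsq_conj (v : Fin n → ℂ) : nsq (fun i => (starRingEnd ℂ) (v i)) = nsq v := by
  simp [nsq]

/-- coercivity of a complex matrix -/
def Coer (A : Matrix (Fin n) (Fin n) ℂ) (d : ℝ) : Prop :=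
  ∀ v : Fin n → ℂ, d * nsq v ≤ ‖∑ i, (starRingEnd ℂ) (v i) * (A.mulVec v) i‖

lemma Coer.det_ne_zero {A : Matrix (Fin n) (Fin n) ℂ} {d : ℝ} (h : Coer A d) (hd : 0 < d) :
    A.det ≠ 0 := by
  intro h0
  obtain ⟨v, hv, hAv⟩ := Matrix.exists_mulVec_eq_zero_iff.2 h0
  apply hv
  have := h v
  rw [hAv] at this
  simp only [Pi.zero_apply, mul_zero, Finset.sum_const_zero, norm_zero] at this
  apply nsq_eq_zero
  have h1 := nsq_nonneg v
  nlinarith

lemma Coer.isUnit {A : Matrix (Fin n) (Fin n) ℂ} {d : ℝ} (h : Coer A d) (hd : 0 < d) :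
    IsUnit A.det := (h.det_ne_zero hd).isUnit

lemma Coer.sqrt_nsq_inv_le {A : Matrix (Fin n) (Fin n) ℂ} {d : ℝ} (h : Coer A d) (hd : 0 < d)
    (v : Fin n → ℂ) : Real.sqrt (nsq (A⁻¹.mulVec v)) ≤ d⁻¹ * Real.sqrt (nsq v) := by
  set u := A⁻¹.mulVec v with hu
  have hAu : A.mulVec u = v := by
    rw [hu, Matrix.mulVec_mulVec, Matrix.mul_nonsing_inv _ (h.isUnit hd), Matrix.one_mulVec]
  have h1 := h u
  rw [hAu] at h1
  have h2 := norm_sum_mul_le (fun i => (starRingEnd ℂ) (u i)) v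
  rw [nsq_conj] at h2
  have h3 : d * nsq u ≤ Real.sqrt (nsq u) * Real.sqrt (nsq v) := h1.trans h2
  have h4 : nsq u = Real.sqrt (nsq u) * Real.sqrt (nsq u) := (Real.mul_self_sqrt (nsq_nonneg u)).symm
  by_cases h0 : Real.sqrt (nsq u) = 0
  · rw [h0]; (clear * - hd; positivity)
  · have hpos : 0 < Real.sqrt (nsq u) := lt_of_le_of_ne (Real.sqrt_nonneg _) (Ne.symm h0)
    rw [h4] at h3
    have h5 : d * Real.sqrt (nsq u) ≤ Real.sqrt (nsq v) := by
      have : Real.sqrt (nsq u) * (d * Real.sqrt (nsq u)) ≤ Real.sqrt (nsq u) * Real.sqrt (nsq v) := by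
        linarith only [mul_eq_zero_of_left (sub_eq_zero.2 h4) (d - (0)), h2, h1]
      exact le_of_mul_le_mul_left this hpos
    rw [inv_mul_eq_div, le_div_iff₀ hd]
    linarith

lemma Coer.nsq_inv_le {A : Matrix (Fin n) (Fin n) ℂ} {d : ℝ} (h : Coer A d) (hd : 0 < d)
    (v : Fin n → ℂ) : nsq (A⁻¹.mulVec v) ≤ (d⁻¹) ^ 2 * nsq v := by
  have h1 := h.sqrt_nsq_inv_le hd v
  have h2 : (Real.sqrt (nsq (A⁻¹.mulVec v))) ^ 2 ≤ (d⁻¹ * Real.sqrt (nsq v)) ^ 2 :=
    pow_le_pow_left₀ (Real.sqrt_nonneg _) h1 2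
  rwa [Real.sq_sqrt (nsq_nonneg _), mul_pow, Real.sq_sqrt (nsq_nonneg _)] at h2

lemma Coer.bilin_le {A : Matrix (Fin n) (Fin n) ℂ} {d : ℝ} (h : Coer A d) (hd : 0 < d)
    (u v : Fin n → ℂ) :
    ‖∑ i, u i * (A⁻¹.mulVec v) i‖ ≤ d⁻¹ * (Real.sqrt (nsq u) * Real.sqrt (nsq v)) := by
  refine (norm_sum_mul_le u _).trans ?_
  have := h.sqrt_nsq_inv_le hd v
  have h0 := Real.sqrt_nonneg (nsq u)
  calc Real.sqrt (nsq u) * Real.sqrt (nsq (A⁻¹.mulVec v))
      ≤ Real.sqrt (nsq u) * (d⁻¹ * Real.sqrt (nsq v)) := by gcongr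
    _ = _ := by ring

/-- entries of the inverse are bounded -/
lemma Coer.entry_le {A : Matrix (Fin n) (Fin n) ℂ} {d : ℝ} (h : Coer A d) (hd : 0 < d)
    (i j : Fin n) : ‖A⁻¹ i j‖ ≤ d⁻¹ := by
  have h1 := h.nsq_inv_le hd (Pi.single j 1)
  have h2 : nsq (Pi.single j (1 : ℂ) : Fin n → ℂ) = 1 := by
    unfold nsq
    rw [Finset.sum_eq_single j]
    · simp
    · intro b _ hb
      simp [Pi.single_eq_of_ne hb]
    · simp
  rw [h2, mul_one] at h1
  have h3 : ‖A⁻¹ i j‖ ^ 2 ≤ nsq (A⁻¹.mulVec (Pi.single j 1)) := by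
    unfold nsq
    have : ‖A⁻¹ i j‖ ^ 2 = ‖(A⁻¹.mulVec (Pi.single j 1)) i‖ ^ 2 := by simp
    rw [this]
    exact Finset.single_le_sum (f := fun i => ‖(A⁻¹.mulVec (Pi.single j 1)) i‖ ^ 2)
      (fun _ _ => sq_nonneg _) (Finset.mem_univ i)
  exact (pow_le_pow_iff_left₀ (norm_nonneg _) (by positivity) two_ne_zero).1 (h3.trans h1)

/-- The normalized disorder matrix `W = G / √n`. -/
noncomputable def Wm (g : Pairs n → ℝ) (i j : Fin n) : ℝ := gsym g i j / Real.sqrt n

lemma gsym_symm (g : Pairs n → ℝ) (i j : Fin n) : gsym g i j = gsym g j i := by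
  unfold gsym
  rcases lt_trichotomy i j with h | h | h
  · simp [h, h.not_gt]
  · subst h; rfl
  · simp [h, h.not_gt]

lemma gsym_self (g : Pairs n → ℝ) (i : Fin n) : gsym g i i = 0 := by
  simp [gsym]

lemma Wm_symm (g : Pairs n → ℝ) (i j : Fin n) : Wm g i j = Wm g j i := by
  unfold Wm; rw [gsym_symm]

/-- `z - W` -/
noncomputable def Am (z : ℂ) (g : Pairs n → ℝ) : Matrix (Fin n) (Fin n) ℂ :=
  fun i j => (if i = j then z else 0) - (Wm g i j : ℂ)

/-- the resolvent -/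
noncomputable def Gm (z : ℂ) (g : Pairs n → ℝ) : Matrix (Fin n) (Fin n) ℂ := (Am z g)⁻¹

lemma Am_mulVec (z : ℂ) (g : Pairs n → ℝ) (v : Fin n → ℂ) (i : Fin n) :
    (Am z g).mulVec v i = z * v i - ∑ j, (Wm g i j : ℂ) * v j := by
  simp only [Matrix.mulVec, dotProduct, Am, sub_mul, Finset.sum_sub_distrib, ite_mul, zero_mul]
  simp

lemma quad_Am (z : ℂ) (g : Pairs n → ℝ) (v : Fin n → ℂ) :
    ∑ i, (starRingEnd ℂ) (v i) * ((Am z g).mulVec v) i =
      z * (nsq v : ℂ) - ((∑ i, ∑ j, Wm g i j * ((v i).re * (v j).re + (v i).im * (v j).im) : ℝ) : ℂ) := by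
  have h1 : ∀ i, (starRingEnd ℂ) (v i) * ((Am z g).mulVec v) i =
      z * ((‖v i‖ ^ 2 : ℝ) : ℂ) - ∑ j, (Wm g i j : ℂ) * ((starRingEnd ℂ) (v i) * v j) := by
    intro i
    rw [Am_mulVec, mul_sub, Finset.mul_sum]
    congr 1
    · have : (starRingEnd ℂ) (v i) * v i = ((‖v i‖ ^ 2 : ℝ) : ℂ) := by
        rw [Complex.conj_mul']; push_cast; rfl
      rw [← this]; ring
    · exact Finset.sum_congr rfl fun j _ => by ring
  simp only [h1, Finset.sum_sub_distrib, ← Finset.mul_sum, nsq]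
  push_cast
  congr 1
  -- real part computation: antisymmetric part cancels
  have hsw : ∑ i, ∑ j, (Wm g i j : ℂ) * ((starRingEnd ℂ) (v i) * v j) =
      ∑ i, ∑ j, (Wm g i j : ℂ) * ((starRingEnd ℂ) (v j) * v i) := by
    rw [Finset.sum_comm]
    refine Finset.sum_congr rfl fun i _ => Finset.sum_congr rfl fun j _ => ?_
    rw [Wm_symm]
  have h2 : (2 : ℂ) * ∑ i, ∑ j, (Wm g i j : ℂ) * ((starRingEnd ℂ) (v i) * v j) =
      2 * ∑ i, ∑ j, (Wm g i j : ℂ) * (((v i).re : ℂ) * ((v j).re : ℂ) + ((v i).im : ℂ) * ((v j).im : ℂ)) := by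
    conv_lhs => rw [two_mul]
    conv_lhs => arg 2; rw [hsw]
    rw [← Finset.sum_add_distrib, Finset.mul_sum]
    refine Finset.sum_congr rfl fun i _ => ?_
    rw [← Finset.sum_add_distrib, Finset.mul_sum]
    refine Finset.sum_congr rfl fun j _ => ?_
    rw [← mul_add]
    have : (starRingEnd ℂ) (v i) * v j + (starRingEnd ℂ) (v j) * v i =
        2 * (((v i).re : ℂ) * ((v j).re : ℂ) + ((v i).im : ℂ) * ((v j).im : ℂ)) := by
      apply Complex.ext <;> simp <;> ring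
    rw [this]; ring
  exact mul_left_cancel₀ two_ne_zero h2

lemma coer_im (z : ℂ) (g : Pairs n → ℝ) : Coer (Am z g) z.im := by
  intro v
  rw [quad_Am]
  refine le_trans ?_ (Complex.abs_im_le_norm _)
  refine le_trans (le_of_eq ?_) (le_abs_self _)
  simp

lemma coer_re (z : ℂ) (g : Pairs n → ℝ) (lam : ℝ)
    (h : ∀ v : Fin n → ℝ, ∑ i, ∑ j, Wm g i j * (v i * v j) ≤ lam * ∑ i, v i ^ 2) :
    Coer (Am z g) (z.re - lam) := by
  intro v
  rw [quad_Am]
  refine le_trans ?_ (Complex.abs_re_le_norm _)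
  refine le_trans ?_ (le_abs_self _)
  have h1 := h (fun i => (v i).re)
  have h2 := h (fun i => (v i).im)
  have h3 : nsq v = ∑ i, (v i).re ^ 2 + ∑ i, (v i).im ^ 2 := by
    rw [← Finset.sum_add_distrib]
    unfold nsq
    refine Finset.sum_congr rfl fun i _ => ?_
    rw [Complex.sq_norm, Complex.normSq_apply]; ring
  have h4 : ∑ i, ∑ j, Wm g i j * ((v i).re * (v j).re + (v i).im * (v j).im) =
      ∑ i, ∑ j, Wm g i j * ((v i).re * (v j).re) + ∑ i, ∑ j, Wm g i j * ((v i).im * (v j).im) := by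
    rw [← Finset.sum_add_distrib]
    refine Finset.sum_congr rfl fun i _ => ?_
    rw [← Finset.sum_add_distrib]
    exact Finset.sum_congr rfl fun j _ => by ring
  simp only [Complex.sub_re, Complex.mul_re, Complex.ofReal_re, Complex.ofReal_im, mul_zero,
    sub_zero]
  rw [h4]
  have h5 : lam * nsq v = lam * ∑ i, (v i).re ^ 2 + lam * ∑ i, (v i).im ^ 2 := by
    rw [h3]; ring
  linarith only [h5, h2, h1]

end Vale.Agent.P150.Cav
end

section

/-! Scalar inequality for the star-shapedness of the TAP free energy: calculus part. -/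

open MeasureTheory ProbabilityTheory Filter Topology Set

namespace Vale.Agent.P150.F.SSI

/-- `(S'(m)/2 - 2tm)` with `S(m) = m artanh m`. -/
noncomputable def X (t m : ℝ) : ℝ := (Real.artanh m + m / (1 - m ^ 2)) / 2 - 2 * t * m
/-- derivative of `X` -/
noncomputable def X' (t m : ℝ) : ℝ := 1 / (1 - m ^ 2) ^ 2 - 2 * t
/-- the Stein certificate -/
noncomputable def cf (t m : ℝ) : ℝ := -(21/5)*t*m + (6/5 + 33/10*t)*m^3
/-- its derivative -/
noncomputable def cf' (t m : ℝ) : ℝ := -(21/5)*t + 3*(6/5 + 33/10*t)*m^2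

lemma one_sub_sq_pos {m : ℝ} (hm : |m| < 1) : 0 < 1 - m ^ 2 := by
  have := abs_lt.1 hm
  nlinarith

lemma hasDerivAt_artanh {x : ℝ} (hx : |x| < 1) : HasDerivAt Real.artanh (1 / (1 - x ^ 2)) x := by
  obtain ⟨h1, h2⟩ := abs_lt.1 hx
  have hpos : 0 < (1 + x) / (1 - x) := div_pos (by linarith) (by linarith)
  have hev : Real.artanh =ᶠ[𝓝 x] fun y => 1 / 2 * Real.log ((1 + y) / (1 - y)) := by
    filter_upwards [Ioo_mem_nhds h1 h2] with y hy
    exact Real.artanh_eq_half_log ⟨hy.1.le, hy.2.le⟩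
  refine HasDerivAt.congr_of_eventuallyEq ?_ hev
  have hd : HasDerivAt (fun y : ℝ => (1 + y) / (1 - y)) ((1 * (1 - x) - (1 + x) * (-1)) / (1 - x) ^ 2) x := by
    refine HasDerivAt.div ?_ ?_ (by linarith)
    · simpa using (hasDerivAt_id x).const_add 1
    · simpa using (hasDerivAt_id x).const_sub 1
  have a1 : (1 - x) ≠ 0 := by linarith
  have a2 : (1 + x) ≠ 0 := by linarith
  have a3 : (1 - x ^ 2) ≠ 0 := (one_sub_sq_pos hx).ne'
  have := (hd.log hpos.ne').const_mul (1 / 2)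
  refine this.congr_deriv ?_
  have e : 1 - x ^ 2 = (1 - x) * (1 + x) := by ring
  rw [e]
  field_simp
  ring

lemma artanh_neg' {x : ℝ} (hx : |x| < 1) : Real.artanh (-x) = - Real.artanh x := by
  obtain ⟨h1, h2⟩ := abs_lt.1 hx
  rw [Real.artanh_eq_half_log ⟨by linarith, by linarith⟩,
    Real.artanh_eq_half_log ⟨by linarith, by linarith⟩]
  have : (1 + -x) / (1 - -x) = ((1 + x) / (1 - x))⁻¹ := by
    rw [inv_div]; congr 1; ring
  rw [this, Real.log_inv]; ring

lemma hasDerivAt_div {m : ℝ} (hm : |m| < 1) :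
    HasDerivAt (fun m : ℝ => m / (1 - m ^ 2)) ((1 + m ^ 2) / (1 - m ^ 2) ^ 2) m := by
  have h0 := (one_sub_sq_pos hm).ne'
  have := (hasDerivAt_id m).div (((hasDerivAt_pow 2 m)).const_sub 1) h0
  refine this.congr_deriv ?_
  simp only [id]
  field_simp
  ring

lemma hasDerivAt_X {t m : ℝ} (hm : |m| < 1) : HasDerivAt (X t) (X' t m) m := by
  have h0 := (one_sub_sq_pos hm).ne'
  have := (((hasDerivAt_artanh hm).add (hasDerivAt_div hm)).div_const 2).sub
    ((hasDerivAt_id m).const_mul (2 * t))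
  refine this.congr_deriv ?_
  rw [X']
  field_simp
  ring

/-- the objective function -/
noncomputable def ph (t x m : ℝ) : ℝ := 2 * x * m + 2 * t * m ^ 2 - m * Real.artanh m

lemma hasDerivAt_ph {t x m : ℝ} (hm : |m| < 1) : HasDerivAt (ph t x) (2 * (x - X t m)) m := by
  have h0 := (one_sub_sq_pos hm).ne'
  have := (((hasDerivAt_id m).const_mul (2 * x)).add ((hasDerivAt_pow 2 m).const_mul (2 * t))).sub
    ((hasDerivAt_id m).mul (hasDerivAt_artanh hm))
  refine this.congr_deriv ?_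
  rw [X]
  simp only [id]
  field_simp
  ring

lemma artanh_le {m : ℝ} (h0 : 0 ≤ m) (h1 : m < 1) : Real.artanh m ≤ m / (1 - m ^ 2) := by
  have hmono : MonotoneOn (fun m : ℝ => m / (1 - m ^ 2) - Real.artanh m) (Ico 0 1) := by
    refine monotoneOn_of_deriv_nonneg (convex_Ico 0 1) ?_ ?_ ?_
    · intro y hy
      have hy' : |y| < 1 := by rw [abs_lt]; exact ⟨by linarith [hy.1], hy.2⟩
      exact ((hasDerivAt_div hy').sub (hasDerivAt_artanh hy')).continuousAt.continuousWithinAt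
    · intro y hy
      rw [interior_Ico] at hy
      have hy' : |y| < 1 := by rw [abs_lt]; exact ⟨by linarith [hy.1], hy.2⟩
      exact ((hasDerivAt_div hy').sub (hasDerivAt_artanh hy')).differentiableAt.differentiableWithinAt
    · intro y hy
      rw [interior_Ico] at hy
      have hy' : |y| < 1 := by rw [abs_lt]; exact ⟨by linarith [hy.1], hy.2⟩
      have := ((hasDerivAt_div hy').sub (hasDerivAt_artanh hy')).deriv
      have e : deriv (fun m : ℝ => m / (1 - m ^ 2) - Real.artanh m) y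
        = (1 + y ^ 2) / (1 - y ^ 2) ^ 2 - 1 / (1 - y ^ 2) := this
      rw [e]
      have hp := one_sub_sq_pos hy'
      rw [sub_nonneg, div_le_div_iff₀ hp (by positivity)]
      linarith only [mul_nonneg hp.le (sq_nonneg y)]
  have := hmono ⟨le_rfl, one_pos⟩ ⟨h0, h1⟩ h0
  simp at this
  linarith

lemma artanh_div_mono {m m' : ℝ} (h0 : 0 < m) (h : m ≤ m') (h1 : m' < 1) :
    Real.artanh m / m ≤ Real.artanh m' / m' := by
  have hmono : MonotoneOn (fun m : ℝ => Real.artanh m / m) (Ioo 0 1) := by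
    refine monotoneOn_of_deriv_nonneg (convex_Ioo 0 1) ?_ ?_ ?_
    · intro y hy
      have hy' : |y| < 1 := by rw [abs_lt]; exact ⟨by linarith [hy.1], hy.2⟩
      exact ((hasDerivAt_artanh hy').div (hasDerivAt_id y) hy.1.ne').continuousAt.continuousWithinAt
    · intro y hy
      rw [interior_Ioo] at hy
      have hy' : |y| < 1 := by rw [abs_lt]; exact ⟨by linarith [hy.1], hy.2⟩
      exact ((hasDerivAt_artanh hy').div (hasDerivAt_id y) hy.1.ne').differentiableAt.differentiableWithinAt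
    · intro y hy
      rw [interior_Ioo] at hy
      have hy' : |y| < 1 := by rw [abs_lt]; exact ⟨by linarith [hy.1], hy.2⟩
      have := ((hasDerivAt_artanh hy').div (hasDerivAt_id y) hy.1.ne').deriv
      have e : deriv (fun m : ℝ => Real.artanh m / m) y
        = (1 / (1 - y ^ 2) * id y - Real.artanh y * 1) / id y ^ 2 := this
      rw [e]
      have := artanh_le hy.1.le hy.2
      have e2 : 1 / (1 - y ^ 2) * id y = y / (1 - y ^ 2) := by simp [div_eq_inv_mul]
      rw [e2]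
      apply div_nonneg (by linarith only [this]) (by positivity)
  exact hmono ⟨h0, h.trans_lt h1⟩ ⟨h0.trans_le h, h1⟩ h

/-- `X t m / m + 2t` -/
noncomputable def ell (m : ℝ) : ℝ := (Real.artanh m / m + 1 / (1 - m ^ 2)) / 2

lemma X_eq {t m : ℝ} (h0 : 0 < m) (h1 : m < 1) : X t m = m * (ell m - 2 * t) := by
  have : 0 < 1 - m ^ 2 := by (by_contra nlg; linarith [mul_pos (sub_pos.2 h1) (sub_pos.2 h1), mul_pos (sub_pos.2 h0) (sub_pos.2 h1), mul_nonneg (sub_nonneg.2 (not_lt.1 nlg)) (le_of_lt (sub_pos.2 h1)), mul_nonneg (sub_nonneg.2 (not_lt.1 nlg)) (le_of_lt (sub_pos.2 h0))])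
  rw [X, ell]
  field_simp

lemma ell_lt {m m' : ℝ} (h0 : 0 < m) (h : m < m') (h1 : m' < 1) : ell m < ell m' := by
  have a := artanh_div_mono h0 h.le h1
  have b : 1 / (1 - m ^ 2) < 1 / (1 - m' ^ 2) := by
    apply one_div_lt_one_div_of_lt <;> nlinarith
  rw [ell, ell]
  linarith [a, b]

lemma X_lt {t m m' : ℝ} (h0 : 0 < m) (h : m < m') (h1 : m' < 1) (hX : 0 ≤ X t m) :
    X t m < X t m' := by
  have a := ell_lt h0 h h1
  rw [X_eq h0 (h.trans h1)] at hX ⊢
  rw [X_eq (h0.trans h) h1]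
  have hb : 0 ≤ ell m - 2 * t := by
    by_contra hcon
    push Not at hcon
    linarith [mul_nonneg (le_of_lt (sub_pos.2 h1)) (sub_nonneg.2 hX), mul_nonneg (le_of_lt (sub_pos.2 h)) (sub_nonneg.2 hX), mul_pos (sub_pos.2 h0) (sub_pos.2 hcon), mul_nonneg (le_of_lt (sub_pos.2 h0)) (sub_nonneg.2 hX)]
  nlinarith

lemma X'_pos {t m : ℝ} (h0 : 0 < m) (h1 : m < 1) (hX : 0 ≤ X t m) : 0 < X' t m := by
  have hp : 0 < 1 - m ^ 2 := by (by_contra nlg; linarith [mul_pos (sub_pos.2 h1) (sub_pos.2 h1), mul_pos (sub_pos.2 h0) (sub_pos.2 h1), mul_nonneg (sub_nonneg.2 (not_lt.1 nlg)) (le_of_lt (sub_pos.2 h1)), mul_nonneg (sub_nonneg.2 (not_lt.1 nlg)) (le_of_lt (sub_pos.2 h0))])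
  have hp1 : 1 - m ^ 2 < 1 := by (by_contra nlg; linarith only [mul_nonneg (sub_nonneg.2 (not_lt.1 nlg)) (le_of_lt (sub_pos.2 h0)), mul_nonneg (sub_nonneg.2 (not_lt.1 nlg)) (le_of_lt (sub_pos.2 h1)), mul_pos (sub_pos.2 h0) (sub_pos.2 h0)])
  have h2 := artanh_le h0.le h1
  have h3 : 2 * t * m ≤ m / (1 - m ^ 2) := by rw [X] at hX; linarith only [hX, h2]
  have h4 : 2 * t ≤ 1 / (1 - m ^ 2) := by
    rw [le_div_iff₀ hp]
    rw [le_div_iff₀ hp] at h3
    (by_contra nlg; linarith only [mul_pos (sub_pos.2 (not_le.1 nlg)) (sub_pos.2 hp1), mul_nonneg (le_of_lt (sub_pos.2 h0)) (sub_nonneg.2 h3)])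
  have h5 : 1 / (1 - m ^ 2) < 1 / (1 - m ^ 2) ^ 2 := by
    apply one_div_lt_one_div_of_lt (by positivity)
    (by_contra nlg; linarith only [mul_nonneg (sub_nonneg.2 (not_lt.1 nlg)) (le_of_lt (sub_pos.2 hp)), mul_nonneg (sub_nonneg.2 (not_lt.1 nlg)) (le_of_lt (sub_pos.2 hp1)), mul_pos (sub_pos.2 hp) (sub_pos.2 hp1)])
  rw [X']; linarith only [h5, h4]

lemma X_zero (t : ℝ) : X t 0 = 0 := by simp [X]

lemma X_lower {t m : ℝ} (ht : 0 ≤ t) (h0 : 1 / 2 ≤ m) (h1 : m < 1) :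
    1 / (8 * (1 - m)) - 2 * t ≤ X t m := by
  have hp : 0 < 1 - m := by linarith only [h1]
  have hp2 : 0 < 1 - m ^ 2 := by nlinarith
  have a : 0 ≤ Real.artanh m := Real.artanh_nonneg (by linarith)
  have b : 1 / (4 * (1 - m)) ≤ m / (1 - m ^ 2) := by
    rw [div_le_div_iff₀ (by positivity) hp2]
    nlinarith
  have c : 2 * t * m ≤ 2 * t := by (by_contra nlg; linarith only [mul_nonneg (le_of_lt (sub_pos.2 (not_le.1 nlg))) (sub_nonneg.2 h0), mul_pos (sub_pos.2 (not_le.1 nlg)) (sub_pos.2 hp), mul_nonneg (sub_nonneg.2 ht) (le_of_lt (sub_pos.2 hp))])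
  have d : 1 / (8 * (1 - m)) = 1 / (4 * (1 - m)) / 2 := by
    field_simp; ring
  rw [X, d]
  linarith only [a, b, c]

lemma tendsto_X (t : ℝ) (ht : 0 ≤ t) : Tendsto (X t) (𝓝[<] 1) atTop := by
  have h1 : Tendsto (fun m : ℝ => 1 / (8 * (1 - m)) - 2 * t) (𝓝[<] 1) atTop := by
    apply tendsto_atTop_add_const_right
    have : Tendsto (fun m : ℝ => 8 * (1 - m)) (𝓝[<] 1) (𝓝[>] 0) := by
      apply tendsto_nhdsWithin_of_tendsto_nhds_of_eventually_within
      · have : Tendsto (fun m : ℝ => 8 * (1 - m)) (𝓝 1) (𝓝 (8 * (1 - 1))) := by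
          apply Continuous.tendsto; fun_prop
        simp at this
        exact this.mono_left nhdsWithin_le_nhds
      · filter_upwards [self_mem_nhdsWithin] with m hm
        simp only [mem_Iio] at hm
        simp only [mem_Ioi]
        linarith
    have h3 := tendsto_inv_nhdsGT_zero.comp this
    refine h3.congr fun m => ?_
    simp only [Function.comp_def, one_div]
  refine tendsto_atTop_mono' _ ?_ h1
  have : Ioo (1/2 : ℝ) 1 ∈ 𝓝[<] (1:ℝ) := Ioo_mem_nhdsLT (by norm_num)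
  filter_upwards [this] with m hm
  exact X_lower ht hm.1.le hm.2

lemma continuousOn_X (t : ℝ) : ContinuousOn (X t) (Ioo (-1) 1) := by
  intro m hm
  exact (hasDerivAt_X (abs_lt.2 hm)).continuousAt.continuousWithinAt

/-- existence of the threshold `m₁` -/
lemma exists_m1 (t : ℝ) (ht : 0 ≤ t) : ∃ m1 : ℝ, 0 ≤ m1 ∧ m1 < 1 ∧ X t m1 = 0 ∧
    (∀ m, m1 < m → m < 1 → 0 < X t m) ∧ (∀ m, 0 ≤ m → m ≤ m1 → X t m ≤ 0) := by
  by_cases hcase : ∀ m, 0 < m → m < 1 → 0 < X t m
  · exact ⟨0, le_rfl, one_pos, X_zero t, hcase, fun m h1 h2 => by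
      rw [le_antisymm h2 h1, X_zero]⟩
  push Not at hcase
  obtain ⟨m0, h00, h01, hX0⟩ := hcase
  -- a point with positive X
  obtain ⟨m2, hm2, hXm2⟩ : ∃ m2, m0 < m2 ∧ m2 < 1 ∧ 0 < X t m2 := by
    have h1 := (tendsto_X t ht).eventually (eventually_gt_atTop 0)
    have h2 : Ioo m0 1 ∈ 𝓝[<] (1:ℝ) := Ioo_mem_nhdsLT h01
    obtain ⟨m2, ha, hb⟩ := (h1.and h2).exists
    exact ⟨m2, hb.1, hb.2, ha⟩
  obtain ⟨hm21, hXm2⟩ := hXm2
  have hcont : ContinuousOn (X t) (Icc m0 m2) :=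
    (continuousOn_X t).mono fun y hy => ⟨by linarith [hy.1], by linarith [hy.2]⟩
  obtain ⟨m1, hm1, hXm1⟩ := intermediate_value_Icc hm2.le hcont (show (0:ℝ) ∈ Icc _ _ from ⟨hX0, hXm2.le⟩)
  have hm1pos : 0 < m1 := h00.trans_le hm1.1
  have hm1lt : m1 < 1 := hm1.2.trans_lt hm21
  refine ⟨m1, hm1pos.le, hm1lt, hXm1, ?_, ?_⟩
  · intro m ha hb
    have := X_lt (t := t) hm1pos ha hb hXm1.ge
    linarith
  · intro m ha hb
    rcases ha.eq_or_lt with h | h
    · rw [← h, X_zero]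
    rcases hb.eq_or_lt with h' | h'
    · rw [h', hXm1]
    by_contra hcon
    push Not at hcon
    have := X_lt (t := t) h h' hm1lt hcon.le
    linarith

/-- the maximiser -/
noncomputable def M (t x : ℝ) : ℝ := sSup {m | 0 ≤ m ∧ m < 1 ∧ X t m ≤ x}

lemma M_X {t m : ℝ} (h0 : 0 < m) (h1 : m < 1) (hX : 0 < X t m) : M t (X t m) = m := by
  have : {m' | 0 ≤ m' ∧ m' < 1 ∧ X t m' ≤ X t m} = Icc 0 m := by
    ext m'
    simp only [mem_ofPred_eq, mem_Icc]
    constructor
    · rintro ⟨a, b, c⟩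
      refine ⟨a, ?_⟩
      by_contra hcon
      push Not at hcon
      have := X_lt (t := t) h0 hcon b hX.le
      linarith
    · rintro ⟨a, b⟩
      refine ⟨a, b.trans_lt h1, ?_⟩
      by_contra hcon
      push Not at hcon
      rcases a.eq_or_lt with h | h
      · rw [← h, X_zero] at hcon; linarith
      rcases b.eq_or_lt with h' | h'
      · rw [h'] at hcon; linarith
      have := X_lt (t := t) h h' h1 (by linarith)
      linarith
  rw [M, this, csSup_Icc h0.le]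

lemma exists_X_eq {t x : ℝ} (ht : 0 ≤ t) (hx : 0 < x) : ∃ m, 0 < m ∧ m < 1 ∧ X t m = x := by
  obtain ⟨m1, h0, h1, hX1, -, -⟩ := exists_m1 t ht
  obtain ⟨m2, hm2, hm21, hXm2⟩ : ∃ m2, m1 < m2 ∧ m2 < 1 ∧ x < X t m2 := by
    have h1' := (tendsto_X t ht).eventually (eventually_gt_atTop x)
    have h2 : Ioo m1 1 ∈ 𝓝[<] (1:ℝ) := Ioo_mem_nhdsLT h1
    obtain ⟨m2, ha, hb⟩ := (h1'.and h2).exists
    exact ⟨m2, hb.1, hb.2, ha⟩
  have hcont : ContinuousOn (X t) (Icc m1 m2) :=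
    (continuousOn_X t).mono fun y hy => ⟨by linarith [hy.1], by linarith [hy.2]⟩
  obtain ⟨m, hm, hXm⟩ := intermediate_value_Icc hm2.le hcont
    (show x ∈ Icc _ _ from ⟨by linarith, hXm2.le⟩)
  refine ⟨m, ?_, hm.2.trans_lt hm21, hXm⟩
  rcases (h0.trans hm.1).eq_or_lt with h | h
  · rw [← h, X_zero] at hXm; linarith
  · exact h

lemma M_mem {t x : ℝ} (ht : 0 ≤ t) (hx : 0 < x) : 0 < M t x ∧ M t x < 1 ∧ X t (M t x) = x := by
  obtain ⟨m, h0, h1, h2⟩ := exists_X_eq ht hx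
  have := M_X (t := t) h0 h1 (by rw [h2]; exact hx)
  rw [h2] at this
  rw [this]
  exact ⟨h0, h1, h2⟩

lemma M_mono (t : ℝ) : MonotoneOn (M t) (Ici 0) := by
  intro x hx y hy hxy
  apply csSup_le_csSup
  · exact ⟨1, fun m hm => hm.2.1.le⟩
  · exact ⟨0, le_rfl, one_pos, by rw [X_zero]; exact hx⟩
  · intro m hm
    exact ⟨hm.1, hm.2.1, hm.2.2.trans hxy⟩

lemma ph_le {t x m0 m : ℝ} (h0 : 0 < m0) (h1 : m0 < 1) (hx : 0 < x) (hX : X t m0 = x)
    (hm : |m| < 1) : ph t x m ≤ ph t x m0 := by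
  have key : ∀ m, 0 ≤ m → m < 1 → ph t x m ≤ ph t x m0 := by
    intro m ha hb
    rcases le_total m m0 with h | h
    · have hmono : MonotoneOn (ph t x) (Icc 0 m0) := by
        refine monotoneOn_of_deriv_nonneg (convex_Icc 0 m0) ?_ ?_ ?_
        · intro y hy
          exact (hasDerivAt_ph (abs_lt.2 ⟨by linarith [hy.1], by linarith [hy.2]⟩)).continuousAt.continuousWithinAt
        · intro y hy
          rw [interior_Icc] at hy
          exact (hasDerivAt_ph (abs_lt.2 ⟨by linarith [hy.1], by linarith [hy.2]⟩)).differentiableAt.differentiableWithinAt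
        · intro y hy
          rw [interior_Icc] at hy
          rw [(hasDerivAt_ph (abs_lt.2 ⟨by linarith [hy.1], by linarith [hy.2]⟩)).deriv]
          have : X t y ≤ x := by
            by_contra hcon
            push Not at hcon
            have := X_lt (t := t) hy.1 hy.2 h1 (by linarith)
            linarith
          linarith
      exact hmono ⟨ha, h⟩ ⟨h0.le, le_rfl⟩ h
    · have hanti : AntitoneOn (ph t x) (Ico m0 1) := by
        refine antitoneOn_of_deriv_nonpos (convex_Ico m0 1) ?_ ?_ ?_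
        · intro y hy
          exact (hasDerivAt_ph (abs_lt.2 ⟨by linarith [hy.1], by linarith [hy.2]⟩)).continuousAt.continuousWithinAt
        · intro y hy
          rw [interior_Ico] at hy
          exact (hasDerivAt_ph (abs_lt.2 ⟨by linarith [hy.1], by linarith [hy.2]⟩)).differentiableAt.differentiableWithinAt
        · intro y hy
          rw [interior_Ico] at hy
          rw [(hasDerivAt_ph (abs_lt.2 ⟨by linarith [hy.1], by linarith [hy.2]⟩)).deriv]
          have := X_lt (t := t) h0 hy.1 hy.2 (by linarith)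
          linarith
      exact hanti ⟨le_rfl, h1⟩ ⟨h, hb⟩ h
  rcases le_total 0 m with h | h
  · exact key m h (abs_lt.1 hm).2
  · have h2 := key (-m) (by linarith) (by linarith [(abs_lt.1 hm).1])
    refine le_trans ?_ h2
    rw [ph, ph, artanh_neg' hm]
    (by_contra nlg; linarith only [mul_pos (sub_pos.2 (not_le.1 nlg)) (sub_pos.2 h0), mul_pos (sub_pos.2 (not_le.1 nlg)) (sub_pos.2 h1), mul_nonneg (le_of_lt (sub_pos.2 hx)) (sub_nonneg.2 h)])

end Vale.Agent.P150.F.SSI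
end

section

/-! Abstract one-step Gaussian channel on a finite set: likelihoods, Bayes, expansions. -/

open MeasureTheory ProbabilityTheory Filter Topology Real
open scoped Matrix

namespace Vale.Agent.P150.F

open P245 (gsn EG1)

variable {X : Type*} [Fintype X] {m : ℕ}

/-- likelihood of the observation `√δ g` relative to the noise, for the signal `v` -/
noncomputable def lk (δ : ℝ) (v g : Fin m → ℝ) : ℝ :=
  Real.exp (√δ * ∑ k, g k * v k - δ / 2 * ∑ k, v k ^ 2)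

/-- marginal likelihood -/
noncomputable def mlk (ν : X → ℝ) (V : X → Fin m → ℝ) (δ : ℝ) (g : Fin m → ℝ) : ℝ :=
  ∑ x, ν x * lk δ (V x) g

/-- the `ℓ¹` norm -/
def S1 (g : Fin m → ℝ) : ℝ := ∑ k, |g k|

theorem S1_nonneg (g : Fin m → ℝ) : 0 ≤ S1 g := Finset.sum_nonneg fun _ _ => abs_nonneg _

theorem lk_pos (δ : ℝ) (v g : Fin m → ℝ) : 0 < lk δ v g := Real.exp_pos _

theorem continuous_lk (δ : ℝ) (v : Fin m → ℝ) : Continuous (lk δ v) := by
  unfold lk; fun_prop

theorem lk_shift {δ : ℝ} (hδ : 0 ≤ δ) (v g : Fin m → ℝ) :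
    lk δ v g = Real.exp (∑ k, (√δ • v) k * g k - (∑ k, (√δ • v) k ^ 2) / 2) := by
  unfold lk
  congr 1
  simp only [Pi.smul_apply, smul_eq_mul, mul_pow, sq_sqrt hδ]
  rw [← Finset.mul_sum, Finset.mul_sum]
  congr 1
  · apply Finset.sum_congr rfl; intro k _; ring
  · ring

/-- Cameron–Martin -/
theorem integral_lk {δ : ℝ} (hδ : 0 ≤ δ) (v : Fin m → ℝ) (Φ : (Fin m → ℝ) → ℝ) :
    ∫ g, lk δ v g * Φ g ∂(gsn m) = ∫ g, Φ (g + √δ • v) ∂(gsn m) := by
  rw [P245.integral_gam_shift]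
  congr 1
  funext g
  rw [lk_shift hδ, mul_comm]

theorem integral_lk_one {δ : ℝ} (hδ : 0 ≤ δ) (v : Fin m → ℝ) : ∫ g, lk δ v g ∂(gsn m) = 1 := by
  have := integral_lk hδ v (fun _ => (1 : ℝ))
  simpa using this

theorem integral_lk_lk {δ : ℝ} (hδ : 0 ≤ δ) (v w : Fin m → ℝ) :
    ∫ g, lk δ v g * lk δ w g ∂(gsn m) = Real.exp (δ * ∑ k, v k * w k) := by
  have e : ∀ g : Fin m → ℝ, lk δ v g * lk δ w g
      = Real.exp (-(δ / 2 * ∑ k, v k ^ 2 + δ / 2 * ∑ k, w k ^ 2)) *
        Real.exp (∑ k, (√δ • (v + w)) k * g k) := by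
    intro g
    unfold lk
    rw [← Real.exp_add, ← Real.exp_add]
    congr 1
    have : ∑ k, (√δ • (v + w)) k * g k = √δ * ∑ k, g k * v k + √δ * ∑ k, g k * w k := by
      rw [Finset.mul_sum, Finset.mul_sum, ← Finset.sum_add_distrib]
      apply Finset.sum_congr rfl; intro k _
      simp only [Pi.smul_apply, Pi.add_apply, smul_eq_mul]; ring
    rw [this]; ring
  simp_rw [e]
  rw [integral_const_mul, P245.integral_gam_exp, ← Real.exp_add]
  congr 1
  have : ∑ k, (√δ • (v + w)) k ^ 2 = δ * ∑ k, v k ^ 2 + 2 * δ * ∑ k, v k * w k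
      + δ * ∑ k, w k ^ 2 := by
    rw [Finset.mul_sum, Finset.mul_sum, Finset.mul_sum, ← Finset.sum_add_distrib,
      ← Finset.sum_add_distrib]
    apply Finset.sum_congr rfl; intro k _
    simp only [Pi.smul_apply, Pi.add_apply, smul_eq_mul, mul_pow, sq_sqrt hδ]; ring
  rw [this]; ring

/-! ### integrability class -/

theorem eg1_of_le {φ : (Fin m → ℝ) → ℝ} {C c : ℝ} (h : ∀ z, |φ z| ≤ C * Real.exp (c * S1 z)) :
    EG1 φ := by
  refine ⟨|C| + |c|, by positivity, fun z => (h z).trans ?_⟩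
  have hS := S1_nonneg z
  have h1 : Real.exp (c * S1 z) ≤ Real.exp ((|C| + |c|) * ∑ i, |z i|) := by
    apply Real.exp_le_exp.2
    apply mul_le_mul_of_nonneg_right _ hS
    linarith [le_abs_self c, abs_nonneg C]
  calc C * Real.exp (c * S1 z) ≤ (|C| + |c|) * Real.exp (c * S1 z) :=
        mul_le_mul_of_nonneg_right (by linarith [le_abs_self C, abs_nonneg c]) (Real.exp_pos _).le
    _ ≤ _ := mul_le_mul_of_nonneg_left h1 (by positivity)

theorem eg1_const (c : ℝ) : EG1 fun _ : Fin m → ℝ => c :=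
  eg1_of_le (C := |c|) (c := 0) (by intro z; simp)

theorem eg1_add {φ ψ : (Fin m → ℝ) → ℝ} (h : EG1 φ) (h' : EG1 ψ) : EG1 fun z => φ z + ψ z := by
  obtain ⟨C, hC, h1⟩ := h
  obtain ⟨C', hC', h2⟩ := h'
  refine eg1_of_le (C := C + C') (c := C + C') fun z => ?_
  have hS := S1_nonneg z
  have e1 : Real.exp (C * ∑ i, |z i|) ≤ Real.exp ((C + C') * S1 z) :=
    Real.exp_le_exp.2 (mul_le_mul_of_nonneg_right (by linarith) hS)
  have e2 : Real.exp (C' * ∑ i, |z i|) ≤ Real.exp ((C + C') * S1 z) :=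
    Real.exp_le_exp.2 (mul_le_mul_of_nonneg_right (by linarith) hS)
  calc |φ z + ψ z| ≤ |φ z| + |ψ z| := abs_add_le _ _
    _ ≤ C * Real.exp (C * ∑ i, |z i|) + C' * Real.exp (C' * ∑ i, |z i|) := add_le_add (h1 z) (h2 z)
    _ ≤ C * Real.exp ((C + C') * S1 z) + C' * Real.exp ((C + C') * S1 z) :=
        add_le_add (mul_le_mul_of_nonneg_left e1 hC) (mul_le_mul_of_nonneg_left e2 hC')
    _ = _ := by ring

theorem eg1_mul {φ ψ : (Fin m → ℝ) → ℝ} (h : EG1 φ) (h' : EG1 ψ) : EG1 fun z => φ z * ψ z := by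
  obtain ⟨C, hC, h1⟩ := h
  obtain ⟨C', hC', h2⟩ := h'
  refine eg1_of_le (C := C * C') (c := C + C') fun z => ?_
  rw [abs_mul]
  calc |φ z| * |ψ z| ≤ (C * Real.exp (C * ∑ i, |z i|)) * (C' * Real.exp (C' * ∑ i, |z i|)) :=
        mul_le_mul (h1 z) (h2 z) (abs_nonneg _) (by positivity)
    _ = C * C' * Real.exp ((C + C') * S1 z) := by
        rw [add_mul, Real.exp_add]; unfold S1; ring

theorem eg1_cmul {φ : (Fin m → ℝ) → ℝ} (h : EG1 φ) (c : ℝ) : EG1 fun z => c * φ z :=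
  eg1_mul (eg1_const c) h

theorem eg1_sum {ι : Type*} (s : Finset ι) {φ : ι → (Fin m → ℝ) → ℝ}
    (h : ∀ i ∈ s, EG1 (φ i)) : EG1 fun z => ∑ i ∈ s, φ i z := by
  classical
  induction s using Finset.induction_on with
  | empty => simpa using eg1_const (m := m) 0
  | insert i s hi ih =>
    simp only [Finset.sum_insert hi]
    exact eg1_add (h i (Finset.mem_insert_self _ _)) (ih fun j hj => h j (Finset.mem_insert_of_mem hj))

theorem eg1_mono {φ ψ : (Fin m → ℝ) → ℝ} (h : EG1 φ) (h' : ∀ z, |ψ z| ≤ |φ z|) : EG1 ψ := by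
  obtain ⟨C, hC, h1⟩ := h
  exact ⟨C, hC, fun z => (h' z).trans (h1 z)⟩

theorem eg1_coord (i : Fin m) : EG1 fun z : Fin m → ℝ => z i := by
  refine eg1_of_le (C := 1) (c := 1) fun z => ?_
  have h1 : |z i| ≤ S1 z := Finset.single_le_sum (f := fun j => |z j|)
    (fun j _ => abs_nonneg _) (Finset.mem_univ i)
  have h2 := Real.add_one_le_exp (S1 z)
  simp only [one_mul]
  linarith

theorem abs_inner_le {R0 : ℝ} {v : Fin m → ℝ} (hv : ∀ k, |v k| ≤ R0) (g : Fin m → ℝ) :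
    |∑ k, g k * v k| ≤ R0 * S1 g := by
  refine (Finset.abs_sum_le_sum_abs _ _).trans ?_
  unfold S1
  rw [Finset.mul_sum]
  apply Finset.sum_le_sum; intro k _
  rw [abs_mul, mul_comm]
  exact mul_le_mul_of_nonneg_right (hv k) (abs_nonneg _)

theorem sq_sum_le {R0 : ℝ} {v : Fin m → ℝ} (hv : ∀ k, |v k| ≤ R0) :
    ∑ k, v k ^ 2 ≤ m * R0 ^ 2 := by
  calc ∑ k, v k ^ 2 ≤ ∑ _k : Fin m, R0 ^ 2 := by
        apply Finset.sum_le_sum; intro k _
        rw [← sq_abs]; exact pow_le_pow_left₀ (abs_nonneg _) (hv k) 2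
    _ = m * R0 ^ 2 := by simp

/-- the exponent bound `R₀ |g|₁ + m R₀²` -/
noncomputable def Bd1 (m : ℕ) (R0 : ℝ) (g : Fin m → ℝ) : ℝ := R0 * S1 g + m * R0 ^ 2

theorem Bd1_nonneg {R0 : ℝ} (h : 0 ≤ R0) (g : Fin m → ℝ) : 0 ≤ Bd1 m R0 g := by
  have := S1_nonneg g
  unfold Bd1; positivity

/-- the exponent of the likelihood is `O(√δ)` -/
theorem expo_le {δ R0 : ℝ} (hδ : 0 ≤ δ) (hδ1 : δ ≤ 1) (_hR : 0 ≤ R0) {v : Fin m → ℝ}
    (hv : ∀ k, |v k| ≤ R0) (g : Fin m → ℝ) :
    |√δ * ∑ k, g k * v k - δ / 2 * ∑ k, v k ^ 2| ≤ √δ * Bd1 m R0 g := by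
  have h1 := abs_inner_le hv g
  have h2 := sq_sum_le hv
  have h2' : 0 ≤ ∑ k, v k ^ 2 := Finset.sum_nonneg fun _ _ => sq_nonneg _
  have h3 : δ ≤ √δ := by
    have : √δ ≤ 1 := Real.sqrt_le_one.2 hδ1
    (by_contra nlg; linarith only [mul_pos (sub_pos.2 (not_le.1 nlg)) (sub_pos.2 (not_le.1 nlg)), mul_nonneg (le_of_lt (sub_pos.2 (not_le.1 nlg))) (sub_nonneg.2 (Real.sqrt_nonneg δ)), mul_nonneg (sub_nonneg.2 hδ) (sub_nonneg.2 hδ1), mul_eq_zero_of_left (sub_eq_zero.2 (Real.mul_self_sqrt hδ)) (1 - (√δ)), mul_eq_zero_of_left (sub_eq_zero.2 (Real.mul_self_sqrt hδ)) (√δ - (0))])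
  have hs := Real.sqrt_nonneg δ
  have h4 : |δ / 2 * ∑ k, v k ^ 2| ≤ √δ * (m * R0 ^ 2) := by
    rw [abs_of_nonneg (by (clear * - hδ; positivity))]
    calc δ / 2 * ∑ k, v k ^ 2 ≤ √δ * ∑ k, v k ^ 2 :=
          mul_le_mul_of_nonneg_right (by linarith only [hs, h3]) h2'
      _ ≤ _ := mul_le_mul_of_nonneg_left h2 hs
  calc |√δ * ∑ k, g k * v k - δ / 2 * ∑ k, v k ^ 2|
      ≤ |√δ * ∑ k, g k * v k| + |δ / 2 * ∑ k, v k ^ 2| := abs_sub _ _
    _ ≤ √δ * (R0 * S1 g) + √δ * (m * R0 ^ 2) := by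
        refine add_le_add ?_ h4
        rw [abs_mul, abs_of_nonneg hs]
        exact mul_le_mul_of_nonneg_left h1 hs
    _ = _ := by unfold Bd1; ring

theorem lk_le {δ R0 : ℝ} (hδ : 0 ≤ δ) (hδ1 : δ ≤ 1) (hR : 0 ≤ R0) {v : Fin m → ℝ}
    (hv : ∀ k, |v k| ≤ R0) (g : Fin m → ℝ) : lk δ v g ≤ Real.exp (Bd1 m R0 g) := by
  unfold lk
  apply Real.exp_le_exp.2
  have h1 := (abs_le.1 (expo_le hδ hδ1 hR hv g)).2
  have h2 := Bd1_nonneg hR g
  have h3 : √δ ≤ 1 := Real.sqrt_le_one.2 hδ1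
  linarith only [mul_le_mul_of_nonneg_right h3 h2, h1]

theorem le_lk {δ R0 : ℝ} (hδ : 0 ≤ δ) (hδ1 : δ ≤ 1) (hR : 0 ≤ R0) {v : Fin m → ℝ}
    (hv : ∀ k, |v k| ≤ R0) (g : Fin m → ℝ) : Real.exp (-Bd1 m R0 g) ≤ lk δ v g := by
  unfold lk
  apply Real.exp_le_exp.2
  have h1 := (abs_le.1 (expo_le hδ hδ1 hR hv g)).1
  have h2 := Bd1_nonneg hR g
  have h3 : √δ ≤ 1 := Real.sqrt_le_one.2 hδ1
  linarith only [mul_le_mul_of_nonneg_right h3 h2, h1]

theorem abs_exp_sub_one_le' (u : ℝ) : |Real.exp u - 1| ≤ |u| * Real.exp |u| := by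
  rcases le_total 0 u with h | h
  · rw [abs_of_nonneg h, abs_of_nonneg (by linarith [Real.one_le_exp h])]
    have := Real.add_one_le_exp (-u)
    have h2 := Real.exp_pos u
    have h3 : Real.exp (-u) * Real.exp u = 1 := by rw [← Real.exp_add]; simp
    linarith only [mul_nonneg (sub_nonneg.2 this) (le_of_lt (sub_pos.2 h2)), h3]
  · rw [abs_of_nonpos h, abs_of_nonpos (by linarith [Real.exp_le_one_iff.2 h])]
    have h1 := Real.add_one_le_exp u
    have h2 : 1 ≤ Real.exp (-u) := Real.one_le_exp (by linarith)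
    linarith [mul_nonneg (sub_nonneg.2 h) (sub_nonneg.2 h2), h1]

/-- `|lk - 1| ≤ √δ B e^B` -/
theorem abs_lk_sub_one {δ R0 : ℝ} (hδ : 0 ≤ δ) (hδ1 : δ ≤ 1) (hR : 0 ≤ R0) {v : Fin m → ℝ}
    (hv : ∀ k, |v k| ≤ R0) (g : Fin m → ℝ) :
    |lk δ v g - 1| ≤ √δ * Real.exp (2 * Bd1 m R0 g) := by
  have h1 := expo_le hδ hδ1 hR hv g
  have h2 := Bd1_nonneg hR g
  have h3 : √δ ≤ 1 := Real.sqrt_le_one.2 hδ1
  have h4 : √δ * Bd1 m R0 g ≤ Bd1 m R0 g := by linarith only [mul_nonneg (sub_nonneg.2 h2) (sub_nonneg.2 h3)]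
  unfold lk
  refine (abs_exp_sub_one_le' _).trans ?_
  set u := |√δ * ∑ k, g k * v k - δ / 2 * ∑ k, v k ^ 2|
  have hu : 0 ≤ u := abs_nonneg _
  calc u * Real.exp u ≤ (√δ * Bd1 m R0 g) * Real.exp (Bd1 m R0 g) :=
        mul_le_mul h1 (Real.exp_le_exp.2 (h1.trans h4)) (Real.exp_pos _).le
          (mul_nonneg (Real.sqrt_nonneg _) h2)
    _ ≤ √δ * (Real.exp (Bd1 m R0 g) * Real.exp (Bd1 m R0 g)) := by
        rw [mul_assoc]
        apply mul_le_mul_of_nonneg_left _ (Real.sqrt_nonneg _)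
        apply mul_le_mul_of_nonneg_right _ (Real.exp_pos _).le
        linarith [Real.add_one_le_exp (Bd1 m R0 g)]
    _ = _ := by rw [← Real.exp_add, ← two_mul]

theorem exp_Bd1 (c R0 : ℝ) (g : Fin m → ℝ) :
    Real.exp (c * Bd1 m R0 g) = Real.exp (c * (m * R0 ^ 2)) * Real.exp ((c * R0) * S1 g) := by
  rw [← Real.exp_add]; congr 1; unfold Bd1; ring

theorem eg1_exp_Bd1 (c R0 : ℝ) : EG1 fun g : Fin m → ℝ => Real.exp (c * Bd1 m R0 g) := by
  refine eg1_of_le (C := Real.exp (c * (m * R0 ^ 2))) (c := c * R0) fun z => ?_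
  rw [abs_of_pos (Real.exp_pos _), exp_Bd1]

theorem continuous_Bd1 (R0 : ℝ) : Continuous (Bd1 m R0) := by
  unfold Bd1 S1; fun_prop

theorem integrable_exp_Bd1 (c R0 : ℝ) :
    Integrable (fun g : Fin m → ℝ => Real.exp (c * Bd1 m R0 g)) (gsn m) := by
  have := continuous_Bd1 (m := m) R0
  exact (eg1_exp_Bd1 c R0).integrable (by fun_prop)

/-- the error constant -/
noncomputable def KB1 (m : ℕ) (c R0 : ℝ) : ℝ := ∫ g, Real.exp (c * Bd1 m R0 g) ∂(gsn m)

theorem KB1_nonneg (m : ℕ) (c R0 : ℝ) : 0 ≤ KB1 m c R0 :=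
  integral_nonneg fun _ => (Real.exp_pos _).le

end Vale.Agent.P150.F
end

section

/-! P150 FULL: from filter-form limits on a sigma type to uniform eventual statements
(helper691). -/

open Filter Topology

namespace Vale.Agent.P150.F

/-- the filter on the sigma type: `i → F` and the hypothesis holds with parameter `η → 0` -/
def uF {I : Type*} (F : Filter I) {D : I → Type*} (hyp : ∀ i, D i → ℝ → Prop) :
    Filter (Σ i, D i) :=
  comap Sigma.fst F ⊓ ⨅ (η : ℝ) (_ : 0 < η), 𝓟 {p | hyp p.1 p.2 η}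

variable {I : Type*} {F : Filter I} {D : I → Type*} {hyp : ∀ i, D i → ℝ → Prop}

theorem tendsto_fst_uF : Tendsto (Sigma.fst : (Σ i, D i) → I) (uF F hyp) F :=
  tendsto_comap.mono_left inf_le_left

theorem eventually_uF_of_fst {P : I → Prop} (h : ∀ᶠ i in F, P i) :
    ∀ᶠ p in uF F hyp, P p.1 := tendsto_fst_uF.eventually h

theorem eventually_uF_hyp {η : ℝ} (hη : 0 < η) : ∀ᶠ p in uF F hyp, hyp p.1 p.2 η := by
  have h1 : (⨅ (η : ℝ) (_ : 0 < η), 𝓟 {p : Σ i, D i | hyp p.1 p.2 η}) ≤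
      𝓟 {p | hyp p.1 p.2 η} := iInf₂_le η hη
  exact (inf_le_right.trans h1) (mem_principal_self _)

theorem mem_uF (mono : ∀ i (d : D i) (η η' : ℝ), η ≤ η' → hyp i d η → hyp i d η')
    {S : Set (Σ i, D i)} (hS : S ∈ uF F hyp) :
    ∃ η > 0, ∀ᶠ i in F, ∀ d : D i, hyp i d η → (⟨i, d⟩ : Σ i, D i) ∈ S := by
  unfold uF at hS
  rw [mem_inf_iff] at hS
  obtain ⟨A, hA, B, hB, rfl⟩ := hS
  rw [mem_comap] at hA
  obtain ⟨A', hA', hA2⟩ := hA
  have hdir : DirectedOn ((fun η : ℝ => 𝓟 {p : Σ i, D i | hyp p.1 p.2 η}) ⁻¹'o (· ≥ ·))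
      (Set.Ioi (0 : ℝ)) := by
    intro a ha b hb
    refine ⟨min a b, Set.mem_Ioi.2 (lt_min (Set.mem_Ioi.1 ha) (Set.mem_Ioi.1 hb)), ?_, ?_⟩
    · simp only [Order.Preimage, ge_iff_le, principal_mono]
      intro p hp
      exact mono _ _ _ _ (min_le_left a b) hp
    · simp only [Order.Preimage, ge_iff_le, principal_mono]
      intro p hp
      exact mono _ _ _ _ (min_le_right a b) hp
  have h2 : (⨅ (η : ℝ) (_ : 0 < η), 𝓟 {p : Σ i, D i | hyp p.1 p.2 η})
      = ⨅ η ∈ Set.Ioi (0 : ℝ), 𝓟 {p : Σ i, D i | hyp p.1 p.2 η} := rfl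
  rw [h2, mem_biInf_of_directed hdir ⟨1, Set.mem_Ioi.2 one_pos⟩] at hB
  obtain ⟨η, hη, hB2⟩ := hB
  rw [mem_principal] at hB2
  refine ⟨η, hη, ?_⟩
  filter_upwards [hA'] with i hi d hd
  exact ⟨hA2 (by simpa using hi), hB2 hd⟩

/-- uniform form of a limit along `uF` -/
theorem unif_of_tendsto (mono : ∀ i (d : D i) (η η' : ℝ), η ≤ η' → hyp i d η → hyp i d η')
    {err : ∀ i, D i → ℝ} (h : Tendsto (fun p : Σ i, D i => err p.1 p.2) (uF F hyp) (𝓝 0))
    {e : ℝ} (he : 0 < e) :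
    ∃ η > 0, ∀ᶠ i in F, ∀ d : D i, hyp i d η → |err i d| ≤ e := by
  have h1 : {p : Σ i, D i | |err p.1 p.2| ≤ e} ∈ uF F hyp := by
    have h2 := (tendsto_order.1 (tendsto_zero_iff_abs_tendsto_zero _ |>.1 h)).2 e he
    filter_upwards [h2] with p hp
    exact (le_of_lt hp)
  obtain ⟨η, hη, h3⟩ := mem_uF mono h1
  exact ⟨η, hη, h3⟩

end Vale.Agent.P150.F
end
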