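import Mathlib
import Vale.Agent.P150.Bdl.B1
import Vale.Agent.P150.Bdl.B4
import Vale.Agent.P150.Bdl.B3

set_option linter.all false

section

open Finset

namespace Vale.Agent.P150.Semi

variable {n : ℕ} (J : Fin n → Fin n → ℝ) (b : Fin n → ℝ)

lemma resample_weight_nonneg (x : Cfg n) (i : Fin n) (s : Bool) :
    0 ≤ Real.exp (sp s * locField J b x i) / (2 * Real.cosh (locField J b x i)) := by
  have := Real.cosh_pos (locField J b x i)
  positivity

lemma resample_weight_sum (x : Cfg n) (i : Fin n) :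
    ∑ s : Bool, Real.exp (sp s * locField J b x i) / (2 * Real.cosh (locField J b x i)) = 1 := by
  have h := Real.cosh_pos (locField J b x i)
  rw [Fintype.sum_bool]
  simp only [sp, if_true, one_mul, Bool.false_eq_true, if_false, neg_one_mul]
  rw [Real.cosh_eq] at h ⊢
  rw [← add_div]
  rw [div_eq_one_iff_eq (by positivity)]
  ring

lemma resample_add (i : Fin n) (f g : Cfg n → ℝ) (x : Cfg n) :
    resample J b i (fun z => f z + g z) x = resample J b i f x + resample J b i g x := by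
  unfold resample
  rw [← Finset.sum_add_distrib]
  exact Finset.sum_congr rfl fun s _ => by ring

lemma resample_smul (i : Fin n) (c : ℝ) (f : Cfg n → ℝ) (x : Cfg n) :
    resample J b i (fun z => c * f z) x = c * resample J b i f x := by
  unfold resample
  rw [Finset.mul_sum]
  exact Finset.sum_congr rfl fun s _ => by ring

lemma resample_const (i : Fin n) (c : ℝ) (x : Cfg n) :
    resample J b i (fun _ => c) x = c := by
  unfold resample
  rw [← Finset.sum_mul, resample_weight_sum, one_mul]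

lemma gen_add (f g : Cfg n → ℝ) (x : Cfg n) :
    gen J b (fun z => f z + g z) x = gen J b f x + gen J b g x := by
  unfold gen
  rw [← Finset.sum_add_distrib]
  exact Finset.sum_congr rfl fun i _ => by rw [resample_add]; ring

lemma gen_smul (c : ℝ) (f : Cfg n → ℝ) (x : Cfg n) :
    gen J b (fun z => c * f z) x = c * gen J b f x := by
  unfold gen
  rw [Finset.mul_sum]
  exact Finset.sum_congr rfl fun i _ => by rw [resample_smul]; ring

lemma gen_const (c : ℝ) (x : Cfg n) : gen J b (fun _ => c) x = 0 := by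
  unfold gen
  exact Finset.sum_eq_zero fun i _ => by rw [resample_const]; ring

lemma genMat_mul (f : Cfg n → ℝ) (x : Cfg n) :
    ∑ y, genMat J b x y * f y = gen J b f x := by
  unfold genMat gen resample
  simp only [Finset.sum_mul]
  rw [Finset.sum_comm]
  apply Finset.sum_congr rfl
  intro i _
  simp only [sub_mul, Finset.sum_sub_distrib, Finset.sum_mul]
  congr 1
  · rw [Finset.sum_comm]
    apply Finset.sum_congr rfl
    intro s _
    rw [Finset.sum_eq_single (Function.update x i s)]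
    · simp
    · intro y _ hy
      rw [if_neg (Ne.symm hy)]; ring
    · simp
  · rw [Finset.sum_eq_single x]
    · simp
    · intro y _ hy
      rw [if_neg (Ne.symm hy)]; ring
    · simp

lemma genMat_shift_nonneg (x y : Cfg n) :
    0 ≤ (genMat J b + (n : ℝ) • (1 : Matrix (Cfg n) (Cfg n) ℝ)) x y := by
  rw [Matrix.add_apply, Matrix.smul_apply, Matrix.one_apply, smul_eq_mul]
  unfold genMat gen
  rw [Finset.sum_sub_distrib, Finset.sum_const, Finset.card_univ, Fintype.card_fin, nsmul_eq_mul]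
  have h : 0 ≤ ∑ i, resample J b i (fun z => if z = y then (1 : ℝ) else 0) x := by
    apply Finset.sum_nonneg
    intro i _
    unfold resample
    apply Finset.sum_nonneg
    intro s _
    refine mul_nonneg (resample_weight_nonneg J b x i s) ?_
    dsimp only
    split_ifs <;> norm_num
  linarith

lemma kernel_nonneg {t : ℝ} (ht : 0 ≤ t) (x y : Cfg n) : 0 ≤ kernel J b t x y :=
  sg_nonneg (genMat J b) n (genMat_shift_nonneg J b) t ht x y

lemma kernel_zero (x y : Cfg n) : kernel J b 0 x y = if x = y then 1 else 0 := by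
  unfold kernel
  rw [sg_zero, Matrix.one_apply]

lemma kernel_eigen (f : Cfg n → ℝ) (c : ℝ) (hf : ∀ x, gen J b f x = c * f x) (t : ℝ) (x : Cfg n) :
    ∑ y, kernel J b t x y * f y = Real.exp (c * t) * f x :=
  sg_eigen (genMat J b) f c (fun x => by rw [genMat_mul, hf x]) t x

lemma kernel_row (t : ℝ) (x : Cfg n) : ∑ y, kernel J b t x y = 1 := by
  have h := kernel_eigen J b (fun _ => 1) 0 (fun x => by rw [gen_const]; ring) t x
  simpa using h

variable {J}

lemma dir_symm (hJ : ∀ i j, J i j = J j i) (f g : Cfg n → ℝ) : dir J b f g = dir J b g f := by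
  rw [dir_eq hJ, dir_eq hJ]
  congr 1
  apply Finset.sum_congr rfl; intro i _
  apply Finset.sum_congr rfl; intro x _
  ring

lemma dir_self_nonneg (hJ : ∀ i j, J i j = J j i) (f : Cfg n → ℝ) : 0 ≤ dir J b f f := by
  rw [dir_eq hJ]
  apply mul_nonneg (by norm_num)
  apply Finset.sum_nonneg; intro i _
  apply Finset.sum_nonneg; intro x _
  have h1 := gibbs_pos J b x
  have h2 := gibbs_pos J b (flip x i)
  exact mul_nonneg (by positivity) (mul_self_nonneg _)

lemma ex_gen (hJ : ∀ i j, J i j = J j i) (f : Cfg n → ℝ) : ex J b (gen J b f) = 0 := by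
  have h := dir_eq hJ b (fun _ => 1) f
  unfold dir at h
  have h2 : ex J b (fun x => 1 * gen J b f x) = ex J b (gen J b f) := by
    simp only [one_mul]
  rw [h2] at h
  have h3 : (1 / 2 : ℝ) * ∑ i, ∑ x, gibbs J b x * gibbs J b (flip x i)
      / (gibbs J b x + gibbs J b (flip x i)) * (((1 : ℝ) - 1) * (f (flip x i) - f x)) = 0 := by
    simp
  linarith

lemma detailed_balance (hJ : ∀ i j, J i j = J j i) (x y : Cfg n) :
    gibbs J b x * genMat J b x y = gibbs J b y * genMat J b y x := by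
  have h := dir_symm b hJ (fun z => if z = x then (1 : ℝ) else 0) (fun z => if z = y then 1 else 0)
  unfold dir ex at h
  rw [Finset.sum_eq_single x, Finset.sum_eq_single y] at h
  · simp only [if_true, one_mul] at h
    have := neg_injective h
    exact this
  · intro z _ hz; simp [hz]
  · simp
  · intro z _ hz; simp [hz]
  · simp

/-- density of the law at time `t` started from `x`, relative to the Gibbs measure -/
noncomputable def dens {n : ℕ} (J : Fin n → Fin n → ℝ) (b : Fin n → ℝ) (x : Cfg n) (t : ℝ)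
    (y : Cfg n) : ℝ := kernel J b t x y / gibbs J b y

lemma dens_nonneg (x : Cfg n) {t : ℝ} (ht : 0 ≤ t) (y : Cfg n) : 0 ≤ dens J b x t y :=
  div_nonneg (kernel_nonneg J b ht x y) (gibbs_pos J b y).le

lemma ex_dens (x : Cfg n) (t : ℝ) : ex J b (dens J b x t) = 1 := by
  unfold ex dens
  rw [← kernel_row J b t x]
  apply Finset.sum_congr rfl
  intro y _
  have := (gibbs_pos J b y).ne'
  field_simp

lemma dens_deriv (hJ : ∀ i j, J i j = J j i) (x : Cfg n) (t : ℝ) (y : Cfg n) :
    HasDerivAt (fun s => dens J b x s y) (gen J b (dens J b x t) y) t := by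
  have h := (sg_deriv (genMat J b) t x y).div_const (gibbs J b y)
  have hy := (gibbs_pos J b y).ne'
  have e : (NormedSpace.exp (t • genMat J b) * genMat J b) x y / gibbs J b y
      = gen J b (dens J b x t) y := by
    rw [← genMat_mul, Matrix.mul_apply, div_eq_iff hy, Finset.sum_mul]
    apply Finset.sum_congr rfl
    intro z _
    have hz := (gibbs_pos J b z).ne'
    have hb := detailed_balance b hJ z y
    have hk : NormedSpace.exp (t • genMat J b) x z = kernel J b t x z := rfl
    rw [hk]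
    unfold dens
    have : kernel J b t x z * genMat J b z y
        = kernel J b t x z / gibbs J b z * (gibbs J b z * genMat J b z y) := by
      field_simp
    rw [this, hb]
    ring
  rw [e] at h
  exact h

end Vale.Agent.P150.Semi
end

section

open Finset Filter Topology Set

namespace Vale.Agent.P150.Low

/-- maximum principle on a finite set -/
theorem max_principle {X : Type*} [Fintype X] [Nonempty X] (N N' : ℝ → X → ℝ) (B B' : ℝ → ℝ)
    (hN : ∀ t x, HasDerivAt (fun s => N s x) (N' t x) t)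
    (hB : ∀ t, HasDerivAt B (B' t) t)
    (h0 : ∀ x, N 0 x ≤ B 0)
    (hmax : ∀ t, 0 < t → ∀ x, (∀ y, N t y ≤ N t x) → N' t x ≤ B' t)
    (t : ℝ) (ht : 0 ≤ t) (x : X) : N t x ≤ B t := by
  by_contra hcon
  push Not at hcon
  have hpos : 0 < N t x - B t := by linarith
  obtain ⟨η, hη, hη2⟩ : ∃ η : ℝ, 0 < η ∧ η * t < N t x - B t := by
    refine ⟨(N t x - B t) / (2 * (t + 1)), by positivity, ?_⟩
    rw [div_mul_eq_mul_div, div_lt_iff₀ (by positivity)]
    linarith only [hpos, mul_nonneg (sub_nonneg.2 ht) (le_of_lt (sub_pos.2 hpos))]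
  set G : ℝ → X → ℝ := fun s y => N s y - B s - η * s with hG
  have hGc : ∀ y, Continuous (fun s => G s y) := by
    intro y
    have h1 : Continuous (fun s => N s y) :=
      continuous_iff_continuousAt.2 fun s => (hN s y).continuousAt
    have h2 : Continuous B := continuous_iff_continuousAt.2 fun s => (hB s).continuousAt
    exact (h1.sub h2).sub (continuous_const.mul continuous_id)
  have hex : ∀ y, ∃ s ∈ Icc 0 t, ∀ r ∈ Icc 0 t, G r y ≤ G s y := by
    intro y
    obtain ⟨s, hs, hm⟩ := isCompact_Icc.exists_isMaxOn (nonempty_Icc.2 ht) (hGc y).continuousOn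
    exact ⟨s, hs, fun r hr => hm hr⟩
  choose S hS hSm using hex
  obtain ⟨y, hy⟩ := Finite.exists_max (fun y => G (S y) y)
  have hglob : ∀ r ∈ Icc 0 t, ∀ z, G r z ≤ G (S y) y := fun r hr z => (hSm z r hr).trans (hy z)
  have hval : 0 < G (S y) y := by
    have h1 := hglob t ⟨ht, le_rfl⟩ x
    have h2 : 0 < G t x := by simp only [hG]; linarith
    linarith
  have hspos : 0 < S y := by
    rcases (hS y).1.lt_or_eq with h | h
    · exact h
    · exfalso
      rw [← h] at hval
      simp only [hG] at hval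
      have := h0 y
      linarith
  have hmaxy : ∀ z, N (S y) z ≤ N (S y) y := by
    intro z
    have := hglob (S y) (hS y) z
    simp only [hG] at this
    linarith
  have h1 := hmax (S y) hspos y hmaxy
  have hd : HasDerivAt (fun s => -(G s y)) (-(N' (S y) y - B' (S y) - η * 1)) (S y) :=
    (((hN (S y) y).sub (hB (S y))).sub ((hasDerivAt_id (S y)).const_mul η)).neg
  have h2 := Chan.deriv_nonpos_of_left_min hd hspos (by
    intro s hs
    have := hSm y s ⟨hs.1, hs.2.trans (hS y).2⟩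
    linarith)
  linarith

lemma phi_bound1 (w y : ℝ) (hw : 0 < w) (hy : |y| ≤ 1) :
    |Real.exp y * w / (1 + Real.exp y * w) - w / (1 + w)| ≤ 2 * |y| * (w / (1 + w)) := by
  have hE := Real.exp_pos y
  have h1 := Real.abs_exp_sub_one_le hy
  have e : Real.exp y * w / (1 + Real.exp y * w) - w / (1 + w)
      = (Real.exp y - 1) * (1 / (1 + Real.exp y * w)) * (w / (1 + w)) := by
    field_simp
    ring
  rw [e, abs_mul, abs_of_pos (by positivity : 0 < w / (1 + w)), abs_mul,
    abs_of_pos (by positivity : 0 < 1 / (1 + Real.exp y * w))]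
  have h2 : 1 / (1 + Real.exp y * w) ≤ 1 := by
    rw [div_le_one (by positivity)]
    have : 0 < Real.exp y * w := by positivity
    linarith only [this]
  have h3 : |Real.exp y - 1| * (1 / (1 + Real.exp y * w)) ≤ 2 * |y| := by
    calc |Real.exp y - 1| * (1 / (1 + Real.exp y * w)) ≤ |Real.exp y - 1| * 1 :=
          mul_le_mul_of_nonneg_left h2 (abs_nonneg _)
      _ ≤ 2 * |y| := by rw [mul_one]; exact h1
  exact mul_le_mul_of_nonneg_right h3 (by positivity)

lemma phi_bound2 (w y : ℝ) (hw : 0 < w) (hy : |y| ≤ 1) :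
    |Real.exp y * w / (1 + Real.exp y * w) - w / (1 + w) - y * (w / (1 + w) * (1 - w / (1 + w)))|
      ≤ 3 * y ^ 2 := by
  have hE := Real.exp_pos y
  have h1 := Real.abs_exp_sub_one_le hy
  have h1' := Real.abs_exp_sub_one_sub_id_le hy
  have e : Real.exp y * w / (1 + Real.exp y * w) - w / (1 + w)
        - y * (w / (1 + w) * (1 - w / (1 + w)))
      = (w / (1 + w)) * ((Real.exp y - 1 - y) * (1 / (1 + Real.exp y * w))
        - y * (Real.exp y - 1) * ((w / (1 + w)) * (1 / (1 + Real.exp y * w)))) := by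
    field_simp
    ring
  have h2 : 1 / (1 + Real.exp y * w) ≤ 1 := by
    rw [div_le_one (by positivity)]
    have : 0 < Real.exp y * w := by positivity
    linarith only [this]
  have h2' : 0 < 1 / (1 + Real.exp y * w) := by positivity
  have h3 : w / (1 + w) ≤ 1 := by
    rw [div_le_one (by positivity)]; linarith only []
  have h3' : 0 < w / (1 + w) := by positivity
  rw [e, abs_mul, abs_of_pos h3']
  have h4 : |(Real.exp y - 1 - y) * (1 / (1 + Real.exp y * w))
        - y * (Real.exp y - 1) * ((w / (1 + w)) * (1 / (1 + Real.exp y * w)))| ≤ 3 * y ^ 2 := by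
    refine (abs_sub _ _).trans ?_
    rw [abs_mul, abs_of_pos h2', abs_mul, abs_mul, abs_of_pos (mul_pos h3' h2')]
    have h5 : |Real.exp y - 1 - y| * (1 / (1 + Real.exp y * w)) ≤ y ^ 2 := by
      calc |Real.exp y - 1 - y| * (1 / (1 + Real.exp y * w)) ≤ |Real.exp y - 1 - y| * 1 :=
            mul_le_mul_of_nonneg_left h2 (abs_nonneg _)
        _ ≤ y ^ 2 := by rw [mul_one]; exact h1'
    have h6 : |y| * |Real.exp y - 1| * ((w / (1 + w)) * (1 / (1 + Real.exp y * w)))
        ≤ 2 * y ^ 2 := by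
      have h7 : (w / (1 + w)) * (1 / (1 + Real.exp y * w)) ≤ 1 :=
        mul_le_one₀ h3 h2'.le h2
      calc |y| * |Real.exp y - 1| * ((w / (1 + w)) * (1 / (1 + Real.exp y * w)))
          ≤ |y| * |Real.exp y - 1| * 1 := mul_le_mul_of_nonneg_left h7 (by (clear * -; positivity))
        _ ≤ |y| * (2 * |y|) * 1 := by
            apply mul_le_mul_of_nonneg_right _ (by norm_num)
            exact mul_le_mul_of_nonneg_left h1 (abs_nonneg _)
        _ = 2 * y ^ 2 := by rw [← sq_abs y]; ring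
    linarith only [h5, h6]
  calc w / (1 + w) * _ ≤ 1 * (3 * y ^ 2) :=
        mul_le_mul h3 h4 (abs_nonneg _) (by norm_num)
    _ = 3 * y ^ 2 := one_mul _

variable {n : ℕ} {J : Fin n → Fin n → ℝ} (b : Fin n → ℝ)

lemma rate_exp (hJ : ∀ i j, J i j = J j i) (x : Cfg n) (i : Fin n) :
    rate J b x i = Real.exp (-(2 * sp (x i) * locField J b x i))
      / (1 + Real.exp (-(2 * sp (x i) * locField J b x i))) := by
  unfold rate
  rw [gibbs_flip hJ]
  have hg := gibbs_pos J b x
  have : gibbs J b x + gibbs J b x * Real.exp (-(2 * sp (x i) * locField J b x i))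
      = gibbs J b x * (1 + Real.exp (-(2 * sp (x i) * locField J b x i))) := by ring
  rw [this, mul_div_mul_left _ _ hg.ne']

lemma locField_flip_ne (x : Cfg n) {i j : Fin n} (h : j ≠ i) :
    locField J b (flip x i) j = locField J b x j - 2 * Jo J j i * sp (x i) := by
  rw [locField_eq, locField_eq]
  have h1 : ∑ k, Jo J j k * sp (flip x i k)
      = ∑ k, (Jo J j k * sp (x k) - (if k = i then 2 * Jo J j i * sp (x i) else 0)) := by
    apply Finset.sum_congr rfl
    intro k _
    by_cases hk : k = i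
    · subst hk; rw [sp_flip_self, if_pos rfl]; ring
    · rw [sp_flip_ne x hk, if_neg hk]; ring
  rw [h1, Finset.sum_sub_distrib, Finset.sum_ite_eq' Finset.univ i]
  simp only [Finset.mem_univ, if_true]
  ring

lemma rate_pos (x : Cfg n) (i : Fin n) : 0 < rate J b x i := by
  have h1 := gibbs_pos J b x
  have h2 := gibbs_pos J b (flip x i)
  unfold rate
  positivity

lemma rate_add (x : Cfg n) (i : Fin n) : rate J b x i + rate J b (flip x i) i = 1 := by
  have h1 := gibbs_pos J b x
  have h2 := gibbs_pos J b (flip x i)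
  unfold rate
  rw [flip_flip]
  field_simp
  ring

lemma rate_le_one (x : Cfg n) (i : Fin n) : rate J b x i ≤ 1 := by
  have h1 := rate_add (J := J) b x i
  have h2 := rate_pos (J := J) b (flip x i) i
  linarith

/-- first order bound of the change of the rates -/
lemma rate_diff1 (hJ : ∀ i j, J i j = J j i) (x : Cfg n) {i j : Fin n} (h : j ≠ i)
    (hs : |Jo J i j| ≤ 1 / 4) :
    |rate J b (flip x i) j - rate J b x j| ≤ 8 * |Jo J i j| * rate J b x j := by
  rw [rate_exp b hJ, rate_exp b hJ, locField_flip_ne b x h, sp_flip_ne x h, Jo_symm hJ j i]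
  have e : -(2 * sp (x j) * (locField J b x j - 2 * Jo J i j * sp (x i)))
      = 4 * (Jo J i j * sp (x i) * sp (x j)) + -(2 * sp (x j) * locField J b x j) := by ring
  rw [e, Real.exp_add]
  have habs : |4 * (Jo J i j * sp (x i) * sp (x j))| = 4 * |Jo J i j| := by
    have h1 : |sp (x i)| = 1 := by cases x i <;> simp [sp]
    have h2 : |sp (x j)| = 1 := by cases x j <;> simp [sp]
    rw [abs_mul, abs_mul, abs_mul, h1, h2]; norm_num
  have h3 := phi_bound1 (Real.exp (-(2 * sp (x j) * locField J b x j)))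
    (4 * (Jo J i j * sp (x i) * sp (x j))) (Real.exp_pos _) (by rw [habs]; linarith only [hs])
  rw [habs] at h3
  refine h3.trans (le_of_eq ?_)
  ring

/-- second order bound of the change of the rates -/
lemma rate_diff2 (hJ : ∀ i j, J i j = J j i) (x : Cfg n) {i j : Fin n} (h : j ≠ i)
    (hs : |Jo J i j| ≤ 1 / 4) :
    |rate J b (flip x i) j - rate J b x j
      - 4 * Jo J i j * sp (x i) * sp (x j) * (rate J b x j * (1 - rate J b x j))|
      ≤ 48 * Jo J i j ^ 2 := by
  rw [rate_exp b hJ, rate_exp b hJ, locField_flip_ne b x h, sp_flip_ne x h, Jo_symm hJ j i]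
  have e : -(2 * sp (x j) * (locField J b x j - 2 * Jo J i j * sp (x i)))
      = 4 * (Jo J i j * sp (x i) * sp (x j)) + -(2 * sp (x j) * locField J b x j) := by ring
  rw [e, Real.exp_add]
  have h1 : |sp (x i)| = 1 := by cases x i <;> simp [sp]
  have h2 : |sp (x j)| = 1 := by cases x j <;> simp [sp]
  have habs : |4 * (Jo J i j * sp (x i) * sp (x j))| = 4 * |Jo J i j| := by
    rw [abs_mul, abs_mul, abs_mul, h1, h2]; norm_num
  have h3 := phi_bound2 (Real.exp (-(2 * sp (x j) * locField J b x j)))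
    (4 * (Jo J i j * sp (x i) * sp (x j))) (Real.exp_pos _) (by rw [habs]; linarith only [hs])
  have h4 : (4 * (Jo J i j * sp (x i) * sp (x j))) ^ 2 = 16 * Jo J i j ^ 2 := by
    have h5 : sp (x i) ^ 2 = 1 := by rw [← sq_abs, h1]; norm_num
    have h6 : sp (x j) ^ 2 = 1 := by rw [← sq_abs, h2]; norm_num
    calc (4 * (Jo J i j * sp (x i) * sp (x j))) ^ 2
        = 16 * Jo J i j ^ 2 * sp (x i) ^ 2 * sp (x j) ^ 2 := by ring
      _ = 16 * Jo J i j ^ 2 := by rw [h5, h6]; ring
  rw [h4] at h3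
  have e2 : 4 * Jo J i j * sp (x i) * sp (x j) = 4 * (Jo J i j * sp (x i) * sp (x j)) := by ring
  rw [e2]
  refine h3.trans (le_of_eq ?_)
  ring

end Vale.Agent.P150.Low
end

section

open Finset

namespace Vale.Agent.P150.Low

variable {n : ℕ} {J : Fin n → Fin n → ℝ} (b : Fin n → ℝ)

lemma flip_comm (x : Cfg n) (i j : Fin n) : flip (flip x i) j = flip (flip x j) i := by
  by_cases h : i = j
  · subst h; rfl
  · ext k
    unfold flip
    by_cases hk : k = i
    · subst hk
      simp [Function.update_of_ne h]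
    · by_cases hk2 : k = j
      · subst hk2
        simp [Function.update_of_ne hk]
      · simp [Function.update_of_ne hk, Function.update_of_ne hk2]

lemma gen_eq (hJ : ∀ i j, J i j = J j i) (g : Cfg n → ℝ) (x : Cfg n) :
    gen J b g x = ∑ i, rate J b x i * (g (flip x i) - g x) := by
  unfold gen
  exact Finset.sum_congr rfl fun i _ => resample_sub hJ b i g x

/-- squared gradient (up to a factor) -/
noncomputable def sqg (g : Cfg n → ℝ) (x : Cfg n) : ℝ := (1 / 4) * ∑ i, (g (flip x i) - g x) ^ 2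

/-- second differences -/
noncomputable def bd (g : Cfg n → ℝ) (x : Cfg n) (i j : Fin n) : ℝ :=
  if j = i then 0 else g (flip (flip x i) j) - g (flip x i) - g (flip x j) + g x

/-- differences of the rates -/
noncomputable def rd (J : Fin n → Fin n → ℝ) (b : Fin n → ℝ) (x : Cfg n) (i j : Fin n) : ℝ :=
  if j = i then 0 else rate J b (flip x i) j - rate J b x j

lemma gen_diff (hJ : ∀ i j, J i j = J j i) (g : Cfg n → ℝ) (x : Cfg n) (i : Fin n) :
    gen J b g (flip x i) - gen J b g x = -(g (flip x i) - g x)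
      + ∑ j, (rate J b x j * bd g x i j + rd J b x i j * (g (flip x j) - g x)
        + rd J b x i j * bd g x i j) := by
  rw [gen_eq b hJ, gen_eq b hJ, ← Finset.sum_sub_distrib]
  have h1 : ∀ j, rate J b (flip x i) j * (g (flip (flip x i) j) - g (flip x i))
        - rate J b x j * (g (flip x j) - g x)
      = (if j = i then -(g (flip x i) - g x) else 0)
        + (rate J b x j * bd g x i j + rd J b x i j * (g (flip x j) - g x)
        + rd J b x i j * bd g x i j) := by
    intro j
    unfold bd rd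
    by_cases h : j = i
    · subst h
      simp only [if_true]
      rw [flip_flip]
      have := rate_add (J := J) b x j
      have h2 : rate J b (flip x j) j = 1 - rate J b x j := by linarith
      rw [h2]; ring
    · simp only [if_neg h]
      ring
  rw [Finset.sum_congr rfl (fun j _ => h1 j), Finset.sum_add_distrib, Finset.sum_ite_eq']
  simp

lemma sqg_flip (g : Cfg n → ℝ) (x : Cfg n) (j : Fin n) :
    sqg g (flip x j) - sqg g x
      = (1 / 4) * ∑ i, (2 * (g (flip x i) - g x) * bd g x i j + bd g x i j ^ 2) := by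
  unfold sqg
  rw [← mul_sub, ← Finset.sum_sub_distrib]
  congr 1
  apply Finset.sum_congr rfl
  intro i _
  unfold bd
  by_cases h : j = i
  · subst h
    simp only [if_true]
    rw [flip_flip]; ring
  · simp only [if_neg h]
    rw [flip_comm x i j]
    ring

lemma bilin_le {A : Fin n → Fin n → ℝ} (hA : ∀ i j, A i j = A j i) {lam : ℝ}
    (h : ∀ v : Fin n → ℝ, |∑ i, ∑ j, A i j * v i * v j| ≤ lam * ∑ i, v i ^ 2)
    (p q : Fin n → ℝ) :
    ∑ i, ∑ j, A i j * p i * q j ≤ lam / 2 * (∑ i, p i ^ 2 + ∑ i, q i ^ 2) := by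
  have e1 : ∑ i, ∑ j, A i j * q i * p j = ∑ i, ∑ j, A i j * p i * q j := by
    rw [Finset.sum_comm]
    apply Finset.sum_congr rfl; intro i _
    apply Finset.sum_congr rfl; intro j _
    rw [hA]; ring
  have e2 : ∑ i, ∑ j, A i j * (p i + q i) * (p j + q j)
      = ∑ i, ∑ j, A i j * p i * p j + ∑ i, ∑ j, A i j * q i * q j
        + 2 * ∑ i, ∑ j, A i j * p i * q j := by
    have : ∀ i j, A i j * (p i + q i) * (p j + q j)
        = A i j * p i * p j + A i j * q i * q j + (A i j * p i * q j + A i j * q i * p j) := by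
      intro i j; ring
    simp only [this, Finset.sum_add_distrib]
    rw [e1]; ring
  have e3 : ∑ i, ∑ j, A i j * (p i - q i) * (p j - q j)
      = ∑ i, ∑ j, A i j * p i * p j + ∑ i, ∑ j, A i j * q i * q j
        - 2 * ∑ i, ∑ j, A i j * p i * q j := by
    have : ∀ i j, A i j * (p i - q i) * (p j - q j)
        = A i j * p i * p j + A i j * q i * q j - (A i j * p i * q j + A i j * q i * p j) := by
      intro i j; ring
    simp only [this, Finset.sum_add_distrib, Finset.sum_sub_distrib]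
    rw [e1]; ring
  have h1 := (abs_le.1 (h (fun i => p i + q i))).2
  have h2 := (abs_le.1 (h (fun i => p i - q i))).1
  have e4 : ∑ i, (p i + q i) ^ 2 + ∑ i, (p i - q i) ^ 2 = 2 * (∑ i, p i ^ 2 + ∑ i, q i ^ 2) := by
    rw [← Finset.sum_add_distrib, ← Finset.sum_add_distrib, Finset.mul_sum]
    apply Finset.sum_congr rfl; intro i _; ring
  rw [e2] at h1
  rw [e3] at h2
  have h3 : lam * ∑ i, (p i + q i) ^ 2 + lam * ∑ i, (p i - q i) ^ 2
      = lam * (2 * (∑ i, p i ^ 2 + ∑ i, q i ^ 2)) := by rw [← mul_add, e4]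
  linarith only [h1, h2, h3]

/-- growth of the gradient at a maximum point -/
theorem grad_growth (hJ : ∀ i j, J i j = J j i) {lam r : ℝ}
    (hlam : ∀ v : Fin n → ℝ, |∑ i, ∑ j, Jo J i j * v i * v j| ≤ lam * ∑ i, v i ^ 2)
    (hr : ∀ i, ∑ j, Jo J i j ^ 2 ≤ r) (hs : ∀ i j, |Jo J i j| ≤ 1 / 4)
    (g : Cfg n → ℝ) (x : Cfg n) (hx : ∀ y, sqg g y ≤ sqg g x) :
    (1 / 2) * ∑ i, (g (flip x i) - g x) * (gen J b g (flip x i) - gen J b g x)
      ≤ 2 * (lam + 80 * r) * sqg g x := by
  set a : Fin n → ℝ := fun i => g (flip x i) - g x with ha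
  set B : Fin n → Fin n → ℝ := fun i j => bd g x i j with hB
  set D : Fin n → Fin n → ℝ := fun i j => rd J b x i j with hD
  set ρ : Fin n → ℝ := fun i => rate J b x i with hρ
  have hρ0 : ∀ i, 0 < ρ i := fun i => rate_pos b x i
  have hρ1 : ∀ i, ρ i ≤ 1 := fun i => rate_le_one b x i
  -- the maximum condition
  have hM : ∀ j, ∑ i, a i * B i j ≤ -(1 / 2) * ∑ i, B i j ^ 2 := by
    intro j
    have h1 := hx (flip x j)
    have h2 := sqg_flip g x j
    have h3 : ∑ i, (2 * (g (flip x i) - g x) * bd g x i j + bd g x i j ^ 2)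
        = 2 * ∑ i, a i * B i j + ∑ i, B i j ^ 2 := by
      rw [Finset.sum_add_distrib, Finset.mul_sum]
      congr 1
      apply Finset.sum_congr rfl; intro i _; simp only [ha, hB]; ring
    rw [h3] at h2
    linarith only [h2, h1]
  -- bounds on D
  have hD1 : ∀ i j, |D i j| ≤ 8 * |Jo J i j| * ρ j := by
    intro i j
    simp only [hD, rd]
    by_cases h : j = i
    · rw [if_pos h, abs_zero]
      have := hρ0 j
      (clear * - this; positivity)
    · rw [if_neg h]
      exact rate_diff1 b hJ x h (hs i j)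
  have hD2 : ∀ i j, |D i j - 4 * Jo J i j * sp (x i) * sp (x j) * (ρ j * (1 - ρ j))|
      ≤ 48 * Jo J i j ^ 2 := by
    intro i j
    simp only [hD, rd]
    by_cases h : j = i
    · have : Jo J i j = 0 := by unfold Jo; rw [if_pos h]
      rw [if_pos h, this]; simp
    · rw [if_neg h]
      exact rate_diff2 b hJ x h (hs i j)
  -- the decomposition
  have e1 : ∑ i, a i * (gen J b g (flip x i) - gen J b g x)
      = -∑ i, a i ^ 2 + ∑ j, ρ j * ∑ i, a i * B i j + ∑ i, ∑ j, a i * D i j * a j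
        + ∑ i, ∑ j, a i * D i j * B i j := by
    have h1 : ∀ i, a i * (gen J b g (flip x i) - gen J b g x)
        = -a i ^ 2 + ∑ j, a i * (ρ j * B i j) + ∑ j, a i * D i j * a j
          + ∑ j, a i * D i j * B i j := by
      intro i
      rw [gen_diff b hJ, mul_add, Finset.mul_sum]
      simp only [mul_add, Finset.sum_add_distrib, ha, hB, hD, hρ, ← mul_assoc]
      ring
    rw [Finset.sum_congr rfl (fun i _ => h1 i)]
    simp only [Finset.sum_add_distrib, Finset.sum_neg_distrib]
    congr 3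
    rw [Finset.sum_comm]
    apply Finset.sum_congr rfl; intro j _
    rw [Finset.mul_sum]
    apply Finset.sum_congr rfl; intro i _
    ring
  -- second term
  have e2 : ∑ j, ρ j * ∑ i, a i * B i j ≤ -(1 / 2) * ∑ i, ∑ j, ρ j * B i j ^ 2 := by
    have h1 : -(1 / 2) * ∑ i, ∑ j, ρ j * B i j ^ 2 = ∑ j, ρ j * (-(1 / 2) * ∑ i, B i j ^ 2) := by
      rw [Finset.sum_comm, Finset.mul_sum]
      apply Finset.sum_congr rfl; intro j _
      rw [Finset.mul_sum, Finset.mul_sum, Finset.mul_sum]
      apply Finset.sum_congr rfl; intro i _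
      ring
    rw [h1]
    exact Finset.sum_le_sum fun j _ => mul_le_mul_of_nonneg_left (hM j) (hρ0 j).le
  -- fourth term
  have e4 : ∑ i, ∑ j, a i * D i j * B i j
      ≤ (1 / 2) * ∑ i, ∑ j, ρ j * B i j ^ 2 + 32 * r * ∑ i, a i ^ 2 := by
    have h1 : ∀ i j, a i * D i j * B i j ≤ (1 / 2) * (ρ j * B i j ^ 2)
        + 32 * a i ^ 2 * Jo J i j ^ 2 := by
      intro i j
      have h2 := hD1 i j
      have h3 : |a i * D i j * B i j| ≤ |a i| * (8 * |Jo J i j| * ρ j) * |B i j| := by
        rw [abs_mul, abs_mul]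
        exact mul_le_mul_of_nonneg_right (mul_le_mul_of_nonneg_left h2 (abs_nonneg _))
          (abs_nonneg _)
      have h4 : |a i| * (8 * |Jo J i j| * ρ j) * |B i j|
          ≤ (1 / 2) * (ρ j * B i j ^ 2) + 32 * a i ^ 2 * Jo J i j ^ 2 * ρ j := by
        rw [← sq_abs (B i j), ← sq_abs (a i), ← sq_abs (Jo J i j)]
        linarith only [mul_nonneg (hρ0 j).le (sq_nonneg (|B i j| - 8 * |a i| * |Jo J i j|))]
      have h5 : 32 * a i ^ 2 * Jo J i j ^ 2 * ρ j ≤ 32 * a i ^ 2 * Jo J i j ^ 2 * 1 :=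
        mul_le_mul_of_nonneg_left (hρ1 j) (by (clear * -; positivity))
      have h6 := le_abs_self (a i * D i j * B i j)
      linarith only [h6, h5, h4, h3]
    calc ∑ i, ∑ j, a i * D i j * B i j
        ≤ ∑ i, ∑ j, ((1 / 2) * (ρ j * B i j ^ 2) + 32 * a i ^ 2 * Jo J i j ^ 2) :=
          Finset.sum_le_sum fun i _ => Finset.sum_le_sum fun j _ => h1 i j
      _ = (1 / 2) * ∑ i, ∑ j, ρ j * B i j ^ 2 + ∑ i, 32 * a i ^ 2 * ∑ j, Jo J i j ^ 2 := by
          simp only [Finset.sum_add_distrib, ← Finset.mul_sum]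
      _ ≤ (1 / 2) * ∑ i, ∑ j, ρ j * B i j ^ 2 + ∑ i, 32 * a i ^ 2 * r := by
          gcongr with i _
          exact hr i
      _ = _ := by rw [← Finset.sum_mul, ← Finset.mul_sum]; ring
  -- third term
  have e3 : ∑ i, ∑ j, a i * D i j * a j ≤ lam * ∑ i, a i ^ 2 + 48 * r * ∑ i, a i ^ 2 := by
    have h1 : ∀ i j, a i * D i j * a j
        ≤ Jo J i j * (a i * sp (x i)) * (4 * (sp (x j) * (ρ j * (1 - ρ j)) * a j))
          + 24 * (a i ^ 2 * Jo J i j ^ 2) + 24 * (a j ^ 2 * Jo J i j ^ 2) := by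
      intro i j
      have h2 := hD2 i j
      have h3 : a i * D i j * a j
          = Jo J i j * (a i * sp (x i)) * (4 * (sp (x j) * (ρ j * (1 - ρ j)) * a j))
          + (a i * a j) * (D i j - 4 * Jo J i j * sp (x i) * sp (x j) * (ρ j * (1 - ρ j))) := by
        ring
      have h4 : (a i * a j) * (D i j - 4 * Jo J i j * sp (x i) * sp (x j) * (ρ j * (1 - ρ j)))
          ≤ |a i * a j| * (48 * Jo J i j ^ 2) := by
        refine (le_abs_self _).trans ?_
        rw [abs_mul]
        exact mul_le_mul_of_nonneg_left h2 (abs_nonneg _)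
      have h5 : |a i * a j| ≤ (1 / 2) * (a i ^ 2 + a j ^ 2) := by
        rw [abs_mul, ← sq_abs (a i), ← sq_abs (a j)]
        linarith only [sq_nonneg (|a i| - |a j|)]
      have h6 : |a i * a j| * (48 * Jo J i j ^ 2)
          ≤ (1 / 2) * (a i ^ 2 + a j ^ 2) * (48 * Jo J i j ^ 2) :=
        mul_le_mul_of_nonneg_right h5 (by (clear * -; positivity))
      linarith only [h6, h4]
    have h2 := bilin_le (A := Jo J) (Jo_symm hJ) hlam (fun i => a i * sp (x i))
      (fun j => 4 * (sp (x j) * (ρ j * (1 - ρ j)) * a j))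
    have h3 : ∑ i, (a i * sp (x i)) ^ 2 = ∑ i, a i ^ 2 := by
      apply Finset.sum_congr rfl; intro i _
      have := sp_sq (x i)
      calc (a i * sp (x i)) ^ 2 = a i ^ 2 * (sp (x i) * sp (x i)) := by ring
        _ = a i ^ 2 := by rw [this, mul_one]
    have h4 : ∑ i, (4 * (sp (x i) * (ρ i * (1 - ρ i)) * a i)) ^ 2 ≤ ∑ i, a i ^ 2 := by
      apply Finset.sum_le_sum; intro i _
      have h5 := sp_sq (x i)
      have h6 : ρ i * (1 - ρ i) ≤ 1 / 4 := by linarith only [sq_nonneg (ρ i - 1 / 2)]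
      have h7 : 0 ≤ ρ i * (1 - ρ i) := mul_nonneg (hρ0 i).le (by linarith only [hρ1 i])
      calc (4 * (sp (x i) * (ρ i * (1 - ρ i)) * a i)) ^ 2
          = (4 * (ρ i * (1 - ρ i))) ^ 2 * (sp (x i) * sp (x i)) * a i ^ 2 := by ring
        _ = (4 * (ρ i * (1 - ρ i))) ^ 2 * a i ^ 2 := by rw [h5, mul_one]
        _ ≤ 1 * a i ^ 2 := by
            apply mul_le_mul_of_nonneg_right _ (sq_nonneg _)
            apply pow_le_one₀ (by (clear * - h7; positivity))
            linarith only [h6]
        _ = a i ^ 2 := one_mul _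
    have hlam0 : 0 ≤ lam ∨ ∑ i, a i ^ 2 = 0 := by
      by_cases h : ∑ i, a i ^ 2 = 0
      · right; exact h
      · left
        have h5 : 0 < ∑ i, a i ^ 2 :=
          lt_of_le_of_ne (Finset.sum_nonneg fun i _ => sq_nonneg _) (Ne.symm h)
        have h6 := (abs_nonneg _).trans (hlam a)
        by_contra hc
        push Not at hc
        have := mul_neg_of_neg_of_pos hc h5
        linarith only [this, h6]
    have h5 : ∑ i, ∑ j, Jo J i j * (a i * sp (x i)) * (4 * (sp (x j) * (ρ j * (1 - ρ j)) * a j))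
        ≤ lam * ∑ i, a i ^ 2 := by
      rw [h3] at h2
      rcases hlam0 with h | h
      · have : lam / 2 * (∑ i, a i ^ 2 + ∑ i, (4 * (sp (x i) * (ρ i * (1 - ρ i)) * a i)) ^ 2)
            ≤ lam / 2 * (∑ i, a i ^ 2 + ∑ i, a i ^ 2) :=
          mul_le_mul_of_nonneg_left (by linarith only [h4]) (by linarith only [h])
        linarith only [this, h2]
      · have h6 : ∑ i, (4 * (sp (x i) * (ρ i * (1 - ρ i)) * a i)) ^ 2 = 0 :=
          le_antisymm (h4.trans h.le) (Finset.sum_nonneg fun i _ => sq_nonneg _)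
        rw [h6, h] at h2
        rw [h]; linarith only [h2]
    have h6 : ∑ i, ∑ j, a i ^ 2 * Jo J i j ^ 2 ≤ r * ∑ i, a i ^ 2 := by
      simp only [← Finset.mul_sum]
      rw [Finset.mul_sum]
      apply Finset.sum_le_sum; intro i _
      rw [mul_comm r]
      exact mul_le_mul_of_nonneg_left (hr i) (sq_nonneg _)
    have h7 : ∑ i, ∑ j, a j ^ 2 * Jo J i j ^ 2 ≤ r * ∑ i, a i ^ 2 := by
      rw [Finset.sum_comm]
      refine le_trans (le_of_eq ?_) h6
      apply Finset.sum_congr rfl; intro i _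
      apply Finset.sum_congr rfl; intro j _
      rw [Jo_symm hJ]
    calc ∑ i, ∑ j, a i * D i j * a j
        ≤ ∑ i, ∑ j, (Jo J i j * (a i * sp (x i)) * (4 * (sp (x j) * (ρ j * (1 - ρ j)) * a j))
          + 24 * (a i ^ 2 * Jo J i j ^ 2) + 24 * (a j ^ 2 * Jo J i j ^ 2)) :=
          Finset.sum_le_sum fun i _ => Finset.sum_le_sum fun j _ => h1 i j
      _ = ∑ i, ∑ j, Jo J i j * (a i * sp (x i)) * (4 * (sp (x j) * (ρ j * (1 - ρ j)) * a j))
          + 24 * ∑ i, ∑ j, a i ^ 2 * Jo J i j ^ 2 + 24 * ∑ i, ∑ j, a j ^ 2 * Jo J i j ^ 2 := by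
          simp only [Finset.sum_add_distrib, Finset.mul_sum]
      _ ≤ _ := by linarith only [h7, h6, h5]
  have hsq : sqg g x = (1 / 4) * ∑ i, a i ^ 2 := rfl
  rw [e1, hsq]
  have h0 : 0 ≤ ∑ i, a i ^ 2 := Finset.sum_nonneg fun i _ => sq_nonneg _
  linarith only [h0, e3, e4, e2]

end Vale.Agent.P150.Low
end

section

open Finset

namespace Vale.Agent.P150.Low

variable {n : ℕ} {J : Fin n → Fin n → ℝ} (b : Fin n → ℝ)

/-- the action of the semigroup on functions -/
noncomputable def Pt {n : ℕ} (J : Fin n → Fin n → ℝ) (b : Fin n → ℝ) (t : ℝ) (f : Cfg n → ℝ)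
    (x : Cfg n) : ℝ := ∑ y, kernel J b t x y * f y

lemma Pt_zero (f : Cfg n → ℝ) : Pt J b 0 f = f := by
  ext x
  unfold Pt
  simp only [Semi.kernel_zero]
  simp

lemma Pt_deriv (f : Cfg n → ℝ) (t : ℝ) (x : Cfg n) :
    HasDerivAt (fun s => Pt J b s f x) (gen J b (Pt J b t f) x) t := by
  unfold Pt
  have h : HasDerivAt (fun s => ∑ y, kernel J b s x y * f y)
      (∑ y, (genMat J b * NormedSpace.exp (t • genMat J b)) x y * f y) t := by
    apply HasDerivAt.fun_sum
    intro y _
    exact (Semi.sg_deriv' (genMat J b) t x y).mul_const (f y)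
  have e : ∑ y, (genMat J b * NormedSpace.exp (t • genMat J b)) x y * f y
      = gen J b (fun x => ∑ y, kernel J b t x y * f y) x := by
    rw [← Semi.genMat_mul]
    simp only [Matrix.mul_apply, Finset.sum_mul, Finset.mul_sum]
    rw [Finset.sum_comm]
    apply Finset.sum_congr rfl; intro y _
    apply Finset.sum_congr rfl; intro z _
    unfold kernel
    ring
  rw [e] at h
  exact h

/-- the gradient bound along the flow -/
theorem sqg_flow (hJ : ∀ i j, J i j = J j i) {lam r : ℝ}
    (hlam : ∀ v : Fin n → ℝ, |∑ i, ∑ j, Jo J i j * v i * v j| ≤ lam * ∑ i, v i ^ 2)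
    (hr : ∀ i, ∑ j, Jo J i j ^ 2 ≤ r) (hs : ∀ i j, |Jo J i j| ≤ 1 / 4)
    (u : ℝ → Cfg n → ℝ) (hu : ∀ t x, HasDerivAt (fun s => u s x) (gen J b (u t) x) t)
    {S : ℝ} (hS : ∀ x, sqg (u 0) x ≤ S) (t : ℝ) (ht : 0 ≤ t) (x : Cfg n) :
    sqg (u t) x ≤ Real.exp (2 * (lam + 80 * r) * t) * S := by
  set C : ℝ := 2 * (lam + 80 * r) with hC
  have hd : ∀ t x, HasDerivAt (fun s => sqg (u s) x)
      ((1 / 2) * ∑ i, (u t (flip x i) - u t x)
        * (gen J b (u t) (flip x i) - gen J b (u t) x)) t := by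
    intro t x
    have h1 : HasDerivAt (fun s => (1 / 4 : ℝ) * ∑ i, (u s (flip x i) - u s x) ^ 2)
        ((1 / 4 : ℝ) * ∑ i, ((2 : ℕ) * (u t (flip x i) - u t x) ^ (2 - 1)
          * (gen J b (u t) (flip x i) - gen J b (u t) x))) t := by
      apply HasDerivAt.const_mul
      apply HasDerivAt.fun_sum
      intro i _
      exact ((hu t (flip x i)).sub (hu t x)).pow 2
    have e : (1 / 4 : ℝ) * ∑ i, ((2 : ℕ) * (u t (flip x i) - u t x) ^ (2 - 1)
          * (gen J b (u t) (flip x i) - gen J b (u t) x))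
        = (1 / 2) * ∑ i, (u t (flip x i) - u t x)
          * (gen J b (u t) (flip x i) - gen J b (u t) x) := by
      rw [Finset.mul_sum, Finset.mul_sum]
      apply Finset.sum_congr rfl; intro i _
      push_cast
      ring
    rw [e] at h1
    exact h1
  have key := max_principle (X := Cfg n)
    (fun s x => Real.exp (-(C * s)) * sqg (u s) x)
    (fun s x => Real.exp (-(C * s)) * (-(C * 1)) * sqg (u s) x + Real.exp (-(C * s)) *
      ((1 / 2) * ∑ i, (u s (flip x i) - u s x)
        * (gen J b (u s) (flip x i) - gen J b (u s) x)))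
    (fun _ => S) (fun _ => 0)
    (by
      intro t x
      have h1 : HasDerivAt (fun s : ℝ => Real.exp (-(C * s)))
          (Real.exp (-(C * t)) * (-(C * 1))) t :=
        ((((hasDerivAt_id t).const_mul C)).neg).exp
      exact h1.mul (hd t x))
    (fun t => hasDerivAt_const t S)
    (by intro x; simpa using hS x)
    (by
      intro t _ x hx
      have h1 : ∀ y, sqg (u t) y ≤ sqg (u t) x := by
        intro y
        exact le_of_mul_le_mul_left (hx y) (Real.exp_pos _)
      have h2 := grad_growth b hJ hlam hr hs (u t) x h1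
      have h3 : Real.exp (-(C * t)) * ((1 / 2) * ∑ i, (u t (flip x i) - u t x)
          * (gen J b (u t) (flip x i) - gen J b (u t) x))
          ≤ Real.exp (-(C * t)) * (C * sqg (u t) x) :=
        mul_le_mul_of_nonneg_left h2 (Real.exp_pos _).le
      have h4 : Real.exp (-(C * t)) * (-(C * 1)) * sqg (u t) x
          + Real.exp (-(C * t)) * (C * sqg (u t) x) = 0 := by ring
      linarith only [h3])
    t ht x
  have h1 : Real.exp (C * t) * (Real.exp (-(C * t)) * sqg (u t) x)
      ≤ Real.exp (C * t) * S := mul_le_mul_of_nonneg_left key (Real.exp_pos _).le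
  rw [← mul_assoc, ← Real.exp_add, add_neg_cancel, Real.exp_zero, one_mul] at h1
  exact h1

lemma gen_sq (hJ : ∀ i j, J i j = J j i) (g : Cfg n → ℝ) (x : Cfg n) :
    gen J b (fun z => g z ^ 2) x = 2 * g x * gen J b g x
      + ∑ i, rate J b x i * (g (flip x i) - g x) ^ 2 := by
  rw [gen_eq b hJ, gen_eq b hJ, Finset.mul_sum, ← Finset.sum_add_distrib]
  apply Finset.sum_congr rfl; intro i _
  ring

/-- the variance of the law at time `t` -/
theorem var_flow (hJ : ∀ i j, J i j = J j i) {lam r : ℝ}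
    (hlam : ∀ v : Fin n → ℝ, |∑ i, ∑ j, Jo J i j * v i * v j| ≤ lam * ∑ i, v i ^ 2)
    (hr : ∀ i, ∑ j, Jo J i j ^ 2 ≤ r) (hs : ∀ i j, |Jo J i j| ≤ 1 / 4)
    {C : ℝ} (hC : 0 < C) (hCl : 2 * (lam + 80 * r) ≤ C)
    (f : Cfg n → ℝ) {S : ℝ} (hS : ∀ x, sqg f x ≤ S) (t : ℝ) (ht : 0 ≤ t) (x : Cfg n) :
    Pt J b t (fun z => f z ^ 2) x - Pt J b t f x ^ 2 ≤ 4 * S / C * Real.exp (C * t) := by
  have hS0 : 0 ≤ S := le_trans (by unfold sqg; (clear * -; positivity)) (hS x)
  have hgrad : ∀ t, 0 ≤ t → ∀ x, sqg (Pt J b t f) x ≤ Real.exp (C * t) * S := by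
    intro t ht x
    have h1 := sqg_flow b hJ hlam hr hs (fun s => Pt J b s f) (Pt_deriv b f)
      (S := S) (by intro y; rw [Pt_zero]; exact hS y) t ht x
    refine h1.trans ?_
    apply mul_le_mul_of_nonneg_right _ hS0
    apply Real.exp_le_exp.2
    exact mul_le_mul_of_nonneg_right hCl ht
  have key := max_principle (X := Cfg n)
    (fun s x => Pt J b s (fun z => f z ^ 2) x - Pt J b s f x ^ 2)
    (fun s x => gen J b (Pt J b s (fun z => f z ^ 2)) x
      - (2 : ℕ) * Pt J b s f x ^ (2 - 1) * gen J b (Pt J b s f) x)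
    (fun s => 4 * S / C * Real.exp (C * s)) (fun s => 4 * S / C * (Real.exp (C * s) * (C * 1)))
    (by
      intro t x
      exact (Pt_deriv b _ t x).sub ((Pt_deriv b f t x).pow 2))
    (by
      intro t
      exact (((hasDerivAt_id t).const_mul C).exp).const_mul _)
    (by
      intro x
      simp only [Pt_zero]
      rw [sub_self]
      (clear * - hS0 hC; positivity))
    (by
      intro s hs x hx
      have h1 : gen J b (Pt J b s (fun z => f z ^ 2)) x
          = gen J b (fun z => Pt J b s (fun z => f z ^ 2) z - Pt J b s f z ^ 2) x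
            + gen J b (fun z => Pt J b s f z ^ 2) x := by
        rw [← Semi.gen_add]
        congr 1
        ext z
        ring
      have h2 : gen J b (fun z => Pt J b s (fun z => f z ^ 2) z - Pt J b s f z ^ 2) x ≤ 0 := by
        rw [gen_eq b hJ]
        apply Finset.sum_nonpos
        intro i _
        apply mul_nonpos_of_nonneg_of_nonpos (rate_pos b x i).le
        have := hx (flip x i)
        linarith
      have h3 := gen_sq b hJ (Pt J b s f) x
      have h4 : ∑ i, rate J b x i * (Pt J b s f (flip x i) - Pt J b s f x) ^ 2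
          ≤ 4 * sqg (Pt J b s f) x := by
        unfold sqg
        rw [← mul_assoc]
        norm_num
        apply Finset.sum_le_sum
        intro i _
        exact mul_le_of_le_one_left (sq_nonneg _) (rate_le_one b x i)
      have h5 := hgrad s hs.le x
      have h6 : 4 * S / C * (Real.exp (C * s) * (C * 1)) = 4 * (Real.exp (C * s) * S) := by
        field_simp
      rw [h6, h1, h3]
      push_cast
      simp only [pow_one]
      linarith only [h5, h4, h2])
    t ht x
  exact key

end Vale.Agent.P150.Low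
end

section

/-! G5 (uniform count in windows), deterministic part. -/

open scoped Matrix

namespace Vale.Agent.P150.F

variable {n : ℕ}

/-- the truncated diagonal form -/
noncomputable def dform (L : ℝ) (m v : Vec n) : ℝ := ∑ i, min (1 / (1 - m i ^ 2)) L * v i ^ 2

/-- the (doubled) window around `p` -/
def Win (ρ : ℝ) (p : Vec n) : Set (Vec n) := {m | (∀ i, |m i| < 1) ∧ sq (m - p) ≤ (2 * ρ) ^ 2 * n}

/-- the penalty of a vector -/
noncomputable def Lam (L ρ : ℝ) (p v : Vec n) : ℝ := ⨅ m : Win ρ p, dform L m v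

/-- orthonormal frames -/
def Frame {k : ℕ} (V : Fin k → Vec n) : Prop := ∀ a b, ip (V a) (V b) = if a = b then 1 else 0

/-- excess of a frame -/
noncomputable def Exc {k : ℕ} (r L ρ : ℝ) (J : Mat n) (p : Vec n) (V : Fin k → Vec n) : ℝ :=
  ∑ a, (r * qf J (V a) - Lam L ρ p (V a))

lemma dform_nonneg {L : ℝ} (hL : 0 ≤ L) {m : Vec n} (hm : ∀ i, |m i| < 1) (v : Vec n) :
    0 ≤ dform L m v := by
  refine Finset.sum_nonneg fun i _ => mul_nonneg (le_min ?_ hL) (sq_nonneg _)
  have h1 : m i ^ 2 < 1 := by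
    have := sq_lt_sq' (by linarith [(abs_lt.1 (hm i)).1]) (abs_lt.1 (hm i)).2
    simpa using this
  exact div_nonneg zero_le_one (by linarith)

lemma Lam_bdd {L ρ : ℝ} (hL : 0 ≤ L) (p v : Vec n) :
    BddBelow (Set.range fun m : Win ρ p => dform L m v) :=
  ⟨0, by rintro _ ⟨m, rfl⟩; exact dform_nonneg hL m.2.1 v⟩

lemma Lam_le {L ρ : ℝ} (hL : 0 ≤ L) {p m : Vec n} (hm : m ∈ Win ρ p) (v : Vec n) :
    Lam L ρ p v ≤ dform L m v :=
  ciInf_le (Lam_bdd hL p v) (⟨m, hm⟩ : Win ρ p)

lemma HL_eq (L r : ℝ) (J : Mat n) (m v : Vec n) :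
    HL L r J m v = dform L m v + r ^ 2 * (1 - qq m) * sq v - r * qf J v
      - 2 * r ^ 2 / n * ip m v ^ 2 := rfl

/-! ### frames -/

lemma Frame.sq_eq {k : ℕ} {V : Fin k → Vec n} (h : Frame V) (a : Fin k) : sq (V a) = 1 := by
  rw [← ipN_self, h a a, if_pos rfl]

lemma Frame.ip_ne {k : ℕ} {V : Fin k → Vec n} (h : Frame V) {a b : Fin k} (hab : a ≠ b) :
    ip (V a) (V b) = 0 := by rw [h a b, if_neg hab]

lemma Frame.snoc {k : ℕ} {V : Fin k → Vec n} (h : Frame V) {v : Vec n} (hv : sq v = 1)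
    (ho : ∀ a, ip (V a) v = 0) : Frame (Fin.snoc V v : Fin (k + 1) → Vec n) := by
  intro a b
  refine Fin.lastCases ?_ (fun a => ?_) a
  · refine Fin.lastCases ?_ (fun b => ?_) b
    · rw [Fin.snoc_last, if_pos rfl, ipN_self, hv]
    · rw [Fin.snoc_last, Fin.snoc_castSucc, ipN_comm, ho b,
        if_neg (Fin.castSucc_lt_last b).ne']
  · refine Fin.lastCases ?_ (fun b => ?_) b
    · rw [Fin.snoc_last, Fin.snoc_castSucc, ho a, if_neg (Fin.castSucc_lt_last a).ne]
    · rw [Fin.snoc_castSucc, Fin.snoc_castSucc, h a b]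
      simp [Fin.castSucc_inj]

lemma qf_smul (J : Mat n) (c : ℝ) (v : Vec n) : qf J (c • v) = c ^ 2 * qf J v := by
  rw [qf, qf, Matrix.mulVec_smul, ip_smul_left, ip_smul_right]; ring

lemma sq_smul (c : ℝ) (v : Vec n) : sq (c • v) = c ^ 2 * sq v := by
  rw [← ipN_self, ip_smul_left, ip_smul_right, ipN_self]; ring

lemma dform_smul (L : ℝ) (m : Vec n) (c : ℝ) (v : Vec n) :
    dform L m (c • v) = c ^ 2 * dform L m v := by
  rw [dform, dform, Finset.mul_sum]
  refine Finset.sum_congr rfl fun i _ => ?_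
  rw [Pi.smul_apply, smul_eq_mul]; ring

lemma HL_smul (L r : ℝ) (J : Mat n) (m : Vec n) (c : ℝ) (v : Vec n) :
    HL L r J m (c • v) = c ^ 2 * HL L r J m v := by
  rw [HL_eq, HL_eq, dform_smul, qf_smul, sq_smul, ip_smul_right]; ring

lemma sq_eq_zero_iff' {v : Vec n} : sq v = 0 ↔ v = 0 := by
  constructor
  · intro h
    funext i
    have h1 : ∀ i ∈ Finset.univ, v i ^ 2 = 0 :=
      (Finset.sum_eq_zero_iff_of_nonneg fun i _ => sq_nonneg (v i)).1 h
    simpa using h1 i (Finset.mem_univ i)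
  · rintro rfl; simp [sq]

/-- from unit vectors to all vectors -/
lemma HL_ge_of_unit {L r c : ℝ} {J : Mat n} {m : Vec n} {P : Vec n → Prop}
    (hP : ∀ (c : ℝ) (v : Vec n), P v → P (c • v)) (h : ∀ v, P v → sq v = 1 → c ≤ HL L r J m v) (v : Vec n)
    (hv : P v) : c * sq v ≤ HL L r J m v := by
  by_cases h0 : v = 0
  · subst h0
    have e : HL L r J m 0 = 0 := by
      have := HL_smul L r J m 0 0
      rw [smul_zero] at this
      linarith
    rw [e]
    simp [sq]
  · have h1 : 0 < nv v := by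
      refine lt_of_le_of_ne (nv_nonneg v) fun h => h0 ?_
      rw [← sq_eq_zero_iff', ← nv_sq, ← h]; norm_num
    have h2 : sq ((nv v)⁻¹ • v) = 1 := by
      rw [sq_smul, ← nv_sq, inv_pow, inv_mul_cancel₀ (by positivity)]
    have h3 := h _ (hP _ _ hv) h2
    have h4 : HL L r J m v = nv v ^ 2 * HL L r J m ((nv v)⁻¹ • v) := by
      rw [HL_smul, ← mul_assoc, ← mul_pow, mul_inv_cancel₀ h1.ne', one_pow, one_mul]
    rw [h4, ← nv_sq, mul_comm]
    exact mul_le_mul_of_nonneg_left h3 (by positivity)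

/-- the family of a maximal frame, the normalized rest of `p` and zeros -/
lemma exists_W {k j : ℕ} (hj : j < k) {V : Fin j → Vec n} (hV : Frame V) (p : Vec n) :
    ∃ W : Fin k → Vec n, (∀ a, sq (W a) ≤ 1) ∧ (∀ a b, a ≠ b → ip (W a) (W b) = 0) ∧
      ∀ v, (∀ a, ip (W a) v = 0) → (∀ a, ip (V a) v = 0) ∧ ip p v = 0 := by
  set w : Vec n := p - ∑ a, ip (V a) p • V a with hw
  have how : ∀ a, ip (V a) w = 0 := by
    intro a
    rw [hw, ip_sub_right, ip_sum_right]
    have : ∀ b ∈ Finset.univ, ip (V a) (ip (V b) p • V b) = if a = b then ip (V b) p else 0 := by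
      intro b _
      rw [ip_smul_right, hV a b]
      split_ifs <;> ring
    rw [Finset.sum_congr rfl this, Finset.sum_ite_eq, if_pos (Finset.mem_univ a), sub_self]
  set u : Vec n := (nv w)⁻¹ • w with hu
  have hu1 : sq u ≤ 1 := by
    rw [hu, sq_smul, ← nv_sq]
    by_cases h0 : nv w = 0
    · rw [h0]; norm_num
    · rw [inv_pow, inv_mul_cancel₀ (pow_ne_zero 2 h0)]
  have huw : w = nv w • u := by
    rw [hu, smul_smul]
    by_cases h0 : nv w = 0
    · have : w = 0 := by rw [← sq_eq_zero_iff', ← nv_sq, h0]; norm_num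
      rw [this]; simp
    · rw [mul_inv_cancel₀ h0, one_smul]
  have hou : ∀ a, ip (V a) u = 0 := fun a => by rw [hu, ip_smul_right, how, mul_zero]
  have hz : ∀ x : Vec n, ip 0 x = 0 := fun x => by simp [ip]
  have hz' : ∀ x : Vec n, ip x 0 = 0 := fun x => by simp [ip]
  refine ⟨fun a => if h : (a : ℕ) < j then V ⟨a, h⟩ else if (a : ℕ) = j then u else 0, ?_, ?_, ?_⟩
  · intro a
    dsimp only
    split_ifs with h1 h2
    · exact (hV.sq_eq _).le
    · exact hu1
    · simp [sq]
  · intro a b hab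
    have hab' : (a : ℕ) ≠ b := fun h => hab (Fin.ext h)
    dsimp only
    split_ifs with h1 h2 h3 h4 h5 h6 h7 h8
    · exact hV.ip_ne fun h => hab' (by simpa using h)
    · exact hou _
    · exact hz' _
    · rw [ipN_comm]; exact hou _
    · omega
    · exact hz' _
    · exact hz _
    · exact hz _
    · exact hz _
  · intro v hv
    have h1 : ∀ a, ip (V a) v = 0 := by
      intro a
      have := hv ⟨a, a.2.trans hj⟩
      dsimp only at this
      rwa [dif_pos a.2] at this
    have h2 : ip u v = 0 := by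
      have := hv ⟨j, hj⟩
      dsimp only at this
      rwa [dif_neg (lt_irrefl j), if_pos rfl] at this
    refine ⟨h1, ?_⟩
    have h3 : p = nv w • u + ∑ a, ip (V a) p • V a := by
      rw [← huw, hw, sub_add_cancel]
    rw [h3, ip_add_left, ip_smul_left, h2, mul_zero, zero_add, ipN_comm, ip_sum_right]
    refine Finset.sum_eq_zero fun a _ => ?_
    rw [ip_smul_right, ipN_comm v (V a), h1 a, mul_zero]

/-- a maximal frame of excessive vectors -/
lemma exists_max {k : ℕ} {T : Vec n → Prop} (h : ¬ ∃ V : Fin k → Vec n, Frame V ∧ ∀ a, T (V a)) :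
    ∃ j < k, ∃ V : Fin j → Vec n, Frame V ∧ (∀ a, T (V a)) ∧
      ∀ v, sq v = 1 → (∀ a, ip (V a) v = 0) → ¬ T v := by
  induction k with
  | zero =>
    exact absurd ⟨fun a => a.elim0, fun a => a.elim0, fun a => a.elim0⟩ h
  | succ k ih =>
    by_cases h1 : ∃ V : Fin k → Vec n, Frame V ∧ ∀ a, T (V a)
    · obtain ⟨V, hV, hT⟩ := h1
      refine ⟨k, Nat.lt_succ_self k, V, hV, hT, fun v hv ho hTv => h ⟨_, hV.snoc hv ho, ?_⟩⟩
      intro a
      refine Fin.lastCases ?_ (fun a => ?_) a
      · rwa [Fin.snoc_last]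
      · rw [Fin.snoc_castSucc]; exact hT a
    · obtain ⟨j, hj, H⟩ := ih h1
      exact ⟨j, hj.trans (Nat.lt_succ_self k), H⟩

lemma sq_diff_le {m p : Vec n} {R : ℝ} (hR : 0 ≤ R) (hm : ∀ i, |m i| ≤ 1) (hp : ∀ i, |p i| ≤ 1)
    (h : sq (m - p) ≤ R ^ 2 * n) : |qq m - qq p| ≤ 2 * R := by
  rcases Nat.eq_zero_or_pos n with rfl | hn
  · simp [qq]; exact hR
  have hn' : (0 : ℝ) < n := by exact_mod_cast hn
  have h1 : sq m - sq p = ip (m - p) (m + p) := by
    rw [ip_add_right, ip_sub_left, ip_sub_left, ipN_self, ipN_self, ipN_comm p m]; ring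
  have h2 : nv (m - p) ≤ R * √n := by
    refine nv_le_of_sq_le (by positivity) ?_
    rw [mul_pow, Real.sq_sqrt hn'.le]; exact h
  have h3 : nv (m + p) ≤ 2 * √n := by
    refine (nv_add_le m p).trans ?_
    have := nv_le_sqrt_n hm
    have := nv_le_sqrt_n hp
    linarith
  have h4 := abs_ip_le (m - p) (m + p)
  rw [qq, qq, ← sub_div, abs_div, abs_of_pos hn', div_le_iff₀ hn', h1]
  calc |ip (m - p) (m + p)| ≤ nv (m - p) * nv (m + p) := h4
    _ ≤ (R * √n) * (2 * √n) := mul_le_mul h2 h3 (nv_nonneg _) (by positivity)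
    _ = 2 * R * (√n * √n) := by ring
    _ = 2 * R * n := by rw [Real.mul_self_sqrt hn'.le]

/-- HL changes little with `r` -/
lemma HL_r {L r r' η : ℝ} {J : Mat n} (hJ : OpLe J 3) (hr : 0 ≤ r') (hrr : r' ≤ r) (h1 : r ≤ 1)
    (hη : r - r' ≤ η) {m v : Vec n} (hm : ∀ i, |m i| ≤ 1) (hv : sq v = 1) :
    HL L r' J m v - 7 * η ≤ HL L r J m v := by
  have hη0 : 0 ≤ r - r' := by linarith
  have hq0 := qq_nonneg m
  have hq1 := qq_le_one hm
  have hnv : nv v = 1 := by
    have := nv_sq v
    rw [hv] at this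
    nlinarith [nv_nonneg v]
  have h2 : |qf J v| ≤ 3 := by
    rw [qf]
    refine (abs_ip_le _ _).trans ?_
    have := hJ.nv_le (by norm_num) v
    rw [hnv] at this ⊢
    linarith
  have h3 : (2 : ℝ) / n * ip m v ^ 2 ≤ 2 := by
    rcases Nat.eq_zero_or_pos n with rfl | hn
    · simp
    have hn' : (0 : ℝ) < n := by exact_mod_cast hn
    have h4 : ip m v ^ 2 ≤ n := by
      have h5 := abs_ip_le m v
      have h6 := nv_le_sqrt_n hm
      rw [hnv, mul_one] at h5
      calc ip m v ^ 2 = |ip m v| ^ 2 := (sq_abs _).symm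
        _ ≤ (√n) ^ 2 := pow_le_pow_left₀ (abs_nonneg _) (h5.trans h6) 2
        _ = n := Real.sq_sqrt hn'.le
    rw [div_mul_eq_mul_div, div_le_iff₀ hn']
    linarith only [h4]
  have h3' : 0 ≤ (2 : ℝ) / n * ip m v ^ 2 := by (clear * -; positivity)
  have e : HL L r J m v - HL L r' J m v = (r ^ 2 - r' ^ 2) * (1 - qq m)
      - (r - r') * qf J v - (r ^ 2 - r' ^ 2) * (2 / n * ip m v ^ 2) := by
    rw [HL_eq, HL_eq, hv]; ring
  have h5 : 0 ≤ (r ^ 2 - r' ^ 2) * (1 - qq m) :=
    mul_nonneg (by linarith only [mul_nonneg (sub_nonneg.2 hr) (sub_nonneg.2 hη0), mul_nonneg (sub_nonneg.2 hη0) (sub_nonneg.2 hη0)]) (by linarith only [hq1])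
  have h6 : (r - r') * qf J v ≤ (r - r') * 3 :=
    mul_le_mul_of_nonneg_left ((abs_le.1 h2).2) hη0
  have h7 : (r ^ 2 - r' ^ 2) * (2 / n * ip m v ^ 2) ≤ (2 * (r - r')) * 2 := by
    refine mul_le_mul (by linarith only [mul_nonneg (sub_nonneg.2 hη0) (sub_nonneg.2 hη0), mul_nonneg (sub_nonneg.2 h1) (sub_nonneg.2 hη0)]) h3 h3' (by linarith only [hη0])
  linarith only [h7, h6, h5, e, hη]

/-- The greedy step at one grid point. -/
theorem window_of_frames {k : ℕ} {r L ρ c₀ : ℝ} {J : Mat n} (hL : 0 ≤ L) (hr : 0 ≤ r)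
    (hr1 : r ≤ 1) (hρ : 0 ≤ ρ) (hρc : 12 * ρ ≤ c₀ / 8) (hc₀ : c₀ ≤ 1) {p : Vec n}
    (hp : ∀ i, |p i| ≤ 1)
    (h : ¬ ∃ V : Fin k → Vec n, Frame V ∧ k * (r ^ 2 * (1 - qq p) - c₀ / 2) < Exc r L ρ J p V)
    (hk : 0 < k) :
    ∃ W : Fin k → Vec n, (∀ a, sq (W a) ≤ 1) ∧ (∀ a b, a ≠ b → ip (W a) (W b) = 0) ∧
      ∀ m ∈ Win ρ p, ∀ v : Vec n, (∀ a, ip (W a) v = 0) → sq v = 1 →
        c₀ * (3 / 8) ≤ HL L r J m v := by
  set θ := r ^ 2 * (1 - qq p) - c₀ / 2 with hθ
  have h1 : ¬ ∃ V : Fin k → Vec n, Frame V ∧ ∀ a, θ < r * qf J (V a) - Lam L ρ p (V a) := by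
    rintro ⟨V, hV, hT⟩
    refine h ⟨V, hV, ?_⟩
    rw [Exc]
    have : Nonempty (Fin k) := ⟨⟨0, hk⟩⟩
    calc (k : ℝ) * θ = ∑ _a : Fin k, θ := by simp
      _ < _ := Finset.sum_lt_sum_of_nonempty Finset.univ_nonempty fun a _ => hT a
  obtain ⟨j, hj, V, hV, -, hmax⟩ := exists_max (T := fun v => θ < r * qf J v - Lam L ρ p v) h1
  obtain ⟨W, hW1, hW2, hW3⟩ := exists_W hj hV p
  refine ⟨W, hW1, hW2, ?_⟩
  intro m hm v hv hv1
  obtain ⟨ho, hpv⟩ := hW3 v hv
  have h2 := not_lt.1 (hmax v hv1 ho)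
  have h3 := Lam_le hL hm v
  have hm1 : ∀ i, |m i| ≤ 1 := fun i => (hm.1 i).le
  have h4 := (abs_le.1 (sq_diff_le (by (clear * - hρ; positivity) : 0 ≤ 2 * ρ) hm1 hp hm.2)).2
  have hnv : nv v = 1 := by
    have := nv_sq v
    rw [hv1] at this
    nlinarith [nv_nonneg v]
  have h5 : (2 : ℝ) / n * ip m v ^ 2 ≤ 8 * ρ ^ 2 := by
    rcases Nat.eq_zero_or_pos n with rfl | hn
    · simp; (clear * -; positivity)
    have hn' : (0 : ℝ) < n := by exact_mod_cast hn
    have e1 : ip m v = ip (m - p) v := by rw [ip_sub_left, hpv, sub_zero]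
    have e2 : ip m v ^ 2 ≤ (2 * ρ) ^ 2 * n := by
      rw [e1]
      calc ip (m - p) v ^ 2 = |ip (m - p) v| ^ 2 := (sq_abs _).symm
        _ ≤ (nv (m - p)) ^ 2 := by
            refine pow_le_pow_left₀ (abs_nonneg _) ?_ 2
            have := abs_ip_le (m - p) v
            rwa [hnv, mul_one] at this
        _ = sq (m - p) := nv_sq _
        _ ≤ _ := hm.2
    rw [div_mul_eq_mul_div, div_le_iff₀ hn']
    linarith only [e2]
  have h6 : r ^ 2 * (2 / n * ip m v ^ 2) ≤ 8 * ρ ^ 2 := by
    have : 0 ≤ (2 : ℝ) / n * ip m v ^ 2 := by (clear * -; positivity)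
    have hr2 : r ^ 2 ≤ 1 := pow_le_one₀ hr hr1
    linarith only [mul_nonneg (sub_nonneg.2 this) (sub_nonneg.2 hr2), mul_nonneg (sub_nonneg.2 hc₀) (sub_nonneg.2 h5), mul_nonneg (sub_nonneg.2 hρc) (sub_nonneg.2 h5), mul_nonneg (sub_nonneg.2 hρ) (sub_nonneg.2 h5)]
  have h7 : r ^ 2 * (qq m - qq p) ≤ 4 * ρ := by
    have hr2 : r ^ 2 ≤ 1 := pow_le_one₀ hr hr1
    have hr0 : 0 ≤ r ^ 2 := sq_nonneg r
    linarith only [mul_nonneg (sub_nonneg.2 hρ) (sub_nonneg.2 hr2), mul_nonneg (sub_nonneg.2 h4) (sub_nonneg.2 hr0)]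
  have h8 : 8 * ρ ^ 2 ≤ 8 * ρ := by
    have : ρ ≤ 1 := by linarith only [hc₀, hρc]
    linarith only [mul_nonneg (sub_nonneg.2 hρ) (sub_nonneg.2 this)]
  rw [HL_eq, hv1]
  have e : 2 * r ^ 2 / n * ip m v ^ 2 = r ^ 2 * (2 / n * ip m v ^ 2) := by ring
  rw [e]
  rw [hθ] at h2
  linarith only [h8, h7, h6, h3, h2, hρc]

/-! ### grids -/

/-- grid points in `(-1, 1)^n` -/
noncomputable def gp (N : ℕ) (t : Fin n → Fin N) : Vec n := fun i => (2 * (t i : ℝ) + 1) / N - 1

lemma gp_lt (N : ℕ) (t : Fin n → Fin N) (i : Fin n) : |gp N t i| < 1 := by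
  have hN : 0 < N := (Nat.zero_le _).trans_lt (t i).2
  have hN' : (0 : ℝ) < N := by exact_mod_cast hN
  have h1 : ((t i : ℕ) : ℝ) + 1 ≤ N := by exact_mod_cast (t i).2
  have h0 : (0 : ℝ) ≤ ((t i : ℕ) : ℝ) := Nat.cast_nonneg _
  rw [gp, abs_lt]
  constructor
  · have : 0 < (2 * ((t i : ℕ) : ℝ) + 1) / N := by positivity
    linarith only [this]
  · have : (2 * ((t i : ℕ) : ℝ) + 1) / N < 2 := by
      rw [div_lt_iff₀ hN']; linarith only [h1]
    linarith only [this]

lemma exists_cell {N : ℕ} (hN : 0 < N) {x : ℝ} (hx : |x| ≤ 1) :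
    ∃ t : Fin N, |x - ((2 * (t : ℝ) + 1) / N - 1)| ≤ 1 / N := by
  have hN' : (0 : ℝ) < N := by exact_mod_cast hN
  obtain ⟨hx1, hx2⟩ := abs_le.1 hx
  set y := (x + 1) * N / 2 with hy
  have hy0 : 0 ≤ y := by
    rw [hy]
    have : 0 ≤ x + 1 := by linarith only [hx1]
    positivity
  have hyN : y ≤ N := by
    rw [hy, div_le_iff₀ (by norm_num)]
    linarith only [mul_nonneg (le_of_lt (sub_pos.2 hN')) (sub_nonneg.2 hx2)]
  have key : ∀ t : ℕ, t < N → (t : ℝ) ≤ y → y ≤ t + 1 →
      ∃ t : Fin N, |x - ((2 * (t : ℝ) + 1) / N - 1)| ≤ 1 / N := by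
    intro t ht h1 h2
    refine ⟨⟨t, ht⟩, ?_⟩
    have e : x - ((2 * ((⟨t, ht⟩ : Fin N) : ℝ) + 1) / N - 1) = 2 / N * (y - t - 1 / 2) := by
      rw [hy]
      simp only
      field_simp
      ring
    rw [e, abs_mul, abs_of_pos (by positivity : (0 : ℝ) < 2 / N)]
    have h3 : |y - t - 1 / 2| ≤ 1 / 2 := abs_le.2 ⟨by linarith only [h1], by linarith only [h2]⟩
    calc 2 / (N : ℝ) * |y - t - 1 / 2| ≤ 2 / N * (1 / 2) :=
          mul_le_mul_of_nonneg_left h3 (by positivity)
      _ = 1 / N := by ring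
  by_cases h : y < N
  · exact key ⌊y⌋₊ ((Nat.floor_lt hy0).2 h) (Nat.floor_le hy0) (Nat.lt_floor_add_one y).le
  · have hyN' : y = N := le_antisymm hyN (not_lt.1 h)
    refine key (N - 1) (by omega) ?_ ?_
    · rw [hyN', Nat.cast_sub hN, Nat.cast_one]; linarith only []
    · rw [hyN', Nat.cast_sub hN, Nat.cast_one]; linarith only []

lemma sq_add_le (u v : Vec n) : sq (u + v) ≤ 2 * sq u + 2 * sq v := by
  rw [sq, sq, sq, Finset.mul_sum, Finset.mul_sum, ← Finset.sum_add_distrib]
  refine Finset.sum_le_sum fun i _ => ?_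
  rw [Pi.add_apply]
  linarith only [sq_nonneg (u i - v i)]

lemma exists_gp {N : ℕ} (hN : 0 < N) {ρ : ℝ} (hρ : 1 / (N : ℝ) ≤ ρ) {p : Vec n}
    (hp : ∀ i, |p i| ≤ 1) : ∃ t : Fin n → Fin N, ∀ m : Vec n, (∀ i, |m i| < 1) →
      sq (m - p) ≤ ρ ^ 2 * n → m ∈ Win ρ (gp N t) := by
  choose t ht using fun i => exists_cell hN (hp i)
  have hN' : (0 : ℝ) < N := by exact_mod_cast hN
  have hρ0 : 0 ≤ ρ := le_trans (by positivity) hρ
  refine ⟨t, fun m hm h => ⟨hm, ?_⟩⟩
  have h1 : sq (p - gp N t) ≤ ρ ^ 2 * n := by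
    calc sq (p - gp N t) ≤ ∑ _i : Fin n, ρ ^ 2 := by
          refine Finset.sum_le_sum fun i _ => ?_
          rw [Pi.sub_apply, ← sq_abs]
          exact pow_le_pow_left₀ (abs_nonneg _) ((ht i).trans hρ) 2
      _ = ρ ^ 2 * n := by simp [mul_comm]
  have e : m - gp N t = (m - p) + (p - gp N t) := by abel
  rw [e]
  have := sq_add_le (m - p) (p - gp N t)
  linarith only [this, h1, h]

lemma exists_r {β r : ℝ} (h0 : 0 ≤ r) (h1 : r ≤ β) {M : ℕ} (hM : 0 < M) :
    ∃ s : Fin (M + 1), β * (s : ℝ) / M ≤ r ∧ r - β * (s : ℝ) / M ≤ β / M := by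
  have hM' : (0 : ℝ) < M := by exact_mod_cast hM
  rcases eq_or_lt_of_le (h0.trans h1) with hβ | hβ
  · refine ⟨0, ?_, ?_⟩
    · simp [← hβ, h0]
    · have : r = 0 := le_antisymm (by rw [hβ]; exact h1) h0
      simp [← hβ, this]
  · set y := r * M / β with hy
    have hy0 : 0 ≤ y := by positivity
    have hyM : y ≤ M := by
      rw [hy, div_le_iff₀ hβ, mul_comm]
      exact mul_le_mul_of_nonneg_left h1 hM'.le
    have hr : r = β * y / M := by rw [hy]; field_simp
    refine ⟨⟨⌊y⌋₊, Nat.lt_succ_of_le (Nat.floor_le_of_le hyM)⟩, ?_, ?_⟩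
    · rw [hr]
      simp only
      have := Nat.floor_le hy0
      rw [div_le_div_iff_of_pos_right hM']
      exact mul_le_mul_of_nonneg_left this hβ.le
    · rw [hr]
      simp only
      have := (Nat.lt_floor_add_one y).le
      rw [← sub_div, div_le_div_iff_of_pos_right hM', ← mul_sub]
      calc β * (y - ⌊y⌋₊) ≤ β * 1 := mul_le_mul_of_nonneg_left (by linarith only [this]) hβ.le
        _ = β := mul_one β

/-- `UC` from the absence of excessive frames at the grid points. -/
theorem uc_of_grid {β L ρ c₀ : ℝ} {J : Mat n} (hJ : OpLe J 3) (hβ0 : 0 ≤ β) (hβ1 : β ≤ 1)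
    (hL : 0 ≤ L) (hρc : 12 * ρ ≤ c₀ / 8) (hc₁ : c₀ ≤ 1) {k N M : ℕ}
    (hk : 0 < k) (hN : 0 < N) (hNρ : 1 / (N : ℝ) ≤ ρ) (hM : 0 < M) (hMc : 1 / (M : ℝ) ≤ c₀ / 28)
    (h : ∀ (s : Fin (M + 1)) (t : Fin n → Fin N), ¬ ∃ V : Fin k → Vec n, Frame V ∧
      k * ((β * (s : ℝ) / M) ^ 2 * (1 - qq (gp N t)) - c₀ / 2)
        < Exc (β * (s : ℝ) / M) L ρ J (gp N t) V) :
    UC β (c₀ / 8) L ρ k J := by
  have hM' : (0 : ℝ) < M := by exact_mod_cast hM
  have hρ0 : 0 ≤ ρ := le_trans (by positivity) hNρ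
  intro r hr p hp
  obtain ⟨t, ht⟩ := exists_gp hN hNρ hp
  obtain ⟨s, hs1, hs2⟩ := exists_r hr.1 hr.2 hM
  have hs0 : 0 ≤ β * (s : ℝ) / M := by (clear * - hβ0 hM; positivity)
  obtain ⟨W, hW1, hW2, hW3⟩ := window_of_frames hL hs0 (hs1.trans (hr.2.trans hβ1)) hρ0 hρc hc₁
    (fun i => (gp_lt N t i).le) (h s t) hk
  refine ⟨W, hW1, hW2, fun m hm hmp v hv => ?_⟩
  refine HL_ge_of_unit (P := fun v => ∀ a, ip (W a) v = 0)
    (fun c v hv a => by rw [ip_smul_right, hv a, mul_zero]) ?_ v hv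
  intro v hv hv1
  have h1 := hW3 m (ht m hm hmp) v hv hv1
  have h2 : r - β * (s : ℝ) / M ≤ c₀ / 28 := by
    refine hs2.trans (le_trans ?_ hMc)
    exact div_le_div_of_nonneg_right hβ1 hM'.le
  have h3 := HL_r (L := L) hJ hs0 hs1 (hr.2.trans hβ1) h2 (fun i => (hm i).le) hv1
  linarith only [h1, h3]

end Vale.Agent.P150.F
end

section

open Finset Filter Topology Set

namespace Vale.Agent.P150.Semi

lemma sg_pow_rev {ι : Type*} [Fintype ι] [DecidableEq ι] (A : Matrix ι ι ℝ) (π : ι → ℝ)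
    (h : ∀ x y, π x * A x y = π y * A y x) (k : ℕ) :
    ∀ x y, π x * (A ^ k) x y = π y * (A ^ k) y x := by
  induction k with
  | zero =>
    intro x y
    rw [pow_zero, Matrix.one_apply, Matrix.one_apply]
    by_cases hxy : x = y
    · subst hxy; rfl
    · rw [if_neg hxy, if_neg (Ne.symm hxy)]; ring
  | succ k ih =>
    intro x y
    rw [pow_succ, Matrix.mul_apply, ← pow_succ, pow_succ', Matrix.mul_apply, Finset.mul_sum,
      Finset.mul_sum]
    apply Finset.sum_congr rfl
    intro z _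
    calc π x * ((A ^ k) x z * A z y) = (π x * (A ^ k) x z) * A z y := by ring
      _ = (π z * A z y) * (A ^ k) z x := by rw [ih x z]; ring
      _ = π y * (A y z * (A ^ k) z x) := by rw [h z y]; ring

lemma sg_rev {ι : Type*} [Fintype ι] [DecidableEq ι] (A : Matrix ι ι ℝ) (π : ι → ℝ)
    (h : ∀ x y, π x * A x y = π y * A y x) (t : ℝ) (x y : ι) :
    π x * NormedSpace.exp (t • A) x y = π y * NormedSpace.exp (t • A) y x := by
  have hs := sg_hasSum (t • A)
  have h1 := (Pi.hasSum.1 (Pi.hasSum.1 hs x) y).mul_left (π x)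
  have h2 := (Pi.hasSum.1 (Pi.hasSum.1 hs y) x).mul_left (π y)
  have h' : ∀ x y, π x * (t • A) x y = π y * (t • A) y x := by
    intro x y
    simp only [Matrix.smul_apply, smul_eq_mul]
    have := h x y
    linear_combination t * this
  have h3 : (fun k : ℕ => π x * (((k.factorial : ℝ)⁻¹) • (t • A) ^ k) x y)
      = fun k : ℕ => π y * (((k.factorial : ℝ)⁻¹) • (t • A) ^ k) y x := by
    funext k
    have := sg_pow_rev (t • A) π h' k x y
    simp only [Matrix.smul_apply, smul_eq_mul] at this ⊢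
    linear_combination ((k.factorial : ℝ)⁻¹) * this
  have h4 : HasSum (fun k : ℕ => π y * (((k.factorial : ℝ)⁻¹) • (t • A) ^ k) y x)
      (π x * NormedSpace.exp (t • A) x y) := by
    rw [← h3]; exact h1
  exact h4.unique h2

variable {n : ℕ} {J : Fin n → Fin n → ℝ} (b : Fin n → ℝ)

/-- reversibility of the kernel -/
theorem kernel_rev (hJ : ∀ i j, J i j = J j i) (t : ℝ) (x y : Cfg n) :
    gibbs J b x * kernel J b t x y = gibbs J b y * kernel J b t y x :=
  sg_rev (genMat J b) (gibbs J b) (detailed_balance b hJ) t x y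

/-- action of the kernel on functions -/
noncomputable def Pt {n : ℕ} (J : Fin n → Fin n → ℝ) (b : Fin n → ℝ) (t : ℝ) (f : Cfg n → ℝ)
    (x : Cfg n) : ℝ := ∑ y, kernel J b t x y * f y

lemma Pt_zero (f : Cfg n → ℝ) (x : Cfg n) : Pt J b 0 f x = f x := by
  unfold Pt
  simp only [kernel_zero]
  simp

/-- `d/dt P_t f = P_t L f` -/
lemma Pt_deriv (f : Cfg n → ℝ) (t : ℝ) (x : Cfg n) :
    HasDerivAt (fun s => Pt J b s f x) (Pt J b t (gen J b f) x) t := by
  have h : HasDerivAt (fun s : ℝ => ∑ y, kernel J b s x y * f y)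
      (∑ y, (NormedSpace.exp (t • genMat J b) * genMat J b) x y * f y) t := by
    apply HasDerivAt.fun_sum
    intro y _
    exact (sg_deriv (genMat J b) t x y).mul_const (f y)
  have e : ∑ y, (NormedSpace.exp (t • genMat J b) * genMat J b) x y * f y
      = Pt J b t (gen J b f) x := by
    unfold Pt kernel
    simp only [Matrix.mul_apply, Finset.sum_mul]
    rw [Finset.sum_comm]
    apply Finset.sum_congr rfl
    intro z _
    rw [← genMat_mul, Finset.mul_sum]
    apply Finset.sum_congr rfl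
    intro y _
    ring
  rw [e] at h
  exact h

/-- `d/dt P_t f = L P_t f` -/
lemma Pt_deriv' (f : Cfg n → ℝ) (t : ℝ) (x : Cfg n) :
    HasDerivAt (fun s => Pt J b s f x) (gen J b (Pt J b t f) x) t := by
  have h : HasDerivAt (fun s : ℝ => ∑ y, kernel J b s x y * f y)
      (∑ y, (genMat J b * NormedSpace.exp (t • genMat J b)) x y * f y) t := by
    apply HasDerivAt.fun_sum
    intro y _
    exact (sg_deriv' (genMat J b) t x y).mul_const (f y)
  have e : ∑ y, (genMat J b * NormedSpace.exp (t • genMat J b)) x y * f y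
      = gen J b (Pt J b t f) x := by
    rw [← genMat_mul]
    simp only [Matrix.mul_apply, Finset.sum_mul, Pt, kernel]
    rw [Finset.sum_comm]
    apply Finset.sum_congr rfl
    intro z _
    rw [Finset.mul_sum]
    apply Finset.sum_congr rfl
    intro y _
    ring
  rw [e] at h
  exact h

/-- self-adjointness -/
lemma Pt_selfadjoint (hJ : ∀ i j, J i j = J j i) (t : ℝ) (f g : Cfg n → ℝ) :
    ex J b (fun x => f x * Pt J b t g x) = ex J b (fun x => Pt J b t f x * g x) := by
  unfold ex Pt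
  simp only [Finset.mul_sum, Finset.sum_mul]
  rw [Finset.sum_comm]
  apply Finset.sum_congr rfl
  intro y _
  apply Finset.sum_congr rfl
  intro x _
  have := kernel_rev b hJ t x y
  calc gibbs J b x * (f x * (kernel J b t x y * g y))
      = (gibbs J b x * kernel J b t x y) * (f x * g y) := by ring
    _ = (gibbs J b y * kernel J b t y x) * (f x * g y) := by rw [this]
    _ = gibbs J b y * (kernel J b t y x * f x * g y) := by ring

lemma ex_Pt (hJ : ∀ i j, J i j = J j i) (t : ℝ) (f : Cfg n → ℝ) :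
    ex J b (Pt J b t f) = ex J b f := by
  have h := Pt_selfadjoint b hJ t (fun _ => 1) f
  have h1 : ∀ x, Pt J b t (fun _ => 1) x = 1 := by
    intro x
    unfold Pt
    simp [kernel_row]
  simp only [h1, one_mul] at h
  exact h

/-- semigroup property -/
lemma kernel_add (s t : ℝ) : kernel J b (s + t) = kernel J b s * kernel J b t := by
  unfold kernel
  rw [add_smul]
  exact Matrix.exp_add_of_commute _ _ (((Commute.refl _).smul_left s).smul_right t)

end Vale.Agent.P150.Semi
end

section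

/-! P150 FULL: measurability toolbox for the concrete policy (helper105).

All matrices / vectors depend on a state `s` of a measurable space `S`. -/

open MeasureTheory ProbabilityTheory Filter Topology
open scoped Matrix

namespace Vale.Agent.P150.F

namespace Ms

variable {S : Type*} [MeasurableSpace S]

/-! ### (a) sums, products, ... -/

section Mat

variable {α β γ : Type*}

/-- entrywise measurable matrices -/
def MMat (H : S → Matrix α β ℝ) : Prop := ∀ i j, Measurable fun s => H s i j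

/-- coordinatewise measurable vectors -/
def MVec (v : S → α → ℝ) : Prop := ∀ i, Measurable fun s => v s i

theorem MVec.measurable {v : S → α → ℝ} (h : MVec v) : Measurable v := measurable_pi_iff.2 h

theorem mvec_of {v : S → α → ℝ} (h : Measurable v) : MVec v := measurable_pi_iff.1 h

theorem MMat.const (H : Matrix α β ℝ) : MMat (S := S) fun _ => H :=
  fun _ _ => measurable_const

theorem MMat.sub {H K : S → Matrix α β ℝ} (hH : MMat H) (hK : MMat K) :
    MMat fun s => H s - K s := fun i j => (hH i j).sub (hK i j)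

theorem MMat.smul {c : S → ℝ} (hc : Measurable c) {H : S → Matrix α β ℝ} (hH : MMat H) :
    MMat fun s => c s • H s := fun i j => hc.mul (hH i j)

theorem MVec.const (v : α → ℝ) : MVec (S := S) fun _ => v := fun _ => measurable_const

theorem MVec.sub {u v : S → α → ℝ} (hu : MVec u) (hv : MVec v) : MVec fun s => u s - v s :=
  fun i => (hu i).sub (hv i)

theorem MVec.map {u : S → α → ℝ} (hu : MVec u) {f : ℝ → ℝ} (hf : Measurable f) :
    MVec fun s i => f (u s i) := fun i => hf.comp (hu i)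

theorem MMat.mulVec [Fintype β] {H : S → Matrix α β ℝ} {v : S → β → ℝ} (hH : MMat H)
    (hv : MVec v) : MVec fun s => (H s).mulVec (v s) := fun i => by
  unfold Matrix.mulVec dotProduct
  exact Finset.measurable_fun_sum _ fun k _ => (hH i k).mul (hv k)

/-! ### (b) determinant and inverse -/

end Mat

section Vec

variable {n : ℕ}

theorem MVec.sq {u : S → Vec n} (hu : MVec u) : Measurable fun s => F.sq (u s) := by
  unfold F.sq
  exact Finset.measurable_fun_sum _ fun i _ => (hu i).pow_const 2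

theorem MVec.ip {u v : S → Vec n} (hu : MVec u) (hv : MVec v) :
    Measurable fun s => F.ip (u s) (v s) := by
  unfold F.ip
  exact Finset.measurable_fun_sum _ fun i _ => (hu i).mul (hv i)

theorem MVec.qq {u : S → Vec n} (hu : MVec u) : Measurable fun s => F.qq (u s) := by
  unfold F.qq
  exact hu.sq.div_const _

theorem MVec.nv {u : S → Vec n} (hu : MVec u) : Measurable fun s => F.nv (u s) := by
  simp only [nv_eq_sqrt]
  exact Real.continuous_sqrt.measurable.comp hu.sq

theorem MMat.hsq {H : S → Mat n} (hH : MMat H) : Measurable fun s => F.hsq (H s) := by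
  unfold F.hsq
  exact Finset.measurable_fun_sum _ fun i _ => Finset.measurable_fun_sum _ fun j _ =>
    (hH i j).pow_const 2

theorem measurable_tanh : Measurable Real.tanh := by
  have : Real.tanh = fun x => Real.sinh x / Real.cosh x := funext Real.tanh_eq_sinh_div_cosh
  rw [this]
  exact Real.continuous_sinh.measurable.div Real.continuous_cosh.measurable

theorem MVec.tanh {u : S → Vec n} (hu : MVec u) : MVec fun s i => Real.tanh (u s i) :=
  hu.map measurable_tanh

theorem MVec.tapB {r : S → ℝ} (hr : Measurable r) {J A : S → Mat n} (hJ : MMat J) (hA : MMat A)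
    {u : S → Vec n} (hu : MVec u) : MVec fun s => F.tapB (r s) (J s) (A s) (u s) := fun i => by
  unfold F.tapB
  exact ((hA.mulVec hu i).sub (hr.mul (hJ.mulVec hu i))).add
    (((hr.pow_const 2).mul (measurable_const.sub hu.qq)).mul (hu i))

/-- the AMP iterates are measurable in all parameters -/
theorem MVec.ampM {M : S → Mat n} {r : S → ℝ} {y : S → Vec n} (hM : MMat M) (hr : Measurable r)
    (hy : MVec y) (x : Cfg n) : ∀ k, MVec fun s => F.ampM (M s) (r s) (y s) x k
  | 0 => by
    have : (fun s => F.ampM (M s) (r s) (y s) x 0) = fun _ => sv x := by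
      funext s; unfold F.ampM; rfl
    rw [this]
    exact MVec.const _
  | 1 => by
    have : (fun s => F.ampM (M s) (r s) (y s) x 1)
        = fun s i => Real.tanh ((M s).mulVec (sv x) i + y s i) := by
      funext s; unfold F.ampM; rfl
    rw [this]
    exact MVec.tanh fun i => (hM.mulVec (MVec.const (sv x)) i).add (hy i)
  | (k + 2) => by
    have h1 := MVec.ampM hM hr hy x (k + 1)
    have h0 := MVec.ampM hM hr hy x k
    have : (fun s => F.ampM (M s) (r s) (y s) x (k + 2))
        = fun s i => Real.tanh ((M s).mulVec (F.ampM (M s) (r s) (y s) x (k + 1)) i + y s i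
            - r s ^ 2 * (1 - F.qq (F.ampM (M s) (r s) (y s) x (k + 1)))
              * F.ampM (M s) (r s) (y s) x k i) := by
      funext s; conv_lhs => unfold F.ampM
    rw [this]
    refine MVec.tanh fun i => ?_
    exact ((hM.mulVec h1 i).add (hy i)).sub
      (((hr.pow_const 2).mul (measurable_const.sub h1.qq)).mul (h0 i))

end Vec

end Ms

/-! ### (c) normalisation of the steering directions -/

variable {n : ℕ}

/-! ### (d) rounding to a grid -/

end Vale.Agent.P150.F
end
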