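import Mathlib
import Vale.Agent.P150.Bdl.B1

set_option linter.all false

section

/-! Pointwise Taylor bounds for one Gaussian channel step (module CH, parts CH2, CH3, CH4). -/

open Real

namespace Vale.Agent.P150.F.CHP

theorem exp_sub_one_le (t : ℝ) : exp t - 1 ≤ t * exp t := by
  have h := add_one_le_exp (-t)
  have h2 : (-t + 1) * exp t ≤ exp (-t) * exp t := mul_le_mul_of_nonneg_right h (exp_pos t).le
  rw [← exp_add, neg_add_cancel, exp_zero] at h2
  linarith only [h2]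

theorem abs_exp_sub_one_le (t : ℝ) : |exp t - 1| ≤ |t| * exp |t| := by
  have h1 := exp_sub_one_le t
  have h2 := add_one_le_exp t
  have h3 : 1 ≤ exp |t| := one_le_exp (abs_nonneg t)
  rw [abs_le]
  constructor
  · have : -|t| ≤ t := neg_abs_le t
    linarith only [h2, this, mul_nonneg (sub_nonneg.2 h3) (sub_nonneg.2 (abs_nonneg t))]
  · have h4 : t * exp t ≤ |t| * exp |t| :=
      mul_le_mul (le_abs_self t) (exp_le_exp.2 (le_abs_self t)) (exp_pos t).le (abs_nonneg t)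
    linarith

theorem abs_exp_sub_one_sub_le (t : ℝ) : |exp t - 1 - t| ≤ t ^ 2 * exp |t| := by
  have h1 := exp_sub_one_le t
  have h2 := add_one_le_exp t
  have h3 : 1 ≤ exp |t| := one_le_exp (abs_nonneg t)
  rw [abs_le]
  constructor
  · linarith only [mul_nonneg (sq_nonneg t) (exp_pos |t|).le, h2]
  · rcases le_or_gt 0 t with h | h
    · rw [abs_of_nonneg h]
      linarith only [mul_le_mul_of_nonneg_left h1 h, h1]
    · have h5 : t * (exp t - 1) ≤ t * t := mul_le_mul_of_nonpos_left (by linarith) h.le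
      linarith only [h1, mul_nonneg (sub_nonneg.2 h2) (le_of_lt (sub_pos.2 h)), mul_nonneg (sub_nonneg.2 h3) (sq_nonneg t)]

/-- `x log x ≤ (x-1) + (x-1)²/2 + |x-1|³/2` -/
theorem mul_log_le {x : ℝ} (hx : 0 < x) :
    x * log x ≤ (x - 1) + (x - 1) ^ 2 / 2 + |x - 1| ^ 3 / 2 := by
  rcases le_or_gt 1 x with h | h
  · have h1 : log x ≤ sinh (log x) := self_le_sinh_iff.2 (log_nonneg h)
    rw [sinh_log hx] at h1
    have h2 : x * log x ≤ x * ((x - x⁻¹) / 2) := mul_le_mul_of_nonneg_left h1 hx.le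
    have h3 : x * ((x - x⁻¹) / 2) = (x ^ 2 - 1) / 2 := by field_simp
    have h4 : 0 ≤ |x - 1| ^ 3 := by positivity
    linarith only [h4, h3, h2]
  · have hy : |1 - x| < 1 := by rw [abs_lt]; constructor <;> linarith
    have h1 := hasSum_pow_div_log_of_abs_lt_one hy
    have h2 := sum_le_hasSum (Finset.range 2) (fun i _ => by
      have : 0 ≤ 1 - x := by linarith
      positivity) h1
    simp only [Finset.sum_range_succ, Finset.sum_range_zero, sub_sub_cancel] at h2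
    norm_num at h2
    have h3 : |x - 1| = 1 - x := by rw [abs_of_neg (by linarith only [h])]; ring
    rw [h3]
    have h4 : log x ≤ -(1 - x) - (1 - x) ^ 2 / 2 := by linarith only [h2]
    have h5 := mul_le_mul_of_nonneg_left h4 hx.le
    linarith only [h5]

section
variable {X : Type*} [Fintype X] {ν F ℓ q : X → ℝ} {u S : ℝ}

/-- the weight -/
noncomputable def W (ℓ q : X → ℝ) (u : ℝ) (x : X) : ℝ := exp (u * ℓ x - u ^ 2 * q x)

omit [Fintype X] in
theorem W_pos (x : X) : 0 < W ℓ q u x := exp_pos _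

omit [Fintype X] in
theorem abs_arg_le (hu0 : 0 ≤ u) (hu1 : u ≤ 1) (hℓ : ∀ x, |ℓ x| ≤ S) (hq : ∀ x, |q x| ≤ S) (x : X) :
    |u * ℓ x - u ^ 2 * q x| ≤ u * (2 * S) := by
  have h1 : |u * ℓ x| ≤ u * S := by
    rw [abs_mul, abs_of_nonneg hu0]; exact mul_le_mul_of_nonneg_left (hℓ x) hu0
  have h2 : |u ^ 2 * q x| ≤ u * S := by
    rw [abs_mul, abs_of_nonneg (sq_nonneg u)]
    have : u ^ 2 ≤ u := by linarith only [mul_nonneg (sub_nonneg.2 hu0) (sub_nonneg.2 hu1)]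
    exact mul_le_mul this (hq x) (abs_nonneg _) hu0
  calc |u * ℓ x - u ^ 2 * q x| ≤ |u * ℓ x| + |u ^ 2 * q x| := abs_sub _ _
    _ ≤ u * (2 * S) := by linarith

omit [Fintype X] in
theorem abs_W_sub_one (hu0 : 0 ≤ u) (hu1 : u ≤ 1) (hS : 0 ≤ S) (hℓ : ∀ x, |ℓ x| ≤ S)
    (hq : ∀ x, |q x| ≤ S) (x : X) :
    |W ℓ q u x - 1| ≤ 2 * u * S * exp (2 * S) := by
  have h := abs_arg_le hu0 hu1 hℓ hq x
  have h2 : u * (2 * S) ≤ 2 * S := by linarith only [mul_nonneg (sub_nonneg.2 hu1) (sub_nonneg.2 hS)]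
  calc |W ℓ q u x - 1| ≤ |u * ℓ x - u ^ 2 * q x| * exp |u * ℓ x - u ^ 2 * q x| :=
        abs_exp_sub_one_le _
    _ ≤ (u * (2 * S)) * exp (2 * S) :=
        mul_le_mul h (exp_le_exp.2 (h.trans h2)) (exp_pos _).le (by positivity)
    _ = 2 * u * S * exp (2 * S) := by ring

omit [Fintype X] in
theorem abs_W_sub (hu0 : 0 ≤ u) (hu1 : u ≤ 1) (hS : 1 ≤ S) (hℓ : ∀ x, |ℓ x| ≤ S)
    (hq : ∀ x, |q x| ≤ S) (x : X) :
    |W ℓ q u x - 1 - u * ℓ x| ≤ 5 * u ^ 2 * S ^ 2 * exp (2 * S) := by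
  have h := abs_arg_le hu0 hu1 hℓ hq x
  have h2 : u * (2 * S) ≤ 2 * S := by linarith only [mul_nonneg (sub_nonneg.2 hu1) (sub_nonneg.2 hS), mul_nonneg (sub_nonneg.2 hu1) (sub_nonneg.2 hu1), mul_nonneg (sub_nonneg.2 hu0) (sub_nonneg.2 hu1)]
  have e1 := abs_exp_sub_one_sub_le (u * ℓ x - u ^ 2 * q x)
  have e2 : (u * ℓ x - u ^ 2 * q x) ^ 2 * exp |u * ℓ x - u ^ 2 * q x|
      ≤ (u * (2 * S)) ^ 2 * exp (2 * S) := by
    apply mul_le_mul _ (exp_le_exp.2 (h.trans h2)) (exp_pos _).le (by positivity)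
    rw [← sq_abs]
    exact pow_le_pow_left₀ (abs_nonneg _) h 2
  have e3 : |u ^ 2 * q x| ≤ u ^ 2 * S ^ 2 * exp (2 * S) := by
    rw [abs_mul, abs_of_nonneg (sq_nonneg u), mul_assoc]
    apply mul_le_mul_of_nonneg_left _ (sq_nonneg u)
    have h1 : 1 ≤ exp (2 * S) := one_le_exp (by positivity)
    have h3 := hq x
    (by_contra nlg; linarith only [mul_nonneg (sq_nonneg (S : ℝ)) (le_of_lt (sub_pos.2 (not_le.1 nlg))), mul_nonneg (sq_nonneg (S : ℝ)) (sub_nonneg.2 hS), mul_pos (sub_pos.2 (not_le.1 nlg)) (sub_pos.2 (not_le.1 nlg)), mul_nonneg (le_of_lt (sub_pos.2 (not_le.1 nlg))) (sub_nonneg.2 h3), mul_nonneg (le_of_lt (sub_pos.2 (not_le.1 nlg))) (sub_nonneg.2 (mul_nonneg (sq_nonneg S) (sub_nonneg.2 h1))), mul_nonneg (sub_nonneg.2 hu0) (sub_nonneg.2 h3), mul_nonneg (sub_nonneg.2 hu0) (sub_nonneg.2 (mul_nonneg (sq_nonneg S) (sub_nonneg.2 h1))), mul_nonneg (sub_nonneg.2 hu1) (sub_nonneg.2 h3), mul_nonneg (sub_nonneg.2 hu1)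 (sub_nonneg.2 (mul_nonneg (sq_nonneg S) (sub_nonneg.2 h1))), mul_nonneg (sub_nonneg.2 hS) (sub_nonneg.2 h3), mul_nonneg (sub_nonneg.2 hS) (sub_nonneg.2 (mul_nonneg (sq_nonneg S) (sub_nonneg.2 h1)))])
  have e4 : W ℓ q u x - 1 - u * ℓ x
      = (exp (u * ℓ x - u ^ 2 * q x) - 1 - (u * ℓ x - u ^ 2 * q x)) - u ^ 2 * q x := by
    unfold W; ring
  rw [e4]
  calc _ ≤ |exp (u * ℓ x - u ^ 2 * q x) - 1 - (u * ℓ x - u ^ 2 * q x)| + |u ^ 2 * q x| :=
        abs_sub _ _
    _ ≤ (u * (2 * S)) ^ 2 * exp (2 * S) + u ^ 2 * S ^ 2 * exp (2 * S) :=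
        add_le_add (e1.trans e2) e3
    _ = _ := by ring

/-- Cauchy-Schwarz with bounded second factor -/
theorem abs_sum_le (hν : ∀ x, 0 ≤ ν x) (hν1 : ∑ x, ν x = 1) {g : X → ℝ} {G : ℝ} (hG : 0 ≤ G)
    (hg : ∀ x, |g x| ≤ G) : |∑ x, ν x * (F x * g x)| ≤ G * √(∑ x, ν x * F x ^ 2) := by
  have h0 : 0 ≤ ∑ x, ν x * F x ^ 2 := Finset.sum_nonneg fun x _ => mul_nonneg (hν x) (sq_nonneg _)
  have h1 : (∑ x, ν x * (F x * g x)) ^ 2 ≤ (∑ x, ν x * F x ^ 2) * ∑ x, ν x * g x ^ 2 := by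
    have := Finset.sum_mul_sq_le_sq_mul_sq Finset.univ (fun x => √(ν x) * F x)
      (fun x => √(ν x) * g x)
    have e1 : ∀ x, √(ν x) * F x * (√(ν x) * g x) = ν x * (F x * g x) := fun x => by
      have := mul_self_sqrt (hν x)
      linear_combination (F x * g x) * this
    have e2 : ∀ x, (√(ν x) * F x) ^ 2 = ν x * F x ^ 2 := fun x => by
      rw [mul_pow, sq_sqrt (hν x)]
    have e3 : ∀ x, (√(ν x) * g x) ^ 2 = ν x * g x ^ 2 := fun x => by
      rw [mul_pow, sq_sqrt (hν x)]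
    simp only [e1, e2, e3] at this
    exact this
  have h2 : ∑ x, ν x * g x ^ 2 ≤ G ^ 2 := by
    calc ∑ x, ν x * g x ^ 2 ≤ ∑ x, ν x * G ^ 2 := by
          apply Finset.sum_le_sum
          intro x _
          apply mul_le_mul_of_nonneg_left _ (hν x)
          rw [← sq_abs]; exact pow_le_pow_left₀ (abs_nonneg _) (hg x) 2
      _ = G ^ 2 := by rw [← Finset.sum_mul, hν1, one_mul]
  apply abs_le_of_sq_le_sq _ (by (clear * - hG; positivity))
  rw [mul_pow, sq_sqrt h0]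
  linarith only [mul_le_mul_of_nonneg_left h2 h0, h1]

/-- the partition function -/
noncomputable def Z (ν ℓ q : X → ℝ) (u : ℝ) : ℝ := ∑ x, ν x * W ℓ q u x

theorem Z_le (hν : ∀ x, 0 ≤ ν x) (hν1 : ∑ x, ν x = 1) (hu0 : 0 ≤ u) (hu1 : u ≤ 1) (hS : 0 ≤ S)
    (hℓ : ∀ x, |ℓ x| ≤ S) (hq : ∀ x, |q x| ≤ S) : Z ν ℓ q u ≤ exp (2 * S) := by
  calc Z ν ℓ q u ≤ ∑ x, ν x * exp (2 * S) := by
        apply Finset.sum_le_sum
        intro x _
        apply mul_le_mul_of_nonneg_left _ (hν x)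
        apply exp_le_exp.2
        have h := abs_arg_le hu0 hu1 hℓ hq x
        have h2 : u * (2 * S) ≤ 2 * S := by linarith only [mul_nonneg (sub_nonneg.2 hu1) (sub_nonneg.2 hS)]
        exact (le_abs_self _).trans (h.trans h2)
    _ = exp (2 * S) := by rw [← Finset.sum_mul, hν1, one_mul]

theorem le_Z (hν : ∀ x, 0 ≤ ν x) (hν1 : ∑ x, ν x = 1) (hu0 : 0 ≤ u) (hu1 : u ≤ 1) (hS : 0 ≤ S)
    (hℓ : ∀ x, |ℓ x| ≤ S) (hq : ∀ x, |q x| ≤ S) : exp (-(2 * S)) ≤ Z ν ℓ q u := by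
  calc exp (-(2 * S)) = ∑ x, ν x * exp (-(2 * S)) := by rw [← Finset.sum_mul, hν1, one_mul]
    _ ≤ Z ν ℓ q u := by
        apply Finset.sum_le_sum
        intro x _
        apply mul_le_mul_of_nonneg_left _ (hν x)
        apply exp_le_exp.2
        have h := abs_arg_le hu0 hu1 hℓ hq x
        have h2 : u * (2 * S) ≤ 2 * S := by linarith only [mul_nonneg (sub_nonneg.2 hu1) (sub_nonneg.2 hS)]
        have := neg_abs_le (u * ℓ x - u ^ 2 * q x)
        linarith

theorem Z_pos (hν : ∀ x, 0 ≤ ν x) (hν1 : ∑ x, ν x = 1) : 0 < Z ν ℓ q u := by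
  have h : ∃ x, 0 < ν x := by
    by_contra h
    push Not at h
    have : ∑ x, ν x ≤ 0 := Finset.sum_nonpos fun x _ => h x
    linarith
  obtain ⟨x, hx⟩ := h
  exact Finset.sum_pos' (fun x _ => mul_nonneg (hν x) (W_pos x).le)
    ⟨x, Finset.mem_univ x, mul_pos hx (W_pos x)⟩

theorem abs_Z_sub_one (hν : ∀ x, 0 ≤ ν x) (hν1 : ∑ x, ν x = 1) (hu0 : 0 ≤ u) (hu1 : u ≤ 1)
    (hS : 0 ≤ S) (hℓ : ∀ x, |ℓ x| ≤ S) (hq : ∀ x, |q x| ≤ S) :
    |Z ν ℓ q u - 1| ≤ 2 * u * S * exp (2 * S) := by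
  have e : Z ν ℓ q u - 1 = ∑ x, ν x * (W ℓ q u x - 1) := by
    simp only [mul_sub, mul_one, Finset.sum_sub_distrib, hν1, Z]
  rw [e]
  calc |∑ x, ν x * (W ℓ q u x - 1)| ≤ ∑ x, |ν x * (W ℓ q u x - 1)| :=
        Finset.abs_sum_le_sum_abs _ _
    _ ≤ ∑ x, ν x * (2 * u * S * exp (2 * S)) := by
        apply Finset.sum_le_sum
        intro x _
        rw [abs_mul, abs_of_nonneg (hν x)]
        exact mul_le_mul_of_nonneg_left (abs_W_sub_one hu0 hu1 hS hℓ hq x) (hν x)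
    _ = _ := by rw [← Finset.sum_mul, hν1, one_mul]

theorem abs_inv_Z_sub_one (hν : ∀ x, 0 ≤ ν x) (hν1 : ∑ x, ν x = 1) (hu0 : 0 ≤ u) (hu1 : u ≤ 1)
    (hS : 0 ≤ S) (hℓ : ∀ x, |ℓ x| ≤ S) (hq : ∀ x, |q x| ≤ S) :
    |(Z ν ℓ q u)⁻¹ - 1| ≤ 2 * u * S * exp (4 * S) := by
  have h1 := le_Z hν hν1 hu0 hu1 hS hℓ hq
  have h2 := abs_Z_sub_one hν hν1 hu0 hu1 hS hℓ hq
  have h3 : 0 < Z ν ℓ q u := Z_pos hν hν1
  have h4 : (Z ν ℓ q u)⁻¹ ≤ exp (2 * S) := by
    rw [← inv_inv (exp (2 * S)), ← exp_neg]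
    exact inv_anti₀ (exp_pos _) h1
  have e : (Z ν ℓ q u)⁻¹ - 1 = -((Z ν ℓ q u - 1) * (Z ν ℓ q u)⁻¹) := by
    field_simp
    ring
  rw [e, abs_neg, abs_mul, abs_of_pos (inv_pos.2 h3)]
  calc |Z ν ℓ q u - 1| * (Z ν ℓ q u)⁻¹ ≤ (2 * u * S * exp (2 * S)) * exp (2 * S) :=
        mul_le_mul h2 h4 (inv_pos.2 h3).le (by (clear * - hu0 hS; positivity))
    _ = 2 * u * S * exp (4 * S) := by
        rw [mul_assoc, ← exp_add]; congr 2; ring

theorem le_exp_self' (S : ℝ) : S ≤ exp S := by have := add_one_le_exp S; linarith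

/-- key estimate: square of a centred linear statistic (`G = F w` or `F (w - 1)`) -/
theorem sq_le (hν : ∀ x, 0 ≤ ν x) (hν1 : ∑ x, ν x = 1) (hu0 : 0 ≤ u) (hu1 : u ≤ 1)
    (hS : 1 ≤ S) (hℓ : ∀ x, |ℓ x| ≤ S) (hq : ∀ x, |q x| ≤ S) :
    (∑ x, ν x * (F x * (W ℓ q u x - 1))) ^ 2
      ≤ u ^ 2 * (∑ x, ν x * (F x * ℓ x)) ^ 2
        + 35 * u ^ 3 * exp (8 * S) * ∑ x, ν x * F x ^ 2 := by
  set f2 := ∑ x, ν x * F x ^ 2 with hf2
  have h0 : 0 ≤ f2 := Finset.sum_nonneg fun x _ => mul_nonneg (hν x) (sq_nonneg _)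
  set f := √f2 with hf
  have hff : f ^ 2 = f2 := sq_sqrt h0
  have hf0 : 0 ≤ f := sqrt_nonneg _
  set A := ∑ x, ν x * (F x * ℓ x) with hA
  have hA' : |A| ≤ S * f := abs_sum_le hν hν1 (by linarith only [hS]) hℓ
  set ρ := ∑ x, ν x * (F x * (W ℓ q u x - 1 - u * ℓ x)) with hρ
  have hρ' : |ρ| ≤ (5 * u ^ 2 * S ^ 2 * exp (2 * S)) * f :=
    abs_sum_le hν hν1 (by (clear * - hS; positivity)) (fun x => abs_W_sub hu0 hu1 hS hℓ hq x)
  have e : ∑ x, ν x * (F x * (W ℓ q u x - 1)) = u * A + ρ := by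
    rw [hA, hρ, Finset.mul_sum, ← Finset.sum_add_distrib]
    apply Finset.sum_congr rfl
    intro x _; ring
  rw [e]
  have hE1 : 1 ≤ exp (2 * S) := one_le_exp (by positivity)
  have hSe : S ≤ exp S := le_exp_self' S
  have hS3 : S ^ 3 * exp (2 * S) ≤ exp (8 * S) := by
    calc S ^ 3 * exp (2 * S) ≤ (exp S) ^ 3 * exp (2 * S) := by gcongr
      _ = exp (5 * S) := by rw [← exp_nat_mul, ← exp_add]; congr 1; push_cast; ring
      _ ≤ exp (8 * S) := exp_le_exp.2 (by linarith only [hS])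
  have hS4 : S ^ 4 * exp (2 * S) ^ 2 ≤ exp (8 * S) := by
    calc S ^ 4 * exp (2 * S) ^ 2 ≤ (exp S) ^ 4 * exp (2 * S) ^ 2 := by gcongr
      _ = exp (8 * S) := by rw [← exp_nat_mul, ← exp_nat_mul, ← exp_add]; congr 1; push_cast; ring
  have h1 : |A| * |ρ| ≤ (S * f) * ((5 * u ^ 2 * S ^ 2 * exp (2 * S)) * f) :=
    mul_le_mul hA' hρ' (abs_nonneg _) (by (clear * - hS; positivity))
  have h2 : A * ρ ≤ 5 * u ^ 2 * (S ^ 3 * exp (2 * S)) * f2 := by
    calc A * ρ ≤ |A * ρ| := le_abs_self _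
      _ = |A| * |ρ| := abs_mul _ _
      _ ≤ _ := h1
      _ = 5 * u ^ 2 * (S ^ 3 * exp (2 * S)) * f2 := by rw [← hff]; ring
  have h3 : ρ ^ 2 ≤ 25 * u ^ 4 * (S ^ 4 * exp (2 * S) ^ 2) * f2 := by
    calc ρ ^ 2 = |ρ| ^ 2 := (sq_abs _).symm
      _ ≤ ((5 * u ^ 2 * S ^ 2 * exp (2 * S)) * f) ^ 2 := pow_le_pow_left₀ (abs_nonneg _) hρ' 2
      _ = _ := by rw [← hff]; ring
  have h4 : 5 * u ^ 2 * (S ^ 3 * exp (2 * S)) * f2 ≤ 5 * u ^ 2 * exp (8 * S) * f2 := by gcongr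
  have h5 : 25 * u ^ 4 * (S ^ 4 * exp (2 * S) ^ 2) * f2 ≤ 25 * u ^ 3 * exp (8 * S) * f2 := by
    have : u ^ 4 ≤ u ^ 3 := by linarith only [mul_nonneg (sub_nonneg.2 hu1) (sub_nonneg.2 (pow_nonneg hu0 3))]
    gcongr
  have h6 : 2 * u * (A * ρ) ≤ 2 * u * (5 * u ^ 2 * exp (8 * S) * f2) := by
    apply mul_le_mul_of_nonneg_left (h2.trans h4) (by (clear * - hu0; positivity))
  calc (u * A + ρ) ^ 2 = u ^ 2 * A ^ 2 + 2 * u * (A * ρ) + ρ ^ 2 := by ring
    _ ≤ u ^ 2 * A ^ 2 + 2 * u * (5 * u ^ 2 * exp (8 * S) * f2) + 25 * u ^ 3 * exp (8 * S) * f2 := by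
        linarith only [h3.trans h5, h6]
    _ = _ := by ring

/-- CH2 pointwise -/
theorem sq_div_le (hν : ∀ x, 0 ≤ ν x) (hν1 : ∑ x, ν x = 1) (hu0 : 0 ≤ u) (hu1 : u ≤ 1)
    (hS : 1 ≤ S) (hℓ : ∀ x, |ℓ x| ≤ S) (hq : ∀ x, |q x| ≤ S) (hF : ∑ x, ν x * F x = 0) :
    (∑ x, ν x * (F x * W ℓ q u x)) ^ 2 / Z ν ℓ q u
      ≤ u ^ 2 * (∑ x, ν x * (F x * ℓ x)) ^ 2
        + 43 * u ^ 3 * exp (12 * S) * ∑ x, ν x * F x ^ 2 := by
  have key := sq_le (F := F) hν hν1 hu0 hu1 hS hℓ hq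
  set f2 := ∑ x, ν x * F x ^ 2 with hf2
  have h0 : 0 ≤ f2 := Finset.sum_nonneg fun x _ => mul_nonneg (hν x) (sq_nonneg _)
  have hff : √f2 ^ 2 = f2 := sq_sqrt h0
  have e : ∑ x, ν x * (F x * W ℓ q u x) = ∑ x, ν x * (F x * (W ℓ q u x - 1)) := by
    simp only [mul_sub, mul_one, Finset.sum_sub_distrib, hF, sub_zero]
  rw [e]
  set N := ∑ x, ν x * (F x * (W ℓ q u x - 1)) with hN
  have hN' : |N| ≤ (2 * u * S * exp (2 * S)) * √f2 :=
    abs_sum_le hν hν1 (by (clear * - hu0 hS; positivity)) (fun x => abs_W_sub_one hu0 hu1 (by linarith only [hS]) hℓ hq x)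
  have hSe : S ≤ exp S := le_exp_self' S
  have h1 : N ^ 2 ≤ 4 * u ^ 2 * (S ^ 2 * exp (4 * S)) * f2 := by
    calc N ^ 2 = |N| ^ 2 := (sq_abs _).symm
      _ ≤ ((2 * u * S * exp (2 * S)) * √f2) ^ 2 := pow_le_pow_left₀ (abs_nonneg _) hN' 2
      _ = 4 * u ^ 2 * (S ^ 2 * exp (2 * S) ^ 2) * f2 := by rw [mul_pow, hff]; ring
      _ = _ := by rw [← exp_nat_mul]; congr 4; push_cast; ring
  have h2 := abs_inv_Z_sub_one hν hν1 hu0 hu1 (by linarith only [hS] : (0:ℝ) ≤ S) hℓ hq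
  have h3 : N ^ 2 * ((Z ν ℓ q u)⁻¹ - 1) ≤ 8 * u ^ 3 * exp (12 * S) * f2 := by
    calc N ^ 2 * ((Z ν ℓ q u)⁻¹ - 1) ≤ N ^ 2 * |(Z ν ℓ q u)⁻¹ - 1| :=
          mul_le_mul_of_nonneg_left (le_abs_self _) (sq_nonneg _)
      _ ≤ (4 * u ^ 2 * (S ^ 2 * exp (4 * S)) * f2) * (2 * u * S * exp (4 * S)) :=
          mul_le_mul h1 h2 (abs_nonneg _) (by (clear * - hS h0; positivity))
      _ = 8 * u ^ 3 * (S ^ 3 * (exp (4 * S) * exp (4 * S))) * f2 := by ring
      _ ≤ 8 * u ^ 3 * ((exp S) ^ 3 * (exp (4 * S) * exp (4 * S))) * f2 := by gcongr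
      _ = 8 * u ^ 3 * exp (11 * S) * f2 := by
          rw [← exp_nat_mul, ← exp_add, ← exp_add]; congr 3; push_cast; ring
      _ ≤ 8 * u ^ 3 * exp (12 * S) * f2 := by
          have : exp (11 * S) ≤ exp (12 * S) := exp_le_exp.2 (by linarith only [hS])
          gcongr
  have h4 : exp (8 * S) ≤ exp (12 * S) := exp_le_exp.2 (by linarith only [hS])
  have h5 : 35 * u ^ 3 * exp (8 * S) * f2 ≤ 35 * u ^ 3 * exp (12 * S) * f2 := by gcongr
  calc N ^ 2 / Z ν ℓ q u = N ^ 2 + N ^ 2 * ((Z ν ℓ q u)⁻¹ - 1) := by rw [div_eq_mul_inv]; ring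
    _ ≤ _ := by linarith only [h5, h3, key]

/-- CH3, CH4 pointwise -/
theorem Z_log_le (hν : ∀ x, 0 ≤ ν x) (hν1 : ∑ x, ν x = 1) (hu0 : 0 ≤ u) (hu1 : u ≤ 1)
    (hS : 1 ≤ S) (hℓ : ∀ x, |ℓ x| ≤ S) (hq : ∀ x, |q x| ≤ S) :
    Z ν ℓ q u * log (Z ν ℓ q u)
      ≤ (Z ν ℓ q u - 1) + u ^ 2 / 2 * (∑ x, ν x * ℓ x) ^ 2 + 22 * u ^ 3 * exp (12 * S) := by
  have h1 := mul_log_le (Z_pos (ℓ := ℓ) (q := q) (u := u) hν hν1)
  have h2 := abs_Z_sub_one hν hν1 hu0 hu1 (by linarith only [hS] : (0:ℝ) ≤ S) hℓ hq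
  have key := sq_le (F := fun _ => (1:ℝ)) hν hν1 hu0 hu1 hS hℓ hq
  have e : ∑ x, ν x * (1 * (W ℓ q u x - 1)) = Z ν ℓ q u - 1 := by
    simp only [one_mul, mul_sub, mul_one, Finset.sum_sub_distrib, hν1, Z]
  simp only [one_pow, mul_one, hν1] at key
  rw [e] at key
  simp only [one_mul] at key
  have hSe : S ≤ exp S := le_exp_self' S
  have h3 : |Z ν ℓ q u - 1| ^ 3 ≤ 8 * u ^ 3 * exp (12 * S) := by
    calc |Z ν ℓ q u - 1| ^ 3 ≤ (2 * u * S * exp (2 * S)) ^ 3 :=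
          pow_le_pow_left₀ (abs_nonneg _) h2 3
      _ = 8 * u ^ 3 * (S ^ 3 * exp (2 * S) ^ 3) := by ring
      _ ≤ 8 * u ^ 3 * ((exp S) ^ 3 * exp (2 * S) ^ 3) := by gcongr
      _ = 8 * u ^ 3 * exp (9 * S) := by
          rw [← exp_nat_mul, ← exp_nat_mul, ← exp_add]; congr 2; push_cast; ring
      _ ≤ _ := by
          have : exp (9 * S) ≤ exp (12 * S) := exp_le_exp.2 (by linarith only [hS])
          gcongr
  have h4 : exp (8 * S) ≤ exp (12 * S) := exp_le_exp.2 (by linarith only [hS])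
  have h5 : 35 * u ^ 3 * exp (8 * S) ≤ 35 * u ^ 3 * exp (12 * S) := by gcongr
  have h6 : 0 ≤ u ^ 3 * exp (12 * S) := by (clear * - hu0; positivity)
  linarith only [h1, key, h3, h5, h6]

end

end Vale.Agent.P150.F.CHP
end

section

/-! P150 FULL, module D8 (B): one step of the entropy recursion, in unnormalised form (helper686). -/

open MeasureTheory ProbabilityTheory Filter Topology Real
open scoped Matrix

namespace Vale.Agent.P150.F

variable {n m : ℕ} {S : Type} [MeasurableSpace S]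

/-- bounded measurable functionals of the state -/
def BM (Φ : S → ℝ) : Prop := Measurable Φ ∧ ∃ C, ∀ s, |Φ s| ≤ C

namespace BM

lemma const (c : ℝ) : BM (fun _ : S => c) := ⟨measurable_const, |c|, fun _ => le_rfl⟩

lemma add {Φ Ψ : S → ℝ} (h1 : BM Φ) (h2 : BM Ψ) : BM (fun s => Φ s + Ψ s) := by
  obtain ⟨m1, C1, b1⟩ := h1
  obtain ⟨m2, C2, b2⟩ := h2
  exact ⟨m1.add m2, C1 + C2, fun s => (abs_add_le _ _).trans (add_le_add (b1 s) (b2 s))⟩

lemma sub {Φ Ψ : S → ℝ} (h1 : BM Φ) (h2 : BM Ψ) : BM (fun s => Φ s - Ψ s) := by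
  obtain ⟨m1, C1, b1⟩ := h1
  obtain ⟨m2, C2, b2⟩ := h2
  exact ⟨m1.sub m2, C1 + C2, fun s => (abs_sub _ _).trans (add_le_add (b1 s) (b2 s))⟩

lemma mul {Φ Ψ : S → ℝ} (h1 : BM Φ) (h2 : BM Ψ) : BM (fun s => Φ s * Ψ s) := by
  obtain ⟨m1, C1, b1⟩ := h1
  obtain ⟨m2, C2, b2⟩ := h2
  refine ⟨m1.mul m2, C1 * C2, fun s => ?_⟩
  rw [abs_mul]
  exact mul_le_mul (b1 s) (b2 s) (abs_nonneg _) ((abs_nonneg _).trans (b1 s))

lemma const_mul {Φ : S → ℝ} (c : ℝ) (h : BM Φ) : BM (fun s => c * Φ s) := (const c).mul h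

lemma sum {ι : Type*} (t : Finset ι) {Φ : ι → S → ℝ} (h : ∀ i ∈ t, BM (Φ i)) :
    BM (fun s => ∑ i ∈ t, Φ i s) := by
  classical
  induction t using Finset.induction_on with
  | empty => simpa using const (S := S) 0
  | insert a t ha ih =>
    simp only [Finset.sum_insert ha]
    exact (h a (Finset.mem_insert_self a t)).add
      (ih fun i hi => h i (Finset.mem_insert_of_mem hi))

lemma pow_two {Φ : S → ℝ} (h : BM Φ) : BM (fun s => Φ s ^ 2) := by
  simp only [_root_.pow_two]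
  exact h.mul h

end BM

namespace Proc

variable (P : Proc n m S)

/-- one-step average of a functional of the state -/
noncomputable def U (Φ : S → ℝ) (s : S) : ℝ := P.avg (P.T fun s' _ => Φ s') s

lemma law_le_one (s : S) (x : Cfg n) : P.law s x ≤ 1 := by
  rw [← P.law_sum s]
  exact Finset.single_le_sum (f := P.law s) (fun x _ => (P.law_pos s x).le) (Finset.mem_univ x)

lemma bm_law (x : Cfg n) : BM (fun s => P.law s x) :=
  ⟨P.meas_law x, 1, fun s => by
    rw [abs_of_pos (P.law_pos s x)]; exact P.law_le_one s x⟩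

lemma integ {Φ : S → ℝ} (h : BM Φ) (s : S) (x : Cfg n) :
    Integrable (fun ξ => Φ (P.nx s x ξ)) (gpi (Fin m)) := by
  obtain ⟨hm, C, hC⟩ := h
  exact P.integrable_nx (Φ := fun s' _ => Φ s') (fun _ => hm) (fun s' _ => hC s') s x x

lemma U_mono {Φ Ψ : S → ℝ} (hΦ : BM Φ) (hΨ : BM Ψ) {s : S}
    (h : ∀ z, Φ (P.nxt s z) ≤ Ψ (P.nxt s z)) : P.U Φ s ≤ P.U Ψ s := by
  unfold U avg T
  refine Finset.sum_le_sum fun x _ => mul_le_mul_of_nonneg_left ?_ (P.law_pos s x).le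
  exact integral_mono (P.integ hΦ s x) (P.integ hΨ s x) fun ξ => h _

lemma U_add {Φ Ψ : S → ℝ} (hΦ : BM Φ) (hΨ : BM Ψ) (s : S) :
    P.U (fun s => Φ s + Ψ s) s = P.U Φ s + P.U Ψ s := by
  unfold U avg T
  rw [← Finset.sum_add_distrib]
  refine Finset.sum_congr rfl fun x _ => ?_
  rw [integral_add (P.integ hΦ s x) (P.integ hΨ s x), mul_add]

lemma U_const_mul (c : ℝ) (Φ : S → ℝ) (s : S) :
    P.U (fun s => c * Φ s) s = c * P.U Φ s := by
  unfold U avg T
  rw [Finset.mul_sum]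
  refine Finset.sum_congr rfl fun x _ => ?_
  rw [integral_const_mul]
  ring

lemma U_const (c : ℝ) (s : S) : P.U (fun _ => c) s = c := by
  unfold U avg
  simp only [P.T_const]
  rw [← Finset.sum_mul, law_sum, one_mul]

lemma U_avg (h1 : CH1) (hG : CHG) {Φ : S → Cfg n → ℝ} (hΦ : ∀ x, BM fun s => Φ s x) (s : S) :
    P.U (P.avg Φ) s = P.avg (P.T Φ) s := by
  symm
  exact P.avg_T h1 hG Φ s fun x => P.integ (hΦ x) s x

/-! ### the weighted law -/

/-- total weight of the density `f` in state `s` -/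
noncomputable def wt (f : Cfg n → ℝ) (s : S) : ℝ := Ex (P.law s) f

/-- the law with density proportional to `f` with respect to `law s` -/
noncomputable def nuf (f : Cfg n → ℝ) (s : S) (x : Cfg n) : ℝ := P.law s x * f x / P.wt f s

variable {f : Cfg n → ℝ}

lemma exists_lower (hf : ∀ x, 0 < f x) : ∃ c, 0 < c ∧ ∀ x, c ≤ f x := by
  obtain ⟨x0, hx0⟩ := Finite.exists_min f
  exact ⟨f x0, hf x0, hx0⟩

lemma exists_upper (f : Cfg n → ℝ) : ∃ C, ∀ x, |f x| ≤ C := by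
  obtain ⟨x0, hx0⟩ := Finite.exists_max fun x => |f x|
  exact ⟨|f x0|, hx0⟩

lemma le_wt {c : ℝ} (hc : ∀ x, c ≤ f x) (s : S) : c ≤ P.wt f s := by
  unfold wt Ex
  calc c = ∑ x, P.law s x * c := by rw [← Finset.sum_mul, law_sum, one_mul]
    _ ≤ _ := Finset.sum_le_sum fun x _ => mul_le_mul_of_nonneg_left (hc x) (P.law_pos s x).le

lemma wt_le {c : ℝ} (hc : ∀ x, f x ≤ c) (s : S) : P.wt f s ≤ c := by
  unfold wt Ex
  calc _ ≤ ∑ x, P.law s x * c :=
        Finset.sum_le_sum fun x _ => mul_le_mul_of_nonneg_left (hc x) (P.law_pos s x).le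
    _ = c := by rw [← Finset.sum_mul, law_sum, one_mul]

lemma wt_pos (hf : ∀ x, 0 < f x) (s : S) : 0 < P.wt f s := by
  obtain ⟨c, hc, h⟩ := exists_lower hf
  exact hc.trans_le (P.le_wt h s)

lemma bm_Ex (g : Cfg n → ℝ) : BM (fun s => Ex (P.law s) g) := by
  unfold Ex
  refine BM.sum _ fun x _ => ?_
  exact (P.bm_law x).mul (BM.const _)

lemma bm_wt (f : Cfg n → ℝ) : BM (P.wt f) := P.bm_Ex f

lemma bm_inv_wt (hf : ∀ x, 0 < f x) : BM (fun s => (P.wt f s)⁻¹) := by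
  obtain ⟨c, hc, h⟩ := exists_lower hf
  refine ⟨(P.bm_wt f).1.inv, c⁻¹, fun s => ?_⟩
  rw [abs_of_pos (inv_pos.2 (P.wt_pos hf s))]
  exact inv_anti₀ hc (P.le_wt h s)

lemma bm_log_wt (hf : ∀ x, 0 < f x) : BM (fun s => Real.log (P.wt f s)) := by
  obtain ⟨c, hc, h⟩ := exists_lower hf
  obtain ⟨C, hC⟩ := exists_upper f
  have hC' : ∀ x, f x ≤ C := fun x => (le_abs_self _).trans (hC x)
  refine ⟨(P.bm_wt f).1.log, max |Real.log c| |Real.log C|, fun s => ?_⟩
  have h1 := Real.log_le_log hc (P.le_wt h s)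
  have h2 := Real.log_le_log (P.wt_pos hf s) (P.wt_le hC' s)
  rw [abs_le]
  constructor
  · have h3 := neg_abs_le (Real.log c)
    have h4 := le_max_left |Real.log c| |Real.log C|
    linarith [h4, h3, h1]
  · have h3 := le_abs_self (Real.log C)
    have h4 := le_max_right |Real.log c| |Real.log C|
    linarith

lemma bm_nuf (hf : ∀ x, 0 < f x) (x : Cfg n) : BM (fun s => P.nuf f s x) := by
  unfold nuf
  simp only [div_eq_mul_inv]
  exact ((P.bm_law x).mul (BM.const _)).mul (P.bm_inv_wt hf)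

lemma nuf_pos (hf : ∀ x, 0 < f x) (s : S) (x : Cfg n) : 0 < P.nuf f s x :=
  div_pos (mul_pos (P.law_pos s x) (hf x)) (P.wt_pos hf s)

lemma nuf_isProb (hf : ∀ x, 0 < f x) (s : S) : IsProb (P.nuf f s) := by
  refine ⟨fun x => (P.nuf_pos hf s x).le, ?_⟩
  unfold nuf
  rw [← Finset.sum_div]
  exact div_self (P.wt_pos hf s).ne'

lemma law_nxt (hG : CHG) (s : S) (z : Vec n) :
    P.law (P.nxt s z) = pst (P.law s) (P.R s * (P.R s)ᵀ) (P.δ s) z := by
  unfold law
  rw [hG, P.hM, P.hy]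

lemma pst_nuf (hG : CHG) (hf : ∀ x, 0 < f x) (s : S) (z : Vec n) :
    pst (P.nuf f s) (P.R s * (P.R s)ᵀ) (P.δ s) z = P.nuf f (P.nxt s z) := by
  funext x
  have hA := P.wt_pos hf s
  unfold nuf
  have hZ : 0 < ∑ x', P.law s x' *
      Real.exp (ip z (sv x') - P.δ s / 2 * qf (P.R s * (P.R s)ᵀ) (sv x')) :=
    Finset.sum_pos (fun x' _ => mul_pos (P.law_pos s x') (Real.exp_pos _)) Finset.univ_nonempty
  have hZf : 0 < ∑ x', P.law s x' * f x' *
      Real.exp (ip z (sv x') - P.δ s / 2 * qf (P.R s * (P.R s)ᵀ) (sv x')) :=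
    Finset.sum_pos (fun x' _ => mul_pos (mul_pos (P.law_pos s x') (hf x')) (Real.exp_pos _))
      Finset.univ_nonempty
  have e1 : P.wt f (P.nxt s z) = (∑ x', P.law s x' * f x' *
      Real.exp (ip z (sv x') - P.δ s / 2 * qf (P.R s * (P.R s)ᵀ) (sv x'))) /
      ∑ x', P.law s x' * Real.exp (ip z (sv x') - P.δ s / 2 * qf (P.R s * (P.R s)ᵀ) (sv x')) := by
    unfold wt Ex
    rw [P.law_nxt hG, Finset.sum_div]
    refine Finset.sum_congr rfl fun x' _ => ?_
    unfold pst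
    ring
  rw [e1, P.law_nxt hG]
  unfold pst
  have e2 : ∑ x', P.law s x' * f x' / P.wt f s *
      Real.exp (ip z (sv x') - P.δ s / 2 * qf (P.R s * (P.R s)ᵀ) (sv x')) =
      (∑ x', P.law s x' * f x' *
      Real.exp (ip z (sv x') - P.δ s / 2 * qf (P.R s * (P.R s)ᵀ) (sv x'))) / P.wt f s := by
    rw [Finset.sum_div]
    refine Finset.sum_congr rfl fun x' _ => ?_
    ring
  rw [e2]
  generalize hZ1 : (∑ x', P.law s x' *
      Real.exp (ip z (sv x') - P.δ s / 2 * qf (P.R s * (P.R s)ᵀ) (sv x'))) = Z at *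
  generalize hZ2 : (∑ x', P.law s x' * f x' *
      Real.exp (ip z (sv x') - P.δ s / 2 * qf (P.R s * (P.R s)ᵀ) (sv x'))) = Zf at *
  generalize Real.exp (ip z (sv x) - P.δ s / 2 * qf (P.R s * (P.R s)ᵀ) (sv x)) = w
  field_simp

/-- change of measure for functionals of the new state -/
lemma wt_mul_EC (h1 : CH1) (hG : CHG) (hf : ∀ x, 0 < f x) {Φ : S → ℝ} (hΦ : BM Φ) (s : S) :
    P.wt f s * EC (P.nuf f s) (P.R s) (P.δ s) (fun _ z => Φ (P.nxt s z)) =
      P.U (fun s' => P.wt f s' * Φ s') s := by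
  have hA := P.wt_pos hf s
  have e1 : P.wt f s * EC (P.nuf f s) (P.R s) (P.δ s) (fun _ z => Φ (P.nxt s z)) =
      P.avg (P.T fun s' x => f x * Φ s') s := by
    unfold EC avg T
    rw [Finset.mul_sum]
    refine Finset.sum_congr rfl fun x _ => ?_
    rw [integral_const_mul]
    unfold nuf nx
    field_simp
  have e2 : (fun s' => P.wt f s' * Φ s') = P.avg (fun s' x => f x * Φ s') := by
    funext s'
    unfold wt Ex avg
    rw [Finset.sum_mul]
    exact Finset.sum_congr rfl fun x _ => by ring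
  rw [e1, e2, P.U_avg h1 hG fun x => (BM.const (f x)).mul hΦ]

lemma U_wt (h1 : CH1) (hG : CHG) (f : Cfg n → ℝ) (s : S) : P.U (P.wt f) s = P.wt f s := by
  have e : P.wt f = P.avg fun _ x => f x := rfl
  rw [e, P.U_avg h1 hG fun x => BM.const (f x)]
  unfold avg T
  refine Finset.sum_congr rfl fun x _ => ?_
  simp

/-! ### entropy -/

/-- entropy in state `s` -/
noncomputable def ent (f : Cfg n → ℝ) (s : S) : ℝ := EntX (P.law s) f

lemma bm_ent (hf : ∀ x, 0 < f x) : BM (P.ent f) := by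
  unfold ent EntX
  exact (P.bm_Ex _).sub ((P.bm_wt f).mul (P.bm_log_wt hf))

lemma ent_eq (hf : ∀ x, 0 < f x) (s : S) :
    P.ent f s = P.wt f s * KL (P.nuf f s) (P.law s) := by
  have hA := P.wt_pos hf s
  unfold ent EntX KL
  have e : ∀ x, P.nuf f s x * Real.log (P.nuf f s x / P.law s x) =
      P.law s x * (f x * Real.log (f x)) / P.wt f s
        - P.law s x * f x * (Real.log (P.wt f s) / P.wt f s) := by
    intro x
    have hl := P.law_pos s x
    have e1 : P.nuf f s x / P.law s x = f x / P.wt f s := by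
      unfold nuf
      field_simp
    rw [e1, Real.log_div (hf x).ne' hA.ne']
    unfold nuf
    field_simp
  rw [Finset.sum_congr rfl fun x _ => e x, Finset.sum_sub_distrib, ← Finset.sum_div,
    ← Finset.sum_mul]
  have e3 : ∑ x, P.law s x * f x = P.wt f s := rfl
  rw [e3]
  unfold Ex
  have e4 : ∑ x, P.law s x * f x = P.wt f s := rfl
  rw [e4]
  field_simp

lemma ent_le (hf : ∀ x, 0 < f x) {Lf : ℝ} (hL : ∀ x, Real.log (f x) ≤ Lf) (s : S) :
    P.ent f s ≤ Lf * P.wt f s + 1 := by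
  have hA := P.wt_pos hf s
  unfold ent EntX
  have h1 : (Ex (P.law s) fun x => f x * Real.log (f x)) ≤ Lf * P.wt f s := by
    unfold Ex wt Ex
    rw [Finset.mul_sum]
    refine Finset.sum_le_sum fun x _ => ?_
    have h2 := mul_le_mul_of_nonneg_left (hL x) (mul_nonneg (P.law_pos s x).le (hf x).le)
    linarith
  have h3 : -(Ex (P.law s) f * Real.log (Ex (P.law s) f)) ≤ 1 := by
    have h4 : 0 < Ex (P.law s) f := hA
    have h5 := Real.one_sub_inv_le_log_of_pos h4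
    have h6 := mul_le_mul_of_nonneg_left h5 h4.le
    have h7 : Ex (P.law s) f * (1 - (Ex (P.law s) f)⁻¹) = Ex (P.law s) f - 1 := by
      field_simp
    linarith only [h4, h6, h7]
  linarith

/-- one step of the entropy -/
lemma ent_step (h1 : CH1) (hG : CHG) (h4 : CH4') (hf : ∀ x, 0 < f x) {E : ℝ} {s : S}
    (hE : EC (P.nuf f s) (P.R s) (P.δ s)
      (fun _ z => Real.log (evd (P.nuf f s) (P.R s * (P.R s)ᵀ) (P.δ s) z)
        - Real.log (evd (P.law s) (P.R s * (P.R s)ᵀ) (P.δ s) z)) ≤ E) :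
    P.ent f s ≤ P.U (P.ent f) s + P.wt f s * E := by
  have hA := P.wt_pos hf s
  have hch := h4 n m (P.R s) (P.δ s) (P.hδ s).le (P.nuf f s) (P.law s) (P.nuf_isProb hf s)
    (P.law_isProb s) (P.law_pos s)
  have e1 : (fun (_ : Cfg n) (z : Vec n) => KL (pst (P.nuf f s) (P.R s * (P.R s)ᵀ) (P.δ s) z)
      (pst (P.law s) (P.R s * (P.R s)ᵀ) (P.δ s) z)) =
      fun _ z => (fun s' => KL (P.nuf f s') (P.law s')) (P.nxt s z) := by
    funext _ z
    beta_reduce
    rw [P.pst_nuf hG hf, P.law_nxt hG]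
  rw [e1] at hch
  have hbm : BM (fun s' => KL (P.nuf f s') (P.law s')) := by
    have : (fun s' => KL (P.nuf f s') (P.law s')) = fun s' => P.ent f s' * (P.wt f s')⁻¹ := by
      funext s'
      rw [P.ent_eq hf]
      have := P.wt_pos hf s'
      field_simp
    rw [this]
    exact (P.bm_ent hf).mul (P.bm_inv_wt hf)
  have h5 := P.wt_mul_EC h1 hG hf hbm s
  have e6 : (fun s' => P.wt f s' * KL (P.nuf f s') (P.law s')) = P.ent f := by
    funext s'
    rw [P.ent_eq hf]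
  rw [e6] at h5
  rw [P.ent_eq hf, hch, mul_add, h5]
  have := mul_le_mul_of_nonneg_left hE hA.le
  linarith only [this]

/-! ### entropy production -/

/-- entropy production in state `s` -/
noncomputable def ep (f : Cfg n → ℝ) (s : S) : ℝ := DirW (P.law s) f fun x => Real.log (f x)

lemma DirW_eq_AW (μ f g : Cfg n → ℝ) :
    DirW μ f g = AW μ fun i x => 1 / 2 * ((f (flip x i) - f x) * (g (flip x i) - g x)) := by
  unfold DirW AW
  rw [Finset.mul_sum]
  refine Finset.sum_congr rfl fun i _ => ?_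
  rw [Finset.mul_sum]
  exact Finset.sum_congr rfl fun x _ => by ring

lemma ep_arg_nonneg (hf : ∀ x, 0 < f x) (x y : Cfg n) :
    0 ≤ 1 / 2 * ((f y - f x) * (Real.log (f y) - Real.log (f x))) := by
  rcases le_total (f x) (f y) with h | h
  · have h2 := Real.log_le_log (hf x) h
    exact mul_nonneg (by norm_num) (mul_nonneg (by linarith) (by linarith))
  · have h2 := Real.log_le_log (hf y) h
    have h3 := mul_nonneg_of_nonpos_of_nonpos (a := f y - f x)
      (b := Real.log (f y) - Real.log (f x)) (by linarith) (by linarith)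
    linarith [h3]

lemma ep_nonneg (hf : ∀ x, 0 < f x) (s : S) : 0 ≤ P.ep f s := by
  unfold ep
  rw [DirW_eq_AW]
  unfold AW
  refine Finset.sum_nonneg fun i _ => Finset.sum_nonneg fun x _ => ?_
  refine mul_nonneg ?_ (ep_arg_nonneg hf _ _)
  have h1 := P.law_pos s x
  have h2 := P.law_pos s (flip x i)
  positivity

lemma bm_ep (f : Cfg n → ℝ) : BM (P.ep f) := by
  unfold ep DirW
  refine BM.const_mul _ (BM.sum _ fun i _ => BM.sum _ fun x _ => BM.mul ?_ (BM.const _))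
  refine ⟨((P.meas_law x).mul (P.meas_law _)).div ((P.meas_law x).add (P.meas_law _)), 1,
    fun s => ?_⟩
  have h1 := P.law_pos s x
  have h2 := P.law_pos s (flip x i)
  have h3 := P.law_le_one s (flip x i)
  rw [abs_of_nonneg (by positivity), div_le_one (by (clear * - h1 h2; positivity))]
  nlinarith

lemma U_ep_le (h5 : CH5) (hG : CHG) (hf : ∀ x, 0 < f x) (s : S) :
    P.U (P.ep f) s ≤ P.ep f s := by
  have h := h5 n m (P.R s) (P.δ s) (P.hδ s).le (P.law s) (P.law_isProb s)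
    (fun i x => 1 / 2 * ((f (flip x i) - f x) *
      (Real.log (f (flip x i)) - Real.log (f x)))) (fun i x => ep_arg_nonneg hf _ _)
  have e : P.U (P.ep f) s = EC (P.law s) (P.R s) (P.δ s) (fun _ z =>
      AW (pst (P.law s) (P.R s * (P.R s)ᵀ) (P.δ s) z) (fun i x => 1 / 2 * ((f (flip x i) - f x) *
      (Real.log (f (flip x i)) - Real.log (f x))))) := by
    unfold U avg T EC nx
    refine Finset.sum_congr rfl fun x _ => ?_
    congr 1
    refine integral_congr_ae (Eventually.of_forall fun ξ => ?_)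
    beta_reduce
    unfold ep
    rw [DirW_eq_AW, P.law_nxt hG]
  rw [e]
  refine h.trans (le_of_eq ?_)
  unfold ep
  rw [DirW_eq_AW]

/-! ### the weighted hitting probability -/

/-- `μ_s(f · hit_k)` -/
noncomputable def wh (f : Cfg n → ℝ) (B : ℕ → Set S) (k : ℕ) (s : S) : ℝ :=
  P.avg (fun s x => f x * P.hit B k s x) s

lemma bm_hit {B : ℕ → Set S} (hB : ∀ k, MeasurableSet (B k)) (k : ℕ) (x : Cfg n) :
    BM (fun s => P.hit B k s x) := ⟨P.meas_hit B hB k x, 1, fun s => P.abs_hit_le B k s x⟩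

lemma bm_avg {Φ : S → Cfg n → ℝ} (h : ∀ x, BM fun s => Φ s x) : BM (P.avg Φ) := by
  unfold avg
  exact BM.sum _ fun x _ => (P.bm_law x).mul (h x)

lemma bm_wh {B : ℕ → Set S} (hB : ∀ k, MeasurableSet (B k)) (k : ℕ) : BM (P.wh f B k) :=
  P.bm_avg fun x => (BM.const (f x)).mul (P.bm_hit hB k x)

lemma bm_hitE {B : ℕ → Set S} (hB : ∀ k, MeasurableSet (B k)) (k : ℕ) : BM (P.hitE B k) :=
  P.bm_avg fun x => P.bm_hit hB k x

lemma wh_nonneg (hf : ∀ x, 0 < f x) (B : ℕ → Set S) (k : ℕ) (s : S) : 0 ≤ P.wh f B k s :=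
  Finset.sum_nonneg fun x _ => mul_nonneg (P.law_pos s x).le
    (mul_nonneg (hf x).le (P.hit_nonneg B k s x))

lemma wh_of_mem (f : Cfg n → ℝ) (B : ℕ → Set S) {k : ℕ} {s : S} (h : s ∈ B k) :
    P.wh f B k s = P.wt f s := by
  unfold wh avg wt Ex
  exact Finset.sum_congr rfl fun x _ => by beta_reduce; rw [P.hit_of_mem B h, mul_one]

lemma U_wh (h1 : CH1) (hG : CHG) {B : ℕ → Set S} (hB : ∀ k, MeasurableSet (B k)) {k : ℕ} {s : S}
    (h : s ∉ B (k + 1)) : P.U (P.wh f B k) s = P.wh f B (k + 1) s := by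
  have e : P.wh f B k = P.avg fun s x => f x * P.hit B k s x := rfl
  rw [e, P.U_avg h1 hG fun x => (BM.const (f x)).mul (P.bm_hit hB k x)]
  unfold wh avg
  refine Finset.sum_congr rfl fun x _ => ?_
  congr 1
  beta_reduce
  rw [P.hit_succ_not B h]
  unfold T
  rw [integral_const_mul]

lemma U_hitE (h1 : CH1) (hG : CHG) {B : ℕ → Set S} (hB : ∀ k, MeasurableSet (B k)) {k : ℕ} {s : S}
    (h : s ∉ B (k + 1)) : P.U (P.hitE B k) s = P.hitE B (k + 1) s :=
  (P.hitE_succ h1 hG B hB h).symm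

end Proc

end Vale.Agent.P150.F
end

section

/-! P150 FULL, module D3a (helper216): in zero field the AMP overlaps of every near-DLR law tend to
zero. Filter form. -/

open MeasureTheory ProbabilityTheory Filter Topology
open scoped Matrix

namespace Vale.Agent.P150.F

namespace D3

variable {n : ℕ}

/-! ### expectations -/

lemma Ex_add (ν f g : Cfg n → ℝ) : Ex ν (fun x => f x + g x) = Ex ν f + Ex ν g := by
  unfold Ex
  rw [← Finset.sum_add_distrib]
  exact Finset.sum_congr rfl fun x _ => by ring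

lemma Ex_sub (ν f g : Cfg n → ℝ) : Ex ν (fun x => f x - g x) = Ex ν f - Ex ν g := by
  unfold Ex
  rw [← Finset.sum_sub_distrib]
  exact Finset.sum_congr rfl fun x _ => by ring

lemma Ex_mul (ν f : Cfg n → ℝ) (c : ℝ) : Ex ν (fun x => c * f x) = c * Ex ν f := by
  unfold Ex
  rw [Finset.mul_sum]
  exact Finset.sum_congr rfl fun x _ => by ring

lemma Ex_const {ν : Cfg n → ℝ} (hν : IsProb ν) (c : ℝ) : Ex ν (fun _ => c) = c := by
  unfold Ex
  rw [← Finset.sum_mul, hν.2, one_mul]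

lemma Ex_mono {ν : Cfg n → ℝ} (hν : IsProb ν) {f g : Cfg n → ℝ} (h : ∀ x, f x ≤ g x) :
    Ex ν f ≤ Ex ν g :=
  Finset.sum_le_sum fun x _ => mul_le_mul_of_nonneg_left (h x) (hν.1 x)

lemma Ex_nonneg {ν : Cfg n → ℝ} (hν : IsProb ν) {f : Cfg n → ℝ} (h : ∀ x, 0 ≤ f x) :
    0 ≤ Ex ν f :=
  Finset.sum_nonneg fun x _ => mul_nonneg (hν.1 x) (h x)

lemma Ex_abs_le {ν : Cfg n → ℝ} (hν : IsProb ν) (f : Cfg n → ℝ) :
    |Ex ν f| ≤ Ex ν (fun x => |f x|) := by
  unfold Ex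
  refine (Finset.abs_sum_le_sum_abs _ _).trans (le_of_eq ?_)
  exact Finset.sum_congr rfl fun x _ => by rw [abs_mul, abs_of_nonneg (hν.1 x)]

lemma Ex_le_sqrt {ν : Cfg n → ℝ} (hν : IsProb ν) (f : Cfg n → ℝ) :
    Ex ν f ≤ √(Ex ν (fun x => f x ^ 2)) := by
  apply Real.le_sqrt_of_sq_le
  have h1 : 0 ≤ Ex ν (fun x => (f x - Ex ν f) ^ 2) := Ex_nonneg hν fun x => sq_nonneg _
  have h2 : Ex ν (fun x => (f x - Ex ν f) ^ 2) = Ex ν (fun x => f x ^ 2) - Ex ν f ^ 2 := by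
    have h3 : (fun x => (f x - Ex ν f) ^ 2) =
        fun x => (f x ^ 2 - 2 * Ex ν f * f x) + Ex ν f ^ 2 := by
      funext x
      ring
    rw [h3, Ex_add, Ex_sub, Ex_mul, Ex_const hν]
    ring
  linarith

/-! ### the AMP iterates -/

lemma ampM_succ (M : Mat n) (r : ℝ) (y : Vec n) (x : Cfg n) (k : ℕ) (i : Fin n) :
    ampM M r y x (k + 1) i = Real.tanh (ampA M r y x k i) := by
  cases k <;> rfl

lemma ampA_succ (M : Mat n) (r : ℝ) (y : Vec n) (x : Cfg n) (k : ℕ) (i : Fin n) :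
    ampA M r y x (k + 1) i = M.mulVec (ampM M r y x (k + 1)) i + y i
      - r ^ 2 * (1 - qq (ampM M r y x (k + 1))) * ampM M r y x k i := rfl

lemma abs_sv (x : Cfg n) (i : Fin n) : |sv x i| = 1 := by
  unfold sv
  cases x i <;> simp [sp]

lemma abs_ampM_lt (M : Mat n) (r : ℝ) (y : Vec n) (x : Cfg n) (k : ℕ) (i : Fin n) :
    |ampM M r y x (k + 1) i| < 1 := by
  rw [ampM_succ]
  exact Real.abs_tanh_lt_one _

lemma abs_ampM_le (M : Mat n) (r : ℝ) (y : Vec n) (x : Cfg n) (k : ℕ) (i : Fin n) :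
    |ampM M r y x k i| ≤ 1 := by
  cases k with
  | zero => exact (abs_sv x i).le
  | succ k => exact (abs_ampM_lt M r y x k i).le

lemma qq_ampM_le (M : Mat n) (r : ℝ) (y : Vec n) (x : Cfg n) (k : ℕ) :
    qq (ampM M r y x k) ≤ 1 := qq_le_one (abs_ampM_le M r y x k)

lemma qq_ampM_zero (hn : 0 < n) (M : Mat n) (r : ℝ) (y : Vec n) (x : Cfg n) :
    qq (ampM M r y x 0) = 1 := by
  have h1 : sq (ampM M r y x 0) = n := by
    change ∑ i, sv x i ^ 2 = n
    have : ∀ i, sv x i ^ 2 = 1 := fun i => by rw [← sq_abs, abs_sv, one_pow]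
    simp [this]
  unfold qq
  rw [h1, div_self]
  exact_mod_cast hn.ne'

lemma abs_qq_sub_le {u v : Vec n} (hu : ∀ i, |u i| ≤ 1) (hv : ∀ i, |v i| ≤ 1) :
    |qq u - qq v| * √n ≤ 2 * nv (u - v) := by
  rcases Nat.eq_zero_or_pos n with rfl | hn
  · simp [nv_nonneg]
  have hn' : (0 : ℝ) < n := by exact_mod_cast hn
  have hs : 0 < √(n : ℝ) := Real.sqrt_pos.2 hn'
  have h1 : |nv u - nv v| ≤ nv (u - v) := by
    rw [abs_le]
    constructor
    · have h2 := nv_sub_triangle v u 0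
      rw [sub_zero, sub_zero, nv_sub_comm] at h2
      linarith only [h2]
    · have h2 := nv_sub_triangle u v 0
      rw [sub_zero, sub_zero] at h2
      linarith only [h2]
  have h2 : qq u - qq v = (nv u - nv v) * (nv u + nv v) / n := by
    unfold qq
    rw [← nv_sq, ← nv_sq]
    ring
  have h3 : nv u + nv v ≤ 2 * √n := by
    have := nv_le_sqrt_n hu
    have := nv_le_sqrt_n hv
    linarith
  have h4 : 0 ≤ nv u + nv v := add_nonneg (nv_nonneg u) (nv_nonneg v)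
  have h5 : √(n : ℝ) * √n = n := Real.mul_self_sqrt hn'.le
  rw [h2, abs_div, abs_mul, abs_of_nonneg h4, abs_of_pos hn', div_mul_eq_mul_div, div_le_iff₀ hn']
  calc |nv u - nv v| * (nv u + nv v) * √n ≤ nv (u - v) * (2 * √n) * √n := by
        have := nv_nonneg (u - v)
        gcongr
    _ = 2 * nv (u - v) * (√n * √n) := by ring
    _ = 2 * nv (u - v) * n := by rw [h5]

/-- `Q_k = E q_k` -/
noncomputable def Qk (M : Mat n) (r : ℝ) (y : Vec n) (ν : Cfg n → ℝ) (k : ℕ) : ℝ :=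
  Ex ν fun x => qq (ampM M r y x k)

/-- `E_k = E |m^k - m^{k+1}|² / n` -/
noncomputable def Ek (M : Mat n) (r : ℝ) (y : Vec n) (ν : Cfg n → ℝ) (k : ℕ) : ℝ :=
  Ex ν fun x => sq (ampM M r y x k - ampM M r y x (k + 1)) / n

lemma tap_bound {J : Mat n} {β q₀ c : ℝ} (hβ0 : 0 ≤ β) (hβ1 : β ≤ 1) (hJ : OpLe J 3)
    (hSS : SS β q₀ c J) (hc : 0 < c) (hn : 0 < n) (x : Cfg n) (j : ℕ) (hq₀ : 0 ≤ q₀) :
    qq (ampM (β • J) β 0 x (j + 2)) ≤ q₀ + 6 / c *
      (nv (ampM (β • J) β 0 x j - ampM (β • J) β 0 x (j + 1)) / √n +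
        nv (ampM (β • J) β 0 x (j + 1) - ampM (β • J) β 0 x (j + 2)) / √n) := by
  set m0 := ampM (β • J) β 0 x j with hm0
  set m1 := ampM (β • J) β 0 x (j + 1) with hm1
  set m2 := ampM (β • J) β 0 x (j + 2) with hm2
  have hn' : (0 : ℝ) < n := by exact_mod_cast hn
  have hs : 0 < √(n : ℝ) := Real.sqrt_pos.2 hn'
  have b1 : ∀ i, |m1 i| ≤ 1 := abs_ampM_le _ _ _ x (j + 1)
  have b2 : ∀ i, |m2 i| < 1 := abs_ampM_lt _ _ _ x (j + 1)
  have hd0 : 0 ≤ nv (m0 - m1) := nv_nonneg _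
  have hd1 : 0 ≤ nv (m1 - m2) := nv_nonneg _
  rcases lt_or_ge (qq m2) q₀ with h | h
  · have : 0 ≤ 6 / c * (nv (m0 - m1) / √n + nv (m1 - m2) / √n) := by positivity
    linarith
  have h1 := hSS m2 b2 h
  set T : Vec n := (β • J.mulVec (m1 - m2) + (β ^ 2 * (1 - qq m1)) • (m2 - m0)) +
    (β ^ 2 * (qq m1 - qq m2)) • m2 with hT
  have h2 : (∑ i, m2 i * Real.artanh (m2 i)) + β ^ 2 * (1 - qq m2) * sq m2 - β * qf J m2
      = ip m2 T := by
    unfold qf ip sq
    rw [Finset.mul_sum, Finset.mul_sum, ← Finset.sum_add_distrib, ← Finset.sum_sub_distrib]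
    refine Finset.sum_congr rfl fun i _ => ?_
    have h3 : Real.artanh (m2 i) = (β • J).mulVec m1 i + 0 - β ^ 2 * (1 - qq m1) * m0 i := by
      have : m2 i = Real.tanh (ampA (β • J) β 0 x (j + 1) i) := ampM_succ _ _ _ x (j + 1) i
      rw [this, Real.artanh_tanh, ampA_succ]
      rfl
    rw [h3, hT, Matrix.smul_mulVec, Matrix.mulVec_sub]
    simp only [Pi.add_apply, Pi.smul_apply, Pi.sub_apply, smul_eq_mul]
    ring
  have hb0 : 0 ≤ β ^ 2 := sq_nonneg _
  have hb1 : β ^ 2 ≤ 1 := pow_le_one₀ hβ0 hβ1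
  have hq1 : 0 ≤ qq m1 := qq_nonneg _
  have hq1' : qq m1 ≤ 1 := qq_le_one b1
  have n1 : nv (β • J.mulVec (m1 - m2)) ≤ 3 * nv (m1 - m2) := by
    rw [nv_smul, abs_of_nonneg hβ0]
    have h3 := hJ.nv_le (by norm_num) (m1 - m2)
    calc β * nv (J.mulVec (m1 - m2)) ≤ 1 * (3 * nv (m1 - m2)) := by
          have := nv_nonneg (J.mulVec (m1 - m2))
          gcongr
      _ = _ := one_mul _
  have n2 : nv ((β ^ 2 * (1 - qq m1)) • (m2 - m0)) ≤ nv (m0 - m1) + nv (m1 - m2) := by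
    rw [nv_smul]
    have h3 : |β ^ 2 * (1 - qq m1)| ≤ 1 := by
      rw [abs_of_nonneg (mul_nonneg hb0 (by linarith only [hq1']))]
      calc β ^ 2 * (1 - qq m1) ≤ 1 * 1 := mul_le_mul hb1 (by linarith only [hq1]) (by linarith) zero_le_one
        _ = 1 := one_mul _
    have h4 : nv (m2 - m0) ≤ nv (m0 - m1) + nv (m1 - m2) := by
      rw [nv_sub_comm]
      exact nv_sub_triangle _ _ _
    calc |β ^ 2 * (1 - qq m1)| * nv (m2 - m0) ≤ 1 * nv (m2 - m0) := by
          have := nv_nonneg (m2 - m0)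
          gcongr
      _ ≤ _ := by rw [one_mul]; exact h4
  have n3 : nv ((β ^ 2 * (qq m1 - qq m2)) • m2) ≤ 2 * nv (m1 - m2) := by
    rw [nv_smul, abs_mul, abs_of_nonneg hb0]
    have h3 : nv m2 ≤ √n := nv_le_sqrt_n fun i => (b2 i).le
    have h4 := abs_qq_sub_le b1 (fun i => (b2 i).le)
    calc β ^ 2 * |qq m1 - qq m2| * nv m2 ≤ 1 * |qq m1 - qq m2| * √n := by
          have := nv_nonneg m2
          gcongr
      _ ≤ _ := by rw [one_mul]; exact h4
  have hTn : nv T ≤ 6 * (nv (m0 - m1) + nv (m1 - m2)) := by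
    have h3 := nv_add_le (β • J.mulVec (m1 - m2) + (β ^ 2 * (1 - qq m1)) • (m2 - m0))
      ((β ^ 2 * (qq m1 - qq m2)) • m2)
    have h4 := nv_add_le (β • J.mulVec (m1 - m2)) ((β ^ 2 * (1 - qq m1)) • (m2 - m0))
    rw [← hT] at h3
    linarith only [hd0, n1, n2, n3, h3, h4]
  have h5 : c * n ≤ √n * (6 * (nv (m0 - m1) + nv (m1 - m2))) := by
    calc c * n ≤ ip m2 T := by rw [← h2]; exact h1
      _ ≤ nv m2 * nv T := ip_le _ _
      _ ≤ √n * (6 * (nv (m0 - m1) + nv (m1 - m2))) := by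
          have := nv_nonneg T
          have h3 : nv m2 ≤ √n := nv_le_sqrt_n fun i => (b2 i).le
          gcongr
  have h6 : 1 ≤ 6 / c * (nv (m0 - m1) / √n + nv (m1 - m2) / √n) := by
    rw [← add_div, div_mul_div_comm, le_div_iff₀ (by positivity), one_mul]
    have h7 : √(n : ℝ) * √n = n := Real.mul_self_sqrt hn'.le
    have h8 : √(n : ℝ) * (c * √n) ≤ √n * (6 * (nv (m0 - m1) + nv (m1 - m2))) := by
      calc √(n : ℝ) * (c * √n) = c * (√n * √n) := by ring
        _ = c * n := by rw [h7]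
        _ ≤ _ := h5
    exact le_of_mul_le_mul_left h8 hs
  have h9 : qq m2 ≤ 1 := qq_le_one fun i => (b2 i).le
  linarith only [h9, h6, hq₀]

lemma Qk_bound {J : Mat n} {β q₀ c : ℝ} (hβ0 : 0 ≤ β) (hβ1 : β ≤ 1) (hJ : OpLe J 3)
    (hSS : SS β q₀ c J) (hc : 0 < c) (hn : 0 < n) (hq₀ : 0 ≤ q₀) {ν : Cfg n → ℝ}
    (hν : IsProb ν) (j : ℕ) :
    Qk (β • J) β 0 ν (j + 2) ≤ q₀ + 6 / c * (√(Ek (β • J) β 0 ν j) + √(Ek (β • J) β 0 ν (j + 1))) := by
  have hn' : (0 : ℝ) < n := by exact_mod_cast hn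
  have key : ∀ k, Ex ν (fun x => nv (ampM (β • J) β 0 x k - ampM (β • J) β 0 x (k + 1)) / √n) ≤
      √(Ek (β • J) β 0 ν k) := by
    intro k
    refine (Ex_le_sqrt hν _).trans (le_of_eq ?_)
    unfold Ek
    congr 2
    funext x
    rw [div_pow, nv_sq, Real.sq_sqrt hn'.le]
  calc Qk (β • J) β 0 ν (j + 2)
      ≤ Ex ν (fun x => q₀ + 6 / c *
      (nv (ampM (β • J) β 0 x j - ampM (β • J) β 0 x (j + 1)) / √n +
        nv (ampM (β • J) β 0 x (j + 1) - ampM (β • J) β 0 x (j + 2)) / √n)) :=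
        Ex_mono hν fun x => tap_bound hβ0 hβ1 hJ hSS hc hn x j hq₀
    _ = q₀ + 6 / c * (Ex ν (fun x => nv (ampM (β • J) β 0 x j - ampM (β • J) β 0 x (j + 1)) / √n) +
        Ex ν (fun x => nv (ampM (β • J) β 0 x (j + 1) - ampM (β • J) β 0 x (j + 2)) / √n)) := by
        rw [Ex_add ν (fun _ => q₀), Ex_const hν, Ex_mul, Ex_add]
    _ ≤ _ := by
        have h1 := key j
        have h2 := key (j + 1)
        gcongr

/-- the summation argument -/
lemma sum_arg {Q E : ℕ → ℝ} {q₀ c δ : ℝ} {N : ℕ} (hN : 1 ≤ N) (hc : 0 < c)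
    (hQ0 : ∀ k, 0 ≤ Q k) (hQ1 : ∀ k, Q k ≤ 1) (hE : ∀ k, 0 ≤ E k) (hδ : 0 ≤ δ)
    (hd : ∀ k, 1 ≤ k → k ≤ N + 1 → |Q k - Q (k + 1) - E k| ≤ δ)
    (hb : ∀ j, Q (j + 2) ≤ q₀ + 6 / c * (√(E j) + √(E (j + 1)))) :
    Q (N + 2) ≤ q₀ + N * δ + 12 / c * √((N + 1) * (1 + (N + 1) * δ)) / N := by
  have hN0 : (0 : ℝ) < N := by exact_mod_cast hN
  -- monotonicity up to δ
  have hmono : ∀ l, l ≤ N → Q (N + 2) ≤ Q (N + 2 - l) + l * δ := by
    intro l
    induction l with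
    | zero => intro _; simp
    | succ l ih =>
      intro hl
      have h1 := ih (by omega)
      have e : N + 2 - l = (N + 2 - (l + 1)) + 1 := by omega
      have h2 := hd (N + 2 - (l + 1)) (by omega) (by omega)
      rw [← e] at h2
      have h3 := (abs_le.1 h2).1
      have h4 := hE (N + 2 - (l + 1))
      rw [Nat.cast_succ]
      linarith only [h1, h3, h4]
  -- total energy
  have htot : ∀ l, l ≤ N + 1 → ∑ k ∈ Finset.Icc 1 l, E k ≤ Q 1 - Q (l + 1) + l * δ := by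
    intro l
    induction l with
    | zero => intro _; simp
    | succ l ih =>
      intro hl
      rw [Finset.sum_Icc_succ_top (by omega)]
      have h1 := ih (by omega)
      have h2 := (abs_le.1 (hd (l + 1) (by omega) hl)).1
      push_cast
      linarith only [h1, h2]
  have hE1 : ∑ k ∈ Finset.Icc 1 (N + 1), E k ≤ 1 + (N + 1) * δ := by
    have h1 := htot (N + 1) le_rfl
    have h2 := hQ1 1
    have h3 := hQ0 (N + 1 + 1)
    push_cast at h1
    linarith only [h1, h3, h2]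
  -- Cauchy-Schwarz
  have hCS : ∑ k ∈ Finset.Icc 1 (N + 1), √(E k) ≤ √((N + 1) * (1 + (N + 1) * δ)) := by
    apply Real.le_sqrt_of_sq_le
    have h1 := sq_sum_le_card_mul_sum_sq (s := Finset.Icc 1 (N + 1)) (f := fun k => √(E k))
    have h2 : ∑ k ∈ Finset.Icc 1 (N + 1), √(E k) ^ 2 = ∑ k ∈ Finset.Icc 1 (N + 1), E k :=
      Finset.sum_congr rfl fun k _ => Real.sq_sqrt (hE k)
    rw [h2, Nat.card_Icc, Nat.add_sub_cancel] at h1
    push_cast at h1
    refine h1.trans ?_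
    gcongr
  have hsub : ∀ j ∈ Finset.Icc 1 N, Q (N + 2) ≤ q₀ + N * δ + 6 / c * (√(E j) + √(E (j + 1))) := by
    intro j hj
    rw [Finset.mem_Icc] at hj
    have h1 := hmono (N - j) (by omega)
    have e : N + 2 - (N - j) = j + 2 := by omega
    rw [e] at h1
    have h2 := hb j
    have h3 : ((N - j : ℕ) : ℝ) * δ ≤ N * δ := by
      have : ((N - j : ℕ) : ℝ) ≤ N := by exact_mod_cast Nat.sub_le N j
      gcongr
    linarith only [h1, h2, h3]
  have h1 : ∑ _j ∈ Finset.Icc 1 N, Q (N + 2) ≤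
      ∑ j ∈ Finset.Icc 1 N, (q₀ + N * δ + 6 / c * (√(E j) + √(E (j + 1)))) :=
    Finset.sum_le_sum hsub
  rw [Finset.sum_const, Nat.card_Icc, Nat.add_sub_cancel, nsmul_eq_mul, Finset.sum_add_distrib,
    Finset.sum_const, Nat.card_Icc, Nat.add_sub_cancel, nsmul_eq_mul, ← Finset.mul_sum,
    Finset.sum_add_distrib] at h1
  have h2 : ∑ j ∈ Finset.Icc 1 N, √(E j) ≤ ∑ k ∈ Finset.Icc 1 (N + 1), √(E k) :=
    Finset.sum_le_sum_of_subset_of_nonneg (Finset.Icc_subset_Icc_right (by omega))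
      fun k _ _ => Real.sqrt_nonneg _
  have h3 : ∑ j ∈ Finset.Icc 1 N, √(E (j + 1)) ≤ ∑ k ∈ Finset.Icc 1 (N + 1), √(E k) := by
    rw [← Finset.sum_image (f := fun k => √(E k)) (g := fun j => j + 1)
      (s := Finset.Icc 1 N) (by intro a _ b _ h; exact Nat.succ_injective h)]
    refine Finset.sum_le_sum_of_subset_of_nonneg ?_ fun k _ _ => Real.sqrt_nonneg _
    intro k hk
    rw [Finset.mem_image] at hk
    obtain ⟨a, ha, rfl⟩ := hk
    rw [Finset.mem_Icc] at ha ⊢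
    omega
  have h4 : 6 / c * (∑ j ∈ Finset.Icc 1 N, √(E j) + ∑ j ∈ Finset.Icc 1 N, √(E (j + 1))) ≤
      12 / c * √((N + 1) * (1 + (N + 1) * δ)) := by
    calc 6 / c * (∑ j ∈ Finset.Icc 1 N, √(E j) + ∑ j ∈ Finset.Icc 1 N, √(E (j + 1)))
        ≤ 6 / c * (√((N + 1) * (1 + (N + 1) * δ)) + √((N + 1) * (1 + (N + 1) * δ))) := by
          gcongr
          · exact h2.trans hCS
          · exact h3.trans hCS
      _ = _ := by ring
  have h5 : N * Q (N + 2) ≤ N * (q₀ + N * δ + 12 / c * √((N + 1) * (1 + (N + 1) * δ)) / N) := by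
    rw [mul_add (N : ℝ), mul_div_cancel₀ _ hN0.ne']
    linarith only [h4, h1]
  exact le_of_mul_le_mul_left h5 hN0

/-- **D3a** (filter form): in zero field the AMP overlaps of near-DLR laws tend to zero. `hU3` is
the output (U3) of module D2. -/
theorem overlap_small {I : Type*} {F : Filter I} {n : I → ℕ} (hn : Tendsto n F atTop)
    {J : ∀ i, Mat (n i)} {ν : ∀ i, Cfg (n i) → ℝ} {β : ℝ} (hβ0 : 0 ≤ β) (hβ1 : β ≤ 1)
    (hJ : ∀ᶠ i in F, OpLe (J i) 3) (hν : ∀ᶠ i in F, IsProb (ν i))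
    (hSS : ∀ q₀ : ℝ, 0 < q₀ → ∃ c : ℝ, 0 < c ∧ ∀ᶠ i in F, SS β q₀ c (J i))
    (hU3 : ∀ k, 1 ≤ k → Tendsto (fun i => Ex (ν i) fun x =>
      |sq (ampM (β • J i) β 0 x k - ampM (β • J i) β 0 x (k + 1)) / n i
        - (qq (ampM (β • J i) β 0 x k) - qq (ampM (β • J i) β 0 x (k + 1)))|) F (𝓝 0))
    {ε : ℝ} (hε : 0 < ε) :
    ∃ K₀ : ℕ, ∀ K, K₀ ≤ K → ∀ᶠ i in F, Qk (β • J i) β 0 (ν i) K ≤ ε := by
  obtain ⟨c, hc, hSc⟩ := hSS (ε / 4) (by linarith only [hε])
  -- choice of `K₀`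
  have hlim : Tendsto (fun N : ℕ => 1 / ((N : ℝ) + 1) + 12 / c * √(2 * (N + 1)) / N) atTop
      (𝓝 0) := by
    have h1 : Tendsto (fun N : ℕ => 1 / ((N : ℝ) + 1)) atTop (𝓝 0) :=
      tendsto_one_div_add_atTop_nhds_zero_nat
    have h2 : Tendsto (fun N : ℕ => 12 / c * √(2 * (N + 1)) / N) atTop (𝓝 0) := by
      have h3 : Tendsto (fun N : ℕ => 24 / c * (√(N : ℝ))⁻¹) atTop (𝓝 0) := by
        have h4 : Tendsto (fun N : ℕ => (√(N : ℝ))⁻¹) atTop (𝓝 0) :=
          tendsto_inv_atTop_zero.comp (Real.tendsto_sqrt_atTop.comp tendsto_natCast_atTop_atTop)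
        have := h4.const_mul (24 / c)
        rwa [mul_zero] at this
      refine squeeze_zero' (Eventually.of_forall fun N => by positivity) ?_ h3
      filter_upwards [eventually_ge_atTop 1] with N hN
      have hN' : (1 : ℝ) ≤ N := by exact_mod_cast hN
      have hN0 : (0 : ℝ) < N := by linarith only [hN']
      have h5 : √(2 * ((N : ℝ) + 1)) ≤ 2 * √N := by
        apply Real.sqrt_le_iff.2
        refine ⟨by positivity, ?_⟩
        rw [mul_pow, Real.sq_sqrt hN0.le]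
        linarith only [hN']
      have h6 : √(N : ℝ) * √N = N := Real.mul_self_sqrt hN0.le
      have h7 : 0 < √(N : ℝ) := Real.sqrt_pos.2 hN0
      calc 12 / c * √(2 * (N + 1)) / N ≤ 12 / c * (2 * √N) / N := by gcongr
        _ = 24 / c * (√N / (√N * √N)) := by rw [h6]; ring
        _ = 24 / c * (√N)⁻¹ := by
            congr 1
            field_simp
    simpa using h1.add h2
  obtain ⟨N₀, hN₀⟩ := (hlim.eventually (gt_mem_nhds (by linarith only [hε] : (0 : ℝ) < ε / 2))).exists_forall_of_atTop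
  refine ⟨max N₀ 1 + 2, fun K hK => ?_⟩
  obtain ⟨N, rfl⟩ : ∃ N, K = N + 2 := ⟨K - 2, by omega⟩
  have hN1 : 1 ≤ N := by
    have := le_max_right N₀ 1
    omega
  have hNN : N₀ ≤ N := by
    have := le_max_left N₀ 1
    omega
  set δ : ℝ := 1 / ((N : ℝ) + 1) ^ 2 with hδ
  have hδ0 : 0 < δ := by positivity
  have hev : ∀ᶠ i in F, ∀ k ∈ Finset.Icc 1 (N + 1),
      |Qk (β • J i) β 0 (ν i) k - Qk (β • J i) β 0 (ν i) (k + 1) - Ek (β • J i) β 0 (ν i) k| ≤ δ := by
    rw [Filter.eventually_all_finset]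
    intro k hk
    rw [Finset.mem_Icc] at hk
    filter_upwards [(hU3 k hk.1).eventually (gt_mem_nhds hδ0), hν] with i hi hνi
    have e : Qk (β • J i) β 0 (ν i) k - Qk (β • J i) β 0 (ν i) (k + 1) - Ek (β • J i) β 0 (ν i) k
        = -Ex (ν i) (fun x => sq (ampM (β • J i) β 0 x k - ampM (β • J i) β 0 x (k + 1)) / n i
        - (qq (ampM (β • J i) β 0 x k) - qq (ampM (β • J i) β 0 x (k + 1)))) := by
      unfold Qk Ek
      rw [Ex_sub, Ex_sub]
      ring
    rw [e, abs_neg]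
    exact (Ex_abs_le hνi _).trans hi.le
  filter_upwards [hev, hν, hJ, hSc, hn.eventually (eventually_ge_atTop 1)] with i h1 h2 h3 h4 h5
  have hQ0 : ∀ k, 0 ≤ Qk (β • J i) β 0 (ν i) k := fun k =>
    Ex_nonneg h2 fun x => qq_nonneg _
  have hQ1 : ∀ k, Qk (β • J i) β 0 (ν i) k ≤ 1 := fun k => by
    refine (Ex_mono h2 (g := fun _ => 1) fun x => qq_ampM_le _ _ _ x k).trans ?_
    rw [Ex_const h2]
  have hE0 : ∀ k, 0 ≤ Ek (β • J i) β 0 (ν i) k := fun k =>
    Ex_nonneg h2 fun x => div_nonneg (sqN_nonneg _) (Nat.cast_nonneg _)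
  have h6 := sum_arg hN1 hc hQ0 hQ1 hE0 hδ0.le
    (fun k hk1 hk2 => h1 k (Finset.mem_Icc.2 ⟨hk1, hk2⟩))
    (fun j => Qk_bound hβ0 hβ1 h3 h4 hc h5 (by linarith only [hε]) h2 j)
  have hN0 : (0 : ℝ) < N := by exact_mod_cast hN1
  have h7 : N * δ ≤ 1 / ((N : ℝ) + 1) := by
    rw [hδ, mul_one_div, div_le_div_iff₀ (by positivity) (by positivity)]
    linarith only [hN0]
  have h8 : ((N : ℝ) + 1) * (1 + (N + 1) * δ) ≤ 2 * (N + 1) := by
    have h9 : ((N : ℝ) + 1) * δ ≤ 1 := by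
      rw [hδ, mul_one_div, div_le_one (by (clear * - hN1; positivity))]
      (by_contra nlg; linarith only [mul_nonneg (sq_nonneg (↑N + 1 : ℝ)) (le_of_lt (sub_pos.2 (not_le.1 nlg))), mul_nonneg (sq_nonneg (↑N + 1 : ℝ)) (le_of_lt (sub_pos.2 hN0)), mul_pos (sub_pos.2 (not_le.1 nlg)) (sub_pos.2 (not_le.1 nlg))])
    linarith only [mul_nonneg (sub_nonneg.2 h9) (le_of_lt (sub_pos.2 hN0)), h9]
  have h10 := hN₀ N hNN
  have h11 : 12 / c * √((N + 1) * (1 + (N + 1) * δ)) / N ≤ 12 / c * √(2 * (N + 1)) / N := by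
    gcongr
  linarith only [h11, h10, h7, h6, hε]

end D3

end Vale.Agent.P150.F
end

section

/-! P150 FULL: the path space (infinite product of standard Gaussians). -/

open MeasureTheory ProbabilityTheory Filter Topology
open scoped Matrix ENNReal

namespace Vale.Agent.P150.F

variable {n : ℕ}

/-- independent standard Gaussian vectors, one for every micro step -/
noncomputable def PN (n : ℕ) : Measure (ℕ → Vec n) := Measure.infinitePi fun _ => gpi (Fin n)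

instance : IsProbabilityMeasure (PN n) := by unfold PN; infer_instance

/-- put `ξ` in front of the sequence `ω` -/
def consS (ξ : Vec n) (ω : ℕ → Vec n) : ℕ → Vec n
  | 0 => ξ
  | (j + 1) => ω j

@[simp] theorem consS_zero (ξ : Vec n) (ω : ℕ → Vec n) : consS ξ ω 0 = ξ := rfl

@[simp] theorem consS_succ (ξ : Vec n) (ω : ℕ → Vec n) (j : ℕ) : consS ξ ω (j + 1) = ω j := rfl

theorem measurable_consS :
    Measurable (fun p : Vec n × (ℕ → Vec n) => consS p.1 p.2) := by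
  rw [measurable_pi_iff]
  intro j
  cases j with
  | zero => exact measurable_fst
  | succ j => exact (measurable_pi_apply j).comp measurable_snd

theorem mp_consS :
    MeasurePreserving (fun p : Vec n × (ℕ → Vec n) => consS p.1 p.2)
      ((gpi (Fin n)).prod (PN n)) (PN n) := by
  refine ⟨measurable_consS, ?_⟩
  refine Measure.eq_infinitePi _ fun s t ht => ?_
  rw [Measure.map_apply measurable_consS (MeasurableSet.pi s.countable_toSet fun i _ => ht i)]
  have hpre : (fun p : Vec n × (ℕ → Vec n) => consS p.1 p.2) ⁻¹' (Set.pi s t)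
      = (if 0 ∈ s then t 0 else Set.univ) ×ˢ
        (Set.pi ((s.erase 0).image Nat.pred : Finset ℕ) fun j => t (j + 1)) := by
    ext ⟨ξ, ω⟩
    simp only [Set.mem_preimage, Set.mem_pi, Set.mem_prod, Finset.mem_coe, Finset.mem_image,
      Finset.mem_erase, forall_exists_index, and_imp]
    constructor
    · intro h
      refine ⟨?_, ?_⟩
      · split_ifs with h0
        · exact h 0 h0
        · trivial
      · intro j i hi0 his hij
        have h1 := h i his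
        obtain ⟨i', rfl⟩ := Nat.exists_eq_succ_of_ne_zero hi0
        simp only [Nat.succ_eq_add_one, Nat.pred_succ] at hij
        subst hij
        exact h1
    · rintro ⟨h0, h1⟩ i hi
      cases i with
      | zero => rw [if_pos hi] at h0; exact h0
      | succ i => exact h1 i (i + 1) (Nat.succ_ne_zero i) hi rfl
  rw [hpre, Measure.prod_prod, PN, Measure.infinitePi_pi _ (fun i _ => ht (i + 1))]
  have hinj : Set.InjOn Nat.pred (s.erase 0 : Finset ℕ) := by
    intro a ha b hb hab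
    simp only [Finset.coe_erase, Set.mem_sdiff, Finset.mem_coe, Set.mem_singleton_iff] at ha hb
    have h1 : 0 < a := Nat.pos_of_ne_zero ha.2
    have h2 : 0 < b := Nat.pos_of_ne_zero hb.2
    have h3 : a - 1 = b - 1 := hab
    omega
  rw [Finset.prod_image hinj]
  have h2 : ∏ x ∈ s.erase 0, (gpi (Fin n)) (t (Nat.pred x + 1))
      = ∏ x ∈ s.erase 0, (gpi (Fin n)) (t x) := by
    refine Finset.prod_congr rfl fun x hx => ?_
    have h1 : 0 < x := Nat.pos_of_ne_zero (Finset.ne_of_mem_erase hx)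
    rw [show Nat.pred x + 1 = x from by simp only [Nat.pred_eq_sub_one]; omega]
  rw [h2]
  split_ifs with h0
  · exact Finset.mul_prod_erase s (fun x => (gpi (Fin n)) (t x)) h0
  · rw [Finset.erase_eq_of_notMem h0, measure_univ, one_mul]

theorem lintegral_consS {F : (ℕ → Vec n) → ℝ≥0∞} (hF : Measurable F) :
    ∫⁻ ω, F ω ∂PN n = ∫⁻ ξ, ∫⁻ ω, F (consS ξ ω) ∂PN n ∂gpi (Fin n) := by
  rw [← mp_consS.lintegral_comp hF]
  exact lintegral_prod _ (hF.comp measurable_consS).aemeasurable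

theorem integral_consS {F : (ℕ → Vec n) → ℝ} (hF : Integrable F (PN n)) :
    ∫ ω, F ω ∂PN n = ∫ ξ, ∫ ω, F (consS ξ ω) ∂PN n ∂gpi (Fin n) := by
  have h1 : Integrable (fun p : Vec n × (ℕ → Vec n) => F (consS p.1 p.2))
      ((gpi (Fin n)).prod (PN n)) := by
    rw [← mp_consS.map_eq] at hF
    exact hF.comp_measurable measurable_consS
  have h2 := integral_prod _ h1
  rw [← h2, ← integral_map measurable_consS.aemeasurable (by rw [mp_consS.map_eq]; exact hF.aestronglyMeasurable),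
    mp_consS.map_eq]

/-- shift of the noise sequence by `k` -/
def shS (k : ℕ) (ω : ℕ → Vec n) : ℕ → Vec n := fun j => ω (k + j)

theorem measurable_shS (k : ℕ) : Measurable (shS (n := n) k) := by
  rw [measurable_pi_iff]
  exact fun j => measurable_pi_apply (k + j)

theorem shS_zero (ω : ℕ → Vec n) : shS 0 ω = ω := by
  funext j; unfold shS; rw [Nat.zero_add]

theorem shS_succ_consS (k : ℕ) (ξ : Vec n) (ω : ℕ → Vec n) :
    shS (k + 1) (consS ξ ω) = shS k ω := by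
  funext j
  unfold shS
  rw [show k + 1 + j = (k + j) + 1 from by omega, consS_succ]

end Vale.Agent.P150.F
end

section

/-! P150 FULL: trajectories of an adaptive channel process on the path space. -/

open MeasureTheory ProbabilityTheory Filter Topology
open scoped Matrix ENNReal

namespace Vale.Agent.P150.F

variable {n m : ℕ} {S : Type} [MeasurableSpace S]

namespace Proc

variable (P : Proc n m S)

/-- the trajectory started at `s`, for the true spins `x` and the noise sequence `ω` -/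
noncomputable def traj (s : S) (x : Cfg n) (ω : ℕ → Vec m) : ℕ → S
  | 0 => s
  | (k + 1) => P.nx (traj s x ω k) x (ω k)

@[simp] theorem traj_zero (s : S) (x : Cfg n) (ω : ℕ → Vec m) : P.traj s x ω 0 = s := rfl

theorem traj_succ (s : S) (x : Cfg n) (ω : ℕ → Vec m) (k : ℕ) :
    P.traj s x ω (k + 1) = P.nx (P.traj s x ω k) x (ω k) := rfl

theorem traj_consS (s : S) (x : Cfg n) (ξ : Vec m) (ω : ℕ → Vec m) (k : ℕ) :
    P.traj s x (consS ξ ω) (k + 1) = P.traj (P.nx s x ξ) x ω k := by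
  induction k with
  | zero => rfl
  | succ k ih => rw [traj_succ, ih, traj_succ, consS_succ]

theorem meas_traj (x : Cfg n) (k : ℕ) :
    Measurable fun p : S × (ℕ → Vec m) => P.traj p.1 x p.2 k := by
  induction k with
  | zero => exact measurable_fst
  | succ k ih =>
    exact (P.meas_nx x).comp (ih.prodMk ((measurable_pi_apply k).comp measurable_snd))

theorem meas_traj_right (s : S) (x : Cfg n) (k : ℕ) :
    Measurable fun ω : ℕ → Vec m => P.traj s x ω k :=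
  (P.meas_traj x k).comp (measurable_const.prodMk measurable_id)

/-- expectation of a functional of the state after `k` steps -/
noncomputable def ET (k : ℕ) (Φ : S → Cfg n → ℝ) (s : S) (x : Cfg n) : ℝ :=
  ∫ ω, Φ (P.traj s x ω k) x ∂PN m

theorem ET_zero (Φ : S → Cfg n → ℝ) (s : S) (x : Cfg n) : P.ET 0 Φ s x = Φ s x := by
  unfold ET; simp

theorem integrable_traj {Φ : S → Cfg n → ℝ} (hΦ : ∀ x, Measurable fun s => Φ s x) {C : ℝ}
    (hC : ∀ s x, |Φ s x| ≤ C) (s : S) (x x' : Cfg n) (k : ℕ) :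
    Integrable (fun ω => Φ (P.traj s x ω k) x') (PN m) := by
  refine Integrable.of_bound ((hΦ x').comp (P.meas_traj_right s x k)).aestronglyMeasurable C ?_
  exact Eventually.of_forall fun ω => by rw [Real.norm_eq_abs]; exact hC _ _

theorem ET_succ {Φ : S → Cfg n → ℝ} (hΦ : ∀ x, Measurable fun s => Φ s x) {C : ℝ}
    (hC : ∀ s x, |Φ s x| ≤ C) (k : ℕ) (s : S) (x : Cfg n) :
    P.ET (k + 1) Φ s x = P.T (P.ET k Φ) s x := by
  unfold ET T
  rw [integral_consS (P.integrable_traj hΦ hC s x x (k + 1))]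
  simp only [traj_consS]

theorem meas_ET {Φ : S → Cfg n → ℝ} (hΦ : ∀ x, Measurable fun s => Φ s x) (k : ℕ) (x : Cfg n) :
    Measurable fun s => P.ET k Φ s x := by
  unfold ET
  have h : Measurable fun p : S × (ℕ → Vec m) => Φ (P.traj p.1 x p.2 k) x :=
    (hΦ x).comp (P.meas_traj x k)
  exact (h.stronglyMeasurable.integral_prod_right').measurable

theorem abs_ET_le {Φ : S → Cfg n → ℝ} {C : ℝ} (hC : ∀ s x, |Φ s x| ≤ C) (k : ℕ) (s : S)
    (x : Cfg n) : |P.ET k Φ s x| ≤ C := by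
  unfold ET
  rw [← Real.norm_eq_abs]
  refine (norm_integral_le_of_norm_le_const (C := C)
    (Eventually.of_forall fun ω => by rw [Real.norm_eq_abs]; exact hC _ _)).trans ?_
  simp

/-- multi-step Bayes formula: given all labels up to time `k` the spins have the law of the state -/
theorem avg_ET (h1 : CH1) (hG : CHG) {Φ : S → Cfg n → ℝ} (hΦ : ∀ x, Measurable fun s => Φ s x)
    {C : ℝ} (hC : ∀ s x, |Φ s x| ≤ C) (k : ℕ) (s : S) :
    P.avg (P.ET k Φ) s = P.avg (P.ET k fun s' _ => P.avg Φ s') s := by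
  have hav : ∀ s, |P.avg Φ s| ≤ C := by
    intro s
    unfold avg
    refine (Finset.abs_sum_le_sum_abs _ _).trans ?_
    calc ∑ x, |P.law s x * Φ s x| ≤ ∑ x, P.law s x * C := by
          refine Finset.sum_le_sum fun x _ => ?_
          rw [abs_mul, abs_of_pos (P.law_pos s x)]
          exact mul_le_mul_of_nonneg_left (hC s x) (P.law_pos s x).le
      _ = C := by rw [← Finset.sum_mul, P.law_sum, one_mul]
  have hmav : ∀ x : Cfg n, Measurable fun s => (fun s' (_ : Cfg n) => P.avg Φ s') s x :=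
    fun _ => P.meas_avg hΦ
  induction k generalizing s with
  | zero =>
    unfold avg
    refine Eq.trans ?_ ((P.avg_of_const (fun s => P.avg Φ s) s).symm.trans ?_)
    · unfold avg; simp only [ET_zero]
    · unfold avg; simp only [ET_zero]
  | succ k ih =>
    have e1 : P.avg (P.ET (k + 1) Φ) s = P.avg (P.T (P.ET k Φ)) s := by
      unfold avg; simp only [P.ET_succ hΦ hC]
    have e2 : P.avg (P.ET (k + 1) fun s' _ => P.avg Φ s') s
        = P.avg (P.T (P.ET k fun s' _ => P.avg Φ s')) s := by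
      have e3 : ∀ x, P.ET (k + 1) (fun s' _ => P.avg Φ s') s x
          = P.T (P.ET k fun s' _ => P.avg Φ s') s x :=
        fun x => P.ET_succ hmav (fun s _ => hav s) k s x
      exact Finset.sum_congr rfl fun x _ => congrArg (P.law s x * ·) (e3 x)
    rw [e1, e2, P.avg_T_bdd h1 hG (P.meas_ET hΦ k) (P.abs_ET_le hC k),
      P.avg_T_bdd h1 hG (P.meas_ET hmav k) (P.abs_ET_le (fun s _ => hav s) k)]
    simp only [ih]

/-- the Markov property at time `k` for nonnegative functionals of the future noise -/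
theorem lintegral_markov {F : S → (ℕ → Vec m) → ℝ≥0∞}
    (hF : Measurable fun p : S × (ℕ → Vec m) => F p.1 p.2) (x : Cfg n) (k : ℕ) (s : S) :
    ∫⁻ ω, F (P.traj s x ω k) (shS k ω) ∂PN m
      = ∫⁻ ω, ∫⁻ ω', F (P.traj s x ω k) ω' ∂PN m ∂PN m := by
  induction k generalizing s with
  | zero => simp [shS_zero]
  | succ k ih =>
    have hm1 : Measurable fun ω => F (P.traj s x ω (k + 1)) (shS (k + 1) ω) :=
      hF.comp ((P.meas_traj_right s x (k + 1)).prodMk (measurable_shS (k + 1)))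
    have hm2 : Measurable fun ω => ∫⁻ ω', F (P.traj s x ω (k + 1)) ω' ∂PN m := by
      have h := hF.lintegral_prod_right' (ν := PN m)
      exact h.comp (P.meas_traj_right s x (k + 1))
    rw [lintegral_consS hm1, lintegral_consS hm2]
    refine lintegral_congr fun ξ => ?_
    simp only [traj_consS, shS_succ_consS]
    exact ih _

/-- the hitting probability on the path space -/
theorem hit_eq (B : ℕ → Set S) (hB : ∀ k, MeasurableSet (B k)) (k : ℕ) (s : S) (x : Cfg n) :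
    P.hit B k s x = (PN m).real {ω | ∃ j ≤ k, P.traj s x ω j ∈ B (k - j)} := by
  induction k generalizing s with
  | zero =>
    by_cases h : s ∈ B 0
    · rw [P.hit_of_mem B h]
      have : {ω : ℕ → Vec m | ∃ j ≤ 0, P.traj s x ω j ∈ B (0 - j)} = Set.univ := by
        ext ω
        simp only [Set.mem_ofPred_eq, Set.mem_univ, iff_true]
        exact ⟨0, le_rfl, h⟩
      rw [this]; simp
    · rw [P.hit_zero_not B h]
      have : {ω : ℕ → Vec m | ∃ j ≤ 0, P.traj s x ω j ∈ B (0 - j)} = ∅ := by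
        ext ω
        simp only [Set.mem_ofPred_eq, Set.mem_empty_iff_false, iff_false, not_exists, not_and]
        intro j hj
        obtain rfl : j = 0 := by omega
        exact h
      rw [this]; simp
  | succ k ih =>
    by_cases h : s ∈ B (k + 1)
    · rw [P.hit_of_mem B h]
      have : {ω : ℕ → Vec m | ∃ j ≤ k + 1, P.traj s x ω j ∈ B (k + 1 - j)} = Set.univ := by
        ext ω
        simp only [Set.mem_ofPred_eq, Set.mem_univ, iff_true]
        exact ⟨0, by omega, h⟩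
      rw [this]; simp
    · rw [P.hit_succ_not B h]
      unfold T
      simp only [ih]
      have hms : ∀ s : S, MeasurableSet {ω : ℕ → Vec m | ∃ j ≤ k, P.traj s x ω j ∈ B (k - j)} := by
        intro s
        have : {ω : ℕ → Vec m | ∃ j ≤ k, P.traj s x ω j ∈ B (k - j)}
            = ⋃ j, ⋃ (_ : j ≤ k), (fun ω => P.traj s x ω j) ⁻¹' (B (k - j)) := by
          ext ω; simp
        rw [this]
        exact MeasurableSet.iUnion fun j => MeasurableSet.iUnion fun _ =>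
          P.meas_traj_right s x j (hB _)
      have hms' : MeasurableSet {ω : ℕ → Vec m | ∃ j ≤ k + 1, P.traj s x ω j ∈ B (k + 1 - j)} := by
        have : {ω : ℕ → Vec m | ∃ j ≤ k + 1, P.traj s x ω j ∈ B (k + 1 - j)}
            = ⋃ j, ⋃ (_ : j ≤ k + 1), (fun ω => P.traj s x ω j) ⁻¹' (B (k + 1 - j)) := by
          ext ω; simp
        rw [this]
        exact MeasurableSet.iUnion fun j => MeasurableSet.iUnion fun _ =>
          P.meas_traj_right s x j (hB _)
      have hreal : ∀ A : Set (ℕ → Vec m), MeasurableSet A →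
          (PN m).real A = ∫ ω, A.indicator (fun _ => (1 : ℝ)) ω ∂PN m := by
        intro A hA
        rw [integral_indicator hA]; simp
      rw [hreal _ hms', integral_consS
        ((integrable_const (1 : ℝ)).indicator hms')]
      refine integral_congr_ae (Eventually.of_forall fun ξ => ?_)
      beta_reduce
      rw [hreal _ (hms _)]
      refine integral_congr_ae (Eventually.of_forall fun ω => ?_)
      beta_reduce
      have hiff : consS ξ ω ∈ {ω : ℕ → Vec m | ∃ j ≤ k + 1, P.traj s x ω j ∈ B (k + 1 - j)}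
          ↔ ω ∈ {ω : ℕ → Vec m | ∃ j ≤ k, P.traj (P.nx s x ξ) x ω j ∈ B (k - j)} := by
        simp only [Set.mem_ofPred_eq]
        constructor
        · rintro ⟨j, hj, hj'⟩
          cases j with
          | zero => exact absurd hj' h
          | succ j =>
            refine ⟨j, by omega, ?_⟩
            rw [traj_consS, show k + 1 - (j + 1) = k - j from by omega] at hj'
            exact hj'
        · rintro ⟨j, hj, hj'⟩
          refine ⟨j + 1, by omega, ?_⟩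
          rw [traj_consS, show k + 1 - (j + 1) = k - j from by omega]
          exact hj'
      by_cases hω : ω ∈ {ω : ℕ → Vec m | ∃ j ≤ k, P.traj (P.nx s x ξ) x ω j ∈ B (k - j)}
      · rw [Set.indicator_of_mem hω, Set.indicator_of_mem (hiff.2 hω)]
      · rw [Set.indicator_of_notMem hω, Set.indicator_of_notMem (fun h => hω (hiff.1 h))]

end Proc

end Vale.Agent.P150.F
end
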