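import Mathlib
import Vale.Agent.P150.Bdl.B1
import Vale.Agent.P150.Bdl.B4
import Vale.Agent.P150.Bdl.B3

set_option linter.all false

section

open Filter Topology Set

namespace Vale.Agent.P150.Chan

variable {X : Type*} {m : ℕ}

noncomputable def wt (ξ : X → Fin m → ℝ) (c : X → ℝ) (s : ℝ) (y : Fin m → ℝ) (x : X) : ℝ :=
  c x * Real.exp (s / 2 * ∑ k, ξ x k ^ 2 + ∑ k, y k * ξ x k)

noncomputable def lin [Fintype X] (ξ : X → Fin m → ℝ) (c : X → ℝ) (φ : X → ℝ) (s : ℝ) (y : Fin m → ℝ) : ℝ :=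
  ∑ x, φ x * wt ξ c s y x

lemma wt_pos (ξ : X → Fin m → ℝ) (c : X → ℝ) (hc : ∀ x, 0 < c x) (s : ℝ) (y : Fin m → ℝ) (x : X) :
    0 < wt ξ c s y x := mul_pos (hc x) (Real.exp_pos _)

lemma lin_pos [Fintype X] [Nonempty X] (ξ : X → Fin m → ℝ) (c : X → ℝ) (hc : ∀ x, 0 < c x) (φ : X → ℝ)
    (hφ : ∀ x, 0 < φ x) (s : ℝ) (y : Fin m → ℝ) : 0 < lin ξ c φ s y :=
  Finset.sum_pos (fun x _ => mul_pos (hφ x) (wt_pos ξ c hc s y x)) Finset.univ_nonempty

lemma wt_shift (ξ : X → Fin m → ℝ) (c : X → ℝ) (s : ℝ) (y : Fin m → ℝ) (k : Fin m) (r : ℝ) (x : X) :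
    wt ξ c s (y + Pi.single k r) x = wt ξ c s y x * Real.exp (r * ξ x k) := by
  unfold wt
  rw [mul_assoc, ← Real.exp_add]
  congr 2
  have : ∑ j, (y + Pi.single k r : Fin m → ℝ) j * ξ x j = ∑ j, y j * ξ x j + r * ξ x k := by
    simp only [Pi.add_apply, add_mul, Finset.sum_add_distrib]
    congr 1
    rw [Finset.sum_eq_single k]
    · simp
    · intro j _ hj; simp [Pi.single_eq_of_ne hj]
    · simp
  rw [this]; ring

lemma hasDerivAt_lin_space [Fintype X] (ξ : X → Fin m → ℝ) (c : X → ℝ) (φ : X → ℝ) (s : ℝ) (y : Fin m → ℝ)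
    (k : Fin m) (r : ℝ) :
    HasDerivAt (fun r => lin ξ c φ s (y + Pi.single k r))
      (lin ξ c (fun x => φ x * ξ x k) s (y + Pi.single k r)) r := by
  unfold lin
  simp only [wt_shift]
  apply HasDerivAt.fun_sum
  intro x _
  have h1 : HasDerivAt (fun r : ℝ => Real.exp (r * ξ x k)) (Real.exp (r * ξ x k) * (1 * ξ x k)) r :=
    ((hasDerivAt_id r).mul_const (ξ x k)).exp
  have h2 := (h1.const_mul (wt ξ c s y x)).const_mul (φ x)
  exact h2.congr_deriv (by ring)

lemma hasDerivAt_lin_time [Fintype X] (ξ : X → Fin m → ℝ) (c : X → ℝ) (φ : X → ℝ) (s : ℝ) (y : Fin m → ℝ) :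
    HasDerivAt (fun s => lin ξ c φ s y)
      (lin ξ c (fun x => φ x * (1 / 2 * ∑ k, ξ x k ^ 2)) s y) s := by
  unfold lin wt
  apply HasDerivAt.fun_sum
  intro x _
  have h0 : HasDerivAt (fun s : ℝ => s / 2 * ∑ k, ξ x k ^ 2 + ∑ k, y k * ξ x k)
      (1 / 2 * ∑ k, ξ x k ^ 2) s := by
    have := (((hasDerivAt_id s).div_const 2).mul_const (∑ k, ξ x k ^ 2)).add_const
      (∑ k, y k * ξ x k)
    simpa using this
  have h1 := ((h0.exp).const_mul (c x)).const_mul (φ x)
  exact h1.congr_deriv (by ring)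

lemma lin_heat [Fintype X] (ξ : X → Fin m → ℝ) (c : X → ℝ) (φ : X → ℝ) (s : ℝ) (y : Fin m → ℝ) :
    lin ξ c (fun x => φ x * (1 / 2 * ∑ k, ξ x k ^ 2)) s y
      = 1 / 2 * ∑ k, lin ξ c (fun x => φ x * ξ x k * ξ x k) s y := by
  unfold lin
  rw [Finset.sum_comm, Finset.mul_sum]
  apply Finset.sum_congr rfl
  intro x _
  rw [← Finset.sum_mul]
  beta_reduce
  rw [← mul_assoc, Finset.mul_sum, ← mul_assoc, Finset.mul_sum]
  congr 1
  apply Finset.sum_congr rfl
  intro k _
  ring

lemma continuous_lin [Fintype X] (ξ : X → Fin m → ℝ) (c : X → ℝ) (φ : X → ℝ) :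
    Continuous (fun p : ℝ × (Fin m → ℝ) => lin ξ c φ p.1 p.2) := by
  unfold lin wt
  fun_prop

lemma continuous_wt (ξ : X → Fin m → ℝ) (c : X → ℝ) (x : X) :
    Continuous (fun p : ℝ × (Fin m → ℝ) => wt ξ c p.1 p.2 x) := by
  unfold wt
  fun_prop

/-- unnormalized entropy -/
noncomputable def entU [Fintype X] (ξ : X → Fin m → ℝ) (c : X → ℝ) (f : X → ℝ) (s : ℝ) (y : Fin m → ℝ) : ℝ :=
  lin ξ c (fun x => f x * Real.log (f x)) s y
    - lin ξ c f s y * (Real.log (lin ξ c f s y) - Real.log (lin ξ c (fun _ => 1) s y))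

/-- unnormalized Dirichlet form with parallel sums of the weights -/
noncomputable def dirU [Fintype X] (ξ : X → Fin m → ℝ) (c : X → ℝ) (A : X → X → ℝ) (s : ℝ)
    (y : Fin m → ℝ) : ℝ :=
  ∑ x, ∑ x', A x x' * (wt ξ c s y x * wt ξ c s y x' / (wt ξ c s y x + wt ξ c s y x'))

lemma par_le {p q a b : ℝ} (hp : 0 < p) (hq : 0 < q) (hab : a + b = 1) :
    p * q / (p + q) ≤ a ^ 2 * p + b ^ 2 * q := by
  rw [div_le_iff₀ (by linarith only [hq, hp])]
  have hb : b = 1 - a := by linarith
  subst hb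
  linarith only [sq_nonneg (a * p - (1 - a) * q)]

lemma par_eq {p q : ℝ} (hp : 0 < p) (hq : 0 < q) :
    p * q / (p + q) = (q / (p + q)) ^ 2 * p + (p / (p + q)) ^ 2 * q := by
  have : p + q ≠ 0 := by positivity
  field_simp
  ring

/-- the linear majorant of the Dirichlet form -/
noncomputable def tang [Fintype X] (A : X → X → ℝ) (w : X → ℝ) (x : X) : ℝ :=
  (∑ x', A x x' * (w x' / (w x + w x')) ^ 2) + ∑ x', A x' x * (w x' / (w x' + w x)) ^ 2

lemma dirU_le_lin [Fintype X] (ξ : X → Fin m → ℝ) (c : X → ℝ) (hc : ∀ x, 0 < c x) (A : X → X → ℝ)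
    (hA : ∀ x x', 0 ≤ A x x') (w : X → ℝ) (hw : ∀ x, 0 < w x) (s : ℝ) (y : Fin m → ℝ) :
    dirU ξ c A s y ≤ lin ξ c (tang A w) s y := by
  unfold lin tang
  simp only [add_mul, Finset.sum_add_distrib, Finset.sum_mul]
  rw [Finset.sum_comm (f := fun x x' => A x' x * (w x' / (w x' + w x)) ^ 2 * wt ξ c s y x),
    ← Finset.sum_add_distrib]
  unfold dirU
  apply Finset.sum_le_sum
  intro x _
  rw [← Finset.sum_add_distrib]
  apply Finset.sum_le_sum
  intro x' _
  have hab : w x' / (w x + w x') + w x / (w x + w x') = 1 := by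
    have := hw x; have := hw x'
    field_simp
    ring
  have := mul_le_mul_of_nonneg_left
    (par_le (wt_pos ξ c hc s y x) (wt_pos ξ c hc s y x') hab) (hA x x')
  calc _ ≤ _ := this
    _ = _ := by ring

lemma dirU_eq_lin [Fintype X] (ξ : X → Fin m → ℝ) (c : X → ℝ) (hc : ∀ x, 0 < c x) (A : X → X → ℝ)
    (s : ℝ) (y : Fin m → ℝ) :
    dirU ξ c A s y = lin ξ c (tang A (wt ξ c s y)) s y := by
  unfold lin tang
  simp only [add_mul, Finset.sum_add_distrib, Finset.sum_mul]
  rw [Finset.sum_comm (f := fun x x' => A x' x * (wt ξ c s y x' / (wt ξ c s y x' + wt ξ c s y x)) ^ 2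
    * wt ξ c s y x), ← Finset.sum_add_distrib]
  unfold dirU
  apply Finset.sum_congr rfl
  intro x _
  rw [← Finset.sum_add_distrib]
  apply Finset.sum_congr rfl
  intro x' _
  rw [par_eq (wt_pos ξ c hc s y x) (wt_pos ξ c hc s y x')]
  ring

end Vale.Agent.P150.Chan
end

section

open Finset

namespace Vale.Agent.P150.Prod

/-- log-sum inequality -/
lemma log_sum {ι : Type*} [Fintype ι] [Nonempty ι] (P u v : ι → ℝ) (hP : ∀ x, 0 < P x)
    (hu : ∀ x, 0 < u x) (hv : ∀ x, 0 < v x) :
    (∑ x, P x * u x) * (Real.log (∑ x, P x * u x) - Real.log (∑ x, P x * v x))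
      ≤ ∑ x, P x * (u x * (Real.log (u x) - Real.log (v x))) := by
  have hA : 0 < ∑ x, P x * u x := Finset.sum_pos (fun x _ => mul_pos (hP x) (hu x))
    Finset.univ_nonempty
  have hB : 0 < ∑ x, P x * v x := Finset.sum_pos (fun x _ => mul_pos (hP x) (hv x))
    Finset.univ_nonempty
  set A := ∑ x, P x * u x with hAdef
  set B := ∑ x, P x * v x with hBdef
  have key : ∀ x, u x - v x * (A / B)
      ≤ u x * (Real.log (u x) - Real.log (v x)) - u x * (Real.log A - Real.log B) := by
    intro x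
    have hw : 0 < v x * (A / B) := mul_pos (hv x) (div_pos hA hB)
    have h1 := Real.one_sub_inv_le_log_of_pos (div_pos (hu x) hw)
    have h2 := mul_le_mul_of_nonneg_left h1 (hu x).le
    have h3 : u x * (1 - (u x / (v x * (A / B)))⁻¹) = u x - v x * (A / B) := by
      have := (hu x).ne'
      field_simp
    have h4 : Real.log (u x / (v x * (A / B)))
        = Real.log (u x) - (Real.log (v x) + (Real.log A - Real.log B)) := by
      rw [Real.log_div (hu x).ne' hw.ne', Real.log_mul (hv x).ne' (div_pos hA hB).ne',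
        Real.log_div hA.ne' hB.ne']
    rw [h3, h4] at h2
    linarith only [h2]
  have hs := Finset.sum_le_sum (fun x (_ : x ∈ Finset.univ) =>
    mul_le_mul_of_nonneg_left (key x) (hP x).le)
  have e1 : ∑ x, P x * (u x - v x * (A / B)) = 0 := by
    have : ∀ x, P x * (u x - v x * (A / B)) = P x * u x - (A / B) * (P x * v x) := by
      intro x; ring
    simp only [this, Finset.sum_sub_distrib, ← Finset.mul_sum, ← hAdef, ← hBdef]
    field_simp
    ring
  have e2 : ∑ x, P x * (u x * (Real.log (u x) - Real.log (v x)) - u x * (Real.log A - Real.log B))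
      = ∑ x, P x * (u x * (Real.log (u x) - Real.log (v x))) - A * (Real.log A - Real.log B) := by
    have : ∀ x, P x * (u x * (Real.log (u x) - Real.log (v x)) - u x * (Real.log A - Real.log B))
        = P x * (u x * (Real.log (u x) - Real.log (v x)))
          - (Real.log A - Real.log B) * (P x * u x) := by
      intro x; ring
    simp only [this, Finset.sum_sub_distrib, ← Finset.mul_sum, ← hAdef]
    ring
  rw [e1, e2] at hs
  linarith

/-- two-point inequality -/
lemma two_point {p q u v : ℝ} (hp : 0 < p) (hq : 0 < q) (hpq : p + q = 1) (hu : 0 < u)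
    (hv : 0 < v) :
    p * (u * Real.log u) + q * (v * Real.log v) - (p * u + q * v) * Real.log (p * u + q * v)
      ≤ p * q * ((u - v) * (Real.log u - Real.log v)) := by
  have hm : 0 < p * u + q * v := by positivity
  have hj : p * Real.log u + q * Real.log v ≤ Real.log (p * u + q * v) := by
    have h := strictConcaveOn_log_Ioi.concaveOn.2 (Set.mem_Ioi.2 hu) (Set.mem_Ioi.2 hv)
      hp.le hq.le hpq
    simpa [smul_eq_mul] using h
  have h1 := mul_le_mul_of_nonneg_left hj hm.le
  have hq' : q = 1 - p := by linarith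
  subst hq'
  linarith only [h1]

variable {n : ℕ}

/-- product weights -/
noncomputable def PW (p : Fin n → Bool → ℝ) (x : Cfg n) : ℝ := ∏ i, p i (x i)

/-- Dirichlet form of a product measure -/
noncomputable def DP (p : Fin n → Bool → ℝ) (F : Cfg n → ℝ) : ℝ :=
  (1 / 2) * ∑ i, ∑ x, PW p x * p i (!x i)
    * ((F (flip x i) - F x) * (Real.log (F (flip x i)) - Real.log (F x)))

lemma PW_pos (p : Fin n → Bool → ℝ) (hp : ∀ i s, 0 < p i s) (x : Cfg n) : 0 < PW p x :=
  Finset.prod_pos (fun i _ => hp i _)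

lemma PW_cons (p : Fin (n + 1) → Bool → ℝ) (s : Bool) (x : Cfg n) :
    PW p (Fin.cons s x : Cfg (n + 1)) = p 0 s * PW (fun i => p i.succ) x := by
  unfold PW
  rw [Fin.prod_univ_succ]
  simp

lemma sum_cons (G : Cfg (n + 1) → ℝ) :
    ∑ x, G x = ∑ s : Bool, ∑ x : Cfg n, G (Fin.cons s x : Cfg (n + 1)) := by
  rw [← (Fin.consEquiv (fun _ => Bool)).sum_comp, Fintype.sum_prod_type]
  rfl

lemma flip_cons_zero (s : Bool) (x : Cfg n) :
    flip (Fin.cons s x : Cfg (n + 1)) 0 = (Fin.cons (!s) x : Cfg (n + 1)) := by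
  unfold flip
  rw [Fin.cons_zero, Fin.update_cons_zero]

lemma flip_cons_succ (s : Bool) (x : Cfg n) (j : Fin n) :
    flip (Fin.cons s x : Cfg (n + 1)) j.succ = (Fin.cons s (flip x j) : Cfg (n + 1)) := by
  unfold flip
  rw [Fin.cons_succ, ← Fin.cons_update]

theorem prod_ent (n : ℕ) : ∀ (p : Fin n → Bool → ℝ) (_ : ∀ i s, 0 < p i s)
    (_ : ∀ i, p i true + p i false = 1) (F : Cfg n → ℝ) (_ : ∀ x, 0 < F x),
    ∑ x, PW p x * (F x * Real.log (F x))
      - (∑ x, PW p x * F x) * Real.log (∑ x, PW p x * F x) ≤ DP p F := by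
  induction n with
  | zero =>
    intro p hp hs F hF
    unfold DP PW
    simp
  | succ n ih =>
    intro p hp hs F hF
    set p' : Fin n → Bool → ℝ := fun i => p i.succ with hp'
    let Fs : Bool → Cfg n → ℝ := fun s x => F (Fin.cons s x : Cfg (n + 1))
    have hFs : ∀ s x, 0 < Fs s x := fun s x => hF _
    have hP' : ∀ x, 0 < PW p' x := PW_pos p' (fun i s => hp _ _)
    let a : Bool → ℝ := fun s => ∑ x, PW p' x * Fs s x
    have ha : ∀ s, 0 < a s := fun s =>
      Finset.sum_pos (fun x _ => mul_pos (hP' x) (hFs s x)) Finset.univ_nonempty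
    have hih : ∀ s, ∑ x, PW p' x * (Fs s x * Real.log (Fs s x)) - a s * Real.log (a s)
        ≤ DP p' (Fs s) := fun s => ih p' (fun i s => hp _ _) (fun i => hs _) (Fs s) (hFs s)
    have e1 : ∑ x, PW p x * (F x * Real.log (F x))
        = p 0 true * ∑ x, PW p' x * (Fs true x * Real.log (Fs true x))
          + p 0 false * ∑ x, PW p' x * (Fs false x * Real.log (Fs false x)) := by
      rw [sum_cons, Fintype.sum_bool, Finset.mul_sum, Finset.mul_sum]
      congr 1 <;>
      · apply Finset.sum_congr rfl; intro x _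
        rw [PW_cons]; ring
    have e2 : ∑ x, PW p x * F x = p 0 true * a true + p 0 false * a false := by
      rw [sum_cons, Fintype.sum_bool, Finset.mul_sum, Finset.mul_sum]
      congr 1 <;>
      · apply Finset.sum_congr rfl; intro x _
        rw [PW_cons]; ring
    have h2p := two_point (hp 0 true) (hp 0 false) (hs 0) (ha true) (ha false)
    have hls1 := log_sum (PW p') (Fs true) (Fs false) hP' (hFs true) (hFs false)
    have hls2 := log_sum (PW p') (Fs false) (Fs true) hP' (hFs false) (hFs true)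
    have e3 : DP p F = p 0 true * p 0 false * ∑ x, PW p' x * ((Fs true x - Fs false x)
          * (Real.log (Fs true x) - Real.log (Fs false x)))
        + (p 0 true * DP p' (Fs true) + p 0 false * DP p' (Fs false)) := by
      unfold DP
      rw [Fin.sum_univ_succ, mul_add]
      congr 1
      · rw [sum_cons, Fintype.sum_bool, Finset.mul_sum, ← Finset.sum_add_distrib,
          Finset.mul_sum]
        apply Finset.sum_congr rfl; intro x _
        rw [PW_cons, PW_cons, flip_cons_zero, flip_cons_zero]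
        simp only [Fin.cons_zero, Bool.not_true, Bool.not_false, Fs]
        ring
      · rw [mul_left_comm, mul_left_comm (p 0 false), ← mul_add]
        congr 1
        rw [Finset.mul_sum, Finset.mul_sum, ← Finset.sum_add_distrib]
        apply Finset.sum_congr rfl; intro i _
        rw [sum_cons, Fintype.sum_bool, Finset.mul_sum, Finset.mul_sum]
        congr 1 <;>
        · apply Finset.sum_congr rfl; intro x _
          rw [PW_cons, flip_cons_succ]
          simp only [Fin.cons_succ, Fs, hp']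
          ring
    rw [e1, e2, e3]
    have hpt := hp 0 true
    have hpf := hp 0 false
    have h3 := mul_le_mul_of_nonneg_left (hih true) hpt.le
    have h4 := mul_le_mul_of_nonneg_left (hih false) hpf.le
    have h5 : (a true - a false) * (Real.log (a true) - Real.log (a false))
        ≤ ∑ x, PW p' x * ((Fs true x - Fs false x)
          * (Real.log (Fs true x) - Real.log (Fs false x))) := by
      have : ∑ x, PW p' x * ((Fs true x - Fs false x)
          * (Real.log (Fs true x) - Real.log (Fs false x)))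
          = ∑ x, PW p' x * (Fs true x * (Real.log (Fs true x) - Real.log (Fs false x)))
          + ∑ x, PW p' x * (Fs false x * (Real.log (Fs false x) - Real.log (Fs true x))) := by
        rw [← Finset.sum_add_distrib]
        apply Finset.sum_congr rfl; intro x _; ring
      rw [this]
      change a true * (Real.log (a true) - Real.log (a false)) ≤ _ at hls1
      change a false * (Real.log (a false) - Real.log (a true)) ≤ _ at hls2
      linarith only [hls2, hls1]
    have h6 := mul_le_mul_of_nonneg_left h5 (mul_pos hpt hpf).le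
    linarith only [h6, h4, h3, h2p]

/-- the Gibbs measure without couplings is a product measure -/
lemma gibbs_zero (b : Fin n → ℝ) (x : Cfg n) :
    gibbs (fun _ _ => 0) b x
      = PW (fun i s => Real.exp (b i * sp s) / (Real.exp (b i) + Real.exp (-b i))) x := by
  have hen : ∀ y : Cfg n, Real.exp (energy (fun _ _ => 0) b y) = ∏ i, Real.exp (b i * sp (y i)) := by
    intro y
    unfold energy
    rw [← Real.exp_sum]
    simp
  unfold gibbs PW
  simp only [hen]
  rw [Finset.prod_div_distrib]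
  congr 1
  have : ∏ i, (Real.exp (b i) + Real.exp (-b i)) = ∏ i, ∑ s : Bool, Real.exp (b i * sp s) := by
    apply Finset.prod_congr rfl; intro i _
    simp [sp]
  rw [this, Finset.prod_univ_sum, Fintype.piFinset_univ]

theorem prod_mlsi (b : Fin n → ℝ) (f : Cfg n → ℝ) (hf : ∀ x, 0 < f x) :
    ex (fun _ _ => 0) b (fun x => f x * Real.log (f x))
      - ex (fun _ _ => 0) b f * Real.log (ex (fun _ _ => 0) b f)
      ≤ dir (fun _ _ => 0) b f (fun x => Real.log (f x)) := by
  set p : Fin n → Bool → ℝ :=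
    fun i s => Real.exp (b i * sp s) / (Real.exp (b i) + Real.exp (-b i)) with hp
  have hppos : ∀ i s, 0 < p i s := fun i s => by positivity
  have hsum : ∀ i, p i true + p i false = 1 := by
    intro i
    have : 0 < Real.exp (b i) + Real.exp (-b i) := by positivity
    simp only [hp, sp, if_true, Bool.false_eq_true, if_false]
    rw [← add_div, mul_one, mul_neg_one]
    exact div_self this.ne'
  have h := prod_ent n p hppos hsum f hf
  have hd : dir (fun _ _ => 0) b f (fun x => Real.log (f x)) = DP p f := by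
    rw [dir_eq (fun _ _ => rfl)]
    unfold DP
    congr 1
    apply Finset.sum_congr rfl; intro i _
    apply Finset.sum_congr rfl; intro x _
    congr 1
    rw [gibbs_zero, gibbs_zero]
    have h1 : PW p (flip x i) * p i (x i) = PW p x * p i (!x i) := by
      unfold PW flip
      rw [← Finset.mul_prod_erase _ _ (Finset.mem_univ i),
        ← Finset.mul_prod_erase (a := i) _ (fun j => p j (x j)) (Finset.mem_univ i)]
      have : ∏ j ∈ Finset.univ.erase i, p j (Function.update x i (!x i) j)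
          = ∏ j ∈ Finset.univ.erase i, p j (x j) := by
        apply Finset.prod_congr rfl; intro j hj
        rw [Function.update_of_ne (Finset.ne_of_mem_erase hj)]
      rw [this, Function.update_self]; ring
    have h2 : p i (x i) + p i (!x i) = 1 := by
      cases x i
      · rw [add_comm]; exact hsum i
      · exact hsum i
    have hpx := PW_pos p hppos x
    have hpf := PW_pos p hppos (flip x i)
    have h3 : PW p (flip x i) = (PW p x + PW p (flip x i)) * p i (!x i) := by
      have : p i (x i) = 1 - p i (!x i) := by linarith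
      rw [this] at h1
      linarith
    rw [div_eq_iff (by positivity)]
    calc PW p x * PW p (flip x i) = PW p x * ((PW p x + PW p (flip x i)) * p i (!x i)) := by
          rw [← h3]
      _ = _ := by ring
  rw [hd]
  unfold ex
  simp only [gibbs_zero]
  exact h

end Vale.Agent.P150.Prod
end

section

open MeasureTheory ProbabilityTheory Filter Topology

namespace Vale.Agent.P150.Cav

variable {n : ℕ}

/-- the (unordered) pair of two distinct indices -/
def pr (i j : Fin n) (h : i ≠ j) : Pairs n :=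
  if h' : i < j then ⟨(i, j), h'⟩ else ⟨(j, i), lt_of_le_of_ne (not_lt.1 h') h.symm⟩

lemma gsym_eq_pr (g : Pairs n → ℝ) (i j : Fin n) (h : i ≠ j) : gsym g i j = g (pr i j h) := by
  unfold gsym pr
  rcases lt_trichotomy i j with h1 | h1 | h1
  · simp [h1]
  · exact absurd h1 h
  · simp [h1, h1.not_gt]

/-- the matrix `E_ij + E_ji` -/
def Vij (i j k l : Fin n) : ℝ := (if k = i ∧ l = j then 1 else 0) + (if k = j ∧ l = i then 1 else 0)

lemma gsym_update (g : Pairs n → ℝ) (i j : Fin n) (h : i ≠ j) (s : ℝ) (k l : Fin n) :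
    gsym (Function.update g (pr i j h) s) k l =
      gsym g k l + (s - g (pr i j h)) * Vij i j k l := by
  by_cases hkl : k = l
  · subst hkl
    have : Vij i j k k = 0 := by
      unfold Vij
      rw [if_neg, if_neg, add_zero]
      · rintro ⟨a, b⟩; exact h (b.symm.trans a)
      · rintro ⟨a, b⟩; exact h (a.symm.trans b)
    simp [gsym_self, this]
  · rw [gsym_eq_pr _ k l hkl, gsym_eq_pr _ k l hkl]
    by_cases hp : pr k l hkl = pr i j h
    · rw [hp, Function.update_self]
      have : Vij i j k l = 1 := by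
        unfold Vij
        unfold pr at hp
        rcases lt_or_gt_of_ne h with h1 | h1 <;> rcases lt_or_gt_of_ne hkl with h2 | h2
        · simp only [h1, h2, dite_true, Subtype.mk.injEq, Prod.mk.injEq] at hp
          obtain ⟨a, b⟩ := hp
          subst a; subst b
          simp [h]
        · simp only [h1, h2.not_gt, dite_true, dite_false, Subtype.mk.injEq, Prod.mk.injEq] at hp
          obtain ⟨a, b⟩ := hp
          subst a; subst b
          simp [h.symm]
        · simp only [h1.not_gt, h2, dite_true, dite_false, Subtype.mk.injEq, Prod.mk.injEq] at hp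
          obtain ⟨a, b⟩ := hp
          subst a; subst b
          simp [h.symm]
        · simp only [h1.not_gt, h2.not_gt, dite_false, Subtype.mk.injEq, Prod.mk.injEq] at hp
          obtain ⟨a, b⟩ := hp
          subst a; subst b
          simp [h]
      rw [this]; ring
    · rw [Function.update_of_ne hp]
      have : Vij i j k l = 0 := by
        unfold Vij
        rw [if_neg, if_neg, add_zero]
        · rintro ⟨a, b⟩
          subst a; subst b
          apply hp
          unfold pr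
          rcases lt_or_gt_of_ne h with h1 | h1
          · simp [h1, h1.not_gt]
          · simp [h1, h1.not_gt]
        · rintro ⟨a, b⟩
          subst a; subst b
          exact hp rfl
      rw [this]; ring

lemma Wm_update (g : Pairs n → ℝ) (i j : Fin n) (h : i ≠ j) (s : ℝ) (k l : Fin n) :
    Wm (Function.update g (pr i j h) s) k l =
      Wm g k l + (s - g (pr i j h)) / Real.sqrt n * Vij i j k l := by
  unfold Wm
  rw [gsym_update]
  ring

/-- spin vector -/
noncomputable def xv (x : Cfg n) : Fin n → ℂ := fun i => (sp (x i) : ℂ)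

lemma sp_sq (b : Bool) : sp b ^ 2 = 1 := by cases b <;> norm_num [sp]

lemma sp_mul_self (b : Bool) : sp b * sp b = 1 := by cases b <;> norm_num [sp]

lemma abs_sp (b : Bool) : |sp b| = 1 := by cases b <;> norm_num [sp]

lemma nsq_xv (x : Cfg n) : nsq (xv x) = n := by
  unfold nsq xv
  simp [abs_sp]

lemma energy_update (β : ℝ) (g : Pairs n → ℝ) (i j : Fin n) (h : i ≠ j) (s : ℝ)
    (b : Fin n → ℝ) (x : Cfg n) :
    energy (skJ β (Function.update g (pr i j h) s)) b x =
      energy (skJ β g) b x + (s - g (pr i j h)) * (β / Real.sqrt n * (sp (x i) * sp (x j))) := by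
  unfold energy
  rw [add_right_comm]
  congr 1
  have key : ∀ k l : Fin n, (if k < l then skJ β (Function.update g (pr i j h) s) k l *
      sp (x k) * sp (x l) else 0) = (if k < l then skJ β g k l * sp (x k) * sp (x l) else 0) +
      (if k < l then (s - g (pr i j h)) * (β / Real.sqrt n) * (sp (x k) * sp (x l)) * Vij i j k l
        else 0) := by
    intro k l
    split_ifs
    · unfold skJ
      rw [gsym_update]
      ring
    · simp
  simp only [key, Finset.sum_add_distrib]
  congr 1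
  have hV : ∀ k l : Fin n, (if k < l then (s - g (pr i j h)) * (β / Real.sqrt n) *
      (sp (x k) * sp (x l)) * Vij i j k l else 0) =
      (if k = i then (if l = j then (if i < j then (s - g (pr i j h)) * (β / Real.sqrt n) *
        (sp (x i) * sp (x j)) else 0) else 0) else 0) +
      (if k = j then (if l = i then (if j < i then (s - g (pr i j h)) * (β / Real.sqrt n) *
        (sp (x i) * sp (x j)) else 0) else 0) else 0) := by
    intro k l
    unfold Vij
    by_cases h1 : k = i
    · subst h1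
      by_cases h2 : l = j
      · subst h2
        simp [h]
      · simp [h2, h]
    · by_cases h1' : k = j
      · subst h1'
        by_cases h2 : l = i
        · subst h2
          simp only [h1, false_and, if_false, zero_add, and_self, if_true, mul_one]
          split_ifs <;> ring
        · simp [h2, h1]
      · simp [h1, h1']
  simp only [hV, Finset.sum_add_distrib]
  simp only [Finset.sum_ite_eq', Finset.sum_ite_irrel, Finset.sum_const_zero, Finset.mem_univ,
    if_true]
  rcases lt_or_gt_of_ne h with h1 | h1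
  · simp [h1, h1.not_gt]; ring
  · simp [h1, h1.not_gt]; ring

/-- two-point function -/
noncomputable def Mm (β : ℝ) (g : Pairs n → ℝ) (i j : Fin n) : ℝ :=
  ex (skJ β g) 0 (fun x => sp (x i) * sp (x j))

/-- Gibbs weights of SK in zero field -/
noncomputable def pw (β : ℝ) (g : Pairs n → ℝ) (x : Cfg n) : ℝ := gibbs (skJ β g) 0 x

lemma Mm_eq (β : ℝ) (g : Pairs n → ℝ) (i j : Fin n) :
    Mm β g i j = ∑ x, pw β g x * (sp (x i) * sp (x j)) := rfl

lemma Zpos (J : Fin n → Fin n → ℝ) (b : Fin n → ℝ) : 0 < ∑ y : Cfg n, Real.exp (energy J b y) :=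
  Finset.sum_pos (fun _ _ => Real.exp_pos _) Finset.univ_nonempty

lemma pw_pos (β : ℝ) (g : Pairs n → ℝ) (x : Cfg n) : 0 < pw β g x :=
  div_pos (Real.exp_pos _) (Zpos _ _)

lemma pw_sum (β : ℝ) (g : Pairs n → ℝ) : ∑ x : Cfg n, pw β g x = 1 := by
  unfold pw gibbs
  rw [← Finset.sum_div]
  exact div_self (Zpos _ _).ne'

lemma hasDerivAt_pw (β : ℝ) (g : Pairs n → ℝ) (i j : Fin n) (h : i ≠ j) (x : Cfg n) :
    HasDerivAt (fun s => pw β (Function.update g (pr i j h) s) x)
      (pw β g x * (β / Real.sqrt n * (sp (x i) * sp (x j) - Mm β g i j))) (g (pr i j h)) := by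
  have hE : ∀ y : Cfg n, HasDerivAt (fun s => Real.exp (energy (skJ β (Function.update g (pr i j h) s)) 0 y))
      (Real.exp (energy (skJ β g) 0 y) * (β / Real.sqrt n * (sp (y i) * sp (y j))))
      (g (pr i j h)) := by
    intro y
    have h1 : HasDerivAt (fun s : ℝ => energy (skJ β g) 0 y + (s - g (pr i j h)) *
        (β / Real.sqrt n * (sp (y i) * sp (y j)))) (β / Real.sqrt n * (sp (y i) * sp (y j)))
        (g (pr i j h)) := by
      have h2 := (((hasDerivAt_id (g (pr i j h))).sub_const (g (pr i j h))).mul_const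
        (β / Real.sqrt n * (sp (y i) * sp (y j)))).const_add (energy (skJ β g) 0 y)
      exact h2.congr_deriv (by simp)
    have h3 := h1.exp
    simp only [energy_update]
    exact h3.congr_deriv (by simp)
  have hZ : HasDerivAt (fun s => ∑ y : Cfg n, Real.exp (energy (skJ β (Function.update g (pr i j h) s)) 0 y))
      (∑ y : Cfg n, Real.exp (energy (skJ β g) 0 y) * (β / Real.sqrt n * (sp (y i) * sp (y j))))
      (g (pr i j h)) := HasDerivAt.fun_sum fun y _ => hE y
  have hd := (hE x).fun_div hZ (Zpos _ _).ne'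
  unfold pw gibbs
  refine hd.congr_deriv ?_
  have hup : Function.update g (pr i j h) (g (pr i j h)) = g := Function.update_eq_self _ _
  simp only [hup]
  set Z := ∑ y : Cfg n, Real.exp (energy (skJ β g) 0 y) with hZdef
  have hZne : Z ≠ 0 := (Zpos _ _).ne'
  have hM : ∑ y : Cfg n, Real.exp (energy (skJ β g) 0 y) * (β / Real.sqrt n * (sp (y i) * sp (y j)))
      = Z * (β / Real.sqrt n * Mm β g i j) := by
    unfold Mm ex gibbs
    rw [← hZdef, Finset.mul_sum, Finset.mul_sum]
    refine Finset.sum_congr rfl fun y _ => ?_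
    field_simp
  rw [hM]
  field_simp

end Vale.Agent.P150.Cav
end

section

open MeasureTheory ProbabilityTheory Filter Topology

namespace Vale.Agent.P150.Cav

variable {n : ℕ}

section resolvent

variable (z : ℂ) (g : Pairs n → ℝ)

lemma det_Am_ne (hz : 0 < z.im) : (Am z g).det ≠ 0 := (coer_im z g).det_ne_zero hz

lemma Gm_mul_Am (hz : 0 < z.im) : Gm z g * Am z g = 1 :=
  Matrix.nonsing_inv_mul _ ((coer_im z g).isUnit hz)

lemma Am_mul_Gm (hz : 0 < z.im) : Am z g * Gm z g = 1 :=
  Matrix.mul_nonsing_inv _ ((coer_im z g).isUnit hz)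

lemma norm_Gm_le (hz : 0 < z.im) (i j : Fin n) : ‖Gm z g i j‖ ≤ (z.im)⁻¹ :=
  (coer_im z g).entry_le hz i j

/-- resolvent identity along one coordinate -/
lemma Gm_update_sub (hz : 0 < z.im) (i j : Fin n) (h : i ≠ j) (s : ℝ) (k l : Fin n) :
    Gm z (Function.update g (pr i j h) s) k l - Gm z g k l =
      ((s - g (pr i j h)) / Real.sqrt n : ℝ) *
        (Gm z (Function.update g (pr i j h) s) k i * Gm z g j l +
          Gm z (Function.update g (pr i j h) s) k j * Gm z g i l) := by
  set g' := Function.update g (pr i j h) s with hg'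
  have hA : ∀ a b, (Am z g - Am z g') a b = (((s - g (pr i j h)) / Real.sqrt n : ℝ) : ℂ) *
      (Vij i j a b : ℂ) := by
    intro a b
    simp only [Matrix.sub_apply, Am, hg', Wm_update]
    push_cast
    ring
  have h1 : Gm z g' - Gm z g = Gm z g' * (Am z g - Am z g') * Gm z g := by
    rw [Matrix.mul_sub, Matrix.sub_mul, Gm_mul_Am z g' hz, Matrix.mul_assoc, Am_mul_Gm z g hz,
      Matrix.one_mul, Matrix.mul_one]
  have h2 := congrFun (congrFun h1 k) l
  rw [Matrix.sub_apply] at h2
  rw [h2, Matrix.mul_apply]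
  simp only [Matrix.mul_apply, hA]
  have h3 : ∀ b : Fin n, ∑ a, Gm z g' k a * ((((s - g (pr i j h)) / Real.sqrt n : ℝ) : ℂ) *
      (Vij i j a b : ℂ)) = (((s - g (pr i j h)) / Real.sqrt n : ℝ) : ℂ) *
      ((if b = j then Gm z g' k i else 0) + (if b = i then Gm z g' k j else 0)) := by
    intro b
    have : ∀ a, Gm z g' k a * ((((s - g (pr i j h)) / Real.sqrt n : ℝ) : ℂ) *
        (Vij i j a b : ℂ)) = (((s - g (pr i j h)) / Real.sqrt n : ℝ) : ℂ) *
        ((if a = i then (if b = j then Gm z g' k i else 0) else 0) +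
          (if a = j then (if b = i then Gm z g' k j else 0) else 0)) := by
      intro a
      unfold Vij
      by_cases ha : a = i
      · subst ha
        by_cases hb : b = j
        · subst hb; simp [h]; ring
        · simp [hb, h]
      · by_cases ha' : a = j
        · subst ha'
          by_cases hb : b = i
          · subst hb; simp [ha]; ring
          · simp [hb, ha]
        · simp [ha, ha']
    simp only [this, ← Finset.mul_sum, Finset.sum_add_distrib, Finset.sum_ite_eq', Finset.mem_univ,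
      if_true]
  simp only [h3]
  have h4 : ∀ b : Fin n, (((s - g (pr i j h)) / Real.sqrt n : ℝ) : ℂ) *
      ((if b = j then Gm z g' k i else 0) + (if b = i then Gm z g' k j else 0)) * Gm z g b l =
      (((s - g (pr i j h)) / Real.sqrt n : ℝ) : ℂ) *
      ((if b = j then Gm z g' k i * Gm z g j l else 0) +
        (if b = i then Gm z g' k j * Gm z g i l else 0)) := by
    intro b
    by_cases hb : b = j
    · subst hb
      simp [h.symm]; ring
    · by_cases hb' : b = i
      · subst hb'; simp [hb]; ring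
      · simp [hb, hb']
  simp only [h4, ← Finset.mul_sum, Finset.sum_add_distrib, Finset.sum_ite_eq', Finset.mem_univ,
    if_true]

/-- derivative of the resolvent entries -/
lemma hasDerivAt_Gm (hz : 0 < z.im) (i j : Fin n) (h : i ≠ j) (k l : Fin n) :
    HasDerivAt (fun s => Gm z (Function.update g (pr i j h) s) k l)
      (((Real.sqrt n)⁻¹ : ℝ) * (Gm z g k i * Gm z g j l + Gm z g k j * Gm z g i l))
      (g (pr i j h)) := by
  set t := g (pr i j h) with ht
  have hup : Function.update g (pr i j h) t = g := Function.update_eq_self _ _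
  -- continuity of entries
  have hcont : ∀ a b : Fin n, Tendsto (fun s => Gm z (Function.update g (pr i j h) s) a b) (𝓝 t)
      (𝓝 (Gm z g a b)) := by
    intro a b
    rw [tendsto_iff_norm_sub_tendsto_zero]
    have hlim : Tendsto (fun s : ℝ => |s - t| * ((Real.sqrt n)⁻¹ * (2 * ((z.im)⁻¹ * (z.im)⁻¹))))
        (𝓝 t) (𝓝 0) := by
      have : Tendsto (fun s : ℝ => |s - t| * ((Real.sqrt n)⁻¹ * (2 * ((z.im)⁻¹ * (z.im)⁻¹))))
        (𝓝 t) (𝓝 (|t - t| * ((Real.sqrt n)⁻¹ * (2 * ((z.im)⁻¹ * (z.im)⁻¹))))) := by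
        apply Continuous.tendsto
        fun_prop
      simpa using this
    refine squeeze_zero (fun _ => norm_nonneg _) (fun s => ?_) hlim
    rw [Gm_update_sub z g hz i j h s a b, norm_mul]
    have e1 : ‖(((s - g (pr i j h)) / Real.sqrt n : ℝ) : ℂ)‖ = |s - t| * (Real.sqrt n)⁻¹ := by
      rw [Complex.norm_real, Real.norm_eq_abs, abs_div, div_eq_mul_inv,
        abs_of_nonneg (Real.sqrt_nonneg _)]
    rw [e1, mul_assoc]
    refine mul_le_mul_of_nonneg_left ?_ (abs_nonneg _)
    refine mul_le_mul_of_nonneg_left ?_ (by positivity)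
    refine (norm_add_le _ _).trans ?_
    rw [norm_mul, norm_mul]
    have b1 := norm_Gm_le z (Function.update g (pr i j h) s) hz a i
    have b2 := norm_Gm_le z (Function.update g (pr i j h) s) hz a j
    have b3 := norm_Gm_le z g hz j b
    have b4 := norm_Gm_le z g hz i b
    have hz' : 0 ≤ (z.im)⁻¹ := by positivity
    have := mul_le_mul b1 b3 (norm_nonneg _) hz'
    have := mul_le_mul b2 b4 (norm_nonneg _) hz'
    linarith
  rw [hasDerivAt_iff_tendsto_slope]
  have hlim2 : Tendsto (fun s => (((Real.sqrt n)⁻¹ : ℝ) : ℂ) *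
      (Gm z (Function.update g (pr i j h) s) k i * Gm z g j l +
        Gm z (Function.update g (pr i j h) s) k j * Gm z g i l)) (𝓝[≠] t)
      (𝓝 (((Real.sqrt n)⁻¹ : ℝ) * (Gm z g k i * Gm z g j l + Gm z g k j * Gm z g i l))) := by
    refine Tendsto.mono_left ?_ nhdsWithin_le_nhds
    exact ((((hcont k i).mul_const _).add ((hcont k j).mul_const _))).const_mul _
  refine hlim2.congr' ?_
  filter_upwards [self_mem_nhdsWithin] with s hs
  have hs' : s - t ≠ 0 := sub_ne_zero.2 hs
  rw [slope_def_module, hup, Gm_update_sub z g hz i j h s k l, Complex.real_smul]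
  push_cast
  have hs'' : ((s : ℂ) - (t : ℂ)) ≠ 0 := by
    rw [← Complex.ofReal_sub]; exact_mod_cast hs'
  rw [← ht]
  field_simp

end resolvent

/-- continuity of `gsym` in the disorder -/
lemma continuous_gsym (i j : Fin n) : Continuous (fun g : Pairs n → ℝ => gsym g i j) := by
  unfold gsym
  split_ifs
  · exact continuous_apply _
  · exact continuous_apply _
  · exact continuous_const

lemma continuous_Wm (i j : Fin n) : Continuous (fun g : Pairs n → ℝ => Wm g i j) :=
  (continuous_gsym i j).div_const _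

lemma continuous_Am (z : ℂ) : Continuous (fun g : Pairs n → ℝ => Am z g) := by
  refine continuous_matrix fun i j => ?_
  unfold Am
  exact continuous_const.sub (Complex.continuous_ofReal.comp (continuous_Wm i j))

lemma continuous_Gm (z : ℂ) (hz : 0 < z.im) (i j : Fin n) :
    Continuous (fun g : Pairs n → ℝ => Gm z g i j) := by
  have h : (fun g : Pairs n → ℝ => Gm z g i j) =
      fun g => ((Am z g).det)⁻¹ * (Am z g).adjugate i j := by
    ext g
    unfold Gm
    rw [Matrix.inv_def, Ring.inverse_eq_inv', Matrix.smul_apply, smul_eq_mul]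
  rw [h]
  refine Continuous.mul ?_ ?_
  · exact (Continuous.matrix_det (continuous_Am z)).inv₀ (fun g => det_Am_ne z g hz)
  · exact (Continuous.matrix_adjugate (continuous_Am z)).matrix_elem i j

lemma continuous_energy (β : ℝ) (b : Fin n → ℝ) (x : Cfg n) :
    Continuous (fun g : Pairs n → ℝ => energy (skJ β g) b x) := by
  unfold energy
  refine Continuous.add ?_ continuous_const
  refine continuous_finsetSum _ fun i _ => continuous_finsetSum _ fun j _ => ?_
  split_ifs
  · unfold skJ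
    exact ((continuous_const.mul (continuous_gsym i j)).mul continuous_const).mul continuous_const
  · exact continuous_const

lemma continuous_pw (β : ℝ) (x : Cfg n) : Continuous (fun g : Pairs n → ℝ => pw β g x) := by
  unfold pw gibbs
  refine Continuous.div ?_ ?_ (fun g => (Zpos _ _).ne')
  · exact Real.continuous_exp.comp (continuous_energy β 0 x)
  · exact continuous_finsetSum _ fun y _ => Real.continuous_exp.comp (continuous_energy β 0 y)

lemma continuous_Mm (β : ℝ) (i j : Fin n) : Continuous (fun g : Pairs n → ℝ => Mm β g i j) := by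
  simp only [Mm_eq]
  exact continuous_finsetSum _ fun x _ => (continuous_pw β x).mul continuous_const

end Vale.Agent.P150.Cav
end

section

open MeasureTheory ProbabilityTheory Filter Topology

namespace Vale.Agent.P150.Cav

variable {n : ℕ}

/-- `(G x)_l` -/
noncomputable def Gx (z : ℂ) (g : Pairs n → ℝ) (x : Cfg n) (l : Fin n) : ℂ :=
  ∑ k, Gm z g l k * (sp (x k) : ℂ)

/-- `(G M)_{ji}` -/
noncomputable def hh (z : ℂ) (β : ℝ) (g : Pairs n → ℝ) (i j : Fin n) : ℂ :=
  ∑ x : Cfg n, (pw β g x : ℂ) * (Gx z g x j * (sp (x i) : ℂ))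

/-- the Gibbs covariance term -/
noncomputable def TT (z : ℂ) (β : ℝ) (g : Pairs n → ℝ) (i j : Fin n) : ℂ :=
  ∑ x : Cfg n, (pw β g x : ℂ) * (((sp (x i) * sp (x j) - Mm β g i j : ℝ) : ℂ) *
    (Gx z g x j * (sp (x i) : ℂ)))

/-- the resolvent derivative term -/
noncomputable def UU (z : ℂ) (β : ℝ) (g : Pairs n → ℝ) (i j : Fin n) : ℂ :=
  ∑ x : Cfg n, (pw β g x : ℂ) * ((Gm z g j i * Gx z g x j + Gm z g j j * Gx z g x i) *
    (sp (x i) : ℂ))

/-- `n⁻¹ tr (G M)` -/
noncomputable def aa (z : ℂ) (β : ℝ) (g : Pairs n → ℝ) : ℂ :=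
  (n : ℂ)⁻¹ * ∑ x : Cfg n, (pw β g x : ℂ) * ∑ i, Gx z g x i * (sp (x i) : ℂ)

/-- `n⁻¹ tr G` -/
noncomputable def mm (z : ℂ) (g : Pairs n → ℝ) : ℂ := (n : ℂ)⁻¹ * ∑ i, Gm z g i i

/-- `n⁻² tr (G M²)` -/
noncomputable def bb (z : ℂ) (β : ℝ) (g : Pairs n → ℝ) : ℂ :=
  ((n : ℂ)⁻¹) ^ 2 * ∑ i, ∑ j, (Mm β g i j : ℂ) * hh z β g i j

/-- small error term -/
noncomputable def ee (z : ℂ) (β : ℝ) (g : Pairs n → ℝ) : ℂ :=
  ((n : ℂ)⁻¹) ^ 2 * (∑ x : Cfg n, (pw β g x : ℂ) * ∑ j, Gx z g x j ^ 2 -
    2 * ∑ i, Gm z g i i * hh z β g i i)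

lemma hasDerivAt_Gx (z : ℂ) (hz : 0 < z.im) (g : Pairs n → ℝ) (i j : Fin n) (h : i ≠ j)
    (x : Cfg n) (l : Fin n) :
    HasDerivAt (fun s => Gx z (Function.update g (pr i j h) s) x l)
      (((Real.sqrt n)⁻¹ : ℝ) * (Gm z g l i * Gx z g x j + Gm z g l j * Gx z g x i))
      (g (pr i j h)) := by
  unfold Gx
  refine (HasDerivAt.fun_sum fun k _ => (hasDerivAt_Gm z g hz i j h l k).mul_const
    (sp (x k) : ℂ)).congr_deriv ?_
  rw [mul_add, Finset.mul_sum, Finset.mul_sum, Finset.mul_sum, Finset.mul_sum,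
    ← Finset.sum_add_distrib]
  refine Finset.sum_congr rfl fun k _ => ?_
  ring

lemma hasDerivAt_hh (z : ℂ) (hz : 0 < z.im) (β : ℝ) (g : Pairs n → ℝ) (i j : Fin n) (h : i ≠ j) :
    HasDerivAt (fun s => hh z β (Function.update g (pr i j h) s) i j)
      (((Real.sqrt n)⁻¹ : ℝ) * (β * TT z β g i j + UU z β g i j)) (g (pr i j h)) := by
  unfold hh
  have key : ∀ x : Cfg n, HasDerivAt (fun s => (pw β (Function.update g (pr i j h) s) x : ℂ) *
      (Gx z (Function.update g (pr i j h) s) x j * (sp (x i) : ℂ)))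
      (((pw β g x * (β / Real.sqrt n * (sp (x i) * sp (x j) - Mm β g i j)) : ℝ) : ℂ) *
        (Gx z g x j * (sp (x i) : ℂ)) + (pw β g x : ℂ) * ((((Real.sqrt n)⁻¹ : ℝ) *
        (Gm z g j i * Gx z g x j + Gm z g j j * Gx z g x i)) * (sp (x i) : ℂ)))
      (g (pr i j h)) := by
    intro x
    have h1 := (hasDerivAt_pw β g i j h x).ofReal_comp
    have h2 := (hasDerivAt_Gx z hz g i j h x j).mul_const (sp (x i) : ℂ)
    have h3 := h1.fun_mul h2
    refine h3.congr_deriv ?_
    simp only [Function.update_eq_self]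
  refine (HasDerivAt.fun_sum fun x _ => key x).congr_deriv ?_
  unfold TT UU
  rw [Finset.mul_sum, ← Finset.sum_add_distrib, Finset.mul_sum]
  refine Finset.sum_congr rfl fun x _ => ?_
  push_cast
  ring

/-! ### bounds -/

lemma nsq_Gx_le (z : ℂ) (hz : 0 < z.im) (g : Pairs n → ℝ) (x : Cfg n) :
    nsq (Gx z g x) ≤ (z.im)⁻¹ ^ 2 * n := by
  have := (coer_im z g).nsq_inv_le hz (xv x)
  rwa [nsq_xv] at this

lemma norm_Gx_le (z : ℂ) (hz : 0 < z.im) (g : Pairs n → ℝ) (x : Cfg n) (l : Fin n) :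
    ‖Gx z g x l‖ ≤ (z.im)⁻¹ * n := by
  unfold Gx
  refine (norm_sum_le _ _).trans ?_
  have : ∀ k ∈ Finset.univ, ‖Gm z g l k * (sp (x k) : ℂ)‖ ≤ (z.im)⁻¹ := by
    intro k _
    rw [norm_mul, Complex.norm_real, Real.norm_eq_abs, abs_sp, mul_one]
    exact norm_Gm_le z g hz l k
  refine (Finset.sum_le_card_nsmul _ _ _ this).trans ?_
  simp [mul_comm]

lemma norm_pw (β : ℝ) (g : Pairs n → ℝ) (x : Cfg n) : ‖(pw β g x : ℂ)‖ = pw β g x := by
  rw [Complex.norm_real, Real.norm_eq_abs, abs_of_pos (pw_pos β g x)]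

/-- averaging a bounded function -/
lemma norm_avg_le (β : ℝ) (g : Pairs n → ℝ) (f : Cfg n → ℂ) (C : ℝ) (hC : ∀ x, ‖f x‖ ≤ C) :
    ‖∑ x : Cfg n, (pw β g x : ℂ) * f x‖ ≤ C := by
  refine (norm_sum_le _ _).trans ?_
  calc ∑ x : Cfg n, ‖(pw β g x : ℂ) * f x‖ ≤ ∑ x : Cfg n, pw β g x * C := by
        refine Finset.sum_le_sum fun x _ => ?_
        rw [norm_mul, norm_pw]
        exact mul_le_mul_of_nonneg_left (hC x) (pw_pos β g x).le
    _ = C := by rw [← Finset.sum_mul, pw_sum, one_mul]

lemma norm_hh_le (z : ℂ) (hz : 0 < z.im) (β : ℝ) (g : Pairs n → ℝ) (i j : Fin n) :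
    ‖hh z β g i j‖ ≤ (z.im)⁻¹ * n := by
  refine norm_avg_le β g _ _ fun x => ?_
  rw [norm_mul, Complex.norm_real, Real.norm_eq_abs, abs_sp, mul_one]
  exact norm_Gx_le z hz g x j

lemma abs_Mm_le (β : ℝ) (g : Pairs n → ℝ) (i j : Fin n) : |Mm β g i j| ≤ 1 := by
  rw [Mm_eq]
  refine (Finset.abs_sum_le_sum_abs _ _).trans ?_
  refine le_of_eq ?_
  rw [← pw_sum β g]
  refine Finset.sum_congr rfl fun x _ => ?_
  rw [abs_mul, abs_mul, abs_sp, abs_sp, abs_of_pos (pw_pos β g x)]
  ring

lemma norm_TT_le (z : ℂ) (hz : 0 < z.im) (β : ℝ) (g : Pairs n → ℝ) (i j : Fin n) :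
    ‖TT z β g i j‖ ≤ 2 * ((z.im)⁻¹ * n) := by
  refine norm_avg_le β g _ _ fun x => ?_
  rw [norm_mul, norm_mul, Complex.norm_real, Complex.norm_real, Real.norm_eq_abs,
    Real.norm_eq_abs, abs_sp, mul_one]
  refine mul_le_mul ?_ (norm_Gx_le z hz g x j) (norm_nonneg _) (by norm_num)
  refine (abs_sub _ _).trans ?_
  rw [abs_mul, abs_sp, abs_sp]
  have := abs_Mm_le β g i j
  linarith

lemma norm_UU_le (z : ℂ) (hz : 0 < z.im) (β : ℝ) (g : Pairs n → ℝ) (i j : Fin n) :
    ‖UU z β g i j‖ ≤ 2 * ((z.im)⁻¹ * ((z.im)⁻¹ * n)) := by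
  refine norm_avg_le β g _ _ fun x => ?_
  rw [norm_mul, Complex.norm_real, Real.norm_eq_abs, abs_sp, mul_one]
  refine (norm_add_le _ _).trans ?_
  rw [norm_mul, norm_mul]
  have hz' : 0 ≤ (z.im)⁻¹ := by positivity
  have h1 := mul_le_mul (norm_Gm_le z g hz j i) (norm_Gx_le z hz g x j) (norm_nonneg _) hz'
  have h2 := mul_le_mul (norm_Gm_le z g hz j j) (norm_Gx_le z hz g x i) (norm_nonneg _) hz'
  linarith only [h2, h1]

lemma continuous_Gx (z : ℂ) (hz : 0 < z.im) (x : Cfg n) (l : Fin n) :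
    Continuous (fun g : Pairs n → ℝ => Gx z g x l) :=
  continuous_finsetSum _ fun k _ => (continuous_Gm z hz l k).mul continuous_const

lemma continuous_pwC (β : ℝ) (x : Cfg n) : Continuous (fun g : Pairs n → ℝ => (pw β g x : ℂ)) :=
  Complex.continuous_ofReal.comp (continuous_pw β x)

lemma continuous_hh (z : ℂ) (hz : 0 < z.im) (β : ℝ) (i j : Fin n) :
    Continuous (fun g : Pairs n → ℝ => hh z β g i j) :=
  continuous_finsetSum _ fun x _ => (continuous_pwC β x).mul
    ((continuous_Gx z hz x j).mul continuous_const)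

lemma continuous_TT (z : ℂ) (hz : 0 < z.im) (β : ℝ) (i j : Fin n) :
    Continuous (fun g : Pairs n → ℝ => TT z β g i j) :=
  continuous_finsetSum _ fun x _ => (continuous_pwC β x).mul
    ((Complex.continuous_ofReal.comp (continuous_const.sub (continuous_Mm β i j))).mul
      ((continuous_Gx z hz x j).mul continuous_const))

lemma continuous_UU (z : ℂ) (hz : 0 < z.im) (β : ℝ) (i j : Fin n) :
    Continuous (fun g : Pairs n → ℝ => UU z β g i j) :=
  continuous_finsetSum _ fun x _ => (continuous_pwC β x).mul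
    ((((continuous_Gm z hz j i).mul (continuous_Gx z hz x j)).add
      ((continuous_Gm z hz j j).mul (continuous_Gx z hz x i))).mul continuous_const)

/-! ### pointwise algebra -/

lemma Mm_self (β : ℝ) (g : Pairs n → ℝ) (i : Fin n) : Mm β g i i = 1 := by
  rw [Mm_eq, ← pw_sum β g]
  refine Finset.sum_congr rfl fun x _ => ?_
  rw [sp_mul_self, mul_one]

lemma TT_self (z : ℂ) (β : ℝ) (g : Pairs n → ℝ) (i : Fin n) : TT z β g i i = 0 := by
  unfold TT
  refine Finset.sum_eq_zero fun x _ => ?_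
  rw [Mm_self, sp_mul_self]
  simp

lemma sum_W_hh (z : ℂ) (hz : 0 < z.im) (β : ℝ) (hn : 0 < n) (g : Pairs n → ℝ) :
    ∑ i, ∑ j, (Wm g i j : ℂ) * hh z β g i j = n * (z * aa z β g - 1) := by
  have hx : ∀ (x : Cfg n) (i : Fin n), ∑ j, (Wm g i j : ℂ) * Gx z g x j =
      z * Gx z g x i - (sp (x i) : ℂ) := by
    intro x i
    have h1 : (Am z g).mulVec ((Gm z g).mulVec (xv x)) i = xv x i := by
      rw [Matrix.mulVec_mulVec, Am_mul_Gm z g hz, Matrix.one_mulVec]
    rw [Am_mulVec] at h1
    have h2 : ∑ j, (Wm g i j : ℂ) * Gx z g x j =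
        ∑ j, (Wm g i j : ℂ) * (Gm z g).mulVec (xv x) j := rfl
    rw [h2]
    have h3 : z * Gx z g x i = z * (Gm z g).mulVec (xv x) i := rfl
    rw [h3]
    have h4 : xv x i = (sp (x i) : ℂ) := rfl
    rw [← h4, ← h1]
    ring
  have hL : ∑ i, ∑ j, (Wm g i j : ℂ) * hh z β g i j =
      ∑ x : Cfg n, (pw β g x : ℂ) * ∑ i, (∑ j, (Wm g i j : ℂ) * Gx z g x j) * (sp (x i) : ℂ) := by
    unfold hh
    simp only [Finset.mul_sum, Finset.sum_mul]
    rw [Finset.sum_comm]
    have : ∀ j : Fin n, ∑ i : Fin n, ∑ x : Cfg n, (Wm g i j : ℂ) * ((pw β g x : ℂ) *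
        (Gx z g x j * (sp (x i) : ℂ))) = ∑ x : Cfg n, ∑ i : Fin n, (Wm g i j : ℂ) * ((pw β g x : ℂ) *
        (Gx z g x j * (sp (x i) : ℂ))) := fun j => Finset.sum_comm
    simp only [this]
    rw [Finset.sum_comm]
    refine Finset.sum_congr rfl fun x _ => ?_
    rw [Finset.sum_comm]
    refine Finset.sum_congr rfl fun i _ => Finset.sum_congr rfl fun j _ => ?_
    ring
  rw [hL]
  simp only [hx]
  have hnC : (n : ℂ) ≠ 0 := by exact_mod_cast hn.ne'
  have h5 : ∀ x : Cfg n, ∑ i, (z * Gx z g x i - (sp (x i) : ℂ)) * (sp (x i) : ℂ) =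
      z * (∑ i, Gx z g x i * (sp (x i) : ℂ)) - n := by
    intro x
    simp only [sub_mul, Finset.sum_sub_distrib]
    congr 1
    · rw [Finset.mul_sum]
      exact Finset.sum_congr rfl fun i _ => by ring
    · have : ∀ i : Fin n, (sp (x i) : ℂ) * (sp (x i) : ℂ) = 1 := by
        intro i
        rw [← Complex.ofReal_mul, sp_mul_self]; simp
      simp [this]
  simp only [h5, mul_sub, Finset.sum_sub_distrib]
  congr 1
  · unfold aa
    have : ∀ x : Cfg n, (pw β g x : ℂ) * (z * ∑ i, Gx z g x i * (sp (x i) : ℂ)) =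
      z * ((pw β g x : ℂ) * ∑ i, Gx z g x i * (sp (x i) : ℂ)) := fun x => by ring
    simp only [this, ← Finset.mul_sum]
    field_simp
  · rw [← Finset.sum_mul, ← Complex.ofReal_sum, pw_sum]
    simp

lemma sum_TT (z : ℂ) (β : ℝ) (hn : 0 < n) (g : Pairs n → ℝ) :
    ∑ i, ∑ j, TT z β g i j = (n : ℂ) ^ 2 * (aa z β g - bb z β g) := by
  have hnC : (n : ℂ) ≠ 0 := by exact_mod_cast hn.ne'
  have h1 : ∀ i j : Fin n, TT z β g i j = (∑ x : Cfg n, (pw β g x : ℂ) *
      (Gx z g x j * (sp (x j) : ℂ))) - (Mm β g i j : ℂ) * hh z β g i j := by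
    intro i j
    unfold TT hh
    rw [Finset.mul_sum, ← Finset.sum_sub_distrib]
    refine Finset.sum_congr rfl fun x _ => ?_
    have h2 : (sp (x i) : ℂ) * (sp (x i) : ℂ) = 1 := by
      rw [← Complex.ofReal_mul, sp_mul_self]; simp
    push_cast
    linear_combination ((pw β g x : ℂ) * (sp (x j) : ℂ) * Gx z g x j) * h2
  simp only [h1, Finset.sum_sub_distrib, mul_sub]
  congr 1
  · simp only [Finset.sum_const, Finset.card_univ, Fintype.card_fin, nsmul_eq_mul]
    unfold aa
    rw [Finset.sum_comm]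
    simp only [← Finset.mul_sum]
    field_simp
  · unfold bb
    field_simp

lemma sum_UU (z : ℂ) (β : ℝ) (hn : 0 < n) (g : Pairs n → ℝ) :
    ∑ i, ∑ j, UU z β g i j - ∑ i, UU z β g i i =
      (n : ℂ) ^ 2 * (mm z g * aa z β g + ee z β g) := by
  have hnC : (n : ℂ) ≠ 0 := by exact_mod_cast hn.ne'
  have h1 : ∑ i, UU z β g i i = 2 * ∑ i, Gm z g i i * hh z β g i i := by
    rw [Finset.mul_sum]
    refine Finset.sum_congr rfl fun i _ => ?_
    unfold UU hh
    rw [Finset.mul_sum, Finset.mul_sum]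
    refine Finset.sum_congr rfl fun x _ => ?_
    ring
  have h2 : ∑ i, ∑ j, UU z β g i j = (∑ x : Cfg n, (pw β g x : ℂ) * ∑ j, Gx z g x j ^ 2) +
      (∑ j, Gm z g j j) * ∑ x : Cfg n, (pw β g x : ℂ) * ∑ i, Gx z g x i * (sp (x i) : ℂ) := by
    unfold UU
    have e1 : ∑ i : Fin n, ∑ j : Fin n, ∑ x : Cfg n, (pw β g x : ℂ) *
        ((Gm z g j i * Gx z g x j + Gm z g j j * Gx z g x i) * (sp (x i) : ℂ)) =
        ∑ x : Cfg n, ∑ i : Fin n, ∑ j : Fin n, (pw β g x : ℂ) *
        ((Gm z g j i * Gx z g x j + Gm z g j j * Gx z g x i) * (sp (x i) : ℂ)) := by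
      have : ∀ i : Fin n, ∑ j : Fin n, ∑ x : Cfg n, (pw β g x : ℂ) *
        ((Gm z g j i * Gx z g x j + Gm z g j j * Gx z g x i) * (sp (x i) : ℂ)) =
        ∑ x : Cfg n, ∑ j : Fin n, (pw β g x : ℂ) *
        ((Gm z g j i * Gx z g x j + Gm z g j j * Gx z g x i) * (sp (x i) : ℂ)) :=
        fun i => Finset.sum_comm
      simp only [this]
      exact Finset.sum_comm
    rw [e1, Finset.mul_sum, ← Finset.sum_add_distrib]
    refine Finset.sum_congr rfl fun x _ => ?_
    have e2 : ∑ i : Fin n, ∑ j : Fin n, (pw β g x : ℂ) *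
        ((Gm z g j i * Gx z g x j + Gm z g j j * Gx z g x i) * (sp (x i) : ℂ)) =
        (pw β g x : ℂ) * ∑ i : Fin n, ∑ j : Fin n, (Gm z g j i * (sp (x i) : ℂ)) * Gx z g x j +
        (pw β g x : ℂ) * ∑ i : Fin n, ∑ j : Fin n, Gm z g j j * (Gx z g x i * (sp (x i) : ℂ)) := by
      rw [← mul_add, ← Finset.sum_add_distrib, Finset.mul_sum]
      refine Finset.sum_congr rfl fun i _ => ?_
      rw [← Finset.sum_add_distrib, Finset.mul_sum]
      refine Finset.sum_congr rfl fun j _ => ?_
      ring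
    rw [e2]
    congr 1
    · congr 1
      rw [Finset.sum_comm]
      refine Finset.sum_congr rfl fun j _ => ?_
      rw [← Finset.sum_mul, sq]
      rfl
    · simp only [← Finset.sum_mul, ← Finset.mul_sum]
      ring
  rw [h1, h2]
  unfold mm aa ee
  field_simp
  ring

end Vale.Agent.P150.Cav
end

section

/-! Series facts for `S m = m * artanh m`, `|m| < 1` (used by G3). -/

namespace Vale.Agent.P150.F

open Real Finset

theorem artanh_hasSum {m : ℝ} (hm : |m| < 1) :
    HasSum (fun k : ℕ => m ^ (2 * k + 1) / (2 * k + 1)) (artanh m) := by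
  have h := Real.hasSum_log_sub_log_of_abs_lt_one hm
  have hb := abs_lt.1 hm
  have e : artanh m = (1 / 2) * (log (1 + m) - log (1 - m)) := by
    rw [Real.artanh_eq_half_log ⟨hb.1.le, hb.2.le⟩, Real.log_div (by linarith) (by linarith)]
  rw [e]
  have h2 := h.mul_left (1 / 2)
  have e2 : (fun k : ℕ => m ^ (2 * k + 1) / (2 * k + 1)) =
      fun k : ℕ => 1 / 2 * ((2 : ℝ) * (1 / (2 * k + 1)) * m ^ (2 * k + 1)) := by
    funext k
    ring
  rw [e2]
  exact h2

theorem S_hasSum {m : ℝ} (hm : |m| < 1) :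
    HasSum (fun k : ℕ => (m ^ 2) ^ (k + 1) / (2 * k + 1)) (m * artanh m) := by
  have h := (artanh_hasSum hm).mul_left m
  have e : (fun k : ℕ => (m ^ 2) ^ (k + 1) / (2 * (k : ℝ) + 1)) =
      fun k : ℕ => m * (m ^ (2 * k + 1) / (2 * k + 1)) := by
    funext k
    rw [← pow_mul, mul_div_assoc']
    congr 1
    rw [← pow_succ']
    congr 1
  rw [e]
  exact h

theorem S_mono {m m' : ℝ} (h : |m'| ≤ |m|) (hm : |m| < 1) :
    m' * artanh m' ≤ m * artanh m := by
  refine hasSum_le (fun k => ?_) (S_hasSum (h.trans_lt hm)) (S_hasSum hm)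
  have h2 : m' ^ 2 ≤ m ^ 2 := sq_le_sq.2 h
  have h3 : (m' ^ 2) ^ (k + 1) ≤ (m ^ 2) ^ (k + 1) := pow_le_pow_left₀ (sq_nonneg _) h2 _
  gcongr

theorem S_ge_poly {m : ℝ} (hm : |m| < 1) (K : ℕ) :
    ∑ k ∈ range K, (m ^ 2) ^ (k + 1) / (2 * k + 1) ≤ m * artanh m := by
  refine sum_le_hasSum (range K) (fun k _ => ?_) (S_hasSum hm)
  (clear * -; positivity)

theorem sq_le_S {m : ℝ} (hm : |m| < 1) : m ^ 2 ≤ m * artanh m := by
  have := S_ge_poly hm 1
  simpa using this

private lemma poly13 {q : ℝ} (hq : 19 / 20 ≤ q) :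
    2 * q * (101 / 100) - q * (1 - q) + 1 / 20 ≤
      ∑ k ∈ range 13, q ^ (k + 1) / (2 * (k : ℝ) + 1) := by
  obtain ⟨t, ht, rfl⟩ : ∃ t, 0 ≤ t ∧ q = 19 / 20 + t := ⟨q - 19 / 20, by linarith only [hq], by ring⟩
  simp only [sum_range_succ, sum_range_zero]
  norm_num
  ring_nf
  linarith only [ht, pow_nonneg ht 2, pow_nonneg ht 3, pow_nonneg ht 4, pow_nonneg ht 5, pow_nonneg ht 6, pow_nonneg ht 7, pow_nonneg ht 8, pow_nonneg ht 9, pow_nonneg ht 10, pow_nonneg ht 11, pow_nonneg ht 12, pow_nonneg ht 13]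

/-- Jensen at the large-`q` end. -/
theorem S_jensen {n : ℕ} {m : Fin n → ℝ} (hm : ∀ i, |m i| < 1)
    (hq : 19 / 20 ≤ (∑ i, m i ^ 2) / n) :
    2 * ((∑ i, m i ^ 2) / n) * (101 / 100) -
        ((∑ i, m i ^ 2) / n) * (1 - (∑ i, m i ^ 2) / n) + 1 / 20 ≤
      (∑ i, m i * artanh (m i)) / n := by
  rcases Nat.eq_zero_or_pos n with rfl | hn
  · norm_num at hq
  have hn' : (0 : ℝ) < n := by exact_mod_cast hn
  set q : ℝ := (∑ i, m i ^ 2) / n with hqd
  refine (poly13 hq).trans ?_
  have hJ : ∀ k : ℕ, q ^ (k + 1) ≤ (∑ i, (m i ^ 2) ^ (k + 1)) / n := by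
    intro k
    have := Real.pow_arith_mean_le_arith_mean_pow (univ : Finset (Fin n)) (fun _ => (n : ℝ)⁻¹)
      (fun i => m i ^ 2) (fun i _ => by positivity)
      (by simp [Finset.sum_const, hn'.ne']) (fun i _ => sq_nonneg _) (k + 1)
    rw [← Finset.mul_sum, ← Finset.mul_sum] at this
    rw [hqd, div_eq_inv_mul, div_eq_inv_mul]
    exact this
  calc ∑ k ∈ range 13, q ^ (k + 1) / (2 * (k : ℝ) + 1)
      ≤ ∑ k ∈ range 13, ((∑ i, (m i ^ 2) ^ (k + 1)) / n) / (2 * (k : ℝ) + 1) := by
        refine Finset.sum_le_sum fun k _ => ?_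
        have := hJ k
        gcongr
    _ = (∑ i, ∑ k ∈ range 13, (m i ^ 2) ^ (k + 1) / (2 * (k : ℝ) + 1)) / n := by
        rw [Finset.sum_comm, Finset.sum_div]
        refine Finset.sum_congr rfl fun k _ => ?_
        rw [← Finset.sum_div]
        ring
    _ ≤ (∑ i, m i * artanh (m i)) / n := by
        refine div_le_div_of_nonneg_right ?_ hn'.le
        exact Finset.sum_le_sum fun i _ => S_ge_poly (hm i) 13

end Vale.Agent.P150.F
end

section

/-! Weak law of large numbers (Chebyshev) for the standard Gaussian product measure. -/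

open MeasureTheory ProbabilityTheory Filter Topology

namespace Vale.Agent.P150.F

lemma memLp_two_of_growth {φ : ℝ → ℝ} (hφ : Continuous φ) {C : ℝ}
    (hC : ∀ x, |φ x| ≤ C * (1 + x ^ 2)) : MemLp φ 2 (gaussianReal 0 1) := by
  have h4 : Integrable (fun x : ℝ => x ^ 4) (gaussianReal 0 1) := by
    have h := (memLp_id_gaussianReal (μ := 0) (v := 1) 4).integrable_norm_pow (by norm_num)
    refine h.congr (Eventually.of_forall fun x => ?_)
    simp only [id, Real.norm_eq_abs]
    exact Even.pow_abs (by decide) x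
  rw [memLp_two_iff_integrable_sq hφ.aestronglyMeasurable]
  refine ((integrable_const (2 * C ^ 2)).add (h4.const_mul (2 * C ^ 2))).mono'
    (hφ.pow 2).aestronglyMeasurable (Eventually.of_forall fun x => ?_)
  rw [Real.norm_eq_abs, abs_of_nonneg (sq_nonneg _), ← sq_abs]
  have h1 := hC x
  have h2 : |φ x| ^ 2 ≤ (C * (1 + x ^ 2)) ^ 2 := pow_le_pow_left₀ (abs_nonneg _) h1 2
  refine h2.trans ?_
  simp only [Pi.add_apply]
  have h3 : 0 ≤ C ^ 2 * (1 - x ^ 2) ^ 2 := by (clear * -; positivity)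
  linarith only [h3]

/-- Chebyshev LLN for the standard Gaussian product measure. -/
theorem lln {φ : ℝ → ℝ} (hφ : Continuous φ) {C : ℝ} (hC : ∀ x, |φ x| ≤ C * (1 + x ^ 2))
    {ε : ℝ} (hε : 0 < ε) :
    Tendsto (fun n : ℕ => (gpi (Fin n)).real
      {h | ε * n < |∑ i, φ (h i) - n * ∫ x, φ x ∂(gaussianReal 0 1)|}) atTop (𝓝 0) := by
  have hL := memLp_two_of_growth hφ hC
  set V : ℝ := Var[φ; gaussianReal 0 1] with hV
  have hV0 : 0 ≤ V := variance_nonneg _ _
  have key : ∀ n : ℕ, 0 < n → (gpi (Fin n)).real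
      {h | ε * n < |∑ i, φ (h i) - n * ∫ x, φ x ∂(gaussianReal 0 1)|} ≤ V / ε ^ 2 / n := by
    intro n hn
    have hn' : (0 : ℝ) < n := by exact_mod_cast hn
    set X : (Fin n → ℝ) → ℝ := ∑ i : Fin n, fun ω => φ (ω i) with hX
    have hXi : ∀ i : Fin n, MemLp (fun ω : Fin n → ℝ => φ (ω i)) 2 (gpi (Fin n)) := fun i =>
      hL.comp_measurePreserving (measurePreserving_eval (fun _ : Fin n => gaussianReal 0 1) i)
    have hXL : MemLp X 2 (gpi (Fin n)) := by
      rw [hX]
      exact memLp_finsetSum' _ fun i _ => hXi i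
    have hvar : Var[X; gpi (Fin n)] = n * V := by
      have := variance_sum_pi (μ := fun _ : Fin n => gaussianReal 0 1) (X := fun _ => φ)
        (fun _ => hL)
      rw [hX]
      refine this.trans ?_
      simp [hV]
    have hmean : ∫ ω, X ω ∂(gpi (Fin n)) = n * ∫ x, φ x ∂(gaussianReal 0 1) := by
      have h1 : ∀ ω, X ω = ∑ i : Fin n, φ (ω i) := fun ω => by rw [hX]; simp
      simp only [h1]
      rw [integral_finsetSum _ fun i _ => (hXi i).integrable (by norm_num)]
      have h2 : ∀ i : Fin n, ∫ ω, φ (ω i) ∂(gpi (Fin n)) = ∫ x, φ x ∂(gaussianReal 0 1) := by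
        intro i
        have mp := measurePreserving_eval (fun _ : Fin n => gaussianReal 0 1) i
        rw [← mp.map_eq, integral_map mp.measurable.aemeasurable
          (by rw [mp.map_eq]; exact hL.1)]
      simp [h2]
    have hc : 0 < ε * n := by positivity
    have hch := meas_ge_le_variance_div_sq hXL hc
    rw [hvar, hmean] at hch
    have hsub : {h : Fin n → ℝ | ε * n < |∑ i, φ (h i) - n * ∫ x, φ x ∂(gaussianReal 0 1)|} ⊆
        {ω | ε * n ≤ |X ω - n * ∫ x, φ x ∂(gaussianReal 0 1)|} := by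
      intro h hh
      simp only [Set.mem_ofPred_eq] at hh ⊢
      have h1 : X h = ∑ i : Fin n, φ (h i) := by rw [hX]; simp
      rw [h1]
      exact hh.le
    have h3 : (gpi (Fin n)).real
      {h | ε * n < |∑ i, φ (h i) - n * ∫ x, φ x ∂(gaussianReal 0 1)|} ≤ n * V / (ε * n) ^ 2 := by
      refine ENNReal.toReal_le_of_le_ofReal (by (clear * - hn hV0 hε; positivity)) ?_
      exact (measure_mono hsub).trans hch
    refine h3.trans_eq ?_
    field_simp
  have hlim : Tendsto (fun n : ℕ => V / ε ^ 2 / (n : ℝ)) atTop (𝓝 0) :=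
    tendsto_const_div_atTop_nhds_zero_nat _
  refine squeeze_zero' (Eventually.of_forall fun n => measureReal_nonneg) ?_ hlim
  exact eventually_atTop.2 ⟨1, fun n hn => key n (by omega)⟩

end Vale.Agent.P150.F
end

section

/-! Module G6c: Gaussian quadratic forms with independent random coefficients. -/

open MeasureTheory ProbabilityTheory Filter Topology

namespace Vale.Agent.P150.F.G6c

variable {ι : Type*} [Fintype ι]

/-- measurable functions of polynomial growth -/
def Pol (F : (ι → ℝ) → ℝ) : Prop :=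
  Measurable F ∧ ∃ C : ℝ, 0 ≤ C ∧ ∃ k : ℕ, ∀ g, |F g| ≤ C * (1 + ∑ i, |g i|) ^ k

lemma one_le_s (g : ι → ℝ) : 1 ≤ 1 + ∑ i, |g i| := by
  have : 0 ≤ ∑ i, |g i| := Finset.sum_nonneg fun _ _ => abs_nonneg _
  linarith

lemma Pol.of_bdd {F : (ι → ℝ) → ℝ} (hm : Measurable F) {C : ℝ} (h : ∀ g, |F g| ≤ C) : Pol F :=
  ⟨hm, |C|, abs_nonneg _, 0, fun g => by
    rw [pow_zero, mul_one]; exact (h g).trans (le_abs_self _)⟩

lemma Pol.const (c : ℝ) : Pol (fun _ : ι → ℝ => c) := Pol.of_bdd measurable_const fun _ => le_rfl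

lemma Pol.coord (i : ι) : Pol (fun g : ι → ℝ => g i) := by
  refine ⟨measurable_pi_apply i, 1, zero_le_one, 1, fun g => ?_⟩
  rw [one_mul, pow_one]
  have := Finset.single_le_sum (f := fun i => |g i|) (fun j _ => abs_nonneg (g j))
    (Finset.mem_univ i)
  linarith

lemma Pol.add {F F' : (ι → ℝ) → ℝ} (h : Pol F) (h' : Pol F') : Pol (fun g => F g + F' g) := by
  obtain ⟨m, C, hC, k, b⟩ := h
  obtain ⟨m', C', hC', k', b'⟩ := h'
  refine ⟨m.add m', C + C', add_nonneg hC hC', k + k', fun g => ?_⟩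
  have h1 := one_le_s g
  have h2 : (1 + ∑ i, |g i|) ^ k ≤ (1 + ∑ i, |g i|) ^ (k + k') :=
    pow_le_pow_right₀ h1 (Nat.le_add_right _ _)
  have h3 : (1 + ∑ i, |g i|) ^ k' ≤ (1 + ∑ i, |g i|) ^ (k + k') :=
    pow_le_pow_right₀ h1 (Nat.le_add_left _ _)
  rw [add_mul]
  exact (abs_add_le _ _).trans (add_le_add ((b g).trans (mul_le_mul_of_nonneg_left h2 hC))
    ((b' g).trans (mul_le_mul_of_nonneg_left h3 hC')))

lemma Pol.mul {F F' : (ι → ℝ) → ℝ} (h : Pol F) (h' : Pol F') : Pol (fun g => F g * F' g) := by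
  obtain ⟨m, C, hC, k, b⟩ := h
  obtain ⟨m', C', hC', k', b'⟩ := h'
  refine ⟨m.mul m', C * C', mul_nonneg hC hC', k + k', fun g => ?_⟩
  have h1 := zero_le_one.trans (one_le_s g)
  rw [abs_mul, pow_add, mul_mul_mul_comm]
  exact mul_le_mul (b g) (b' g) (abs_nonneg _) (by positivity)

lemma Pol.neg {F : (ι → ℝ) → ℝ} (h : Pol F) : Pol (fun g => -F g) := by
  have := (Pol.const (ι := ι) (-1)).mul h
  simpa using this

lemma Pol.sub {F F' : (ι → ℝ) → ℝ} (h : Pol F) (h' : Pol F') : Pol (fun g => F g - F' g) := by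
  have := h.add h'.neg
  simpa [sub_eq_add_neg] using this

lemma Pol.sum {S : Type*} (s : Finset S) {F : S → (ι → ℝ) → ℝ} (h : ∀ i ∈ s, Pol (F i)) :
    Pol (fun g => ∑ i ∈ s, F i g) := by
  classical
  induction s using Finset.induction_on with
  | empty => simpa using Pol.const (ι := ι) 0
  | insert a s ha ih =>
    have h1 := (h a (Finset.mem_insert_self a s)).add
      (ih fun i hi => h i (Finset.mem_insert_of_mem hi))
    simp only [Finset.sum_insert ha]
    exact h1

lemma Pol.pow {F : (ι → ℝ) → ℝ} (h : Pol F) (k : ℕ) : Pol (fun g => F g ^ k) := by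
  induction k with
  | zero => simpa using Pol.const (ι := ι) 1
  | succ k ih => simpa [pow_succ] using ih.mul h

lemma pow_le_exp (k : ℕ) {x : ℝ} (hx : 0 ≤ x) : (1 + x) ^ k ≤ k.factorial * Real.exp 1 * Real.exp (1 * x) := by
  have h := Real.pow_div_factorial_le_exp (1 + x) (by linarith only [hx]) k
  rw [div_le_iff₀ (by positivity)] at h
  rw [mul_assoc, ← Real.exp_add, one_mul]
  linarith only [h]

lemma Pol.integrable {F : (ι → ℝ) → ℝ} (h : Pol F) : Integrable F (gpi ι) := by
  obtain ⟨m, C, hC, k, b⟩ := h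
  refine ((integrable_exp_sum (ι := ι) 1).const_mul (C * (k.factorial * Real.exp 1))).mono'
    m.aestronglyMeasurable (ae_of_all _ fun g => ?_)
  rw [Real.norm_eq_abs]
  refine (b g).trans ?_
  rw [mul_assoc]
  exact mul_le_mul_of_nonneg_left (pow_le_exp k (Finset.sum_nonneg fun _ _ => abs_nonneg _)) hC

lemma Pol.section_integrable [DecidableEq ι] {F : (ι → ℝ) → ℝ} (h : Pol F) (x : ι → ℝ) (e : ι) :
    Integrable (fun t => F (Function.update x e t)) (gaussianReal 0 1) := by
  obtain ⟨m, C, hC, k, b⟩ := h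
  refine ((integrable_exp_abs_gauss 1).const_mul
    (C * (k.factorial * Real.exp 1 * Real.exp (∑ i, |x i|)))).mono'
    (m.comp (measurable_update x)).aestronglyMeasurable (ae_of_all _ fun t => ?_)
  rw [Real.norm_eq_abs]
  refine (b _).trans ?_
  rw [mul_assoc]
  refine mul_le_mul_of_nonneg_left ?_ hC
  refine (pow_le_exp k (Finset.sum_nonneg fun _ _ => abs_nonneg _)).trans ?_
  rw [mul_assoc (_ * _) _ _, ← Real.exp_add]
  refine mul_le_mul_of_nonneg_left (Real.exp_le_exp.2 ?_) (by positivity)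
  rw [one_mul, one_mul]
  have : ∑ i, |Function.update x e t i| ≤ ∑ i, (|x i| + if i = e then |t| else 0) := by
    refine Finset.sum_le_sum fun i _ => ?_
    by_cases hi : i = e
    · subst hi; simp
    · simp [hi]
  refine this.trans (le_of_eq ?_)
  rw [Finset.sum_add_distrib]
  simp

/-- Stein's identity for functions of polynomial growth -/
lemma stein_pol [DecidableEq ι] (e : ι) {F F' : (ι → ℝ) → ℝ} (hF : Pol F) (hF' : Pol F')
    (hd : ∀ x, HasDerivAt (fun t => F (Function.update x e t)) (F' x) (x e)) :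
    ∫ x, x e * F x ∂(gpi ι) = ∫ x, F' x ∂(gpi ι) := by
  have hxF : Pol (fun x : ι → ℝ => x e * F x) := (Pol.coord e).mul hF
  rw [integral_update _ e hxF.integrable, integral_update _ e hF'.integrable]
  refine integral_congr_ae (Filter.Eventually.of_forall fun x => ?_)
  simp only [Function.update_self]
  refine stein_one (g := fun t => F (Function.update x e t))
    (g' := fun t => F' (Function.update x e t)) (fun t => ?_) ?_ ?_ ?_
  · have := hd (Function.update x e t)
    simpa using this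
  · have := hxF.section_integrable x e
    simpa using this
  · exact hF'.section_integrable x e
  · exact hF.section_integrable x e

lemma hasDerivAt_update_apply [DecidableEq ι] (g : ι → ℝ) (a b : ι) (s : ℝ) :
    HasDerivAt (fun t => Function.update g a t b) (if b = a then 1 else 0) s := by
  by_cases h : b = a
  · subst h
    simp only [Function.update_self, if_true]
    exact hasDerivAt_id s
  · simp only [Function.update_of_ne h, if_neg h]
    exact hasDerivAt_const s (g b)

variable {S : Type*} [Fintype S]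

/-- second moment of a centred Gaussian quadratic form whose coefficients do not depend on the
variables of the form -/
theorem qf_var [DecidableEq ι] (e : S → ι) (he : Function.Injective e)
    (M : (ι → ℝ) → S → S → ℝ) (hs : ∀ g i k, M g i k = M g k i)
    (hm : ∀ i k, Measurable fun g => M g i k) {C : ℝ} (hb : ∀ g i k, |M g i k| ≤ C)
    (hi : ∀ g i s, M (Function.update g (e i) s) = M g) :
    ∫ g, (∑ i, ∑ k, M g i k * g (e i) * g (e k) - ∑ i, M g i i) ^ 2 ∂(gpi ι)
      = 2 * ∫ g, ∑ i, ∑ k, M g i k ^ 2 ∂(gpi ι) := by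
  classical
  have pM : ∀ i k, Pol (fun g => M g i k) := fun i k => Pol.of_bdd (hm i k) fun g => hb g i k
  have px : ∀ i, Pol (fun g : ι → ℝ => g (e i)) := fun i => Pol.coord (e i)
  have py : ∀ i, Pol (fun g => ∑ k, M g i k * g (e k)) :=
    fun i => Pol.sum _ fun k _ => (pM i k).mul (px k)
  have pt : Pol (fun g => ∑ i, M g i i) := Pol.sum _ fun i _ => pM i i
  have pq : Pol (fun g => ∑ i, ∑ k, M g i k * g (e i) * g (e k)) :=
    Pol.sum _ fun i _ => Pol.sum _ fun k _ => ((pM i k).mul (px i)).mul (px k)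
  have pf : Pol (fun g => ∑ i, ∑ k, M g i k * g (e i) * g (e k) - ∑ i, M g i i) := pq.sub pt
  have dx : ∀ (g : ι → ℝ) (i k : S) (s : ℝ),
      HasDerivAt (fun t => Function.update g (e i) t (e k)) (if k = i then 1 else 0) s := by
    intro g i k s
    have h := hasDerivAt_update_apply g (e i) (e k) s
    simpa [he.eq_iff] using h
  have dy : ∀ (g : ι → ℝ) (i l : S), HasDerivAt
      (fun t => ∑ k, M (Function.update g (e l) t) i k * Function.update g (e l) t (e k))
      (M g i l) (g (e l)) := by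
    intro g i l
    simp only [hi]
    have h1 : ∀ k ∈ (Finset.univ : Finset S), HasDerivAt
        (fun t => M g i k * Function.update g (e l) t (e k)) (M g i k * if k = l then 1 else 0)
        (g (e l)) := fun k _ => (dx g l k _).const_mul _
    have h2 := HasDerivAt.fun_sum h1
    refine h2.congr_deriv ?_
    simp
  have dq : ∀ (g : ι → ℝ) (l : S), HasDerivAt
      (fun t => ∑ i, ∑ k, M (Function.update g (e l) t) i k * Function.update g (e l) t (e i)
        * Function.update g (e l) t (e k) - ∑ i, M (Function.update g (e l) t) i i)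
      (2 * ∑ k, M g l k * g (e k)) (g (e l)) := by
    intro g l
    simp only [hi]
    have h1 : ∀ i ∈ (Finset.univ : Finset S), HasDerivAt
        (fun t => ∑ k, M g i k * Function.update g (e l) t (e i)
          * Function.update g (e l) t (e k))
        (∑ k, ((M g i k * if i = l then 1 else 0) * g (e k)
          + M g i k * g (e i) * if k = l then 1 else 0)) (g (e l)) := by
      intro i _
      refine HasDerivAt.fun_sum fun k _ => ?_
      have h3 := ((dx g l i (g (e l))).const_mul (M g i k)).mul (dx g l k (g (e l)))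
      simp only [Function.update_eq_self] at h3
      exact h3
    have h2 := (HasDerivAt.fun_sum h1).sub_const (∑ i, M g i i)
    refine h2.congr_deriv ?_
    simp only [Finset.sum_add_distrib]
    have e1 : ∑ i, ∑ k, (M g i k * if i = l then 1 else 0) * g (e k)
        = ∑ k, M g l k * g (e k) := by
      rw [Finset.sum_eq_single l]
      · simp
      · intro b _ hb
        simp [hb]
      · simp
    have e2 : ∑ i, ∑ k, M g i k * g (e i) * (if k = l then 1 else 0)
        = ∑ k, M g l k * g (e k) := by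
      refine Finset.sum_congr rfl fun i _ => ?_
      rw [Finset.sum_eq_single l]
      · simp [hs g i l]
      · intro b _ hb
        simp [hb]
      · simp
    rw [e1, e2]; ring
  -- second moments of `M x`
  have s1 : ∀ i, ∫ g, (∑ k, M g i k * g (e k)) ^ 2 ∂(gpi ι)
      = ∫ g, ∑ k, M g i k ^ 2 ∂(gpi ι) := by
    intro i
    have h1 : ∀ g : ι → ℝ, (∑ k, M g i k * g (e k)) ^ 2
        = ∑ l, g (e l) * (M g i l * ∑ k, M g i k * g (e k)) := by
      intro g
      rw [pow_two, Finset.sum_mul]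
      exact Finset.sum_congr rfl fun l _ => by ring
    simp_rw [h1]
    rw [integral_finsetSum _ fun l _ => ((px l).mul ((pM i l).mul (py i))).integrable,
      integral_finsetSum _ fun l _ => ((pM i l).pow 2).integrable]
    refine Finset.sum_congr rfl fun l _ => ?_
    refine stein_pol (e l) ((pM i l).mul (py i)) ((pM i l).pow 2) fun g => ?_
    simp only [hi]
    have h2 := (dy g i l).const_mul (M g i l)
    simp only [hi] at h2
    refine h2.congr_deriv ?_
    ring
  -- main computation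
  have s2 : ∫ g, (∑ i, ∑ k, M g i k * g (e i) * g (e k) - ∑ i, M g i i) ^ 2 ∂(gpi ι)
      = ∑ l, ∫ g, g (e l) * ((∑ k, M g l k * g (e k))
          * (∑ i, ∑ k, M g i k * g (e i) * g (e k) - ∑ i, M g i i)) ∂(gpi ι)
        - ∫ g, (∑ i, M g i i) * (∑ i, ∑ k, M g i k * g (e i) * g (e k) - ∑ i, M g i i)
          ∂(gpi ι) := by
    rw [← integral_finsetSum _ fun l _ => ((px l).mul ((py l).mul pf)).integrable,
      ← integral_sub (integrable_finsetSum _ fun l _ => ((px l).mul ((py l).mul pf)).integrable)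
        (pt.mul pf).integrable]
    refine integral_congr_ae (Filter.Eventually.of_forall fun g => ?_)
    simp only
    have h1 : ∑ l, g (e l) * ((∑ k, M g l k * g (e k))
          * (∑ i, ∑ k, M g i k * g (e i) * g (e k) - ∑ i, M g i i))
        = (∑ i, ∑ k, M g i k * g (e i) * g (e k))
          * (∑ i, ∑ k, M g i k * g (e i) * g (e k) - ∑ i, M g i i) := by
      rw [Finset.sum_mul (s := Finset.univ) (f := fun i => ∑ k, M g i k * g (e i) * g (e k))]
      refine Finset.sum_congr rfl fun l _ => ?_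
      rw [← mul_assoc, Finset.mul_sum]
      congr 1
      exact Finset.sum_congr rfl fun k _ => by ring
    rw [h1]; ring
  have s3 : ∀ l, ∫ g, g (e l) * ((∑ k, M g l k * g (e k))
          * (∑ i, ∑ k, M g i k * g (e i) * g (e k) - ∑ i, M g i i)) ∂(gpi ι)
      = ∫ g, M g l l * (∑ i, ∑ k, M g i k * g (e i) * g (e k) - ∑ i, M g i i) ∂(gpi ι)
        + 2 * ∫ g, (∑ k, M g l k * g (e k)) ^ 2 ∂(gpi ι) := by
    intro l
    rw [← integral_const_mul, ← integral_add ((pM l l).mul pf).integrable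
      (((py l).pow 2).integrable.const_mul 2)]
    refine stein_pol (e l) ((py l).mul pf)
      (((pM l l).mul pf).add ((Pol.const 2).mul ((py l).pow 2))) fun g => ?_
    have h2 := (dy g l l).mul (dq g l)
    refine h2.congr_deriv ?_
    simp only [Function.update_eq_self]
    ring
  rw [s2, Finset.sum_congr rfl fun l _ => s3 l, Finset.sum_add_distrib,
    ← integral_finsetSum _ fun l _ => ((pM l l).mul pf).integrable, ← Finset.mul_sum,
    Finset.sum_congr rfl fun i _ => s1 i,
    ← integral_finsetSum _ fun i _ =>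
      (Pol.sum _ fun k _ => (pM i k).pow 2).integrable]
  have s4 : ∫ g, ∑ i, M g i i * (∑ i, ∑ k, M g i k * g (e i) * g (e k) - ∑ i, M g i i) ∂(gpi ι)
      = ∫ g, (∑ i, M g i i) * (∑ i, ∑ k, M g i k * g (e i) * g (e k) - ∑ i, M g i i)
          ∂(gpi ι) := by
    refine integral_congr_ae (Filter.Eventually.of_forall fun g => ?_)
    simp only
    rw [Finset.sum_mul]
  rw [s4]; ring

end Vale.Agent.P150.F.G6c
end

section

/-! P150 FULL, D3M steps 2-3 (helper162): the algebra. -/

open MeasureTheory ProbabilityTheory Filter Topology Real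
open scoped Matrix

namespace Vale.Agent.P150.F.T23

variable {n m : ℕ}

theorem t_ex_ip (ν : Cfg n → ℝ) (u : Vec n) : Ex ν (fun x => ip u (sv x)) = ip u (mean ν) := by
  unfold Ex ip mean
  simp_rw [Finset.mul_sum]
  rw [Finset.sum_comm]
  refine Finset.sum_congr rfl fun i _ => Finset.sum_congr rfl fun x _ => by ring

theorem t_trQ (Q : Mat n) {ν : Cfg n → ℝ} (hν : IsProb ν) :
    ∑ i, (Q * covM ν) i i = Ex ν (fun x => qf Q (sv x)) - qf Q (mean ν) := by
  have h1 : ∀ j i, covM ν j i = Ex ν (fun x => sv x j * sv x i) - mean ν j * mean ν i := by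
    intro j i
    unfold covM Ex
    have e : ∀ x, ν x * ((sv x j - mean ν j) * (sv x i - mean ν i))
        = ν x * (sv x j * sv x i) - mean ν i * (ν x * sv x j) - mean ν j * (ν x * sv x i)
          + mean ν j * mean ν i * ν x := fun x => by ring
    simp_rw [e]
    rw [Finset.sum_add_distrib, Finset.sum_sub_distrib, Finset.sum_sub_distrib,
      ← Finset.mul_sum, ← Finset.mul_sum, ← Finset.mul_sum, hν.2]
    have e2 : ∑ x, ν x * sv x j = mean ν j := rfl
    have e3 : ∑ x, ν x * sv x i = mean ν i := rfl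
    rw [e2, e3]
    ring
  have h2 : Ex ν (fun x => qf Q (sv x)) = ∑ i, ∑ j, Q i j * Ex ν (fun x => sv x j * sv x i) := by
    unfold Ex qf ip Matrix.mulVec dotProduct
    simp_rw [Finset.mul_sum]
    rw [Finset.sum_comm]
    refine Finset.sum_congr rfl fun i _ => ?_
    rw [Finset.sum_comm]
    refine Finset.sum_congr rfl fun j _ => Finset.sum_congr rfl fun x _ => by ring
  have h3 : qf Q (mean ν) = ∑ i, ∑ j, Q i j * (mean ν j * mean ν i) := by
    unfold qf ip Matrix.mulVec dotProduct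
    simp_rw [Finset.mul_sum]
    refine Finset.sum_congr rfl fun i _ => Finset.sum_congr rfl fun j _ => by ring
  rw [h2, h3, ← Finset.sum_sub_distrib]
  refine Finset.sum_congr rfl fun i _ => ?_
  rw [Matrix.mul_apply, ← Finset.sum_sub_distrib]
  refine Finset.sum_congr rfl fun j _ => ?_
  rw [h1]
  ring

theorem t_ip_symm {Q : Mat n} (hQ : ∀ i j, Q i j = Q j i) (u v : Vec n) :
    ip (Q.mulVec u) v = ip (Q.mulVec v) u := by
  unfold ip Matrix.mulVec dotProduct
  simp_rw [Finset.sum_mul]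
  rw [Finset.sum_comm]
  refine Finset.sum_congr rfl fun i _ => Finset.sum_congr rfl fun j _ => ?_
  rw [hQ j i]
  ring

theorem t_qf_sub {Q : Mat n} (hQ : ∀ i j, Q i j = Q j i) (u v : Vec n) :
    qf Q (u - v) = qf Q u + qf Q v - 2 * ip (Q.mulVec u) v := by
  unfold qf
  rw [Matrix.mulVec_sub, ip_sub_left, ip_sub_right, ip_sub_right, ipN_comm u (Q.mulVec v),
    t_ip_symm hQ v u, ipN_comm v (Q.mulVec u), ipN_comm v (Q.mulVec v), ipN_comm u (Q.mulVec u)]
  ring

/-- step (2): the energy of the posterior mean is at most the energy of any approximation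
`mm` of the spins which is orthogonal to the residual. -/
theorem t_step2 {Q : Mat n} (hQ : ∀ i j, Q i j = Q j i) (hP : ∀ v, 0 ≤ qf Q v)
    {ν : Cfg n → ℝ} (hν : IsProb ν) (mm : Cfg n → Vec n) :
    qf Q (mean ν) ≤ 2 * Ex ν (fun x => |ip (Q.mulVec (mean ν)) (sv x - mm x)|)
      + Ex ν (fun x => qf Q (mm x)) := by
  have h1 : qf Q (mean ν) = Ex ν (fun x => ip (Q.mulVec (mean ν)) (sv x)) := by
    rw [t_ex_ip]; unfold qf; exact ipN_comm _ _
  have h2 : ∀ x, ip (Q.mulVec (mean ν)) (sv x)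
      ≤ |ip (Q.mulVec (mean ν)) (sv x - mm x)| + qf Q (mean ν) / 2 + qf Q (mm x) / 2 := by
    intro x
    have h3 := hP (mean ν - mm x)
    rw [t_qf_sub hQ] at h3
    have h4 : ip (Q.mulVec (mean ν)) (sv x)
        = ip (Q.mulVec (mean ν)) (sv x - mm x) + ip (Q.mulVec (mean ν)) (mm x) := by
      rw [ip_sub_right]; ring
    have h5 := le_abs_self (ip (Q.mulVec (mean ν)) (sv x - mm x))
    linarith only [h3, h4, h5]
  have h3 : Ex ν (fun x => ip (Q.mulVec (mean ν)) (sv x))
      ≤ Ex ν (fun x => |ip (Q.mulVec (mean ν)) (sv x - mm x)|) + qf Q (mean ν) / 2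
        + Ex ν (fun x => qf Q (mm x)) / 2 := by
    have e : Ex ν (fun x => |ip (Q.mulVec (mean ν)) (sv x - mm x)|) + qf Q (mean ν) / 2
        + Ex ν (fun x => qf Q (mm x)) / 2
        = ∑ x, ν x * (|ip (Q.mulVec (mean ν)) (sv x - mm x)| + qf Q (mean ν) / 2
          + qf Q (mm x) / 2) := by
      unfold Ex
      simp_rw [mul_add]
      rw [Finset.sum_add_distrib, Finset.sum_add_distrib, ← Finset.sum_mul, hν.2, Finset.sum_div]
      simp only [one_mul, mul_div_assoc]
    rw [e]
    exact Finset.sum_le_sum fun x _ => mul_le_mul_of_nonneg_left (h2 x) (hν.1 x)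
  linarith only [h3, h1]

/-- step (3), the identity for the AMP iterates -/
theorem t_amp_id (J : Mat n) (r : ℝ) (z : Vec n) (x : Cfg n) (k : ℕ) :
    r * qf J (ampM (r • J) r z x (k + 1))
      = ip (ampM (r • J) r z x (k + 1)) (ampA (r • J) r z x (k + 1))
        - ip z (ampM (r • J) r z x (k + 1))
        + r ^ 2 * ((1 - qq (ampM (r • J) r z x (k + 1))) *
          ip (ampM (r • J) r z x (k + 1)) (ampM (r • J) r z x k)) := by
  have h : ampA (r • J) r z x (k + 1) = r • J.mulVec (ampM (r • J) r z x (k + 1)) + z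
      - (r ^ 2 * (1 - qq (ampM (r • J) r z x (k + 1)))) • ampM (r • J) r z x k := by
    funext i
    change (r • J).mulVec (ampM (r • J) r z x (k + 1)) i + z i
        - r ^ 2 * (1 - qq (ampM (r • J) r z x (k + 1))) * ampM (r • J) r z x k i = _
    rw [Matrix.smul_mulVec]
    simp [Pi.smul_apply, smul_eq_mul]
  rw [h, ip_sub_right, ip_add_right, ip_smul_right, ip_smul_right,
    ipN_comm (ampM (r • J) r z x (k + 1)) z]
  unfold qf
  ring

theorem t_amp0 (J : Mat n) (r : ℝ) (z : Vec n) (x : Cfg n) :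
    ip (sv x) (ampA (r • J) r z x 0) = r * qf J (sv x) + ip z (sv x) := by
  have h : ampA (r • J) r z x 0 = r • J.mulVec (sv x) + z := by
    funext i
    change (r • J).mulVec (sv x) i + z i = _
    rw [Matrix.smul_mulVec]
    simp [Pi.smul_apply, smul_eq_mul]
  rw [h, ip_add_right, ip_smul_right, ipN_comm (sv x) z]
  rfl

theorem t_qq_mem {v : Vec n} (hv : ∀ i, |v i| ≤ 1) : 0 ≤ qq v ∧ qq v ≤ 1 :=
  ⟨qq_nonneg _, qq_le_one hv⟩

/-- the overlap term -/
theorem t_overlap (hn : 0 < n) {u v : Vec n} (hu : ∀ i, |u i| ≤ 1) (_hv : ∀ i, |v i| ≤ 1)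
    {q : ℝ} (hq0 : 0 ≤ q) (hq1 : q ≤ 1) :
    |(1 - qq u) * ip u v / n - (1 - q) * q|
      ≤ |qq u - q| + |sq (v - u) / n - (qq v - qq u)| / 2 := by
  have hn' : (0 : ℝ) < n := by exact_mod_cast hn
  have hu' := t_qq_mem hu
  have e1 : sq (v - u) = sq v + sq u - 2 * ip u v := by
    rw [← ipN_self, ip_sub_left, ip_sub_right, ip_sub_right, ipN_self, ipN_self, ipN_comm v u]
    ring
  have e2 : ip u v / n = qq u - (sq (v - u) / n - (qq v - qq u)) / 2 := by
    rw [e1]
    unfold qq
    field_simp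
    ring
  have e3 : (1 - qq u) * ip u v / n - (1 - q) * q
      = (qq u - q) * (1 - qq u - q) - (1 - qq u) * (sq (v - u) / n - (qq v - qq u)) / 2 := by
    rw [mul_div_assoc, e2]
    ring
  rw [e3]
  have h1 : |(qq u - q) * (1 - qq u - q)| ≤ |qq u - q| := by
    rw [abs_mul]
    have : |1 - qq u - q| ≤ 1 := by
      rw [abs_le]; constructor <;> linarith [hu'.1, hu'.2]
    calc |qq u - q| * |1 - qq u - q| ≤ |qq u - q| * 1 :=
          mul_le_mul_of_nonneg_left this (abs_nonneg _)
      _ = _ := mul_one _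
  have h2 : |(1 - qq u) * (sq (v - u) / n - (qq v - qq u)) / 2|
      ≤ |sq (v - u) / n - (qq v - qq u)| / 2 := by
    rw [abs_div, abs_mul, abs_of_nonneg (by linarith only [hu'.2] : (0 : ℝ) ≤ 1 - qq u),
      abs_of_pos (by norm_num : (0 : ℝ) < 2)]
    have := mul_le_mul_of_nonneg_right (by linarith only [hu'.1] : 1 - qq u ≤ 1)
      (abs_nonneg (sq (v - u) / n - (qq v - qq u)))
    linarith only [this]
  calc _ ≤ |(qq u - q) * (1 - qq u - q)| + |(1 - qq u) * (sq (v - u) / n - (qq v - qq u)) / 2| :=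
        abs_sub _ _
    _ ≤ _ := add_le_add h1 h2

end Vale.Agent.P150.F.T23
end

section

/-! P150 FULL: exponential tilting (helper383). One tilt gives exponential bounds:
`μ(φ ≥ a) ≤ exp (-c (a - E_{ν_c} φ))`, and the DLR defect of `ν_c` is at most
`c² sup_x ∑ (dd_i φ)²`. -/

open MeasureTheory ProbabilityTheory Filter Topology
open scoped Matrix

namespace Vale.Agent.P150.F

variable {n : ℕ}

/-- exponential tilt of the weights `μ` by `e^ψ` -/
noncomputable def tlt (μ ψ : Cfg n → ℝ) (x : Cfg n) : ℝ :=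
  μ x * Real.exp (ψ x) / ∑ x', μ x' * Real.exp (ψ x')

theorem tl_gM_pos (M : Mat n) (y : Vec n) (x : Cfg n) : 0 < gM M y x :=
  div_pos (Real.exp_pos _) (Finset.sum_pos (fun _ _ => Real.exp_pos _) Finset.univ_nonempty)

theorem tl_gM_isProb (M : Mat n) (y : Vec n) : IsProb (gM M y) := by
  refine ⟨fun x => (tl_gM_pos M y x).le, ?_⟩
  unfold gM
  rw [← Finset.sum_div]
  exact div_self (Finset.sum_pos (fun _ _ => Real.exp_pos _) Finset.univ_nonempty).ne'

theorem tlt_sum_pos {μ : Cfg n → ℝ} (hμ : ∀ x, 0 < μ x) (ψ : Cfg n → ℝ) :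
    0 < ∑ x', μ x' * Real.exp (ψ x') :=
  Finset.sum_pos (fun x _ => mul_pos (hμ x) (Real.exp_pos _)) Finset.univ_nonempty

theorem tlt_pos {μ : Cfg n → ℝ} (hμ : ∀ x, 0 < μ x) (ψ : Cfg n → ℝ) (x : Cfg n) :
    0 < tlt μ ψ x := div_pos (mul_pos (hμ x) (Real.exp_pos _)) (tlt_sum_pos hμ ψ)

theorem tlt_isProb {μ : Cfg n → ℝ} (hμ : ∀ x, 0 < μ x) (ψ : Cfg n → ℝ) : IsProb (tlt μ ψ) := by
  refine ⟨fun x => (tlt_pos hμ ψ x).le, ?_⟩
  unfold tlt
  rw [← Finset.sum_div]
  exact div_self (tlt_sum_pos hμ ψ).ne'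

/-- `log E_μ e^{φ} ≤ E_{ν} φ` for the tilted law `ν` -/
theorem sum_exp_le_tlt {μ : Cfg n → ℝ} (hμ : ∀ x, 0 < μ x) (h1 : ∑ x, μ x = 1) (ψ : Cfg n → ℝ) :
    ∑ x, μ x * Real.exp (ψ x) ≤ Real.exp (Ex (tlt μ ψ) ψ) := by
  set Z := ∑ x, μ x * Real.exp (ψ x) with hZ
  have hZ0 : 0 < Z := tlt_sum_pos hμ ψ
  have hJ := convexOn_exp.map_sum_le (t := Finset.univ) (w := tlt μ ψ) (p := fun x => -ψ x)
    (fun x _ => (tlt_pos hμ ψ x).le) (tlt_isProb hμ ψ).2 (fun _ _ => Set.mem_univ _)
  simp only [smul_eq_mul] at hJ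
  have e1 : ∑ x, tlt μ ψ x * -ψ x = - Ex (tlt μ ψ) ψ := by
    unfold Ex; rw [← Finset.sum_neg_distrib]; exact Finset.sum_congr rfl fun x _ => by ring
  have e2 : ∑ x, tlt μ ψ x * Real.exp (-ψ x) = 1 / Z := by
    rw [← h1, Finset.sum_div]
    refine Finset.sum_congr rfl fun x _ => ?_
    unfold tlt
    rw [← hZ, div_mul_eq_mul_div, mul_assoc, ← Real.exp_add, add_neg_cancel, Real.exp_zero, mul_one]
  rw [e1, e2, Real.exp_neg] at hJ
  rw [inv_eq_one_div] at hJ
  exact (one_div_le_one_div (Real.exp_pos _) hZ0).1 hJ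

/-- exponential bound by one tilt -/
theorem tilt_bound {μ : Cfg n → ℝ} (hμ : ∀ x, 0 < μ x) (h1 : ∑ x, μ x = 1) (φ : Cfg n → ℝ)
    {c a : ℝ} (hc : 0 ≤ c) :
    ∑ x, (if a ≤ φ x then μ x else 0)
      ≤ Real.exp (-(c * (a - Ex (tlt μ (fun x => c * φ x)) φ))) := by
  have hk := sum_exp_le_tlt hμ h1 (fun x => c * φ x)
  have e1 : Ex (tlt μ fun x => c * φ x) (fun x => c * φ x)
      = c * Ex (tlt μ fun x => c * φ x) φ := by
    unfold Ex; rw [Finset.mul_sum]; exact Finset.sum_congr rfl fun x _ => by ring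
  rw [e1] at hk
  calc ∑ x, (if a ≤ φ x then μ x else 0)
      ≤ ∑ x, Real.exp (-(c * a)) * (μ x * Real.exp (c * φ x)) := by
        refine Finset.sum_le_sum fun x _ => ?_
        split_ifs with h
        · have : (1 : ℝ) ≤ Real.exp (-(c * a)) * Real.exp (c * φ x) := by
            rw [← Real.exp_add]
            exact Real.one_le_exp (by linarith only [mul_le_mul_of_nonneg_left h hc])
          calc μ x = μ x * 1 := (mul_one _).symm
            _ ≤ μ x * (Real.exp (-(c * a)) * Real.exp (c * φ x)) :=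
                mul_le_mul_of_nonneg_left this (hμ x).le
            _ = _ := by ring
        · exact mul_nonneg (Real.exp_pos _).le (mul_nonneg (hμ x).le (Real.exp_pos _).le)
    _ = Real.exp (-(c * a)) * ∑ x, μ x * Real.exp (c * φ x) := by rw [Finset.mul_sum]
    _ ≤ Real.exp (-(c * a)) * Real.exp (c * Ex (tlt μ fun x => c * φ x) φ) :=
        mul_le_mul_of_nonneg_left hk (Real.exp_pos _).le
    _ = _ := by rw [← Real.exp_add]; congr 1; ring

/-! ### conditional means of Gibbs measures -/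

theorem sv_update_self (x : Cfg n) (i : Fin n) (b : Bool) :
    sv (Function.update x i b) i = sp b := by simp [sv]

theorem sv_update_ne (x : Cfg n) {i j : Fin n} (b : Bool) (h : j ≠ i) :
    sv (Function.update x i b) j = sv x j := by simp [sv, h]

theorem sv_update (x : Cfg n) (i : Fin n) (b : Bool) :
    sv (Function.update x i b) = sv x + Pi.single i (sp b - sv x i) := by
  funext j
  by_cases h : j = i
  · subst h; rw [sv_update_self]; simp
  · rw [sv_update_ne x b h]; simp [Pi.single_eq_of_ne h]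

/-- difference quotient of weights depending on the ratio only -/
theorem condMean_of_exp {ν : Cfg n → ℝ} {i : Fin n} {x : Cfg n} {t : ℝ}
    (h0 : 0 < ν (Function.update x i false))
    (h : ν (Function.update x i true) = ν (Function.update x i false) * Real.exp (2 * t)) :
    condMean ν i x = Real.tanh t := by
  unfold condMean
  rw [h, Real.tanh_eq_sinh_div_cosh, Real.sinh_eq, Real.cosh_eq]
  have e2 : Real.exp (2 * t) = Real.exp t * Real.exp t := by rw [← Real.exp_add]; congr 1; ring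
  have e3 : Real.exp (-t) = (Real.exp t)⁻¹ := Real.exp_neg t
  rw [e2, e3]
  have := Real.exp_pos t
  field_simp

theorem qf_update {M : Mat n} (hM : M.IsSymm) (x : Cfg n) (i : Fin n) :
    qf M (sv (Function.update x i true)) - qf M (sv (Function.update x i false))
      = 4 * (M.mulVec (sv x) i - M i i * sv x i) := by
  have key : ∀ b : Bool, qf M (sv (Function.update x i b)) = qf M (sv x)
      + 2 * (sp b - sv x i) * M.mulVec (sv x) i + (sp b - sv x i) ^ 2 * M i i := by
    intro b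
    rw [sv_update]
    set t := sp b - sv x i
    have e1 : M.mulVec (Pi.single i t) = fun j => t * M j i := by
      funext j; simp [Matrix.mulVec, dotProduct_single, mul_comm]
    have e2 : ip (sv x) (M.mulVec (Pi.single i t)) = t * M.mulVec (sv x) i := by
      rw [ip_mulVec_comm hM]
      unfold ip
      rw [Finset.sum_eq_single i]
      · simp [mul_comm]
      · intro j _ hj; simp [hj]
      · simp
    have e3 : ip (Pi.single i t) (M.mulVec (sv x)) = t * M.mulVec (sv x) i := by
      unfold ip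
      rw [Finset.sum_eq_single i]
      · simp
      · intro j _ hj; simp [hj]
      · simp
    have e4 : ip (Pi.single i t) (M.mulVec (Pi.single i t)) = t * (t * M i i) := by
      rw [e1]
      unfold ip
      rw [Finset.sum_eq_single i]
      · simp
      · intro j _ hj; simp [hj]
      · simp
    unfold qf
    rw [Matrix.mulVec_add, ip_add_left, ip_add_right, ip_add_right, e2, e3, e4]
    ring
  rw [key, key]
  have h1 : sp true = 1 := rfl
  have h2 : sp false = -1 := rfl
  rw [h1, h2]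
  ring

theorem ip_update (y : Vec n) (x : Cfg n) (i : Fin n) :
    ip y (sv (Function.update x i true)) - ip y (sv (Function.update x i false)) = 2 * y i := by
  rw [← ip_sub_right]
  unfold ip
  rw [Finset.sum_eq_single i]
  · rw [Pi.sub_apply, sv_update_self, sv_update_self]
    have h1 : sp true = 1 := rfl
    have h2 : sp false = -1 := rfl
    rw [h1, h2]; ring
  · intro j _ hj
    rw [Pi.sub_apply, sv_update_ne x _ hj, sv_update_ne x _ hj, sub_self, mul_zero]
  · simp

/-- local field of the Gibbs measure `gM M y` -/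
noncomputable def lf (M : Mat n) (y : Vec n) (x : Cfg n) (i : Fin n) : ℝ :=
  M.mulVec (sv x) i - M i i * sv x i + y i

theorem condMean_mul_exp {M : Mat n} (hM : M.IsSymm) (y : Vec n) {c : ℝ} (hc : 0 < c)
    (ψ : Cfg n → ℝ) (i : Fin n) (x : Cfg n) :
    condMean (fun x => c * (Real.exp (qf M (sv x) / 2 + ip y (sv x)) * Real.exp (ψ x))) i x
      = Real.tanh (lf M y x i + dd i ψ x) := by
  refine condMean_of_exp (mul_pos hc (mul_pos (Real.exp_pos _) (Real.exp_pos _))) ?_
  rw [mul_assoc, ← Real.exp_add, ← Real.exp_add, ← Real.exp_add]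
  congr 2
  have h1 := qf_update hM x i
  have h2 := ip_update y x i
  unfold lf dd
  linarith

theorem condMean_gM {M : Mat n} (hM : M.IsSymm) (y : Vec n) (i : Fin n) (x : Cfg n) :
    condMean (gM M y) i x = Real.tanh (lf M y x i) := by
  have h := condMean_mul_exp hM y (c := (∑ x', Real.exp (qf M (sv x') / 2 + ip y (sv x')))⁻¹)
    (inv_pos.2 (Finset.sum_pos (fun _ _ => Real.exp_pos _) Finset.univ_nonempty))
    (fun _ => 0) i x
  have e : dd i (fun _ : Cfg n => (0 : ℝ)) x = 0 := by simp [dd]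
  rw [e, add_zero] at h
  rw [← h]
  congr 1
  funext x
  rw [gM, Real.exp_zero, mul_one, div_eq_inv_mul]

theorem condMean_tlt {M : Mat n} (hM : M.IsSymm) (y : Vec n) (ψ : Cfg n → ℝ) (i : Fin n)
    (x : Cfg n) : condMean (tlt (gM M y) ψ) i x = Real.tanh (lf M y x i + dd i ψ x) := by
  set Z := ∑ x', Real.exp (qf M (sv x') / 2 + ip y (sv x')) with hZ
  set Z' := ∑ x', gM M y x' * Real.exp (ψ x') with hZ'
  have hZ0 : 0 < Z := Finset.sum_pos (fun _ _ => Real.exp_pos _) Finset.univ_nonempty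
  have hZ0' : 0 < Z' := tlt_sum_pos (tl_gM_pos M y) ψ
  rw [← condMean_mul_exp hM y (c := (Z * Z')⁻¹) (inv_pos.2 (mul_pos hZ0 hZ0')) ψ i x]
  congr 1
  funext x
  rw [tlt, ← hZ', gM, ← hZ]
  field_simp

theorem dlr_eq_lf (M : Mat n) (y : Vec n) (ν : Cfg n → ℝ) :
    dlr M y ν = ∑ x, ν x * ∑ i, (condMean ν i x - Real.tanh (lf M y x i)) ^ 2 := rfl

/-- the DLR defect of unnormalised tilted Gibbs weights -/
theorem dlr_exp_le {M : Mat n} (hM : M.IsSymm) (y : Vec n) {c : ℝ} (hc : 0 < c)
    (ψ : Cfg n → ℝ) :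
    dlr M y (fun x => c * (Real.exp (qf M (sv x) / 2 + ip y (sv x)) * Real.exp (ψ x)))
      ≤ ∑ x, c * (Real.exp (qf M (sv x) / 2 + ip y (sv x)) * Real.exp (ψ x))
          * ∑ i, dd i ψ x ^ 2 := by
  rw [dlr_eq_lf]
  refine Finset.sum_le_sum fun x _ => mul_le_mul_of_nonneg_left (Finset.sum_le_sum fun i _ => ?_)
    (by positivity)
  rw [condMean_mul_exp hM y hc]
  have h1 := abs_tanh_sub_le (lf M y x i + dd i ψ x) (lf M y x i)
  rw [add_sub_cancel_left] at h1
  calc _ = |Real.tanh (lf M y x i + dd i ψ x) - Real.tanh (lf M y x i)| ^ 2 := by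
        rw [sq_abs]
    _ ≤ |dd i ψ x| ^ 2 := pow_le_pow_left₀ (abs_nonneg _) h1 2
    _ = _ := by rw [sq_abs]

/-- the DLR defect of a tilted Gibbs measure -/
theorem dlr_tlt_le {M : Mat n} (hM : M.IsSymm) (y : Vec n) (φ : Cfg n → ℝ) (c B : ℝ)
    (hB : ∀ x, ∑ i, dd i φ x ^ 2 ≤ B) :
    dlr M y (tlt (gM M y) fun x => c * φ x) ≤ c ^ 2 * B := by
  rw [dlr_eq_lf]
  have hν := tlt_isProb (tl_gM_pos M y) (fun x => c * φ x)
  set ν := tlt (gM M y) (fun x => c * φ x) with hνdef
  have hb : ∀ x, ∑ i, (condMean ν i x - Real.tanh (lf M y x i)) ^ 2 ≤ c ^ 2 * B := by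
    intro x
    refine le_trans ?_ (mul_le_mul_of_nonneg_left (hB x) (sq_nonneg c))
    rw [Finset.mul_sum]
    refine Finset.sum_le_sum fun i _ => ?_
    rw [hνdef, condMean_tlt hM]
    have h1 := abs_tanh_sub_le (lf M y x i + dd i (fun x => c * φ x) x) (lf M y x i)
    rw [add_sub_cancel_left] at h1
    have h2 : dd i (fun x => c * φ x) x = c * dd i φ x := by unfold dd; ring
    rw [h2] at h1 ⊢
    calc _ = |Real.tanh (lf M y x i + c * dd i φ x) - Real.tanh (lf M y x i)| ^ 2 := by
          rw [sq_abs]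
      _ ≤ |c * dd i φ x| ^ 2 := pow_le_pow_left₀ (abs_nonneg _) h1 2
      _ = _ := by rw [sq_abs, mul_pow]
  calc _ ≤ ∑ x, ν x * (c ^ 2 * B) :=
        Finset.sum_le_sum fun x _ => mul_le_mul_of_nonneg_left (hb x) (hν.1 x)
    _ = c ^ 2 * B := by rw [← Finset.sum_mul, hν.2, one_mul]

end Vale.Agent.P150.F
end

section

/-! P150 FULL, D6: path formulas for the concrete schedule (helper105). -/

open MeasureTheory ProbabilityTheory Filter Topology
open scoped Matrix

namespace Vale.Agent.P150.F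

namespace SPar

variable {n : ℕ} (p : SPar n)

/-! ### the kinds of the micro steps -/

theorem lp_kind_steer (k : ℕ) (i : Fin p.Nw) (a : Fin p.d) (h : k / p.q = i * (p.d + 1) + a) :
    p.kind k = .steer i a := by
  have ha := a.2
  have h1 : k / p.q / (p.d + 1) = i := by
    rw [h, mul_comm, Nat.mul_add_div (by omega), Nat.div_eq_of_lt (by omega), add_zero]
  have h2 : k / p.q % (p.d + 1) = a := by
    rw [h, mul_comm, Nat.mul_add_mod, Nat.mod_eq_of_lt (by omega)]
  unfold kind
  rw [dif_pos (by rw [h1]; exact i.2), dif_pos (by rw [h2]; exact ha)]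
  congr 1
  · exact Fin.ext h1
  · exact Fin.ext h2

theorem lp_kind_kill (k : ℕ) (i : Fin p.Nw) (h : k / p.q = i * (p.d + 1) + p.d) :
    p.kind k = .kill i := by
  have h1 : k / p.q / (p.d + 1) = i := by
    rw [h, mul_comm, Nat.mul_add_div (by omega), Nat.div_eq_of_lt (by omega), add_zero]
  have h2 : k / p.q % (p.d + 1) = p.d := by
    rw [h, mul_comm, Nat.mul_add_mod, Nat.mod_eq_of_lt (by omega)]
  unfold kind
  rw [dif_pos (by rw [h1]; exact i.2), dif_neg (by rw [h2]; omega)]
  congr 1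
  exact Fin.ext h1

/-- every level before the last phase belongs to exactly one steering or killing phase -/
theorem lp_cases {k : ℕ} (h : k < p.Nw * (p.d + 1) * p.q) :
    (∃ (i : Fin p.Nw) (a : Fin p.d), k / p.q = i * (p.d + 1) + a ∧ p.kind k = .steer i a) ∨
      ∃ i : Fin p.Nw, k / p.q = i * (p.d + 1) + p.d ∧ p.kind k = .kill i := by
  have h1 : k / p.q < p.Nw * (p.d + 1) := Nat.div_lt_of_lt_mul (by rw [mul_comm]; exact h)
  have h2 : k / p.q / (p.d + 1) < p.Nw := Nat.div_lt_of_lt_mul (by rw [mul_comm]; exact h1)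
  have h3 : k / p.q % (p.d + 1) < p.d + 1 := Nat.mod_lt _ (by omega)
  have h4 : k / p.q = k / p.q / (p.d + 1) * (p.d + 1) + k / p.q % (p.d + 1) :=
    (Nat.div_add_mod' _ _).symm
  by_cases h5 : k / p.q % (p.d + 1) < p.d
  · left
    exact ⟨⟨_, h2⟩, ⟨_, h5⟩, h4, p.lp_kind_steer k ⟨_, h2⟩ ⟨_, h5⟩ h4⟩
  · right
    have h6 : k / p.q % (p.d + 1) = p.d := by omega
    have h7 : k / p.q = k / p.q / (p.d + 1) * (p.d + 1) + p.d := by rw [h6] at h4; exact h4
    exact ⟨⟨_, h2⟩, h7, p.lp_kind_kill k ⟨_, h2⟩ h7⟩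

/-- micro steps -/
theorem lp_th_succ (f k : ℕ) :
    p.th f (k + 1) = p.th f k + if k / p.q = f then p.dl else 0 := by
  have hq := p.hq
  have h1 : min (k + 1 - f * p.q) p.q = min (k - f * p.q) p.q + if k / p.q = f then 1 else 0 := by
    by_cases h : k / p.q = f
    · rw [if_pos h]
      have h2 : f * p.q ≤ k := by rw [← h]; exact Nat.div_mul_le_self _ _
      have h3 : k < f * p.q + p.q := by
        have := Nat.lt_div_mul_add (a := k) hq
        rw [h] at this; exact this
      omega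
    · rw [if_neg h]
      rcases Nat.lt_or_gt_of_ne h with h4 | h4
      · have h5 : k < f * p.q := (Nat.div_lt_iff_lt_mul hq).1 h4
        omega
      · have h5 : (f + 1) * p.q ≤ k := (Nat.le_div_iff_mul_le hq).1 h4
        rw [add_mul, one_mul] at h5
        omega
  unfold th
  rw [h1]
  push_cast
  split_ifs
  · unfold dl; ring
  · ring

theorem lp_th_zero (f : ℕ) : p.th f 0 = 0 := by unfold th; simp

theorem lp_th_nonneg (f k : ℕ) : 0 ≤ p.th f k := by unfold th; positivity

theorem lp_th_le_one (f k : ℕ) : p.th f k ≤ 1 := by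
  have hq : (0 : ℝ) < p.q := by exact_mod_cast p.hq
  unfold th
  rw [div_le_one hq]
  exact_mod_cast min_le_right _ _

/-- the completed fraction of a phase that has not started is zero -/
theorem lp_th_eq_zero {f k : ℕ} (h : k ≤ f * p.q) : p.th f k = 0 := by
  unfold th
  rw [Nat.sub_eq_zero_of_le h]
  simp

/-- the completed fraction of a completed phase is one -/
theorem lp_th_eq_one {f k : ℕ} (h : (f + 1) * p.q ≤ k) : p.th f k = 1 := by
  have hq : (0 : ℝ) < p.q := by exact_mod_cast p.hq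
  rw [add_mul, one_mul] at h
  unfold th
  rw [min_eq_right (by omega), div_self hq.ne']

theorem lp_dl_pos : 0 < p.dl := by
  have hq : (0 : ℝ) < p.q := by exact_mod_cast p.hq
  unfold dl
  positivity

theorem lp_τ_nonneg : 0 ≤ p.τ := by
  have := p.hβ
  unfold τ
  positivity

/-! ### paths -/

/-- a path of the concrete process, with tracked solutions `m` -/
structure IsPath (x : Cfg n) (ω : ℕ → Vec n) (P : ℕ → p.Ctr) (y m : ℕ → Vec n) : Prop where
  P0 : P 0 = 0
  y0 : y 0 = 0
  hP : ∀ k, P (k + 1) = p.updC (k + 1) (P k) (m (k + 1))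
  hy : ∀ k, y (k + 1) = y k + obs (p.RR k (P k)) p.dl x (ω k)

section Path

variable {p} {x : Cfg n} {ω : ℕ → Vec n} {P : ℕ → p.Ctr} {y m : ℕ → Vec n}

/-- the centre of window `i` does not change, except on reaching the level `i (d+1) q` -/
theorem IsPath.P_succ (h : p.IsPath x ω P y m) (i : Fin p.Nw) {k : ℕ}
    (hk : k + 1 ≠ i * (p.d + 1) * p.q) : P (k + 1) i = P k i := by
  rw [h.hP k]
  funext j
  unfold updC
  rw [if_neg hk]

theorem IsPath.P_const (h : p.IsPath x ω P y m) (i : Fin p.Nw) {k k' : ℕ}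
    (hk : i * (p.d + 1) * p.q ≤ k) (hkk' : k ≤ k') : P k' i = P k i := by
  induction k', hkk' using Nat.le_induction with
  | base => rfl
  | succ k' hk' ih => rw [h.P_succ i (by omega), ih]

theorem IsPath.P_eq (h : p.IsPath x ω P y m) (i : Fin p.Nw) {k k' : ℕ}
    (hk : i * (p.d + 1) * p.q ≤ k) (hk' : i * (p.d + 1) * p.q ≤ k') : P k' i = P k i := by
  rw [h.P_const i le_rfl hk, h.P_const i le_rfl hk']

theorem IsPath.ctr_eq (h : p.IsPath x ω P y m) (i : Fin p.Nw) {k k' : ℕ}
    (hk : i * (p.d + 1) * p.q ≤ k) (hk' : i * (p.d + 1) * p.q ≤ k') :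
    p.ctr (P k') i = p.ctr (P k) i := by
  unfold ctr; rw [h.P_eq i hk hk']

theorem IsPath.ctrPrev_eq (h : p.IsPath x ω P y m) (i : Fin p.Nw) {k k' : ℕ}
    (hk : i * (p.d + 1) * p.q ≤ k) (hk' : i * (p.d + 1) * p.q ≤ k') :
    p.ctrPrev (P k') i = p.ctrPrev (P k) i := by
  unfold ctrPrev
  by_cases h0 : 0 < (i : ℕ)
  · rw [dif_pos h0, dif_pos h0]
    have h1 : ∀ k, (i : ℕ) * (p.d + 1) * p.q ≤ k → ((i : ℕ) - 1) * (p.d + 1) * p.q ≤ k := by
      intro k hk
      refine le_trans ?_ hk
      gcongr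
      omega
    exact h.ctr_eq ⟨i - 1, by omega⟩ (h1 k hk) (h1 k' hk')
  · rw [dif_neg h0, dif_neg h0]

theorem IsPath.vd_eq (h : p.IsPath x ω P y m) (i : Fin p.Nw) (a : Fin p.d) {k k' : ℕ}
    (hk : i * (p.d + 1) * p.q ≤ k) (hk' : i * (p.d + 1) * p.q ≤ k') :
    p.vd (P k') i a = p.vd (P k) i a := by
  unfold vd; rw [h.ctr_eq i hk hk']

/-- the centre of window `i` when it is chosen -/
theorem IsPath.P_start (h : p.IsPath x ω P y m) (i : Fin p.Nw) {k : ℕ}
    (hk : k = i * (p.d + 1) * p.q) (h0 : 0 < k) :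
    P k i = fun j => ⌊p.ℓ * m k j⌋ := by
  obtain ⟨k', rfl⟩ := Nat.exists_eq_succ_of_ne_zero h0.ne'
  rw [Nat.succ_eq_add_one] at *
  rw [h.hP k']
  funext j
  unfold updC
  rw [if_pos hk]

/-- level of the start of a window is below the levels of its phases -/
theorem lp_start_le {i : Fin p.Nw} {a k : ℕ} (h : k / p.q = i * (p.d + 1) + a) :
    i * (p.d + 1) * p.q ≤ k := by
  have h1 : (i * (p.d + 1) + a) * p.q ≤ k := by rw [← h]; exact Nat.div_mul_le_self _ _
  refine le_trans ?_ h1
  gcongr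
  omega

/-! ### the fields -/

/-- the levels of the micro steps of phase `f`, before level `k` -/
def lvl (p : SPar n) (f k : ℕ) : Finset ℕ := (Finset.range k).filter fun j => j / p.q = f

/-- the levels of the killing micro steps before level `k` -/
def lvlJ (p : SPar n) (k : ℕ) : Finset ℕ :=
  (Finset.range k).filter fun j => ∃ i : Fin p.Nw, j / p.q = i * (p.d + 1) + p.d

/-- the normalised noise of the killing steps -/
noncomputable def nJ (p : SPar n) (ω : ℕ → Vec n) (k : ℕ) : Vec n :=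
  ∑ j ∈ p.lvlJ k, √(p.dl * p.τ) • ω j

/-- the part of the field from the killing phases -/
noncomputable def yJ (p : SPar n) (x : Cfg n) (ω : ℕ → Vec n) (k : ℕ) : Vec n :=
  (p.β - p.rr k) • (p.J + p.κ₀ • (1 : Mat n)).mulVec (sv x) + p.S0.mulVec (p.nJ ω k)

/-- the noise of the steering phase `(i, a)` in the direction `v` -/
noncomputable def bS (p : SPar n) (v : Vec n) (ω : ℕ → Vec n) (i a k : ℕ) : ℝ :=
  √p.Ks * ip v (∑ j ∈ p.lvl (i * (p.d + 1) + a) k, √p.dl • ω j)

/-- the steering coefficient: signal and noise -/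
noncomputable def cS (p : SPar n) (v : Vec n) (x : Cfg n) (ω : ℕ → Vec n) (i a k : ℕ) : ℝ :=
  p.th (i * (p.d + 1) + a) k * p.Ks * ip v (sv x) + p.bS v ω i a k

theorem lvl_succ (p : SPar n) (f k : ℕ) :
    p.lvl f (k + 1) = if k / p.q = f then insert k (p.lvl f k) else p.lvl f k := by
  unfold lvl
  rw [Finset.range_add_one, Finset.filter_insert]

theorem not_mem_lvl (p : SPar n) (f k : ℕ) : k ∉ p.lvl f k := by
  unfold lvl
  simp

theorem lvlJ_succ (p : SPar n) (k : ℕ) :
    p.lvlJ (k + 1) = if ∃ i : Fin p.Nw, k / p.q = i * (p.d + 1) + p.d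
      then insert k (p.lvlJ k) else p.lvlJ k := by
  classical
  unfold lvlJ
  rw [Finset.range_add_one, Finset.filter_insert]

theorem not_mem_lvlJ (p : SPar n) (k : ℕ) : k ∉ p.lvlJ k := by
  unfold lvlJ
  simp

theorem lp_inj {i i' : Fin p.Nw} {a a' : ℕ} (ha : a ≤ p.d) (ha' : a' ≤ p.d)
    (h : (i : ℕ) * (p.d + 1) + a = i' * (p.d + 1) + a') : i = i' ∧ a = a' := by
  have h1 : ((i : ℕ) * (p.d + 1) + a) / (p.d + 1) = i := by
    rw [mul_comm, Nat.mul_add_div (by omega), Nat.div_eq_of_lt (by omega), add_zero]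
  have h2 : ((i' : ℕ) * (p.d + 1) + a') / (p.d + 1) = i' := by
    rw [mul_comm, Nat.mul_add_div (by omega), Nat.div_eq_of_lt (by omega), add_zero]
  have h3 : (i : ℕ) = i' := by rw [← h1, h, h2]
  refine ⟨Fin.ext h3, ?_⟩
  rw [h3] at h
  omega

theorem rr_succ_kill (p : SPar n) {k : ℕ} {i : Fin p.Nw} (h : k / p.q = i * (p.d + 1) + p.d) :
    p.rr (k + 1) = p.rr k - p.dl * p.τ := by
  unfold rr
  have h1 : ∑ i : Fin p.Nw, p.th (i * (p.d + 1) + p.d) (k + 1)
      = ∑ i : Fin p.Nw, p.th (i * (p.d + 1) + p.d) k + p.dl := by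
    have h2 : ∀ i' : Fin p.Nw, p.th (i' * (p.d + 1) + p.d) (k + 1)
        = p.th (i' * (p.d + 1) + p.d) k + if i' = i then p.dl else 0 := by
      intro i'
      rw [p.lp_th_succ]
      congr 1
      by_cases h3 : i' = i
      · rw [if_pos h3, if_pos (by rw [h, h3])]
      · rw [if_neg h3, if_neg]
        intro h4
        exact h3 (lp_inj le_rfl le_rfl (h4.symm.trans h)).1
    rw [Finset.sum_congr rfl fun i' _ => h2 i', Finset.sum_add_distrib, Finset.sum_ite_eq']
    simp
  rw [h1]
  ring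

theorem rr_succ_not (p : SPar n) {k : ℕ}
    (h : ¬ ∃ i : Fin p.Nw, k / p.q = i * (p.d + 1) + p.d) : p.rr (k + 1) = p.rr k := by
  unfold rr
  congr 2
  refine Finset.sum_congr rfl fun i _ => ?_
  rw [p.lp_th_succ, if_neg fun h1 => h ⟨i, h1⟩, add_zero]

theorem lp_rr_zero (p : SPar n) : p.rr 0 = p.β := by
  unfold rr
  simp [p.lp_th_zero]

/-- the duration of the killing steps -/
theorem card_lvlJ (p : SPar n) (k : ℕ) : ∑ _j ∈ p.lvlJ k, √(p.dl * p.τ) ^ 2 = p.β - p.rr k := by
  have h0 : 0 ≤ p.dl * p.τ := mul_nonneg p.lp_dl_pos.le p.lp_τ_nonneg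
  induction k with
  | zero => rw [p.lp_rr_zero]; simp [lvlJ]
  | succ k ih =>
    rw [lvlJ_succ]
    split_ifs with h
    · obtain ⟨i, hi⟩ := h
      rw [Finset.sum_insert (p.not_mem_lvlJ k), ih, p.rr_succ_kill hi, Real.sq_sqrt h0]
      ring
    · rw [ih, p.rr_succ_not h]

theorem obs_kill (p : SPar n) {k : ℕ} {i : Fin p.Nw} (h : k / p.q = i * (p.d + 1) + p.d)
    (P : p.Ctr) (x : Cfg n) (ξ : Vec n) :
    obs (p.RR k P) p.dl x ξ = (p.dl * p.τ) • (p.J + p.κ₀ • (1 : Mat n)).mulVec (sv x)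
      + p.S0.mulVec (√(p.dl * p.τ) • ξ) := by
  unfold obs RR
  rw [p.lp_kind_kill k i h]
  simp only
  funext j
  have h1 : (√p.τ • p.S0) * (√p.τ • p.S0)ᵀ = p.τ • (p.J + p.κ₀ • (1 : Mat n)) := by
    rw [Matrix.transpose_smul, Matrix.smul_mul, Matrix.mul_smul, smul_smul,
      Real.mul_self_sqrt p.lp_τ_nonneg, p.hS0]
  rw [h1, Real.sqrt_mul p.lp_dl_pos.le, Matrix.smul_mulVec, Matrix.smul_mulVec,
    Matrix.mulVec_smul]
  simp only [Pi.add_apply, Pi.smul_apply, smul_eq_mul]
  ring

theorem vd_sq_cases (p : SPar n) (P : p.Ctr) (i : Fin p.Nw) (a : Fin p.d) :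
    p.vd P i a = 0 ∨ sq (p.vd P i a) = 1 := p.hdirs _ _ _

theorem vd_mul (p : SPar n) (P : p.Ctr) (i : Fin p.Nw) (a : Fin p.d) :
    Matrix.vecMulVec (p.vd P i a) (p.vd P i a) * (Matrix.vecMulVec (p.vd P i a) (p.vd P i a))ᵀ
      = Matrix.vecMulVec (p.vd P i a) (p.vd P i a) := by
  rcases p.vd_sq_cases P i a with h | h
  · rw [h]; ext; simp
  · ext i' j'
    rw [Matrix.mul_apply]
    simp only [Matrix.transpose_apply, Matrix.vecMulVec_apply]
    calc ∑ l, p.vd P i a i' * p.vd P i a l * (p.vd P i a j' * p.vd P i a l)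
        = p.vd P i a i' * p.vd P i a j' * sq (p.vd P i a) := by
          unfold sq
          rw [Finset.mul_sum]
          exact Finset.sum_congr rfl fun l _ => by ring
      _ = _ := by rw [h, mul_one]

theorem obs_steer (p : SPar n) {k : ℕ} {i : Fin p.Nw} {a : Fin p.d}
    (h : k / p.q = i * (p.d + 1) + a) (P : p.Ctr) (x : Cfg n) (ξ : Vec n) :
    obs (p.RR k P) p.dl x ξ = (p.dl * p.Ks * ip (p.vd P i a) (sv x)
      + √p.Ks * ip (p.vd P i a) (√p.dl • ξ)) • p.vd P i a := by
  unfold obs RR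
  rw [p.lp_kind_steer k i a h]
  simp only
  funext j
  have h1 : (√p.Ks • Matrix.vecMulVec (p.vd P i a) (p.vd P i a))
      * (√p.Ks • Matrix.vecMulVec (p.vd P i a) (p.vd P i a))ᵀ
      = p.Ks • Matrix.vecMulVec (p.vd P i a) (p.vd P i a) := by
    rw [Matrix.transpose_smul, Matrix.smul_mul, Matrix.mul_smul, smul_smul,
      Real.mul_self_sqrt p.hKs, p.vd_mul]
  rw [h1, Matrix.smul_mulVec, Matrix.smul_mulVec, vecMulVec_mulVec, vecMulVec_mulVec,
    ip_smul_right]
  simp only [Pi.smul_apply, smul_eq_mul]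
  ring

theorem yJ_zero (p : SPar n) (x : Cfg n) (ω : ℕ → Vec n) : p.yJ x ω 0 = 0 := by
  unfold yJ nJ
  rw [p.lp_rr_zero, sub_self, zero_smul, zero_add]
  simp [lvlJ]

theorem yJ_succ_kill (p : SPar n) {k : ℕ} {i : Fin p.Nw} (h : k / p.q = i * (p.d + 1) + p.d)
    (P : p.Ctr) (x : Cfg n) (ω : ℕ → Vec n) :
    p.yJ x ω (k + 1) = p.yJ x ω k + obs (p.RR k P) p.dl x (ω k) := by
  rw [p.obs_kill h]
  unfold yJ nJ
  rw [lvlJ_succ, if_pos ⟨i, h⟩, Finset.sum_insert (p.not_mem_lvlJ k), p.rr_succ_kill h,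
    Matrix.mulVec_add]
  funext j
  simp only [Pi.add_apply, Pi.smul_apply, smul_eq_mul]
  ring

theorem yJ_succ_not (p : SPar n) {k : ℕ}
    (h : ¬ ∃ i : Fin p.Nw, k / p.q = i * (p.d + 1) + p.d) (x : Cfg n) (ω : ℕ → Vec n) :
    p.yJ x ω (k + 1) = p.yJ x ω k := by
  unfold yJ nJ
  rw [lvlJ_succ, if_neg h, p.rr_succ_not h]

theorem cS_zero (p : SPar n) (v : Vec n) (x : Cfg n) (ω : ℕ → Vec n) (i a : ℕ) :
    p.cS v x ω i a 0 = 0 := by
  unfold cS bS
  rw [p.lp_th_zero]
  simp [lvl, ip]

theorem cS_succ (p : SPar n) {k : ℕ} (v : Vec n) (x : Cfg n) (ω : ℕ → Vec n) (i a : ℕ) :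
    p.cS v x ω i a (k + 1) = p.cS v x ω i a k
      + if k / p.q = i * (p.d + 1) + a then p.dl * p.Ks * ip v (sv x)
          + √p.Ks * ip v (√p.dl • ω k) else 0 := by
  unfold cS bS
  rw [p.lp_th_succ, lvl_succ]
  split_ifs with h
  · rw [Finset.sum_insert (p.not_mem_lvl _ k), ip_add_right]
    ring
  · ring

/-- no steering before the start of the phase -/
theorem cS_eq_zero (p : SPar n) {k : ℕ} (v : Vec n) (x : Cfg n) (ω : ℕ → Vec n) {i a : ℕ}
    (h : k ≤ (i * (p.d + 1) + a) * p.q) : p.cS v x ω i a k = 0 := by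
  unfold cS bS
  rw [p.lp_th_eq_zero h]
  have : p.lvl (i * (p.d + 1) + a) k = ∅ := by
    unfold lvl
    rw [Finset.filter_eq_empty_iff]
    intro j hj hj'
    rw [Finset.mem_range] at hj
    have h1 : (i * (p.d + 1) + a) * p.q ≤ j := by rw [← hj']; exact Nat.div_mul_le_self _ _
    omega
  rw [this]
  simp [ip]

/-- **the field along a path** -/
theorem IsPath.y_eq (h : p.IsPath x ω P y m) {k : ℕ} (hk : k ≤ p.Nw * (p.d + 1) * p.q) :
    y k = p.yJ x ω k
      + ∑ i : Fin p.Nw, ∑ a : Fin p.d, p.cS (p.vd (P k) i a) x ω i a k • p.vd (P k) i a := by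
  induction k with
  | zero =>
    rw [h.y0, yJ_zero]
    simp [cS_zero]
  | succ k ih =>
    have ih' := ih (by omega)
    have hk' : k < p.Nw * (p.d + 1) * p.q := by omega
    -- the directions which have been used do not change
    have hv : ∀ (i : Fin p.Nw) (a : Fin p.d), p.cS (p.vd (P (k + 1)) i a) x ω i a (k + 1)
          • p.vd (P (k + 1)) i a
        = p.cS (p.vd (P k) i a) x ω i a (k + 1) • p.vd (P k) i a := by
      intro i a
      by_cases h1 : i * (p.d + 1) * p.q ≤ k
      · rw [h.vd_eq i a h1 (by omega : i * (p.d + 1) * p.q ≤ k + 1)]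
      · have h2 : k + 1 ≤ ((i : ℕ) * (p.d + 1) + a) * p.q := by
          calc k + 1 ≤ i * (p.d + 1) * p.q := by omega
            _ ≤ _ := by gcongr; omega
        rw [p.cS_eq_zero _ _ _ h2, p.cS_eq_zero _ _ _ h2, zero_smul, zero_smul]
    rw [h.hy k, ih']
    rw [Finset.sum_congr rfl fun i _ => Finset.sum_congr rfl fun a _ => hv i a]
    rcases p.lp_cases hk' with ⟨i₀, a₀, hf, -⟩ | ⟨i₀, hf, -⟩
    · have hnot : ¬ ∃ i : Fin p.Nw, k / p.q = i * (p.d + 1) + p.d := by
        rintro ⟨i, hi⟩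
        have := (lp_inj (a := a₀) (a' := p.d) (by omega) le_rfl (hf.symm.trans hi)).2
        omega
      rw [p.yJ_succ_not hnot, add_assoc]
      congr 1
      have h3 : ∀ (i : Fin p.Nw) (a : Fin p.d),
          p.cS (p.vd (P k) i a) x ω i a (k + 1) • p.vd (P k) i a
          = p.cS (p.vd (P k) i a) x ω i a k • p.vd (P k) i a
            + if i = i₀ then (if a = a₀ then obs (p.RR k (P k)) p.dl x (ω k) else 0) else 0 := by
        intro i a
        rw [p.cS_succ, add_smul]
        congr 1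
        by_cases h4 : k / p.q = i * (p.d + 1) + a
        · have h5 := lp_inj (i := i) (i' := i₀) (a := a) (a' := a₀) (by omega) (by omega)
            (h4.symm.trans hf)
          have h6 : a = a₀ := Fin.ext h5.2
          obtain ⟨h7, -⟩ := h5
          subst h6; subst h7
          rw [if_pos h4, if_pos rfl, if_pos rfl, p.obs_steer h4]
        · rw [if_neg h4, zero_smul]
          by_cases h5 : i = i₀
          · rw [if_pos h5]
            by_cases h6 : a = a₀
            · exfalso; apply h4; rw [h5, h6]; exact hf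
            · rw [if_neg h6]
          · rw [if_neg h5]
      rw [Finset.sum_congr rfl fun i _ => Finset.sum_congr rfl fun a _ => h3 i a]
      simp only [Finset.sum_add_distrib]
      congr 1
      rw [Finset.sum_eq_single i₀ (fun i _ hi => by simp [hi]) (by simp)]
      rw [Finset.sum_eq_single a₀ (fun a _ ha => by simp [ha]) (by simp)]
      simp
    · have h3 : ∀ (i : Fin p.Nw) (a : Fin p.d),
          p.cS (p.vd (P k) i a) x ω i a (k + 1) • p.vd (P k) i a
          = p.cS (p.vd (P k) i a) x ω i a k • p.vd (P k) i a := by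
        intro i a
        rw [p.cS_succ, if_neg, add_zero]
        intro h4
        have h5 := (lp_inj (i := i) (i' := i₀) (a := a) (a' := p.d) (by omega) le_rfl
          (h4.symm.trans hf)).2
        omega
      rw [Finset.sum_congr rfl fun i _ => Finset.sum_congr rfl fun a _ => h3 i a,
        p.yJ_succ_kill hf (P k)]
      abel

end Path

end SPar

end Vale.Agent.P150.F
end

section

/-! P150 FULL, (O1) tracking: the good events along a path of the concrete process (helper739). -/

open MeasureTheory ProbabilityTheory Filter Topology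
open scoped Matrix

namespace Vale.Agent.P150.F

variable {n : ℕ}

/-- the non-steered AMP iterate `m^{K,0}` at level `k` of the schedule -/
noncomputable def SPar.m0 (p : SPar n) (x : Cfg n) (ω : ℕ → Vec n) (K k : ℕ) : Vec n :=
  ampM (p.rr k • p.J) (p.rr k) (p.yJ x ω k) x K

/-- check levels: starts of the phases, and `Pm + 1` mesh levels in each killing phase -/
def SPar.IsChk (p : SPar n) (Pm q' k : ℕ) : Prop :=
  (∃ f ≤ p.Nw * (p.d + 1), k = f * p.q) ∨
    ∃ i : Fin p.Nw, ∃ l ≤ Pm, k = (i * (p.d + 1) + p.d) * p.q + l * q'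

/-- the good events along a path `(P, y)` with spins `x` and noises `ω`; `Pm` mesh intervals of
`q'` micro steps in each killing phase (`Pm * q' = q`) -/
structure GoodEv (p : SPar n) (x : Cfg n) (ω : ℕ → Vec n) (P : ℕ → p.Ctr) (y : ℕ → Vec n)
    (Pm q' K : ℕ) (e ε E E' : ℝ) : Prop where
  /-- D3c at `s = 0` -/
  init : nv (p.m0 x ω (K + 2) 0) ≤ e * √n
  /-- D3c at the check levels -/
  t12 : ∀ k, p.IsChk Pm q' k → nv (p.m0 x ω (K + 1) k - p.m0 x ω K k) ≤ e * √n ∧
    nv (p.m0 x ω (K + 2) k - p.m0 x ω (K + 1) k) ≤ e * √n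
  /-- D2x at the check levels, for all directions of the current state -/
  t3 : ∀ k, p.IsChk Pm q' k → ∀ (i : Fin p.Nw) (a : Fin p.d), ∀ j ≤ K + 2,
    |ip (p.vd (P k) i a)
      (sv x - ampM (p.rr k • p.J - p.AA k (P k)) (p.rr k) (y k) x j)| ≤ ε * √n
  /-- noise of the steering phases, `j` micro steps after the start of the phase -/
  noiseS : ∀ (i : Fin p.Nw) (a : Fin p.d), ∀ j ≤ p.q,
    |p.bS (p.vd (P ((i * (p.d + 1) + a) * p.q)) i a) ω i a ((i * (p.d + 1) + a) * p.q + j)|
      ≤ ε * √n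
  /-- noise of the killing phases since the start of the phase -/
  noiseJ : ∀ i : Fin p.Nw, ∀ j ≤ p.q,
    nv (p.S0.mulVec (p.nJ ω ((i * (p.d + 1) + p.d) * p.q + j)
      - p.nJ ω ((i * (p.d + 1) + p.d) * p.q))) ≤ E * √n
  /-- mesh increments of the noise of the killing phases -/
  noiseJ' : ∀ i : Fin p.Nw, ∀ l < Pm,
    nv (p.S0.mulVec (p.nJ ω ((i * (p.d + 1) + p.d) * p.q + (l + 1) * q')
      - p.nJ ω ((i * (p.d + 1) + p.d) * p.q + l * q'))) ≤ E' * √n

end Vale.Agent.P150.F
end
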