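import Mathlib
import Vale.Agent.P150.Bdl.B1
import Vale.Agent.P150.Bdl.B2

set_option linter.all false

section

/-!
# D2 (universal AMP theorem): definitions in filter form

A family of data `d : ι → Dat` with a filter `F` on `ι`; all approximate statements are limits
along `F`; uniformly in the configuration is `UZ`.
-/

open Filter Topology

namespace Vale.Agent.P150.F.D2

/-! ### Matrix polynomials for arbitrary diagonals -/

section Poly

variable {n : ℕ} (J : Mat n) (r : ℝ) (S f : ℕ → Vec n) (c : ℕ → ℝ)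

/-- `t_k = tr_n S_k`, `t_0 = 0` -/
noncomputable def tS (k : ℕ) : ℝ := if k = 0 then 0 else trN (dg (S k))

/-- the pairs `(Q_{k-1}, Q_k)`, `Q_k = S_k M_k`, `Q_0 = 1` -/
noncomputable def QQ : ℕ → Mat n × Mat n
  | 0 => (0, 1)
  | k + 1 => ((QQ k).2, dg (S (k + 1)) *
      (r • (J * (QQ k).2) - (r ^ 2 * tS S k) • (QQ k).1))

/-- `Q_k = S_k M_k`, `Q_0 = 1` -/
noncomputable def Qm (k : ℕ) : Mat n := (QQ J r S k).2

/-- `M_k` for `k ≥ 1`: `M_1 = r J`, `M_{k+1} = r J Q_k - r² t_k Q_{k-1}` -/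
noncomputable def Mm (k : ℕ) : Mat n :=
  r • (J * (QQ J r S (k - 1)).2) - (r ^ 2 * tS S (k - 1)) • (QQ J r S (k - 1)).1

/-- the pairs `(DK_k, DK_{k+1})`, `DK_0 = 0`, `DK_1 = S_1` -/
noncomputable def KK : ℕ → Mat n × Mat n
  | 0 => (0, dg (S 1))
  | k + 1 => ((KK k).2, ((KK k).2 * (r • J + c (k + 1) • (1 : Mat n)) -
      (r ^ 2 * tS S k) • (KK k).1) * dg (f (k + 2)))

/-- `DK_k` for `k ≥ 1` -/
noncomputable def DK (k : ℕ) : Mat n := (KK J r S f c (k - 1)).2

/-- `Ξ_k = DK_k (r J + c_k) - r² t_{k-1} DK_{k-1}` for `k ≥ 1` -/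
noncomputable def Xi (k : ℕ) : Mat n :=
  (KK J r S f c (k - 1)).2 * (r • J + c k • (1 : Mat n)) -
    (r ^ 2 * tS S (k - 1)) • (KK J r S f c (k - 1)).1

/-- `χ_1 = r² t_1`, `χ_k = r² χ_{k-1} tr_n (f_k S_{k-1})` -/
noncomputable def chiS : ℕ → ℝ
  | 0 => 0
  | 1 => r ^ 2 * tS S 1
  | k + 2 => r ^ 2 * chiS (k + 1) * trN (dg (f (k + 2)) * dg (S (k + 1)))

theorem Mm_one : Mm J r S 1 = r • J := by simp [Mm, QQ, tS]

theorem Qm_succ (k : ℕ) : Qm J r S (k + 1) = dg (S (k + 1)) * Mm J r S (k + 1) := rfl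

theorem Mm_two (k : ℕ) : Mm J r S (k + 2) =
    r • (J * Qm J r S (k + 1)) - (r ^ 2 * tS S (k + 1)) • Qm J r S k := rfl

theorem DK_one : DK J r S f c 1 = dg (S 1) := rfl

theorem DK_succ (k : ℕ) : DK J r S f c (k + 2) = Xi J r S f c (k + 1) * dg (f (k + 2)) := rfl

theorem Xi_one : Xi J r S f c 1 = dg (S 1) * (r • J + c 1 • (1 : Mat n)) := by
  simp [Xi, KK, tS]

theorem Xi_succ (k : ℕ) : Xi J r S f c (k + 2) =
    DK J r S f c (k + 2) * (r • J + c (k + 2) • (1 : Mat n)) -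
      (r ^ 2 * tS S (k + 1)) • DK J r S f c (k + 1) := rfl

end Poly

/-! ### The kernel -/

/-- `f^c(a, a') = (e^{c/2}/2) ∫_{-1}^1 e^{-c s²/2 - s (a - a')} ds / (cosh a cosh a')` -/
noncomputable def ker (c a a' : ℝ) : ℝ :=
  Real.exp (c / 2) / 2 * (∫ s in (-1 : ℝ)..1, Real.exp (-(c * s ^ 2 / 2) - s * (a - a'))) /
    (Real.cosh a * Real.cosh a')

/-! ### The data -/

/-- the data of the universal AMP theorem -/
structure Dat where
  /-- size -/
  n : ℕ
  /-- couplings -/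
  J : Mat n
  /-- steering matrix -/
  A : Mat n
  /-- inverse temperature -/
  r : ℝ
  /-- external field -/
  y : Vec n
  /-- weights on the cube -/
  ν : Cfg n → ℝ

namespace Dat

variable (d : Dat) (x : Cfg d.n) (k : ℕ)

/-- `M = r J - A` -/
noncomputable def M : Mat d.n := d.r • d.J - d.A

/-- `m^k` -/
noncomputable def m : Vec d.n := ampM d.M d.r d.y x k

/-- `a^k` for `k ≥ 1` -/
noncomputable def a : Vec d.n := ampA d.M d.r d.y x (k - 1)

/-- the diagonal `S_k = 1 - (m^k)²` -/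
noncomputable def S : Vec d.n := fun j => 1 - d.m x k j ^ 2

/-- `t_k`, `t_0 = 0` -/
noncomputable def t : ℝ := tS (d.S x) k

/-- `q_k = |m^k|²/n` -/
noncomputable def q : ℝ := qq (d.m x k)

/-- `c_k = r² (t_k - t_{k-1})` for `k ≥ 1` -/
noncomputable def c : ℝ := d.r ^ 2 * (d.t x k - d.t x (k - 1))

/-- the diagonal `f_k` for `k ≥ 2` -/
noncomputable def f : Vec d.n := fun j => ker (d.c x (k - 1)) (d.a x (k - 1) j) (d.a x k j)

/-- the word polynomial `M_k` at `x` -/
noncomputable def MM : Mat d.n := Mm d.J d.r (d.S x) k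

/-- the word polynomial `DK_k` at `x` -/
noncomputable def DK : Mat d.n := D2.DK d.J d.r (d.S x) (d.f x) (d.c x) k

/-- the word polynomial `Ξ_k` at `x` -/
noncomputable def Xi : Mat d.n := D2.Xi d.J d.r (d.S x) (d.f x) (d.c x) k

/-- `χ_k` at `x` -/
noncomputable def chi : ℝ := chiS d.r (d.S x) (d.f x) k

end Dat

/-- the discrete derivative matrix: `(DG)_{ji} = dd_i G_j` -/
noncomputable def DD {n : ℕ} (G : Cfg n → Vec n) (x : Cfg n) : Mat n :=
  fun j i => dd i (fun z => G z j) x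

/-- squared gradient of a scalar function -/
noncomputable def gsq {n : ℕ} (φ : Cfg n → ℝ) (x : Cfg n) : ℝ := ∑ i, dd i φ x ^ 2

/-! ### Families -/

section Fam

variable {ι : Type} (F : Filter ι) (d : ι → Dat)

/-- scalar families -/
abbrev Scl := ∀ i, Cfg (d i).n → ℝ
/-- vector fields -/
abbrev Fld := ∀ i, Cfg (d i).n → Vec (d i).n

/-- uniformly `o(1)` -/
def UZ (e : Scl d) : Prop := ∀ ε > 0, ∀ᶠ i in F, ∀ x, |e i x| ≤ ε

/-- uniformly bounded -/
def UB (e : Scl d) : Prop := ∃ C : ℝ, ∀ᶠ i in F, ∀ x, |e i x| ≤ C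

/-- macroscopic scalars -/
def MS (φ : Scl d) : Prop := ∃ C : ℝ, ∀ᶠ i in F, ∀ x, |φ i x| ≤ C ∧ gsq (φ i) x * (d i).n ≤ C

/-- entries uniformly bounded -/
def EB (G : Fld d) : Prop := ∃ C : ℝ, ∀ᶠ i in F, ∀ x j, |G i x j| ≤ C

/-- test fields -/
def TF (G : Fld d) : Prop := EB F d G ∧
  ∃ C : ℝ, ∀ᶠ i in F, ∀ x, hsq (DD (G i) x) ≤ C * (d i).n

/-- local fields: `w` is a test field with the bounded partial derivatives `p l`, `l ∈ s`, with
respect to the AMP fields `a^l` -/
def Loc (s : Finset ℕ) (w : Fld d) (p : ℕ → Fld d) : Prop :=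
  TF F d w ∧ (∀ l ∈ s, EB F d (p l)) ∧
    UZ F d (fun i x => hsq (DD (w i) x - ∑ l ∈ s, dg (p l i x) * (d i).MM x l) / (d i).n)

/-- the hypotheses of the universal AMP theorem on the couplings -/
structure HypJ : Prop where
  n_top : Tendsto (fun i => (d i).n) F atTop
  symm : ∀ i, (d i).J.IsSymm
  diag : ∀ i j, (d i).J j j = 0
  op : ∀ i, OpLe (d i).J 3
  sd : ∀ (l : ℕ), ∀ ε > 0, ∀ᶠ i in F, SD (d i).J l ε
  od : ∀ (l : ℕ), ∀ ε > 0, ∀ᶠ i in F, OD (d i).J l ε
  r0 : ∀ i, 0 ≤ (d i).r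
  r1 : ∀ i, (d i).r ≤ 1
  asymm : ∀ i, (d i).A.IsSymm
  hsA : ∃ C : ℝ, ∀ i, hsq (d i).A ≤ C

/-- all hypotheses -/
structure Hyp : Prop extends HypJ F d where
  prob : ∀ i, IsProb (d i).ν
  dlr : Tendsto (fun i => dlr (d i).M (d i).y (d i).ν / (d i).n) F (𝓝 0)

/-- expectation of a scalar family -/
noncomputable def EE (φ : Scl d) (i : ι) : ℝ := Ex (d i).ν (φ i)

/-- `H'_k`: `E⟨m^{k-1} - m^k, G⟩ ≈ E tr (DK_k DG)` -/
def HH (k : ℕ) : Prop := ∀ G : Fld d, TF F d G →
  Tendsto (EE d fun i x => ip ((d i).m x (k - 1) - (d i).m x k) (G i x) / (d i).n -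
    trN ((d i).DK x k * DD (G i) x)) F (𝓝 0)

/-- `P_k`: `E⟨a^k - a^{k+1} - c_k m^k, G⟩ ≈ E tr (Ξ_k DG)` -/
def PP (k : ℕ) : Prop := ∀ G : Fld d, TF F d G →
  Tendsto (EE d fun i x => ip ((d i).a x k - (d i).a x (k + 1) - (d i).c x k • (d i).m x k)
    (G i x) / (d i).n - trN ((d i).Xi x k * DD (G i) x)) F (𝓝 0)

/-- `X_k`: `E |χ_k - c_k| → 0` -/
def XX (k : ℕ) : Prop := Tendsto (EE d fun i x => |(d i).chi x k - (d i).c x k|) F (𝓝 0)

/-! ### The statements to be proved (STEP 1 and STEP 2), for `HypJ` -/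

/-- T1 (diagonal form): `tr_n (ψ M_k) → 0` -/
def T1d : Prop := ∀ (k : ℕ), 1 ≤ k → ∀ ψ : Fld d, EB F d ψ →
  UZ F d fun i x => trN (dg (ψ i x) * (d i).MM x k)

/-- T1: `tr_n (DK_k ψ M_l) → 0` for `1 ≤ k ≤ l` -/
def T1k : Prop := ∀ (k l : ℕ), 1 ≤ k → k ≤ l → ∀ ψ : Fld d, EB F d ψ →
  UZ F d fun i x => trN ((d i).DK x k * dg (ψ i x) * (d i).MM x l)

/-- T3: `tr_n (Ξ_k ψ M_k) ≈ χ_k tr_n ψ` -/
def T3 : Prop := ∀ (k : ℕ), 1 ≤ k → ∀ ψ : Fld d, EB F d ψ →
  UZ F d fun i x => trN ((d i).Xi x k * dg (ψ i x) * (d i).MM x k) -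
    (d i).chi x k * trN (dg (ψ i x))

/-- T3': `tr_n (Ξ_k ψ M_l) → 0` for `1 ≤ k < l` -/
def T3' : Prop := ∀ (k l : ℕ), 1 ≤ k → k < l → ∀ ψ : Fld d, EB F d ψ →
  UZ F d fun i x => trN ((d i).Xi x k * dg (ψ i x) * (d i).MM x l)

/-- op norms of the word polynomials -/
def OpB : Prop := ∀ k : ℕ, ∃ C : ℝ, ∀ᶠ i in F, ∀ x, OpLe ((d i).MM x k) C ∧
  OpLe ((d i).DK x k) C ∧ OpLe ((d i).Xi x k) C

/-- off-diagonal `ℓ⁴` smallness of the word polynomials (from OD) -/
def L4 : Prop := ∀ k : ℕ, 1 ≤ k → UZ F d fun i x =>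
  (∑ j, ∑ l, (d i).MM x k j l ^ 4) / (d i).n

/-- STEP 2: the derivatives of the AMP fields -/
def DerA : Prop := ∀ k : ℕ, 1 ≤ k →
  UZ F d (fun i x => hsq (DD (fun z => (d i).a z k) x - (d i).MM x k) / (d i).n) ∧
  (∃ C : ℝ, ∀ᶠ i in F, ∀ x, OpLe (DD (fun z => (d i).a z k) x) C) ∧
  UZ F d (fun i x => (∑ j, ∑ l, DD (fun z => (d i).a z k) x j l ^ 4) / (d i).n)

/-- STEP 2: the scalars `t_k` are macroscopic -/
def MacT : Prop := ∀ k : ℕ, MS F d fun i x => (d i).t x k

end Fam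

end Vale.Agent.P150.F.D2
end

section

/-!
# D2: calculus of the families
-/

open Filter Topology
open scoped Matrix

namespace Vale.Agent.P150.F.D2

/-! ### Fixed size -/

section Fixed

variable {n : ℕ}

/-- the average over the spin `i` -/
noncomputable def av (i : Fin n) (f : Cfg n → ℝ) (x : Cfg n) : ℝ :=
  (f (Function.update x i true) + f (Function.update x i false)) / 2

theorem av_add_dd (i : Fin n) (f : Cfg n → ℝ) (x : Cfg n) :
    f x = av i f x + sp (x i) * dd i f x := by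
  unfold av dd
  rcases h : x i with _ | _
  · have e : Function.update x i false = x := by rw [← h]; exact Function.update_eq_self i x
    rw [e]; simp [sp]; ring
  · have e : Function.update x i true = x := by rw [← h]; exact Function.update_eq_self i x
    rw [e]; simp [sp]; ring

theorem abs_sp (b : Bool) : |sp b| = 1 := by cases b <;> simp [sp]

theorem dd_mul (i : Fin n) (f g : Cfg n → ℝ) (x : Cfg n) :
    dd i (fun z => f z * g z) x = av i f x * dd i g x + dd i f x * av i g x := by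
  unfold dd av; ring

theorem dd_add (i : Fin n) (f g : Cfg n → ℝ) (x : Cfg n) :
    dd i (fun z => f z + g z) x = dd i f x + dd i g x := by
  unfold dd; ring

theorem dd_sub (i : Fin n) (f g : Cfg n → ℝ) (x : Cfg n) :
    dd i (fun z => f z - g z) x = dd i f x - dd i g x := by
  unfold dd; ring

theorem dd_const (i : Fin n) (c : ℝ) (x : Cfg n) : dd i (fun _ => c) x = 0 := by
  unfold dd; ring

theorem dd_const_mul (i : Fin n) (c : ℝ) (f : Cfg n → ℝ) (x : Cfg n) :
    dd i (fun z => c * f z) x = c * dd i f x := by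
  unfold dd; ring

theorem dd_sum {κ : Type*} (s : Finset κ) (i : Fin n) (f : κ → Cfg n → ℝ) (x : Cfg n) :
    dd i (fun z => ∑ a ∈ s, f a z) x = ∑ a ∈ s, dd i (f a) x := by
  unfold dd
  rw [← Finset.sum_sub_distrib, Finset.sum_div]

theorem abs_dd_le {i : Fin n} {f : Cfg n → ℝ} {C : ℝ} (h : ∀ x, |f x| ≤ C) (x : Cfg n) :
    |dd i f x| ≤ C := by
  unfold dd
  have h1 := abs_le.1 (h (Function.update x i true))
  have h2 := abs_le.1 (h (Function.update x i false))
  rw [abs_le]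
  constructor <;> linarith [h1.1, h1.2, h2.1, h2.2]

theorem abs_av_le {i : Fin n} {f : Cfg n → ℝ} {C : ℝ} (h : ∀ x, |f x| ≤ C) (x : Cfg n) :
    |av i f x| ≤ C := by
  unfold av
  have h1 := abs_le.1 (h (Function.update x i true))
  have h2 := abs_le.1 (h (Function.update x i false))
  rw [abs_le]
  constructor <;> linarith [h1.1, h1.2, h2.1, h2.2]

theorem hsq_nonneg (A : Mat n) : 0 ≤ hsq A :=
  Finset.sum_nonneg fun _ _ => Finset.sum_nonneg fun _ _ => sq_nonneg _

theorem sq_nonneg' (v : Vec n) : 0 ≤ sq v := Finset.sum_nonneg fun _ _ => sq_nonneg _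

theorem hsq_add_le (A B : Mat n) : hsq (A + B) ≤ 2 * hsq A + 2 * hsq B := by
  unfold hsq
  rw [Finset.mul_sum, Finset.mul_sum, ← Finset.sum_add_distrib]
  refine Finset.sum_le_sum fun i _ => ?_
  rw [Finset.mul_sum, Finset.mul_sum, ← Finset.sum_add_distrib]
  refine Finset.sum_le_sum fun j _ => ?_
  rw [Matrix.add_apply]
  linarith only [sq_nonneg (A i j - B i j)]

theorem hsq_sub_le (A B : Mat n) : hsq (A - B) ≤ 2 * hsq A + 2 * hsq B := by
  unfold hsq
  rw [Finset.mul_sum, Finset.mul_sum, ← Finset.sum_add_distrib]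
  refine Finset.sum_le_sum fun i _ => ?_
  rw [Finset.mul_sum, Finset.mul_sum, ← Finset.sum_add_distrib]
  refine Finset.sum_le_sum fun j _ => ?_
  rw [Matrix.sub_apply]
  linarith only [sq_nonneg (A i j + B i j)]

theorem hsq_smul (c : ℝ) (A : Mat n) : hsq (c • A) = c ^ 2 * hsq A := by
  unfold hsq
  rw [Finset.mul_sum]
  refine Finset.sum_congr rfl fun i _ => ?_
  rw [Finset.mul_sum]
  refine Finset.sum_congr rfl fun j _ => ?_
  rw [Matrix.smul_apply, smul_eq_mul]
  ring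

theorem hsq_transpose (A : Mat n) : hsq Aᵀ = hsq A := by
  unfold hsq
  rw [Finset.sum_comm]
  rfl

theorem dg_mul_apply (a : Vec n) (B : Mat n) (i j : Fin n) : (dg a * B) i j = a i * B i j := by
  unfold dg
  rw [Matrix.diagonal_mul]

theorem hsq_dg_mul_le {a : Vec n} {C : ℝ} (h : ∀ i, |a i| ≤ C) (B : Mat n) :
    hsq (dg a * B) ≤ C ^ 2 * hsq B := by
  unfold hsq
  rw [Finset.mul_sum]
  refine Finset.sum_le_sum fun i _ => ?_
  rw [Finset.mul_sum]
  refine Finset.sum_le_sum fun j _ => ?_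
  rw [dg_mul_apply, mul_pow]
  refine mul_le_mul_of_nonneg_right ?_ (sq_nonneg _)
  rw [← sq_abs]
  exact pow_le_pow_left₀ (abs_nonneg _) (h i) 2

theorem trN_add (A B : Mat n) : trN (A + B) = trN A + trN B := by
  unfold trN
  simp only [Matrix.add_apply, Finset.sum_add_distrib, add_div]

theorem trN_sub (A B : Mat n) : trN (A - B) = trN A - trN B := by
  unfold trN
  simp only [Matrix.sub_apply, Finset.sum_sub_distrib, sub_div]

theorem trN_smul (c : ℝ) (A : Mat n) : trN (c • A) = c * trN A := by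
  unfold trN
  simp only [Matrix.smul_apply, smul_eq_mul, ← Finset.mul_sum, mul_div_assoc]

theorem trN_sum {κ : Type*} (s : Finset κ) (A : κ → Mat n) :
    trN (∑ a ∈ s, A a) = ∑ a ∈ s, trN (A a) := by
  classical
  induction s using Finset.induction_on with
  | empty => simp [trN]
  | insert a s ha ih => rw [Finset.sum_insert ha, Finset.sum_insert ha, trN_add, ih]

theorem trN_mul (A B : Mat n) : trN (A * B) = (∑ i, ∑ j, A i j * B j i) / n := by
  unfold trN
  simp only [Matrix.mul_apply]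

/-- Cauchy–Schwarz for the trace. -/
theorem abs_trN_mul_le (A B : Mat n) : |trN (A * B)| ≤ √(hsq A) * √(hsq B) / n := by
  rw [trN_mul, abs_div, abs_of_nonneg (Nat.cast_nonneg n : (0:ℝ) ≤ n)]
  refine div_le_div_of_nonneg_right ?_ (Nat.cast_nonneg n)
  have h1 : ∑ i, ∑ j, A i j * B j i = ∑ p : Fin n × Fin n, A p.1 p.2 * B p.2 p.1 := by
    rw [Fintype.sum_prod_type]
  have h2 : hsq A = ∑ p : Fin n × Fin n, A p.1 p.2 ^ 2 := by
    unfold hsq; rw [Fintype.sum_prod_type]
  have h3 : hsq B = ∑ p : Fin n × Fin n, B p.2 p.1 ^ 2 := by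
    unfold hsq; rw [Fintype.sum_prod_type, Finset.sum_comm]
  rw [h1, h2, h3, ← Real.sqrt_mul (Finset.sum_nonneg fun _ _ => sq_nonneg _)]
  refine Real.abs_le_sqrt ?_
  exact Finset.sum_mul_sq_le_sq_mul_sq _ _ _

theorem opLe_hsq_mul_le {A : Mat n} {C : ℝ} (h : OpLe A C) (B : Mat n) :
    hsq (A * B) ≤ C ^ 2 * hsq B := by
  have e1 : hsq (A * B) = ∑ j, sq (A.mulVec (fun i => B i j)) := by
    unfold hsq sq
    rw [Finset.sum_comm]
    rfl
  have e2 : hsq B = ∑ j, sq (fun i => B i j) := by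
    unfold hsq sq
    rw [Finset.sum_comm]
  rw [e1, e2, Finset.mul_sum]
  exact Finset.sum_le_sum fun j _ => h _

theorem hsq_one : hsq (1 : Mat n) = n := by
  unfold hsq
  have : ∀ i : Fin n, ∑ j, (1 : Mat n) i j ^ 2 = 1 := by
    intro i
    rw [Finset.sum_eq_single i]
    · simp
    · intro j _ hj
      rw [Matrix.one_apply_ne (Ne.symm hj)]
      simp
    · intro h
      exact absurd (Finset.mem_univ i) h
  rw [Finset.sum_congr rfl (fun i _ => this i)]
  simp

theorem opLe_hsq_le {A : Mat n} {C : ℝ} (h : OpLe A C) : hsq A ≤ C ^ 2 * n := by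
  have := opLe_hsq_mul_le h 1
  rwa [mul_one, hsq_one] at this

theorem opLe_abs_entry_le {A : Mat n} {C : ℝ} (hC : 0 ≤ C) (h : OpLe A C) (i j : Fin n) :
    |A i j| ≤ C := by
  have h1 := h (Pi.single j 1)
  have e1 : A.mulVec (Pi.single j 1) = fun i => A i j := by
    ext i
    rw [Matrix.mulVec_single_one]
    rfl
  have e2 : sq (Pi.single j 1 : Vec n) = 1 := by
    unfold sq
    rw [Finset.sum_eq_single j]
    · simp
    · intro b _ hb
      rw [Pi.single_eq_of_ne hb]
      simp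
    · intro h
      exact absurd (Finset.mem_univ j) h
  rw [e1, e2, mul_one] at h1
  have h2 : A i j ^ 2 ≤ C ^ 2 := by
    refine le_trans ?_ h1
    unfold sq
    exact Finset.single_le_sum (f := fun i => A i j ^ 2) (fun _ _ => sq_nonneg _)
      (Finset.mem_univ i)
  exact abs_le_of_sq_le_sq h2 hC

/-- the trace against an op-bounded matrix -/
theorem opLe_abs_trN_le {K : Mat n} {C : ℝ} (hC : 0 ≤ C) (h : OpLe K C) (B : Mat n) :
    |trN (K * B)| ≤ C * √(hsq B / n) := by
  rcases Nat.eq_zero_or_pos n with hn | hn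
  · subst hn
    have : trN (K * B) = 0 := by simp [trN]
    rw [this, abs_zero]
    (clear * - hC; positivity)
  have hn' : (0 : ℝ) < n := by exact_mod_cast hn
  refine (abs_trN_mul_le K B).trans ?_
  have h1 : √(hsq K) ≤ C * √n := by
    refine Real.sqrt_le_iff.2 ⟨by positivity, ?_⟩
    rw [mul_pow, Real.sq_sqrt hn'.le]
    exact opLe_hsq_le h
  calc √(hsq K) * √(hsq B) / n ≤ C * √n * √(hsq B) / n := by gcongr
    _ = C * √(hsq B / n) := by
      rw [Real.sqrt_div (hsq_nonneg B)]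
      have h2 : (n : ℝ) = √n * √n := (Real.mul_self_sqrt hn'.le).symm
      have h3 : √(n : ℝ) ≠ 0 := (Real.sqrt_pos.2 hn').ne'
      rw [div_eq_iff hn'.ne']
      nth_rw 3 [h2]
      field_simp

/-! expectations -/

theorem Ex_add (ν : Cfg n → ℝ) (f g : Cfg n → ℝ) :
    Ex ν (fun x => f x + g x) = Ex ν f + Ex ν g := by
  unfold Ex
  rw [← Finset.sum_add_distrib]
  exact Finset.sum_congr rfl fun _ _ => by ring

theorem Ex_sub (ν : Cfg n → ℝ) (f g : Cfg n → ℝ) :
    Ex ν (fun x => f x - g x) = Ex ν f - Ex ν g := by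
  unfold Ex
  rw [← Finset.sum_sub_distrib]
  exact Finset.sum_congr rfl fun _ _ => by ring

theorem Ex_const_mul (ν : Cfg n → ℝ) (c : ℝ) (f : Cfg n → ℝ) :
    Ex ν (fun x => c * f x) = c * Ex ν f := by
  unfold Ex
  rw [Finset.mul_sum]
  exact Finset.sum_congr rfl fun _ _ => by ring

theorem Ex_mono {ν : Cfg n → ℝ} (hν : IsProb ν) {f g : Cfg n → ℝ} (h : ∀ x, f x ≤ g x) :
    Ex ν f ≤ Ex ν g :=
  Finset.sum_le_sum fun x _ => mul_le_mul_of_nonneg_left (h x) (hν.1 x)

theorem Ex_const {ν : Cfg n → ℝ} (hν : IsProb ν) (c : ℝ) : Ex ν (fun _ => c) = c := by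
  unfold Ex
  rw [← Finset.sum_mul, hν.2, one_mul]

theorem Ex_nonneg {ν : Cfg n → ℝ} (hν : IsProb ν) {f : Cfg n → ℝ} (h : ∀ x, 0 ≤ f x) :
    0 ≤ Ex ν f := Finset.sum_nonneg fun x _ => mul_nonneg (hν.1 x) (h x)

theorem abs_Ex_le {ν : Cfg n → ℝ} (hν : IsProb ν) (f : Cfg n → ℝ) :
    |Ex ν f| ≤ Ex ν (fun x => |f x|) := by
  refine (Finset.abs_sum_le_sum_abs _ _).trans (le_of_eq ?_)
  refine Finset.sum_congr rfl fun x _ => ?_
  rw [abs_mul, abs_of_nonneg (hν.1 x)]

theorem abs_Ex_le_of {ν : Cfg n → ℝ} (hν : IsProb ν) {f : Cfg n → ℝ} {C : ℝ}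
    (h : ∀ x, |f x| ≤ C) : |Ex ν f| ≤ C :=
  (abs_Ex_le hν f).trans ((Ex_mono hν h).trans (le_of_eq (Ex_const hν C)))

/-- Cauchy–Schwarz -/
theorem Ex_mul_sq_le {ν : Cfg n → ℝ} (hν : IsProb ν) (f g : Cfg n → ℝ) :
    Ex ν (fun x => f x * g x) ^ 2 ≤ Ex ν (fun x => f x ^ 2) * Ex ν (fun x => g x ^ 2) := by
  have h := Finset.sum_mul_sq_le_sq_mul_sq Finset.univ (fun x => √(ν x) * f x)
    (fun x => √(ν x) * g x)
  have e1 : ∑ x, √(ν x) * f x * (√(ν x) * g x) = Ex ν (fun x => f x * g x) := by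
    refine Finset.sum_congr rfl fun x _ => ?_
    have := Real.mul_self_sqrt (hν.1 x)
    linear_combination (f x * g x) * this
  have e2 : ∀ f : Cfg n → ℝ, ∑ x, (√(ν x) * f x) ^ 2 = Ex ν (fun x => f x ^ 2) := by
    intro f
    refine Finset.sum_congr rfl fun x _ => ?_
    have := Real.mul_self_sqrt (hν.1 x)
    linear_combination (f x ^ 2) * this
  rw [e1, e2, e2] at h
  exact h

end Fixed

/-! ### Families -/

section Fam

variable {ι : Type} {F : Filter ι} {d : ι → Dat}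

theorem UZ.of_abs_le {e e' : Scl d} (h' : UZ F d e') {C : ℝ}
    (h : ∀ᶠ i in F, ∀ x, |e i x| ≤ C * |e' i x|) : UZ F d e := by
  intro ε hε
  have hC : 0 < |C| + 1 := by positivity
  filter_upwards [h, h' (ε / (|C| + 1)) (by (clear * - hε; positivity))] with i h1 h2 x
  refine (h1 x).trans ?_
  have h3 := h2 x
  have h4 : C * |e' i x| ≤ (|C| + 1) * |e' i x| :=
    mul_le_mul_of_nonneg_right (by linarith only [le_abs_self C]) (abs_nonneg _)
  have h5 : (|C| + 1) * |e' i x| ≤ (|C| + 1) * (ε / (|C| + 1)) :=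
    mul_le_mul_of_nonneg_left h3 hC.le
  rw [mul_div_cancel₀ _ hC.ne'] at h5
  linarith only [h5, h4]

theorem UZ.mono {e e' : Scl d} (h' : UZ F d e')
    (h : ∀ᶠ i in F, ∀ x, |e i x| ≤ |e' i x|) : UZ F d e :=
  h'.of_abs_le (C := 1) (by filter_upwards [h] with i hi x; rw [one_mul]; exact hi x)

theorem UZ.congr {e e' : Scl d} (h' : UZ F d e') (h : ∀ i x, e i x = e' i x) : UZ F d e :=
  h'.mono (Filter.Eventually.of_forall fun i x => by rw [h])

theorem UZ.zero : UZ F d (fun _ _ => (0 : ℝ)) := fun ε hε =>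
  Filter.Eventually.of_forall fun _ _ => by rw [abs_zero]; exact hε.le

theorem UZ.add {e e' : Scl d} (h : UZ F d e) (h' : UZ F d e') :
    UZ F d (fun i x => e i x + e' i x) := by
  intro ε hε
  filter_upwards [h (ε / 2) (by positivity), h' (ε / 2) (by (clear * - hε; positivity))] with i h1 h2 x
  exact (abs_add_le _ _).trans (by linarith only [h1 x, h2 x])

theorem UZ.neg {e : Scl d} (h : UZ F d e) : UZ F d (fun i x => -e i x) :=
  h.mono (Filter.Eventually.of_forall fun i x => by rw [abs_neg])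

theorem UZ.sub {e e' : Scl d} (h : UZ F d e) (h' : UZ F d e') :
    UZ F d (fun i x => e i x - e' i x) := by
  have := h.add h'.neg
  exact this.congr fun i x => by ring

theorem UZ.mul_UB {e g : Scl d} (h : UZ F d e) (hg : UB F d g) :
    UZ F d (fun i x => g i x * e i x) := by
  obtain ⟨C, hC⟩ := hg
  refine h.of_abs_le (C := C) ?_
  filter_upwards [hC] with i hi x
  rw [abs_mul]
  exact mul_le_mul_of_nonneg_right (hi x) (abs_nonneg _)

theorem UZ.const_mul {e : Scl d} (h : UZ F d e) (c : ℝ) : UZ F d (fun i x => c * e i x) :=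
  h.of_abs_le (C := |c|) (Filter.Eventually.of_forall fun i x => by rw [abs_mul])

theorem UZ.sum {κ : Type*} {s : Finset κ} {e : κ → Scl d} (h : ∀ a ∈ s, UZ F d (e a)) :
    UZ F d (fun i x => ∑ a ∈ s, e a i x) := by
  classical
  induction s using Finset.induction_on with
  | empty => simpa using UZ.zero
  | insert a s ha ih =>
    have h1 := (h a (Finset.mem_insert_self _ _)).add
      (ih fun b hb => h b (Finset.mem_insert_of_mem hb))
    exact h1.congr fun i x => by rw [Finset.sum_insert ha]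

theorem UZ.sqrt {e : Scl d} (h : UZ F d e) : UZ F d (fun i x => √(e i x)) := by
  intro ε hε
  filter_upwards [h (ε ^ 2) (by positivity)] with i h1 x
  rw [abs_of_nonneg (Real.sqrt_nonneg _)]
  exact Real.sqrt_le_iff.2 ⟨hε.le, (le_abs_self _).trans (h1 x)⟩

theorem UZ.abs {e : Scl d} (h : UZ F d e) : UZ F d (fun i x => |e i x|) :=
  h.mono (Filter.Eventually.of_forall fun i x => by rw [abs_abs])

theorem UZ.inv_n (hn : Tendsto (fun i => (d i).n) F atTop) (C : ℝ) :
    UZ F d (fun i _ => C / ((d i).n : ℝ)) := by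
  intro ε hε
  have h1 : Tendsto (fun i => C / ((d i).n : ℝ)) F (𝓝 0) :=
    (tendsto_const_nhds.div_atTop tendsto_natCast_atTop_atTop).comp hn
  filter_upwards [h1.eventually (Metric.ball_mem_nhds 0 hε)] with i hi _
  rw [dist_zero_right, Real.norm_eq_abs] at hi
  exact hi.le

theorem UB.of_UZ {e : Scl d} (h : UZ F d e) : UB F d e := ⟨1, h 1 one_pos⟩

theorem UB.add {e g : Scl d} (h : UB F d e) (hg : UB F d g) :
    UB F d (fun i x => e i x + g i x) := by
  obtain ⟨C, hC⟩ := h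
  obtain ⟨C', hC'⟩ := hg
  refine ⟨C + C', ?_⟩
  filter_upwards [hC, hC'] with i h1 h2 x
  exact (abs_add_le _ _).trans (add_le_add (h1 x) (h2 x))

theorem UB.mul {e g : Scl d} (h : UB F d e) (hg : UB F d g) :
    UB F d (fun i x => e i x * g i x) := by
  obtain ⟨C, hC⟩ := h
  obtain ⟨C', hC'⟩ := hg
  refine ⟨C * C', ?_⟩
  filter_upwards [hC, hC'] with i h1 h2 x
  rw [abs_mul]
  exact mul_le_mul (h1 x) (h2 x) (abs_nonneg _) ((abs_nonneg _).trans (h1 x))

theorem UB.const (c : ℝ) : UB F d (fun _ _ => c) :=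
  ⟨|c|, Filter.Eventually.of_forall fun _ _ => le_rfl⟩

/-- uniformly small functions have small expectations -/
theorem UZ.tendsto_EE (hp : ∀ i, IsProb (d i).ν) {e : Scl d} (h : UZ F d e) :
    Tendsto (EE d e) F (𝓝 0) := by
  rw [Metric.tendsto_nhds]
  intro ε hε
  filter_upwards [h (ε / 2) (by positivity)] with i hi
  rw [dist_zero_right, Real.norm_eq_abs]
  have := abs_Ex_le_of (hp i) hi
  unfold EE
  linarith

theorem EE_add (e g : Scl d) : EE d (fun i x => e i x + g i x) = fun i => EE d e i + EE d g i := by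
  funext i
  exact Ex_add _ _ _

theorem EE_sub (e g : Scl d) : EE d (fun i x => e i x - g i x) = fun i => EE d e i - EE d g i := by
  funext i
  exact Ex_sub _ _ _

/-- equality up to a uniformly small error -/
theorem tendsto_EE_congr (hp : ∀ i, IsProb (d i).ν) {e e' : Scl d}
    (h : Tendsto (EE d e) F (𝓝 0)) (h' : UZ F d (fun i x => e' i x - e i x)) :
    Tendsto (EE d e') F (𝓝 0) := by
  have h1 := h.add (h'.tendsto_EE hp)
  rw [add_zero] at h1
  refine h1.congr fun i => ?_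
  rw [EE_sub]
  ring

theorem tendsto_EE_add {e e' : Scl d} (h : Tendsto (EE d e) F (𝓝 0))
    (h' : Tendsto (EE d e') F (𝓝 0)) : Tendsto (EE d fun i x => e i x + e' i x) F (𝓝 0) := by
  rw [EE_add]
  simpa using h.add h'

theorem tendsto_EE_sub {e e' : Scl d} (h : Tendsto (EE d e) F (𝓝 0))
    (h' : Tendsto (EE d e') F (𝓝 0)) : Tendsto (EE d fun i x => e i x - e' i x) F (𝓝 0) := by
  rw [EE_sub]
  simpa using h.sub h'

/-- domination in `L¹` -/
theorem tendsto_EE_of_abs_le (hp : ∀ i, IsProb (d i).ν) {e e' : Scl d} {C : ℝ}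
    (h : Tendsto (EE d e') F (𝓝 0)) (h' : ∀ᶠ i in F, ∀ x, |e i x| ≤ C * e' i x) :
    Tendsto (EE d e) F (𝓝 0) := by
  have h1 : Tendsto (fun i => C * EE d e' i) F (𝓝 0) := by simpa using h.const_mul C
  refine squeeze_zero_norm' ?_ h1
  filter_upwards [h'] with i hi
  rw [Real.norm_eq_abs]
  unfold EE
  rw [← Ex_const_mul]
  exact (abs_Ex_le (hp i) _).trans (Ex_mono (hp i) hi)

/-- Convergence of the second moment gives convergence of the first moment. -/
theorem tendsto_EE_abs_of_sq (hp : ∀ i, IsProb (d i).ν) {e : Scl d}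
    (h : Tendsto (EE d fun i x => e i x ^ 2) F (𝓝 0)) :
    Tendsto (EE d fun i x => |e i x|) F (𝓝 0) := by
  have h1 : Tendsto (fun i => √(EE d (fun i x => e i x ^ 2) i)) F (𝓝 0) := by
    have := (Real.continuous_sqrt.tendsto 0).comp h
    rw [Real.sqrt_zero] at this
    exact this
  refine squeeze_zero (fun i => Ex_nonneg (hp i) fun _ => abs_nonneg _) (fun i => ?_) h1
  refine Real.le_sqrt_of_sq_le ?_
  have := Ex_mul_sq_le (hp i) (fun x => |e i x|) (fun _ => 1)
  simp only [mul_one, sq_abs, one_pow, Ex_const (hp i)] at this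
  exact this

end Fam

end Vale.Agent.P150.F.D2
end

section

/-!
# D2: products, local fields, weakly macroscopic scalars
-/

open Filter Topology
open scoped Matrix

namespace Vale.Agent.P150.F.D2

section Fixed

variable {n : ℕ}

theorem ip_self_eq (v : Vec n) : ip v v = sq v := by
  unfold ip sq
  exact Finset.sum_congr rfl fun _ _ => by ring

theorem ip_sq_le (u v : Vec n) : ip u v ^ 2 ≤ sq u * sq v :=
  Finset.sum_mul_sq_le_sq_mul_sq _ _ _

theorem abs_ip_le (u v : Vec n) : |ip u v| ≤ √(sq u) * √(sq v) := by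
  rw [← Real.sqrt_mul (sq_nonneg' u)]
  exact Real.abs_le_sqrt (ip_sq_le u v)

theorem ip_mulVec (A : Mat n) (u v : Vec n) : ip u (A.mulVec v) = ip (Aᵀ.mulVec u) v := by
  unfold ip Matrix.mulVec dotProduct
  simp only [Matrix.transpose_apply, Finset.mul_sum, Finset.sum_mul]
  rw [Finset.sum_comm]
  exact Finset.sum_congr rfl fun _ _ => Finset.sum_congr rfl fun _ _ => by ring

theorem opLe_transpose {A : Mat n} {C : ℝ} (h : OpLe A C) : OpLe Aᵀ C := by
  intro v
  have h1 : sq (Aᵀ.mulVec v) = ip v (A.mulVec (Aᵀ.mulVec v)) := by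
    rw [ip_mulVec, ip_self_eq]
  have h2 := ip_sq_le v (A.mulVec (Aᵀ.mulVec v))
  have h3 := h (Aᵀ.mulVec v)
  rw [← h1] at h2
  have h4 := sq_nonneg' (Aᵀ.mulVec v)
  have h5 := sq_nonneg' v
  rcases h4.eq_or_lt with h6 | h6
  · rw [← h6]; (clear * - h5; positivity)
  · have h7 : sq (Aᵀ.mulVec v) ^ 2 ≤ sq v * (C ^ 2 * sq (Aᵀ.mulVec v)) :=
      h2.trans (mul_le_mul_of_nonneg_left h3 h5)
    have h8 : sq (Aᵀ.mulVec v) * sq (Aᵀ.mulVec v) ≤
        (C ^ 2 * sq v) * sq (Aᵀ.mulVec v) := by linarith only [h7]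
    exact le_of_mul_le_mul_right h8 h6

theorem sq_mulVec_le (A : Mat n) (v : Vec n) : sq (A.mulVec v) ≤ hsq A * sq v := by
  unfold hsq
  rw [Finset.sum_mul]
  refine Finset.sum_le_sum fun i _ => ?_
  exact Finset.sum_mul_sq_le_sq_mul_sq Finset.univ (fun j => A i j) v

theorem sq_add_le' (u v : Vec n) : sq (u + v) ≤ 2 * sq u + 2 * sq v := by
  unfold sq
  rw [Finset.mul_sum, Finset.mul_sum, ← Finset.sum_add_distrib]
  refine Finset.sum_le_sum fun i _ => ?_
  rw [Pi.add_apply]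
  linarith only [sq_nonneg (u i - v i)]

/-- the Hilbert–Schmidt error of the product rule -/
theorem hsq_prod_le (G H : Cfg n → Vec n) (x : Cfg n) :
    hsq (DD (fun z j => G z j * H z j) x - (dg (G x) * DD H x + dg (H x) * DD G x)) ≤
      4 * ∑ j, ∑ i, DD G x j i ^ 2 * DD H x j i ^ 2 := by
  unfold hsq
  rw [Finset.mul_sum]
  refine Finset.sum_le_sum fun j _ => ?_
  rw [Finset.mul_sum]
  refine Finset.sum_le_sum fun i _ => ?_
  rw [Matrix.sub_apply, Matrix.add_apply, dg_mul_apply, dg_mul_apply]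
  have e1 : DD (fun z j => G z j * H z j) x j i =
      av i (fun z => G z j) x * DD H x j i + DD G x j i * av i (fun z => H z j) x :=
    dd_mul i _ _ x
  have h1 := av_add_dd i (fun z => G z j) x
  have h2 := av_add_dd i (fun z => H z j) x
  have e2 : DD G x j i = dd i (fun z => G z j) x := rfl
  have e3 : DD H x j i = dd i (fun z => H z j) x := rfl
  have h3 : sp (x i) * sp (x i) = 1 := sp_sq _
  rw [e1]
  have e4 : av i (fun z => G z j) x * DD H x j i + DD G x j i * av i (fun z => H z j) x -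
      (G x j * DD H x j i + H x j * DD G x j i) =
      -(2 * sp (x i) * (DD G x j i * DD H x j i)) := by
    rw [e2, e3]
    linear_combination (-dd i (fun z => H z j) x) * h1 + (-dd i (fun z => G z j) x) * h2
  rw [e4]
  have e5 : (-(2 * sp (x i) * (DD G x j i * DD H x j i))) ^ 2 =
      4 * (sp (x i) * sp (x i)) * (DD G x j i ^ 2 * DD H x j i ^ 2) := by ring
  rw [e5, h3, mul_one]

theorem hsq_prod_bound {G H : Cfg n → Vec n} {C D : ℝ} (hG : ∀ x j, |G x j| ≤ C)
    (hH : ∀ x j, |H x j| ≤ D) (x : Cfg n) :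
    hsq (DD (fun z j => G z j * H z j) x) ≤ 2 * C ^ 2 * hsq (DD H x) + 2 * D ^ 2 * hsq (DD G x) := by
  unfold hsq
  rw [Finset.mul_sum, Finset.mul_sum, ← Finset.sum_add_distrib]
  refine Finset.sum_le_sum fun j _ => ?_
  rw [Finset.mul_sum, Finset.mul_sum, ← Finset.sum_add_distrib]
  refine Finset.sum_le_sum fun i _ => ?_
  have e1 : DD (fun z j => G z j * H z j) x j i =
      av i (fun z => G z j) x * DD H x j i + DD G x j i * av i (fun z => H z j) x :=
    dd_mul i _ _ x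
  have h1 := abs_av_le (i := i) (fun x => hG x j) x
  have h2 := abs_av_le (i := i) (fun x => hH x j) x
  have h3 : av i (fun z => G z j) x ^ 2 ≤ C ^ 2 := by
    rw [← sq_abs]; exact pow_le_pow_left₀ (abs_nonneg _) h1 2
  have h4 : av i (fun z => H z j) x ^ 2 ≤ D ^ 2 := by
    rw [← sq_abs]; exact pow_le_pow_left₀ (abs_nonneg _) h2 2
  rw [e1]
  obtain ⟨a, ha⟩ : ∃ a, a = av i (fun z => G z j) x := ⟨_, rfl⟩
  obtain ⟨b, hb⟩ : ∃ b, b = av i (fun z => H z j) x := ⟨_, rfl⟩
  rw [← ha] at h3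
  rw [← hb] at h4
  rw [← ha, ← hb]
  have h5 : (a * DD H x j i + DD G x j i * b) ^ 2 ≤
      2 * (a * DD H x j i) ^ 2 + 2 * (DD G x j i * b) ^ 2 := by
    linarith only [sq_nonneg (a * DD H x j i - DD G x j i * b)]
  have h6 : (a * DD H x j i) ^ 2 ≤ C ^ 2 * DD H x j i ^ 2 := by
    rw [mul_pow]; exact mul_le_mul_of_nonneg_right h3 (sq_nonneg _)
  have h7 : (DD G x j i * b) ^ 2 ≤ D ^ 2 * DD G x j i ^ 2 := by
    rw [mul_pow, mul_comm]; exact mul_le_mul_of_nonneg_right h4 (sq_nonneg _)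
  linarith only [h7, h6, h5]

theorem sum_sq_mul_sq_le (A B : Mat n) : ∑ j, ∑ i, A j i ^ 2 * B j i ^ 2 ≤
    √(∑ j, ∑ i, A j i ^ 4) * √(∑ j, ∑ i, B j i ^ 4) := by
  have h1 : ∀ (f : Fin n → Fin n → ℝ), ∑ j, ∑ i, f j i = ∑ p : Fin n × Fin n, f p.1 p.2 :=
    fun f => by rw [Fintype.sum_prod_type]
  rw [h1 (fun j i => A j i ^ 2 * B j i ^ 2), h1 (fun j i => A j i ^ 4),
    h1 (fun j i => B j i ^ 4)]
  rw [← Real.sqrt_mul (Finset.sum_nonneg fun _ _ => by positivity)]
  refine Real.le_sqrt_of_sq_le ?_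
  have := Finset.sum_mul_sq_le_sq_mul_sq Finset.univ
    (fun p : Fin n × Fin n => A p.1 p.2 ^ 2) (fun p => B p.1 p.2 ^ 2)
  refine this.trans (le_of_eq ?_)
  congr 1 <;> exact Finset.sum_congr rfl fun _ _ => by ring

theorem sum4_le {A : Mat n} {C : ℝ} (h : ∀ i j, |A i j| ≤ C) :
    ∑ j, ∑ i, A j i ^ 4 ≤ C ^ 2 * hsq A := by
  unfold hsq
  rw [Finset.mul_sum]
  refine Finset.sum_le_sum fun j _ => ?_
  rw [Finset.mul_sum]
  refine Finset.sum_le_sum fun i _ => ?_
  have h1 : A j i ^ 2 ≤ C ^ 2 := by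
    rw [← sq_abs]; exact pow_le_pow_left₀ (abs_nonneg _) (h j i) 2
  calc A j i ^ 4 = A j i ^ 2 * A j i ^ 2 := by ring
    _ ≤ C ^ 2 * A j i ^ 2 := mul_le_mul_of_nonneg_right h1 (sq_nonneg _)

theorem sum4_add_le (A B : Mat n) : ∑ j, ∑ i, (A + B) j i ^ 4 ≤
    8 * ∑ j, ∑ i, A j i ^ 4 + 8 * ∑ j, ∑ i, B j i ^ 4 := by
  rw [Finset.mul_sum, Finset.mul_sum, ← Finset.sum_add_distrib]
  refine Finset.sum_le_sum fun j _ => ?_
  rw [Finset.mul_sum, Finset.mul_sum, ← Finset.sum_add_distrib]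
  refine Finset.sum_le_sum fun i _ => ?_
  rw [Matrix.add_apply]
  have h1 : (A j i + B j i) ^ 2 ≤ 2 * A j i ^ 2 + 2 * B j i ^ 2 := by
    linarith only [sq_nonneg (A j i - B j i)]
  have h2 : ((A j i + B j i) ^ 2) ^ 2 ≤ (2 * A j i ^ 2 + 2 * B j i ^ 2) ^ 2 :=
    pow_le_pow_left₀ (sq_nonneg _) h1 2
  linarith only [h2, sq_nonneg (A j i ^ 2 - B j i ^ 2)]

theorem sum4_dg_le {a : Vec n} {C : ℝ} (h : ∀ i, |a i| ≤ C) (B : Mat n) :
    ∑ j, ∑ i, (dg a * B) j i ^ 4 ≤ C ^ 4 * ∑ j, ∑ i, B j i ^ 4 := by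
  rw [Finset.mul_sum]
  refine Finset.sum_le_sum fun j _ => ?_
  rw [Finset.mul_sum]
  refine Finset.sum_le_sum fun i _ => ?_
  rw [dg_mul_apply, mul_pow]
  refine mul_le_mul_of_nonneg_right ?_ (by positivity)
  have : |a j| ^ 4 ≤ C ^ 4 := pow_le_pow_left₀ (abs_nonneg _) (h j) 4
  rwa [show |a j| ^ 4 = a j ^ 4 by rw [show (4:ℕ) = 2 * 2 from rfl, pow_mul, sq_abs, ← pow_mul]]
    at this

theorem gsq_mul_le {φ ψ : Cfg n → ℝ} {C D : ℝ} (h1 : ∀ x, |φ x| ≤ C) (h2 : ∀ x, |ψ x| ≤ D)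
    (x : Cfg n) : gsq (fun z => φ z * ψ z) x ≤ 2 * C ^ 2 * gsq ψ x + 2 * D ^ 2 * gsq φ x := by
  unfold gsq
  rw [Finset.mul_sum, Finset.mul_sum, ← Finset.sum_add_distrib]
  refine Finset.sum_le_sum fun i _ => ?_
  rw [dd_mul]
  have h3 := abs_av_le (i := i) h1 x
  have h4 := abs_av_le (i := i) h2 x
  have h5 : av i φ x ^ 2 ≤ C ^ 2 := by
    rw [← sq_abs]; exact pow_le_pow_left₀ (abs_nonneg _) h3 2
  have h6 : av i ψ x ^ 2 ≤ D ^ 2 := by
    rw [← sq_abs]; exact pow_le_pow_left₀ (abs_nonneg _) h4 2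
  have h7 : (av i φ x * dd i ψ x + dd i φ x * av i ψ x) ^ 2 ≤
      2 * (av i φ x * dd i ψ x) ^ 2 + 2 * (dd i φ x * av i ψ x) ^ 2 := by
    linarith only [sq_nonneg (av i φ x * dd i ψ x - dd i φ x * av i ψ x)]
  have h8 : (av i φ x * dd i ψ x) ^ 2 ≤ C ^ 2 * dd i ψ x ^ 2 := by
    rw [mul_pow]; exact mul_le_mul_of_nonneg_right h5 (sq_nonneg _)
  have h9 : (dd i φ x * av i ψ x) ^ 2 ≤ D ^ 2 * dd i φ x ^ 2 := by
    rw [mul_pow, mul_comm]; exact mul_le_mul_of_nonneg_right h6 (sq_nonneg _)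
  linarith only [h9, h8, h7]

theorem gsq_nonneg (φ : Cfg n → ℝ) (x : Cfg n) : 0 ≤ gsq φ x :=
  Finset.sum_nonneg fun _ _ => sq_nonneg _

theorem gsq_add_le (φ ψ : Cfg n → ℝ) (x : Cfg n) :
    gsq (fun z => φ z + ψ z) x ≤ 2 * gsq φ x + 2 * gsq ψ x := by
  unfold gsq
  rw [Finset.mul_sum, Finset.mul_sum, ← Finset.sum_add_distrib]
  refine Finset.sum_le_sum fun i _ => ?_
  rw [dd_add]
  linarith only [sq_nonneg (dd i φ x - dd i ψ x)]

/-- gradient of an average -/
theorem gsq_avg_le (v : Vec n) (G : Cfg n → Vec n) (x : Cfg n) :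
    gsq (fun z => ip v (G z)) x = sq ((DD G x)ᵀ.mulVec v) := by
  unfold gsq sq
  refine Finset.sum_congr rfl fun i _ => ?_
  congr 1
  unfold ip
  rw [dd_sum]
  unfold Matrix.mulVec dotProduct
  refine Finset.sum_congr rfl fun j _ => ?_
  rw [dd_const_mul, mul_comm]
  rfl

end Fixed

/-! ### Families -/

section Fam

variable {ι : Type} {F : Filter ι} {d : ι → Dat}

/-- weakly macroscopic scalars -/
def MW (F : Filter ι) (d : ι → Dat) (φ : Scl d) : Prop :=
  UB F d φ ∧ UZ F d (fun i x => gsq (φ i) x)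

/-- the matrix field `B` approximates the derivative of `G` -/
def DA (F : Filter ι) (d : ι → Dat) (G : Fld d) (B : ∀ i, Cfg (d i).n → Mat (d i).n) : Prop :=
  UZ F d (fun i x => hsq (DD (G i) x - B i x) / (d i).n)

/-- `ℓ⁴` small derivative -/
def L4s (F : Filter ι) (d : ι → Dat) (G : Fld d) : Prop :=
  UZ F d (fun i x => (∑ j, ∑ l, DD (G i) x j l ^ 4) / (d i).n)

/-- the field constant in the site -/
def cst (φ : Scl d) : Fld d := fun i x _ => φ i x

/-- products of fields -/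
def fm (G H : Fld d) : Fld d := fun i x j => G i x j * H i x j

theorem MW.of_MS (hn : Tendsto (fun i => (d i).n) F atTop) {φ : Scl d} (h : MS F d φ) :
    MW F d φ := by
  obtain ⟨C, hC⟩ := h
  refine ⟨⟨C, by filter_upwards [hC] with i hi x; exact (hi x).1⟩, ?_⟩
  refine (UZ.inv_n hn C).mono ?_
  filter_upwards [hC, hn.eventually_gt_atTop 0] with i hi hn0 x
  have hn' : (0 : ℝ) < (d i).n := by exact_mod_cast hn0
  rw [abs_of_nonneg (gsq_nonneg _ _)]
  refine le_trans ?_ (le_abs_self _)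
  rw [le_div_iff₀ hn']
  exact (hi x).2

theorem MW.mul {φ ψ : Scl d} (h : MW F d φ) (h' : MW F d ψ) :
    MW F d (fun i x => φ i x * ψ i x) := by
  refine ⟨h.1.mul h'.1, ?_⟩
  obtain ⟨C, hC⟩ := h.1
  obtain ⟨D, hD⟩ := h'.1
  have h1 := (h'.2.const_mul (2 * C ^ 2)).add (h.2.const_mul (2 * D ^ 2))
  refine h1.mono ?_
  filter_upwards [hC, hD] with i h2 h3 x
  rw [abs_of_nonneg (gsq_nonneg _ _)]
  exact (gsq_mul_le h2 h3 x).trans (le_abs_self _)

theorem MW.add {φ ψ : Scl d} (h : MW F d φ) (h' : MW F d ψ) :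
    MW F d (fun i x => φ i x + ψ i x) := by
  refine ⟨h.1.add h'.1, ?_⟩
  have h1 := (h.2.const_mul 2).add (h'.2.const_mul 2)
  refine h1.mono (Eventually.of_forall fun i x => ?_)
  rw [abs_of_nonneg (gsq_nonneg _ _)]
  exact (gsq_add_le _ _ x).trans (le_abs_self _)

theorem MW.const (c : ℝ) : MW F d (fun _ _ => c) := by
  refine ⟨UB.const c, UZ.zero.congr fun i x => ?_⟩
  unfold gsq
  simp [dd_const]

theorem MW.congr {φ ψ : Scl d} (h : MW F d φ) (h' : ∀ i x, ψ i x = φ i x) : MW F d ψ := by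
  have : ψ = φ := by funext i x; exact h' i x
  rw [this]; exact h

theorem MW.const_mul {φ : Scl d} (h : MW F d φ) (c : ℝ) : MW F d (fun i x => c * φ i x) :=
  (MW.const c).mul h

theorem MW.neg {φ : Scl d} (h : MW F d φ) : MW F d (fun i x => -φ i x) :=
  (h.const_mul (-1)).congr fun i x => by ring

theorem MW.sub {φ ψ : Scl d} (h : MW F d φ) (h' : MW F d ψ) :
    MW F d (fun i x => φ i x - ψ i x) :=
  (h.add h'.neg).congr fun i x => by ring

/-- scalars depending on the index only -/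
theorem MW.of_index {c : ι → ℝ} {C : ℝ} (h : ∀ i, |c i| ≤ C) : MW F d (fun i _ => c i) := by
  refine ⟨⟨C, Eventually.of_forall fun i _ => h i⟩, UZ.zero.congr fun i x => ?_⟩
  unfold gsq
  simp [dd_const]

theorem EB.fm {G H : Fld d} (h : EB F d G) (h' : EB F d H) : EB F d (fm G H) := by
  obtain ⟨C, hC⟩ := h
  obtain ⟨D, hD⟩ := h'
  refine ⟨C * D, ?_⟩
  filter_upwards [hC, hD] with i h1 h2 x j
  unfold D2.fm
  rw [abs_mul]
  exact mul_le_mul (h1 x j) (h2 x j) (abs_nonneg _) ((abs_nonneg _).trans (h1 x j))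

theorem EB.add {G H : Fld d} (h : EB F d G) (h' : EB F d H) :
    EB F d (fun i x j => G i x j + H i x j) := by
  obtain ⟨C, hC⟩ := h
  obtain ⟨D, hD⟩ := h'
  refine ⟨C + D, ?_⟩
  filter_upwards [hC, hD] with i h1 h2 x j
  exact (abs_add_le _ _).trans (add_le_add (h1 x j) (h2 x j))

theorem EB.of_UB {φ : Scl d} (h : UB F d φ) : EB F d (cst φ) := by
  obtain ⟨C, hC⟩ := h
  exact ⟨C, by filter_upwards [hC] with i hi x j; exact hi x⟩

theorem EB.zero : EB F d (fun _ _ _ => (0 : ℝ)) :=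
  ⟨0, Eventually.of_forall fun _ _ _ => by rw [abs_zero]⟩

theorem TF.fm {G H : Fld d} (h : TF F d G) (h' : TF F d H) : TF F d (fm G H) := by
  refine ⟨h.1.fm h'.1, ?_⟩
  obtain ⟨C, hC⟩ := h.1
  obtain ⟨D, hD⟩ := h'.1
  obtain ⟨A, hA⟩ := h.2
  obtain ⟨B, hB⟩ := h'.2
  refine ⟨2 * C ^ 2 * B + 2 * D ^ 2 * A, ?_⟩
  filter_upwards [hC, hD, hA, hB] with i h1 h2 h3 h4 x
  refine (hsq_prod_bound h1 h2 x).trans ?_
  have h5 := mul_le_mul_of_nonneg_left (h4 x) (show 0 ≤ 2 * C ^ 2 by (clear * -; positivity))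
  have h6 := mul_le_mul_of_nonneg_left (h3 x) (show 0 ≤ 2 * D ^ 2 by (clear * -; positivity))
  linarith

theorem hsq_cst (φ : Scl d) (i : ι) (x : Cfg (d i).n) :
    hsq (DD (cst φ i) x) = (d i).n * gsq (φ i) x := by
  unfold hsq gsq DD cst
  rw [Finset.sum_const, Finset.card_univ, Fintype.card_fin, nsmul_eq_mul]

theorem DA.cst {φ : Scl d} (h : MW F d φ) : DA F d (cst φ) (fun _ _ => 0) := by
  refine h.2.mono (Eventually.of_forall fun i x => ?_)
  rw [sub_zero, hsq_cst]
  rcases Nat.eq_zero_or_pos (d i).n with h0 | h0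
  · have h0' : ((d i).n : ℝ) = 0 := by exact_mod_cast h0
    rw [h0', div_zero, abs_zero]
    (clear * -; positivity)
  · have : ((d i).n : ℝ) ≠ 0 := by exact_mod_cast h0.ne'
    rw [mul_div_cancel_left₀ _ this]

theorem TF.cst {φ : Scl d} (h : MW F d φ) : TF F d (cst φ) := by
  refine ⟨EB.of_UB h.1, 1, ?_⟩
  filter_upwards [h.2 1 one_pos] with i hi x
  rw [hsq_cst, mul_comm]
  exact mul_le_mul_of_nonneg_right ((le_abs_self _).trans (hi x)) (Nat.cast_nonneg _)

theorem TF.add {G H : Fld d} (h : TF F d G) (h' : TF F d H) :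
    TF F d (fun i x j => G i x j + H i x j) := by
  refine ⟨h.1.add h'.1, ?_⟩
  obtain ⟨A, hA⟩ := h.2
  obtain ⟨B, hB⟩ := h'.2
  refine ⟨2 * A + 2 * B, ?_⟩
  filter_upwards [hA, hB] with i h3 h4 x
  have e1 : DD (fun z j => G i z j + H i z j) x = DD (G i) x + DD (H i) x := by
    ext j l
    exact dd_add l _ _ x
  rw [e1]
  refine (hsq_add_le _ _).trans ?_
  linarith only [h4 x, h3 x]

/-- entries of derivatives of bounded fields -/
theorem TF.abs_DD {G : Fld d} (h : TF F d G) :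
    ∃ C : ℝ, 0 ≤ C ∧ ∀ᶠ i in F, ∀ x j l, |DD (G i) x j l| ≤ C := by
  obtain ⟨C, hC⟩ := h.1
  refine ⟨|C|, abs_nonneg _, ?_⟩
  filter_upwards [hC] with i hi x j l
  exact (abs_dd_le (fun x => hi x j) x).trans (le_abs_self C)

/-- `ℓ⁴` norm of the derivative of a test field is `O(n)` -/
theorem TF.sum4 {G : Fld d} (h : TF F d G) :
    UB F d (fun i x => (∑ j, ∑ l, DD (G i) x j l ^ 4) / (d i).n) := by
  obtain ⟨C, hC0, hC⟩ := h.abs_DD
  obtain ⟨A, hA⟩ := h.2
  refine ⟨C ^ 2 * |A|, ?_⟩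
  filter_upwards [hC, hA] with i h1 h2 x
  rw [abs_of_nonneg (div_nonneg (Finset.sum_nonneg fun _ _ => Finset.sum_nonneg fun _ _ => by
    positivity) (Nat.cast_nonneg _))]
  rcases Nat.eq_zero_or_pos (d i).n with h0 | h0
  · have h0' : ((d i).n : ℝ) = 0 := by exact_mod_cast h0
    rw [h0', div_zero]
    (clear * -; positivity)
  · have hn' : (0 : ℝ) < (d i).n := by exact_mod_cast h0
    rw [div_le_iff₀ hn']
    refine (sum4_le (h1 x)).trans ?_
    rw [mul_assoc]
    refine mul_le_mul_of_nonneg_left ((h2 x).trans ?_) (by (clear * -; positivity))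
    exact mul_le_mul_of_nonneg_right (le_abs_self _) hn'.le

/-- the product rule in the Hilbert–Schmidt sense -/
theorem DA.fm_aux {G H : Fld d} (hG : L4s F d G) (hH : TF F d H) :
    UZ F d (fun i x => hsq (DD (fm G H i) x - (dg (G i x) * DD (H i) x +
      dg (H i x) * DD (G i) x)) / (d i).n) := by
  have h1 := ((hG.mul_UB hH.sum4).sqrt).const_mul 4
  refine h1.mono (Eventually.of_forall fun i x => ?_)
  rw [abs_of_nonneg (div_nonneg (hsq_nonneg _) (Nat.cast_nonneg _))]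
  refine le_trans ?_ (le_abs_self _)
  rcases Nat.eq_zero_or_pos (d i).n with h0 | h0
  · have h0' : ((d i).n : ℝ) = 0 := by exact_mod_cast h0
    rw [h0', div_zero]
    (clear * -; positivity)
  · have hn' : (0 : ℝ) < (d i).n := by exact_mod_cast h0
    rw [div_le_iff₀ hn']
    refine (hsq_prod_le (G i) (H i) x).trans ?_
    have h2 := sum_sq_mul_sq_le (DD (G i) x) (DD (H i) x)
    have h3 : (0 : ℝ) ≤ ∑ j, ∑ l, DD (G i) x j l ^ 4 :=
      Finset.sum_nonneg fun _ _ => Finset.sum_nonneg fun _ _ => by positivity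
    have h4 : (0 : ℝ) ≤ ∑ j, ∑ l, DD (H i) x j l ^ 4 :=
      Finset.sum_nonneg fun _ _ => Finset.sum_nonneg fun _ _ => by positivity
    have h5 : √((∑ j, ∑ l, DD (H i) x j l ^ 4) / (d i).n * ((∑ j, ∑ l, DD (G i) x j l ^ 4) /
        (d i).n)) * (d i).n = √(∑ j, ∑ l, DD (G i) x j l ^ 4) *
          √(∑ j, ∑ l, DD (H i) x j l ^ 4) := by
      rw [Real.sqrt_mul (by (clear * - h0; positivity)), Real.sqrt_div h4, Real.sqrt_div h3]
      have h6 : √((d i).n : ℝ) ^ 2 = (d i).n := Real.sq_sqrt hn'.le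
      have h7 : √((d i).n : ℝ) ≠ 0 := (Real.sqrt_pos.2 hn').ne'
      field_simp
      rw [h6]
      ring
    rw [mul_assoc 4, h5]
    linarith only [h2]

/-! ### Local fields -/

theorem Loc.cst {φ : Scl d} (h : MW F d φ) (s : Finset ℕ) :
    Loc F d s (D2.cst φ) (fun _ _ _ _ => 0) := by
  refine ⟨TF.cst h, fun _ _ => EB.zero, ?_⟩
  refine (DA.cst h).congr fun i x => ?_
  have e1 : ∑ l ∈ s, dg (fun _ => (0:ℝ)) * (d i).MM x l = 0 := by
    refine Finset.sum_eq_zero fun l _ => ?_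
    ext j k
    rw [dg_mul_apply, zero_mul, Matrix.zero_apply]
  rw [e1]

/-- fourth powers of the entries are `o(n)` -/
def Z4 (F : Filter ι) (d : ι → Dat) (B : ∀ i, Cfg (d i).n → Mat (d i).n) : Prop :=
  UZ F d (fun i x => (∑ j, ∑ l, B i x j l ^ 4) / (d i).n)

theorem Z4.add {A B : ∀ i, Cfg (d i).n → Mat (d i).n} (hA : Z4 F d A) (hB : Z4 F d B) :
    Z4 F d (fun i x => A i x + B i x) := by
  have h := (hA.const_mul 8).add (hB.const_mul 8)
  refine h.mono (Eventually.of_forall fun i x => ?_)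
  rw [abs_of_nonneg (div_nonneg (Finset.sum_nonneg fun _ _ => Finset.sum_nonneg fun _ _ => by
    positivity) (Nat.cast_nonneg _))]
  refine le_trans ?_ (le_abs_self _)
  rw [← mul_div_assoc, ← mul_div_assoc, ← add_div]
  exact div_le_div_of_nonneg_right (sum4_add_le _ _) (Nat.cast_nonneg _)

theorem Z4.zero : Z4 F d (fun _ _ => 0) := UZ.zero.congr fun i x => by simp

theorem Z4.sum {κ : Type*} {s : Finset κ} {A : κ → ∀ i, Cfg (d i).n → Mat (d i).n}
    (h : ∀ a ∈ s, Z4 F d (A a)) : Z4 F d (fun i x => ∑ a ∈ s, A a i x) := by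
  classical
  induction s using Finset.induction_on with
  | empty => exact UZ.congr Z4.zero fun i x => by simp
  | insert a s ha ih =>
    have h1 := (h a (Finset.mem_insert_self _ _)).add
      (ih fun b hb => h b (Finset.mem_insert_of_mem hb))
    exact UZ.congr h1 fun i x => by
      have e1 : ∑ a ∈ insert a s, A a i x = A a i x + ∑ a ∈ s, A a i x := Finset.sum_insert ha
      simp only [e1]

theorem Z4.dg {B : ∀ i, Cfg (d i).n → Mat (d i).n} (hB : Z4 F d B) {p : Fld d} (hp : EB F d p) :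
    Z4 F d (fun i x => Vale.Agent.P150.F.dg (p i x) * B i x) := by
  obtain ⟨C, hC⟩ := hp
  refine hB.of_abs_le (C := C ^ 4) ?_
  filter_upwards [hC] with i hi x
  rw [abs_of_nonneg (div_nonneg (Finset.sum_nonneg fun _ _ => Finset.sum_nonneg fun _ _ => by
    positivity) (Nat.cast_nonneg _)), abs_of_nonneg (div_nonneg (Finset.sum_nonneg fun _ _ =>
    Finset.sum_nonneg fun _ _ => by positivity) (Nat.cast_nonneg _)), ← mul_div_assoc]
  exact div_le_div_of_nonneg_right (sum4_dg_le (hi x) _) (Nat.cast_nonneg _)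

end Fam

end Vale.Agent.P150.F.D2
end

section

/-!
# D2: local fields
-/

open Filter Topology
open scoped Matrix

namespace Vale.Agent.P150.F.D2

variable {ι : Type} {F : Filter ι} {d : ι → Dat}

/-- matrix families with `hsq = o(n)` -/
def HZ (F : Filter ι) (d : ι → Dat) (X : ∀ i, Cfg (d i).n → Mat (d i).n) : Prop :=
  UZ F d (fun i x => hsq (X i x) / (d i).n)

theorem HZ.add {X Y : ∀ i, Cfg (d i).n → Mat (d i).n} (hX : HZ F d X) (hY : HZ F d Y) :
    HZ F d (fun i x => X i x + Y i x) := by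
  have h := (hX.const_mul 2).add (hY.const_mul 2)
  refine h.mono (Eventually.of_forall fun i x => ?_)
  rw [abs_of_nonneg (div_nonneg (hsq_nonneg _) (Nat.cast_nonneg _))]
  refine le_trans ?_ (le_abs_self _)
  rw [← mul_div_assoc, ← mul_div_assoc, ← add_div]
  exact div_le_div_of_nonneg_right (hsq_add_le _ _) (Nat.cast_nonneg _)

theorem HZ.of_hsq_le {X Y : ∀ i, Cfg (d i).n → Mat (d i).n} (hX : HZ F d X) {C : ℝ}
    (h : ∀ᶠ i in F, ∀ x, hsq (Y i x) ≤ C * hsq (X i x)) : HZ F d Y := by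
  refine hX.of_abs_le (C := C) ?_
  filter_upwards [h] with i hi x
  rw [abs_of_nonneg (div_nonneg (hsq_nonneg _) (Nat.cast_nonneg _)),
    abs_of_nonneg (div_nonneg (hsq_nonneg _) (Nat.cast_nonneg _)), ← mul_div_assoc]
  exact div_le_div_of_nonneg_right (hi x) (Nat.cast_nonneg _)

theorem HZ.congr {X Y : ∀ i, Cfg (d i).n → Mat (d i).n} (hX : HZ F d X)
    (h : ∀ i x, Y i x = X i x) : HZ F d Y := by
  have : Y = X := by funext i x; exact h i x
  rw [this]; exact hX

theorem HZ.dg {X : ∀ i, Cfg (d i).n → Mat (d i).n} (hX : HZ F d X) {p : Fld d} (hp : EB F d p) :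
    HZ F d (fun i x => Vale.Agent.P150.F.dg (p i x) * X i x) := by
  obtain ⟨C, hC⟩ := hp
  refine hX.of_hsq_le (C := C ^ 2) ?_
  filter_upwards [hC] with i hi x
  exact hsq_dg_mul_le (hi x) _

theorem HZ.zero : HZ F d (fun _ _ => 0) := by
  refine UZ.zero.congr fun i x => ?_
  simp [hsq]

/-- op-bounded families -/
def OB (F : Filter ι) (d : ι → Dat) (K : ∀ i, Cfg (d i).n → Mat (d i).n) : Prop :=
  ∃ C : ℝ, 0 ≤ C ∧ ∀ᶠ i in F, ∀ x, OpLe (K i x) C

theorem opLe_mono {n : ℕ} {A : Mat n} {C D : ℝ} (h : OpLe A C) (hCD : |C| ≤ |D|) : OpLe A D := by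
  intro v
  refine (h v).trans (mul_le_mul_of_nonneg_right ?_ (sq_nonneg' v))
  exact sq_le_sq.2 hCD

theorem OB.of_ex {K : ∀ i, Cfg (d i).n → Mat (d i).n}
    (h : ∃ C : ℝ, ∀ᶠ i in F, ∀ x, OpLe (K i x) C) : OB F d K := by
  obtain ⟨C, hC⟩ := h
  refine ⟨|C|, abs_nonneg _, ?_⟩
  filter_upwards [hC] with i hi x
  exact opLe_mono (hi x) (by rw [abs_abs])

/-- traces against op-bounded families -/
theorem UZ.trN_mul {K X : ∀ i, Cfg (d i).n → Mat (d i).n} (hK : OB F d K) (hX : HZ F d X) :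
    UZ F d (fun i x => trN (K i x * X i x)) := by
  obtain ⟨C, hC0, hC⟩ := hK
  refine hX.sqrt.of_abs_le (C := C) ?_
  filter_upwards [hC] with i hi x
  rw [abs_of_nonneg (Real.sqrt_nonneg _)]
  exact opLe_abs_trN_le hC0 (hi x) _

section Loc

variable {s : Finset ℕ} {w w' : Fld d} {p p' : ℕ → Fld d}

/-- the approximating matrix of a local field -/
noncomputable def LM (d : ι → Dat) (s : Finset ℕ) (p : ℕ → Fld d) :
    ∀ i, Cfg (d i).n → Mat (d i).n :=
  fun i x => ∑ l ∈ s, Vale.Agent.P150.F.dg (p l i x) * (d i).MM x l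

theorem Loc.hz (h : Loc F d s w p) : HZ F d (fun i x => DD (w i) x - LM d s p i x) := h.2.2

theorem Loc.mk' (h1 : TF F d w) (h2 : ∀ l ∈ s, EB F d (p l))
    (h3 : HZ F d (fun i x => DD (w i) x - LM d s p i x)) : Loc F d s w p := ⟨h1, h2, h3⟩

theorem Z4.LM (h4 : L4 F d) (hs : ∀ l ∈ s, 1 ≤ l) (hp : ∀ l ∈ s, EB F d (p l)) :
    Z4 F d (LM d s p) :=
  Z4.sum fun l hl => Z4.dg (h4 l (hs l hl)) (hp l hl)

theorem LM_entries (hO : OpB F d) (hp : ∀ l ∈ s, EB F d (p l)) :
    ∃ C : ℝ, 0 ≤ C ∧ ∀ᶠ i in F, ∀ x j l, |LM d s p i x j l| ≤ C := by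
  classical
  induction s using Finset.induction_on with
  | empty => exact ⟨0, le_rfl, Eventually.of_forall fun i x j l => by simp [D2.LM]⟩
  | insert a s ha ih =>
    obtain ⟨C, hC0, hC⟩ := ih fun l hl => hp l (Finset.mem_insert_of_mem hl)
    obtain ⟨D, hD⟩ := hp a (Finset.mem_insert_self _ _)
    obtain ⟨E, hE⟩ := hO a
    refine ⟨|D| * |E| + C, by (clear * - hC0; positivity), ?_⟩
    filter_upwards [hC, hD, hE] with i h1 h2 h3 x j l
    have e1 : D2.LM d (insert a s) p i x = dg (p a i x) * (d i).MM x a + D2.LM d s p i x := by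
      unfold D2.LM
      rw [Finset.sum_insert ha]
    rw [e1, Matrix.add_apply, dg_mul_apply]
    refine (abs_add_le _ _).trans (add_le_add ?_ (h1 x j l))
    rw [abs_mul]
    refine mul_le_mul ((h2 x j).trans (le_abs_self _)) ?_ (abs_nonneg _) (abs_nonneg _)
    exact opLe_abs_entry_le (abs_nonneg E) (opLe_mono (h3 x).1 (by rw [abs_abs])) j l

/-- the derivative of a local field is `ℓ⁴` small -/
theorem Loc.l4 (hO : OpB F d) (h4 : L4 F d) (hs : ∀ l ∈ s, 1 ≤ l) (h : Loc F d s w p) :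
    L4s F d w := by
  have h1 := Z4.LM h4 hs h.2.1
  obtain ⟨C, hC0, hC⟩ := h.1.abs_DD
  obtain ⟨D, hD0, hD⟩ := LM_entries hO h.2.1
  have h2 : Z4 F d (fun i x => DD (w i) x - LM d s p i x) := by
    refine h.hz.of_abs_le (C := (C + D) ^ 2) ?_
    filter_upwards [hC, hD] with i h3 h4 x
    rw [abs_of_nonneg (div_nonneg (Finset.sum_nonneg fun _ _ => Finset.sum_nonneg fun _ _ => by
      (clear * -; positivity)) (Nat.cast_nonneg _)), abs_of_nonneg (div_nonneg (hsq_nonneg _)
      (Nat.cast_nonneg _)), ← mul_div_assoc]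
    refine div_le_div_of_nonneg_right (sum4_le fun j l => ?_) (Nat.cast_nonneg _)
    rw [Matrix.sub_apply]
    exact (abs_sub _ _).trans (add_le_add (h3 x j l) (h4 x j l))
  refine UZ.congr (h1.add h2) fun i x => ?_
  simp only [add_sub_cancel]

theorem L4s.cst {φ : Scl d} (h : MW F d φ) : L4s F d (D2.cst φ) := by
  have h1 := h.2.mul_UB (UB.of_UZ h.2)
  refine h1.mono (Eventually.of_forall fun i x => ?_)
  rw [abs_of_nonneg (div_nonneg (Finset.sum_nonneg fun _ _ => Finset.sum_nonneg fun _ _ => by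
    positivity) (Nat.cast_nonneg _))]
  refine le_trans ?_ (le_abs_self _)
  rcases Nat.eq_zero_or_pos (d i).n with h0 | h0
  · have h0' : ((d i).n : ℝ) = 0 := by exact_mod_cast h0
    rw [h0', div_zero]
    exact mul_nonneg (gsq_nonneg _ _) (gsq_nonneg _ _)
  · have hn' : (0 : ℝ) < (d i).n := by exact_mod_cast h0
    rw [div_le_iff₀ hn']
    have e1 : ∑ j, ∑ l, DD (D2.cst φ i) x j l ^ 4 = (d i).n * ∑ l, dd l (φ i) x ^ 4 := by
      unfold DD D2.cst
      rw [Finset.sum_const, Finset.card_univ, Fintype.card_fin, nsmul_eq_mul]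
    rw [e1, mul_comm]
    refine mul_le_mul_of_nonneg_right ?_ hn'.le
    have h2 : ∀ l, dd l (φ i) x ^ 2 ≤ gsq (φ i) x := fun l =>
      Finset.single_le_sum (f := fun l => dd l (φ i) x ^ 2) (fun _ _ => sq_nonneg _)
        (Finset.mem_univ l)
    calc ∑ l, dd l (φ i) x ^ 4 = ∑ l, dd l (φ i) x ^ 2 * dd l (φ i) x ^ 2 :=
          Finset.sum_congr rfl fun _ _ => by ring
      _ ≤ ∑ l, gsq (φ i) x * dd l (φ i) x ^ 2 :=
          Finset.sum_le_sum fun l _ => mul_le_mul_of_nonneg_right (h2 l) (sq_nonneg _)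
      _ = gsq (φ i) x * gsq (φ i) x := by rw [← Finset.mul_sum]; rfl

/-- sums of the approximating matrices -/
theorem LM_add (p p' : ℕ → Fld d) (i : ι) (x : Cfg (d i).n) :
    LM d s (fun l i x j => p l i x j + p' l i x j) i x = LM d s p i x + LM d s p' i x := by
  unfold LM
  rw [← Finset.sum_add_distrib]
  refine Finset.sum_congr rfl fun l _ => ?_
  ext j k
  rw [Matrix.add_apply, dg_mul_apply, dg_mul_apply, dg_mul_apply]
  ring

theorem LM_mul (G : Fld d) (p : ℕ → Fld d) (i : ι) (x : Cfg (d i).n) :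
    LM d s (fun l i x j => G i x j * p l i x j) i x = dg (G i x) * LM d s p i x := by
  unfold LM
  rw [Finset.mul_sum]
  refine Finset.sum_congr rfl fun l _ => ?_
  ext j k
  rw [dg_mul_apply, dg_mul_apply, dg_mul_apply]
  ring

/-- products: `w` is `ℓ⁴` small -/
theorem Loc.fm_aux (h4 : L4s F d w) (h : Loc F d s w p) (h' : Loc F d s w' p') :
    Loc F d s (fm w w') (fun l i x j => w i x j * p' l i x j + w' i x j * p l i x j) := by
  refine Loc.mk' (h.1.fm h'.1) (fun l hl => (h.1.1.fm (h'.2.1 l hl)).add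
    (h'.1.1.fm (h.2.1 l hl))) ?_
  have h1 := DA.fm_aux h4 h'.1
  have h2 := (h'.hz.dg h.1.1).add (h.hz.dg h'.1.1)
  have h3 : HZ F d (fun i x => DD (fm w w' i) x - (dg (w i x) * DD (w' i) x +
    dg (w' i x) * DD (w i) x)) := h1
  refine (h3.add h2).congr fun i x => ?_
  rw [LM_add (fun l i x j => w i x j * p' l i x j) (fun l i x j => w' i x j * p l i x j),
    LM_mul w p', LM_mul w' p, mul_sub, mul_sub]
  abel

theorem Loc.fm (hO : OpB F d) (h4 : L4 F d) (hs : ∀ l ∈ s, 1 ≤ l) (h : Loc F d s w p)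
    (h' : Loc F d s w' p') :
    Loc F d s (D2.fm w w') (fun l i x j => w i x j * p' l i x j + w' i x j * p l i x j) :=
  Loc.fm_aux (h.l4 hO h4 hs) h h'

/-- multiplication by a macroscopic scalar -/
theorem Loc.smul {φ : Scl d} (hφ : MW F d φ) (h : Loc F d s w p) :
    Loc F d s (D2.fm (D2.cst φ) w) (fun l i x j => φ i x * p l i x j) := by
  have h1 := Loc.fm_aux (L4s.cst hφ) (Loc.cst hφ s) h
  have e1 : (fun (l : ℕ) (i : ι) (x : Cfg (d i).n) (j : Fin (d i).n) =>
      D2.cst φ i x j * p l i x j + w i x j * 0) = fun l i x j => φ i x * p l i x j := by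
    funext l i x j
    unfold D2.cst
    ring
  rw [e1] at h1
  exact h1

theorem Loc.add (h : Loc F d s w p) (h' : Loc F d s w' p') :
    Loc F d s (fun i x j => w i x j + w' i x j) (fun l i x j => p l i x j + p' l i x j) := by
  refine Loc.mk' (h.1.add h'.1) (fun l hl => (h.2.1 l hl).add (h'.2.1 l hl)) ?_
  refine (h.hz.add h'.hz).congr fun i x => ?_
  rw [LM_add]
  have e1 : DD (fun z j => w i z j + w' i z j) x = DD (w i) x + DD (w' i) x := by
    ext j l
    exact dd_add l _ _ x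
  rw [e1]
  abel

/-- extension of the index set -/
theorem Loc.ext {s' : Finset ℕ} (hss : s ⊆ s') (h : Loc F d s w p) :
    Loc F d s' w (fun l => if l ∈ s then p l else fun _ _ _ => 0) := by
  classical
  refine Loc.mk' h.1 (fun l _ => ?_) (h.hz.congr fun i x => ?_)
  · by_cases hl : l ∈ s
    · rw [if_pos hl]; exact h.2.1 l hl
    · rw [if_neg hl]; exact EB.zero
  · congr 1
    unfold LM
    rw [← Finset.sum_subset hss]
    · refine Finset.sum_congr rfl fun l hl => ?_
      simp only [if_pos hl]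
    · intro l _ hl
      simp only [if_neg hl]
      ext j k
      rw [dg_mul_apply, zero_mul, Matrix.zero_apply]

/-- the trace of an op-bounded family against the derivative of a local field -/
theorem Loc.trN {K : ∀ i, Cfg (d i).n → Mat (d i).n} (hK : OB F d K) (h : Loc F d s w p) :
    UZ F d (fun i x => trN (K i x * DD (w i) x) -
      ∑ l ∈ s, trN (K i x * dg (p l i x) * (d i).MM x l)) := by
  refine (UZ.trN_mul hK h.hz).congr fun i x => ?_
  rw [mul_sub, trN_sub, LM, Finset.mul_sum, trN_sum]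
  congr 1
  exact Finset.sum_congr rfl fun l _ => by rw [Matrix.mul_assoc]

end Loc

/-! ### Averages are macroscopic -/

/-- vector families with `sq = o(1)` -/
def VZ (F : Filter ι) (d : ι → Dat) (v : Fld d) : Prop := UZ F d (fun i x => sq (v i x))

theorem VZ.add {u v : Fld d} (hu : VZ F d u) (hv : VZ F d v) :
    VZ F d (fun i x => u i x + v i x) := by
  have h := (hu.const_mul 2).add (hv.const_mul 2)
  refine h.mono (Eventually.of_forall fun i x => ?_)
  rw [abs_of_nonneg (sq_nonneg' _)]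
  exact (sq_add_le' _ _).trans (le_abs_self _)

theorem sq_dg_le {n : ℕ} {a : Vec n} {C : ℝ} (h : ∀ i, |a i| ≤ C) (v : Vec n) :
    sq ((dg a).mulVec v) ≤ C ^ 2 * sq v := by
  unfold sq dg
  rw [Finset.mul_sum]
  refine Finset.sum_le_sum fun i _ => ?_
  rw [Matrix.mulVec_diagonal, mul_pow]
  refine mul_le_mul_of_nonneg_right ?_ (sq_nonneg _)
  rw [← sq_abs]
  exact pow_le_pow_left₀ (abs_nonneg _) (h i) 2

theorem VZ.LM (hO : OpB F d) {s : Finset ℕ} {p : ℕ → Fld d} (hp : ∀ l ∈ s, EB F d (p l))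
    {v : ∀ i, Vec (d i).n} (hv : UZ F d (fun i _ => sq (v i))) :
    VZ F d (fun i x => (LM d s p i x)ᵀ.mulVec (v i)) := by
  classical
  induction s using Finset.induction_on with
  | empty =>
    refine UZ.zero.congr fun i x => ?_
    simp [D2.LM, sq]
  | insert a s ha ih =>
    have h1 := ih fun l hl => hp l (Finset.mem_insert_of_mem hl)
    obtain ⟨D, hD⟩ := hp a (Finset.mem_insert_self _ _)
    obtain ⟨E, hE⟩ := hO a
    have h2 : VZ F d (fun i x => (dg (p a i x) * (d i).MM x a)ᵀ.mulVec (v i)) := by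
      refine hv.of_abs_le (C := E ^ 2 * D ^ 2) ?_
      filter_upwards [hD, hE] with i h3 h4 x
      rw [abs_of_nonneg (sq_nonneg' _), abs_of_nonneg (sq_nonneg' _), Matrix.transpose_mul,
        ← Matrix.mulVec_mulVec]
      have e1 : (dg (p a i x))ᵀ = dg (p a i x) := by
        unfold dg; exact Matrix.diagonal_transpose _
      rw [e1, mul_assoc]
      refine (opLe_transpose (h4 x).1 _).trans ?_
      exact mul_le_mul_of_nonneg_left (sq_dg_le (h3 x) _) (sq_nonneg _)
    refine UZ.congr (h2.add h1) fun i x => ?_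
    have e1 : D2.LM d (insert a s) p i x = dg (p a i x) * (d i).MM x a + D2.LM d s p i x := by
      unfold D2.LM
      rw [Finset.sum_insert ha]
    simp only [e1, Matrix.transpose_add, Matrix.add_mulVec]

/-- linear statistics of local fields are weakly macroscopic -/
theorem MW.ip (hO : OpB F d) {s : Finset ℕ} {w : Fld d} {p : ℕ → Fld d} (h : Loc F d s w p)
    {v : ∀ i, Vec (d i).n} {C : ℝ} (hn : Tendsto (fun i => (d i).n) F atTop)
    (hv : ∀ i, sq (v i) * (d i).n ≤ C) :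
    MW F d (fun i x => Vale.Agent.P150.F.ip (v i) (w i x)) := by
  have hC0 : ∀ i, sq (v i) ≤ |C| / (d i).n ∨ (d i).n = 0 := by
    intro i
    rcases Nat.eq_zero_or_pos (d i).n with h0 | h0
    · exact Or.inr h0
    · left
      have hn' : (0 : ℝ) < (d i).n := by exact_mod_cast h0
      rw [le_div_iff₀ hn']
      exact (hv i).trans (le_abs_self C)
  have hvz : UZ F d (fun i _ => sq (v i)) := by
    refine (UZ.inv_n hn |C|).mono ?_
    filter_upwards [hn.eventually_gt_atTop 0] with i hi x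
    rw [abs_of_nonneg (sq_nonneg' _)]
    refine le_trans ?_ (le_abs_self _)
    rcases hC0 i with h1 | h1
    · exact h1
    · omega
  refine ⟨?_, ?_⟩
  · obtain ⟨D, hD⟩ := h.1.1
    refine ⟨√(|C| * D ^ 2), ?_⟩
    filter_upwards [hD] with i hi x
    refine (abs_ip_le _ _).trans ?_
    rw [← Real.sqrt_mul (sq_nonneg' _)]
    refine Real.sqrt_le_sqrt ?_
    have h1 : sq (w i x) ≤ (d i).n * D ^ 2 := by
      unfold sq
      calc ∑ j, w i x j ^ 2 ≤ ∑ _j : Fin (d i).n, D ^ 2 := by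
            refine Finset.sum_le_sum fun j _ => ?_
            rw [← sq_abs]
            exact pow_le_pow_left₀ (abs_nonneg _) (hi x j) 2
        _ = (d i).n * D ^ 2 := by simp
    calc sq (v i) * sq (w i x) ≤ sq (v i) * ((d i).n * D ^ 2) :=
          mul_le_mul_of_nonneg_left h1 (sq_nonneg' _)
      _ = (sq (v i) * (d i).n) * D ^ 2 := by ring
      _ ≤ |C| * D ^ 2 := mul_le_mul_of_nonneg_right ((hv i).trans (le_abs_self C)) (sq_nonneg _)
  · have h1 := VZ.LM hO h.2.1 hvz
    have h2 : VZ F d (fun i x => (DD (w i) x - LM d s p i x)ᵀ.mulVec (v i)) := by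
      have h3 : UZ F d (fun i x => hsq (DD (w i) x - LM d s p i x) / (d i).n) := h.hz
      refine h3.of_abs_le (C := |C|) ?_
      filter_upwards [hn.eventually_gt_atTop 0] with i hi x
      have hn' : (0 : ℝ) < (d i).n := by exact_mod_cast hi
      rw [abs_of_nonneg (sq_nonneg' _), abs_of_nonneg (div_nonneg (hsq_nonneg _)
        (Nat.cast_nonneg _))]
      refine (sq_mulVec_le _ _).trans ?_
      rw [hsq_transpose]
      rcases hC0 i with h4 | h4
      · refine (mul_le_mul_of_nonneg_left h4 (hsq_nonneg _)).trans (le_of_eq ?_)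
        ring
      · omega
    refine (h1.add h2).mono (Eventually.of_forall fun i x => ?_)
    have e1 : (LM d s p i x)ᵀ.mulVec (v i) + (DD (w i) x - LM d s p i x)ᵀ.mulVec (v i) =
        (DD (w i) x)ᵀ.mulVec (v i) := by
      rw [← Matrix.add_mulVec, ← Matrix.transpose_add, add_sub_cancel]
    simp only [e1]
    rw [gsq_avg_le]

end Vale.Agent.P150.F.D2
end

section

/-! P150 FULL, D2 Step 2: discrete derivatives of vector valued functions on the cube. -/

open Finset
open scoped Matrix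

namespace Vale.Agent.P150.F.D2.Der

variable {n : ℕ}

/-- gradient -/
noncomputable def gr (f : Cfg n → ℝ) (x : Cfg n) : Vec n := fun i => dd i f x

lemma DD_apply (F : Cfg n → Vec n) (x : Cfg n) (j i : Fin n) :
    DD F x j i = dd i (fun z => F z j) x := rfl

lemma sp_sq (b : Bool) : sp b * sp b = 1 := by cases b <;> simp [sp]

lemma sp_abs (b : Bool) : |sp b| = 1 := by cases b <;> simp [sp]

/-- the two neighbouring values in terms of the value and the derivative -/
lemma dd_true (i : Fin n) (f : Cfg n → ℝ) (x : Cfg n) :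
    f (Function.update x i true) = f x + (1 - sp (x i)) * dd i f x := by
  unfold dd
  rcases h : x i with _ | _
  · have h1 : Function.update x i false = x := by rw [← h]; exact Function.update_eq_self i x
    rw [h1]
    simp only [sp, Bool.false_eq_true, if_false]
    ring
  · have h1 : Function.update x i true = x := by rw [← h]; exact Function.update_eq_self i x
    rw [h1]
    simp only [sp, if_true]
    ring

lemma dd_false (i : Fin n) (f : Cfg n → ℝ) (x : Cfg n) :
    f (Function.update x i false) = f x - (1 + sp (x i)) * dd i f x := by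
  unfold dd
  rcases h : x i with _ | _
  · have h1 : Function.update x i false = x := by rw [← h]; exact Function.update_eq_self i x
    rw [h1]
    simp only [sp, Bool.false_eq_true, if_false]
    ring
  · have h1 : Function.update x i true = x := by rw [← h]; exact Function.update_eq_self i x
    rw [h1]
    simp only [sp, if_true]
    ring

lemma dd_add (i : Fin n) (f g : Cfg n → ℝ) (x : Cfg n) :
    dd i (fun z => f z + g z) x = dd i f x + dd i g x := by
  unfold dd; ring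

lemma dd_sub (i : Fin n) (f g : Cfg n → ℝ) (x : Cfg n) :
    dd i (fun z => f z - g z) x = dd i f x - dd i g x := by
  unfold dd; ring

lemma dd_const (i : Fin n) (c : ℝ) (x : Cfg n) : dd i (fun _ => c) x = 0 := by
  unfold dd; simp

lemma dd_const_mul (i : Fin n) (c : ℝ) (f : Cfg n → ℝ) (x : Cfg n) :
    dd i (fun z => c * f z) x = c * dd i f x := by
  unfold dd; ring

lemma dd_sum {ι : Type*} (s : Finset ι) (i : Fin n) (f : ι → Cfg n → ℝ) (x : Cfg n) :
    dd i (fun z => ∑ k ∈ s, f k z) x = ∑ k ∈ s, dd i (f k) x := by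
  unfold dd
  rw [← Finset.sum_sub_distrib, Finset.sum_div]

/-- product rule -/
lemma dd_mul (i : Fin n) (f g : Cfg n → ℝ) (x : Cfg n) :
    dd i (fun z => f z * g z) x =
      f x * dd i g x + g x * dd i f x - 2 * sp (x i) * (dd i f x * dd i g x) := by
  have e : dd i (fun z => f z * g z) x = (f (Function.update x i true) * g (Function.update x i true)
    - f (Function.update x i false) * g (Function.update x i false)) / 2 := rfl
  rw [e, dd_true i f x, dd_true i g x, dd_false i f x, dd_false i g x]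
  ring

lemma dd_sv (i j : Fin n) (x : Cfg n) :
    dd i (fun z => sv z j) x = if j = i then 1 else 0 := by
  unfold dd sv
  by_cases h : j = i
  · subst h
    simp [sp]
  · simp [h]

lemma hasDerivAt_tanh' (z : ℝ) : HasDerivAt Real.tanh (1 - Real.tanh z ^ 2) z := by
  have h := (Real.hasDerivAt_sinh z).div (Real.hasDerivAt_cosh z) (Real.cosh_pos z).ne'
  have e : (fun w => Real.sinh w / Real.cosh w) = Real.tanh := by
    funext w; rw [Real.tanh_eq_sinh_div_cosh]
  rw [show (Real.sinh / Real.cosh : ℝ → ℝ) = fun w => Real.sinh w / Real.cosh w from rfl, e] at h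
  refine h.congr_deriv ?_
  rw [Real.tanh_eq_sinh_div_cosh]
  have := (Real.cosh_pos z).ne'
  field_simp

lemma tanh_abs_le (z : ℝ) : |Real.tanh z| ≤ 1 := (abs_tanh_lt z).le

/-- mean value inequality for the hyperbolic tangent -/
lemma tanh_sub_le (u v : ℝ) : |Real.tanh u - Real.tanh v| ≤ |u - v| := by
  have h := Convex.norm_image_sub_le_of_norm_hasDerivWithin_le (f := Real.tanh)
    (f' := fun z => 1 - Real.tanh z ^ 2) (s := Set.univ) (C := 1) (x := v) (y := u)
    (fun z _ => (hasDerivAt_tanh' z).hasDerivWithinAt) (fun z _ => ?_) convex_univ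
    (Set.mem_univ _) (Set.mem_univ _)
  · simpa [Real.norm_eq_abs] using h
  · rw [Real.norm_eq_abs, abs_le]
    have h1 : Real.tanh z ^ 2 ≤ 1 := by
      rw [← sq_abs]
      exact pow_le_one₀ (abs_nonneg _) (tanh_abs_le z)
    constructor <;> nlinarith [sq_nonneg (Real.tanh z)]

lemma tanh_taylor (u v : ℝ) :
    |Real.tanh u - Real.tanh v - (1 - Real.tanh v ^ 2) * (u - v)| ≤ 2 * (u - v) ^ 2 := by
  have h := Convex.norm_image_sub_le_of_norm_hasDerivWithin_le
    (f := fun z => Real.tanh z - (1 - Real.tanh v ^ 2) * z)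
    (f' := fun z => (1 - Real.tanh z ^ 2) - (1 - Real.tanh v ^ 2) * 1) (s := Set.uIcc v u)
    (C := 2 * |u - v|) (x := v) (y := u)
    (fun z _ => ((hasDerivAt_tanh' z).sub ((hasDerivAt_id z).const_mul _)).hasDerivWithinAt)
    (fun z hz => ?_) (convex_uIcc v u) Set.left_mem_uIcc Set.right_mem_uIcc
  · simp only [Real.norm_eq_abs] at h
    have e : Real.tanh u - Real.tanh v - (1 - Real.tanh v ^ 2) * (u - v) =
      Real.tanh u - (1 - Real.tanh v ^ 2) * u - (Real.tanh v - (1 - Real.tanh v ^ 2) * v) := by ring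
    rw [e]
    refine h.trans (le_of_eq ?_)
    rw [← sq_abs (u - v)]
    ring
  · rw [Real.norm_eq_abs]
    have e : (1 - Real.tanh z ^ 2) - (1 - Real.tanh v ^ 2) * 1 =
      (Real.tanh v - Real.tanh z) * (Real.tanh v + Real.tanh z) := by ring
    rw [e, abs_mul]
    have h1 : |Real.tanh v - Real.tanh z| ≤ |u - v| := by
      refine (tanh_sub_le v z).trans ?_
      have := Set.abs_sub_left_of_mem_uIcc hz
      rw [abs_sub_comm]
      exact this
    have h2 : |Real.tanh v + Real.tanh z| ≤ 2 := by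
      refine (abs_add_le _ _).trans ?_
      linarith [tanh_abs_le v, tanh_abs_le z]
    calc |Real.tanh v - Real.tanh z| * |Real.tanh v + Real.tanh z| ≤ |u - v| * 2 :=
          mul_le_mul h1 h2 (abs_nonneg _) (abs_nonneg _)
      _ = 2 * |u - v| := by ring

/-- derivative of `tanh ∘ f` -/
lemma dd_tanh (i : Fin n) (f : Cfg n → ℝ) (x : Cfg n) :
    |dd i (fun z => Real.tanh (f z)) x - (1 - Real.tanh (f x) ^ 2) * dd i f x|
      ≤ 4 * dd i f x ^ 2 := by
  have e : dd i (fun z => Real.tanh (f z)) x = (Real.tanh (f (Function.update x i true))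
    - Real.tanh (f (Function.update x i false))) / 2 := rfl
  rw [e, dd_true i f x, dd_false i f x]
  rcases h : x i with _ | _
  · simp only [sp, Bool.false_eq_true, if_false]
    have h1 := tanh_taylor (f x + 2 * dd i f x) (f x)
    have e1 : f x + 2 * dd i f x - f x = 2 * dd i f x := by ring
    rw [e1] at h1
    have e2 : (Real.tanh (f x + (1 - -1) * dd i f x) - Real.tanh (f x - (1 + -1) * dd i f x)) / 2 -
        (1 - Real.tanh (f x) ^ 2) * dd i f x = (Real.tanh (f x + 2 * dd i f x) - Real.tanh (f x)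
        - (1 - Real.tanh (f x) ^ 2) * (2 * dd i f x)) / 2 := by
      have e3 : f x + (1 - -1) * dd i f x = f x + 2 * dd i f x := by ring
      have e4 : f x - (1 + -1) * dd i f x = f x := by ring
      rw [e3, e4]
      ring
    rw [e2, abs_div, abs_of_pos (two_pos : (0 : ℝ) < 2), div_le_iff₀ two_pos]
    linarith only [h1]
  · simp only [sp, if_true]
    have h1 := tanh_taylor (f x - 2 * dd i f x) (f x)
    have e1 : f x - 2 * dd i f x - f x = -(2 * dd i f x) := by ring
    rw [e1] at h1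
    have e2 : (Real.tanh (f x + (1 - 1) * dd i f x) - Real.tanh (f x - (1 + 1) * dd i f x)) / 2 -
        (1 - Real.tanh (f x) ^ 2) * dd i f x = -(Real.tanh (f x - 2 * dd i f x) - Real.tanh (f x)
        - (1 - Real.tanh (f x) ^ 2) * (-(2 * dd i f x))) / 2 := by
      have e3 : f x - (1 + 1) * dd i f x = f x - 2 * dd i f x := by ring
      have e4 : f x + (1 - 1) * dd i f x = f x := by ring
      rw [e3, e4]
      ring
    rw [e2, abs_div, abs_neg, abs_of_pos (two_pos : (0 : ℝ) < 2), div_le_iff₀ two_pos]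
    linarith only [h1]

/-! ### matrix form -/

lemma DD_sv (x : Cfg n) : DD sv x = 1 := by
  ext j i
  rw [DD_apply, dd_sv, Matrix.one_apply]

lemma DD_mulVec (M : Mat n) (F : Cfg n → Vec n) (x : Cfg n) :
    DD (fun z => M.mulVec (F z)) x = M * DD F x := by
  ext j i
  rw [DD_apply, Matrix.mul_apply]
  have e : (fun z => M.mulVec (F z) j) = fun z => ∑ l, M j l * F z l := rfl
  rw [e, dd_sum]
  exact Finset.sum_congr rfl fun l _ => by rw [dd_const_mul, DD_apply]

lemma DD_add (F G : Cfg n → Vec n) (x : Cfg n) :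
    DD (fun z j => F z j + G z j) x = DD F x + DD G x := by
  ext j i
  rw [DD_apply, Matrix.add_apply, DD_apply, DD_apply, ← dd_add]

lemma DD_sub (F G : Cfg n → Vec n) (x : Cfg n) :
    DD (fun z j => F z j - G z j) x = DD F x - DD G x := by
  ext j i
  rw [DD_apply, Matrix.sub_apply, DD_apply, DD_apply, ← dd_sub]

lemma DD_const (v : Vec n) (x : Cfg n) : DD (fun _ => v) x = 0 := by
  ext j i
  rw [DD_apply, dd_const]
  rfl

/-- product rule for a scalar function times a vector valued function -/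
lemma DD_smul (f : Cfg n → ℝ) (F : Cfg n → Vec n) (x : Cfg n) :
    DD (fun z j => f z * F z j) x = f x • DD F x + Matrix.vecMulVec (F x) (gr f x)
      - (2 : ℝ) • (DD F x * dg (fun i => sp (x i) * gr f x i)) := by
  ext j i
  rw [DD_apply, dd_mul]
  simp only [Matrix.sub_apply, Matrix.add_apply, Matrix.smul_apply, smul_eq_mul,
    Matrix.vecMulVec_apply, dg, Matrix.mul_diagonal, gr, DD_apply]
  ring

/-- error matrix of the chain rule for `tanh` -/
lemma DD_tanh (F : Cfg n → Vec n) (x : Cfg n) : ∃ R : Mat n,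
    DD (fun z j => Real.tanh (F z j)) x = dg (fun j => 1 - Real.tanh (F x j) ^ 2) * DD F x + R ∧
      ∀ j i, |R j i| ≤ 4 * DD F x j i ^ 2 := by
  refine ⟨DD (fun z j => Real.tanh (F z j)) x - dg (fun j => 1 - Real.tanh (F x j) ^ 2) * DD F x,
    by abel, fun j i => ?_⟩
  rw [Matrix.sub_apply, dg, Matrix.diagonal_mul, DD_apply, DD_apply]
  exact dd_tanh i (fun z => F z j) x

end Vale.Agent.P150.F.D2.Der
end
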