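import Mathlib
import Vale.Agent.P150.Bdl.B1
import Vale.Agent.P150.Bdl.B3

set_option linter.all false

section

/-! Matrix toolbox: operator norm bounds, Hilbert-Schmidt norms, words. -/

open Finset
open scoped Matrix

namespace Vale.Agent.P150.F

variable {n : ℕ}

lemma sq_nn (v : Vec n) : 0 ≤ sq v := Finset.sum_nonneg fun _ _ => sq_nonneg _

lemma ipM_self (v : Vec n) : ip v v = sq v := by
  unfold ip sq
  exact Finset.sum_congr rfl fun i _ => by ring

lemma ip_sq_le (u v : Vec n) : ip u v ^ 2 ≤ sq u * sq v :=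
  Finset.sum_mul_sq_le_sq_mul_sq _ _ _

lemma sq_eq_zero_iff (v : Vec n) : sq v = 0 ↔ v = 0 := by
  unfold sq
  rw [Finset.sum_eq_zero_iff_of_nonneg fun _ _ => sq_nonneg _]
  constructor
  · intro h
    ext i
    exact pow_eq_zero_iff two_ne_zero |>.1 (h i (Finset.mem_univ i))
  · rintro rfl i _
    simp

lemma ip_mulVec (A : Mat n) (u v : Vec n) : ip u (A.mulVec v) = ip (Aᵀ.mulVec u) v := by
  unfold ip Matrix.mulVec dotProduct
  simp only [Finset.mul_sum, Finset.sum_mul, Matrix.transpose_apply]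
  rw [Finset.sum_comm]
  exact Finset.sum_congr rfl fun i _ => Finset.sum_congr rfl fun j _ => by ring

lemma hsq_nn (A : Mat n) : 0 ≤ hsq A :=
  Finset.sum_nonneg fun _ _ => Finset.sum_nonneg fun _ _ => sq_nonneg _

lemma hsq_transpose (A : Mat n) : hsq Aᵀ = hsq A := by
  unfold hsq
  rw [Finset.sum_comm]
  rfl

lemma hsq_eq_cols (A : Mat n) : hsq A = ∑ j, sq (fun i => A i j) := by
  unfold hsq sq
  rw [Finset.sum_comm]

lemma OpLe.mono {A : Mat n} {C D : ℝ} (h : OpLe A C) (hC : 0 ≤ C) (hCD : C ≤ D) : OpLe A D :=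
  fun v => (h v).trans (mul_le_mul_of_nonneg_right (pow_le_pow_left₀ hC hCD 2) (sq_nn v))

lemma OpLe.transpose {A : Mat n} {C : ℝ} (h : OpLe A C) : OpLe Aᵀ C := by
  intro v
  have h1 : sq (Aᵀ.mulVec v) = ip v (A.mulVec (Aᵀ.mulVec v)) := by
    rw [ip_mulVec, ipM_self]
  have h2 := ip_sq_le v (A.mulVec (Aᵀ.mulVec v))
  rw [← h1] at h2
  have h3 := h (Aᵀ.mulVec v)
  have h4 := sq_nn (Aᵀ.mulVec v)
  have h5 : sq (Aᵀ.mulVec v) ^ 2 ≤ (C ^ 2 * sq v) * sq (Aᵀ.mulVec v) := by
    linarith [h2, mul_le_mul_of_nonneg_left h3 (sq_nn v)]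
  rcases eq_or_lt_of_le h4 with h6 | h6
  · rw [← h6]
    exact mul_nonneg (sq_nonneg _) (sq_nn v)
  · rw [pow_two] at h5
    exact le_of_mul_le_mul_right h5 h6

lemma OpLe.mul {A B : Mat n} {a b : ℝ} (hA : OpLe A a) (hB : OpLe B b) :
    OpLe (A * B) (a * b) := by
  intro v
  rw [← Matrix.mulVec_mulVec]
  calc sq (A.mulVec (B.mulVec v)) ≤ a ^ 2 * sq (B.mulVec v) := hA _
    _ ≤ a ^ 2 * (b ^ 2 * sq v) := mul_le_mul_of_nonneg_left (hB v) (sq_nonneg a)
    _ = (a * b) ^ 2 * sq v := by ring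

lemma OpLe.one : OpLe (1 : Mat n) 1 := by
  intro v
  rw [Matrix.one_mulVec]; simp

lemma OpLe.dg {a : Vec n} (h : ∀ i, |a i| ≤ 1) : OpLe (dg a) 1 := by
  intro v
  unfold sq F.dg
  rw [one_pow, one_mul]
  refine Finset.sum_le_sum fun i _ => ?_
  rw [Matrix.mulVec_diagonal, mul_pow]
  have h1 : a i ^ 2 ≤ 1 := by
    rw [← sq_abs]
    exact pow_le_one₀ (abs_nonneg _) (h i)
  linarith only [mul_nonneg (sub_nonneg.2 h1) (sq_nonneg (v i))]

lemma hsq_mul_le {A : Mat n} {C : ℝ} (h : OpLe A C) (B : Mat n) :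
    hsq (A * B) ≤ C ^ 2 * hsq B := by
  rw [hsq_eq_cols, hsq_eq_cols, Finset.mul_sum]
  refine Finset.sum_le_sum fun j _ => ?_
  have h1 := h (fun i => B i j)
  have h2 : A.mulVec (fun i => B i j) = fun i => (A * B) i j := by
    ext i
    simp [Matrix.mulVec, dotProduct, Matrix.mul_apply]
  rwa [h2] at h1

lemma hsq_mul_le' {B : Mat n} {C : ℝ} (h : OpLe B C) (A : Mat n) :
    hsq (A * B) ≤ C ^ 2 * hsq A := by
  rw [← hsq_transpose, Matrix.transpose_mul, ← hsq_transpose A]
  exact hsq_mul_le h.transpose _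

/-- Hilbert-Schmidt norm -/
noncomputable def hs (A : Mat n) : ℝ := Real.sqrt (hsq A)

lemma hs_nn (A : Mat n) : 0 ≤ hs A := Real.sqrt_nonneg _

lemma hs_sq (A : Mat n) : hs A ^ 2 = hsq A := Real.sq_sqrt (hsq_nn A)

lemma hs_mul_le {A : Mat n} {C : ℝ} (hC : 0 ≤ C) (h : OpLe A C) (B : Mat n) :
    hs (A * B) ≤ C * hs B := by
  unfold hs
  rw [← Real.sqrt_sq hC, ← Real.sqrt_mul (sq_nonneg C)]
  exact Real.sqrt_le_sqrt (hsq_mul_le h B)

lemma hs_mul_le' {B : Mat n} {C : ℝ} (hC : 0 ≤ C) (h : OpLe B C) (A : Mat n) :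
    hs (A * B) ≤ C * hs A := by
  unfold hs
  rw [← Real.sqrt_sq hC, ← Real.sqrt_mul (sq_nonneg C)]
  exact Real.sqrt_le_sqrt (hsq_mul_le' h A)

/-- the Hilbert-Schmidt norm as a Euclidean norm -/
lemma hs_eq_norm (A : Mat n) :
    hs A = ‖(WithLp.toLp 2 fun p : Fin n × Fin n => A p.1 p.2 : EuclideanSpace ℝ (Fin n × Fin n))‖ := by
  rw [EuclideanSpace.norm_eq]
  unfold hs hsq
  congr 1
  rw [Fintype.sum_prod_type]
  simp

lemma hs_add_le (A B : Mat n) : hs (A + B) ≤ hs A + hs B := by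
  rw [hs_eq_norm, hs_eq_norm, hs_eq_norm]
  refine le_trans (le_of_eq ?_) (norm_add_le _ _)
  congr 1

lemma hs_sub_comm (A B : Mat n) : hs (A - B) = hs (B - A) := by
  unfold hs hsq
  congr 1
  exact Finset.sum_congr rfl fun i _ => Finset.sum_congr rfl fun j _ => by
    rw [Matrix.sub_apply, Matrix.sub_apply]; ring

lemma hs_one : hs (1 : Mat n) = Real.sqrt n := by
  unfold hs hsq
  congr 1
  simp [Matrix.one_apply]

/-- a matrix is bounded by its Hilbert-Schmidt norm -/
lemma opLe_hs (A : Mat n) : OpLe A (hs A) := by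
  intro v
  rw [hs_sq]
  unfold hsq sq
  rw [Finset.sum_mul]
  refine Finset.sum_le_sum fun i _ => ?_
  exact Finset.sum_mul_sq_le_sq_mul_sq Finset.univ (fun j => A i j) v

lemma word_nil (J : Mat n) : word J [] = 1 := rfl

lemma word_cons (J : Mat n) (a : Vec n) (as : List (Vec n)) :
    word J (a :: as) = J * dg a * word J as := rfl

lemma word_append (J : Mat n) (as bs : List (Vec n)) :
    word J (as ++ bs) = word J as * word J bs := by
  induction as with
  | nil => simp [word]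
  | cons a as ih => simp [word, ih, Matrix.mul_assoc]

lemma Bdd.of_cons {a : Vec n} {as : List (Vec n)} (h : Bdd (a :: as)) : Bdd as :=
  fun b hb => h b (List.mem_cons_of_mem _ hb)

lemma Bdd.head {a : Vec n} {as : List (Vec n)} (h : Bdd (a :: as)) : ∀ i, |a i| ≤ 1 :=
  h a List.mem_cons_self

lemma Bdd.take {as : List (Vec n)} (h : Bdd as) (k : ℕ) : Bdd (as.take k) :=
  fun b hb => h b (List.mem_of_mem_take hb)

lemma Bdd.drop {as : List (Vec n)} (h : Bdd as) (k : ℕ) : Bdd (as.drop k) :=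
  fun b hb => h b (List.mem_of_mem_drop hb)

lemma OpLe.word {J : Mat n} {C : ℝ} (hJ : OpLe J C) {as : List (Vec n)} (hb : Bdd as) :
    OpLe (word J as) (C ^ as.length) := by
  induction as with
  | nil => simpa [F.word] using OpLe.one
  | cons a as ih =>
    rw [word_cons, List.length_cons, pow_succ']
    have h1 := (hJ.mul (OpLe.dg hb.head)).mul (ih hb.of_cons)
    rwa [mul_one] at h1

/-- words are Lipschitz in the matrix -/
lemma hs_word_sub {J K : Mat n} {C : ℝ} (hC : 1 ≤ C) (hJ : OpLe J C) (hK : OpLe K C)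
    {as : List (Vec n)} (hb : Bdd as) :
    hs (word J as - word K as) ≤ as.length * C ^ as.length * hs (J - K) := by
  have hC0 : 0 ≤ C := zero_le_one.trans hC
  induction as with
  | nil =>
    simp only [word_nil, sub_self, List.length_nil, Nat.cast_zero, zero_mul]
    exact le_of_eq (by simp [hs, hsq])
  | cons a as ih =>
    have h1 : word J (a :: as) - word K (a :: as)
        = (J - K) * (dg a * word J as) + (K * dg a) * (word J as - word K as) := by
      rw [word_cons, word_cons]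
      noncomm_ring
    rw [h1]
    refine (hs_add_le _ _).trans ?_
    have h2 : hs ((J - K) * (dg a * word J as)) ≤ C ^ as.length * hs (J - K) := by
      have h3 : OpLe (dg a * word J as) (C ^ as.length) := by
        have := (OpLe.dg hb.head).mul (hJ.word hb.of_cons)
        rwa [one_mul] at this
      exact hs_mul_le' (pow_nonneg hC0 _) h3 _
    have h4 : hs ((K * dg a) * (word J as - word K as))
        ≤ C * (as.length * C ^ as.length * hs (J - K)) := by
      have h5 : OpLe (K * dg a) C := by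
        have := hK.mul (OpLe.dg hb.head)
        rwa [mul_one] at this
      exact (hs_mul_le hC0 h5 _).trans (mul_le_mul_of_nonneg_left (ih hb.of_cons) hC0)
    have h6 : C ^ as.length ≤ C ^ (as.length + 1) := pow_le_pow_right₀ hC (Nat.le_succ _)
    have h7 := hs_nn (J - K)
    rw [List.length_cons]
    push_cast
    have h8 : C ^ as.length * hs (J - K) ≤ C ^ (as.length + 1) * hs (J - K) :=
      mul_le_mul_of_nonneg_right h6 h7
    calc _ ≤ C ^ as.length * hs (J - K) + C * (as.length * C ^ as.length * hs (J - K)) :=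
          add_le_add h2 h4
      _ ≤ C ^ (as.length + 1) * hs (J - K) + C * (as.length * C ^ as.length * hs (J - K)) := by
          linarith only [h8]
      _ = _ := by ring

/-- crude bound of a word by the Hilbert-Schmidt norm of the matrix -/
lemma hs_word_le_hs {J : Mat n} {as : List (Vec n)} (hb : Bdd as) :
    hs (word J as) ≤ hs J ^ as.length * Real.sqrt n := by
  have h := hs_mul_le (pow_nonneg (hs_nn J) _) ((opLe_hs J).word hb) 1
  rwa [mul_one, hs_one] at h

lemma hs_word_le {J : Mat n} {C : ℝ} (hC : 0 ≤ C) (hJ : OpLe J C) {as : List (Vec n)}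
    (hb : Bdd as) : hs (word J as) ≤ C ^ as.length * Real.sqrt n := by
  have h := hs_mul_le (pow_nonneg hC _) (hJ.word hb) 1
  rwa [mul_one, hs_one] at h

/-- the normalized trace is controlled by the Hilbert-Schmidt norm -/
lemma trN_sq_le (A : Mat n) : trN A ^ 2 ≤ hsq A / n := by
  rcases Nat.eq_zero_or_pos n with h0 | h0
  · subst h0
    simp [trN, hsq]
  have hn : (0 : ℝ) < n := by exact_mod_cast h0
  unfold trN
  rw [div_pow, div_le_div_iff₀ (by positivity) hn]
  have h1 : (∑ i, A i i) ^ 2 ≤ n * ∑ i, A i i ^ 2 := by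
    have := sq_sum_le_card_mul_sum_sq (s := (Finset.univ : Finset (Fin n))) (f := fun i => A i i)
    simpa using this
  have h2 : ∑ i, A i i ^ 2 ≤ hsq A := by
    unfold hsq
    refine Finset.sum_le_sum fun i _ => ?_
    exact Finset.single_le_sum (f := fun j => A i j ^ 2) (fun j _ => sq_nonneg _)
      (Finset.mem_univ i)
  have h3 := hsq_nn A
  have h4 : (n : ℝ) * ∑ i, A i i ^ 2 ≤ n * hsq A := mul_le_mul_of_nonneg_left h2 hn.le
  (by_contra nlg; linarith only [mul_nonneg (sq_nonneg (↑n : ℝ)) (sub_nonneg.2 h1), mul_nonneg (sq_nonneg (↑n : ℝ)) (sub_nonneg.2 h4), mul_pos (sub_pos.2 (not_le.1 nlg)) (sub_pos.2 hn)])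

lemma abs_trN_le (A : Mat n) : |trN A| ≤ hs A / Real.sqrt n := by
  have h := trN_sq_le A
  rw [← Real.sqrt_sq_eq_abs]
  refine (Real.sqrt_le_sqrt h).trans (le_of_eq ?_)
  rw [Real.sqrt_div (hsq_nn A)]
  rfl

lemma trN_sub (A B : Mat n) : trN (A - B) = trN A - trN B := by
  unfold trN
  simp only [Matrix.sub_apply, Finset.sum_sub_distrib]
  ring

lemma abs_trN_le_of_opLe {A : Mat n} {C : ℝ} (hC : 0 ≤ C) (h : OpLe A C) : |trN A| ≤ C := by
  rcases Nat.eq_zero_or_pos n with h0 | h0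
  · subst h0
    simpa [trN] using hC
  have hn : (0 : ℝ) < n := by exact_mod_cast h0
  refine (abs_trN_le A).trans ?_
  have h1 := hs_mul_le hC h 1
  rw [mul_one, hs_one] at h1
  rw [div_le_iff₀ (Real.sqrt_pos.2 hn)]
  exact h1

/-- the disorder is embedded isometrically up to the factor `√(2/n)` -/
lemma hsq_skM_sub' (g h : Pairs n → ℝ) :
    hsq (skM g - skM h) = 2 / n * ∑ p, (g p - h p) ^ 2 := by
  unfold hsq
  rw [sum_pairs]
  have e1 : ∀ i j, (skM g - skM h) i j = gsym g i j / Real.sqrt n - gsym h i j / Real.sqrt n :=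
    fun i j => rfl
  simp only [e1, gsym_self, gsym_pair, gsym_pair']
  simp only [zero_div, sub_self, ne_eq, OfNat.ofNat_ne_zero, not_false_eq_true, zero_pow,
    Finset.sum_const_zero, add_zero]
  rw [Finset.mul_sum]
  refine Finset.sum_congr rfl fun p _ => ?_
  rw [← sub_div, div_pow, Real.sq_sqrt (Nat.cast_nonneg n)]
  ring

lemma hs_skM_sub (g h : Pairs n → ℝ) :
    hs (skM g - skM h) = Real.sqrt (2 / n) * Real.sqrt (∑ p, (g p - h p) ^ 2) := by
  unfold hs
  rw [hsq_skM_sub', Real.sqrt_mul (by positivity)]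

lemma skM_transpose (g : Pairs n → ℝ) : (skM g)ᵀ = skM g := by
  ext i j
  simp [skM, gsym_comm g i j]

lemma skM_diag (g : Pairs n → ℝ) (i : Fin n) : skM g i i = 0 := by
  simp [skM, gsym_self]

end Vale.Agent.P150.F
end

section

/-! Reduction of the uniform word statements to sign diagonals: functions that are convex in every
single coordinate of every diagonal attain their supremum over `[-1,1]`-diagonals at signs. -/

open Finset
open scoped Matrix

namespace Vale.Agent.P150.F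

variable {n : ℕ}

/-- sign vectors -/
def IsSign (v : Vec n) : Prop := ∀ i, v i = 1 ∨ v i = -1

/-- lists of sign vectors -/
def Signs (as : List (Vec n)) : Prop := ∀ a ∈ as, IsSign a

lemma IsSign.abs_le {v : Vec n} (h : IsSign v) (i : Fin n) : |v i| ≤ 1 := by
  rcases h i with h | h <;> rw [h] <;> simp

lemma Signs.bdd {as : List (Vec n)} (h : Signs as) : Bdd as := fun a ha => (h a ha).abs_le

lemma exists_sign_vec (Φ : Vec n → ℝ)
    (hΦ : ∀ v i, ConvexOn ℝ Set.univ (fun t => Φ (Function.update v i t)))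
    (v : Vec n) (hv : ∀ i, |v i| ≤ 1) : ∃ s, IsSign s ∧ Φ v ≤ Φ s := by
  have key : ∀ T : Finset (Fin n), ∃ s : Vec n, (∀ i ∈ T, s i = 1 ∨ s i = -1) ∧
      (∀ i ∉ T, s i = v i) ∧ Φ v ≤ Φ s := by
    intro T
    induction T using Finset.induction_on with
    | empty => exact ⟨v, by simp, fun _ _ => rfl, le_rfl⟩
    | insert i T hi ih =>
      obtain ⟨s, h1, h2, h3⟩ := ih
      have h4 : s i ∈ Set.Icc (-1 : ℝ) 1 := by
        rw [h2 i hi]
        exact abs_le.1 (hv i)
      have h5 := (hΦ s i).le_max_of_mem_Icc (Set.mem_univ (-1 : ℝ)) (Set.mem_univ (1 : ℝ)) h4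
      simp only [Function.update_eq_self] at h5
      rcases le_max_iff.1 h5 with h6 | h6
      · refine ⟨Function.update s i (-1), fun j hj => ?_, fun j hj => ?_, h3.trans h6⟩
        · by_cases hji : j = i
          · subst hji; right; simp
          · rw [Function.update_of_ne hji]
            exact h1 j ((Finset.mem_insert.1 hj).resolve_left hji)
        · rw [Finset.mem_insert, not_or] at hj
          rw [Function.update_of_ne hj.1]
          exact h2 j hj.2
      · refine ⟨Function.update s i 1, fun j hj => ?_, fun j hj => ?_, h3.trans h6⟩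
        · by_cases hji : j = i
          · subst hji; left; simp
          · rw [Function.update_of_ne hji]
            exact h1 j ((Finset.mem_insert.1 hj).resolve_left hji)
        · rw [Finset.mem_insert, not_or] at hj
          rw [Function.update_of_ne hj.1]
          exact h2 j hj.2
  obtain ⟨s, h1, -, h3⟩ := key Finset.univ
  exact ⟨s, fun i => h1 i (Finset.mem_univ i), h3⟩

/-- `Φ` is convex in every coordinate of every entry -/
def CoordConvex (Φ : List (Vec n) → ℝ) : Prop :=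
  ∀ (pre : List (Vec n)) (v : Vec n) (post : List (Vec n)) (i : Fin n),
    ConvexOn ℝ Set.univ (fun t => Φ (pre ++ Function.update v i t :: post))

lemma exists_signs {Φ : List (Vec n) → ℝ} (hΦ : CoordConvex Φ) {as : List (Vec n)}
    (hb : Bdd as) : ∃ ss : List (Vec n), ss.length = as.length ∧ Signs ss ∧ Φ as ≤ Φ ss := by
  have key : ∀ (as : List (Vec n)), Bdd as → ∀ pre : List (Vec n), ∃ ss : List (Vec n),
      ss.length = as.length ∧ Signs ss ∧ Φ (pre ++ as) ≤ Φ (pre ++ ss) := by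
    intro as
    induction as with
    | nil => intro _ pre; exact ⟨[], rfl, by intro a ha; simp at ha, le_rfl⟩
    | cons a as ih =>
      intro hb pre
      obtain ⟨s, hs, h1⟩ := exists_sign_vec (fun v => Φ (pre ++ v :: as))
        (fun v i => hΦ pre v as i) a hb.head
      obtain ⟨ss, h2, h3, h4⟩ := ih hb.of_cons (pre ++ [s])
      refine ⟨s :: ss, by simp [h2], ?_, ?_⟩
      · intro b hb'
        rcases List.mem_cons.1 hb' with h | h
        · rw [h]; exact hs
        · exact h3 b h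
      · refine h1.trans ?_
        simpa using h4
  simpa using key as hb []

/-! ### Affine functions of one real parameter -/

/-- affine real function -/
def IsAff (F : ℝ → ℝ) : Prop := ∃ A B : ℝ, ∀ t, F t = A + t * B

/-- affine matrix function -/
def MAff (F : ℝ → Mat n) : Prop := ∃ A B : Mat n, ∀ t, F t = A + t • B

lemma IsAff.const (c : ℝ) : IsAff fun _ => c := ⟨c, 0, fun t => by ring⟩

lemma IsAff.add {F G : ℝ → ℝ} (hF : IsAff F) (hG : IsAff G) : IsAff fun t => F t + G t := by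
  obtain ⟨A, B, h⟩ := hF
  obtain ⟨A', B', h'⟩ := hG
  exact ⟨A + A', B + B', fun t => by simp only [h, h']; ring⟩

lemma IsAff.sub {F G : ℝ → ℝ} (hF : IsAff F) (hG : IsAff G) : IsAff fun t => F t - G t := by
  obtain ⟨A, B, h⟩ := hF
  obtain ⟨A', B', h'⟩ := hG
  exact ⟨A - A', B - B', fun t => by simp only [h, h']; ring⟩

lemma IsAff.mul_const {F : ℝ → ℝ} (hF : IsAff F) (c : ℝ) : IsAff fun t => F t * c := by
  obtain ⟨A, B, h⟩ := hF
  exact ⟨A * c, B * c, fun t => by simp only [h]; ring⟩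

lemma IsAff.const_mul {F : ℝ → ℝ} (hF : IsAff F) (c : ℝ) : IsAff fun t => c * F t := by
  obtain ⟨A, B, h⟩ := hF
  exact ⟨c * A, c * B, fun t => by simp only [h]; ring⟩

lemma IsAff.sum {ι : Type*} {s : Finset ι} {F : ι → ℝ → ℝ} (h : ∀ i ∈ s, IsAff (F i)) :
    IsAff fun t => ∑ i ∈ s, F i t := by
  classical
  induction s using Finset.induction_on with
  | empty => simpa using IsAff.const 0
  | insert i s hi ih =>
    simp only [Finset.sum_insert hi]
    exact (h i (Finset.mem_insert_self i s)).add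
      (ih fun j hj => h j (Finset.mem_insert_of_mem hj))

lemma IsAff.convexOn {F : ℝ → ℝ} (hF : IsAff F) : ConvexOn ℝ Set.univ F := by
  obtain ⟨A, B, h⟩ := hF
  refine ⟨convex_univ, fun x _ y _ a b _ _ hab => ?_⟩
  rw [h, h, h]
  simp only [smul_eq_mul]
  refine le_of_eq ?_
  have : A = (a + b) * A := by rw [hab, one_mul]
  linear_combination this

lemma IsAff.neg {F : ℝ → ℝ} (hF : IsAff F) : IsAff fun t => -F t := by
  obtain ⟨A, B, h⟩ := hF
  exact ⟨-A, -B, fun t => by simp only [h]; ring⟩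

lemma IsAff.convexOn_abs {F : ℝ → ℝ} (hF : IsAff F) : ConvexOn ℝ Set.univ fun t => |F t| := by
  have := hF.convexOn.sup hF.neg.convexOn
  exact this

lemma IsAff.convexOn_pow {F : ℝ → ℝ} (hF : IsAff F) {p : ℕ} (hp : Even p) :
    ConvexOn ℝ Set.univ fun t => F t ^ p := by
  obtain ⟨A, B, h⟩ := hF
  have h1 := (hp.convexOn_pow (𝕜 := ℝ))
  refine ⟨convex_univ, fun x _ y _ a b ha hb hab => ?_⟩
  have h2 := h1.2 (Set.mem_univ (F x)) (Set.mem_univ (F y)) ha hb hab
  have h3 : F (a • x + b • y) = a • F x + b • F y := by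
    rw [h, h, h]
    simp only [smul_eq_mul]
    have : A = (a + b) * A := by rw [hab, one_mul]
    linear_combination this
  show F (a • x + b • y) ^ p ≤ a • F x ^ p + b • F y ^ p
  rw [h3]
  exact h2

lemma MAff.const_mul {F : ℝ → Mat n} (hF : MAff F) (c : Mat n) : MAff fun t => c * F t := by
  obtain ⟨A, B, h⟩ := hF
  exact ⟨c * A, c * B, fun t => by simp only [h, Matrix.mul_add, Matrix.mul_smul]⟩

lemma MAff.mul_const {F : ℝ → Mat n} (hF : MAff F) (c : Mat n) : MAff fun t => F t * c := by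
  obtain ⟨A, B, h⟩ := hF
  exact ⟨A * c, B * c, fun t => by simp only [h, Matrix.add_mul, Matrix.smul_mul]⟩

lemma MAff.entry {F : ℝ → Mat n} (hF : MAff F) (i j : Fin n) : IsAff fun t => F t i j := by
  obtain ⟨A, B, h⟩ := hF
  exact ⟨A i j, B i j, fun t => by
    simp only [h]
    rw [Matrix.add_apply, Matrix.smul_apply, smul_eq_mul]⟩

lemma MAff.trc {F : ℝ → Mat n} (hF : MAff F) : IsAff fun t => trN (F t) := by
  unfold trN
  simp only [div_eq_mul_inv]
  exact (IsAff.sum fun i _ => hF.entry i i).mul_const _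

lemma MAff.dgu (v : Vec n) (i : Fin n) : MAff fun t => dg (Function.update v i t) := by
  refine ⟨dg (Function.update v i 0), Matrix.single i i 1, fun t => ?_⟩
  show Matrix.diagonal (Function.update v i t)
    = Matrix.diagonal (Function.update v i 0) + t • Matrix.single i i 1
  ext a b
  rw [Matrix.add_apply, Matrix.smul_apply, Matrix.diagonal_apply, Matrix.diagonal_apply,
    Matrix.single_apply, smul_eq_mul]
  by_cases hab : a = b
  · subst hab
    by_cases hai : a = i
    · subst hai; simp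
    · simp [Function.update_of_ne hai, Ne.symm hai]
  · rw [if_neg hab, if_neg hab, if_neg, mul_zero, add_zero]
    rintro ⟨rfl, rfl⟩
    exact hab rfl

lemma MAff.wd (J : Mat n) (pre : List (Vec n)) (v : Vec n) (post : List (Vec n)) (i : Fin n) :
    MAff fun t => word J (pre ++ Function.update v i t :: post) := by
  have h : (fun t => word J (pre ++ Function.update v i t :: post))
      = fun t => (word J pre * J) * dg (Function.update v i t) * word J post := by
    funext t
    rw [word_append, word_cons]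
    simp only [Matrix.mul_assoc]
  rw [h]
  exact ((MAff.dgu v i).const_mul _).mul_const _

/-! ### The off-diagonal functional -/

/-- the functional of `OD` -/
def odf (J : Mat n) (as : List (Vec n)) : ℝ :=
  ∑ i, ∑ j, (if i = j then 0 else word J as i j ^ 4)

lemma ConvexOn.sum' {ι : Type*} {s : Finset ι} {F : ι → ℝ → ℝ}
    (h : ∀ i ∈ s, ConvexOn ℝ Set.univ (F i)) : ConvexOn ℝ Set.univ fun t => ∑ i ∈ s, F i t := by
  classical
  induction s using Finset.induction_on with
  | empty => simpa using convexOn_const (0 : ℝ) convex_univ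
  | insert i s hi ih =>
    simp only [Finset.sum_insert hi]
    exact (h i (Finset.mem_insert_self i s)).add
      (ih fun j hj => h j (Finset.mem_insert_of_mem hj))

lemma coordConvex_odf (J : Mat n) : CoordConvex (odf J) := by
  intro pre v post i
  unfold odf
  refine ConvexOn.sum' fun a _ => ConvexOn.sum' fun b _ => ?_
  by_cases hab : a = b
  · simp only [hab, if_true]
    exact convexOn_const (0 : ℝ) convex_univ
  · simp only [hab, if_false]
    exact ((MAff.wd J pre v post i).entry a b).convexOn_pow ⟨2, rfl⟩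

theorem od_of_signs {J : Mat n} {ℓ : ℕ} {ε : ℝ}
    (h : ∀ as : List (Vec n), 1 ≤ as.length → as.length ≤ ℓ → Signs as → odf J as ≤ ε * n) :
    OD J ℓ ε := by
  intro as h1 h2 hb
  obtain ⟨ss, h3, h4, h5⟩ := exists_signs (coordConvex_odf J) hb
  exact h5.trans (h ss (by omega) (by omega) h4)

/-! ### The Schwinger-Dyson functional -/

/-- the `k`-th pairing term -/
noncomputable def sdT (J : Mat n) (a : Vec n) (as : List (Vec n)) (k : ℕ) : ℝ :=
  trN (dg a * word J (as.take k)) * trN (dg (as.getD k 0) * word J (as.drop (k + 1)))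

/-- the Schwinger-Dyson defect -/
noncomputable def sdf (J : Mat n) : List (Vec n) → ℝ
  | [] => 0
  | a :: as => trN (word J (a :: as)) - ∑ k ∈ Finset.range as.length, sdT J a as k

lemma sdf_eq (J : Mat n) (a : Vec n) (as : List (Vec n)) :
    sdf J (a :: as) = trN (word J (a :: as))
      - ∑ k : Fin as.length, trN (dg a * word J (as.take k)) *
          trN (dg (as.get k) * word J (as.drop (k + 1))) := by
  simp only [sdf]
  congr 1
  rw [Finset.sum_range]
  refine Finset.sum_congr rfl fun k _ => ?_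
  unfold sdT
  rw [List.getD_eq_getElem _ _ k.2]
  rfl

lemma isAff_sdf (J : Mat n) (pre : List (Vec n)) (v : Vec n) (post : List (Vec n)) (i : Fin n) :
    IsAff fun t => sdf J (pre ++ Function.update v i t :: post) := by
  cases pre with
  | nil =>
    simp only [List.nil_append]
    unfold sdf
    refine (MAff.wd J [] v post i).trc.sub (IsAff.sum fun k _ => ?_)
    unfold sdT
    exact (((MAff.dgu v i).mul_const _).trc).mul_const _
  | cons b pre =>
    simp only [List.cons_append]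
    unfold sdf
    have hlen : ∀ t : ℝ, (pre ++ Function.update v i t :: post).length
        = pre.length + (post.length + 1) := fun t => by simp
    simp only [hlen]
    refine (MAff.wd J (b :: pre) v post i).trc.sub (IsAff.sum fun k _ => ?_)
    unfold sdT
    rcases lt_trichotomy k pre.length with hk | hk | hk
    · have h1 : ∀ t : ℝ, (pre ++ Function.update v i t :: post).take k = pre.take k := fun t => by
        rw [List.take_append_of_le_length hk.le]
      have h2 : ∀ t : ℝ, (pre ++ Function.update v i t :: post).getD k 0 = pre.getD k 0 :=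
        fun t => by rw [List.getD_append _ _ _ _ hk]
      have h3 : ∀ t : ℝ, (pre ++ Function.update v i t :: post).drop (k + 1)
          = pre.drop (k + 1) ++ Function.update v i t :: post := fun t => by
        rw [List.drop_append_of_le_length (by omega)]
      simp only [h1, h2, h3]
      exact (((MAff.wd J (pre.drop (k + 1)) v post i).const_mul _).trc).const_mul _
    · subst hk
      have h1 : ∀ t : ℝ, (pre ++ Function.update v i t :: post).take pre.length = pre :=
        fun t => by simp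
      have h2 : ∀ t : ℝ, (pre ++ Function.update v i t :: post).getD pre.length 0
          = Function.update v i t := fun t => by
        rw [List.getD_append_right _ _ _ _ le_rfl]; simp
      have h3 : ∀ t : ℝ, (pre ++ Function.update v i t :: post).drop (pre.length + 1) = post :=
        fun t => by
          rw [List.drop_append]
          simp
      simp only [h1, h2, h3]
      exact (((MAff.dgu v i).mul_const _).trc).const_mul _
    · obtain ⟨m, rfl⟩ : ∃ m, k = pre.length + (m + 1) := ⟨k - pre.length - 1, by omega⟩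
      have h1 : ∀ t : ℝ, (pre ++ Function.update v i t :: post).take (pre.length + (m + 1))
          = pre ++ Function.update v i t :: post.take m := fun t => by
        rw [List.take_append]
        simp
      have h2 : ∀ t : ℝ, (pre ++ Function.update v i t :: post).getD (pre.length + (m + 1)) 0
          = post.getD m 0 := fun t => by
        rw [List.getD_append_right _ _ _ _ (by omega)]; simp
      have h3 : ∀ t : ℝ, (pre ++ Function.update v i t :: post).drop (pre.length + (m + 1) + 1)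
          = post.drop (m + 1) := fun t => by
        rw [List.drop_append]
        simp [show pre.length + (m + 1) + 1 - pre.length = m + 1 + 1 by omega,
          show pre.length ≤ pre.length + (m + 1) + 1 by omega]
      simp only [h1, h2, h3]
      exact (((MAff.wd J pre v (post.take m) i).const_mul _).trc).mul_const _

lemma coordConvex_sdf (J : Mat n) : CoordConvex fun as => |sdf J as| :=
  fun pre v post i => (isAff_sdf J pre v post i).convexOn_abs

theorem sd_of_signs {J : Mat n} {ℓ : ℕ} {ε : ℝ}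
    (h : ∀ as : List (Vec n), 1 ≤ as.length → as.length ≤ ℓ → Signs as → |sdf J as| ≤ ε) :
    SD J ℓ ε := by
  intro a as h1 hb
  rw [← sdf_eq]
  obtain ⟨ss, h3, h4, h5⟩ := exists_signs (coordConvex_sdf J) hb
  simp only [List.length_cons] at h3
  exact h5.trans (h ss (by omega) (by omega) h4)

/-! ### Enumeration of sign lists -/

/-- the sign list of a Boolean array -/
def sgl {m : ℕ} (b : Fin m → Fin n → Bool) : List (Vec n) :=
  List.ofFn fun k => fun i => if b k i then (1 : ℝ) else -1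

lemma signs_sgl {m : ℕ} (b : Fin m → Fin n → Bool) : Signs (sgl b) := by
  intro a ha
  unfold sgl at ha
  rw [List.mem_ofFn] at ha
  obtain ⟨k, rfl⟩ := ha
  intro i
  by_cases h : b k i <;> simp [h]

lemma length_sgl {m : ℕ} (b : Fin m → Fin n → Bool) : (sgl b).length = m := by
  unfold sgl; simp

lemma exists_sgl {as : List (Vec n)} (h : Signs as) :
    ∃ b : Fin as.length → Fin n → Bool, as = sgl b := by
  classical
  refine ⟨fun k i => decide (as.get k i = 1), ?_⟩
  unfold sgl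
  refine List.ext_get (by simp) fun k h1 h2 => ?_
  simp only [List.get_ofFn]
  ext i
  have h3 := h (as.get ⟨k, h1⟩) (List.get_mem _ _) i
  rcases h3 with h4 | h4
  · simp only [List.get_eq_getElem] at h4
    simp [h4]
  · simp only [List.get_eq_getElem] at h4
    simp [h4]

end Vale.Agent.P150.F
end

section

/-! Sudakov–Fernique comparison with a deterministic penalty, on two different Gaussian spaces. -/

open MeasureTheory ProbabilityTheory
open Vale.Agent.P367.GT (gM zf part)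

namespace Vale.Agent.P150.F

section
variable {S ι : Type*} [Fintype S] [Nonempty S] [Fintype ι]

omit [Nonempty S] in
lemma pen_bdd (f : S → ℝ) : BddAbove (Set.range f) := (Set.finite_range _).bddAbove

/-- the penalised supremum of a finite family of Gaussian linear forms is integrable -/
lemma integrable_pen (a : S → ι → ℝ) (Λ : S → ℝ) :
    Integrable (fun g : ι → ℝ => ⨆ s, ((∑ e, a s e * g e) - Λ s))
      (Measure.pi fun _ : ι => gaussianReal 0 1) := by
  have h1 : Integrable (fun g : ι → ℝ => (∑ s, |∑ e, a s e * g e|) + ∑ s, |Λ s|) (Vale.Agent.P367.GT.gM ι) := by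
    refine Integrable.add (integrable_finsetSum _ fun s _ => ?_) (integrable_const _)
    refine (integrable_finsetSum _ fun e _ => ?_).abs
    exact (Vale.Agent.P367.GT.integrable_coord e).const_mul _
  refine h1.mono' ?_ (Filter.Eventually.of_forall fun g => ?_)
  · apply Measurable.aestronglyMeasurable
    exact Measurable.iSup fun s => (Finset.measurable_sum _ fun e _ =>
      (measurable_pi_apply e).const_mul _).sub_const _
  · have h2 : ∀ s, |(∑ e, a s e * g e) - Λ s| ≤ (∑ s, |∑ e, a s e * g e|) + ∑ s, |Λ s| := by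
      intro s
      have e1 : |∑ e, a s e * g e| ≤ ∑ s, |∑ e, a s e * g e| :=
        Finset.single_le_sum (f := fun s => |∑ e, a s e * g e|) (fun s _ => abs_nonneg _)
          (Finset.mem_univ s)
      have e2 : |Λ s| ≤ ∑ s, |Λ s| :=
        Finset.single_le_sum (f := fun s => |Λ s|) (fun s _ => abs_nonneg _) (Finset.mem_univ s)
      have e3 := abs_sub (∑ e, a s e * g e) (Λ s)
      linarith
    obtain ⟨s, hs⟩ := exists_eq_ciSup_of_finite (f := fun s => (∑ e, a s e * g e) - Λ s)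
    rw [Real.norm_eq_abs, ← hs]
    exact h2 s

end

section
variable {S ι κ : Type*} [Fintype S] [Nonempty S] [Fintype ι] [Fintype κ]

omit [Fintype S] [Nonempty S] in
/-- restriction of a standard Gaussian vector to a subset of coordinates -/
lemma gaussian_comp_inj (f : κ → ι) (hf : Function.Injective f) :
    (Measure.pi fun _ : ι => gaussianReal 0 1).map (fun J => J ∘ f)
      = Measure.pi fun _ : κ => gaussianReal 0 1 := by
  classical
  have hm : Measurable (fun J : ι → ℝ => J ∘ f) :=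
    measurable_pi_iff.mpr fun k => measurable_pi_apply (f k)
  symm
  apply Measure.pi_eq
  intro s hs
  rw [Measure.map_apply hm (MeasurableSet.univ_pi hs)]
  set t : ι → Set ℝ := fun i => if h : ∃ k, f k = i then s h.choose else Set.univ with ht
  have htf : ∀ k, t (f k) = s k := by
    intro k
    have h : ∃ k', f k' = f k := ⟨k, rfl⟩
    simp only [ht, dif_pos h]
    rw [hf h.choose_spec]
  have h1 : (fun J : ι → ℝ => J ∘ f) ⁻¹' (Set.univ.pi s) = Set.univ.pi t := by
    ext J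
    simp only [Set.mem_preimage, Set.mem_pi, Set.mem_univ, forall_true_left, Function.comp]
    constructor
    · intro h i
      by_cases hi : ∃ k, f k = i
      · obtain ⟨k, rfl⟩ := hi
        rw [htf]; exact h k
      · simp only [ht, dif_neg hi, Set.mem_univ]
    · intro h k
      have := h (f k)
      rwa [htf] at this
  rw [h1, Measure.pi_pi]
  have h2 : ∏ i, (gaussianReal 0 1) (t i) = ∏ i ∈ Finset.univ.image f, (gaussianReal 0 1) (t i) := by
    symm
    apply Finset.prod_subset (Finset.subset_univ _)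
    intro i _ hi
    have h3 : ¬ ∃ k, f k = i := by
      rintro ⟨k, rfl⟩
      exact hi (Finset.mem_image_of_mem f (Finset.mem_univ k))
    simp only [ht, dif_neg h3, measure_univ]
  rw [h2, Finset.prod_image (fun a _ b _ h => hf h)]
  simp only [htf]

omit [Fintype S] [Nonempty S] in
lemma integral_gaussian_comp_inj (f : κ → ι) (hf : Function.Injective f) (F : (κ → ℝ) → ℝ)
    (hF : AEStronglyMeasurable F (Measure.pi fun _ : κ => gaussianReal 0 1)) :
    ∫ J : ι → ℝ, F (J ∘ f) ∂(Measure.pi fun _ : ι => gaussianReal 0 1)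
      = ∫ J, F J ∂(Measure.pi fun _ : κ => gaussianReal 0 1) := by
  have hm : Measurable (fun J : ι → ℝ => J ∘ f) :=
    measurable_pi_iff.mpr fun k => measurable_pi_apply (f k)
  rw [← gaussian_comp_inj f hf, integral_map hm.aemeasurable]
  rw [gaussian_comp_inj f hf]
  exact hF

/-- **Sudakov–Fernique with penalty.** -/
theorem sup_le_pen (a : S → ι → ℝ) (b : S → κ → ℝ) (Λ : S → ℝ)
    (hinc : ∀ s t, ∑ e, (a s e - a t e) ^ 2 ≤ ∑ e, (b s e - b t e) ^ 2) :
    ∫ g, ⨆ s, ((∑ e, a s e * g e) - Λ s) ∂(Measure.pi fun _ : ι => gaussianReal 0 1)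
      ≤ ∫ g, ⨆ s, ((∑ e, b s e * g e) - Λ s) ∂(Measure.pi fun _ : κ => gaussianReal 0 1) := by
  classical
  set A := ∫ g, ⨆ s, ((∑ e, a s e * g e) - Λ s) ∂(Vale.Agent.P367.GT.gM ι) with hA
  set B := ∫ g, ⨆ s, ((∑ e, b s e * g e) - Λ s) ∂(Vale.Agent.P367.GT.gM κ) with hB
  by_contra hlt
  have hAB : B < A := not_le.mp hlt
  have hcard : (1 : ℝ) ≤ Fintype.card S := by exact_mod_cast Fintype.card_pos
  have hlc : 0 ≤ Real.log (Fintype.card S) := Real.log_nonneg hcard
  have hd : 0 < A - B := sub_pos.mpr hAB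
  set r : ℝ := (Real.log (Fintype.card S) + 2) / (A - B) with hr
  have hr0 : 0 < r := by rw [hr]; positivity
  -- weights
  set W : ℝ := ∑ s, Real.exp (r * Λ s) with hW
  have hWs : ∀ s, Real.exp (r * Λ s) ≤ W := fun s =>
    Finset.single_le_sum (f := fun s => Real.exp (r * Λ s)) (fun s _ => (Real.exp_pos _).le)
      (Finset.mem_univ s)
  have hW0 : 0 < W := Finset.sum_pos (fun s _ => Real.exp_pos _) Finset.univ_nonempty
  obtain ⟨N, hN⟩ := exists_nat_ge W
  have hN0 : (0 : ℝ) < N := hW0.trans_le hN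
  set mult : S → ℕ := fun s => ⌈(N : ℝ) * Real.exp (-(r * Λ s))⌉₊ with hmult
  have hm1 : ∀ s, (N : ℝ) * Real.exp (-(r * Λ s)) ≤ mult s := fun s => Nat.le_ceil _
  have hm2 : ∀ s, (mult s : ℝ) ≤ 2 * ((N : ℝ) * Real.exp (-(r * Λ s))) := by
    intro s
    have e1 : (mult s : ℝ) < (N : ℝ) * Real.exp (-(r * Λ s)) + 1 :=
      Nat.ceil_lt_add_one (by (clear * - hN0; positivity))
    have e2 : (1 : ℝ) ≤ (N : ℝ) * Real.exp (-(r * Λ s)) := by
      rw [Real.exp_neg, ← div_eq_mul_inv, le_div_iff₀ (Real.exp_pos _), one_mul]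
      exact (hWs s).trans hN
    linarith only [e2, e1]
  have hmpos : ∀ s, 0 < mult s := by
    intro s
    have : (0 : ℝ) < mult s := lt_of_lt_of_le (by (clear * - hN0; positivity)) (hm1 s)
    exact_mod_cast this
  -- the replicated index set
  have : Nonempty (Σ s : S, Fin (mult s)) := by
    obtain ⟨s0⟩ := (inferInstance : Nonempty S)
    exact ⟨⟨s0, ⟨0, hmpos s0⟩⟩⟩
  set a' : (Σ s : S, Fin (mult s)) → (ι ⊕ κ) → ℝ := fun p =>
    Sum.elim (fun e => r * a p.1 e) (fun _ => 0) with ha'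
  set b' : (Σ s : S, Fin (mult s)) → (ι ⊕ κ) → ℝ := fun p =>
    Sum.elim (fun _ => 0) (fun e => r * b p.1 e) with hb'
  have key := Vale.Agent.P367.GT.free_le a' b'
    (by
      intro s t
      rw [Fintype.sum_sum_type]
      simp [ha', hb'])
    (by
      intro s t
      rw [Fintype.sum_sum_type, Fintype.sum_sum_type]
      simp only [ha', hb', Sum.elim_inl, Sum.elim_inr, sub_self, ne_eq, OfNat.ofNat_ne_zero,
        not_false_eq_true, zero_pow, Finset.sum_const_zero, add_zero, zero_add]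
      have e1 : ∑ e, (r * a s.1 e - r * a t.1 e) ^ 2 = r ^ 2 * ∑ e, (a s.1 e - a t.1 e) ^ 2 := by
        rw [Finset.mul_sum]
        apply Finset.sum_congr rfl
        intro e _; ring
      have e2 : ∑ e, (r * b s.1 e - r * b t.1 e) ^ 2 = r ^ 2 * ∑ e, (b s.1 e - b t.1 e) ^ 2 := by
        rw [Finset.mul_sum]
        apply Finset.sum_congr rfl
        intro e _; ring
      rw [e1, e2]
      exact mul_le_mul_of_nonneg_left (hinc s.1 t.1) (sq_nonneg r))
  have hza : ∀ (g : (ι ⊕ κ) → ℝ) (p : Σ s : S, Fin (mult s)),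
      zf a' g p = r * ∑ e, a p.1 e * g (Sum.inl e) := by
    intro g p
    unfold zf
    rw [Fintype.sum_sum_type, Finset.mul_sum]
    simp only [ha', Sum.elim_inl, Sum.elim_inr, zero_mul, Finset.sum_const_zero, add_zero]
    apply Finset.sum_congr rfl
    intro e _; ring
  have hzb : ∀ (g : (ι ⊕ κ) → ℝ) (p : Σ s : S, Fin (mult s)),
      zf b' g p = r * ∑ e, b p.1 e * g (Sum.inr e) := by
    intro g p
    unfold zf
    rw [Fintype.sum_sum_type, Finset.mul_sum]
    simp only [hb', Sum.elim_inl, Sum.elim_inr, zero_mul, Finset.sum_const_zero, zero_add]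
    apply Finset.sum_congr rfl
    intro e _; ring
  have hpa : ∀ g : (ι ⊕ κ) → ℝ, part a' g
      = ∑ s, (mult s : ℝ) * Real.exp (r * ∑ e, a s e * g (Sum.inl e)) := by
    intro g
    unfold part
    rw [Fintype.sum_sigma]
    simp only [hza]
    apply Finset.sum_congr rfl
    intro s _
    simp
  have hpb : ∀ g : (ι ⊕ κ) → ℝ, part b' g
      = ∑ s, (mult s : ℝ) * Real.exp (r * ∑ e, b s e * g (Sum.inr e)) := by
    intro g
    unfold part
    rw [Fintype.sum_sigma]
    simp only [hzb]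
    apply Finset.sum_congr rfl
    intro s _
    simp
  -- pointwise bounds
  have hlo : ∀ g : (ι ⊕ κ) → ℝ,
      r * (⨆ s, ((∑ e, a s e * g (Sum.inl e)) - Λ s)) + Real.log N ≤ Real.log (part a' g) := by
    intro g
    obtain ⟨s, hs⟩ := exists_eq_ciSup_of_finite
      (f := fun s => (∑ e, a s e * g (Sum.inl e)) - Λ s)
    rw [← hs, hpa g]
    have e1 : (N : ℝ) * Real.exp (r * ((∑ e, a s e * g (Sum.inl e)) - Λ s))
        ≤ ∑ s, (mult s : ℝ) * Real.exp (r * ∑ e, a s e * g (Sum.inl e)) := by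
      refine le_trans ?_ (Finset.single_le_sum
        (f := fun s => (mult s : ℝ) * Real.exp (r * ∑ e, a s e * g (Sum.inl e)))
        (fun s _ => by (clear * - hN0; positivity)) (Finset.mem_univ s))
      have e2 : Real.exp (r * ((∑ e, a s e * g (Sum.inl e)) - Λ s))
          = Real.exp (-(r * Λ s)) * Real.exp (r * ∑ e, a s e * g (Sum.inl e)) := by
        rw [← Real.exp_add]; congr 1; ring
      rw [e2, ← mul_assoc]
      exact mul_le_mul_of_nonneg_right (hm1 s) (Real.exp_pos _).le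
    have e3 := Real.log_le_log (by (clear * - hN0; positivity)) e1
    rw [Real.log_mul hN0.ne' (Real.exp_pos _).ne', Real.log_exp] at e3
    linarith only [e3]
  have hhi : ∀ g : (ι ⊕ κ) → ℝ, Real.log (part b' g)
      ≤ r * (⨆ s, ((∑ e, b s e * g (Sum.inr e)) - Λ s)) + (Real.log N
        + (Real.log (Fintype.card S) + 1)) := by
    intro g
    set M := ⨆ s, ((∑ e, b s e * g (Sum.inr e)) - Λ s) with hM
    have hle : ∀ s, (∑ e, b s e * g (Sum.inr e)) - Λ s ≤ M := fun s =>
      le_ciSup (f := fun s => (∑ e, b s e * g (Sum.inr e)) - Λ s) (pen_bdd _) s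
    have e1 : part b' g ≤ Fintype.card S * (2 * ((N : ℝ) * Real.exp (r * M))) := by
      rw [hpb g]
      have e2 : ∀ s, (mult s : ℝ) * Real.exp (r * ∑ e, b s e * g (Sum.inr e))
          ≤ 2 * ((N : ℝ) * Real.exp (r * M)) := by
        intro s
        calc (mult s : ℝ) * Real.exp (r * ∑ e, b s e * g (Sum.inr e))
            ≤ 2 * ((N : ℝ) * Real.exp (-(r * Λ s)))
              * Real.exp (r * ∑ e, b s e * g (Sum.inr e)) :=
              mul_le_mul_of_nonneg_right (hm2 s) (Real.exp_pos _).le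
          _ = 2 * ((N : ℝ) * Real.exp (r * ((∑ e, b s e * g (Sum.inr e)) - Λ s))) := by
              have : Real.exp (r * ((∑ e, b s e * g (Sum.inr e)) - Λ s))
                  = Real.exp (-(r * Λ s)) * Real.exp (r * ∑ e, b s e * g (Sum.inr e)) := by
                rw [← Real.exp_add]; congr 1; ring
              rw [this]; ring
          _ ≤ 2 * ((N : ℝ) * Real.exp (r * M)) := by
              have := Real.exp_le_exp.mpr (mul_le_mul_of_nonneg_left (hle s) hr0.le)
              have h3 := mul_le_mul_of_nonneg_left this hN0.le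
              linarith only [h3]
      refine (Finset.sum_le_sum fun s _ => e2 s).trans ?_
      simp
    have hpos : 0 < part b' g := Vale.Agent.P367.GT.part_pos _ _
    have e3 := Real.log_le_log hpos e1
    have hc0 : (0 : ℝ) < Fintype.card S := by linarith only [hcard]
    rw [Real.log_mul hc0.ne' (by (clear * - hN0; positivity)), Real.log_mul two_ne_zero (by (clear * - hN0; positivity)),
      Real.log_mul hN0.ne' (Real.exp_pos _).ne', Real.log_exp] at e3
    have h2 : Real.log 2 ≤ 1 := by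
      have := Real.log_two_lt_d9
      linarith only [this]
    linarith only [h2, e3]
  -- change of variables
  have hFa := (integrable_pen a Λ)
  have hFb := (integrable_pen b Λ)
  have hinl : ∫ g : (ι ⊕ κ) → ℝ, (⨆ s, ((∑ e, a s e * g (Sum.inl e)) - Λ s)) ∂(Vale.Agent.P367.GT.gM (ι ⊕ κ)) = A :=
    integral_gaussian_comp_inj (Sum.inl : ι → ι ⊕ κ) Sum.inl_injective
      (fun g => ⨆ s, ((∑ e, a s e * g e) - Λ s)) hFa.aestronglyMeasurable
  have hinr : ∫ g : (ι ⊕ κ) → ℝ, (⨆ s, ((∑ e, b s e * g (Sum.inr e)) - Λ s)) ∂(Vale.Agent.P367.GT.gM (ι ⊕ κ)) = B :=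
    integral_gaussian_comp_inj (Sum.inr : κ → ι ⊕ κ) Sum.inr_injective
      (fun g => ⨆ s, ((∑ e, b s e * g e) - Λ s)) hFb.aestronglyMeasurable
  have hIl : Integrable (fun g : (ι ⊕ κ) → ℝ => ⨆ s, ((∑ e, a s e * g (Sum.inl e)) - Λ s))
      (Vale.Agent.P367.GT.gM (ι ⊕ κ)) := by
    have hm : Measurable (fun J : (ι ⊕ κ) → ℝ => J ∘ (Sum.inl : ι → ι ⊕ κ)) :=
      measurable_pi_iff.mpr fun k => measurable_pi_apply (Sum.inl k)
    have h1 := hFa
    rw [← gaussian_comp_inj (Sum.inl : ι → ι ⊕ κ) Sum.inl_injective] at h1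
    exact (integrable_map_measure h1.aestronglyMeasurable hm.aemeasurable).mp h1
  have hIr : Integrable (fun g : (ι ⊕ κ) → ℝ => ⨆ s, ((∑ e, b s e * g (Sum.inr e)) - Λ s))
      (Vale.Agent.P367.GT.gM (ι ⊕ κ)) := by
    have hm : Measurable (fun J : (ι ⊕ κ) → ℝ => J ∘ (Sum.inr : κ → ι ⊕ κ)) :=
      measurable_pi_iff.mpr fun k => measurable_pi_apply (Sum.inr k)
    have h1 := hFb
    rw [← gaussian_comp_inj (Sum.inr : κ → ι ⊕ κ) Sum.inr_injective] at h1
    exact (integrable_map_measure h1.aestronglyMeasurable hm.aemeasurable).mp h1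
  have h1 : r * A + Real.log N ≤ ∫ g, Real.log (part a' g) ∂(Vale.Agent.P367.GT.gM (ι ⊕ κ)) := by
    have e1 : ∫ g : (ι ⊕ κ) → ℝ, (r * (⨆ s, ((∑ e, a s e * g (Sum.inl e)) - Λ s)) + Real.log N)
        ∂(Vale.Agent.P367.GT.gM (ι ⊕ κ)) = r * A + Real.log N := by
      rw [integral_add (hIl.const_mul r) (integrable_const _), integral_const_mul, hinl]
      simp
    rw [← e1]
    exact integral_mono ((hIl.const_mul r).add (integrable_const _))
      (Vale.Agent.P367.GT.integrable_log_part a') hlo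
  have h2 : ∫ g, Real.log (part b' g) ∂(Vale.Agent.P367.GT.gM (ι ⊕ κ))
      ≤ r * B + Real.log N + (Real.log (Fintype.card S) + 1) := by
    have e1 : ∫ g : (ι ⊕ κ) → ℝ, (r * (⨆ s, ((∑ e, b s e * g (Sum.inr e)) - Λ s)) + (Real.log N
        + (Real.log (Fintype.card S) + 1))) ∂(Vale.Agent.P367.GT.gM (ι ⊕ κ))
        = r * B + (Real.log N + (Real.log (Fintype.card S) + 1)) := by
      rw [integral_add (hIr.const_mul r) (integrable_const _), integral_const_mul, hinr]
      simp
    rw [add_assoc, ← e1]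
    exact integral_mono (Vale.Agent.P367.GT.integrable_log_part b')
      ((hIr.const_mul r).add (integrable_const _)) hhi
  have h3 : r * (A - B) = Real.log (Fintype.card S) + 2 := by
    rw [hr, div_mul_cancel₀ _ hd.ne']
  have h4 : r * A ≤ r * B + (Real.log (Fintype.card S) + 1) := by linarith only [h3, h2, h1, key]
  have h5 : r * (A - B) = r * A - r * B := by ring
  linarith only [h4, h3]

end

end Vale.Agent.P150.F
end

section

/-! Module G6 (uniform bound on the TAP drift error): definitions. -/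

open MeasureTheory ProbabilityTheory Filter Topology
open scoped Matrix

namespace Vale.Agent.P150.F

/-- parameters of the TAP Hessian: magnetization, temperature, steering vectors -/
structure Par (n d : ℕ) where
  m : Vec n
  r : ℝ
  w : Fin d → Vec n

namespace Par

variable {n d : ℕ}

/-- the steering matrix -/
def A (p : Par n d) : Mat n := ∑ a, Matrix.vecMulVec (p.w a) (p.w a)

/-- admissible parameters -/
def Ok (β K : ℝ) (p : Par n d) : Prop :=
  (∀ i, |p.m i| < 1) ∧ (0 ≤ p.r ∧ p.r ≤ β) ∧ ∀ a, sq (p.w a) ≤ K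

/-- closeness of parameters -/
def Near (ε : ℝ) (p p' : Par n d) : Prop :=
  (∀ i, |p.m i - p'.m i| ≤ ε) ∧ |p.r - p'.r| ≤ ε ∧ ∀ a, sq (p.w a - p'.w a) ≤ ε ^ 2

/-- the TAP Hessian at the parameters -/
noncomputable def H (p : Par n d) (J : Mat n) : Mat n := Hess p.r J p.A p.m

/-- its bounded part: `H = diag (1 / (1 - m²)) + B` -/
noncomputable def B (p : Par n d) (J : Mat n) : Mat n :=
  (p.r ^ 2 * (1 - qq p.m)) • (1 : Mat n) - p.r • J + p.A
    - (2 * p.r ^ 2 / n) • Matrix.vecMulVec p.m p.m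

/-- the inverse Hessian -/
noncomputable def G (p : Par n d) (J : Mat n) : Mat n := (p.H J)⁻¹

/-- the region where everything is controlled -/
def Reg (c : ℝ) (p : Par n d) (J : Mat n) : Prop :=
  J.IsSymm ∧ OpLe J 3 ∧ ∀ v, c * sq v ≤ qf (p.H J) v

/-- the drift error without its rank-one term, with the division by `(1 - m²)²` removed -/
noncomputable def U (κ₀ : ℝ) (p : Par n d) (J : Mat n) (j : Fin n) : ℝ :=
  p.m j * (κ₀ + 2 * p.r * (1 - qq p.m)
    - ((1 - p.B J * p.G J) * (J + κ₀ • (1 : Mat n)) * (1 - p.G J * p.B J)) j j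
    + p.r ^ 2 * trN (p.G J * (J + κ₀ • (1 : Mat n)) * p.G J))

end Par

end Vale.Agent.P150.F
end

section

/-! Module G6c: linear algebra (inverses of coercive matrices, leave-one-out identities). -/

open Finset
open scoped Matrix

namespace Vale.Agent.P150.F.G6c

variable {n : ℕ}

/-! ### bilinearity -/

lemma ip_comm (u v : Vec n) : ip u v = ip v u := by
  unfold ip
  exact Finset.sum_congr rfl fun i _ => mul_comm _ _

lemma ip_self (v : Vec n) : ip v v = sq v := by
  unfold ip sq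
  exact Finset.sum_congr rfl fun i _ => (pow_two _).symm

lemma ip_add_r (u v w : Vec n) : ip u (v + w) = ip u v + ip u w := by
  unfold ip
  rw [← Finset.sum_add_distrib]
  exact Finset.sum_congr rfl fun i _ => by rw [Pi.add_apply]; ring

lemma ip_add_l (u v w : Vec n) : ip (u + v) w = ip u w + ip v w := by
  rw [ip_comm, ip_add_r, ip_comm w u, ip_comm w v]

lemma ip_smul_r (c : ℝ) (u v : Vec n) : ip u (c • v) = c * ip u v := by
  unfold ip
  rw [Finset.mul_sum]
  exact Finset.sum_congr rfl fun i _ => by rw [Pi.smul_apply, smul_eq_mul]; ring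

lemma ip_smul_l (c : ℝ) (u v : Vec n) : ip (c • u) v = c * ip u v := by
  rw [ip_comm, ip_smul_r, ip_comm]

/-- the standard basis -/
def eb (j : Fin n) : Vec n := fun i => if i = j then 1 else 0

lemma ip_eb (j : Fin n) (v : Vec n) : ip (eb j) v = v j := by
  unfold ip eb
  simp

lemma ip_eb' (j : Fin n) (v : Vec n) : ip v (eb j) = v j := by rw [ip_comm, ip_eb]

lemma sq_eb (j : Fin n) : sq (eb j : Vec n) = 1 := by
  rw [← ip_self, ip_eb]; simp [eb]

lemma mulVec_eb (A : Mat n) (j : Fin n) : A.mulVec (eb j) = fun i => A i j := by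
  ext i
  simp [Matrix.mulVec, dotProduct, eb]

lemma sq_le_of_entry (v : Vec n) (i : Fin n) : v i ^ 2 ≤ sq v :=
  Finset.single_le_sum (f := fun i => v i ^ 2) (fun _ _ => sq_nonneg _) (Finset.mem_univ i)

lemma entry_le {A : Mat n} {C : ℝ} (hC : 0 ≤ C) (h : OpLe A C) (i j : Fin n) : |A i j| ≤ C := by
  have h1 := h (eb j)
  rw [mulVec_eb, sq_eb, mul_one] at h1
  exact abs_le_of_sq_le_sq ((sq_le_of_entry _ i).trans h1) hC

lemma opLe_of_sqrt {A : Mat n} {C : ℝ} (h : ∀ v, Real.sqrt (sq (A.mulVec v)) ≤ C * Real.sqrt (sq v)) :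
    OpLe A C := by
  intro v
  have h1 := pow_le_pow_left₀ (Real.sqrt_nonneg _) (h v) 2
  rw [Real.sq_sqrt (sq_nn _), mul_pow, Real.sq_sqrt (sq_nn _)] at h1
  exact h1

lemma opLe_sqrt {A : Mat n} {C : ℝ} (hC : 0 ≤ C) (h : OpLe A C) (v : Vec n) :
    Real.sqrt (sq (A.mulVec v)) ≤ C * Real.sqrt (sq v) := by
  rw [← Real.sqrt_sq hC, ← Real.sqrt_mul (sq_nonneg C)]
  exact Real.sqrt_le_sqrt (h v)

lemma sqrt_sq_norm (v : Vec n) : Real.sqrt (sq v) = ‖(WithLp.toLp 2 v : EuclideanSpace ℝ (Fin n))‖ := by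
  rw [EuclideanSpace.norm_eq]
  unfold sq
  congr 1
  simp

lemma sqrt_add_le (u v : Vec n) : Real.sqrt (sq (u + v)) ≤ Real.sqrt (sq u) + Real.sqrt (sq v) := by
  rw [sqrt_sq_norm, sqrt_sq_norm, sqrt_sq_norm]
  refine le_trans (le_of_eq ?_) (norm_add_le _ _)
  congr 1

lemma opLe_add {A B : Mat n} {C C' : ℝ} (hC : 0 ≤ C) (hC' : 0 ≤ C') (h : OpLe A C)
    (h' : OpLe B C') : OpLe (A + B) (C + C') := by
  refine opLe_of_sqrt fun v => ?_
  rw [Matrix.add_mulVec, add_mul]
  exact (sqrt_add_le _ _).trans (add_le_add (opLe_sqrt hC h v) (opLe_sqrt hC' h' v))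

lemma opLe_smul {A : Mat n} {C : ℝ} (h : OpLe A C) (s : ℝ) : OpLe (s • A) (|s| * C) := by
  intro v
  have h1 := h v
  have h2 : sq ((s • A).mulVec v) = s ^ 2 * sq (A.mulVec v) := by
    unfold sq
    rw [Finset.mul_sum]
    refine Finset.sum_congr rfl fun i _ => ?_
    rw [Matrix.smul_mulVec, Pi.smul_apply, smul_eq_mul]; ring
  rw [h2, mul_pow, sq_abs, mul_assoc]
  exact mul_le_mul_of_nonneg_left h1 (sq_nonneg s)

lemma opLe_neg {A : Mat n} {C : ℝ} (h : OpLe A C) : OpLe (-A) C := by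
  have := opLe_smul h (-1)
  simpa using this

lemma opLe_sub {A B : Mat n} {C C' : ℝ} (hC : 0 ≤ C) (hC' : 0 ≤ C') (h : OpLe A C)
    (h' : OpLe B C') : OpLe (A - B) (C + C') := by
  rw [sub_eq_add_neg]
  exact opLe_add hC hC' h (opLe_neg h')

/-! ### inverses of coercive matrices -/

/-- coercivity -/
def Coer (c : ℝ) (H : Mat n) : Prop := ∀ v, c * sq v ≤ qf H v

lemma Coer.det_ne {c : ℝ} {H : Mat n} (hc : 0 < c) (h : Coer c H) : H.det ≠ 0 := by
  intro h0
  obtain ⟨v, hv, h1⟩ := Matrix.exists_mulVec_eq_zero_iff.2 h0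
  have h2 := h v
  have h3 : qf H v = 0 := by
    unfold qf
    rw [h1]
    unfold ip; simp
  rw [h3] at h2
  have h4 : sq v = 0 := le_antisymm (by (by_contra nlg; linarith only [nlg, mul_pos (sub_pos.2 (not_le.1 nlg)) (sub_pos.2 hc), h2])) (sq_nn v)
  exact hv ((sq_eq_zero_iff v).1 h4)

lemma Coer.mul_inv {c : ℝ} {H : Mat n} (hc : 0 < c) (h : Coer c H) : H * H⁻¹ = 1 :=
  Matrix.mul_nonsing_inv _ (isUnit_iff_ne_zero.2 (h.det_ne hc))

lemma Coer.inv_mul {c : ℝ} {H : Mat n} (hc : 0 < c) (h : Coer c H) : H⁻¹ * H = 1 :=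
  Matrix.nonsing_inv_mul _ (isUnit_iff_ne_zero.2 (h.det_ne hc))

lemma Coer.opLe_inv {c : ℝ} {H : Mat n} (hc : 0 < c) (h : Coer c H) : OpLe H⁻¹ (1 / c) := by
  intro v
  have h1 := h (H⁻¹.mulVec v)
  have h2 : qf H (H⁻¹.mulVec v) = ip (H⁻¹.mulVec v) v := by
    unfold qf
    rw [Matrix.mulVec_mulVec, h.mul_inv hc, Matrix.one_mulVec]
  rw [h2] at h1
  have h3 := ip_sq_le (H⁻¹.mulVec v) v
  have h4 := sq_nn (H⁻¹.mulVec v)
  have h5 := sq_nn v
  have h6 : (c * sq (H⁻¹.mulVec v)) ^ 2 ≤ sq (H⁻¹.mulVec v) * sq v :=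
    (pow_le_pow_left₀ (by (clear * - hc h4; positivity)) h1 2).trans h3
  rcases eq_or_lt_of_le h4 with h7 | h7
  · rw [← h7]; (clear * - hc h5; positivity)
  · rw [div_pow, one_pow, div_mul_eq_mul_div, one_mul, le_div_iff₀ (by positivity)]
    have h8 : sq (H⁻¹.mulVec v) * (sq (H⁻¹.mulVec v) * c ^ 2) ≤ sq (H⁻¹.mulVec v) * sq v := by
      linarith only [h6]
    exact le_of_mul_le_mul_left h8 h7

lemma inv_symm {H : Mat n} (h : Hᵀ = H) : (H⁻¹)ᵀ = H⁻¹ := by
  rw [Matrix.transpose_nonsing_inv, h]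

lemma quad_entry {G : Mat n} (hG : Gᵀ = G) (M : Mat n) (j : Fin n) :
    (G * M * G) j j = ip (G.mulVec (eb j)) (M.mulVec (G.mulVec (eb j))) := by
  have h1 : (G * M * G) j j = ip (eb j) ((G * M * G).mulVec (eb j)) := by
    rw [ip_eb, mulVec_eb]
  rw [h1, ← Matrix.mulVec_mulVec, ← Matrix.mulVec_mulVec, ip_mulVec, hG]

lemma Coer.diag_nonneg {c : ℝ} {H : Mat n} (hc : 0 < c) (h : Coer c H) (hs : Hᵀ = H)
    (j : Fin n) : 0 ≤ H⁻¹ j j := by
  have h1 : H⁻¹ j j = (H⁻¹ * H * H⁻¹) j j := by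
    rw [h.inv_mul hc, Matrix.one_mul]
  rw [h1, quad_entry (inv_symm hs)]
  exact (mul_nonneg hc.le (sq_nn _)).trans (h _)

/-! ### minors -/

/-- the matrix with row and column `j` removed (replaced by zero) -/
def mn (j : Fin n) (J : Mat n) : Mat n := fun i k => if i = j ∨ k = j then 0 else J i k

/-- a column -/
def col (J : Mat n) (j : Fin n) : Vec n := fun i => J i j

/-- the vector with coordinate `j` replaced by zero -/
def zj (j : Fin n) (v : Vec n) : Vec n := fun i => if i = j then 0 else v i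

lemma sq_zj (j : Fin n) (v : Vec n) : sq v = sq (zj j v) + v j ^ 2 := by
  unfold sq zj
  have : ∀ i, v i ^ 2 = (if i = j then 0 else v i) ^ 2 + if i = j then v j ^ 2 else 0 := by
    intro i
    by_cases h : i = j
    · subst h; simp
    · simp [h]
  rw [Finset.sum_congr rfl fun i _ => this i, Finset.sum_add_distrib]
  simp

lemma mn_symm {J : Mat n} (h : Jᵀ = J) (j : Fin n) : (mn j J)ᵀ = mn j J := by
  ext i k
  have h1 : J k i = J i k := congrFun (congrFun h i) k
  simp only [Matrix.transpose_apply, mn, h1, or_comm]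

lemma mn_mulVec (J : Mat n) (j : Fin n) (v : Vec n) :
    (mn j J).mulVec v = zj j (J.mulVec (zj j v)) := by
  ext i
  simp only [Matrix.mulVec, dotProduct, mn, zj]
  by_cases h : i = j
  · simp [h]
  · simp only [h, false_or, if_false]
    refine Finset.sum_congr rfl fun k _ => ?_
    split_ifs <;> simp

lemma opLe_mn {J : Mat n} {C : ℝ} (h : OpLe J C) (j : Fin n) : OpLe (mn j J) C := by
  intro v
  rw [mn_mulVec]
  have h1 : sq (zj j (J.mulVec (zj j v))) ≤ sq (J.mulVec (zj j v)) := by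
    rw [sq_zj j (J.mulVec (zj j v))]
    linarith only [sq_nonneg (J.mulVec (zj j v) j)]
  have h2 : sq (zj j v) ≤ sq v := by
    rw [sq_zj j v]
    linarith only [sq_nonneg (v j)]
  exact (h1.trans (h _)).trans (mul_le_mul_of_nonneg_left h2 (sq_nonneg C))

lemma ip_zj (j : Fin n) (u v : Vec n) : ip u (zj j v) = ip (zj j u) v := by
  unfold ip zj
  refine Finset.sum_congr rfl fun i _ => ?_
  split_ifs <;> simp

lemma qf_mn (J : Mat n) (j : Fin n) (v : Vec n) : qf (mn j J) v = qf J (zj j v) := by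
  unfold qf
  rw [mn_mulVec, ip_zj]

lemma qf_dg (a v : Vec n) : qf (dg a) v = ∑ i, a i * v i ^ 2 := by
  unfold qf ip dg
  refine Finset.sum_congr rfl fun i _ => ?_
  rw [Matrix.mulVec_diagonal]; ring

lemma qf_sub_smul (A B : Mat n) (r : ℝ) (v : Vec n) : qf (A - r • B) v = qf A v - r * qf B v := by
  unfold qf
  rw [sub_eq_add_neg, Matrix.add_mulVec, ip_add_r, Matrix.neg_mulVec, Matrix.smul_mulVec]
  have : -(r • B.mulVec v) = (-r) • B.mulVec v := by rw [neg_smul]
  rw [this, ip_smul_r]; ring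

lemma qf_mn_full (a : Vec n) (r : ℝ) (J : Mat n) (j : Fin n) (v : Vec n) :
    qf (dg a - r • mn j J) v = qf (dg a - r • J) (zj j v) + a j * v j ^ 2 := by
  rw [qf_sub_smul, qf_sub_smul, qf_mn, qf_dg, qf_dg]
  have : ∑ i, a i * v i ^ 2 = ∑ i, a i * zj j v i ^ 2 + a j * v j ^ 2 := by
    have h1 : ∀ i, a i * v i ^ 2 = a i * zj j v i ^ 2 + if i = j then a j * v j ^ 2 else 0 := by
      intro i
      unfold zj
      by_cases h : i = j
      · subst h; simp
      · simp [h]
    rw [Finset.sum_congr rfl fun i _ => h1 i, Finset.sum_add_distrib]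
    simp
  rw [this]; ring

lemma Coer.le_diag {c : ℝ} {a : Vec n} {r : ℝ} {J : Mat n} (h0 : ∀ i, J i i = 0)
    (h : Coer c (dg a - r • J)) (j : Fin n) : c ≤ a j := by
  have h1 := h (eb j)
  rw [sq_eb, mul_one, qf_sub_smul, qf_dg] at h1
  have h2 : qf J (eb j) = 0 := by
    unfold qf
    rw [mulVec_eb, ip_eb, h0]
  have h3 : ∑ i, a i * (eb j : Vec n) i ^ 2 = a j := by
    unfold eb
    rw [Finset.sum_eq_single j]
    · simp
    · intro b _ hb; simp [hb]
    · simp
  rw [h2, h3] at h1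
  linarith

lemma Coer.mn {c : ℝ} {a : Vec n} {r : ℝ} {J : Mat n} (h0 : ∀ i, J i i = 0)
    (h : Coer c (dg a - r • J)) (j : Fin n) : Coer c (dg a - r • mn j J) := by
  intro v
  rw [qf_mn_full, sq_zj j v, mul_add]
  exact add_le_add (h _) (mul_le_mul_of_nonneg_right (h.le_diag h0 j) (sq_nonneg _))

lemma mulVec_split {J : Mat n} (hs : Jᵀ = J) (h0 : ∀ i, J i i = 0) (j : Fin n) (v : Vec n) :
    J.mulVec v = (G6c.mn j J).mulVec v + v j • col J j + (ip (col J j) v) • eb j := by
  ext i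
  rw [mn_mulVec]
  simp only [Pi.add_apply, Pi.smul_apply, smul_eq_mul, col, eb, zj, ip, Matrix.mulVec, dotProduct]
  by_cases h : i = j
  · subst h
    simp only [if_true, h0, mul_zero, zero_add, add_zero, mul_one]
    refine Finset.sum_congr rfl fun k _ => ?_
    rw [show J i k = J k i from congrFun (congrFun hs k) i]
  · simp only [h, if_false, mul_zero, add_zero]
    have : ∀ k, J i k * v k = J i k * (if k = j then 0 else v k) + if k = j then v j * J i j else 0 := by
      intro k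
      by_cases hk : k = j
      · subst hk; simp; ring
      · simp [hk]
    rw [Finset.sum_congr rfl fun k _ => this k, Finset.sum_add_distrib]
    simp

lemma sub_mul_vec (a : Vec n) (r : ℝ) (J : Mat n) (v : Vec n) :
    (dg a - r • J).mulVec v = (dg a).mulVec v - r • J.mulVec v := by
  rw [Matrix.sub_mulVec, Matrix.smul_mulVec]

lemma dg_symm (a : Vec n) : (dg a)ᵀ = dg a := Matrix.diagonal_transpose a

lemma ham_symm {J : Mat n} (hs : Jᵀ = J) (a : Vec n) (r : ℝ) :
    (dg a - r • J)ᵀ = dg a - r • J := by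
  rw [Matrix.transpose_sub, Matrix.transpose_smul, dg_symm, hs]

/-- the leave-one-out identities -/
theorem loo {J : Mat n} (hs : Jᵀ = J) (h0 : ∀ i, J i i = 0) {a : Vec n} {r c : ℝ} (hc : 0 < c)
    (h : Coer c (dg a - r • J)) (j : Fin n) {Gm : Mat n} (hGm : Gm = (dg a - r • mn j J)⁻¹)
    {z : Vec n} (hz : z = Gm.mulVec (col J j)) :
    z j = 0 ∧ (a j - r ^ 2 * ip (col J j) z) * (dg a - r • J)⁻¹ j j = 1 ∧
      (dg a - r • J)⁻¹.mulVec (eb j) = (dg a - r • J)⁻¹ j j • (eb j + r • z) := by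
  have hm := h.mn h0 j
  have haj : 0 < a j := hc.trans_le (h.le_diag h0 j)
  have e1 : (dg a - r • mn j J).mulVec z = col J j := by
    rw [hz, hGm, Matrix.mulVec_mulVec, hm.mul_inv hc, Matrix.one_mulVec]
  have hcj : col J j j = 0 := h0 j
  have hzj : z j = 0 := by
    have h1 := congrFun e1 j
    rw [hcj, sub_mul_vec, mn_mulVec] at h1
    simp only [Pi.sub_apply, Pi.smul_apply, zj, if_true, smul_zero, sub_zero, dg,
      Matrix.mulVec_diagonal] at h1
    rcases mul_eq_zero.1 h1 with h2 | h2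
    · exact absurd h2 haj.ne'
    · exact h2
  have e2 : (mn j J).mulVec (eb j) = 0 := by
    rw [mn_mulVec]
    have : zj j (eb j : Vec n) = 0 := by
      ext i; simp only [zj, eb, Pi.zero_apply]; split_ifs <;> rfl
    rw [this, Matrix.mulVec_zero]
    ext i; simp [zj]
  have e3 : (dg a - r • mn j J).mulVec (eb j) = a j • eb j := by
    rw [sub_mul_vec, e2, smul_zero, sub_zero]
    ext i
    simp only [dg, Matrix.mulVec_diagonal, Pi.smul_apply, smul_eq_mul, eb]
    split_ifs with hi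
    · rw [hi]
    · simp
  have e4 : (dg a - r • J).mulVec (eb j + r • z) = (a j - r ^ 2 * ip (col J j) z) • eb j := by
    have h1 : (dg a - r • J).mulVec (eb j + r • z)
        = (dg a - r • mn j J).mulVec (eb j + r • z)
          - r • ((eb j + r • z) j • col J j + (ip (col J j) (eb j + r • z)) • eb j) := by
      rw [sub_mul_vec, sub_mul_vec, mulVec_split hs h0 j (eb j + r • z)]
      rw [add_assoc, smul_add r ((mn j J).mulVec _)]
      abel
    have h2 : (eb j + r • z) j = 1 := by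
      simp [eb, hzj]
    have h3 : ip (col J j) (eb j + r • z) = r * ip (col J j) z := by
      rw [ip_add_r, ip_smul_r, ip_eb', hcj, zero_add]
    rw [h1, h2, h3, Matrix.mulVec_add, Matrix.mulVec_smul, e1, e3]
    ext i
    simp only [Pi.sub_apply, Pi.add_apply, Pi.smul_apply, smul_eq_mul]
    ring
  have e5 : eb j + r • z = (a j - r ^ 2 * ip (col J j) z) • (dg a - r • J)⁻¹.mulVec (eb j) := by
    rw [← Matrix.mulVec_smul, ← e4, Matrix.mulVec_mulVec, h.inv_mul hc, Matrix.one_mulVec]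
  have e6 : (a j - r ^ 2 * ip (col J j) z) * (dg a - r • J)⁻¹ j j = 1 := by
    have h1 := congrFun e5 j
    rw [mulVec_eb] at h1
    simp only [Pi.add_apply, Pi.smul_apply, smul_eq_mul, hzj, mul_zero, add_zero, eb,
      if_true] at h1
    exact h1.symm
  refine ⟨hzj, e6, ?_⟩
  rw [e5, smul_smul, mul_comm, e6, one_smul]

/-- quadratic quantities of the full inverse in terms of the minor -/
theorem loo_quad {J : Mat n} (hs : Jᵀ = J) (h0 : ∀ i, J i i = 0) {a : Vec n} {r c : ℝ}
    (hc : 0 < c) (h : Coer c (dg a - r • J)) (j : Fin n) {Gm G : Mat n}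
    (hGm : Gm = (dg a - r • mn j J)⁻¹) (hG : G = (dg a - r • J)⁻¹) :
    (a j - r ^ 2 * ip (col J j) (Gm.mulVec (col J j))) * G j j = 1 ∧
    (G * G) j j = G j j ^ 2 * (1 + r ^ 2 * ip (col J j) ((Gm * Gm).mulVec (col J j))) ∧
    (G * J * G) j j = G j j ^ 2 * (2 * r * ip (col J j) (Gm.mulVec (col J j))
      + r ^ 2 * ip (col J j) ((Gm * mn j J * Gm).mulVec (col J j))) := by
  obtain ⟨h1, h2, h3⟩ := loo hs h0 hc h j hGm rfl
  have hGs : Gᵀ = G := by rw [hG]; exact inv_symm (ham_symm hs a r)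
  have hGms : Gmᵀ = Gm := by rw [hGm]; exact inv_symm (ham_symm (mn_symm hs j) a r)
  rw [← hG] at h2 h3
  set z := Gm.mulVec (col J j) with hz
  have hcj : col J j j = 0 := h0 j
  refine ⟨h2, ?_, ?_⟩
  · have e1 : (G * G) j j = (G * 1 * G) j j := by rw [Matrix.mul_one]
    rw [e1, quad_entry hGs, Matrix.one_mulVec, h3]
    have e2 : ip (col J j) ((Gm * Gm).mulVec (col J j)) = ip z z := by
      rw [← Matrix.mulVec_mulVec, ip_mulVec, hGms]
    rw [e2, ip_smul_l, ip_smul_r, ip_add_l, ip_add_r, ip_add_r, ip_smul_l, ip_smul_l, ip_smul_r,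
      ip_smul_r, ip_eb, ip_eb, ip_eb', h1]
    have e3 : (eb j : Vec n) j = 1 := by simp [eb]
    rw [e3]; ring
  · rw [quad_entry hGs, h3]
    have e2 : ip (col J j) ((Gm * mn j J * Gm).mulVec (col J j)) = ip z ((mn j J).mulVec z) := by
      rw [← Matrix.mulVec_mulVec, ← Matrix.mulVec_mulVec, ip_mulVec, hGms]
    rw [Matrix.mulVec_smul, ip_smul_l, ip_smul_r, mulVec_split hs h0 j (eb j + r • z), e2]
    have e4 : (mn j J).mulVec (eb j + r • z) = r • (mn j J).mulVec z := by
      rw [Matrix.mulVec_add, Matrix.mulVec_smul]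
      have : (mn j J).mulVec (eb j) = 0 := by
        rw [mn_mulVec]
        have : zj j (eb j : Vec n) = 0 := by
          ext i; simp only [zj, eb, Pi.zero_apply]; split_ifs <;> rfl
        rw [this, Matrix.mulVec_zero]
        ext i; simp [zj]
      rw [this, zero_add]
    have e5 : (eb j + r • z) j = 1 := by simp [eb, h1]
    have e6 : ip (col J j) (eb j + r • z) = r * ip (col J j) z := by
      rw [ip_add_r, ip_smul_r, ip_eb', hcj, zero_add]
    have e7 : (mn j J).mulVec z j = 0 := by rw [mn_mulVec]; simp [zj]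
    rw [e4, e5, e6, one_smul]
    simp only [ip_add_l, ip_add_r, ip_smul_l, ip_smul_r, ip_eb, ip_eb', e5, e7, hcj]
    rw [ip_comm z (col J j)]
    ring

/-! ### Hilbert-Schmidt comparison -/

lemma sq_col_le {J : Mat n} {C : ℝ} (h : OpLe J C) (j : Fin n) : sq (col J j) ≤ C ^ 2 := by
  have h1 := h (eb j)
  rw [mulVec_eb, sq_eb, mul_one] at h1
  exact h1

lemma hsq_sub_mn {J : Mat n} (hs : Jᵀ = J) (j : Fin n) :
    hsq (J - mn j J) ≤ 2 * sq (col J j) := by
  have h1 : ∀ i k, (J - mn j J) i k ^ 2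
      ≤ (if i = j then J k j ^ 2 else 0) + (if k = j then J i j ^ 2 else 0) := by
    intro i k
    rw [Matrix.sub_apply]
    unfold mn
    have hik : J i k = J k i := congrFun (congrFun hs k) i
    by_cases hi : i = j
    · subst hi
      simp only [true_or, if_true, sub_zero]
      rw [hik]
      have : 0 ≤ (if k = i then J i i ^ 2 else 0) := by split_ifs <;> positivity
      linarith
    · by_cases hk : k = j
      · subst hk; simp [hi]
      · simp [hi, hk]
  unfold hsq
  refine (Finset.sum_le_sum fun i _ => Finset.sum_le_sum fun k _ => h1 i k).trans (le_of_eq ?_)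
  simp only [Finset.sum_add_distrib]
  have e1 : ∑ i : Fin n, ∑ k : Fin n, (if i = j then J k j ^ 2 else 0) = sq (col J j) := by
    rw [Finset.sum_eq_single j]
    · simp [sq, col]
    · intro b _ hb; simp [hb]
    · simp
  have e2 : ∑ i : Fin n, ∑ k : Fin n, (if k = j then J i j ^ 2 else 0) = sq (col J j) := by
    simp [sq, col]
  rw [e1, e2]; ring

lemma hs_sub_mn {J : Mat n} (hs' : Jᵀ = J) (h3 : OpLe J 3) (j : Fin n) :
    hs (J - mn j J) ≤ 5 := by
  unfold hs
  rw [show (5 : ℝ) = Real.sqrt 25 by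
    rw [show (25 : ℝ) = 5 ^ 2 by norm_num, Real.sqrt_sq (by norm_num)]]
  refine Real.sqrt_le_sqrt ((hsq_sub_mn hs' j).trans ?_)
  have := sq_col_le h3 j
  norm_num at this ⊢
  linarith

/-- comparison of the inverses of two coercive matrices -/
lemma hs_inv_sub {c : ℝ} {H H' : Mat n} (hc : 0 < c) (h : Coer c H) (h' : Coer c H') :
    hs (H⁻¹ - H'⁻¹) ≤ (1 / c) ^ 2 * hs (H - H') := by
  have e1 : H⁻¹ - H'⁻¹ = H⁻¹ * ((H' - H) * H'⁻¹) := by
    rw [Matrix.sub_mul, Matrix.mul_sub, h'.mul_inv hc, Matrix.mul_one, ← Matrix.mul_assoc,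
      h.inv_mul hc, Matrix.one_mul]
  rw [e1]
  have hc' : 0 ≤ 1 / c := by positivity
  refine (hs_mul_le hc' (h.opLe_inv hc) _).trans ?_
  rw [pow_two, mul_assoc, hs_sub_comm H H']
  exact mul_le_mul_of_nonneg_left (hs_mul_le' hc' (h'.opLe_inv hc) _) hc'

/-- product rule for three factors -/
lemma hs_triple {A A' M M' : Mat n} {g b δ e : ℝ} (hg : 0 ≤ g) (hb : 0 ≤ b) (hA : OpLe A g)
    (hA' : OpLe A' g) (hM : OpLe M b) (hM' : OpLe M' b) (hδ : hs (A - A') ≤ δ)
    (he : hs (M - M') ≤ e) :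
    hs (A * M * A - A' * M' * A') ≤ 2 * (b * g * δ) + g * g * e := by
  have e1 : A * M * A - A' * M' * A'
      = (A - A') * (M * A) + (A' * (M - M') * A + A' * M' * (A - A')) := by
    noncomm_ring
  rw [e1]
  have h1 : hs ((A - A') * (M * A)) ≤ (b * g) * δ :=
    (hs_mul_le' (mul_nonneg hb hg) (hM.mul hA) _).trans
      (mul_le_mul_of_nonneg_left hδ (mul_nonneg hb hg))
  have h2 : hs (A' * (M - M') * A) ≤ g * (g * e) :=
    (hs_mul_le' hg hA _).trans (mul_le_mul_of_nonneg_left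
      ((hs_mul_le hg hA' _).trans (mul_le_mul_of_nonneg_left he hg)) hg)
  have h3 : hs (A' * M' * (A - A')) ≤ (g * b) * δ :=
    (hs_mul_le (mul_nonneg hg hb) (hA'.mul hM') _).trans
      (mul_le_mul_of_nonneg_left hδ (mul_nonneg hg hb))
  have h4 := hs_add_le ((A - A') * (M * A)) (A' * (M - M') * A + A' * M' * (A - A'))
  have h5 := hs_add_le (A' * (M - M') * A) (A' * M' * (A - A'))
  linarith only [h1, h2, h3, h4, h5]

lemma trN_sub_sq {A B : Mat n} {δ : ℝ} (h : hs (A - B) ≤ δ) :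
    (trN A - trN B) ^ 2 ≤ δ ^ 2 / n := by
  rw [← trN_sub]
  refine (trN_sq_le _).trans ?_
  rw [← hs_sq]
  exact div_le_div_of_nonneg_right (pow_le_pow_left₀ (hs_nn _) h 2) (Nat.cast_nonneg n)

end Vale.Agent.P150.F.G6c
end

section

/-! Module G6c: definitions of the reduced problem (no steering, no rank-one term). -/

open MeasureTheory ProbabilityTheory Filter Topology
open scoped Matrix

namespace Vale.Agent.P150.F.G6c

variable {n : ℕ}

/-- diagonal of the Hessian without steering and rank-one term -/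
noncomputable def aa (r : ℝ) (m : Vec n) : Vec n :=
  fun i => 1 / (1 - m i ^ 2) + r ^ 2 * (1 - qq m)

/-- inverse of the reduced Hessian -/
noncomputable def G0 (r : ℝ) (m : Vec n) (J : Mat n) : Mat n := (dg (aa r m) - r • J)⁻¹

/-- the reduced drift error -/
noncomputable def u0 (κ r : ℝ) (m : Vec n) (J : Mat n) (j : Fin n) : ℝ :=
  κ + 2 * r * (1 - qq m)
    - (G0 r m J * (J + κ • (1 : Mat n)) * G0 r m J) j j / (1 - m j ^ 2) ^ 2
    + r ^ 2 * trN (G0 r m J * (J + κ • (1 : Mat n)) * G0 r m J)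

/-- inverse of the reduced Hessian with row and column `j` of the couplings removed -/
noncomputable def Gm (r : ℝ) (m : Vec n) (J : Mat n) (j : Fin n) : Mat n :=
  (dg (aa r m) - r • mn j J)⁻¹

/-- the three matrices of the minor -/
noncomputable def MM (r : ℝ) (m : Vec n) (J : Mat n) (j : Fin n) (k : Fin 3) : Mat n :=
  if k = 0 then Gm r m J j else if k = 1 then Gm r m J j * Gm r m J j
    else Gm r m J j * mn j J * Gm r m J j

/-- fluctuations of the quadratic forms in the column `j` -/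
noncomputable def xi (r : ℝ) (m : Vec n) (J : Mat n) (j : Fin n) (k : Fin 3) : ℝ :=
  ip (col J j) ((MM r m J j k).mulVec (col J j)) - trN (MM r m J j k)

/-- the good event of the minor -/
def SJ (c r : ℝ) (m : Vec n) (j : Fin n) : Set (Pairs n → ℝ) :=
  {g | OpLe (mn j (skM g)) 3 ∧ Coer c (dg (aa r m) - r • mn j (skM g))}

/-- the good event of the full reduced matrix -/
def S0 (c r : ℝ) (m : Vec n) : Set (Pairs n → ℝ) :=
  {g | OpLe (skM g) 3 ∧ Coer c (dg (aa r m) - r • skM g)}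

/-- deterministic estimate of the reduced drift error (proved in `G6cD`) -/
def DetStatement : Prop :=
  ∀ β κ c : ℝ, β < 1 → 0 < c → ∃ C : ℝ, 0 ≤ C ∧ ∀ n : ℕ, 1 ≤ n → ∀ r : ℝ, 0 ≤ r → r ≤ β →
    ∀ m : Vec n, (∀ i, |m i| < 1) → ∀ J : Mat n, Jᵀ = J → (∀ i, J i i = 0) → OpLe J 3 →
      Coer c (dg (aa r m) - r • J) →
        ∑ j, u0 κ r m J j ^ 2 ≤ C * (1 + ∑ j, ∑ k, xi r m J j k ^ 2)

/-- second moments of the fluctuations (proved in `G6cP`) -/
def ProbStatement : Prop :=
  ∀ c : ℝ, 0 < c → ∃ C : ℝ, 0 ≤ C ∧ ∀ n : ℕ, 1 ≤ n → ∀ r : ℝ, 0 ≤ r → r ≤ 1 →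
    ∀ m : Vec n, (∀ i, |m i| < 1) → ∀ (j : Fin n) (k : Fin 3),
      MeasurableSet (SJ c r m j) ∧
      IntegrableOn (fun g => xi r m (skM g) j k ^ 2) (SJ c r m j) (disorder n) ∧
      ∫ g in SJ c r m j, xi r m (skM g) j k ^ 2 ∂(disorder n) ≤ C / n

/-- finite rank reduction (proved in `G6cF`) -/
def FinStatement : Prop :=
  ∀ (β κ₀ c K : ℝ) (d : ℕ), β ≤ 1 → 0 < c → ∃ C : ℝ, 0 ≤ C ∧ ∀ n : ℕ, 1 ≤ n →
    ∀ (p : Par n d) (J : Mat n), p.Ok β K → p.Reg c J → (∀ i, J i i = 0) →
      Coer c (dg (aa p.r p.m) - p.r • J) →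
        sq (fun j => p.U κ₀ J j) ≤ 3 * ∑ j, u0 κ₀ p.r p.m J j ^ 2 + C

end Vale.Agent.P150.F.G6c
end

section

/-! Module G6c: finite rank reduction (`FinStatement`). -/

open MeasureTheory ProbabilityTheory Filter Topology
open scoped Matrix

namespace Vale.Agent.P150.F.G6c

variable {n : ℕ}

lemma hs_vecMulVec (w : Vec n) : hs (Matrix.vecMulVec w w) = sq w := by
  unfold hs
  have : hsq (Matrix.vecMulVec w w) = sq w ^ 2 := by
    unfold hsq sq
    rw [pow_two, Finset.sum_mul_sum]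
    refine Finset.sum_congr rfl fun i _ => Finset.sum_congr rfl fun j _ => ?_
    rw [Matrix.vecMulVec_apply]; ring
  rw [this, Real.sqrt_sq (sq_nn w)]

lemma hs_smul (s : ℝ) (A : Mat n) : hs (s • A) = |s| * hs A := by
  unfold hs
  have : hsq (s • A) = s ^ 2 * hsq A := by
    unfold hsq
    rw [Finset.mul_sum]
    refine Finset.sum_congr rfl fun i _ => ?_
    rw [Finset.mul_sum]
    refine Finset.sum_congr rfl fun j _ => ?_
    rw [Matrix.smul_apply, smul_eq_mul]; ring
  rw [this, Real.sqrt_mul (sq_nonneg s), Real.sqrt_sq_eq_abs]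

lemma hs_zero : hs (0 : Mat n) = 0 := by simp [hs, hsq]

lemma hs_neg' (A : Mat n) : hs (-A) = hs A := by
  have := hs_smul (-1) A
  simpa using this

lemma hs_transpose' (A : Mat n) : hs Aᵀ = hs A := by
  unfold hs; rw [hsq_transpose]

lemma hs_steer {d : ℕ} (w : Fin d → Vec n) {K : ℝ} (hw : ∀ a, sq (w a) ≤ K) :
    hs (∑ a, Matrix.vecMulVec (w a) (w a)) ≤ d * |K| := by
  have h : ∀ S : Finset (Fin d), hs (∑ a ∈ S, Matrix.vecMulVec (w a) (w a)) ≤ S.card * |K| := by
    intro S
    induction S using Finset.induction_on with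
    | empty => simp [hs_zero]
    | insert a S ha ih =>
      rw [Finset.sum_insert ha, Finset.card_insert_of_notMem ha]
      refine (hs_add_le _ _).trans ?_
      rw [hs_vecMulVec]
      have := (hw a).trans (le_abs_self K)
      push_cast
      linarith only [this, ih]
  have := h Finset.univ
  simpa using this

lemma qq_mem {m : Vec n} (hn : 1 ≤ n) (hm : ∀ i, |m i| < 1) : 0 ≤ qq m ∧ qq m ≤ 1 ∧ sq m ≤ n := by
  have hn' : (0 : ℝ) < n := by exact_mod_cast hn
  have h1 : sq m ≤ n := by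
    unfold sq
    have : ∀ i ∈ Finset.univ, m i ^ 2 ≤ (1 : ℝ) := fun i _ => by
      rw [← sq_abs]
      have := abs_nonneg (m i)
      have := hm i
      nlinarith
    have := Finset.sum_le_sum this
    simpa using this
  refine ⟨div_nonneg (sq_nn m) hn'.le, ?_, h1⟩
  unfold qq
  rw [div_le_one hn']
  exact h1

lemma tri_diff (E E0 Q : Mat n) :
    E * Q * Eᵀ - E0 * Q * E0ᵀ = (E - E0) * (Q * Eᵀ) + E0 * Q * (E - E0)ᵀ := by
  rw [Matrix.transpose_sub]
  noncomm_ring

/-- perturbation of the two products (abstract form) -/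
lemma core_pert {b ρ c : ℝ} (hb0 : 0 ≤ b) (hρ0 : 0 ≤ ρ) (hc0 : 0 ≤ 1 / c)
    {Di B0 R G g0 Q : Mat n} (h1 : (Di + (B0 + R)) * G = 1) (h2 : G * (Di + (B0 + R)) = 1)
    (h3 : (Di + B0) * g0 = 1) (hsR : hs R ≤ ρ) (hOB0 : OpLe B0 4) (hOG : OpLe G (1 / c))
    (hOg0 : OpLe g0 (1 / c)) (hOQ : OpLe Q b) :
    1 - (B0 + R) * G = Di * G ∧ 1 - B0 * g0 = Di * g0 ∧
      hs ((1 - (B0 + R) * G) * Q * (1 - (B0 + R) * G)ᵀ - (1 - B0 * g0) * Q * (1 - B0 * g0)ᵀ)
        ≤ 2 * (b * (1 + (4 + ρ) * (1 / c)) * ((1 + (4 + ρ) * (1 / c)) * (1 / c) * ρ)) ∧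
      hs (G * Q * G - g0 * Q * g0) ≤ 2 * (b * (1 / c) * ((1 / c) ^ 2 * ρ)) := by
  set e : ℝ := 1 + (4 + ρ) * (1 / c) with he
  have he0 : 0 ≤ e := by (clear * - hρ0 hc0; positivity)
  set E : Mat n := 1 - (B0 + R) * G with hE
  set E0 : Mat n := 1 - B0 * g0 with hE0
  have hEG : E = Di * G := by
    have h : Di * G + (B0 + R) * G = 1 := by rw [← Matrix.add_mul]; exact h1
    rw [hE, ← h, add_sub_cancel_right]
  have hE0G : E0 = Di * g0 := by
    have h : Di * g0 + B0 * g0 = 1 := by rw [← Matrix.add_mul]; exact h3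
    rw [hE0, ← h, add_sub_cancel_right]
  have hGG0 : G - g0 = -(G * R * g0) := by
    have e1 : G * (Di + (B0 + R)) * g0 = g0 := by rw [h2, Matrix.one_mul]
    have e2 : G * (Di + (B0 + R)) * g0 = G + G * R * g0 := by
      rw [← add_assoc, Matrix.mul_add, Matrix.add_mul, Matrix.mul_assoc G _ g0, h3, Matrix.mul_one]
    have e3 : G + G * R * g0 = g0 := e2.symm.trans e1
    calc G - g0 = G - (G + G * R * g0) := by rw [e3]
      _ = -(G * R * g0) := by rw [sub_add_cancel_left]
  have hEE0 : E - E0 = -(E * R * g0) := by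
    rw [hEG, hE0G, ← Matrix.mul_sub, hGG0, Matrix.mul_neg]
    simp only [Matrix.mul_assoc]
  have hOR : OpLe R ρ := (opLe_hs R).mono (hs_nn R) hsR
  have hOB : OpLe (B0 + R) (4 + ρ) := opLe_add (by norm_num) hρ0 hOB0 hOR
  have hOE : OpLe E e := opLe_sub zero_le_one (by (clear * - hρ0 hc0; positivity)) OpLe.one (hOB.mul hOG)
  have hOE0 : OpLe E0 e := by
    have h1 : OpLe E0 (1 + 4 * (1 / c)) :=
      opLe_sub zero_le_one (by (clear * - hc0; positivity)) OpLe.one (hOB0.mul hOg0)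
    refine h1.mono (by (clear * - hc0; positivity)) ?_
    rw [he]
    have : 0 ≤ ρ * (1 / c) := by positivity
    linarith only [this]
  have hRg : hs (R * g0) ≤ 1 / c * ρ :=
    (hs_mul_le' hc0 hOg0 R).trans (mul_le_mul_of_nonneg_left hsR hc0)
  have hsE : hs (E - E0) ≤ e * (1 / c) * ρ := by
    rw [hEE0, hs_neg', Matrix.mul_assoc]
    refine (hs_mul_le he0 hOE _).trans ?_
    calc e * hs (R * g0) ≤ e * (1 / c * ρ) := mul_le_mul_of_nonneg_left hRg he0
      _ = e * (1 / c) * ρ := by ring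
  have hsG : hs (G - g0) ≤ (1 / c) ^ 2 * ρ := by
    rw [hGG0, hs_neg', Matrix.mul_assoc]
    refine (hs_mul_le hc0 hOG _).trans ?_
    calc 1 / c * hs (R * g0) ≤ 1 / c * (1 / c * ρ) := mul_le_mul_of_nonneg_left hRg hc0
      _ = (1 / c) ^ 2 * ρ := by ring
  refine ⟨hEG, hE0G, ?_, ?_⟩
  · rw [tri_diff E E0 Q]
    refine (hs_add_le _ _).trans ?_
    have h1 : hs ((E - E0) * (Q * Eᵀ)) ≤ (b * e) * (e * (1 / c) * ρ) :=
      (hs_mul_le' (mul_nonneg hb0 he0) (hOQ.mul hOE.transpose) _).trans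
        (mul_le_mul_of_nonneg_left hsE (mul_nonneg hb0 he0))
    have h2 : hs (E0 * Q * (E - E0)ᵀ) ≤ (e * b) * (e * (1 / c) * ρ) := by
      refine (hs_mul_le (mul_nonneg he0 hb0) (hOE0.mul hOQ) _).trans ?_
      rw [hs_transpose']
      exact mul_le_mul_of_nonneg_left hsE (mul_nonneg he0 hb0)
    linarith only [h2, h1]
  · have := hs_triple (e := 0) hc0 hb0 hOG hOg0 hOQ hOQ hsG (by rw [sub_self, hs_zero])
    linarith only [this]

/-- bounds for the finite rank part and for the bounded part -/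
lemma bounds_R {β K : ℝ} {d : ℕ} (hβ : β ≤ 1) (hn : 1 ≤ n) (p : Par n d) {J : Mat n}
    (hOk : p.Ok β K) (hJ3 : OpLe J 3) :
    hs (p.A - (2 * p.r ^ 2 / n) • Matrix.vecMulVec p.m p.m) ≤ d * |K| + 2 ∧
      OpLe ((p.r ^ 2 * (1 - qq p.m)) • (1 : Mat n) - p.r • J) 4 := by
  obtain ⟨hm, ⟨hr0, hrβ⟩, hw⟩ := hOk
  have hn' : (0 : ℝ) < n := by exact_mod_cast hn
  have hr1 : p.r ≤ 1 := hrβ.trans hβ
  have hr2 : p.r ^ 2 ≤ 1 := by linarith only [mul_nonneg (sub_nonneg.2 hr0) (sub_nonneg.2 hr1), mul_nonneg (sub_nonneg.2 hr1) (sub_nonneg.2 hr1)]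
  obtain ⟨hq0, hq1, hsm⟩ := qq_mem hn hm
  constructor
  · rw [sub_eq_add_neg]
    refine (hs_add_le _ _).trans ?_
    rw [hs_neg', hs_smul, hs_vecMulVec]
    have h1 : hs p.A ≤ d * |K| := hs_steer p.w hw
    have h2 : |2 * p.r ^ 2 / n| * sq p.m ≤ 2 := by
      rw [abs_of_nonneg (by (clear * - hn; positivity))]
      have h3 : 2 * p.r ^ 2 / n * sq p.m ≤ 2 * p.r ^ 2 / n * n :=
        mul_le_mul_of_nonneg_left hsm (by (clear * - hn; positivity))
      have h4 : 2 * p.r ^ 2 / n * n = 2 * p.r ^ 2 := by field_simp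
      rw [h4] at h3
      linarith only [hr2, h3]
    linarith only [h2, h1]
  · have h1 : OpLe ((p.r ^ 2 * (1 - qq p.m)) • (1 : Mat n)) 1 := by
      refine (opLe_smul OpLe.one _).mono (by (clear * -; positivity)) ?_
      rw [mul_one, abs_of_nonneg (mul_nonneg (sq_nonneg _) (by linarith only [hq1]))]
      linarith only [mul_nonneg (sub_nonneg.2 hq0) (sub_nonneg.2 hq1), mul_nonneg (sub_nonneg.2 hq0) (sub_nonneg.2 hq0), mul_nonneg (sub_nonneg.2 hr2) (sub_nonneg.2 hq1)]
    have h2 : OpLe (p.r • J) 3 := by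
      refine (opLe_smul hJ3 _).mono (by positivity) ?_
      rw [abs_of_nonneg hr0]; linarith only [hr1]
    have := opLe_sub zero_le_one (by norm_num) h1 h2
    norm_num at this
    exact this

/-- symmetry of the building blocks -/
lemma symm_H {d : ℕ} (p : Par n d) {J : Mat n} (hJt : Jᵀ = J) :
    (p.H J)ᵀ = p.H J ∧ (p.B J)ᵀ = p.B J := by
  have hAt : p.Aᵀ = p.A := by
    unfold Par.A
    rw [Matrix.transpose_sum]
    refine Finset.sum_congr rfl fun a _ => ?_
    ext i j
    simp only [Matrix.transpose_apply, Matrix.vecMulVec_apply]; ring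
  have hVt : (Matrix.vecMulVec p.m p.m)ᵀ = Matrix.vecMulVec p.m p.m := by
    ext i j
    simp only [Matrix.transpose_apply, Matrix.vecMulVec_apply]; ring
  have hB : (p.B J)ᵀ = p.B J := by
    unfold Par.B
    simp only [Matrix.transpose_sub, Matrix.transpose_add, Matrix.transpose_smul, hAt, hVt, hJt,
      Matrix.transpose_one]
  refine ⟨?_, hB⟩
  unfold Par.H Hess
  simp only [Matrix.transpose_sub, Matrix.transpose_add, Matrix.transpose_smul, hAt, hVt, hJt,
    Matrix.transpose_one, dg_symm]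

/-- decompositions of the two Hessians -/
lemma decomp_H {d : ℕ} (p : Par n d) (J : Mat n) :
    p.B J = ((p.r ^ 2 * (1 - qq p.m)) • (1 : Mat n) - p.r • J)
      + (p.A - (2 * p.r ^ 2 / n) • Matrix.vecMulVec p.m p.m) ∧
    p.H J = dg (fun i => 1 / (1 - p.m i ^ 2)) + p.B J ∧
    dg (aa p.r p.m) - p.r • J = dg (fun i => 1 / (1 - p.m i ^ 2))
      + ((p.r ^ 2 * (1 - qq p.m)) • (1 : Mat n) - p.r • J) := by
  refine ⟨?_, ?_, ?_⟩
  · unfold Par.B; abel
  · unfold Par.H Hess Par.B; abel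
  · have : dg (aa p.r p.m) = dg (fun i => 1 / (1 - p.m i ^ 2))
        + (p.r ^ 2 * (1 - qq p.m)) • (1 : Mat n) := by
      ext i j
      simp only [dg, aa, Matrix.add_apply, Matrix.smul_apply, Matrix.diagonal_apply,
        Matrix.one_apply, smul_eq_mul]
      split_ifs <;> simp
    rw [this]; abel

lemma three_sq {x y z t m : ℝ} (hm : m ^ 2 ≤ 1) (hz : z ^ 2 ≤ t ^ 2) :
    (m * (x - y + z)) ^ 2 ≤ 3 * x ^ 2 + 3 * y ^ 2 + 3 * t ^ 2 := by
  have h2 : (x - y + z) ^ 2 ≤ 3 * x ^ 2 + 3 * y ^ 2 + 3 * z ^ 2 := by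
    linarith only [sq_nonneg (x + y), sq_nonneg (x - z), sq_nonneg (y + z)]
  have h3 : m ^ 2 * (x - y + z) ^ 2 ≤ 1 * (x - y + z) ^ 2 :=
    mul_le_mul_of_nonneg_right hm (sq_nonneg _)
  rw [mul_pow]
  linarith only [hz, h2, h3]

lemma diag_le_hsq (F : Mat n) : ∑ j, F j j ^ 2 ≤ hsq F := by
  unfold hsq
  exact Finset.sum_le_sum fun i _ =>
    Finset.single_le_sum (f := fun j => F i j ^ 2) (fun _ _ => sq_nonneg _) (Finset.mem_univ i)

/-- the product with `E0` in terms of the resolvent -/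
lemma e0_entry {m : Vec n} (hm : ∀ i, |m i| < 1) {E0 g0 Q : Mat n}
    (hE0 : E0 = dg (fun i => 1 / (1 - m i ^ 2)) * g0) (hg0t : g0ᵀ = g0) (j : Fin n) :
    (E0 * Q * E0ᵀ) j j = (g0 * Q * g0) j j / (1 - m j ^ 2) ^ 2 := by
  have h1 : E0 * Q * E0ᵀ = dg (fun i => 1 / (1 - m i ^ 2)) * (g0 * Q * g0)
      * dg (fun i => 1 / (1 - m i ^ 2)) := by
    rw [hE0, Matrix.transpose_mul, hg0t, dg_symm]
    simp only [Matrix.mul_assoc]
  rw [h1]
  unfold dg
  rw [Matrix.mul_diagonal, Matrix.diagonal_mul]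
  have h3 : 1 - m j ^ 2 ≠ 0 := by
    have h1 := hm j
    have h2 := abs_nonneg (m j)
    have h3 : m j ^ 2 < 1 := by rw [← sq_abs]; nlinarith
    linarith only [h3]
  field_simp

/-- pointwise identity -/
lemma u_entry {d : ℕ} (κ₀ : ℝ) (p : Par n d) (J : Mat n) (hm : ∀ i, |p.m i| < 1)
    (hBt : (p.B J)ᵀ = p.B J) (hGt : (p.G J)ᵀ = p.G J)
    {E0 : Mat n} (hE0 : E0 = dg (fun i => 1 / (1 - p.m i ^ 2)) * G0 p.r p.m J)
    (hg0t : (G0 p.r p.m J)ᵀ = G0 p.r p.m J) (j : Fin n) :
    p.U κ₀ J j = p.m j * (u0 κ₀ p.r p.m J j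
      - ((1 - p.B J * p.G J) * (J + κ₀ • (1 : Mat n)) * (1 - p.B J * p.G J)ᵀ
          - E0 * (J + κ₀ • (1 : Mat n)) * E0ᵀ : Mat n) j j
      + p.r ^ 2 * (trN (p.G J * (J + κ₀ • (1 : Mat n)) * p.G J)
          - trN (G0 p.r p.m J * (J + κ₀ • (1 : Mat n)) * G0 p.r p.m J))) := by
  have hEt : (1 - p.B J * p.G J)ᵀ = 1 - p.G J * p.B J := by
    rw [Matrix.transpose_sub, Matrix.transpose_one, Matrix.transpose_mul, hBt, hGt]
  rw [Matrix.sub_apply, e0_entry hm hE0 hg0t j, hEt]
  unfold u0 Par.U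
  ring

/-- final summation -/
lemma final_sum {CF CT r : ℝ} (hr0 : 0 ≤ r) (hr1 : r ≤ 1) {m : Vec n} (hn : 1 ≤ n)
    (hm : ∀ i, |m i| < 1) {U u f : Vec n} {τ : ℝ}
    (hU : ∀ j, U j = m j * (u j - f j + r ^ 2 * τ)) (hf : ∑ j, f j ^ 2 ≤ CF ^ 2)
    (hτ : τ ^ 2 ≤ CT ^ 2 / n) :
    sq U ≤ 3 * ∑ j, u j ^ 2 + (3 * CF ^ 2 + 3 * CT ^ 2) := by
  have hn' : (0 : ℝ) < n := by exact_mod_cast hn
  rw [le_div_iff₀ hn'] at hτ
  have hz : (r ^ 2 * τ) ^ 2 ≤ τ ^ 2 := by
    have h6 : r ^ 2 ≤ 1 := by linarith only [mul_nonneg (sub_nonneg.2 hr0) (sub_nonneg.2 hr1), mul_nonneg (sub_nonneg.2 hr1) (sub_nonneg.2 hr1)]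
    have h5 : (r ^ 2) ^ 2 ≤ 1 := by linarith only [mul_nonneg (sub_nonneg.2 h6) (sub_nonneg.2 h6), mul_nonneg (sub_nonneg.2 h6) (sq_nonneg r)]
    rw [mul_pow]
    linarith only [mul_nonneg (sub_nonneg.2 h5) (sq_nonneg τ)]
  have hpt : ∀ j, U j ^ 2 ≤ 3 * u j ^ 2 + 3 * f j ^ 2 + 3 * τ ^ 2 := by
    intro j
    rw [hU j]
    refine three_sq ?_ hz
    have h1 := hm j
    have h2 := abs_nonneg (m j)
    rw [← sq_abs]; (by_contra nlg; linarith only [mul_pos (sub_pos.2 (not_le.1 nlg)) (sub_pos.2 h1), mul_nonneg (le_of_lt (sub_pos.2 (not_le.1 nlg))) (sub_nonneg.2 h2), mul_pos (sub_pos.2 h1) (sub_pos.2 h1), mul_nonneg (le_of_lt (sub_pos.2 h1)) (sub_nonneg.2 h2)])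
  have hsum : sq U ≤ 3 * ∑ j, u j ^ 2 + 3 * ∑ j, f j ^ 2 + n * (3 * τ ^ 2) := by
    unfold sq
    refine (Finset.sum_le_sum fun j _ => hpt j).trans (le_of_eq ?_)
    rw [Finset.sum_add_distrib, Finset.sum_add_distrib, ← Finset.mul_sum, ← Finset.mul_sum]
    simp
  linarith only [hsum, hτ, hf]

/-- the two comparison estimates with explicit constants -/
lemma two_bounds {β κ₀ c K : ℝ} {d : ℕ} (hβ : β ≤ 1) (hc : 0 < c) (hn : 1 ≤ n) (p : Par n d)
    {J : Mat n} (hOk : p.Ok β K) (hJ3 : OpLe J 3) (hH : Coer c (p.H J))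
    (hCoer : Coer c (dg (aa p.r p.m) - p.r • J)) :
    ∃ E0 : Mat n, E0 = dg (fun i => 1 / (1 - p.m i ^ 2)) * G0 p.r p.m J ∧
      hs ((1 - p.B J * p.G J) * (J + κ₀ • (1 : Mat n)) * (1 - p.B J * p.G J)ᵀ
          - E0 * (J + κ₀ • (1 : Mat n)) * E0ᵀ)
        ≤ 2 * ((3 + |κ₀|) * (1 + (4 + (d * |K| + 2)) * (1 / c)) *
            ((1 + (4 + (d * |K| + 2)) * (1 / c)) * (1 / c) * (d * |K| + 2))) ∧
      hs (p.G J * (J + κ₀ • (1 : Mat n)) * p.G J
          - G0 p.r p.m J * (J + κ₀ • (1 : Mat n)) * G0 p.r p.m J)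
        ≤ 2 * ((3 + |κ₀|) * (1 / c) * ((1 / c) ^ 2 * (d * |K| + 2))) := by
  obtain ⟨hsR, hOB0⟩ := bounds_R hβ hn p hOk hJ3
  obtain ⟨hBeq, hHeq, hH0eq⟩ := decomp_H p J
  have hc0 : 0 ≤ 1 / c := by positivity
  have hHG : p.H J * p.G J = 1 := hH.mul_inv hc
  have hGH : p.G J * p.H J = 1 := hH.inv_mul hc
  have hH0G : (dg (aa p.r p.m) - p.r • J) * G0 p.r p.m J = 1 := hCoer.mul_inv hc
  have hOG : OpLe (p.G J) (1 / c) := hH.opLe_inv hc
  have hOg0 : OpLe (G0 p.r p.m J) (1 / c) := hCoer.opLe_inv hc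
  have hOQ : OpLe (J + κ₀ • (1 : Mat n)) (3 + |κ₀|) := by
    have h2 : OpLe (κ₀ • (1 : Mat n)) |κ₀| := by
      have := opLe_smul (OpLe.one (n := n)) κ₀
      rwa [mul_one] at this
    exact opLe_add (by norm_num) (abs_nonneg _) hJ3 h2
  rw [hHeq, hBeq] at hHG hGH
  rw [hH0eq] at hH0G
  obtain ⟨-, hE0G, hsF, hsT⟩ := core_pert (b := 3 + |κ₀|) (ρ := d * |K| + 2) (by (clear * -; positivity))
    (by (clear * -; positivity)) hc0 hHG hGH hH0G hsR hOB0 hOG hOg0 hOQ
  rw [← hBeq, hE0G] at hsF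
  exact ⟨_, rfl, hsF, hsT⟩

/-- finite rank reduction -/
theorem finStatement : FinStatement := by
  intro β κ₀ c K d hβ hc
  refine ⟨3 * (2 * ((3 + |κ₀|) * (1 + (4 + (d * |K| + 2)) * (1 / c)) *
            ((1 + (4 + (d * |K| + 2)) * (1 / c)) * (1 / c) * (d * |K| + 2)))) ^ 2
      + 3 * (2 * ((3 + |κ₀|) * (1 / c) * ((1 / c) ^ 2 * (d * |K| + 2)))) ^ 2, by positivity, ?_⟩
  intro n hn p J hOk hReg _ hCoer
  obtain ⟨hJs, hJ3, hH⟩ := hReg
  obtain ⟨hHt, hBt⟩ := symm_H p hJs
  obtain ⟨E0, hE0, hsF, hsT⟩ := two_bounds (κ₀ := κ₀) hβ hc hn p hOk hJ3 hH hCoer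
  have hGt : (p.G J)ᵀ = p.G J := inv_symm hHt
  have hg0t : (G0 p.r p.m J)ᵀ = G0 p.r p.m J := inv_symm (ham_symm hJs _ _)
  refine final_sum hOk.2.1.1 (hOk.2.1.2.trans hβ) hn hOk.1
    (fun j => u_entry κ₀ p J hOk.1 hBt hGt hE0 hg0t j) ?_ (trN_sub_sq hsT)
  refine (diag_le_hsq _).trans ?_
  rw [← hs_sq]
  exact pow_le_pow_left₀ (hs_nn _) hsF 2

end Vale.Agent.P150.F.G6c
end
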