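import Mathlib
import Vale.Agent.P150.Bdl.B9
import Vale.Agent.P150.Bdl.B6

set_option linter.all false

section

/-! D2, STEP 1: traces of words against the matrices `M_k` of the AMP linearization. -/

open Filter Topology
open scoped Matrix

namespace Vale.Agent.P150.F

/-! ### Fixed size -/

section fixed

variable {m : ℕ}

theorem dg_mul_dg' (a b : Vec m) : dg a * dg b = dg (a * b) := by
  unfold dg
  rw [Matrix.diagonal_mul_diagonal]
  rfl

theorem dg_one' : dg (1 : Vec m) = 1 := by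
  unfold dg
  exact Matrix.diagonal_one

theorem dg_smul' (c : ℝ) (a : Vec m) : dg (c • a) = c • dg a := by
  unfold dg
  exact (Matrix.diagonal_smul c a)

theorem trN_add' (A B : Mat m) : trN (A + B) = trN A + trN B := by
  unfold trN
  simp only [Matrix.add_apply, Finset.sum_add_distrib, add_div]

theorem trN_smul' (c : ℝ) (A : Mat m) : trN (c • A) = c * trN A := by
  unfold trN
  simp only [Matrix.smul_apply, smul_eq_mul, ← Finset.mul_sum, mul_div_assoc]

theorem trN_sub' (A B : Mat m) : trN (A - B) = trN A - trN B := by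
  unfold trN
  simp only [Matrix.sub_apply, Finset.sum_sub_distrib, sub_div]

theorem trN_mul_comm' (A B : Mat m) : trN (A * B) = trN (B * A) := by
  have h := Matrix.trace_mul_comm A B
  unfold trN
  unfold Matrix.trace at h
  simp only [Matrix.diag_apply] at h
  rw [h]

/-- `trN` as a linear map -/
noncomputable def trL (m : ℕ) : Mat m →ₗ[ℝ] ℝ where
  toFun := trN
  map_add' := trN_add'
  map_smul' c A := by simp [trN_smul']

theorem trL_apply (A : Mat m) : trL m A = trN A := rfl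

/-- letters: `none` is `J`, `some a` is the diagonal `a` -/
def lv (J : Mat m) : Option (Vec m) → Mat m
  | none => J
  | some a => dg a

/-- value of a word -/
def ev (J : Mat m) (w : List (Option (Vec m))) : Mat m := (w.map (lv J)).prod

@[simp] theorem ev_nil (J : Mat m) : ev J [] = 1 := rfl

@[simp] theorem ev_none (J : Mat m) (w : List (Option (Vec m))) :
    ev J (none :: w) = J * ev J w := by
  simp [ev, lv]

@[simp] theorem ev_some (J : Mat m) (a : Vec m) (w : List (Option (Vec m))) :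
    ev J (some a :: w) = dg a * ev J w := by
  simp [ev, lv]

theorem ev_append (J : Mat m) (w w' : List (Option (Vec m))) :
    ev J (w ++ w') = ev J w * ev J w' := by
  simp [ev]

/-- derivative of a word -/
def der {α : Type*} : List (Option α) → List (List (Option α) × List (Option α))
  | [] => []
  | none :: w => ([], w) :: (der w).map fun p => (none :: p.1, p.2)
  | some a :: w => (der w).map fun p => (some a :: p.1, p.2)

theorem der_append {α : Type*} (w w' : List (Option α)) :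
    der (w ++ w') = (der w).map (fun p => (p.1, p.2 ++ w')) ++
      (der w').map (fun p => (w ++ p.1, p.2)) := by
  induction w with
  | nil => simp [der]
  | cons x w ih =>
    cases x with
    | none => simp [der, ih, List.map_map, Function.comp_def]
    | some a => simp [der, ih, List.map_map, Function.comp_def]

theorem der_map {α β : Type*} (φ : α → β) (w : List (Option α)) :
    der (w.map (Option.map φ)) =
      (der w).map (fun p => (p.1.map (Option.map φ), p.2.map (Option.map φ))) := by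
  induction w with
  | nil => rfl
  | cons x w ih =>
    cases x with
    | none => simp [der, ih, List.map_map, Function.comp_def]
    | some a => simp [der, ih, List.map_map, Function.comp_def]

/-- normal form of a word -/
def nrm : List (Option (Vec m)) → Vec m × List (Vec m)
  | [] => (1, [])
  | none :: w => (1, (nrm w).1 :: (nrm w).2)
  | some a :: w => (a * (nrm w).1, (nrm w).2)

theorem ev_eq_nrm (J : Mat m) (w : List (Option (Vec m))) :
    ev J w = dg (nrm w).1 * word J (nrm w).2 := by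
  induction w with
  | nil => simp [nrm, word, dg_one']
  | cons x w ih =>
    cases x with
    | none => simp only [nrm, word, ev_none, ih, dg_one', one_mul, Matrix.mul_assoc]
    | some a => rw [ev_some, ih]; simp only [nrm]; rw [← Matrix.mul_assoc, dg_mul_dg']

/-- the decompositions `as = p ++ a :: q` -/
def splits {α : Type*} : List α → List (List α × α × List α)
  | [] => []
  | a :: as => ([], a, as) :: (splits as).map fun p => (a :: p.1, p.2)

theorem sum_fin_splits {α : Type*} (Φ : List α → α → List α → ℝ) (as : List α) :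
    ∑ k : Fin as.length, Φ (as.take k) (as.get k) (as.drop (k + 1)) =
      ((splits as).map fun p => Φ p.1 p.2.1 p.2.2).sum := by
  induction as generalizing Φ with
  | nil => rfl
  | cons a as ih =>
    have h := ih (fun x y z => Φ (a :: x) y z)
    simp only [splits, List.map_cons, List.sum_cons, List.map_map, Function.comp_def]
    rw [← h]
    exact Fin.sum_univ_succ _

theorem splits_map {α β : Type*} (φ : α → β) (as : List α) :
    splits (as.map φ) = (splits as).map fun p => (p.1.map φ, φ p.2.1, p.2.2.map φ) := by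
  induction as with
  | nil => rfl
  | cons a as ih => simp [splits, ih, List.map_map, Function.comp_def]

theorem splits_eq {α : Type*} {as : List α} {p : List α × α × List α} (h : p ∈ splits as) :
    as = p.1 ++ p.2.1 :: p.2.2 := by
  induction as generalizing p with
  | nil => simp [splits] at h
  | cons a as ih =>
    simp only [splits, List.mem_cons, List.mem_map] at h
    rcases h with rfl | ⟨q, hq, rfl⟩
    · rfl
    · simp only [List.cons_append]
      rw [← ih hq]

theorem der_sum (J : Mat m) (w : List (Option (Vec m))) (f g : Mat m → ℝ) :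
    ((der w).map fun p => f (ev J p.1) * g (ev J p.2)).sum =
      ((splits (nrm w).2).map fun p => f (dg (nrm w).1 * word J p.1) *
        g (dg p.2.1 * word J p.2.2)).sum := by
  induction w generalizing f with
  | nil => simp [der, nrm, splits]
  | cons x w ih =>
    cases x with
    | none =>
      have h := ih (fun X => f (J * X))
      simp only [der, nrm, splits, List.map_cons, List.sum_cons, List.map_map, Function.comp_def,
        ev_none, word, dg_one', one_mul, ev_nil, Matrix.mul_assoc] at h ⊢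
      rw [h, ev_eq_nrm J w]
    | some a =>
      have h := ih (fun X => f (dg a * X))
      simp only [der, nrm, List.map_map, Function.comp_def, ev_some]
      rw [h]
      simp only [← Matrix.mul_assoc, dg_mul_dg']

theorem word_smul (J : Mat m) (c : ℝ) (as : List (Vec m)) :
    word J (as.map fun a => c • a) = c ^ as.length • word J as := by
  induction as with
  | nil => simp [word]
  | cons a as ih =>
    simp only [List.map_cons, word, ih, List.length_cons, dg_smul']
    rw [Matrix.mul_smul, Matrix.mul_smul, Matrix.smul_mul, smul_smul, pow_succ]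

/-- scaled form of the Schwinger-Dyson equations -/
theorem SD.scaled {J : Mat m} {ℓ : ℕ} {ε B : ℝ} (h : SD J ℓ ε) (hB : 1 ≤ B) (a : Vec m)
    (as : List (Vec m)) (hl : as.length + 1 ≤ ℓ) (hb : ∀ b ∈ a :: as, ∀ i, |b i| ≤ B) :
    |trN (word J (a :: as))
      - ((splits as).map fun p => trN (dg a * word J p.1) *
          trN (dg p.2.1 * word J p.2.2)).sum| ≤ B ^ (as.length + 1) * ε := by
  have hB0 : 0 < B := by linarith only [hB]
  obtain ⟨a', ha'⟩ : ∃ a' : Vec m, a' = B⁻¹ • a := ⟨_, rfl⟩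
  obtain ⟨as', has'⟩ : ∃ as' : List (Vec m), as' = as.map fun b => B⁻¹ • b := ⟨_, rfl⟩
  have hbd : Bdd (a' :: as') := by
    intro b hb' i
    rw [ha', has', ← List.map_cons (f := fun b : Vec m => B⁻¹ • b), List.mem_map] at hb'
    obtain ⟨b0, hb0, rfl⟩ := hb'
    rw [Pi.smul_apply, smul_eq_mul, abs_mul, abs_of_pos (inv_pos.2 hB0), inv_mul_le_iff₀ hB0,
      mul_one]
    exact hb b0 hb0 i
  have ha : a = B • a' := by rw [ha', smul_smul, mul_inv_cancel₀ hB0.ne', one_smul]
  have has : as = as'.map fun b => B • b := by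
    rw [has', List.map_map]
    have : ((fun b : Vec m => B • b) ∘ fun b => B⁻¹ • b) = id := by
      funext b
      simp [smul_smul, mul_inv_cancel₀ hB0.ne']
    rw [this, List.map_id]
  have hlen : as.length = as'.length := by rw [has', List.length_map]
  have h1 := h a' as' (by rw [← hlen]; exact hl) hbd
  rw [sum_fin_splits (fun x y z => trN (dg a' * word J x) * trN (dg y * word J z))] at h1
  have e1 : trN (word J (a :: as)) = B ^ (as'.length + 1) * trN (word J (a' :: as')) := by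
    rw [← trN_smul', ← List.length_cons (a := a'), ← word_smul, List.map_cons, ← ha, ← has]
  have e2 : ((splits as).map fun p => trN (dg a * word J p.1) *
          trN (dg p.2.1 * word J p.2.2)).sum = B ^ (as'.length + 1) *
      ((splits as').map fun p => trN (dg a' * word J p.1) *
          trN (dg p.2.1 * word J p.2.2)).sum := by
    rw [has, splits_map, List.map_map, ← List.sum_map_mul_left]
    congr 1
    refine List.map_congr_left fun p hp => ?_
    simp only [Function.comp_apply]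
    rw [word_smul, word_smul, dg_smul', ha, dg_smul']
    simp only [Matrix.smul_mul, Matrix.mul_smul, smul_smul, trN_smul']
    have h2 := congrArg List.length (splits_eq hp)
    rw [List.length_append, List.length_cons] at h2
    rw [h2]
    ring
  rw [e1, e2, ← mul_sub, abs_mul, abs_of_pos (pow_pos hB0 _), hlen]
  exact mul_le_mul_of_nonneg_left h1 (pow_pos hB0 _).le

theorem der_eq {α : Type*} {w : List (Option α)} {p : List (Option α) × List (Option α)}
    (h : p ∈ der w) : w = p.1 ++ none :: p.2 := by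
  induction w generalizing p with
  | nil => simp [der] at h
  | cons x w ih =>
    cases x with
    | none =>
      simp only [der, List.mem_cons, List.mem_map] at h
      rcases h with rfl | ⟨q, hq, rfl⟩
      · rfl
      · simp only [List.cons_append]
        rw [← ih hq]
    | some a =>
      simp only [der, List.mem_map] at h
      obtain ⟨q, hq, rfl⟩ := h
      simp only [List.cons_append]
      rw [← ih hq]

/-- number of letters `J` -/
def deg {α : Type*} (w : List (Option α)) : ℕ := (w.filter (·.isNone)).length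

theorem deg_append {α : Type*} (w w' : List (Option α)) : deg (w ++ w') = deg w + deg w' := by
  simp [deg]

theorem deg_none {α : Type*} (w : List (Option α)) : deg (none :: w) = deg w + 1 := by
  simp [deg]

theorem deg_some {α : Type*} (a : α) (w : List (Option α)) : deg (some a :: w) = deg w := by
  simp [deg]

theorem deg_nil {α : Type*} : deg ([] : List (Option α)) = 0 := rfl

theorem deg_der {α : Type*} {w : List (Option α)} {p : List (Option α) × List (Option α)}
    (h : p ∈ der w) : deg p.1 + 1 + deg p.2 = deg w := by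
  rw [der_eq h, deg_append, deg_none]
  ring

theorem nrm_length (w : List (Option (Vec m))) : (nrm w).2.length ≤ w.length := by
  induction w with
  | nil => simp [nrm]
  | cons x w ih =>
    cases x with
    | none => simpa [nrm] using ih
    | some a => simp only [nrm, List.length_cons]; omega

theorem nrm_bound {B : ℝ} (hB : 1 ≤ B) (w : List (Option (Vec m)))
    (hw : ∀ a, some a ∈ w → ∀ i, |a i| ≤ B) :
    ∀ b ∈ (nrm w).1 :: (nrm w).2, ∀ i, |b i| ≤ B ^ w.length := by
  induction w with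
  | nil =>
    intro b hb i
    simp only [nrm, List.mem_singleton] at hb
    subst hb
    simp
  | cons x w ih =>
    have ih' := ih fun a ha => hw a (List.mem_cons_of_mem _ ha)
    have hB0 : 0 ≤ B := by linarith
    have hpow : B ^ w.length ≤ B ^ (w.length + 1) := pow_le_pow_right₀ hB (Nat.le_succ _)
    have h1 : 1 ≤ B ^ (w.length + 1) := one_le_pow₀ hB
    cases x with
    | none =>
      intro b hb i
      simp only [nrm, List.mem_cons, List.length_cons] at hb ⊢
      rcases hb with rfl | hb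
      · simpa using h1
      · exact (ih' b (by simpa using hb) i).trans hpow
    | some a =>
      intro b hb i
      simp only [nrm, List.mem_cons, List.length_cons] at hb ⊢
      rcases hb with rfl | hb
      · rw [Pi.mul_apply, abs_mul, pow_succ, mul_comm]
        exact mul_le_mul (ih' _ (List.mem_cons_self) i) (hw a (List.mem_cons_self) i)
          (abs_nonneg _) (pow_nonneg hB0 _)
      · exact (ih' b (List.mem_cons_of_mem _ hb) i).trans hpow

/-- Schwinger-Dyson equations for arbitrary words -/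
theorem SD.ev {J : Mat m} {ℓ : ℕ} {ε B : ℝ} (h : SD J ℓ ε) (hε : 0 ≤ ε) (hB : 1 ≤ B)
    (w : List (Option (Vec m))) (hl : w.length + 1 ≤ ℓ) (hw : ∀ a, some a ∈ w → ∀ i, |a i| ≤ B) :
    |trN (J * F.ev J w) - ((der w).map fun p => trN (F.ev J p.1) * trN (F.ev J p.2)).sum| ≤
      (B ^ w.length) ^ (w.length + 1) * ε := by
  have h1 := SD.scaled h (one_le_pow₀ hB) (nrm w).1 (nrm w).2
    ((Nat.succ_le_succ (nrm_length w)).trans hl) (nrm_bound hB w hw)
  rw [der_sum, ev_eq_nrm, ← Matrix.mul_assoc]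
  refine h1.trans (mul_le_mul_of_nonneg_right ?_ hε)
  exact pow_le_pow_right₀ (one_le_pow₀ hB) (Nat.succ_le_succ (nrm_length w))

/-- `(Q, M)` for the list `[S_{k-1}, ..., S_1]` of diagonals: `M = M_k`, `Q = Q_{k-1}` -/
noncomputable def QM (J : Mat m) (r : ℝ) : List (Vec m) → Mat m × Mat m
  | [] => (1, r • J)
  | S :: L => (dg S * (QM J r L).2,
      r • (J * (dg S * (QM J r L).2)) - (r ^ 2 * trN (dg S)) • (QM J r L).1)

/-- value of the derivative of a word in the context `P`, `R` -/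
noncomputable def dsum (J : Mat m) (w : List (Option (Vec m))) (P R : Mat m) : ℝ :=
  ((der w).map fun p => trN (P * ev J p.1) * trN (ev J p.2 * R)).sum

theorem dsum_append (J : Mat m) (w w' : List (Option (Vec m))) (P R : Mat m) :
    dsum J (w ++ w') P R = dsum J w P (ev J w' * R) + dsum J w' (P * ev J w) R := by
  unfold dsum
  rw [der_append, List.map_append, List.sum_append, List.map_map, List.map_map]
  simp only [Function.comp_def, ev_append, Matrix.mul_assoc]

theorem list_sum_finset {α κ : Type*} (l : List α) (s : Finset κ) (f : α → κ → ℝ) :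
    (l.map fun p => ∑ k ∈ s, f p k).sum = ∑ k ∈ s, (l.map fun p => f p k).sum := by
  induction l with
  | nil => simp
  | cons a l ih => simp only [List.map_cons, List.sum_cons, ih, Finset.sum_add_distrib]

theorem trN_fsum {κ : Type*} (s : Finset κ) (f : κ → Mat m) :
    trN (∑ k ∈ s, f k) = ∑ k ∈ s, trN (f k) := by
  simp only [← trL_apply, map_sum]

theorem dsum_sum_right {κ : Type*} (J : Mat m) (w : List (Option (Vec m))) (P : Mat m)
    (s : Finset κ) (R : κ → Mat m) :
    dsum J w P (∑ k ∈ s, R k) = ∑ k ∈ s, dsum J w P (R k) := by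
  unfold dsum
  rw [← list_sum_finset]
  simp only [trN_fsum, Finset.mul_sum]

theorem dsum_sum_left {κ : Type*} (J : Mat m) (w : List (Option (Vec m))) (R : Mat m)
    (s : Finset κ) (P : κ → Mat m) :
    dsum J w (∑ k ∈ s, P k) R = ∑ k ∈ s, dsum J w (P k) R := by
  unfold dsum
  rw [← list_sum_finset]
  simp only [trN_fsum, Finset.sum_mul]

theorem dsum_smul_left (J : Mat m) (w : List (Option (Vec m))) (c : ℝ) (P R : Mat m) :
    dsum J w (c • P) R = c * dsum J w P R := by
  unfold dsum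
  rw [← List.sum_map_mul_left]
  simp only [Matrix.smul_mul, trN_smul', mul_assoc]

theorem list_sum_lin {α : Type*} (l : List α) (f g h : α → ℝ) (a b : ℝ)
    (hf : ∀ p ∈ l, f p = a * g p - b * h p) :
    (l.map f).sum = a * (l.map g).sum - b * (l.map h).sum := by
  induction l with
  | nil => simp
  | cons x l ih =>
    simp only [List.map_cons, List.sum_cons]
    rw [ih fun p hp => hf p (List.mem_cons_of_mem _ hp), hf x List.mem_cons_self]
    ring

/-- value of the derivative of `Q` -/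
noncomputable def phQ (J : Mat m) (r : ℝ) (L : List (Vec m)) (P R : Mat m) : ℝ :=
  ((splits L).map fun p => r * trN (P * ((QM J r p.1).1 * dg p.2.1)) *
    trN ((QM J r p.2.2).1 * R)).sum

/-- value of the derivative of `M` -/
noncomputable def phM (J : Mat m) (r : ℝ) (L : List (Vec m)) (P R : Mat m) : ℝ :=
  r * trN P * trN ((QM J r L).1 * R) +
    ((splits L).map fun p => r * trN (P * ((QM J r p.1).2 * dg p.2.1)) *
      trN ((QM J r p.2.2).1 * R)).sum

theorem phM_nil (J : Mat m) (r : ℝ) (P R : Mat m) : phM J r [] P R = r * (trN P * trN R) := by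
  simp [phM, splits, QM, mul_assoc]

theorem phQ_cons (J : Mat m) (r : ℝ) (S : Vec m) (L : List (Vec m)) (P R : Mat m) :
    phQ J r (S :: L) P R = phM J r L (P * dg S) R := by
  simp only [phQ, phM, splits, List.map_cons, List.sum_cons, List.map_map, Function.comp_def, QM,
    Matrix.one_mul, Matrix.mul_assoc]

theorem phM_cons (J : Mat m) (r : ℝ) (S : Vec m) (L : List (Vec m)) (P R : Mat m) :
    phM J r (S :: L) P R = r * (trN P * trN ((QM J r (S :: L)).1 * R) +
      phQ J r (S :: L) (P * J) R) - r ^ 2 * trN (dg S) * phQ J r L P R := by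
  rw [phQ_cons]
  unfold phM phQ
  simp only [splits, List.map_cons, List.sum_cons, List.map_map, Function.comp_def]
  rw [list_sum_lin (splits L) _ (fun p => r * trN (P * J * dg S * ((QM J r p.1).2 * dg p.2.1)) *
      trN ((QM J r p.2.2).1 * R)) (fun p => r * trN (P * ((QM J r p.1).1 * dg p.2.1)) *
      trN ((QM J r p.2.2).1 * R)) r (r ^ 2 * trN (dg S))]
  · have e : trN (P * ((QM J r []).2 * dg S)) = r * trN (P * J * dg S) := by
      rw [← trN_smul']
      simp only [QM, Matrix.smul_mul, Matrix.mul_smul, Matrix.mul_assoc]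
    rw [e]
    ring
  · intro p _
    have e : trN (P * ((QM J r (S :: p.1)).2 * dg p.2.1)) =
        r * trN (P * J * dg S * ((QM J r p.1).2 * dg p.2.1)) -
          r ^ 2 * trN (dg S) * trN (P * ((QM J r p.1).1 * dg p.2.1)) := by
      rw [← trN_smul', ← trN_smul', ← trN_sub']
      simp only [QM, Matrix.smul_mul, Matrix.mul_smul, Matrix.mul_assoc, Matrix.sub_mul,
        Matrix.mul_sub]
    rw [e]
    ring

end fixed


/-! ### Sequences -/

section seq

variable {ι : Type*} (F : Filter ι) {n : ι → ℕ}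

/-- sequences of diagonals, eventually bounded -/
def VBd (a : ∀ i, Vec (n i)) : Prop := ∃ C : ℝ, ∀ᶠ i in F, ∀ j, |a i j| ≤ C

/-- words with bounded letters -/
def WBd (w : List (Option (∀ i, Vec (n i)))) : Prop := ∀ a, some a ∈ w → VBd F a

/-- the `i`-th word -/
def atI (i : ι) (w : List (Option (∀ i, Vec (n i)))) : List (Option (Vec (n i))) :=
  w.map (Option.map fun a => a i)

/-- the hypotheses on the couplings -/
structure HW (J : ∀ i, Mat (n i)) : Prop where
  op : ∀ᶠ i in F, OpLe (J i) 3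
  sd : ∀ (l : ℕ), ∀ ε > 0, ∀ᶠ i in F, SD (J i) l ε

variable {F}

theorem WBd.nil : WBd F ([] : List (Option (∀ i, Vec (n i)))) := by
  intro a ha
  simp at ha

theorem WBd.append {w w' : List (Option (∀ i, Vec (n i)))} (h : WBd F w) (h' : WBd F w') :
    WBd F (w ++ w') := by
  intro a ha
  rcases List.mem_append.1 ha with h1 | h1
  · exact h a h1
  · exact h' a h1

theorem WBd.of_append {w w' : List (Option (∀ i, Vec (n i)))} (h : WBd F (w ++ w')) :
    WBd F w ∧ WBd F w' :=
  ⟨fun a ha => h a (List.mem_append_left _ ha), fun a ha => h a (List.mem_append_right _ ha)⟩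

theorem WBd.some {a : ∀ i, Vec (n i)} (ha : VBd F a) {w : List (Option (∀ i, Vec (n i)))}
    (h : WBd F w) : WBd F (some a :: w) := by
  intro b hb
  rcases List.mem_cons.1 hb with h1 | h1
  · rw [Option.some.inj h1]
    exact ha
  · exact h b h1

theorem WBd.none {w : List (Option (∀ i, Vec (n i)))} (h : WBd F w) : WBd F (none :: w) := by
  intro b hb
  rcases List.mem_cons.1 hb with h1 | h1
  · simp at h1
  · exact h b h1

theorem WBd.der {w : List (Option (∀ i, Vec (n i)))} (h : WBd F w)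
    {p : List (Option (∀ i, Vec (n i))) × List (Option (∀ i, Vec (n i)))} (hp : p ∈ der w) :
    WBd F p.1 ∧ WBd F p.2 := by
  have h1 := der_eq hp
  rw [h1] at h
  refine ⟨h.of_append.1, fun a ha => h.of_append.2 a (List.mem_cons_of_mem _ ha)⟩

/-- a common bound for the letters of a word -/
theorem WBd.bound {w : List (Option (∀ i, Vec (n i)))} (h : WBd F w) :
    ∃ B : ℝ, 1 ≤ B ∧ ∀ᶠ i in F, ∀ a, Option.some a ∈ atI i w → ∀ j, |a j| ≤ B := by
  induction w with
  | nil => exact ⟨1, le_rfl, Eventually.of_forall fun i a ha => by simp [atI] at ha⟩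
  | cons x w ih =>
    obtain ⟨B, hB, hw⟩ := ih fun a ha => h a (List.mem_cons_of_mem _ ha)
    cases x with
    | none =>
      refine ⟨B, hB, ?_⟩
      filter_upwards [hw] with i hi a ha
      exact hi a (by simpa [atI] using ha)
    | some b =>
      obtain ⟨C, hC⟩ := h b List.mem_cons_self
      refine ⟨max B C, hB.trans (le_max_left _ _), ?_⟩
      filter_upwards [hw, hC] with i hi hCi a ha j
      simp only [atI, List.map_cons, Option.map_some, List.mem_cons, Option.some.injEq] at ha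
      rcases ha with rfl | ha
      · exact (hCi j).trans (le_max_right _ _)
      · exact (hi a (by simpa [atI] using ha) j).trans (le_max_left _ _)

theorem sd_word {J : ∀ i, Mat (n i)} (hJ : HW F J) {w : List (Option (∀ i, Vec (n i)))}
    (hw : WBd F w) :
    Tendsto (fun i => trN (J i * ev (J i) (atI i w)) - dsum (J i) (atI i w) 1 1) F (𝓝 0) := by
  obtain ⟨B, hB, hbd⟩ := hw.bound
  rw [Metric.tendsto_nhds]
  intro ε hε
  obtain ⟨D, hD⟩ : ∃ D : ℝ, D = (B ^ w.length) ^ (w.length + 1) := ⟨_, rfl⟩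
  have hD0 : 0 < D := by rw [hD]; positivity
  have hε' : 0 < ε / (2 * D) := by positivity
  filter_upwards [hbd, hJ.sd (w.length + 1) _ hε'] with i h1 h2
  have h3 := SD.ev h2 hε'.le hB (atI i w) (by simp [atI]) h1
  have e1 : (atI i w).length = w.length := by simp [atI]
  rw [e1, ← hD] at h3
  rw [Real.dist_eq, sub_zero]
  have h4 : dsum (J i) (atI i w) 1 1 =
      ((der (atI i w)).map fun p => trN (ev (J i) p.1) * trN (ev (J i) p.2)).sum := by
    unfold dsum
    simp only [Matrix.one_mul, Matrix.mul_one]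
  rw [h4]
  refine h3.trans_lt ?_
  have : D * (ε / (2 * D)) = ε / 2 := by field_simp
  rw [this]
  linarith only [hε]

/-! ### Operator bounds -/

/-- eventually bounded in operator norm -/
def OBd (F : Filter ι) (X : ∀ i, Mat (n i)) : Prop :=
  ∃ C : ℝ, 0 ≤ C ∧ ∀ᶠ i in F, OpLe (X i) C

theorem opLe_dg_of_le {k : ℕ} {a : Vec k} {C : ℝ} (h : ∀ i, |a i| ≤ C) : OpLe (dg a) C := by
  intro v
  unfold sq dg
  rw [Finset.mul_sum]
  refine Finset.sum_le_sum fun i _ => ?_
  rw [Matrix.mulVec_diagonal, mul_pow]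
  refine mul_le_mul_of_nonneg_right ?_ (sq_nonneg _)
  rw [← sq_abs]
  exact pow_le_pow_left₀ (abs_nonneg _) (h i) 2

theorem opLe_add' {k : ℕ} {A B : Mat k} {a b : ℝ} (ha : 0 ≤ a) (hb : 0 ≤ b) (hA : OpLe A a)
    (hB : OpLe B b) : OpLe (A + B) (a + b) := by
  intro v
  have h1 := hA v
  have h2 := hB v
  have h3 := ip_sq_le (A.mulVec v) (B.mulVec v)
  have e : sq ((A + B).mulVec v) = sq (A.mulVec v) + 2 * ip (A.mulVec v) (B.mulVec v) +
      sq (B.mulVec v) := by
    rw [Matrix.add_mulVec]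
    unfold sq ip
    rw [Finset.mul_sum, ← Finset.sum_add_distrib, ← Finset.sum_add_distrib]
    refine Finset.sum_congr rfl fun i _ => ?_
    rw [Pi.add_apply]
    ring
  have h4 : ip (A.mulVec v) (B.mulVec v) ≤ a * b * sq v := by
    have hv := sq_nn v
    have h5 : ip (A.mulVec v) (B.mulVec v) ^ 2 ≤ (a * b * sq v) ^ 2 := by
      refine h3.trans ((mul_le_mul h1 h2 (sq_nn _) (by (clear * - hv; positivity))).trans (le_of_eq ?_))
      ring
    exact (abs_le_of_sq_le_sq' h5 (by (clear * - ha hb hv; positivity))).2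
  rw [e]
  linarith only [h4, h2, h1]

theorem opLe_smul' {k : ℕ} {A : Mat k} {a c C : ℝ} (hc : |c| ≤ C) (hA : OpLe A a) :
    OpLe (c • A) (C * a) := by
  intro v
  rw [Matrix.smul_mulVec]
  have e : sq (c • A.mulVec v) = c ^ 2 * sq (A.mulVec v) := by
    unfold sq
    rw [Finset.mul_sum]
    refine Finset.sum_congr rfl fun i _ => ?_
    rw [Pi.smul_apply, smul_eq_mul]
    ring
  rw [e, mul_pow]
  have h1 := hA v
  have h2 : c ^ 2 ≤ C ^ 2 := by
    rw [← sq_abs c]
    exact pow_le_pow_left₀ (abs_nonneg _) hc 2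
  calc c ^ 2 * sq (A.mulVec v) ≤ C ^ 2 * (a ^ 2 * sq v) :=
        mul_le_mul h2 h1 (sq_nn _) (sq_nonneg _)
    _ = _ := by ring

theorem OBd.mul {X Y : ∀ i, Mat (n i)} (hX : OBd F X) (hY : OBd F Y) :
    OBd F fun i => X i * Y i := by
  obtain ⟨a, ha, h1⟩ := hX
  obtain ⟨b, hb, h2⟩ := hY
  refine ⟨a * b, mul_nonneg ha hb, ?_⟩
  filter_upwards [h1, h2] with i h1 h2
  exact h1.mul h2

theorem OBd.add {X Y : ∀ i, Mat (n i)} (hX : OBd F X) (hY : OBd F Y) :
    OBd F fun i => X i + Y i := by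
  obtain ⟨a, ha, h1⟩ := hX
  obtain ⟨b, hb, h2⟩ := hY
  refine ⟨a + b, add_nonneg ha hb, ?_⟩
  filter_upwards [h1, h2] with i h1 h2
  exact opLe_add' ha hb h1 h2

theorem OBd.smul {X : ∀ i, Mat (n i)} (hX : OBd F X) {c : ι → ℝ}
    (hc : ∃ C, ∀ᶠ i in F, |c i| ≤ C) : OBd F fun i => c i • X i := by
  obtain ⟨a, ha, h1⟩ := hX
  obtain ⟨C, h2⟩ := hc
  refine ⟨max C 0 * a, mul_nonneg (le_max_right _ _) ha, ?_⟩
  filter_upwards [h1, h2] with i h1 h2
  exact opLe_smul' (h2.trans (le_max_left _ _)) h1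

theorem OBd.sub {X Y : ∀ i, Mat (n i)} (hX : OBd F X) (hY : OBd F Y) :
    OBd F fun i => X i - Y i := by
  have h := hX.add (hY.smul (c := fun _ => -1) ⟨1, Eventually.of_forall fun i => by simp⟩)
  simpa [sub_eq_add_neg] using h

theorem OBd.one : OBd F fun i => (1 : Mat (n i)) :=
  ⟨1, zero_le_one, Eventually.of_forall fun _ => OpLe.one⟩

theorem OBd.dg {a : ∀ i, Vec (n i)} (ha : VBd F a) : OBd F fun i => dg (a i) := by
  obtain ⟨C, hC⟩ := ha
  refine ⟨max C 0, le_max_right _ _, ?_⟩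
  filter_upwards [hC] with i hi
  exact opLe_dg_of_le fun j => (hi j).trans (le_max_left _ _)

theorem HW.obd {J : ∀ i, Mat (n i)} (hJ : HW F J) : OBd F J := ⟨3, by norm_num, hJ.op⟩

theorem OBd.trN_bdd {X : ∀ i, Mat (n i)} (hX : OBd F X) : ∃ C, ∀ᶠ i in F, |trN (X i)| ≤ C := by
  obtain ⟨C, hC, h⟩ := hX
  refine ⟨C, ?_⟩
  filter_upwards [h] with i hi
  exact abs_trN_le_of_opLe hC hi

theorem OBd.ev {J : ∀ i, Mat (n i)} (hJ : HW F J) {w : List (Option (∀ i, Vec (n i)))}
    (hw : WBd F w) : OBd F fun i => ev (J i) (atI i w) := by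
  induction w with
  | nil => exact OBd.one
  | cons x w ih =>
    have ih' := ih fun a ha => hw a (List.mem_cons_of_mem _ ha)
    cases x with
    | none =>
      have h := hJ.obd.mul ih'
      simpa [atI] using h
    | some a =>
      have h := (OBd.dg (hw a List.mem_cons_self)).mul ih'
      simpa [atI] using h

/-- null times bounded -/
theorem tz_mul {f g : ι → ℝ} (hf : Tendsto f F (𝓝 0)) (hg : ∃ C, ∀ᶠ i in F, |g i| ≤ C) :
    Tendsto (fun i => f i * g i) F (𝓝 0) := by
  obtain ⟨C, hC⟩ := hg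
  refine squeeze_zero_norm' (a := fun i => |f i| * |C|) ?_ ?_
  · filter_upwards [hC] with i hi
    rw [Real.norm_eq_abs, abs_mul]
    exact mul_le_mul_of_nonneg_left (hi.trans (le_abs_self C)) (abs_nonneg _)
  · simpa using (hf.abs.mul_const |C|)

/-! ### Polynomials with their derivatives -/

/-- `X` is a finite sum of words with bounded letters and `Φ` is the value of its derivative -/
def Dr (F : Filter ι) (J X : ∀ i, Mat (n i)) (Φ : ∀ i, Mat (n i) → Mat (n i) → ℝ) : Prop :=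
  ∃ (κ : Type) (_ : Fintype κ) (W : κ → List (Option (∀ i, Vec (n i)))),
    (∀ k, WBd F (W k)) ∧ (∀ i, X i = ∑ k, ev (J i) (atI i (W k))) ∧
    ∀ i P R, Φ i P R = ∑ k, dsum (J i) (atI i (W k)) P R

variable {J : ∀ i, Mat (n i)}

theorem atI_append (i : ι) (w w' : List (Option (∀ i, Vec (n i)))) :
    atI i (w ++ w') = atI i w ++ atI i w' := List.map_append

theorem atI_some (i : ι) (a : ∀ i, Vec (n i)) (w : List (Option (∀ i, Vec (n i)))) :
    atI i (some a :: w) = some (a i) :: atI i w := rfl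

theorem Dr.congr {X X' : ∀ i, Mat (n i)} {Φ Φ' : ∀ i, Mat (n i) → Mat (n i) → ℝ}
    (h : Dr F J X Φ) (hX : ∀ i, X' i = X i) (hΦ : ∀ i P R, Φ' i P R = Φ i P R) :
    Dr F J X' Φ' := by
  obtain ⟨κ, _, W, h1, h2, h3⟩ := h
  exact ⟨κ, _, W, h1, fun i => (hX i).trans (h2 i), fun i P R => (hΦ i P R).trans (h3 i P R)⟩

theorem Dr.word {w : List (Option (∀ i, Vec (n i)))} (hw : WBd F w) :
    Dr F J (fun i => ev (J i) (atI i w)) (fun i P R => dsum (J i) (atI i w) P R) :=
  ⟨Unit, inferInstance, fun _ => w, fun _ => hw, fun i => by simp, fun i P R => by simp⟩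

theorem Dr.diag {a : ∀ i, Vec (n i)} (ha : VBd F a) :
    Dr F J (fun i => dg (a i)) (fun _ _ _ => 0) := by
  refine (Dr.word (WBd.some ha WBd.nil)).congr (fun i => ?_) fun i P R => ?_
  · simp [atI]
  · simp [dsum, der, atI]

theorem Dr.ofJ : Dr F J J (fun _ P R => trN P * trN R) := by
  refine (Dr.word (WBd.none WBd.nil)).congr (fun i => ?_) fun i P R => ?_
  · simp [atI]
  · simp [dsum, der, atI]

theorem Dr.one : Dr F J (fun _ => 1) (fun _ _ _ => 0) := by
  refine (Dr.word WBd.nil).congr (fun i => ?_) fun i P R => ?_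
  · simp [atI]
  · simp [dsum, der, atI]

theorem Dr.add {X Y : ∀ i, Mat (n i)} {Φ Ψ : ∀ i, Mat (n i) → Mat (n i) → ℝ}
    (hX : Dr F J X Φ) (hY : Dr F J Y Ψ) :
    Dr F J (fun i => X i + Y i) (fun i P R => Φ i P R + Ψ i P R) := by
  obtain ⟨κ, _, W, h1, h2, h3⟩ := hX
  obtain ⟨κ', _, W', h1', h2', h3'⟩ := hY
  refine ⟨κ ⊕ κ', inferInstance, Sum.elim W W', ?_, fun i => ?_, fun i P R => ?_⟩
  · rintro (k | k)
    · exact h1 k
    · exact h1' k
  · show X i + Y i = _
    rw [Fintype.sum_sum_type, h2, h2']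
    rfl
  · show Φ i P R + Ψ i P R = _
    rw [Fintype.sum_sum_type, h3, h3']
    rfl

theorem Dr.mul {X Y : ∀ i, Mat (n i)} {Φ Ψ : ∀ i, Mat (n i) → Mat (n i) → ℝ}
    (hX : Dr F J X Φ) (hY : Dr F J Y Ψ) :
    Dr F J (fun i => X i * Y i) (fun i P R => Φ i P (Y i * R) + Ψ i (P * X i) R) := by
  obtain ⟨κ, _, W, h1, h2, h3⟩ := hX
  obtain ⟨κ', _, W', h1', h2', h3'⟩ := hY
  refine ⟨κ × κ', inferInstance, fun k => W k.1 ++ W' k.2, fun k => (h1 _).append (h1' _),
    fun i => ?_, fun i P R => ?_⟩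
  · show X i * Y i = _
    rw [h2, h2', Finset.sum_mul_sum, Fintype.sum_prod_type]
    simp only [atI_append, ev_append]
  · show Φ i P (Y i * R) + Ψ i (P * X i) R = _
    rw [h3, h3', h2, h2', Fintype.sum_prod_type]
    simp only [atI_append, dsum_append, Finset.sum_add_distrib]
    congr 1
    · refine Finset.sum_congr rfl fun k _ => ?_
      rw [Finset.sum_mul, dsum_sum_right]
    · rw [Finset.sum_comm]
      refine Finset.sum_congr rfl fun k _ => ?_
      rw [Finset.mul_sum, dsum_sum_left]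

theorem vbd_const {c : ι → ℝ} (hc : ∃ C, ∀ᶠ i in F, |c i| ≤ C) :
    VBd F (fun i => (fun _ => c i : Vec (n i))) := by
  obtain ⟨C, hC⟩ := hc
  exact ⟨C, hC.mono fun i hi _ => hi⟩

theorem dg_const {k : ℕ} (c : ℝ) : dg (fun _ => c : Vec k) = c • (1 : Mat k) := by
  have : (fun _ => c : Vec k) = c • (1 : Vec k) := by
    funext i
    simp
  rw [this, dg_smul', dg_one']

theorem Dr.smul {X : ∀ i, Mat (n i)} {Φ : ∀ i, Mat (n i) → Mat (n i) → ℝ}
    (hX : Dr F J X Φ) {c : ι → ℝ} (hc : ∃ C, ∀ᶠ i in F, |c i| ≤ C) :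
    Dr F J (fun i => c i • X i) (fun i P R => c i * Φ i P R) := by
  refine ((Dr.diag (vbd_const hc)).mul hX).congr (fun i => ?_) fun i P R => ?_
  · rw [dg_const, Matrix.smul_mul, Matrix.one_mul]
  · rw [dg_const, Matrix.mul_smul, Matrix.mul_one, zero_add]
    obtain ⟨κ, _, W, h1, h2, h3⟩ := hX
    rw [h3, h3, Finset.mul_sum]
    exact Finset.sum_congr rfl fun k _ => (dsum_smul_left _ _ _ _ _).symm

theorem Dr.sub {X Y : ∀ i, Mat (n i)} {Φ Ψ : ∀ i, Mat (n i) → Mat (n i) → ℝ}
    (hX : Dr F J X Φ) (hY : Dr F J Y Ψ) :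
    Dr F J (fun i => X i - Y i) (fun i P R => Φ i P R - Ψ i P R) := by
  refine (hX.add (hY.smul (c := fun _ => -1) ⟨1, Eventually.of_forall fun i => by simp⟩)).congr
    (fun i => ?_) fun i P R => ?_
  · rw [neg_one_smul, sub_eq_add_neg]
  · ring

/-- Schwinger-Dyson equation for polynomials -/
theorem Dr.sd (hJ : HW F J) {X : ∀ i, Mat (n i)} {Φ : ∀ i, Mat (n i) → Mat (n i) → ℝ}
    (hX : Dr F J X Φ) : Tendsto (fun i => trN (J i * X i) - Φ i 1 1) F (𝓝 0) := by
  obtain ⟨κ, _, W, h1, h2, h3⟩ := hX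
  have h := tendsto_finsetSum (Finset.univ : Finset κ) fun k _ => sd_word hJ (h1 k)
  rw [Finset.sum_const_zero] at h
  refine h.congr fun i => ?_
  rw [h2, h3, Finset.mul_sum, trN_fsum, Finset.sum_sub_distrib]

/-- the lists of diagonals at `i` -/
def lat (i : ι) (L : List (∀ i, Vec (n i))) : List (Vec (n i)) := L.map fun a => a i

variable {r : ι → ℝ}

theorem trdg_bdd {a : ∀ i, Vec (n i)} (ha : VBd F a) (hr : ∃ C, ∀ᶠ i in F, |r i| ≤ C) :
    ∃ C, ∀ᶠ i in F, |r i ^ 2 * trN (dg (a i))| ≤ C := by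
  obtain ⟨C, hC⟩ := (OBd.dg ha).trN_bdd
  obtain ⟨D, hD⟩ := hr
  refine ⟨|D| ^ 2 * |C|, ?_⟩
  filter_upwards [hC, hD] with i h1 h2
  rw [abs_mul, abs_pow]
  exact mul_le_mul (pow_le_pow_left₀ (abs_nonneg _) (h2.trans (le_abs_self _)) 2)
    (h1.trans (le_abs_self _)) (abs_nonneg _) (by positivity)

theorem lat_cons (i : ι) (S : ∀ i, Vec (n i)) (L : List (∀ i, Vec (n i))) :
    lat i (S :: L) = S i :: lat i L := rfl

/-- derivatives of `Q` and `M` -/
theorem drQM (hr : ∃ C, ∀ᶠ i in F, |r i| ≤ C) (L : List (∀ i, Vec (n i)))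
    (hL : ∀ a ∈ L, VBd F a) :
    Dr F J (fun i => (QM (J i) (r i) (lat i L)).1)
      (fun i P R => phQ (J i) (r i) (lat i L) P R) ∧
    Dr F J (fun i => (QM (J i) (r i) (lat i L)).2)
      (fun i P R => phM (J i) (r i) (lat i L) P R) := by
  induction L with
  | nil =>
    refine ⟨Dr.one.congr (fun i => rfl) fun i P R => rfl,
      (Dr.ofJ.smul hr).congr (fun i => rfl) fun i P R => phM_nil _ _ _ _⟩
  | cons S L ih =>
    obtain ⟨hQ, hM⟩ := ih fun a ha => hL a (List.mem_cons_of_mem _ ha)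
    have hS : VBd F S := hL S List.mem_cons_self
    have hQ' : Dr F J (fun i => (QM (J i) (r i) (lat i (S :: L))).1)
        (fun i P R => phQ (J i) (r i) (lat i (S :: L)) P R) := by
      refine ((Dr.diag hS).mul hM).congr (fun i => rfl) fun i P R => ?_
      rw [lat_cons, phQ_cons, zero_add]
    refine ⟨hQ', ?_⟩
    refine (((Dr.ofJ.mul hQ').smul hr).sub (hQ.smul (trdg_bdd hS hr))).congr (fun i => rfl)
      fun i P R => ?_
    rw [lat_cons, phM_cons]

theorem obd_QM (hJ : HW F J) (hr : ∃ C, ∀ᶠ i in F, |r i| ≤ C) (L : List (∀ i, Vec (n i)))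
    (hL : ∀ a ∈ L, VBd F a) :
    OBd F (fun i => (QM (J i) (r i) (lat i L)).1) ∧
    OBd F (fun i => (QM (J i) (r i) (lat i L)).2) := by
  induction L with
  | nil => exact ⟨OBd.one, hJ.obd.smul hr⟩
  | cons S L ih =>
    obtain ⟨hQ, hM⟩ := ih fun a ha => hL a (List.mem_cons_of_mem _ ha)
    have hS : VBd F S := hL S List.mem_cons_self
    have hQ' := (OBd.dg hS).mul hM
    exact ⟨hQ', ((hJ.obd.mul hQ').smul hr).sub (hQ.smul (trdg_bdd hS hr))⟩

theorem tz_list_sum {α : Type*} (l : List α) (f : α → ι → ℝ)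
    (h : ∀ p ∈ l, Tendsto (f p) F (𝓝 0)) : Tendsto (fun i => (l.map fun p => f p i).sum) F (𝓝 0) := by
  induction l with
  | nil => simpa using tendsto_const_nhds
  | cons a l ih =>
    simp only [List.map_cons, List.sum_cons]
    simpa using (h a List.mem_cons_self).add (ih fun p hp => h p (List.mem_cons_of_mem _ hp))

theorem VBd.mul {a b : ∀ i, Vec (n i)} (ha : VBd F a) (hb : VBd F b) :
    VBd F (fun i => a i * b i) := by
  obtain ⟨C, hC⟩ := ha
  obtain ⟨D, hD⟩ := hb
  refine ⟨|C| * |D|, ?_⟩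
  filter_upwards [hC, hD] with i h1 h2 j
  rw [Pi.mul_apply, abs_mul]
  exact mul_le_mul ((h1 j).trans (le_abs_self _)) ((h2 j).trans (le_abs_self _)) (abs_nonneg _)
    (abs_nonneg _)

theorem bdd_mul {f g : ι → ℝ} (hf : ∃ C, ∀ᶠ i in F, |f i| ≤ C) (hg : ∃ C, ∀ᶠ i in F, |g i| ≤ C) :
    ∃ C, ∀ᶠ i in F, |f i * g i| ≤ C := by
  obtain ⟨C, hC⟩ := hf
  obtain ⟨D, hD⟩ := hg
  refine ⟨|C| * |D|, ?_⟩
  filter_upwards [hC, hD] with i h1 h2
  rw [abs_mul]
  exact mul_le_mul (h1.trans (le_abs_self _)) (h2.trans (le_abs_self _)) (abs_nonneg _)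
    (abs_nonneg _)

/-- `A_k` -/
theorem word_A (hJ : HW F J) (hr : ∃ C, ∀ᶠ i in F, |r i| ≤ C) (L : List (∀ i, Vec (n i)))
    (hL : ∀ a ∈ L, VBd F a)
    (hT : ∀ L' : List (∀ i, Vec (n i)), (∀ a ∈ L', VBd F a) → L'.length < L.length →
      ∀ a : ∀ i, Vec (n i), VBd F a →
      Tendsto (fun i => trN (dg (a i) * (QM (J i) (r i) (lat i L')).2)) F (𝓝 0))
    {w : List (Option (∀ i, Vec (n i)))} (hw : WBd F w) :
    Tendsto (fun i => trN (ev (J i) (atI i w) * (QM (J i) (r i) (lat i L)).2) -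
      r i * dsum (J i) (atI i w) (QM (J i) (r i) (lat i L)).1 1) F (𝓝 0) := by
  cases L with
  | nil =>
    refine (tz_mul (sd_word hJ hw) hr).congr fun i => ?_
    simp only [lat, List.map_nil, QM, Matrix.mul_smul, trN_smul']
    rw [trN_mul_comm' (J i)]
    ring
  | cons S L =>
    have hS : VBd F S := hL S List.mem_cons_self
    have hL' : ∀ a ∈ L, VBd F a := fun a ha => hL a (List.mem_cons_of_mem _ ha)
    have h1 := ((drQM (J := J) hr (S :: L) hL).1.mul (Dr.word hw)).sd hJ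
    have h2 := tz_mul h1 hr
    have h3 : Tendsto (fun i => ((splits L).map fun p =>
        trN (dg (p.2.1 i * S i) * (QM (J i) (r i) (lat i p.1)).2) *
        (r i * (r i * trN ((QM (J i) (r i) (lat i p.2.2)).1 * ev (J i) (atI i w))))).sum) F
        (𝓝 0) := by
      refine tz_list_sum _ _ fun p hp => ?_
      have e := splits_eq hp
      have hb : ∀ a ∈ p.1 ++ p.2.1 :: p.2.2, VBd F a := by rw [← e]; exact hL'
      refine tz_mul (hT p.1 (fun a ha => hb a (List.mem_append_left _ ha)) ?_ _ ?_) ?_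
      · have := congrArg List.length e
        rw [List.length_append, List.length_cons] at this
        rw [List.length_cons]
        omega
      · exact (hb _ (List.mem_append_right _ List.mem_cons_self)).mul hS
      · refine bdd_mul hr (bdd_mul hr ?_)
        exact ((obd_QM hJ hr p.2.2 fun a ha => hb a
          (List.mem_append_right _ (List.mem_cons_of_mem _ ha))).1.mul (OBd.ev hJ hw)).trN_bdd
    have h4 := h2.add h3
    rw [add_zero] at h4
    refine h4.congr fun i => ?_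
    have e1 : phQ (J i) (r i) (lat i (S :: L)) 1 (ev (J i) (atI i w) * 1) =
        r i * trN (dg (S i)) * trN ((QM (J i) (r i) (lat i L)).1 * ev (J i) (atI i w)) +
        ((splits L).map fun p => r i * trN (dg (p.2.1 i * S i) *
          (QM (J i) (r i) (lat i p.1)).2) *
          trN ((QM (J i) (r i) (lat i p.2.2)).1 * ev (J i) (atI i w))).sum := by
      rw [lat_cons, phQ_cons, Matrix.mul_one, Matrix.one_mul]
      unfold phM lat
      rw [splits_map, List.map_map]
      congr 2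
      refine List.map_congr_left fun p _ => ?_
      simp only [Function.comp_apply]
      congr 2
      rw [← Matrix.mul_assoc, trN_mul_comm', ← Matrix.mul_assoc, dg_mul_dg']
    have e2 : ((splits L).map fun p =>
        trN (dg (p.2.1 i * S i) * (QM (J i) (r i) (lat i p.1)).2) *
        (r i * (r i * trN ((QM (J i) (r i) (lat i p.2.2)).1 * ev (J i) (atI i w))))).sum =
        r i * ((splits L).map fun p => r i * trN (dg (p.2.1 i * S i) *
          (QM (J i) (r i) (lat i p.1)).2) *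
          trN ((QM (J i) (r i) (lat i p.2.2)).1 * ev (J i) (atI i w))).sum := by
      rw [← List.sum_map_mul_left]
      congr 1
      refine List.map_congr_left fun p _ => ?_
      ring
    have e3 : trN (ev (J i) (atI i w) * (QM (J i) (r i) (lat i (S :: L))).2) =
        r i * trN (J i * ((QM (J i) (r i) (lat i (S :: L))).1 * ev (J i) (atI i w))) -
        r i ^ 2 * trN (dg (S i)) * trN ((QM (J i) (r i) (lat i L)).1 * ev (J i) (atI i w)) := by
      rw [trN_mul_comm', lat_cons]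
      simp only [QM]
      rw [Matrix.sub_mul, trN_sub', Matrix.smul_mul, Matrix.smul_mul, trN_smul', trN_smul',
        Matrix.mul_assoc]
    rw [e1, e2, e3, Matrix.one_mul]
    ring

theorem dsum_atI (i : ι) (w : List (Option (∀ i, Vec (n i)))) (P R : Mat (n i)) :
    dsum (J i) (atI i w) P R = ((der w).map fun p =>
      trN (P * ev (J i) (atI i p.1)) * trN (ev (J i) (atI i p.2) * R)).sum := by
  unfold dsum atI
  rw [der_map, List.map_map]
  rfl

/-- `tr (Q_{k-1} u) → 0` if `u` has fewer than `k - 1` letters, from `T_1` for `M_{k-1}` -/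
theorem word_Q (S : ∀ i, Vec (n i)) (L : List (∀ i, Vec (n i))) (hS : VBd F S)
    (hT : ∀ w : List (Option (∀ i, Vec (n i))), WBd F w → deg w ≤ L.length →
      Tendsto (fun i => trN (ev (J i) (atI i w) * (QM (J i) (r i) (lat i L)).2)) F (𝓝 0))
    {w : List (Option (∀ i, Vec (n i)))} (hw : WBd F w) (hd : deg w ≤ L.length) :
    Tendsto (fun i => trN ((QM (J i) (r i) (lat i (S :: L))).1 * ev (J i) (atI i w))) F (𝓝 0) := by
  refine (hT (w ++ [some S]) (hw.append (WBd.some hS WBd.nil)) ?_).congr fun i => ?_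
  · rw [deg_append, deg_some, deg_nil, add_zero]
    exact hd
  · rw [atI_append, ev_append, lat_cons]
    simp only [QM, atI_some]
    have e : atI i ([] : List (Option (∀ i, Vec (n i)))) = [] := rfl
    rw [e, ev_some, ev_nil, Matrix.mul_one, trN_mul_comm' (dg (S i) * _), ← Matrix.mul_assoc]

/-- `T_1` for words -/
theorem word_T1 (hJ : HW F J) (hr : ∃ C, ∀ᶠ i in F, |r i| ≤ C) (k : ℕ) :
    ∀ L : List (∀ i, Vec (n i)), (∀ a ∈ L, VBd F a) → L.length = k →
    ∀ w : List (Option (∀ i, Vec (n i))), WBd F w → deg w ≤ L.length →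
    Tendsto (fun i => trN (ev (J i) (atI i w) * (QM (J i) (r i) (lat i L)).2)) F (𝓝 0) := by
  induction k using Nat.strong_induction_on with
  | _ k ih =>
  intro L hL hk w hw hd
  have hA := word_A hJ hr L hL (fun L' hL' hlt a ha => by
    refine (ih L'.length (by omega) L' hL' rfl [some a] (WBd.some ha WBd.nil) ?_).congr
      fun i => ?_
    · rw [deg_some, deg_nil]
      exact Nat.zero_le _
    · have e : atI i [some a] = [some (a i)] := rfl
      rw [e, ev_some, ev_nil, Matrix.mul_one]) hw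
  have h2 : Tendsto (fun i => dsum (J i) (atI i w) (QM (J i) (r i) (lat i L)).1 1) F (𝓝 0) := by
    simp only [dsum_atI]
    refine tz_list_sum _ _ fun p hp => ?_
    have hpd := deg_der hp
    have hb : ∃ C, ∀ᶠ i in F, |trN (ev (J i) (atI i p.2) * 1)| ≤ C :=
      ((OBd.ev hJ (hw.der hp).2).mul OBd.one).trN_bdd
    refine tz_mul ?_ hb
    cases L with
    | nil =>
      rw [List.length_nil] at hd
      omega
    | cons S L' =>
      rw [List.length_cons] at hk hd
      exact word_Q S L' (hL S List.mem_cons_self)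
        (ih L'.length (by omega) L' (fun a ha => hL a (List.mem_cons_of_mem _ ha)) rfl)
        (hw.der hp).1 (by omega)
  have h3 := hA.add (tz_mul h2 hr)
  rw [add_zero] at h3
  refine h3.congr fun i => ?_
  ring

/-- `T_2` for words -/
theorem word_T2 (hJ : HW F J) (hr : ∃ C, ∀ᶠ i in F, |r i| ≤ C) (L : List (∀ i, Vec (n i)))
    (hL : ∀ a ∈ L, VBd F a) {ψ : ∀ i, Vec (n i)} (hψ : VBd F ψ)
    {w : List (Option (∀ i, Vec (n i)))} (hw : WBd F w) (hd : deg w ≤ L.length) :
    Tendsto (fun i => trN (ev (J i) (atI i w) * J i * dg (ψ i) * (QM (J i) (r i) (lat i L)).2) -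
      r i * trN (dg (ψ i)) * trN (ev (J i) (atI i w) * (QM (J i) (r i) (lat i L)).1)) F
      (𝓝 0) := by
  have hw' : WBd F (w ++ [none, some ψ]) := hw.append (WBd.none (WBd.some hψ WBd.nil))
  have hA := word_A hJ hr L hL (fun L' hL' _ a ha => by
    refine (word_T1 hJ hr L'.length L' hL' rfl [some a] (WBd.some ha WBd.nil) ?_).congr
      fun i => ?_
    · rw [deg_some, deg_nil]
      exact Nat.zero_le _
    · have e : atI i [some a] = [some (a i)] := rfl
      rw [e, ev_some, ev_nil, Matrix.mul_one]) hw'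
  have h2 : Tendsto (fun i => dsum (J i) (atI i w) (QM (J i) (r i) (lat i L)).1
      (J i * dg (ψ i))) F (𝓝 0) := by
    simp only [dsum_atI]
    refine tz_list_sum _ _ fun p hp => ?_
    have hpd := deg_der hp
    have hb : ∃ C, ∀ᶠ i in F, |trN (ev (J i) (atI i p.2) * (J i * dg (ψ i)))| ≤ C :=
      ((OBd.ev hJ (hw.der hp).2).mul (hJ.obd.mul (OBd.dg hψ))).trN_bdd
    refine tz_mul ?_ hb
    cases L with
    | nil =>
      rw [List.length_nil] at hd
      omega
    | cons S L' =>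
      rw [List.length_cons] at hd
      exact word_Q S L' (hL S List.mem_cons_self)
        (word_T1 hJ hr L'.length L' (fun a ha => hL a (List.mem_cons_of_mem _ ha)) rfl)
        (hw.der hp).1 (by omega)
  have h3 := hA.add (tz_mul h2 hr)
  rw [add_zero] at h3
  refine h3.congr fun i => ?_
  have e0 : atI i (w ++ [none, some ψ]) = atI i w ++ [none, some (ψ i)] := atI_append _ _ _
  have e1 : ev (J i) [none, some (ψ i)] = J i * dg (ψ i) := by simp
  have e2 : dsum (J i) [none, some (ψ i)] ((QM (J i) (r i) (lat i L)).1 * ev (J i) (atI i w)) 1 =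
      trN ((QM (J i) (r i) (lat i L)).1 * ev (J i) (atI i w)) * trN (dg (ψ i)) := by
    simp [dsum, der]
  rw [e0, ev_append, dsum_append, e1, e2, Matrix.mul_one, ← Matrix.mul_assoc,
    trN_mul_comm' (QM (J i) (r i) (lat i L)).1]
  ring

/-! ### Polynomials of bounded degree -/

/-- finite sums of words with bounded letters and at most `d` letters `J` -/
def PJ (F : Filter ι) (J : ∀ i, Mat (n i)) (d : ℕ) (X : ∀ i, Mat (n i)) : Prop :=
  ∃ (κ : Type) (_ : Fintype κ) (W : κ → List (Option (∀ i, Vec (n i)))),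
    (∀ k, WBd F (W k) ∧ deg (W k) ≤ d) ∧ ∀ i, X i = ∑ k, ev (J i) (atI i (W k))

theorem PJ.congr {d : ℕ} {X X' : ∀ i, Mat (n i)} (h : PJ F J d X) (hX : ∀ i, X' i = X i) :
    PJ F J d X' := by
  obtain ⟨κ, _, W, h1, h2⟩ := h
  exact ⟨κ, _, W, h1, fun i => (hX i).trans (h2 i)⟩

theorem PJ.mono {d e : ℕ} {X : ∀ i, Mat (n i)} (h : PJ F J d X) (hde : d ≤ e) : PJ F J e X := by
  obtain ⟨κ, _, W, h1, h2⟩ := h
  exact ⟨κ, _, W, fun k => ⟨(h1 k).1, (h1 k).2.trans hde⟩, h2⟩

theorem PJ.word {d : ℕ} {w : List (Option (∀ i, Vec (n i)))} (hw : WBd F w) (hd : deg w ≤ d) :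
    PJ F J d (fun i => ev (J i) (atI i w)) :=
  ⟨Unit, inferInstance, fun _ => w, fun _ => ⟨hw, hd⟩, fun i => by simp⟩

theorem PJ.diag {a : ∀ i, Vec (n i)} (ha : VBd F a) (d : ℕ) : PJ F J d (fun i => dg (a i)) := by
  refine (PJ.word (WBd.some ha WBd.nil) (d := d) ?_).congr fun i => ?_
  · rw [deg_some, deg_nil]
    exact Nat.zero_le _
  · simp [atI]

theorem PJ.ofJ : PJ F J 1 J := by
  refine (PJ.word (WBd.none WBd.nil) (d := 1) ?_).congr fun i => ?_
  · rw [deg_none, deg_nil]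
  · simp [atI]

theorem PJ.one (d : ℕ) : PJ F J d (fun _ => 1) := by
  refine (PJ.word WBd.nil (d := d) ?_).congr fun i => ?_
  · rw [deg_nil]
    exact Nat.zero_le _
  · simp [atI]

theorem PJ.add {d : ℕ} {X Y : ∀ i, Mat (n i)} (hX : PJ F J d X) (hY : PJ F J d Y) :
    PJ F J d (fun i => X i + Y i) := by
  obtain ⟨κ, _, W, h1, h2⟩ := hX
  obtain ⟨κ', _, W', h1', h2'⟩ := hY
  refine ⟨κ ⊕ κ', inferInstance, Sum.elim W W', ?_, fun i => ?_⟩
  · rintro (k | k)
    · exact h1 k
    · exact h1' k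
  · show X i + Y i = _
    rw [Fintype.sum_sum_type, h2, h2']
    rfl

theorem PJ.mul {d e : ℕ} {X Y : ∀ i, Mat (n i)} (hX : PJ F J d X) (hY : PJ F J e Y) :
    PJ F J (d + e) (fun i => X i * Y i) := by
  obtain ⟨κ, _, W, h1, h2⟩ := hX
  obtain ⟨κ', _, W', h1', h2'⟩ := hY
  refine ⟨κ × κ', inferInstance, fun k => W k.1 ++ W' k.2,
    fun k => ⟨(h1 _).1.append (h1' _).1, ?_⟩, fun i => ?_⟩
  · rw [deg_append]
    exact add_le_add (h1 _).2 (h1' _).2
  · show X i * Y i = _
    rw [h2, h2', Finset.sum_mul_sum, Fintype.sum_prod_type]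
    simp only [atI_append, ev_append]

theorem PJ.smul {d : ℕ} {X : ∀ i, Mat (n i)} (hX : PJ F J d X) {c : ι → ℝ}
    (hc : ∃ C, ∀ᶠ i in F, |c i| ≤ C) : PJ F J d (fun i => c i • X i) := by
  refine ((PJ.diag (vbd_const hc) 0).mul hX).mono (by omega) |>.congr fun i => ?_
  rw [dg_const, Matrix.smul_mul, Matrix.one_mul]

theorem PJ.sub {d : ℕ} {X Y : ∀ i, Mat (n i)} (hX : PJ F J d X) (hY : PJ F J d Y) :
    PJ F J d (fun i => X i - Y i) := by
  refine (hX.add (hY.smul (c := fun _ => -1)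
    ⟨1, Eventually.of_forall fun i => by simp⟩)).congr fun i => ?_
  rw [neg_one_smul, sub_eq_add_neg]

theorem PJ.obd (hJ : HW F J) {d : ℕ} {X : ∀ i, Mat (n i)} (hX : PJ F J d X) : OBd F X := by
  obtain ⟨κ, _, W, h1, h2⟩ := hX
  have h : ∀ s : Finset κ, OBd F (fun i => ∑ k ∈ s, ev (J i) (atI i (W k))) := by
    classical
    intro s
    induction s using Finset.induction_on with
    | empty =>
      refine ⟨0, le_rfl, Eventually.of_forall fun i v => ?_⟩
      simp [sq]
    | insert a s ha ih =>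
      have := (OBd.ev hJ (h1 a).1).add ih
      simpa [Finset.sum_insert ha] using this
  have := h Finset.univ
  have e : X = fun i => ∑ k, ev (J i) (atI i (W k)) := funext h2
  rw [e]
  exact this

/-- `T_1` -/
theorem PJ.T1 (hJ : HW F J) (hr : ∃ C, ∀ᶠ i in F, |r i| ≤ C) {L : List (∀ i, Vec (n i))}
    (hL : ∀ a ∈ L, VBd F a) {W : ∀ i, Mat (n i)} {d : ℕ} (hW : PJ F J d W) (hd : d ≤ L.length) :
    Tendsto (fun i => trN (W i * (QM (J i) (r i) (lat i L)).2)) F (𝓝 0) := by
  obtain ⟨κ, _, V, h1, h2⟩ := hW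
  have h := tendsto_finsetSum (Finset.univ : Finset κ) fun k _ =>
    word_T1 hJ hr L.length L hL rfl (V k) (h1 k).1 ((h1 k).2.trans hd)
  rw [Finset.sum_const_zero] at h
  refine h.congr fun i => ?_
  rw [h2, Finset.sum_mul, trN_fsum]

/-- `T_2` -/
theorem PJ.T2 (hJ : HW F J) (hr : ∃ C, ∀ᶠ i in F, |r i| ≤ C) {L : List (∀ i, Vec (n i))}
    (hL : ∀ a ∈ L, VBd F a) {ψ : ∀ i, Vec (n i)} (hψ : VBd F ψ) {U : ∀ i, Mat (n i)} {d : ℕ}
    (hU : PJ F J d U) (hd : d ≤ L.length) :
    Tendsto (fun i => trN (U i * J i * dg (ψ i) * (QM (J i) (r i) (lat i L)).2) -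
      r i * trN (dg (ψ i)) * trN (U i * (QM (J i) (r i) (lat i L)).1)) F (𝓝 0) := by
  obtain ⟨κ, _, V, h1, h2⟩ := hU
  have h := tendsto_finsetSum (Finset.univ : Finset κ) fun k _ =>
    word_T2 hJ hr L hL hψ (h1 k).1 ((h1 k).2.trans hd)
  rw [Finset.sum_const_zero] at h
  refine h.congr fun i => ?_
  rw [h2, Finset.sum_mul, Finset.sum_mul, Finset.sum_mul, Finset.sum_mul, trN_fsum, trN_fsum,
    Finset.mul_sum, Finset.sum_sub_distrib]

end seq


end Vale.Agent.P150.F
end

section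

/-! D2, STEP 1: the interface statements `T1d`, `T1k`, `T3`, `T3'`, `OpB`, `L4`. -/

open Filter Topology
open scoped Matrix

namespace Vale.Agent.P150.F

/-- the list `[S_k, ..., S_1]` -/
def lst {α : Type*} (S : ℕ → α) : ℕ → List α
  | 0 => []
  | k + 1 => S (k + 1) :: lst S k

theorem lst_length {α : Type*} (S : ℕ → α) (k : ℕ) : (lst S k).length = k := by
  induction k with
  | zero => rfl
  | succ k ih => rw [lst, List.length_cons, ih]

theorem lst_mem {α : Type*} {S : ℕ → α} {k : ℕ} {a : α} (h : a ∈ lst S k) : ∃ j, a = S j := by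
  induction k with
  | zero => simp [lst] at h
  | succ k ih =>
    rw [lst, List.mem_cons] at h
    rcases h with h | h
    · exact ⟨_, h⟩
    · exact ih h

theorem tS_succ {m : ℕ} (S : ℕ → Vec m) (k : ℕ) : D2.tS S (k + 1) = trN (dg (S (k + 1))) := by
  simp [D2.tS]

theorem QM_lst {m : ℕ} (J : Mat m) (r : ℝ) (S : ℕ → Vec m) (k : ℕ) :
    (QM J r (lst S k)).1 = D2.Qm J r S k ∧ (QM J r (lst S k)).2 = D2.Mm J r S (k + 1) := by
  induction k with
  | zero => exact ⟨rfl, (D2.Mm_one J r S).symm⟩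
  | succ k ih =>
    refine ⟨?_, ?_⟩
    · rw [D2.Qm_succ, ← ih.2]
      rfl
    · rw [D2.Mm_two, D2.Qm_succ, ← ih.2, ← ih.1, tS_succ]
      rfl

section seq

variable {ι : Type*} {F : Filter ι} {n : ι → ℕ} {J : ∀ i, Mat (n i)} {r : ι → ℝ}
  {S f : ∀ i, ℕ → Vec (n i)} {c : ∀ i, ℕ → ℝ}

theorem lat_lst (i : ι) (k : ℕ) : lat i (lst (fun j i' => S i' j) k) = lst (S i) k := by
  induction k with
  | zero => rfl
  | succ k ih => rw [lst, lst, lat_cons, ih]

theorem vbd_lst (hS : ∀ k, VBd F (fun i => S i k)) (k : ℕ) :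
    ∀ a ∈ lst (fun j i => S i j) k, VBd F a := by
  intro a ha
  obtain ⟨j, rfl⟩ := lst_mem ha
  exact hS j

/-- `T_1` -/
theorem seq_T1 (hJ : HW F J) (hr : ∃ C, ∀ᶠ i in F, |r i| ≤ C) (hS : ∀ k, VBd F (fun i => S i k))
    {W : ∀ i, Mat (n i)} {d k : ℕ} (hW : PJ F J d W) (hd : d ≤ k) :
    Tendsto (fun i => trN (W i * D2.Mm (J i) (r i) (S i) (k + 1))) F (𝓝 0) := by
  refine (hW.T1 hJ hr (vbd_lst hS k) (hd.trans (lst_length _ k).ge)).congr fun i => ?_
  rw [lat_lst, (QM_lst _ _ _ _).2]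

/-- `T_2` -/
theorem seq_T2 (hJ : HW F J) (hr : ∃ C, ∀ᶠ i in F, |r i| ≤ C) (hS : ∀ k, VBd F (fun i => S i k))
    {ψ : ∀ i, Vec (n i)} (hψ : VBd F ψ) {U : ∀ i, Mat (n i)} {d k : ℕ} (hU : PJ F J d U)
    (hd : d ≤ k) :
    Tendsto (fun i => trN (U i * J i * dg (ψ i) * D2.Mm (J i) (r i) (S i) (k + 1)) -
      r i * trN (dg (ψ i)) * trN (U i * D2.Qm (J i) (r i) (S i) k)) F (𝓝 0) := by
  refine (hU.T2 hJ hr (vbd_lst hS k) hψ (hd.trans (lst_length _ k).ge)).congr fun i => ?_
  rw [lat_lst, (QM_lst _ _ _ _).2, (QM_lst _ _ _ _).1]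

theorem bdd_r2t (hr : ∃ C, ∀ᶠ i in F, |r i| ≤ C) (hS : ∀ k, VBd F (fun i => S i k)) (k : ℕ) :
    ∃ C, ∀ᶠ i in F, |r i ^ 2 * D2.tS (S i) (k + 1)| ≤ C := by
  have h := trdg_bdd (hS (k + 1)) hr
  simpa only [tS_succ] using h

theorem pj_Mm (hr : ∃ C, ∀ᶠ i in F, |r i| ≤ C) (hS : ∀ k, VBd F (fun i => S i k)) (k : ℕ) :
    PJ F J k (fun i => D2.Qm (J i) (r i) (S i) k) ∧
    PJ F J (k + 1) (fun i => D2.Mm (J i) (r i) (S i) (k + 1)) := by
  induction k with
  | zero =>
    refine ⟨(PJ.one 0).congr fun _ => rfl, (PJ.ofJ.smul hr).congr fun i => ?_⟩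
    rw [D2.Mm_one]
  | succ k ih =>
    have h1 : PJ F J (k + 1) (fun i => D2.Qm (J i) (r i) (S i) (k + 1)) := by
      refine (((PJ.diag (hS (k + 1)) 0).mul ih.2).mono (by omega)).congr fun _ => ?_
      rw [D2.Qm_succ]
    refine ⟨h1, ?_⟩
    refine ((((PJ.ofJ.mul h1).mono (by omega : 1 + (k + 1) ≤ k + 1 + 1)).smul hr).sub
      ((ih.1.mono (by omega)).smul (bdd_r2t hr hS k))).congr fun i => ?_
    rw [D2.Mm_two]

theorem pj_rJc (hr : ∃ C, ∀ᶠ i in F, |r i| ≤ C) (hc : ∀ k, ∃ C, ∀ᶠ i in F, |c i k| ≤ C) (k : ℕ) :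
    PJ F J 1 (fun i => r i • J i + c i k • (1 : Mat (n i))) :=
  (PJ.ofJ.smul hr).add ((PJ.one 1).smul (hc k))

theorem pj_Xi (hr : ∃ C, ∀ᶠ i in F, |r i| ≤ C) (hS : ∀ k, VBd F (fun i => S i k))
    (hf : ∀ k, VBd F (fun i => f i k)) (hc : ∀ k, ∃ C, ∀ᶠ i in F, |c i k| ≤ C) (k : ℕ) :
    PJ F J k (fun i => D2.DK (J i) (r i) (S i) (f i) (c i) (k + 1)) ∧
    PJ F J (k + 1) (fun i => D2.Xi (J i) (r i) (S i) (f i) (c i) (k + 1)) := by
  induction k with
  | zero =>
    have h1 : PJ F J 0 (fun i => D2.DK (J i) (r i) (S i) (f i) (c i) 1) :=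
      (PJ.diag (hS 1) 0).congr fun i => by rw [D2.DK_one]
    refine ⟨h1, ?_⟩
    refine ((h1.mul (pj_rJc hr hc 1)).mono (by omega)).congr fun i => ?_
    rw [D2.DK_one, D2.Xi_one]
  | succ k ih =>
    have h1 : PJ F J (k + 1) (fun i => D2.DK (J i) (r i) (S i) (f i) (c i) (k + 2)) :=
      ((ih.2.mul (PJ.diag (hf (k + 2)) 0)).mono (by omega)).congr fun i => by rw [D2.DK_succ]
    refine ⟨h1, ?_⟩
    refine ((h1.mul (pj_rJc hr hc (k + 2))).sub
      ((ih.1.mono (by omega)).smul (bdd_r2t hr hS k))).congr fun i => ?_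
    rw [D2.Xi_succ]

/-- `T_3'` -/
theorem seq_T3' (hJ : HW F J) (hr : ∃ C, ∀ᶠ i in F, |r i| ≤ C) (hS : ∀ k, VBd F (fun i => S i k))
    (hf : ∀ k, VBd F (fun i => f i k)) (hc : ∀ k, ∃ C, ∀ᶠ i in F, |c i k| ≤ C)
    {ψ : ∀ i, Vec (n i)} (hψ : VBd F ψ) {k l : ℕ} (hkl : k < l) :
    Tendsto (fun i => trN (D2.Xi (J i) (r i) (S i) (f i) (c i) (k + 1) * dg (ψ i) *
      D2.Mm (J i) (r i) (S i) (l + 1))) F (𝓝 0) :=
  seq_T1 hJ hr hS ((pj_Xi hr hS hf hc k).2.mul (PJ.diag hψ 0)) (by omega)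

/-- `T_{1,k}` -/
theorem seq_T1k (hJ : HW F J) (hr : ∃ C, ∀ᶠ i in F, |r i| ≤ C) (hS : ∀ k, VBd F (fun i => S i k))
    (hf : ∀ k, VBd F (fun i => f i k)) (hc : ∀ k, ∃ C, ∀ᶠ i in F, |c i k| ≤ C)
    {ψ : ∀ i, Vec (n i)} (hψ : VBd F ψ) {k l : ℕ} (hkl : k ≤ l) :
    Tendsto (fun i => trN (D2.DK (J i) (r i) (S i) (f i) (c i) (k + 1) * dg (ψ i) *
      D2.Mm (J i) (r i) (S i) (l + 1))) F (𝓝 0) :=
  seq_T1 hJ hr hS ((pj_Xi hr hS hf hc k).1.mul (PJ.diag hψ 0)) (by omega)

/-- `T_3` -/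
theorem seq_T3 (hJ : HW F J) (hr : ∃ C, ∀ᶠ i in F, |r i| ≤ C) (hS : ∀ k, VBd F (fun i => S i k))
    (hf : ∀ k, VBd F (fun i => f i k)) (hc : ∀ k, ∃ C, ∀ᶠ i in F, |c i k| ≤ C) (k : ℕ) :
    ∀ {ψ : ∀ i, Vec (n i)}, VBd F ψ →
    Tendsto (fun i => trN (D2.Xi (J i) (r i) (S i) (f i) (c i) (k + 1) * dg (ψ i) *
      D2.Mm (J i) (r i) (S i) (k + 1)) - D2.chiS (r i) (S i) (f i) (k + 1) * trN (dg (ψ i))) F
      (𝓝 0) := by
  induction k with
  | zero =>
    intro ψ hψ
    have h1 := tz_mul (seq_T2 hJ hr hS hψ (PJ.diag (hS 1) 0) (k := 0) le_rfl) hr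
    have h2 := tz_mul (seq_T1 hJ hr hS ((PJ.diag (hS 1) 0).mul (PJ.diag hψ 0)) (k := 0) le_rfl)
      (hc 1)
    have h3 := h1.add h2
    rw [add_zero] at h3
    refine h3.congr fun i => ?_
    have e0 : D2.Qm (J i) (r i) (S i) 0 = 1 := rfl
    have e1 : D2.chiS (r i) (S i) (f i) 1 = r i ^ 2 * trN (dg (S i 1)) := by
      show r i ^ 2 * D2.tS (S i) 1 = _
      rw [tS_succ]
    rw [zero_add, e0, e1, D2.Xi_one, Matrix.mul_one]
    simp only [Matrix.mul_add, Matrix.add_mul, Matrix.mul_smul, Matrix.smul_mul, Matrix.mul_one,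
      trN_add', trN_smul', Matrix.mul_assoc]
    ring
  | succ k ih =>
    intro ψ hψ
    have hDK := (pj_Xi (J := J) hr hS hf hc (k + 1)).1
    have h1 := tz_mul (seq_T2 hJ hr hS hψ hDK (k := k + 1) le_rfl) hr
    have h2 := tz_mul (seq_T1 hJ hr hS (hDK.mul (PJ.diag hψ 0)) (k := k + 1) le_rfl) (hc (k + 2))
    have h3 := tz_mul (seq_T1 hJ hr hS ((pj_Xi (J := J) hr hS hf hc k).1.mul (PJ.diag hψ 0))
      (k := k + 1) (by omega)) (bdd_r2t hr hS k)
    have hb : ∃ C, ∀ᶠ i in F, |r i * (r i * trN (dg (ψ i)))| ≤ C :=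
      bdd_mul hr (bdd_mul hr (OBd.dg hψ).trN_bdd)
    have h4 := tz_mul (ih ((hf (k + 2)).mul (hS (k + 1)))) hb
    have h5 := ((h1.add h2).sub h3).add h4
    rw [add_zero, sub_zero, add_zero] at h5
    refine h5.congr fun i => ?_
    have e1 : D2.chiS (r i) (S i) (f i) (k + 1 + 1) = r i ^ 2 * D2.chiS (r i) (S i) (f i) (k + 1) *
        trN (dg (f i (k + 2) * S i (k + 1))) := by
      rw [← dg_mul_dg']
      rfl
    have e2 : trN (D2.DK (J i) (r i) (S i) (f i) (c i) (k + 1 + 1) *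
        D2.Qm (J i) (r i) (S i) (k + 1)) =
        trN (D2.Xi (J i) (r i) (S i) (f i) (c i) (k + 1) * dg (f i (k + 2) * S i (k + 1)) *
          D2.Mm (J i) (r i) (S i) (k + 1)) := by
      rw [D2.Qm_succ, D2.DK_succ, ← dg_mul_dg']
      simp only [Matrix.mul_assoc]
    rw [e1, e2]
    have e3 : D2.Xi (J i) (r i) (S i) (f i) (c i) (k + 1 + 1) = _ := D2.Xi_succ _ _ _ _ _ _
    rw [e3]
    simp only [Matrix.mul_add, Matrix.add_mul, Matrix.sub_mul, Matrix.mul_smul, Matrix.smul_mul,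
      Matrix.mul_one, trN_add', trN_sub', trN_smul', Matrix.mul_assoc]
    ring

end seq

/-! ### Off-diagonal entries -/

section off

variable {m : ℕ}

/-- fourth moment of the off-diagonal entries -/
noncomputable def off4 (X : Mat m) : ℝ := ∑ j, ∑ l, if j = l then 0 else X j l ^ 4

theorem off4_nonneg (X : Mat m) : 0 ≤ off4 X := by
  refine Finset.sum_nonneg fun j _ => Finset.sum_nonneg fun l _ => ?_
  split_ifs
  · exact le_rfl
  · positivity

theorem off4_add (X Y : Mat m) : off4 (X + Y) ≤ 8 * (off4 X + off4 Y) := by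
  unfold off4
  rw [← Finset.sum_add_distrib, Finset.mul_sum]
  refine Finset.sum_le_sum fun j _ => ?_
  rw [← Finset.sum_add_distrib, Finset.mul_sum]
  refine Finset.sum_le_sum fun l _ => ?_
  split_ifs
  · simp
  · rw [Matrix.add_apply]
    linarith only [mul_nonneg (sq_nonneg (X j l - Y j l)) (sq_nonneg (X j l - Y j l)), mul_nonneg (sq_nonneg (X j l - Y j l)) (sq_nonneg (X j l + Y j l))]

theorem off4_smul (c : ℝ) (X : Mat m) : off4 (c • X) = c ^ 4 * off4 X := by
  unfold off4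
  rw [Finset.mul_sum]
  refine Finset.sum_congr rfl fun j _ => ?_
  rw [Finset.mul_sum]
  refine Finset.sum_congr rfl fun l _ => ?_
  split_ifs
  · simp
  · rw [Matrix.smul_apply, smul_eq_mul, mul_pow]

theorem off4_dg_mul {a : Vec m} {B : ℝ} (ha : ∀ i, |a i| ≤ B) (X : Mat m) :
    off4 (dg a * X) ≤ B ^ 4 * off4 X := by
  unfold off4
  rw [Finset.mul_sum]
  refine Finset.sum_le_sum fun j _ => ?_
  rw [Finset.mul_sum]
  refine Finset.sum_le_sum fun l _ => ?_
  split_ifs
  · simp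
  · unfold dg
    rw [Matrix.diagonal_mul, mul_pow]
    refine mul_le_mul_of_nonneg_right ?_ (by positivity)
    have h := pow_le_pow_left₀ (abs_nonneg _) (ha j) 4
    rwa [← abs_pow, abs_of_nonneg (by positivity : 0 ≤ a j ^ 4)] at h

theorem off4_one : off4 (1 : Mat m) = 0 := by
  unfold off4
  refine Finset.sum_eq_zero fun j _ => Finset.sum_eq_zero fun l _ => ?_
  split_ifs with h
  · rfl
  · rw [Matrix.one_apply_ne h]
    norm_num

/-- off-diagonal entries of a word with letters bounded by `B` -/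
theorem off4_word {J : Mat m} {ℓ : ℕ} {ε B : ℝ} (h : OD J ℓ ε) (hε : 0 ≤ ε) (hB : 1 ≤ B)
    (as : List (Vec m)) (hl : as.length ≤ ℓ) (hb : ∀ b ∈ as, ∀ i, |b i| ≤ B) :
    off4 (word J as) ≤ (B ^ as.length) ^ 4 * (ε * m) := by
  have hB0 : 0 < B := by linarith
  rcases Nat.eq_zero_or_pos as.length with h0 | h0
  · rw [List.length_eq_zero_iff.1 h0, word, off4_one]
    positivity
  obtain ⟨as', has'⟩ : ∃ as' : List (Vec m), as' = as.map fun b => B⁻¹ • b := ⟨_, rfl⟩
  have hbd : Bdd as' := by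
    intro b hb' i
    rw [has', List.mem_map] at hb'
    obtain ⟨b0, hb0, rfl⟩ := hb'
    rw [Pi.smul_apply, smul_eq_mul, abs_mul, abs_of_pos (inv_pos.2 hB0), inv_mul_le_iff₀ hB0,
      mul_one]
    exact hb b0 hb0 i
  have has : as = as'.map fun b => B • b := by
    rw [has', List.map_map]
    have : ((fun b : Vec m => B • b) ∘ fun b => B⁻¹ • b) = id := by
      funext b
      simp [smul_smul, mul_inv_cancel₀ hB0.ne']
    rw [this, List.map_id]
  have hlen : as.length = as'.length := by rw [has', List.length_map]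
  have h1 : off4 (word J as') ≤ ε * m := h as' (by omega) (by omega) hbd
  have e : off4 (word J as) = (B ^ as.length) ^ 4 * off4 (word J as') := by
    rw [hlen, ← off4_smul, ← word_smul, ← has]
  rw [e]
  exact mul_le_mul_of_nonneg_left h1 (by positivity)

end off

section seq

variable {ι : Type*} {F : Filter ι} {n : ι → ℕ} {J : ∀ i, Mat (n i)}

theorem off4_ev (hod : ∀ (l : ℕ), ∀ ε > 0, ∀ᶠ i in F, OD (J i) l ε)
    {w : List (Option (∀ i, Vec (n i)))} (hw : WBd F w) :
    Tendsto (fun i => off4 (ev (J i) (atI i w)) / n i) F (𝓝 0) := by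
  obtain ⟨B, hB, hbd⟩ := hw.bound
  rw [Metric.tendsto_nhds]
  intro ε hε
  obtain ⟨D, hD⟩ : ∃ D : ℝ, D = (B ^ w.length) ^ 4 * ((B ^ w.length) ^ w.length) ^ 4 := ⟨_, rfl⟩
  have hD0 : 0 < D := by rw [hD]; positivity
  have hε' : 0 < ε / (2 * D) := by positivity
  filter_upwards [hbd, hod w.length _ hε'] with i h1 h2
  have e1 : (atI i w).length = w.length := by simp [atI]
  have hb := nrm_bound hB (atI i w) h1
  have hl := nrm_length (atI i w)
  rw [e1] at hb hl
  have hB1 : 1 ≤ B ^ w.length := one_le_pow₀ hB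
  have h3 := off4_word h2 hε'.le hB1 (nrm (atI i w)).2 hl
    fun b hb' => hb b (List.mem_cons_of_mem _ hb')
  have h4 : off4 (ev (J i) (atI i w)) ≤ D * (ε / (2 * D) * n i) := by
    rw [ev_eq_nrm]
    refine (off4_dg_mul (hb _ List.mem_cons_self) _).trans ?_
    rw [hD, mul_assoc]
    refine mul_le_mul_of_nonneg_left (h3.trans ?_) (by positivity)
    rw [← hD]
    refine mul_le_mul_of_nonneg_right ?_ (by (clear * - hε hD0; positivity))
    exact pow_le_pow_left₀ (by positivity) (pow_le_pow_right₀ hB1 hl) 4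
  rw [Real.dist_eq, sub_zero, abs_of_nonneg (div_nonneg (off4_nonneg _) (Nat.cast_nonneg _))]
  rcases Nat.eq_zero_or_pos (n i) with h0 | h0
  · have h0' : (n i : ℝ) = 0 := by exact_mod_cast h0
    rw [h0', div_zero]
    exact hε
  · have hn : (0 : ℝ) < n i := by exact_mod_cast h0
    rw [div_lt_iff₀ hn]
    have : D * (ε / (2 * D) * n i) = ε / 2 * n i := by field_simp
    rw [this] at h4
    linarith only [h4, mul_pos (sub_pos.2 hε) (sub_pos.2 hn)]

theorem PJ.off4 (hod : ∀ (l : ℕ), ∀ ε > 0, ∀ᶠ i in F, OD (J i) l ε) {d : ℕ}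
    {X : ∀ i, Mat (n i)} (hX : PJ F J d X) : Tendsto (fun i => off4 (X i) / n i) F (𝓝 0) := by
  obtain ⟨κ, _, W, h1, h2⟩ := hX
  have h : ∀ s : Finset κ, Tendsto (fun i => Vale.Agent.P150.F.off4 (∑ k ∈ s, ev (J i) (atI i (W k))) / n i) F
      (𝓝 0) := by
    classical
    intro s
    induction s using Finset.induction_on with
    | empty =>
      refine tendsto_const_nhds.congr fun i => ?_
      simp [Vale.Agent.P150.F.off4]
    | insert a s ha ih =>
      have h3 := ((off4_ev hod (h1 a).1).add ih).const_mul 8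
      rw [add_zero, mul_zero] at h3
      refine squeeze_zero (fun i => div_nonneg (off4_nonneg _) (Nat.cast_nonneg _)) (fun i => ?_) h3
      rw [Finset.sum_insert ha, ← add_div, mul_div_assoc']
      exact div_le_div_of_nonneg_right (off4_add _ _) (Nat.cast_nonneg _)
  refine (h Finset.univ).congr fun i => ?_
  rw [h2]

end seq

/-! ### Families -/

theorem abs_ampM_le {m : ℕ} (M : Mat m) (r : ℝ) (y : Vec m) (x : Cfg m) (k : ℕ) (j : Fin m) :
    |ampM M r y x k j| ≤ 1 := by
  match k with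
  | 0 =>
    show |sp (x j)| ≤ 1
    cases x j <;> simp [sp]
  | 1 => exact (Real.abs_tanh_lt_one _).le
  | k + 2 => exact (Real.abs_tanh_lt_one _).le

namespace D2

section Fam

variable {ι : Type} {F : Filter ι} {d : ι → Dat}

theorem ev_comap {P : (Σ i, Cfg (d i).n) → Prop} :
    (∀ᶠ p in F.comap Sigma.fst, P p) ↔ ∀ᶠ i in F, ∀ x, P ⟨i, x⟩ := by
  rw [Filter.eventually_comap]
  constructor
  · intro h
    filter_upwards [h] with i hi x
    exact hi ⟨i, x⟩ rfl
  · intro h
    filter_upwards [h] with i hi p hp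
    subst hp
    exact hi p.2

theorem uz_of_tendsto {e : Scl d}
    (h : Tendsto (fun p : Σ i, Cfg (d i).n => e p.1 p.2) (F.comap Sigma.fst) (𝓝 0)) :
    UZ F d e := by
  intro ε hε
  have h1 := (Metric.tendsto_nhds.1 h) ε hε
  rw [ev_comap] at h1
  filter_upwards [h1] with i hi x
  have h2 := hi x
  rw [Real.dist_eq, sub_zero] at h2
  exact h2.le

theorem vbd_of_eb {G : Fld d} (h : EB F d G) :
    VBd (F.comap Sigma.fst) (fun p : Σ i, Cfg (d i).n => G p.1 p.2) := by
  obtain ⟨C, hC⟩ := h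
  exact ⟨C, ev_comap.2 hC⟩

theorem HypJ.hw (h : HypJ F d) :
    HW (F.comap Sigma.fst) (fun p : Σ i, Cfg (d i).n => (d p.1).J) :=
  ⟨ev_comap.2 (Eventually.of_forall fun i _ => h.op i),
    fun l ε hε => ev_comap.2 ((h.sd l ε hε).mono fun _ hi _ => hi)⟩

theorem HypJ.hod (h : HypJ F d) : ∀ (l : ℕ), ∀ ε > 0,
    ∀ᶠ p in F.comap Sigma.fst, OD ((fun p : Σ i, Cfg (d i).n => (d p.1).J) p) l ε :=
  fun l ε hε => ev_comap.2 ((h.od l ε hε).mono fun _ hi _ => hi)

theorem HypJ.hr (h : HypJ F d) :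
    ∃ C, ∀ᶠ p in F.comap Sigma.fst, |(fun p : Σ i, Cfg (d i).n => (d p.1).r) p| ≤ C :=
  ⟨1, ev_comap.2 (Eventually.of_forall fun i _ => by
    simp only
    rw [abs_of_nonneg (h.r0 i)]
    exact h.r1 i)⟩

theorem S_nonneg (e : Dat) (x : Cfg e.n) (k : ℕ) (j : Fin e.n) : 0 ≤ e.S x k j := by
  have h := abs_ampM_le e.M e.r e.y x k j
  have h2 : ampM e.M e.r e.y x k j ^ 2 ≤ 1 := by
    rw [← sq_abs]
    exact pow_le_one₀ (abs_nonneg _) h
  show 0 ≤ 1 - ampM e.M e.r e.y x k j ^ 2
  linarith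

theorem S_le_one (e : Dat) (x : Cfg e.n) (k : ℕ) (j : Fin e.n) : e.S x k j ≤ 1 := by
  show 1 - ampM e.M e.r e.y x k j ^ 2 ≤ 1
  have := sq_nonneg (ampM e.M e.r e.y x k j)
  linarith

theorem abs_t_le (e : Dat) (x : Cfg e.n) (k : ℕ) : |e.t x k| ≤ 1 := by
  unfold Dat.t tS
  split_ifs
  · simp
  · refine abs_trN_le_of_opLe zero_le_one (opLe_dg_of_le fun j => ?_)
    rw [abs_of_nonneg (S_nonneg e x k j)]
    exact S_le_one e x k j

theorem hS_dat (k : ℕ) :
    VBd (F.comap Sigma.fst) (fun p : Σ i, Cfg (d i).n => (d p.1).S p.2 k) :=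
  ⟨1, Eventually.of_forall fun p j => by
    rw [abs_of_nonneg (S_nonneg _ _ k j)]
    exact S_le_one _ _ k j⟩

theorem HypJ.abs_c_le (h : HypJ F d) (i : ι) (x : Cfg (d i).n) (k : ℕ) : |(d i).c x k| ≤ 2 := by
  unfold Dat.c
  rw [abs_mul]
  have h1 : |(d i).r ^ 2| ≤ 1 := by
    rw [abs_of_nonneg (sq_nonneg _)]
    exact pow_le_one₀ (h.r0 i) (h.r1 i)
  have h2 : |(d i).t x k - (d i).t x (k - 1)| ≤ 2 := by
    have := abs_sub (( d i).t x k) ((d i).t x (k - 1))
    have h3 := abs_t_le (d i) x k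
    have h4 := abs_t_le (d i) x (k - 1)
    linarith
  calc |(d i).r ^ 2| * |(d i).t x k - (d i).t x (k - 1)| ≤ 1 * 2 :=
        mul_le_mul h1 h2 (abs_nonneg _) zero_le_one
    _ = 2 := by norm_num

theorem HypJ.hc (h : HypJ F d) (k : ℕ) : ∃ C, ∀ᶠ p in F.comap Sigma.fst,
    |(fun p : Σ i, Cfg (d i).n => (d p.1).c p.2) p k| ≤ C :=
  ⟨2, Eventually.of_forall fun p => h.abs_c_le p.1 p.2 k⟩

theorem hf_dat (hf : ∀ k, EB F d fun i x => (d i).f x k) (k : ℕ) :
    VBd (F.comap Sigma.fst) (fun p : Σ i, Cfg (d i).n => (d p.1).f p.2 k) :=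
  vbd_of_eb (hf k)

/-- T1 (diagonal form) -/
theorem t1d (h : HypJ F d) : T1d F d := by
  intro k hk ψ hψ
  obtain ⟨l, rfl⟩ : ∃ l, k = l + 1 := ⟨k - 1, by omega⟩
  exact uz_of_tendsto (seq_T1 h.hw h.hr hS_dat (PJ.diag (vbd_of_eb hψ) 0) (Nat.zero_le l))

/-- T1 for `DK_k` -/
theorem t1k (h : HypJ F d) (hf : ∀ k, EB F d fun i x => (d i).f x k) : T1k F d := by
  intro k l hk hkl ψ hψ
  obtain ⟨k', rfl⟩ : ∃ k', k = k' + 1 := ⟨k - 1, by omega⟩
  obtain ⟨l', rfl⟩ : ∃ l', l = l' + 1 := ⟨l - 1, by omega⟩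
  exact uz_of_tendsto (seq_T1k h.hw h.hr hS_dat (hf_dat hf) h.hc (vbd_of_eb hψ)
    (by omega : k' ≤ l'))

/-- T3 -/
theorem t3 (h : HypJ F d) (hf : ∀ k, EB F d fun i x => (d i).f x k) : T3 F d := by
  intro k hk ψ hψ
  obtain ⟨k', rfl⟩ : ∃ k', k = k' + 1 := ⟨k - 1, by omega⟩
  exact uz_of_tendsto (seq_T3 h.hw h.hr hS_dat (hf_dat hf) h.hc k' (vbd_of_eb hψ))

/-- T3' -/
theorem t3' (h : HypJ F d) (hf : ∀ k, EB F d fun i x => (d i).f x k) : T3' F d := by
  intro k l hk hkl ψ hψ
  obtain ⟨k', rfl⟩ : ∃ k', k = k' + 1 := ⟨k - 1, by omega⟩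
  obtain ⟨l', rfl⟩ : ∃ l', l = l' + 1 := ⟨l - 1, by omega⟩
  exact uz_of_tendsto (seq_T3' h.hw h.hr hS_dat (hf_dat hf) h.hc (vbd_of_eb hψ)
    (by omega : k' < l'))

theorem opLe_of_obd {X : ∀ i, Cfg (d i).n → Mat (d i).n}
    (h : OBd (F.comap Sigma.fst) (fun p : Σ i, Cfg (d i).n => X p.1 p.2)) :
    ∃ C, 0 ≤ C ∧ ∀ᶠ i in F, ∀ x, OpLe (X i x) C := by
  obtain ⟨C, hC, h1⟩ := h
  exact ⟨C, hC, ev_comap.1 h1⟩

theorem opB_MM (h : HypJ F d) (k : ℕ) : ∃ C, 0 ≤ C ∧ ∀ᶠ i in F, ∀ x, OpLe ((d i).MM x k) C := by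
  have h1 : ∀ k, ∃ C, 0 ≤ C ∧ ∀ᶠ i in F, ∀ x, OpLe ((d i).MM x (k + 1)) C := fun k =>
    opLe_of_obd ((pj_Mm (J := fun p : Σ i, Cfg (d i).n => (d p.1).J) h.hr hS_dat k).2.obd h.hw)
  cases k with
  | zero => exact h1 0
  | succ k => exact h1 k

theorem opB_DK (h : HypJ F d) (hf : ∀ k, EB F d fun i x => (d i).f x k) (k : ℕ) :
    ∃ C, 0 ≤ C ∧ ∀ᶠ i in F, ∀ x, OpLe ((d i).DK x k) C := by
  have h1 : ∀ k, ∃ C, 0 ≤ C ∧ ∀ᶠ i in F, ∀ x, OpLe ((d i).DK x (k + 1)) C := fun k =>
    opLe_of_obd ((pj_Xi (J := fun p : Σ i, Cfg (d i).n => (d p.1).J) h.hr hS_dat (hf_dat hf)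
      h.hc k).1.obd h.hw)
  cases k with
  | zero => exact h1 0
  | succ k => exact h1 k

theorem Xi_zero {m : ℕ} (J : Mat m) (r : ℝ) (S f : ℕ → Vec m) (c : ℕ → ℝ) :
    Xi J r S f c 0 = dg (S 1) * (r • J + c 0 • (1 : Mat m)) := by
  simp [Xi, KK, tS]

theorem opB_Xi (h : HypJ F d) (hf : ∀ k, EB F d fun i x => (d i).f x k) (k : ℕ) :
    ∃ C, 0 ≤ C ∧ ∀ᶠ i in F, ∀ x, OpLe ((d i).Xi x k) C := by
  cases k with
  | zero =>
    have h1 := (OBd.dg (hS_dat (F := F) (d := d) 1)).mul
      (((pj_rJc (J := fun p : Σ i, Cfg (d i).n => (d p.1).J) h.hr h.hc 0)).obd h.hw)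
    have h2 : OBd (F.comap Sigma.fst) (fun p : Σ i, Cfg (d i).n => (d p.1).Xi p.2 0) := by
      have e : (fun p : Σ i, Cfg (d i).n => (d p.1).Xi p.2 0) = fun p => dg ((d p.1).S p.2 1) *
          ((d p.1).r • (d p.1).J + (d p.1).c p.2 0 • (1 : Mat (d p.1).n)) := by
        funext p
        exact Xi_zero _ _ _ _ _
      rw [e]
      exact h1
    exact opLe_of_obd h2
  | succ k =>
    exact opLe_of_obd ((pj_Xi (J := fun p : Σ i, Cfg (d i).n => (d p.1).J) h.hr hS_dat
      (hf_dat hf) h.hc k).2.obd h.hw)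

/-- operator bounds -/
theorem opB (h : HypJ F d) (hf : ∀ k, EB F d fun i x => (d i).f x k) : OpB F d := by
  intro k
  obtain ⟨C1, h1, e1⟩ := opB_MM h k
  obtain ⟨C2, h2, e2⟩ := opB_DK h hf k
  obtain ⟨C3, h3, e3⟩ := opB_Xi h hf k
  refine ⟨C1 + C2 + C3, ?_⟩
  filter_upwards [e1, e2, e3] with i g1 g2 g3 x
  exact ⟨(g1 x).mono h1 (by linarith), (g2 x).mono h2 (by linarith), (g3 x).mono h3 (by linarith)⟩

theorem abs_diag_le {m : ℕ} {A : Mat m} {C : ℝ} (hC : 0 ≤ C) (h : OpLe A C) (j l : Fin m) :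
    |A l j| ≤ C := by
  have h1 := h (Pi.single j 1)
  have h2 : sq (Pi.single j (1 : ℝ) : Vec m) = 1 := by
    unfold sq
    rw [Finset.sum_eq_single j]
    · simp
    · intro b _ hb
      simp [Pi.single_eq_of_ne hb]
    · simp
  have h3 : A l j ^ 2 ≤ sq (A.mulVec (Pi.single j 1)) := by
    unfold sq
    rw [Matrix.mulVec_single_one]
    exact Finset.single_le_sum (f := fun i => A.col j i ^ 2) (fun i _ => sq_nonneg _)
      (Finset.mem_univ l)
  rw [h2, mul_one] at h1
  exact abs_le_of_sq_le_sq (h3.trans h1) hC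

theorem diag4_le {m : ℕ} {A : Mat m} {C : ℝ} (hC : 0 ≤ C) (h : OpLe A C) :
    (∑ j, A j j ^ 4) / m ≤ C ^ 3 * trN (dg (fun j => if 0 ≤ A j j then 1 else -1) * A) := by
  unfold trN
  rw [mul_div_assoc']
  refine div_le_div_of_nonneg_right ?_ (Nat.cast_nonneg _)
  rw [Finset.mul_sum]
  refine Finset.sum_le_sum fun j _ => ?_
  have h1 := abs_diag_le hC h j j
  have e : (dg (fun j => if 0 ≤ A j j then 1 else -1) * A) j j = |A j j| := by
    unfold dg
    rw [Matrix.diagonal_mul]
    split_ifs with h0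
    · rw [one_mul, abs_of_nonneg h0]
    · rw [neg_one_mul, abs_of_neg (not_le.1 h0)]
  rw [e]
  have e4 : A j j ^ 4 = |A j j| ^ 3 * |A j j| := by
    rw [← pow_succ, ← abs_pow, abs_of_nonneg (by positivity : 0 ≤ A j j ^ 4)]
  rw [e4]
  exact mul_le_mul_of_nonneg_right (pow_le_pow_left₀ (abs_nonneg _) h1 3) (abs_nonneg _)

theorem sum4_eq {m : ℕ} (A : Mat m) :
    ∑ j, ∑ l, A j l ^ 4 = off4 A + ∑ j, A j j ^ 4 := by
  unfold off4
  rw [← Finset.sum_add_distrib]
  refine Finset.sum_congr rfl fun j _ => ?_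
  have e : ∀ l, A j l ^ 4 = (if j = l then 0 else A j l ^ 4) + if j = l then A j l ^ 4 else 0 := by
    intro l
    split_ifs <;> simp
  rw [Finset.sum_congr rfl fun l _ => e l, Finset.sum_add_distrib]
  congr 1
  simp

/-- `ℓ⁴` smallness of `M_k` -/
theorem l4 (h : HypJ F d) : L4 F d := by
  intro k hk
  obtain ⟨l, rfl⟩ : ∃ l, k = l + 1 := ⟨k - 1, by omega⟩
  obtain ⟨C, hC, hop⟩ := opB_MM h (l + 1)
  have h1 : UZ F d (fun i x => off4 ((d i).MM x (l + 1)) / (d i).n) :=
    uz_of_tendsto ((pj_Mm (J := fun p : Σ i, Cfg (d i).n => (d p.1).J) h.hr hS_dat l).2.off4 h.hod)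
  have h2 := t1d h (l + 1) (by omega) (fun i x j => if 0 ≤ (d i).MM x (l + 1) j j then 1 else -1)
    ⟨1, Eventually.of_forall fun i x j => by
      show |if 0 ≤ (d i).MM x (l + 1) j j then (1 : ℝ) else -1| ≤ 1
      split_ifs <;> simp⟩
  intro ε hε
  have hε2 : 0 < ε / (2 * (C ^ 3 + 1)) := by positivity
  filter_upwards [hop, h1 (ε / 2) (by positivity), h2 _ hε2] with i g1 g2 g3 x
  rw [sum4_eq, add_div]
  have a1 := g2 x
  have a2 := g3 x
  have a3 := diag4_le hC (g1 x)
  have a4 : 0 ≤ (∑ j, (d i).MM x (l + 1) j j ^ 4) / ((d i).n : ℝ) :=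
    div_nonneg (Finset.sum_nonneg fun j _ => by positivity) (Nat.cast_nonneg _)
  rw [abs_of_nonneg (div_nonneg (off4_nonneg _) (Nat.cast_nonneg _))] at a1
  rw [abs_of_nonneg (add_nonneg (div_nonneg (off4_nonneg _) (Nat.cast_nonneg _)) a4)]
  have a5 := (le_abs_self _).trans a2
  have a6 : C ^ 3 * (ε / (2 * (C ^ 3 + 1))) ≤ ε / 2 := by
    rw [mul_div_assoc', div_le_div_iff₀ (by positivity) (by norm_num)]
    linarith only [hε]
  have a7 := mul_le_mul_of_nonneg_left a5 (pow_nonneg hC 3)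
  linarith only [a7, a6, a3, a1]

end Fam

end D2

end Vale.Agent.P150.F
end
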