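import Mathlib
import Vale.Agent.P150.Bdl.B11
import Vale.Agent.P150.Bdl.B3
import Vale.Agent.P150.Bdl.B6
import Vale.Agent.P150.Bdl.B14

set_option linter.all false

section

/-! G3 (star-shapedness), part A: the Sudakov–Fernique comparison on a finite family of
magnetizations. -/

open MeasureTheory ProbabilityTheory Real

namespace Vale.Agent.P150.F

variable {n : ℕ}

/-- coefficients of `β ⟨m, J m⟩ / n` -/
noncomputable def cA (β : ℝ) (m : Vec n) (p : Pairs n) : ℝ :=
  2 * β / (n * √n) * (m p.1.1 * m p.1.2)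

/-- coefficients of `2 β √q ⟨g, m⟩ / n` -/
noncomputable def cB (β : ℝ) (m : Vec n) (i : Fin n) : ℝ := 2 * β * √(qq m) * m i / n

lemma sum_cA (β : ℝ) (m : Vec n) (g : Pairs n → ℝ) :
    ∑ p, cA β m p * g p = β * qf (skM g) m / n := by
  rw [qf_skM, sum_pairs (fun i j => gsym g i j * m i * m j)]
  have h0 : ∑ i, gsym g i i * m i * m i = 0 :=
    Finset.sum_eq_zero fun i _ => by rw [gsym_self]; ring
  rw [h0, add_zero]
  have h1 : ∀ p : Pairs n, gsym g p.1.1 p.1.2 * m p.1.1 * m p.1.2 +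
      gsym g p.1.2 p.1.1 * m p.1.2 * m p.1.1 = 2 * (m p.1.1 * m p.1.2) * g p := by
    intro p
    rw [gsym_pair, gsym_pair']
    ring
  simp only [h1]
  rw [Finset.sum_div, Finset.mul_sum, Finset.sum_div]
  refine Finset.sum_congr rfl fun p _ => ?_
  unfold cA
  rw [div_mul_eq_mul_div, div_mul_eq_mul_div, mul_div_assoc', div_div, mul_comm (√(n:ℝ)) (n:ℝ)]
  congr 1
  ring

lemma sum_cB (β : ℝ) (m h : Vec n) :
    ∑ i, cB β m i * h i = 2 * β * √(qq m) * (ip h m / n) := by
  unfold cB ip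
  rw [Finset.sum_div, Finset.mul_sum]
  refine Finset.sum_congr rfl fun i _ => ?_
  ring

lemma sum_pairs_sq (m m' : Vec n) :
    2 * ∑ p : Pairs n, (m p.1.1 * m p.1.2 - m' p.1.1 * m' p.1.2) ^ 2 ≤
      sq m ^ 2 + sq m' ^ 2 - 2 * ip m m' ^ 2 := by
  have h := sum_pairs (fun i j : Fin n => (m i * m j - m' i * m' j) ^ 2)
  have h1 : ∑ i, ∑ j, (m i * m j - m' i * m' j) ^ 2 = sq m ^ 2 + sq m' ^ 2 - 2 * ip m m' ^ 2 := by
    unfold sq ip
    have e : ∀ i j : Fin n, (m i * m j - m' i * m' j) ^ 2 =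
        m i ^ 2 * m j ^ 2 + m' i ^ 2 * m' j ^ 2 - 2 * ((m i * m' i) * (m j * m' j)) := by
      intro i j; ring
    simp only [e, Finset.sum_sub_distrib, Finset.sum_add_distrib, ← Finset.mul_sum]
    rw [pow_two (∑ i, m i ^ 2), pow_two (∑ i, m' i ^ 2), pow_two (∑ i, m i * m' i),
      Finset.sum_mul_sum, Finset.sum_mul_sum, Finset.sum_mul_sum]
    simp only [← Finset.mul_sum]
  rw [h1] at h
  have h2 : 0 ≤ ∑ i, (m i * m i - m' i * m' i) ^ 2 := Finset.sum_nonneg fun _ _ => sq_nonneg _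
  have h3 : ∑ p : Pairs n, ((m p.1.1 * m p.1.2 - m' p.1.1 * m' p.1.2) ^ 2 +
      (m p.1.2 * m p.1.1 - m' p.1.2 * m' p.1.1) ^ 2) =
      2 * ∑ p : Pairs n, (m p.1.1 * m p.1.2 - m' p.1.1 * m' p.1.2) ^ 2 := by
    rw [Finset.mul_sum]
    exact Finset.sum_congr rfl fun p _ => by ring
  rw [h3] at h
  linarith only [h2, h]

lemma sqrt_qq_sq (m : Vec n) : √(qq m) ^ 2 = qq m := by
  refine Real.sq_sqrt ?_
  unfold qq
  exact div_nonneg (sq_nonneg' m) (Nat.cast_nonneg n)

lemma g3_abs_ip_le (m m' : Vec n) (hn : 0 < n) : |ip m m'| ≤ n * (√(qq m) * √(qq m')) := by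
  have hn' : (0 : ℝ) < n := by exact_mod_cast hn
  have h : ip m m' ^ 2 ≤ sq m * sq m' := Finset.sum_mul_sq_le_sq_mul_sq _ _ _
  have e : sq m * sq m' = (n * (√(qq m) * √(qq m'))) ^ 2 := by
    rw [mul_pow, mul_pow, sqrt_qq_sq, sqrt_qq_sq]
    unfold qq
    field_simp
  rw [e] at h
  exact abs_le_of_sq_le_sq h (by (clear * - hn; positivity))

/-- comparison of the increments -/
lemma incr_le (hn : 0 < n) (β : ℝ) (m m' : Vec n) :
    ∑ p, (cA β m p - cA β m' p) ^ 2 ≤ ∑ i, (cB β m i - cB β m' i) ^ 2 := by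
  have hn' : (0 : ℝ) < n := by exact_mod_cast hn
  have h1 : ∑ p, (cA β m p - cA β m' p) ^ 2 = 4 * β ^ 2 / n ^ 3 *
      ∑ p : Pairs n, (m p.1.1 * m p.1.2 - m' p.1.1 * m' p.1.2) ^ 2 := by
    rw [Finset.mul_sum]
    refine Finset.sum_congr rfl fun p _ => ?_
    unfold cA
    rw [← mul_sub, mul_pow, div_pow, mul_pow (n:ℝ), Real.sq_sqrt hn'.le]
    congr 1
    ring
  have h2 : ∑ i, (cB β m i - cB β m' i) ^ 2 = 4 * β ^ 2 / n ^ 2 *
      (qq m * sq m + qq m' * sq m' - 2 * (√(qq m) * √(qq m')) * ip m m') := by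
    have e : ∀ i, (cB β m i - cB β m' i) ^ 2 = 4 * β ^ 2 / n ^ 2 *
        (√(qq m) ^ 2 * m i ^ 2 + √(qq m') ^ 2 * m' i ^ 2 -
          2 * (√(qq m) * √(qq m')) * (m i * m' i)) := by
      intro i
      unfold cB
      field_simp
      ring
    simp only [e]
    rw [← Finset.mul_sum, Finset.sum_sub_distrib, Finset.sum_add_distrib, ← Finset.mul_sum,
      ← Finset.mul_sum, ← Finset.mul_sum, sqrt_qq_sq, sqrt_qq_sq]
    rfl
  rw [h1, h2]
  have h3 := sum_pairs_sq m m'
  have h4 := g3_abs_ip_le m m' hn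
  have h5 := (abs_le.1 h4).2
  have eq1 : sq m = n * qq m := by unfold qq; field_simp
  have eq2 : sq m' = n * qq m' := by unfold qq; field_simp
  have e4 : 4 * β ^ 2 / (n : ℝ) ^ 3 * ∑ p : Pairs n, (m p.1.1 * m p.1.2 - m' p.1.1 * m' p.1.2) ^ 2
      = 2 * β ^ 2 / (n : ℝ) ^ 3 *
        (2 * ∑ p : Pairs n, (m p.1.1 * m p.1.2 - m' p.1.1 * m' p.1.2) ^ 2) := by ring
  have e5 : 4 * β ^ 2 / (n : ℝ) ^ 2 *
      (qq m * sq m + qq m' * sq m' - 2 * (√(qq m) * √(qq m')) * ip m m') =
      2 * β ^ 2 / (n : ℝ) ^ 3 * (2 * (n * (qq m * sq m + qq m' * sq m' -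
        2 * (√(qq m) * √(qq m')) * ip m m'))) := by
    field_simp
    ring
  rw [e4, e5]
  refine mul_le_mul_of_nonneg_left (h3.trans ?_) (by (clear * - hn; positivity))
  rw [eq1, eq2]
  have hs : (√(qq m) ^ 2) = qq m := sqrt_qq_sq m
  have hs' : (√(qq m') ^ 2) = qq m' := sqrt_qq_sq m'
  set a := √(qq m)
  set b := √(qq m')
  rw [← hs, ← hs']
  linarith only [sq_nonneg (n * (a * b) - ip m m'), mul_nonneg (sq_nonneg (n : ℝ)) (sq_nonneg (a ^ 2 - b ^ 2))]

lemma sum_cA_sq (hn : 0 < n) {β : ℝ} (hβ0 : 0 ≤ β) (hβ1 : β ≤ 1) {m : Vec n}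
    (hm : qq m ≤ 1) : √(∑ p, cA β m p ^ 2) ≤ √2 / √n := by
  have hn' : (0 : ℝ) < n := by exact_mod_cast hn
  have hq : 0 ≤ qq m := div_nonneg (sq_nonneg' m) hn'.le
  rw [← Real.sqrt_div (by norm_num)]
  refine Real.sqrt_le_sqrt ?_
  have h1 := sum_pairs_sq m 0
  have e0 : sq (0 : Vec n) = 0 := by simp [sq]
  have e1 : ip m (0 : Vec n) = 0 := by simp [ip]
  rw [e0, e1] at h1
  simp only [Pi.zero_apply, mul_zero, sub_zero] at h1
  have h2 : ∑ p, cA β m p ^ 2 = 4 * β ^ 2 / n ^ 3 * ∑ p : Pairs n, (m p.1.1 * m p.1.2) ^ 2 := by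
    rw [Finset.mul_sum]
    refine Finset.sum_congr rfl fun p _ => ?_
    unfold cA
    rw [mul_pow, div_pow, mul_pow (n:ℝ), Real.sq_sqrt hn'.le]
    congr 1
    ring
  have eq1 : sq m = n * qq m := by unfold qq; field_simp
  rw [h2]
  have h3 : ∑ p : Pairs n, (m p.1.1 * m p.1.2) ^ 2 ≤ n ^ 2 / 2 := by
    have h4 : sq m ≤ n := by rw [eq1]; nlinarith
    have h5 : sq m ^ 2 ≤ n ^ 2 := pow_le_pow_left₀ (sq_nonneg' m) h4 2
    linarith only [h1, h5]
  have hb : β ^ 2 ≤ 1 := by linarith only [mul_nonneg (sub_nonneg.2 hβ1) (sub_nonneg.2 hq), mul_nonneg (sub_nonneg.2 hβ1) (sub_nonneg.2 hm), mul_nonneg (sub_nonneg.2 hβ0) (sub_nonneg.2 hβ1)]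
  calc 4 * β ^ 2 / (n:ℝ) ^ 3 * ∑ p : Pairs n, (m p.1.1 * m p.1.2) ^ 2
      ≤ 4 * 1 / (n:ℝ) ^ 3 * ((n:ℝ) ^ 2 / 2) := by
        refine mul_le_mul ?_ h3 (Finset.sum_nonneg fun _ _ => sq_nonneg _) (by positivity)
        exact div_le_div_of_nonneg_right (by linarith only [hb]) (by positivity)
    _ = (2:ℝ) / (n:ℝ) := by field_simp; ring

lemma sum_cB_sq (hn : 0 < n) {β : ℝ} (hβ0 : 0 ≤ β) (hβ1 : β ≤ 1) {m : Vec n}
    (hm : qq m ≤ 1) : √(∑ i, cB β m i ^ 2) ≤ 2 / √n := by
  have hn' : (0 : ℝ) < n := by exact_mod_cast hn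
  have hq : 0 ≤ qq m := div_nonneg (sq_nonneg' m) hn'.le
  have eq1 : sq m = n * qq m := by unfold qq; field_simp
  have h2 : ∑ i, cB β m i ^ 2 = 4 * β ^ 2 / n ^ 2 * (qq m * sq m) := by
    have e : ∀ i, cB β m i ^ 2 = 4 * β ^ 2 / n ^ 2 * (√(qq m) ^ 2 * m i ^ 2) := by
      intro i
      unfold cB
      field_simp
      ring
    simp only [e]
    rw [← Finset.mul_sum, ← Finset.mul_sum, sqrt_qq_sq]
    rfl
  rw [h2, eq1]
  refine Real.sqrt_le_iff.2 ⟨by positivity, ?_⟩
  rw [div_pow, Real.sq_sqrt hn'.le]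
  have hb : β ^ 2 ≤ 1 := by linarith only [mul_nonneg (sub_nonneg.2 hβ1) (sub_nonneg.2 hq), mul_nonneg (sub_nonneg.2 hβ1) (sub_nonneg.2 hm), mul_nonneg (sub_nonneg.2 hβ0) (sub_nonneg.2 hβ1)]
  have hqq : qq m * qq m ≤ 1 := by linarith only [mul_nonneg (sub_nonneg.2 hm) (sub_nonneg.2 hm), mul_nonneg (sub_nonneg.2 hm) (sub_nonneg.2 hq)]
  calc 4 * β ^ 2 / (n:ℝ) ^ 2 * (qq m * ((n:ℝ) * qq m))
      = 4 * β ^ 2 / (n:ℝ) * (qq m * qq m) := by
        field_simp
    _ ≤ 4 * 1 / (n:ℝ) * 1 := by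
        refine mul_le_mul ?_ hqq (mul_nonneg hq hq) (by positivity)
        exact div_le_div_of_nonneg_right (by linarith only [hb]) (by positivity)
    _ = (2:ℝ) ^ 2 / (n:ℝ) := by ring

end Vale.Agent.P150.F
end

section

/-!
# D2: composition of local fields
-/

open Filter Topology
open scoped Matrix

namespace Vale.Agent.P150.F.D2

variable {ι : Type} {F : Filter ι} {d : ι → Dat}

/-- (possibly unbounded) fields with a controlled derivative -/
structure YF (F : Filter ι) (d : ι → Dat) (s : Finset ℕ) (Y : Fld d) (q : ℕ → Fld d) : Prop where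
  hs : ∃ C : ℝ, ∀ᶠ i in F, ∀ x, hsq (DD (Y i) x) ≤ C * (d i).n
  eb : ∀ l ∈ s, EB F d (q l)
  hz : HZ F d (fun i x => DD (Y i) x - LM d s q i x)
  z4 : Z4 F d (fun i x => DD (Y i) x)

theorem dg_one_mul {n : ℕ} (B : Mat n) : dg (fun _ => (1 : ℝ)) * B = B := by
  ext j k
  rw [dg_mul_apply, one_mul]

theorem YF.a (hD : DerA F d) {k : ℕ} (hk : 1 ≤ k) :
    YF F d {k} (fun i x => (d i).a x k) (fun _ _ _ _ => 1) := by
  obtain ⟨h1, ⟨C, hC⟩, h3⟩ := hD k hk
  refine ⟨⟨C ^ 2, ?_⟩, fun l _ => ⟨1, Eventually.of_forall fun i x j => by simp⟩, ?_, h3⟩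
  · filter_upwards [hC] with i hi x
    exact opLe_hsq_le (hi x)
  · refine HZ.congr h1 fun i x => ?_
    unfold LM
    rw [Finset.sum_singleton, dg_one_mul]

theorem DD_add' {n : ℕ} (G H : Cfg n → Vec n) (x : Cfg n) :
    DD (fun z j => G z j + H z j) x = DD G x + DD H x := by
  ext j l
  exact dd_add l _ _ x

theorem DD_label {n : ℕ} (u : Vec n) (x : Cfg n) : DD (fun _ => u) x = 0 := by
  ext j l
  exact dd_const l _ x

theorem DD_smul' {n : ℕ} (c : ℝ) (G : Cfg n → Vec n) (x : Cfg n) :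
    DD (fun z j => c * G z j) x = c • DD G x := by
  ext j l
  exact dd_const_mul l c _ x

theorem YF.add {s : Finset ℕ} {Y Y' : Fld d} {q q' : ℕ → Fld d} (h : YF F d s Y q)
    (h' : YF F d s Y' q') :
    YF F d s (fun i x j => Y i x j + Y' i x j) (fun l i x j => q l i x j + q' l i x j) := by
  obtain ⟨A, hA⟩ := h.hs
  obtain ⟨B, hB⟩ := h'.hs
  refine ⟨⟨2 * A + 2 * B, ?_⟩, fun l hl => (h.eb l hl).add (h'.eb l hl), ?_, ?_⟩
  · filter_upwards [hA, hB] with i h3 h4 x
    rw [DD_add']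
    refine (hsq_add_le _ _).trans ?_
    linarith only [h4 x, h3 x]
  · refine (h.hz.add h'.hz).congr fun i x => ?_
    rw [LM_add, DD_add']
    abel
  · refine UZ.congr (h.z4.add h'.z4) fun i x => ?_
    beta_reduce
    rw [DD_add']

theorem YF.label (s : Finset ℕ) (α : ∀ i, Vec (d i).n) :
    YF F d s (fun i _ => α i) (fun _ _ _ _ => 0) := by
  refine ⟨⟨0, Eventually.of_forall fun i x => ?_⟩, fun _ _ => EB.zero, ?_, ?_⟩
  · rw [DD_label]; simp [hsq]
  · refine HZ.zero.congr fun i x => ?_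
    rw [DD_label]
    unfold LM
    rw [Finset.sum_eq_zero, sub_zero]
    intro l _
    ext j k
    rw [dg_mul_apply, zero_mul, Matrix.zero_apply]
  · refine UZ.zero.congr fun i x => ?_
    beta_reduce
    rw [DD_label]
    simp

theorem YF.smul {s : Finset ℕ} {Y : Fld d} {q : ℕ → Fld d} (h : YF F d s Y q) {θ : ι → ℝ}
    {C : ℝ} (hθ : ∀ i, |θ i| ≤ C) :
    YF F d s (fun i x j => θ i * Y i x j) (fun l i x j => θ i * q l i x j) := by
  have h2 : ∀ i, θ i ^ 2 ≤ C ^ 2 := fun i => by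
    rw [← sq_abs]; exact pow_le_pow_left₀ (abs_nonneg _) (hθ i) 2
  obtain ⟨A, hA⟩ := h.hs
  refine ⟨⟨C ^ 2 * |A|, ?_⟩, fun l hl => ?_, ?_, ?_⟩
  · filter_upwards [hA] with i h3 x
    rw [DD_smul', hsq_smul, mul_assoc]
    refine mul_le_mul (h2 i) ((h3 x).trans ?_) (hsq_nonneg _) (sq_nonneg _)
    exact mul_le_mul_of_nonneg_right (le_abs_self _) (Nat.cast_nonneg _)
  · obtain ⟨D, hD⟩ := h.eb l hl
    refine ⟨C * D, ?_⟩
    filter_upwards [hD] with i hi x j
    rw [abs_mul]
    exact mul_le_mul (hθ i) (hi x j) (abs_nonneg _) ((abs_nonneg _).trans (hθ i))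
  · refine h.hz.of_hsq_le (C := C ^ 2) (Eventually.of_forall fun i x => ?_)
    have e1 : DD (fun z j => θ i * Y i z j) x - LM d s (fun l i x j => θ i * q l i x j) i x =
        θ i • (DD (Y i) x - LM d s q i x) := by
      rw [DD_smul', smul_sub]
      congr 1
      unfold LM
      rw [Finset.smul_sum]
      refine Finset.sum_congr rfl fun l _ => ?_
      ext j k
      rw [Matrix.smul_apply, dg_mul_apply, dg_mul_apply, smul_eq_mul]
      ring
    rw [e1, hsq_smul]
    exact mul_le_mul_of_nonneg_right (h2 i) (hsq_nonneg _)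
  · refine h.z4.of_abs_le (C := C ^ 4) (Eventually.of_forall fun i x => ?_)
    rw [abs_of_nonneg (div_nonneg (Finset.sum_nonneg fun _ _ => Finset.sum_nonneg fun _ _ => by
      positivity) (Nat.cast_nonneg _)), abs_of_nonneg (div_nonneg (Finset.sum_nonneg fun _ _ =>
      Finset.sum_nonneg fun _ _ => by positivity) (Nat.cast_nonneg _)), ← mul_div_assoc]
    refine div_le_div_of_nonneg_right ?_ (Nat.cast_nonneg _)
    beta_reduce
    rw [DD_smul', Finset.mul_sum]
    refine Finset.sum_le_sum fun j _ => ?_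
    rw [Finset.mul_sum]
    refine Finset.sum_le_sum fun l _ => ?_
    rw [Matrix.smul_apply, smul_eq_mul, mul_pow]
    refine mul_le_mul_of_nonneg_right ?_ (by positivity)
    calc θ i ^ 4 = (θ i ^ 2) ^ 2 := by ring
      _ ≤ (C ^ 2) ^ 2 := pow_le_pow_left₀ (sq_nonneg _) (h2 i) 2
      _ = C ^ 4 := by ring

theorem LM_ext {s s' : Finset ℕ} (hss : s ⊆ s') (q : ℕ → Fld d) (i : ι) (x : Cfg (d i).n) :
    LM d s' (fun l => if l ∈ s then q l else fun _ _ _ => 0) i x = LM d s q i x := by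
  classical
  unfold LM
  rw [← Finset.sum_subset hss]
  · refine Finset.sum_congr rfl fun l hl => ?_
    simp only [if_pos hl]
  · intro l _ hl
    simp only [if_neg hl]
    ext j k
    rw [dg_mul_apply, zero_mul, Matrix.zero_apply]

theorem YF.ext {s s' : Finset ℕ} (hss : s ⊆ s') {Y : Fld d} {q : ℕ → Fld d} (h : YF F d s Y q) :
    YF F d s' Y (fun l => if l ∈ s then q l else fun _ _ _ => 0) := by
  classical
  refine ⟨h.hs, fun l _ => ?_, h.hz.congr fun i x => ?_, h.z4⟩
  · by_cases hl : l ∈ s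
    · rw [if_pos hl]; exact h.eb l hl
    · rw [if_neg hl]; exact EB.zero
  · rw [LM_ext hss]

theorem YF.congr_q {s : Finset ℕ} {Y : Fld d} {q q' : ℕ → Fld d} (h : YF F d s Y q)
    (h' : ∀ l ∈ s, q' l = q l) : YF F d s Y q' := by
  refine ⟨h.hs, fun l hl => by rw [h' l hl]; exact h.eb l hl, h.hz.congr fun i x => ?_, h.z4⟩
  congr 1
  unfold LM
  exact Finset.sum_congr rfl fun l hl => by rw [h' l hl]

/-- linear combinations of the AMP fields -/
theorem YF.lin (hD : DerA F d) {s : Finset ℕ} (hs : ∀ l ∈ s, 1 ≤ l) {θ : ι → ℕ → ℝ} {C : ℝ}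
    (hθ : ∀ i l, |θ i l| ≤ C) (α : ∀ i, Vec (d i).n) :
    YF F d s (fun i x j => ∑ l ∈ s, θ i l * (d i).a x l j + α i j) (fun l i _ _ => θ i l) := by
  classical
  induction s using Finset.induction_on with
  | empty =>
    have h := YF.label (F := F) (d := d) ∅ α
    have e1 : (fun (i : ι) (x : Cfg (d i).n) (j : Fin (d i).n) =>
        ∑ l ∈ (∅ : Finset ℕ), θ i l * (d i).a x l j + α i j) = fun i _ => α i := by
      funext i x j
      simp
    rw [e1]
    exact h.congr_q fun l hl => absurd hl (Finset.notMem_empty l)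
  | insert a s ha ih =>
    have h1 := (ih fun l hl => hs l (Finset.mem_insert_of_mem hl)).ext (Finset.subset_insert a s)
    have h2 := ((YF.a hD (hs a (Finset.mem_insert_self _ _))).smul (θ := fun i => θ i a)
      (fun i => hθ i a)).ext (Finset.singleton_subset_iff.2 (Finset.mem_insert_self a s))
    have h3 := h2.add h1
    have e1 : (fun (i : ι) (x : Cfg (d i).n) (j : Fin (d i).n) =>
        ∑ l ∈ insert a s, θ i l * (d i).a x l j + α i j) = fun i x j =>
        θ i a * (d i).a x a j + (∑ l ∈ s, θ i l * (d i).a x l j + α i j) := by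
      funext i x j
      rw [Finset.sum_insert ha]
      ring
    rw [e1]
    refine h3.congr_q fun l hl => ?_
    funext i x j
    by_cases hla : l = a
    · subst hla
      simp [ha]
    · have hls : l ∈ s := (Finset.mem_insert.1 hl).resolve_left hla
      simp [hla, hls]

/-- the chain rule for one site -/
theorem dd_comp_le {n : ℕ} {g g' : ℝ → ℝ} {C : ℝ}
    (ht : ∀ u v, |g u - g v - g' v * (u - v)| ≤ C * (u - v) ^ 2) (i : Fin n) (f : Cfg n → ℝ)
    (x : Cfg n) : |dd i (fun z => g (f z)) x - g' (f x) * dd i f x| ≤ 2 * C * dd i f x ^ 2 := by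
  rcases h : x i with _ | _
  · have e : Function.update x i false = x := by rw [← h]; exact Function.update_eq_self i x
    have h1 := ht (f (Function.update x i true)) (f x)
    have e1 : dd i (fun z => g (f z)) x - g' (f x) * dd i f x =
        (g (f (Function.update x i true)) - g (f x) -
          g' (f x) * (f (Function.update x i true) - f x)) / 2 := by
      unfold dd; rw [e]; ring
    have e2 : 2 * C * dd i f x ^ 2 = C * (f (Function.update x i true) - f x) ^ 2 / 2 := by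
      unfold dd; rw [e]; ring
    rw [e1, e2, abs_div, abs_two]
    exact div_le_div_of_nonneg_right h1 (by norm_num)
  · have e : Function.update x i true = x := by rw [← h]; exact Function.update_eq_self i x
    have h1 := ht (f (Function.update x i false)) (f x)
    have e1 : dd i (fun z => g (f z)) x - g' (f x) * dd i f x =
        -(g (f (Function.update x i false)) - g (f x) -
          g' (f x) * (f (Function.update x i false) - f x)) / 2 := by
      unfold dd; rw [e]; ring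
    have e2 : 2 * C * dd i f x ^ 2 = C * (f (Function.update x i false) - f x) ^ 2 / 2 := by
      unfold dd; rw [e]; ring
    rw [e1, e2, abs_div, abs_neg, abs_two]
    exact div_le_div_of_nonneg_right h1 (by norm_num)

/-- **Composition.** -/
theorem YF.comp {s : Finset ℕ} {Y : Fld d} {q : ℕ → Fld d} (h : YF F d s Y q) {g g' : ℝ → ℝ}
    {C : ℝ} (hC : 0 ≤ C) (hg : ∀ u, |g u| ≤ C) (hg' : ∀ u, |g' u| ≤ C)
    (ht : ∀ u v, |g u - g v - g' v * (u - v)| ≤ C * (u - v) ^ 2) :
    Loc F d s (fun i x j => g (Y i x j)) (fun l i x j => g' (Y i x j) * q l i x j) := by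
  have hgE : EB F d (fun i x j => g' (Y i x j)) :=
    ⟨C, Eventually.of_forall fun i x j => hg' _⟩
  -- the error
  have hz1 : HZ F d (fun i x => DD (fun z j => g (Y i z j)) x -
      dg (fun j => g' (Y i x j)) * DD (Y i) x) := by
    refine h.z4.of_abs_le (C := 4 * C ^ 2) (Eventually.of_forall fun i x => ?_)
    rw [abs_of_nonneg (div_nonneg (hsq_nonneg _) (Nat.cast_nonneg _)),
      abs_of_nonneg (div_nonneg (Finset.sum_nonneg fun _ _ =>
      Finset.sum_nonneg fun _ _ => by positivity) (Nat.cast_nonneg _)), ← mul_div_assoc]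
    refine div_le_div_of_nonneg_right ?_ (Nat.cast_nonneg _)
    unfold hsq
    rw [Finset.mul_sum]
    refine Finset.sum_le_sum fun j _ => ?_
    rw [Finset.mul_sum]
    refine Finset.sum_le_sum fun l _ => ?_
    beta_reduce
    rw [Matrix.sub_apply, dg_mul_apply]
    have h1 := dd_comp_le ht l (fun z => Y i z j) x
    have h2 : (DD (fun z j => g (Y i z j)) x j l - g' (Y i x j) * DD (Y i) x j l) ^ 2 ≤
        (2 * C * DD (Y i) x j l ^ 2) ^ 2 := by
      rw [← sq_abs]
      exact pow_le_pow_left₀ (abs_nonneg _) h1 2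
    refine h2.trans (le_of_eq ?_)
    ring
  refine Loc.mk' ⟨⟨C, Eventually.of_forall fun i x j => hg _⟩, ?_⟩
    (fun l hl => hgE.fm (h.eb l hl)) ?_
  · obtain ⟨A, hA⟩ := h.hs
    refine ⟨2 * (C ^ 2 * |A|) + 2, ?_⟩
    filter_upwards [hA, hz1 1 one_pos] with i h1 h2 x
    have e1 : DD (fun z j => g (Y i z j)) x = dg (fun j => g' (Y i x j)) * DD (Y i) x +
        (DD (fun z j => g (Y i z j)) x - dg (fun j => g' (Y i x j)) * DD (Y i) x) := by abel
    rw [e1]
    refine (hsq_add_le _ _).trans ?_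
    have h3 := hsq_dg_mul_le (a := fun j => g' (Y i x j)) (fun j => hg' _) (DD (Y i) x)
    have h4 : C ^ 2 * hsq (DD (Y i) x) ≤ C ^ 2 * |A| * (d i).n := by
      rw [mul_assoc]
      refine mul_le_mul_of_nonneg_left ((h1 x).trans ?_) (sq_nonneg _)
      exact mul_le_mul_of_nonneg_right (le_abs_self _) (Nat.cast_nonneg _)
    have h5 := h2 x
    rw [abs_of_nonneg (div_nonneg (hsq_nonneg _) (Nat.cast_nonneg _))] at h5
    rcases Nat.eq_zero_or_pos (d i).n with h0 | h0
    · have h6 : ∀ B : Mat (d i).n, hsq B = 0 := by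
        intro B
        unfold hsq
        refine Finset.sum_eq_zero fun j _ => ?_
        exact absurd j.2 (by omega)
      rw [h6, h6]
      have : (0 : ℝ) ≤ (2 * (C ^ 2 * |A|) + 2) * (d i).n := by (clear * -; positivity)
      linarith only [this]
    · have hn' : (0 : ℝ) < (d i).n := by exact_mod_cast h0
      rw [div_le_one hn'] at h5
      linarith only [h3, h4, h5]
  · refine (hz1.add (h.hz.dg hgE)).congr fun i x => ?_
    rw [LM_mul (fun i x j => g' (Y i x j)) q, mul_sub]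
    abel

/-- bounded labels are local -/
theorem Loc.label (s : Finset ℕ) {u : ∀ i, Vec (d i).n} {C : ℝ} (hu : ∀ i j, |u i j| ≤ C) :
    Loc F d s (fun i _ => u i) (fun _ _ _ _ => 0) := by
  have h := YF.label (F := F) s u
  exact Loc.mk' ⟨⟨C, Eventually.of_forall fun i x j => hu i j⟩, h.hs⟩ h.eb h.hz

theorem L4s.label (u : ∀ i, Vec (d i).n) : L4s F d (fun i _ => u i) :=
  (YF.label (F := F) ∅ u).z4

/-- multiplication by bounded labels -/
theorem Loc.mul_label {s : Finset ℕ} {w : Fld d} {p : ℕ → Fld d} (h : Loc F d s w p)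
    {u : ∀ i, Vec (d i).n} {C : ℝ} (hu : ∀ i j, |u i j| ≤ C) :
    Loc F d s (fun i x j => u i j * w i x j) (fun l i x j => u i j * p l i x j) := by
  have h1 := Loc.fm_aux (L4s.label u) (Loc.label s hu) h
  have e1 : (fun (l : ℕ) (i : ι) (x : Cfg (d i).n) (j : Fin (d i).n) =>
      u i j * p l i x j + w i x j * 0) = fun l i x j => u i j * p l i x j := by
    funext l i x j
    ring
  rw [e1] at h1
  exact h1

/-- `m^k` is local -/
theorem Loc.m (hD : DerA F d) {k : ℕ} (hk : 1 ≤ k) :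
    Loc F d {k} (fun i x => (d i).m x k) (fun _ i x => (d i).S x k) := by
  obtain ⟨k', rfl⟩ : ∃ k', k = k' + 1 := ⟨k - 1, by omega⟩
  have hm : ∀ (i : ι) (x : Cfg (d i).n) (j : Fin (d i).n),
      (d i).m x (k' + 1) j = Real.tanh ((d i).a x (k' + 1) j) := by
    intro i x j
    cases k' with
    | zero => rfl
    | succ k' => rfl
  have h := (YF.a hD hk).comp (g := Real.tanh) (g' := fun u => 1 - Real.tanh u ^ 2) (C := 1)
    zero_le_one (fun u => (Real.abs_tanh_lt_one u).le)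
    (fun u => by
      rw [abs_of_pos (one_sub_tanh_sq_pos u)]
      exact one_sub_tanh_sq_le u)
    (fun u v => by
      have := abs_tanh_taylor v (u - v)
      rw [add_sub_cancel, mul_comm (u - v)] at this
      rw [one_mul]
      exact this)
  have e1 : (fun (i : ι) (x : Cfg (d i).n) (j : Fin (d i).n) =>
      Real.tanh ((d i).a x (k' + 1) j)) = fun i x => (d i).m x (k' + 1) := by
    funext i x j
    exact (hm i x j).symm
  have e2 : (fun (_ : ℕ) (i : ι) (x : Cfg (d i).n) (j : Fin (d i).n) =>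
      (1 - Real.tanh ((d i).a x (k' + 1) j) ^ 2) * (1:ℝ)) =
      fun _ i x => (d i).S x (k' + 1) := by
    funext l i x j
    rw [mul_one]
    unfold Dat.S
    rw [hm]
  rw [e1, e2] at h
  exact h

theorem abs_cos_taylor (u v : ℝ) :
    |Real.cos u - Real.cos v - -Real.sin v * (u - v)| ≤ 1 * (u - v) ^ 2 := by
  rcases eq_or_ne u v with h | h
  · subst h; simp
  have h1 : ∀ x : ℝ, HasDerivAt (fun x => Real.cos x + Real.sin v * x)
      (-Real.sin x + Real.sin v) x := fun x => by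
    have h := (Real.hasDerivAt_cos x).add ((hasDerivAt_id x).const_mul (Real.sin v))
    rw [mul_one] at h
    exact h
  have h2 := Convex.norm_image_sub_le_of_norm_hasDerivWithin_le
    (f := fun x => Real.cos x + Real.sin v * x) (f' := fun x => -Real.sin x + Real.sin v)
    (s := Set.uIcc v u) (x := v) (y := u) (C := |u - v|)
    (fun x _ => (h1 x).hasDerivWithinAt) (fun x hx => by
      rw [Real.norm_eq_abs]
      have h3 : |Real.sin v - Real.sin x| ≤ |v - x| := by
        have := Real.abs_sin_sub_sin_le v x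
        exact this
      have e : -Real.sin x + Real.sin v = Real.sin v - Real.sin x := by ring
      rw [e]
      refine h3.trans ?_
      rw [abs_sub_comm v x]
      exact Set.abs_sub_left_of_mem_uIcc hx) (convex_uIcc v u) Set.left_mem_uIcc
    Set.right_mem_uIcc
  have e1 : Real.cos u + Real.sin v * u - (Real.cos v + Real.sin v * v) =
      Real.cos u - Real.cos v - -Real.sin v * (u - v) := by ring
  rw [Real.norm_eq_abs, Real.norm_eq_abs] at h2
  rw [e1, ← abs_mul] at h2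
  rw [one_mul]
  refine h2.trans (le_of_eq ?_)
  rw [abs_mul_self]
  ring

end Vale.Agent.P150.F.D2
end

section

/-!
# D2: weakly macroscopic scalars
-/

open Filter Topology

namespace Vale.Agent.P150.F.D2

theorem gsq_comp_le {n : ℕ} {φ : Cfg n → ℝ} {h : ℝ → ℝ} {C L : ℝ} (hC : ∀ x, |φ x| ≤ C)
    (hL : ∀ s t, |s| ≤ C → |t| ≤ C → |h s - h t| ≤ L * |s - t|) (x : Cfg n) :
    gsq (fun z => h (φ z)) x ≤ L ^ 2 * gsq φ x := by
  unfold gsq
  rw [Finset.mul_sum]
  refine Finset.sum_le_sum fun j _ => ?_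
  have h1 := hL _ _ (hC (Function.update x j true)) (hC (Function.update x j false))
  unfold dd
  have h2 := pow_le_pow_left₀ (abs_nonneg _) h1 2
  rw [mul_pow, sq_abs, sq_abs] at h2
  linarith only [h2]

section

variable {ι : Type} {F : Filter ι} {d : ι → Dat}

theorem MW.bdd_mul {φ : Scl d} (h : MW F d φ) {c : ι → ℝ} {C : ℝ} (hc : ∀ i, |c i| ≤ C) :
    MW F d (fun i x => c i * φ i x) :=
  (MW.of_index hc).mul h

/-- composition with functions, bounded and Lipschitz on bounded sets, uniformly in the index -/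
theorem MW.comp {φ : Scl d} (hφ : MW F d φ) {h : ι → ℝ → ℝ}
    (hb : ∀ C : ℝ, ∃ B : ℝ, ∀ i s, |s| ≤ C → |h i s| ≤ B)
    (hL : ∀ C : ℝ, ∃ L : ℝ, ∀ i s t, |s| ≤ C → |t| ≤ C → |h i s - h i t| ≤ L * |s - t|) :
    MW F d (fun i x => h i (φ i x)) := by
  obtain ⟨C, hC⟩ := hφ.1
  obtain ⟨B, hB⟩ := hb C
  obtain ⟨L, hL⟩ := hL C
  refine ⟨⟨B, hC.mono fun i hi x => hB i _ (hi x)⟩, ?_⟩
  refine (hφ.2.const_mul (L ^ 2)).mono ?_
  filter_upwards [hC] with i hi x
  rw [abs_of_nonneg (gsq_nonneg _ _)]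
  exact (gsq_comp_le hi (hL i) x).trans (le_abs_self _)

/-- `cos (b_i φ)` -/
theorem MW.cos {φ : Scl d} (hφ : MW F d φ) {b : ι → ℝ} {C : ℝ} (hb : ∀ i, |b i| ≤ C) :
    MW F d (fun i x => Real.cos (b i * φ i x)) := by
  refine hφ.comp (h := fun i s => Real.cos (b i * s)) (fun _ => ⟨1, fun i s _ => Real.abs_cos_le_one _⟩)
    (fun _ => ⟨C, fun i s t _ _ => ?_⟩)
  have h1 : |Real.cos (b i * s) - Real.cos (b i * t)| ≤ |b i * s - b i * t| :=
    Real.abs_cos_sub_cos_le _ _
  rw [← mul_sub, abs_mul] at h1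
  exact h1.trans (mul_le_mul_of_nonneg_right (hb i) (abs_nonneg _))

/-- `sin (b_i φ)` -/
theorem MW.sin {φ : Scl d} (hφ : MW F d φ) {b : ι → ℝ} {C : ℝ} (hb : ∀ i, |b i| ≤ C) :
    MW F d (fun i x => Real.sin (b i * φ i x)) := by
  refine hφ.comp (h := fun i s => Real.sin (b i * s)) (fun _ => ⟨1, fun i s _ => Real.abs_sin_le_one _⟩)
    (fun _ => ⟨C, fun i s t _ _ => ?_⟩)
  have h1 : |Real.sin (b i * s) - Real.sin (b i * t)| ≤ |b i * s - b i * t| :=
    Real.abs_sin_sub_sin_le _ _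
  rw [← mul_sub, abs_mul] at h1
  exact h1.trans (mul_le_mul_of_nonneg_right (hb i) (abs_nonneg _))

/-- `exp (b_i φ)` -/
theorem MW.exp {φ : Scl d} (hφ : MW F d φ) {b : ι → ℝ} {C : ℝ} (hb : ∀ i, |b i| ≤ C) :
    MW F d (fun i x => Real.exp (b i * φ i x)) := by
  have hexp : ∀ (R s t : ℝ), s ≤ R → t ≤ R → |Real.exp s - Real.exp t| ≤
      Real.exp R * |s - t| := by
    intro R s t hs ht
    rcases le_total s t with h | h
    · rw [abs_sub_comm, abs_sub_comm s t, abs_of_nonneg (sub_nonneg.2 (Real.exp_le_exp.2 h)),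
        abs_of_nonneg (sub_nonneg.2 h)]
      have e : Real.exp t - Real.exp s = Real.exp t * (1 - Real.exp (s - t)) := by
        rw [mul_sub, mul_one, ← Real.exp_add]
        ring_nf
      rw [e]
      have h1 : 1 - Real.exp (s - t) ≤ t - s := by linarith [Real.add_one_le_exp (s - t)]
      exact mul_le_mul (Real.exp_le_exp.2 ht) h1
        (sub_nonneg.2 (Real.exp_le_one_iff.2 (by linarith))) (Real.exp_pos _).le
    · rw [abs_of_nonneg (sub_nonneg.2 (Real.exp_le_exp.2 h)), abs_of_nonneg (sub_nonneg.2 h)]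
      have e : Real.exp s - Real.exp t = Real.exp s * (1 - Real.exp (t - s)) := by
        rw [mul_sub, mul_one, ← Real.exp_add]
        ring_nf
      rw [e]
      have h1 : 1 - Real.exp (t - s) ≤ s - t := by linarith [Real.add_one_le_exp (t - s)]
      exact mul_le_mul (Real.exp_le_exp.2 hs) h1
        (sub_nonneg.2 (Real.exp_le_one_iff.2 (by linarith))) (Real.exp_pos _).le
  have habs : ∀ (i : ι) (s D : ℝ), |s| ≤ D → b i * s ≤ |C| * |D| := by
    intro i s D hs
    calc b i * s ≤ |b i * s| := le_abs_self _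
      _ = |b i| * |s| := abs_mul _ _
      _ ≤ |C| * |D| := mul_le_mul ((hb i).trans (le_abs_self _)) (hs.trans (le_abs_self _))
          (abs_nonneg _) (abs_nonneg _)
  refine hφ.comp (h := fun i s => Real.exp (b i * s))
    (fun D => ⟨Real.exp (|C| * |D|), fun i s hs => ?_⟩)
    (fun D => ⟨Real.exp (|C| * |D|) * |C|, fun i s t hs ht => ?_⟩)
  · rw [abs_of_pos (Real.exp_pos _)]
    exact Real.exp_le_exp.2 (habs i s D hs)
  · refine (hexp _ _ _ (habs i s D hs) (habs i t D ht)).trans ?_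
    rw [← mul_sub, abs_mul, ← mul_assoc]
    refine mul_le_mul_of_nonneg_right ?_ (abs_nonneg _)
    exact mul_le_mul_of_nonneg_left ((hb i).trans (le_abs_self _)) (Real.exp_pos _).le

/-- the scalars `c_k` are weakly macroscopic -/
theorem MW.c (hJ : HypJ F d) (hT : MacT F d) (k : ℕ) : MW F d (fun i x => (d i).c x k) := by
  have h1 := (MW.of_MS hJ.n_top (hT k)).sub (MW.of_MS hJ.n_top (hT (k - 1)))
  refine h1.bdd_mul (c := fun i => (d i).r ^ 2) (C := 1) fun i => ?_
  rw [abs_of_nonneg (sq_nonneg _)]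
  exact pow_le_one₀ (hJ.r0 i) (hJ.r1 i)

end

end Vale.Agent.P150.F.D2
end

section

/-!
# D2: consequences of `H_k` and `P_k` for local fields
-/

open Filter Topology
open scoped Matrix

namespace Vale.Agent.P150.F.D2

namespace DF

variable {n : ℕ}

theorem ip_add_left (u u' v : Vec n) : ip (u + u') v = ip u v + ip u' v := by
  unfold ip
  rw [← Finset.sum_add_distrib]
  exact Finset.sum_congr rfl fun _ _ => by rw [Pi.add_apply]; ring

theorem ip_smul_left (c : ℝ) (u v : Vec n) : ip (c • u) v = c * ip u v := by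
  unfold ip
  rw [Finset.mul_sum]
  exact Finset.sum_congr rfl fun _ _ => by rw [Pi.smul_apply, smul_eq_mul]; ring

theorem ip_cmul_right (c : ℝ) (u v : Vec n) : ip u (fun j => c * v j) = c * ip u v := by
  unfold ip
  rw [Finset.mul_sum]
  exact Finset.sum_congr rfl fun _ _ => by ring

theorem trN_dg (a : Vec n) : trN (dg a) = (∑ j, a j) / n := by
  unfold trN dg
  simp only [Matrix.diagonal_apply_eq]

theorem dg_mul_dg (a b : Vec n) : dg a * dg b = dg (fun j => a j * b j) := by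
  unfold dg
  exact Matrix.diagonal_mul_diagonal _ _

theorem abs_trN_dg_le {a : Vec n} {C : ℝ} (hC : 0 ≤ C) (h : ∀ j, |a j| ≤ C) :
    |trN (dg a)| ≤ C := by
  rw [trN_dg, abs_div, abs_of_nonneg (Nat.cast_nonneg n : (0:ℝ) ≤ n)]
  rcases Nat.eq_zero_or_pos n with h0 | h0
  · have e : (n : ℝ) = 0 := by exact_mod_cast h0
    rw [e, div_zero]; exact hC
  · have hn' : (0 : ℝ) < n := by exact_mod_cast h0
    rw [div_le_iff₀ hn']
    refine (Finset.abs_sum_le_sum_abs _ _).trans ((Finset.sum_le_sum fun j _ => h j).trans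
      (le_of_eq ?_))
    simp [mul_comm]

end DF

open DF

variable {ι : Type} {F : Filter ι} {d : ι → Dat}

theorem DF.m_zero (e : Dat) (x : Cfg e.n) : e.m x 0 = sv x := rfl

theorem DF.t_succ (e : Dat) (x : Cfg e.n) (k : ℕ) : e.t x (k + 1) = trN (dg (e.S x (k + 1))) := by
  unfold Dat.t tS
  rw [if_neg (Nat.succ_ne_zero k)]

theorem DF.t_succ' (e : Dat) (x : Cfg e.n) (k : ℕ) (hn : 0 < e.n) :
    e.t x (k + 1) = 1 - e.q x (k + 1) := by
  have hn' : (e.n : ℝ) ≠ 0 := by exact_mod_cast hn.ne'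
  rw [t_succ, trN_dg]
  unfold Dat.S Dat.q qq sq
  rw [Finset.sum_sub_distrib, Finset.sum_const, Finset.card_univ, Fintype.card_fin,
    nsmul_eq_mul, mul_one, sub_div, div_self hn']

theorem DF.t_sub (e : Dat) (x : Cfg e.n) (k : ℕ) :
    e.t x (k + 2) - e.t x (k + 1) = e.q x (k + 1) - e.q x (k + 2) := by
  rcases Nat.eq_zero_or_pos e.n with h0 | h0
  · have h0' : (e.n : ℝ) = 0 := by exact_mod_cast h0
    rw [t_succ, t_succ, trN_dg, trN_dg]
    unfold Dat.q qq
    rw [h0']
    simp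
  · rw [t_succ' e x _ h0, t_succ' e x _ h0]
    ring

/-- the difference of the overlaps as an inner product -/
theorem DF.q_sub (e : Dat) (x : Cfg e.n) (k l : ℕ) :
    e.q x k - e.q x l = ip (e.m x k - e.m x l) (e.m x k) / e.n +
      ip (e.m x k - e.m x l) (e.m x l) / e.n := by
  unfold Dat.q qq
  rw [← sub_div, ← add_div]
  congr 1
  unfold sq ip
  rw [← Finset.sum_sub_distrib, ← Finset.sum_add_distrib]
  exact Finset.sum_congr rfl fun _ _ => by rw [Pi.sub_apply]; ring

/-- `E φ ⟨σ - m^k, w⟩/n → 0` for local fields `w` of the levels `≥ k` -/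
def N1 (F : Filter ι) (d : ι → Dat) (k : ℕ) : Prop := ∀ (s : Finset ℕ) (w : Fld d)
  (p : ℕ → Fld d), Loc F d s w p → (∀ l ∈ s, k ≤ l) → ∀ φ : Scl d, MW F d φ →
  Tendsto (EE d fun i x => φ i x * (ip (sv x - (d i).m x k) (w i x) / (d i).n)) F (𝓝 0)

/-- `H_k` against local fields of the levels `≥ k` -/
def HL (F : Filter ι) (d : ι → Dat) (k : ℕ) : Prop := ∀ (s : Finset ℕ) (w : Fld d)
  (p : ℕ → Fld d), Loc F d s w p → (∀ l ∈ s, k ≤ l) → ∀ φ : Scl d, MW F d φ →
  Tendsto (EE d fun i x => φ i x * (ip ((d i).m x (k - 1) - (d i).m x k) (w i x) / (d i).n))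
    F (𝓝 0)

theorem HH.loc (hp : ∀ i, IsProb (d i).ν) (hO : OpB F d) (hT : T1k F d) {k : ℕ} (hk : 1 ≤ k)
    (hH : HH F d k) : HL F d k := by
  intro s w p h hs φ hφ
  have h1 := Loc.smul hφ h
  have h2 := hH _ h1.1
  have h3 : OB F d fun i x => (d i).DK x k := by
    refine OB.of_ex ?_
    obtain ⟨C, hC⟩ := hO k
    exact ⟨C, hC.mono fun i hi x => (hi x).2.1⟩
  have h4 := Loc.trN h3 h1
  have h5 : UZ F d (fun i x => ∑ l ∈ s,
      trN ((d i).DK x k * dg (fun j => φ i x * p l i x j) * (d i).MM x l)) :=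
    UZ.sum fun l hl => hT k l hk (hs l hl) _ (h1.2.1 l hl)
  refine tendsto_EE_congr hp h2 ((h4.add h5).congr fun i x => ?_)
  have e1 : ip ((d i).m x (k - 1) - (d i).m x k) (fm (cst φ) w i x) =
      φ i x * ip ((d i).m x (k - 1) - (d i).m x k) (w i x) := ip_cmul_right _ _ _
  rw [e1]
  ring

theorem N1.zero : N1 F d 0 := by
  intro s w p _ _ φ _
  have : (EE d fun i x => φ i x * (ip (sv x - (d i).m x 0) (w i x) / (d i).n)) = fun _ => 0 := by
    funext i
    unfold EE Ex
    refine Finset.sum_eq_zero fun x _ => ?_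
    beta_reduce
    rw [m_zero, sub_self]
    simp [ip]
  rw [this]
  exact tendsto_const_nhds

theorem N1.succ {k : ℕ} (h : N1 F d k) (h' : HL F d (k + 1)) : N1 F d (k + 1) := by
  intro s w p hw hs φ hφ
  have h1 := h s w p hw (fun l hl => (Nat.le_succ k).trans (hs l hl)) φ hφ
  have h2 := h' s w p hw hs φ hφ
  have h3 := tendsto_EE_add h1 h2
  refine h3.congr fun i => ?_
  unfold EE
  congr 1
  funext x
  beta_reduce
  rw [Nat.add_sub_cancel, ← mul_add, ← add_div, ← Vale.Agent.P150.F.D2.DF.ip_add_left]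
  congr 3
  abel

/-- `w` local for the levels of `s` is local for the levels of `s'` -/
theorem Loc.sup {s s' : Finset ℕ} (hss : s ⊆ s') {w : Fld d} {p : ℕ → Fld d}
    (h : Loc F d s w p) : ∃ p', Loc F d s' w p' := ⟨_, h.ext hss⟩

/-- `f_{k+1}` is a local field -/
def LocF (F : Filter ι) (d : ι → Dat) : Prop := ∀ k, 1 ≤ k → ∃ p : ℕ → Fld d,
  Loc F d {k, k + 1} (fun i x => (d i).f x (k + 1)) p

theorem Loc.S (hO : OpB F d) (h4 : L4 F d) (hD : DerA F d) {k : ℕ} (hk : 1 ≤ k) :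
    ∃ p : ℕ → Fld d, Loc F d {k} (fun i x => (d i).S x k) p := by
  have h1 := Loc.m hD hk
  have h2 := Loc.fm hO h4 (fun l hl => by rw [Finset.mem_singleton.1 hl]; exact hk) h1 h1
  have h3 := (Loc.smul (MW.const (F := F) (d := d) (-1)) h2).add (Loc.cst (MW.const 1) {k})
  have e : (fun (i : ι) (x : Cfg (d i).n) => (d i).S x k) = fun i x j =>
        D2.fm (D2.cst fun _ _ => (-1 : ℝ)) (D2.fm (fun i x => (d i).m x k) fun i x => (d i).m x k) i x j +
        D2.cst (fun _ _ => (1 : ℝ)) i x j := by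
    funext i x j
    unfold Dat.S D2.fm D2.cst
    ring
  rw [e]
  exact ⟨_, h3⟩

/-- averages of local fields are weakly macroscopic -/
theorem MW.avg (hO : OpB F d) (hn : Tendsto (fun i => (d i).n) F atTop) {s : Finset ℕ}
    {w : Fld d} {p : ℕ → Fld d} (h : Loc F d s w p) :
    MW F d (fun i x => (∑ j, w i x j) / (d i).n) := by
  have h1 := MW.ip hO h (v := fun i _ => 1 / (d i).n) (C := 1) hn (fun i => by
    unfold sq
    rw [Finset.sum_const, Finset.card_univ, Fintype.card_fin, nsmul_eq_mul]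
    rcases Nat.eq_zero_or_pos (d i).n with h0 | h0
    · rw [h0]; simp
    · have hn' : ((d i).n : ℝ) ≠ 0 := by exact_mod_cast h0.ne'
      field_simp
      exact le_rfl)
  refine h1.congr fun i x => ?_
  unfold Vale.Agent.P150.F.ip
  rw [Finset.sum_div]
  exact Finset.sum_congr rfl fun _ _ => by ring

theorem MW.t (hn : Tendsto (fun i => (d i).n) F atTop) (hM : MacT F d) (k : ℕ) :
    MW F d (fun i x => (d i).t x k) := MW.of_MS hn (hM k)

theorem MW.r2 (hJ : HypJ F d) : MW F d (fun i _ => (d i).r ^ 2) :=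
  MW.of_index (C := 1) fun i => by
    rw [abs_of_nonneg (sq_nonneg _)]
    have := hJ.r0 i
    have := hJ.r1 i
    nlinarith

/-- the trace `tr_n (f_{k+1} S_k)` -/
theorem MW.fS (hO : OpB F d) (h4 : L4 F d) (hD : DerA F d)
    (hn : Tendsto (fun i => (d i).n) F atTop) (hf : LocF F d) {k : ℕ} (hk : 1 ≤ k) :
    MW F d (fun i x => trN (dg ((d i).f x (k + 1)) * dg ((d i).S x k))) := by
  obtain ⟨p, h1⟩ := hf k hk
  obtain ⟨p', h2⟩ := Loc.S hO h4 hD hk
  obtain ⟨p'', h2⟩ := h2.sup (s' := {k, k + 1}) (by simp)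
  have h3 := Loc.fm hO h4 (fun l hl => by
    rcases Finset.mem_insert.1 hl with h | h
    · omega
    · have := Finset.mem_singleton.1 h; omega) h1 h2
  refine (MW.avg hO hn h3).congr fun i x => ?_
  rw [dg_mul_dg, trN_dg]
  rfl

theorem DF.chi_one (e : Dat) (x : Cfg e.n) : e.chi x 1 = e.r ^ 2 * e.t x 1 := rfl

theorem DF.chi_succ (e : Dat) (x : Cfg e.n) (k : ℕ) : e.chi x (k + 2) =
    e.r ^ 2 * e.chi x (k + 1) * trN (dg (e.f x (k + 2)) * dg (e.S x (k + 1))) := rfl

theorem MW.chi (hJ : HypJ F d) (hO : OpB F d) (h4 : L4 F d) (hD : DerA F d) (hM : MacT F d)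
    (hf : LocF F d) (k : ℕ) : MW F d (fun i x => (d i).chi x (k + 1)) := by
  induction k with
  | zero =>
    exact ((MW.r2 hJ).mul (MW.t hJ.n_top hM 1)).congr fun i x => chi_one _ _
  | succ k ih =>
    exact (((MW.r2 hJ).mul ih).mul (MW.fS hO h4 hD hJ.n_top hf (Nat.succ_pos k))).congr
      fun i x => chi_succ _ _ _

theorem XX.one : XX F d 1 := by
  unfold XX
  have : (EE d fun i x => |(d i).chi x 1 - (d i).c x 1|) = fun _ => 0 := by
    funext i
    unfold EE Ex
    refine Finset.sum_eq_zero fun x _ => ?_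
    have e1 : (d i).c x 1 = (d i).r ^ 2 * (d i).t x 1 := by
      unfold Dat.c
      have : (d i).t x (1 - 1) = 0 := by simp [Dat.t, tS]
      rw [this, sub_zero]
    beta_reduce
    rw [chi_one, e1, sub_self, abs_zero, mul_zero]
  rw [this]
  exact tendsto_const_nhds

/-- the induction step for `X_k` -/
theorem XX.succ (hp : ∀ i, IsProb (d i).ν) (hJ : HypJ F d) (hO : OpB F d) (h4 : L4 F d)
    (hD : DerA F d) (hM : MacT F d) (hf : LocF F d) (hT1 : T1k F d) (hT3 : T3 F d) (k : ℕ)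
    (hH : HH F d (k + 2)) : XX F d (k + 2) := by
  -- the difference
  obtain ⟨Δ, hΔ⟩ : ∃ Δ : Scl d, Δ = fun i x => ((d i).t x (k + 2) - (d i).t x (k + 1)) -
    (d i).chi x (k + 1) * trN (dg ((d i).f x (k + 2)) * dg ((d i).S x (k + 1))) := ⟨_, rfl⟩
  have hΔm : MW F d Δ := by
    rw [hΔ]
    exact ((MW.t hJ.n_top hM _).sub (MW.t hJ.n_top hM _)).sub
      ((MW.chi hJ hO h4 hD hM hf k).mul (MW.fS hO h4 hD hJ.n_top hf (Nat.succ_pos k)))
  -- against `m^{k+1}`
  have h1 := Loc.smul hΔm (Loc.m (F := F) hD (Nat.succ_pos k))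
  have h2 := hH _ h1.1
  have h3 : OB F d fun i x => (d i).DK x (k + 2) := by
    refine OB.of_ex ?_
    obtain ⟨C, hC⟩ := hO (k + 2)
    exact ⟨C, hC.mono fun i hi x => (hi x).2.1⟩
  have h5 := Loc.trN h3 h1
  obtain ⟨p, hfp⟩ := hf (k + 1) (Nat.succ_pos k)
  have hfE : EB F d (fun i x => (d i).f x (k + 2)) := hfp.1.1
  have hψ : EB F d (fm (fun i x => (d i).f x (k + 2)) (fun i x j => Δ i x * (d i).S x (k + 1) j)) :=
    hfE.fm (h1.2.1 (k + 1) (Finset.mem_singleton_self _))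
  have h6 := hT3 (k + 1) (Nat.succ_pos k) _ hψ
  have h7 : Tendsto (EE d fun i x => Δ i x * (ip ((d i).m x (k + 1) - (d i).m x (k + 2))
      ((d i).m x (k + 1)) / (d i).n - (d i).chi x (k + 1) *
        trN (dg ((d i).f x (k + 2)) * dg ((d i).S x (k + 1))))) F (𝓝 0) := by
    refine tendsto_EE_congr hp h2 ((h5.add h6).congr fun i x => ?_)
    have e1 : ip ((d i).m x (k + 2 - 1) - (d i).m x (k + 2))
        (fm (cst Δ) (fun i x => (d i).m x (k + 1)) i x) =
        Δ i x * ip ((d i).m x (k + 1) - (d i).m x (k + 2)) ((d i).m x (k + 1)) :=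
      ip_cmul_right _ _ _
    have e2 : (d i).DK x (k + 2) * dg (fun j => Δ i x * (d i).S x (k + 1) j) *
        (d i).MM x (k + 1) = (d i).Xi x (k + 1) * dg (fm (fun i x => (d i).f x (k + 2))
        (fun i x j => Δ i x * (d i).S x (k + 1) j) i x) * (d i).MM x (k + 1) := by
      have : (d i).DK x (k + 2) = (d i).Xi x (k + 1) * dg ((d i).f x (k + 2)) := DK_succ _ _ _ _ _ _
      rw [this, Matrix.mul_assoc ((d i).Xi x (k + 1)), dg_mul_dg]
      rfl
    have e3 : trN (dg (fm (fun i x => (d i).f x (k + 2))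
        (fun i x j => Δ i x * (d i).S x (k + 1) j) i x)) =
        Δ i x * trN (dg ((d i).f x (k + 2)) * dg ((d i).S x (k + 1))) := by
      rw [dg_mul_dg, trN_dg, trN_dg, ← mul_div_assoc, Finset.mul_sum]
      unfold fm
      congr 1
      exact Finset.sum_congr rfl fun _ _ => by ring
    rw [e1, Finset.sum_singleton]
    simp only [e2, e3]
    ring
  -- against `m^{k+2}`
  have h8 := hH.loc hp hO hT1 (Nat.succ_pos _) {k + 2} _ _
    (Loc.m (F := F) hD (Nat.succ_pos (k + 1))) (fun l hl => by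
      rw [Finset.mem_singleton.1 hl]) Δ hΔm
  have h9 : Tendsto (EE d fun i x => Δ i x ^ 2) F (𝓝 0) := by
    refine (tendsto_EE_add h7 h8).congr fun i => ?_
    unfold EE
    congr 1
    funext x
    have e1 : k + 2 - 1 = k + 1 := rfl
    have e2 := q_sub (d i) x (k + 1) (k + 2)
    have e3 := t_sub (d i) x k
    beta_reduce
    rw [e1, pow_two, ← mul_add]
    congr 1
    rw [hΔ]
    simp only []
    rw [e3, e2]
    ring
  have h10 := tendsto_EE_abs_of_sq hp h9
  refine tendsto_EE_of_abs_le hp (C := 1) h10 (Eventually.of_forall fun i x => ?_)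
  have e1 : (d i).chi x (k + 2) - (d i).c x (k + 2) = -((d i).r ^ 2 * Δ i x) := by
    rw [chi_succ, hΔ]
    unfold Dat.c
    have : k + 2 - 1 = k + 1 := rfl
    rw [this]
    ring
  rw [e1, abs_abs, abs_neg, abs_mul]
  refine mul_le_mul_of_nonneg_right ?_ (abs_nonneg _)
  rw [abs_of_nonneg (sq_nonneg _)]
  have := hJ.r0 i
  have := hJ.r1 i
  nlinarith

/-- `P_k` for local fields -/
def PPloc (F : Filter ι) (d : ι → Dat) (k : ℕ) : Prop := ∀ (s : Finset ℕ) (w : Fld d)
  (p : ℕ → Fld d), Loc F d s w p → k ∈ s → (∀ l ∈ s, k ≤ l) → ∀ φ : Scl d, MW F d φ →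
  Tendsto (EE d fun i x => φ i x * (ip ((d i).a x k - (d i).a x (k + 1) -
    (d i).c x k • sv x) (w i x) / (d i).n - (d i).c x k * trN (dg (p k i x)))) F (𝓝 0)

theorem PP.loc (hp : ∀ i, IsProb (d i).ν) (hJ : HypJ F d) (hO : OpB F d) (hM : MacT F d)
    (hT3 : T3 F d) (hT3' : T3' F d) {k : ℕ} (hk : 1 ≤ k) (hN : N1 F d k) (hP : PP F d k)
    (hX : XX F d k) : PPloc F d k := by
  intro s w p h hks hs φ hφ
  have h1 := Loc.smul hφ h
  have h2 := hP _ h1.1
  have h3 : OB F d fun i x => (d i).Xi x k := by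
    refine OB.of_ex ?_
    obtain ⟨C, hC⟩ := hO k
    exact ⟨C, hC.mono fun i hi x => (hi x).2.2⟩
  have h4 := Loc.trN h3 h1
  -- the traces
  have h5 : UZ F d (fun i x => ∑ l ∈ s.erase k,
      trN ((d i).Xi x k * dg (fun j => φ i x * p l i x j) * (d i).MM x l)) :=
    UZ.sum fun l hl => by
      have hl1 := Finset.mem_erase.1 hl
      exact hT3' k l hk (lt_of_le_of_ne (hs l hl1.2) (Ne.symm hl1.1)) _ (h1.2.1 l hl1.2)
  have h6 := hT3 k hk _ (h1.2.1 k hks)
  have h7 : Tendsto (EE d fun i x => φ i x * (ip ((d i).a x k - (d i).a x (k + 1) -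
      (d i).c x k • (d i).m x k) (w i x) / (d i).n) -
      (d i).chi x k * trN (dg (fun j => φ i x * p k i x j))) F (𝓝 0) := by
    refine tendsto_EE_congr hp h2 (((h4.add h5).add h6).congr fun i x => ?_)
    have e1 : ip ((d i).a x k - (d i).a x (k + 1) - (d i).c x k • (d i).m x k)
        (fm (cst φ) w i x) = φ i x * ip ((d i).a x k - (d i).a x (k + 1) -
        (d i).c x k • (d i).m x k) (w i x) := ip_cmul_right _ _ _
    have e2 := Finset.sum_erase_add s (fun l => trN ((d i).Xi x k *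
      dg (fun j => φ i x * p l i x j) * (d i).MM x l)) hks
    rw [e1]
    simp only [] at e2 ⊢
    rw [← e2]
    ring
  -- the scalar
  obtain ⟨B, hB⟩ := hφ.1
  obtain ⟨D, hD⟩ := h.2.1 k hks
  have h8 : Tendsto (EE d fun i x => φ i x * (((d i).chi x k - (d i).c x k) *
      trN (dg (p k i x)))) F (𝓝 0) := by
    refine tendsto_EE_of_abs_le hp (C := |B| * |D|) hX ?_
    filter_upwards [hB, hD] with i h9 h10 x
    rw [abs_mul, abs_mul]
    have h11 := abs_trN_dg_le (abs_nonneg D) fun j => (h10 x j).trans (le_abs_self D)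
    have h12 := (h9 x).trans (le_abs_self B)
    calc |φ i x| * (|(d i).chi x k - (d i).c x k| * |trN (dg (p k i x))|)
        ≤ |B| * (|(d i).chi x k - (d i).c x k| * |D|) := by gcongr
      _ = |B| * |D| * |(d i).chi x k - (d i).c x k| := by ring
  have h9 := hN s w p h hs _ (hφ.mul (MW.c hJ hM k))
  have h10 := tendsto_EE_sub (tendsto_EE_add h7 h8) h9
  refine h10.congr fun i => ?_
  unfold EE
  congr 1
  funext x
  beta_reduce
  have e1 : ip ((d i).a x k - (d i).a x (k + 1) - (d i).c x k • (d i).m x k) (w i x) =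
      ip ((d i).a x k - (d i).a x (k + 1) - (d i).c x k • sv x) (w i x) +
      (d i).c x k * ip (sv x - (d i).m x k) (w i x) := by
    rw [← Vale.Agent.P150.F.D2.DF.ip_smul_left, ← Vale.Agent.P150.F.D2.DF.ip_add_left]
    congr 1
    rw [smul_sub]
    abel
  have e2 : trN (dg (fun j => φ i x * p k i x j)) = φ i x * trN (dg (p k i x)) := by
    rw [trN_dg, trN_dg, ← mul_div_assoc, Finset.mul_sum]
  rw [e1, e2, add_div]
  ring

end Vale.Agent.P150.F.D2
end

section

/-!
# D3: Gaussian interpolation in characteristic function form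

`charStep`: given the pre-identity N2 (hypothesis `N2T`), the law of `a^k` given the spins and
the later fields is Gaussian around `a^{k+1} + c_k σ` with variance `c_k`.
`charComp`: composition of the steps `1, …, k - 1`.
-/

open Filter Topology

namespace Vale.Agent.P150.F.D3

open Vale.Agent.P150.F.D2

section

variable {ι : Type} (F : Filter ι) (d : ι → Dat)

/-- the phase `∑_{l ∈ s} θ_l a^l_j + α_j` -/
noncomputable def ph (s : Finset ℕ) (θ : ι → ℕ → ℝ) (α : ∀ i, Vec (d i).n) (i : ι)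
    (x : Cfg (d i).n) (j : Fin (d i).n) : ℝ :=
  ∑ l ∈ s, θ i l * (d i).a x l j + α i j

/-- N2 for trigonometric test functions -/
def N2T (k : ℕ) (s : Finset ℕ) : Prop :=
  ∀ (φ : Scl d), MW F d φ → ∀ (u v α : ∀ i, Vec (d i).n) (θ : ι → ℕ → ℝ) (C : ℝ),
    (∀ i j, |u i j| ≤ C) → (∀ i j, |v i j| ≤ C) → (∀ i l, |θ i l| ≤ C) →
    Tendsto (EE d fun i x => φ i x *
      (ip ((d i).a x k - (d i).a x (k + 1) - (d i).c x k • sv x)
        (fun j => (u i j + v i j * sv x j) * Real.cos (∑ l ∈ s, θ i l * (d i).a x l j + α i j))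
          / (d i).n
      + (d i).c x k * ((∑ j, (u i j + v i j * sv x j) *
        (θ i k * Real.sin (∑ l ∈ s, θ i l * (d i).a x l j + α i j))) / (d i).n))) F (𝓝 0)

/-- the average of the trigonometric test function -/
noncomputable def av1 (s : Finset ℕ) (θ : ι → ℝ) (ω : ι → ℕ → ℝ) (u v α : ∀ i, Vec (d i).n)
    (B : Scl d) (k : ℕ) (i : ι) (x : Cfg (d i).n) : ℝ :=
  (∑ j, (u i j + v i j * sv x j) *
    Real.cos (θ i * ((d i).a x k j + B i x * sv x j) + ph d s ω α i x j)) / (d i).n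

end

section

variable {n : ℕ}

theorem sv_cases (x : Cfg n) (j : Fin n) : sv x j = 1 ∨ sv x j = -1 := by
  unfold sv
  cases x j <;> simp [sp]

/-- expansion of the sine with a sign in the argument -/
theorem sin_sign {s X g : ℝ} (hs : s = 1 ∨ s = -1) :
    Real.sin (X + g * s) = Real.sin X * Real.cos g + s * Real.cos X * Real.sin g := by
  rcases hs with h | h
  · subst h
    rw [mul_one, one_mul, Real.sin_add]
  · subst h
    rw [mul_neg, mul_one, Real.sin_add, Real.cos_neg, Real.sin_neg]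
    ring

/-- expansion of the cosine with a sign in the argument -/
theorem cos_sign {s X g : ℝ} (hs : s = 1 ∨ s = -1) :
    Real.cos (X + g * s) = Real.cos X * Real.cos g - s * Real.sin X * Real.sin g := by
  rcases hs with h | h
  · subst h
    rw [mul_one, one_mul, Real.cos_add]
  · subst h
    rw [mul_neg, mul_one, Real.cos_add, Real.cos_neg, Real.sin_neg]
    ring

/-- the pointwise identity behind the interpolation -/
theorem interp_identity {θ τ c D s X g w1 w2 : ℝ} (hs : s = 1 ∨ s = -1) :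
    -θ * (Real.cos g * ((D - c * s) * ((w1 + w2 * s) * Real.sin X)
        - c * ((w1 + w2 * s) * (θ * τ * Real.cos X)))
      + Real.sin g * ((D - c * s) * ((w2 + w1 * s) * Real.cos X)
        + c * ((w2 + w1 * s) * (θ * τ * Real.sin X))))
    = (w1 + w2 * s) * (θ ^ 2 * c * τ * Real.cos (X + g * s)
        - θ * (D - c * s) * Real.sin (X + g * s)) := by
  rw [sin_sign hs, cos_sign hs]
  rcases hs with h | h <;> subst h <;> ring

end

section

variable {ι : Type} {F : Filter ι} {d : ι → Dat}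

/-- one step of the Gaussian interpolation -/
theorem charStep {k : ℕ} {s : Finset ℕ} (hks : k ∈ s) (hks' : k + 1 ∈ s) (hN : N2T F d k s)
    (hc : MW F d (fun i x => (d i).c x k))
    {φ B : Scl d} (hφ : MW F d φ) (hB : MW F d B)
    {u v α : ∀ i, Vec (d i).n} {θ : ι → ℝ} {ω : ι → ℕ → ℝ} {C : ℝ}
    (hu : ∀ i j, |u i j| ≤ C) (hv : ∀ i j, |v i j| ≤ C) (hθ : ∀ i, |θ i| ≤ C)
    (hω : ∀ i l, |ω i l| ≤ C) (hω0 : ∀ i, ω i k = 0) :
    Tendsto (EE d fun i x => φ i x * (av1 d s θ ω u v α B k i x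
      - Real.exp (-(θ i ^ 2 * (d i).c x k / 2)) *
        av1 d s θ ω u v α (fun i x => B i x + (d i).c x k) (k + 1) i x)) F (𝓝 0) := by
  classical
  -- the interpolation
  let Y : ∀ (i : ι) (x : Cfg (d i).n) (j : Fin (d i).n) (τ : ℝ), ℝ := fun i x j τ =>
    θ i * (τ * (d i).a x k j + (1 - τ) * ((d i).a x (k + 1) j + (d i).c x k * sv x j)
      + B i x * sv x j) + ph d s ω α i x j
  let G : ι → ℝ → ℝ := fun i τ => ∑ x, (d i).ν x * (φ i x *
    (Real.exp (-(θ i ^ 2 * (d i).c x k * (1 - τ ^ 2) / 2)) *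
      ((∑ j, (u i j + v i j * sv x j) * Real.cos (Y i x j τ)) / (d i).n)))
  let G' : ι → ℝ → ℝ := fun i τ => ∑ x, (d i).ν x * (φ i x *
    (Real.exp (-(θ i ^ 2 * (d i).c x k * (1 - τ ^ 2) / 2)) *
      ((∑ j, (u i j + v i j * sv x j) * (θ i ^ 2 * (d i).c x k * τ * Real.cos (Y i x j τ)
        - θ i * ((d i).a x k j - (d i).a x (k + 1) j - (d i).c x k * sv x j) *
          Real.sin (Y i x j τ))) / (d i).n)))
  have hder : ∀ i τ, HasDerivAt (G i) (G' i τ) τ := by
    intro i τ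
    refine HasDerivAt.fun_sum fun x _ => ?_
    refine HasDerivAt.const_mul _ (HasDerivAt.const_mul _ ?_)
    have h1 : HasDerivAt (fun τ : ℝ => Real.exp (-(θ i ^ 2 * (d i).c x k * (1 - τ ^ 2) / 2)))
        (Real.exp (-(θ i ^ 2 * (d i).c x k * (1 - τ ^ 2) / 2)) *
          (θ i ^ 2 * (d i).c x k * τ)) τ := by
      have h2 : HasDerivAt (fun τ : ℝ => -(θ i ^ 2 * (d i).c x k * (1 - τ ^ 2) / 2))
          (θ i ^ 2 * (d i).c x k * τ) τ := by
        have h3 := (((hasDerivAt_pow 2 τ).const_sub 1).const_mul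
          (θ i ^ 2 * (d i).c x k)).div_const 2
        refine h3.fun_neg.congr_deriv ?_
        norm_num
        ring
      exact h2.exp
    have h4 : ∀ j, HasDerivAt (fun τ : ℝ => (u i j + v i j * sv x j) * Real.cos (Y i x j τ))
        ((u i j + v i j * sv x j) * (-Real.sin (Y i x j τ) *
          (θ i * ((d i).a x k j - (d i).a x (k + 1) j - (d i).c x k * sv x j)))) τ := by
      intro j
      refine HasDerivAt.const_mul _ ?_
      have h5 : HasDerivAt (fun τ : ℝ => Y i x j τ)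
          (θ i * ((d i).a x k j - (d i).a x (k + 1) j - (d i).c x k * sv x j)) τ := by
        have h6 := ((hasDerivAt_id τ).mul_const ((d i).a x k j)).add
          (((hasDerivAt_id τ).const_sub 1).mul_const
            ((d i).a x (k + 1) j + (d i).c x k * sv x j))
        have h7 := ((h6.add_const (B i x * sv x j)).const_mul (θ i)).add_const
          (ph d s ω α i x j)
        refine h7.congr_deriv ?_
        ring
      exact h5.cos
    have h8 := (HasDerivAt.fun_sum (u := Finset.univ) fun j _ => h4 j).div_const ((d i).n : ℝ)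
    refine (h1.mul h8).congr_deriv ?_
    rw [mul_assoc, ← mul_add]
    congr 1
    rw [← mul_div_assoc, ← add_div]
    congr 1
    rw [Finset.mul_sum, ← Finset.sum_add_distrib]
    refine Finset.sum_congr rfl fun j _ => ?_
    ring
  have hmv : ∀ i, ∃ τ ∈ Set.Ioo (0 : ℝ) 1, G' i τ = G i 1 - G i 0 := by
    intro i
    obtain ⟨τ, hτ, h⟩ := exists_hasDerivAt_eq_slope (G i) (G' i) one_pos
      (fun t _ => (hder i t).continuousAt.continuousWithinAt) (fun t _ => hder i t)
    exact ⟨τ, hτ, by rw [h]; simp⟩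
  choose τ hτ hG using hmv
  have hτ1 : ∀ i, |τ i| ≤ 1 := fun i => abs_le.2 ⟨by linarith [(hτ i).1], (hτ i).2.le⟩
  have hτ2 : ∀ i, |1 - τ i| ≤ 1 := fun i =>
    abs_le.2 ⟨by linarith [(hτ i).2], by linarith [(hτ i).1]⟩
  -- coefficients
  let θ' : ι → ℕ → ℝ := fun i l => (if l = k then θ i * τ i else 0)
    + (if l = k + 1 then θ i * (1 - τ i) else 0) + ω i l
  have hC0 : ∀ i : ι, 0 ≤ C := fun i => (abs_nonneg _).trans (hθ i)
  have hθ' : ∀ i l, |θ' i l| ≤ 3 * C := by
    intro i l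
    have e1 : |θ i * τ i| ≤ C := by
      rw [abs_mul]
      exact (mul_le_mul (hθ i) (hτ1 i) (abs_nonneg _) (hC0 i)).trans (by rw [mul_one])
    have e2 : |θ i * (1 - τ i)| ≤ C := by
      rw [abs_mul]
      exact (mul_le_mul (hθ i) (hτ2 i) (abs_nonneg _) (hC0 i)).trans (by rw [mul_one])
    have e3 : |if l = k then θ i * τ i else 0| ≤ C := by
      split_ifs
      · exact e1
      · rw [abs_zero]; exact hC0 i
    have e4 : |if l = k + 1 then θ i * (1 - τ i) else 0| ≤ C := by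
      split_ifs
      · exact e2
      · rw [abs_zero]; exact hC0 i
    calc |θ' i l| ≤ |if l = k then θ i * τ i else 0|
        + |if l = k + 1 then θ i * (1 - τ i) else 0| + |ω i l| := abs_add_three _ _ _
      _ ≤ C + C + C := add_le_add (add_le_add e3 e4) (hω i l)
      _ = 3 * C := by ring
  have hθk : ∀ i, θ' i k = θ i * τ i := by
    intro i
    simp only [θ', if_true, hω0 i]
    rw [if_neg (by omega)]
    ring
  have hsum : ∀ (i : ι) (x : Cfg (d i).n) (j : Fin (d i).n),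
      ∑ l ∈ s, θ' i l * (d i).a x l j = θ i * (τ i * (d i).a x k j)
        + θ i * ((1 - τ i) * (d i).a x (k + 1) j) + ∑ l ∈ s, ω i l * (d i).a x l j := by
    intro i x j
    simp only [θ', add_mul, Finset.sum_add_distrib, ite_mul, zero_mul]
    rw [Finset.sum_ite_eq' s k, Finset.sum_ite_eq' s (k + 1), if_pos hks, if_pos hks']
    ring
  -- the two macroscopic factors
  let g : Scl d := fun i x => θ i * ((1 - τ i) * (d i).c x k + B i x)
  have hg : MW F d g := ((hc.bdd_mul hτ2).add hB).bdd_mul hθ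
  have hE : MW F d (fun i x => Real.exp (-(θ i ^ 2 * (d i).c x k * (1 - τ i ^ 2) / 2))) := by
    have h1 : ∀ i : ι, |-(θ i ^ 2 * (1 - τ i ^ 2) / 2)| ≤ C ^ 2 := by
      intro i
      have e1 : θ i ^ 2 ≤ C ^ 2 := by
        rw [← sq_abs]
        exact pow_le_pow_left₀ (abs_nonneg _) (hθ i) 2
      have e2 : τ i ^ 2 ≤ 1 := by
        rw [← sq_abs]
        exact pow_le_one₀ (abs_nonneg _) (hτ1 i)
      rw [abs_neg, abs_of_nonneg (by linarith only [mul_nonneg (sub_nonneg.2 e2) (sq_nonneg (θ i))])]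
      linarith only [sq_nonneg (θ i * τ i), sq_nonneg (θ i), e1]
    have h2 := hc.exp h1
    have e : (fun (i : ι) (x : Cfg (d i).n) =>
        Real.exp (-(θ i ^ 2 * (d i).c x k * (1 - τ i ^ 2) / 2)))
        = fun i x => Real.exp (-(θ i ^ 2 * (1 - τ i ^ 2) / 2) * (d i).c x k) := by
      funext i x
      congr 1
      ring
    rw [e]
    exact h2
  have hnegθ : ∀ i, |(-θ i)| ≤ C := fun i => by rw [abs_neg]; exact hθ i
  have hcos : MW F d (fun i x => Real.cos (g i x)) := by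
    have := hg.cos (b := fun _ => (1 : ℝ)) (C := 1) (fun _ => by rw [abs_one])
    simpa using this
  have hsin : MW F d (fun i x => Real.sin (g i x)) := by
    have := hg.sin (b := fun _ => (1 : ℝ)) (C := 1) (fun _ => by rw [abs_one])
    simpa using this
  have hφ1 : MW F d (fun i x => -θ i * (φ i x *
      (Real.exp (-(θ i ^ 2 * (d i).c x k * (1 - τ i ^ 2) / 2)) * Real.cos (g i x)))) :=
    (hφ.mul (hE.mul hcos)).bdd_mul hnegθ
  have hφ2 : MW F d (fun i x => -θ i * (φ i x *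
      (Real.exp (-(θ i ^ 2 * (d i).c x k * (1 - τ i ^ 2) / 2)) * Real.sin (g i x)))) :=
    (hφ.mul (hE.mul hsin)).bdd_mul hnegθ
  have hu3 : ∀ i j, |u i j| ≤ 3 * C := fun i j => (hu i j).trans (by linarith [hC0 i])
  have hv3 : ∀ i j, |v i j| ≤ 3 * C := fun i j => (hv i j).trans (by linarith [hC0 i])
  have h1 := hN _ hφ1 u v (fun i j => α i j - Real.pi / 2) θ' (3 * C) hu3 hv3 hθ'
  have h2 := hN _ hφ2 v u α θ' (3 * C) hv3 hu3 hθ'
  have h3 := h1.add h2
  rw [add_zero] at h3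
  refine h3.congr fun i => ?_
  -- left side: `G' i (τ i)`, right side: `G i 1 - G i 0`
  have hR : EE d (fun i x => φ i x * (av1 d s θ ω u v α B k i x
      - Real.exp (-(θ i ^ 2 * (d i).c x k / 2)) *
        av1 d s θ ω u v α (fun i x => B i x + (d i).c x k) (k + 1) i x)) i = G i 1 - G i 0 := by
    simp only [EE, Ex, G]
    rw [← Finset.sum_sub_distrib]
    refine Finset.sum_congr rfl fun x _ => ?_
    rw [← mul_sub, ← mul_sub]
    congr 2
    congr 1
    · rw [show -(θ i ^ 2 * (d i).c x k * (1 - (1 : ℝ) ^ 2) / 2) = 0 by ring, Real.exp_zero,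
        one_mul]
      unfold av1
      congr 1
      refine Finset.sum_congr rfl fun j _ => ?_
      congr 2
      simp only [Y]
      ring
    · rw [show -(θ i ^ 2 * (d i).c x k * (1 - (0 : ℝ) ^ 2) / 2)
        = -(θ i ^ 2 * (d i).c x k / 2) by ring]
      congr 1
      unfold av1
      congr 1
      refine Finset.sum_congr rfl fun j _ => ?_
      congr 2
      simp only [Y]
      ring
  rw [hR, ← hG i]
  simp only [EE, G', Ex]
  rw [← Finset.sum_add_distrib]
  refine Finset.sum_congr rfl fun x _ => ?_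
  rw [← mul_add]
  congr 1
  have hX : ∀ j, Y i x j (τ i) = (∑ l ∈ s, θ' i l * (d i).a x l j + α i j)
      + g i x * sv x j := by
    intro j
    rw [hsum]
    simp only [Y, g, ph]
    ring
  have hsinX : ∀ j, Real.cos (∑ l ∈ s, θ' i l * (d i).a x l j + (α i j - Real.pi / 2))
      = Real.sin (∑ l ∈ s, θ' i l * (d i).a x l j + α i j) := by
    intro j
    rw [← add_sub_assoc, Real.cos_sub_pi_div_two]
  have hcosX : ∀ j, Real.sin (∑ l ∈ s, θ' i l * (d i).a x l j + (α i j - Real.pi / 2))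
      = -Real.cos (∑ l ∈ s, θ' i l * (d i).a x l j + α i j) := by
    intro j
    rw [← add_sub_assoc, Real.sin_sub_pi_div_two]
  have key : ∀ j, _ := fun j => interp_identity (θ := θ i) (τ := τ i) (c := (d i).c x k)
    (D := (d i).a x k j - (d i).a x (k + 1) j) (s := sv x j)
    (X := ∑ l ∈ s, θ' i l * (d i).a x l j + α i j) (g := g i x) (w1 := u i j) (w2 := v i j)
    (sv_cases x j)
  simp only [hX, hsinX, hcosX, hθk, ← key]
  simp only [ip, Pi.sub_apply, Pi.smul_apply, smul_eq_mul]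
  simp only [Finset.sum_div, Finset.mul_sum, ← Finset.sum_add_distrib]
  refine Finset.sum_congr rfl fun j _ => ?_
  ring

theorem t_zero (D : Dat) (x : Cfg D.n) : D.t x 0 = 0 := by
  unfold Dat.t tS
  rw [if_pos rfl]

theorem MW.rt (hc : ∀ k, MW F d (fun i x => (d i).c x k)) (k : ℕ) (hk : 1 ≤ k) :
    MW F d (fun i x => (d i).r ^ 2 * (d i).t x (k - 1)) := by
  induction k, hk using Nat.le_induction with
  | base =>
    refine (MW.const (F := F) (d := d) 0).congr fun i x => ?_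
    rw [Nat.sub_self, t_zero, mul_zero]
  | succ k hk ih =>
    refine (ih.add (hc k)).congr fun i x => ?_
    rw [Nat.add_sub_cancel]
    unfold Dat.c
    ring

/-- removing an index with coefficient zero -/
theorem av1_congr_set {s s' : Finset ℕ} {θ : ι → ℝ} {ω : ι → ℕ → ℝ} {u v α : ∀ i, Vec (d i).n}
    {B : Scl d} {k : ℕ} {i : ι} {x : Cfg (d i).n} (hs : s' ⊆ s)
    (h : ∀ l ∈ s, l ∉ s' → ω i l = 0) :
    av1 d s θ ω u v α B k i x = av1 d s' θ ω u v α B k i x := by
  have e : ∀ j, ph d s ω α i x j = ph d s' ω α i x j := by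
    intro j
    unfold ph
    congr 1
    refine (Finset.sum_subset hs fun l hl hl' => ?_).symm
    rw [h l hl hl', zero_mul]
  unfold av1
  simp only [e]

/-- composition of the steps `1, …, k - 1`: the total variance is `r² t_{k-1}` -/
theorem charComp {K : ℕ} (hN : ∀ l, 1 ≤ l → l < K → N2T F d l (Finset.Icc l K))
    (hc : ∀ l, MW F d (fun i x => (d i).c x l)) {k : ℕ} (hk : 1 ≤ k) :
    k ≤ K → ∀ {φ B : Scl d}, MW F d φ → MW F d B →
    ∀ {u v α : ∀ i, Vec (d i).n} {θ : ι → ℝ} {ω : ι → ℕ → ℝ} {C : ℝ},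
    (∀ i j, |u i j| ≤ C) → (∀ i j, |v i j| ≤ C) → (∀ i, |θ i| ≤ C) →
    (∀ i l, |ω i l| ≤ C) → (∀ i l, l < k → ω i l = 0) →
    Tendsto (EE d fun i x => φ i x * (av1 d (Finset.Icc k K) θ ω u v α B 1 i x
      - Real.exp (-(θ i ^ 2 * ((d i).r ^ 2 * (d i).t x (k - 1)) / 2)) *
        av1 d (Finset.Icc k K) θ ω u v α
          (fun i x => B i x + (d i).r ^ 2 * (d i).t x (k - 1)) k i x)) F (𝓝 0) := by
  induction k, hk using Nat.le_induction with
  | base =>
    intro _ φ B hφ hB u v α θ ω C hu hv hθ hω hω0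
    have e : EE d (fun i x => φ i x * (av1 d (Finset.Icc 1 K) θ ω u v α B 1 i x
      - Real.exp (-(θ i ^ 2 * ((d i).r ^ 2 * (d i).t x (1 - 1)) / 2)) *
        av1 d (Finset.Icc 1 K) θ ω u v α
          (fun i x => B i x + (d i).r ^ 2 * (d i).t x (1 - 1)) 1 i x)) = fun _ => 0 := by
      funext i
      unfold EE Ex
      refine Finset.sum_eq_zero fun x _ => ?_
      have e1 : (d i).t x (1 - 1) = 0 := t_zero _ _
      have e2 : av1 d (Finset.Icc 1 K) θ ω u v α
          (fun i x => B i x + (d i).r ^ 2 * (d i).t x (1 - 1)) 1 i x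
          = av1 d (Finset.Icc 1 K) θ ω u v α B 1 i x := by
        unfold av1
        simp only [e1, mul_zero, add_zero]
      beta_reduce
      rw [e2, e1]
      simp
    rw [e]
    exact tendsto_const_nhds
  | succ k hk ih =>
    intro hkK φ B hφ hB u v α θ ω C hu hv hθ hω hω0
    have hkK' : k ≤ K := by omega
    have hE : MW F d (fun i x =>
        Real.exp (-(θ i ^ 2 * ((d i).r ^ 2 * (d i).t x (k - 1)) / 2))) := by
      have h1 : ∀ i : ι, |(-(θ i ^ 2 / 2))| ≤ C ^ 2 := by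
        intro i
        have e1 : θ i ^ 2 ≤ C ^ 2 := by
          rw [← sq_abs]
          exact pow_le_pow_left₀ (abs_nonneg _) (hθ i) 2
        rw [abs_neg, abs_of_nonneg (by (clear * -; positivity))]
        linarith only [e1, sq_nonneg (θ i)]
      refine ((MW.rt hc k hk).exp h1).congr fun i x => ?_
      congr 1
      ring
    have h1 := ih hkK' hφ hB (α := α) hu hv hθ hω (fun i l hl => hω0 i l (by omega))
    have h2 := charStep (k := k) (s := Finset.Icc k K) (Finset.mem_Icc.2 ⟨le_rfl, hkK'⟩)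
      (Finset.mem_Icc.2 ⟨by omega, hkK⟩) (hN k hk (by omega)) (hc k) (hφ.mul hE)
      (hB.add (MW.rt hc k hk)) hu hv hθ hω (fun i => hω0 i k (by omega)) (α := α)
    have h3 := h1.add h2
    rw [add_zero] at h3
    refine h3.congr fun i => ?_
    simp only [EE]
    rw [← Vale.Agent.P150.F.D2.Ex_add]
    unfold Ex
    refine Finset.sum_congr rfl fun x _ => ?_
    congr 1
    have e1 : ∀ (B' : Scl d) (m : ℕ), av1 d (Finset.Icc (k + 1) K) θ ω u v α B' m i x
        = av1 d (Finset.Icc k K) θ ω u v α B' m i x := by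
      intro B' m
      refine (av1_congr_set (Finset.Icc_subset_Icc_left (by omega)) fun l hl hl' => ?_).symm
      refine hω0 i l ?_
      rw [Finset.mem_Icc] at hl hl'
      omega
    have e2 : (d i).r ^ 2 * (d i).t x (k + 1 - 1)
        = (d i).r ^ 2 * (d i).t x (k - 1) + (d i).c x k := by
      rw [Nat.add_sub_cancel]
      unfold Dat.c
      ring
    beta_reduce
    rw [e1, e1]
    have e3 : av1 d (Finset.Icc k K) θ ω u v α
        (fun i x => B i x + (d i).r ^ 2 * (d i).t x (k - 1) + (d i).c x k) (k + 1) i x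
        = av1 d (Finset.Icc k K) θ ω u v α
        (fun i x => B i x + (d i).r ^ 2 * (d i).t x (k + 1 - 1)) (k + 1) i x := by
      unfold av1
      simp only [e2]
      congr 1
      refine Finset.sum_congr rfl fun j _ => ?_
      rw [add_assoc (B i x)]
    have e4 : Real.exp (-(θ i ^ 2 * ((d i).r ^ 2 * (d i).t x (k + 1 - 1)) / 2))
        = Real.exp (-(θ i ^ 2 * ((d i).r ^ 2 * (d i).t x (k - 1)) / 2))
          * Real.exp (-(θ i ^ 2 * (d i).c x k / 2)) := by
      rw [e2, ← Real.exp_add]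
      congr 1
      ring
    rw [e3, e4]
    ring

end

end Vale.Agent.P150.F.D3
end

section

/-!
# D3a': the law of the local fields in zero field, characteristic function form
-/

open Filter Topology

namespace Vale.Agent.P150.F.D3

open Vale.Agent.P150.F.D2

theorem tD_succ (D : Dat) (x : Cfg D.n) (k : ℕ) (hn : 0 < D.n) :
    D.t x (k + 1) = 1 - qq (D.m x (k + 1)) := by
  unfold Dat.t tS
  rw [if_neg (Nat.succ_ne_zero k)]
  unfold trN dg qq sq Dat.S
  simp only [Matrix.diagonal_apply_eq]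
  rw [Finset.sum_sub_distrib]
  simp only [Finset.sum_const, Finset.card_univ, Fintype.card_fin, nsmul_eq_mul, mul_one]
  have : (D.n : ℝ) ≠ 0 := by exact_mod_cast hn.ne'
  rw [sub_div, div_self this]

theorem aD_add_two (D : Dat) (x : Cfg D.n) (k : ℕ) (j : Fin D.n) :
    D.a x (k + 2) j = D.M.mulVec (D.m x (k + 1)) j + D.y j
      - D.r ^ 2 * (1 - qq (D.m x (k + 1))) * D.m x k j := rfl

theorem qD_nonneg (D : Dat) (x : Cfg D.n) (k : ℕ) : 0 ≤ qq (D.m x k) := qq_nonneg _

theorem qD_le (D : Dat) (x : Cfg D.n) (k : ℕ) : qq (D.m x k) ≤ 1 := qq_ampM_le _ _ _ x k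

/-- without external field the later AMP fields are controlled by the overlaps -/
theorem sq_aD_le (D : Dat) (x : Cfg D.n) (k : ℕ) (hy : D.y = 0) (hM : OpLe D.M 3)
    (hr0 : 0 ≤ D.r) (hr1 : D.r ≤ 1) :
    sq (D.a x (k + 2)) ≤ 2 * (9 * sq (D.m x (k + 1)) + sq (D.m x k)) := by
  have h1 : sq (D.a x (k + 2)) ≤ 2 * (sq (D.M.mulVec (D.m x (k + 1))) + sq (D.m x k)) := by
    unfold sq
    rw [← Finset.sum_add_distrib, Finset.mul_sum]
    refine Finset.sum_le_sum fun j _ => ?_
    rw [aD_add_two, hy, Pi.zero_apply, add_zero]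
    set c := D.r ^ 2 * (1 - qq (D.m x (k + 1))) with hcdef
    have hc0 : 0 ≤ c := mul_nonneg (sq_nonneg _) (by linarith [qD_le D x (k + 1)])
    have hc1 : c ≤ 1 := by
      have e1 : D.r ^ 2 ≤ 1 := pow_le_one₀ hr0 hr1
      have e2 := qD_nonneg D x (k + 1)
      have e3 : D.r ^ 2 * (1 - qq (D.m x (k + 1))) ≤ 1 * 1 :=
        mul_le_mul e1 (by linarith) (by linarith [qD_le D x (k + 1)]) zero_le_one
      linarith
    have e4 : c ^ 2 ≤ 1 := pow_le_one₀ hc0 hc1
    have e5 : (c * D.m x k j) ^ 2 ≤ D.m x k j ^ 2 := by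
      rw [mul_pow]
      linarith only [mul_nonneg (sub_nonneg.2 e4) (sq_nonneg (D.m x k j))]
    linarith only [e5, sq_nonneg (D.M.mulVec (D.m x (k + 1)) j + c * D.m x k j)]
  have h2 := hM (D.m x (k + 1))
  linarith

section fixed

variable {n : ℕ}

theorem sum_abs_div_le (a : Vec n) (hn : 0 < n) : (∑ j, |a j|) / n ≤ √(sq a / n) := by
  have hn' : (0 : ℝ) < n := by exact_mod_cast hn
  refine Real.le_sqrt_of_sq_le ?_
  rw [div_pow, div_le_div_iff₀ (by positivity) hn']
  have h := Finset.sum_mul_sq_le_sq_mul_sq (Finset.univ : Finset (Fin n)) (fun j => |a j|)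
    (fun _ => (1 : ℝ))
  simp only [mul_one, sq_abs, one_pow, Finset.sum_const, Finset.card_univ, Fintype.card_fin,
    nsmul_eq_mul] at h
  have e : sq a = ∑ j, a j ^ 2 := rfl
  rw [e]
  calc (∑ j, |a j|) ^ 2 * n ≤ ((∑ j, a j ^ 2) * n) * n := mul_le_mul_of_nonneg_right h hn'.le
    _ = (∑ j, a j ^ 2) * (n : ℝ) ^ 2 := by ring

theorem exp_neg_sub_le {s t : ℝ} (hs : 0 ≤ s) (ht : 0 ≤ t) :
    |Real.exp (-s) - Real.exp (-t)| ≤ |s - t| := by
  have key : ∀ s t : ℝ, 0 ≤ s → s ≤ t → |Real.exp (-s) - Real.exp (-t)| ≤ |s - t| := by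
    intro s t hs hst
    have h1 : Real.exp (-t) ≤ Real.exp (-s) := Real.exp_le_exp.2 (by linarith)
    rw [abs_of_nonneg (by linarith), abs_of_nonpos (by linarith)]
    have e : Real.exp (-s) - Real.exp (-t) = Real.exp (-s) * (1 - Real.exp (-(t - s))) := by
      rw [mul_sub, mul_one, ← Real.exp_add]
      ring_nf
    rw [e]
    have h2 : Real.exp (-s) ≤ 1 := Real.exp_le_one_iff.2 (by linarith)
    have h3 : 1 - Real.exp (-(t - s)) ≤ t - s := by linarith [Real.add_one_le_exp (-(t - s))]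
    have h4 : 0 ≤ 1 - Real.exp (-(t - s)) :=
      sub_nonneg.2 (Real.exp_le_one_iff.2 (by linarith))
    calc Real.exp (-s) * (1 - Real.exp (-(t - s))) ≤ 1 * (t - s) :=
          mul_le_mul h2 h3 h4 zero_le_one
      _ = -(s - t) := by ring
  rcases le_total s t with h | h
  · exact key s t hs h
  · rw [abs_sub_comm, abs_sub_comm s t]
    exact key t s ht h

/-- comparison of the averages when `a` is small and `B` is close to `b` -/
theorem avg_compare {C θ B b : ℝ} (hn : 0 < n) (x : Cfg n) {u v α a : Vec n}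
    (hu : ∀ j, |u j| ≤ C) (hv : ∀ j, |v j| ≤ C) (hB : 0 ≤ B) (hb : 0 ≤ b) :
    |Real.exp (-(θ ^ 2 * B / 2)) * ((∑ j, (u j + v j * sv x j) *
        Real.cos (θ * (a j + B * sv x j) + α j)) / n)
      - Real.exp (-(θ ^ 2 * b / 2)) * ((∑ j, (u j + v j * sv x j) *
        Real.cos (θ * (b * sv x j) + α j)) / n)|
    ≤ 2 * C * ((θ ^ 2 / 2 + |θ|) * |B - b| + |θ| * √(sq a / n)) := by
  have hn' : (0 : ℝ) < n := by exact_mod_cast hn
  have hC : 0 ≤ C := (abs_nonneg _).trans (hu ⟨0, hn⟩)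
  have hexp := exp_neg_sub_le (s := θ ^ 2 * B / 2) (t := θ ^ 2 * b / 2) (by positivity)
    (by (clear * - hb; positivity))
  have hexp' : |Real.exp (-(θ ^ 2 * B / 2)) - Real.exp (-(θ ^ 2 * b / 2))|
      ≤ θ ^ 2 / 2 * |B - b| := by
    refine hexp.trans (le_of_eq ?_)
    rw [show θ ^ 2 * B / 2 - θ ^ 2 * b / 2 = θ ^ 2 / 2 * (B - b) by ring, abs_mul,
      abs_of_nonneg (by (clear * -; positivity) : 0 ≤ θ ^ 2 / 2)]
  have hterm : ∀ j, |Real.exp (-(θ ^ 2 * B / 2)) * ((u j + v j * sv x j) *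
        Real.cos (θ * (a j + B * sv x j) + α j))
      - Real.exp (-(θ ^ 2 * b / 2)) * ((u j + v j * sv x j) *
        Real.cos (θ * (b * sv x j) + α j))|
      ≤ 2 * C * ((θ ^ 2 / 2 + |θ|) * |B - b| + |θ| * |a j|) := by
    intro j
    have hσ : |sv x j| = 1 := by
      rcases sv_cases x j with h | h <;> rw [h] <;> simp
    have hw : |u j + v j * sv x j| ≤ 2 * C := by
      refine (abs_add_le _ _).trans ?_
      rw [abs_mul, hσ, mul_one]
      linarith only [hu j, hv j]
    have e : Real.exp (-(θ ^ 2 * B / 2)) * ((u j + v j * sv x j) *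
        Real.cos (θ * (a j + B * sv x j) + α j))
      - Real.exp (-(θ ^ 2 * b / 2)) * ((u j + v j * sv x j) *
        Real.cos (θ * (b * sv x j) + α j))
      = (u j + v j * sv x j) * ((Real.exp (-(θ ^ 2 * B / 2)) - Real.exp (-(θ ^ 2 * b / 2))) *
          Real.cos (θ * (a j + B * sv x j) + α j)
        + Real.exp (-(θ ^ 2 * b / 2)) * (Real.cos (θ * (a j + B * sv x j) + α j)
          - Real.cos (θ * (b * sv x j) + α j))) := by ring
    rw [e, abs_mul]
    refine mul_le_mul hw ?_ (abs_nonneg _) (by positivity)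
    refine (abs_add_le _ _).trans ?_
    rw [abs_mul, abs_mul, abs_of_pos (Real.exp_pos _)]
    have e1 : |Real.cos (θ * (a j + B * sv x j) + α j)| ≤ 1 := Real.abs_cos_le_one _
    have e2 : Real.exp (-(θ ^ 2 * b / 2)) ≤ 1 := Real.exp_le_one_iff.2 (by
      have : 0 ≤ θ ^ 2 * b / 2 := by (clear * - hb; positivity)
      linarith only [this])
    have e3 : |Real.cos (θ * (a j + B * sv x j) + α j) - Real.cos (θ * (b * sv x j) + α j)|
        ≤ |θ| * |a j| + |θ| * |B - b| := by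
      have e4 : |Real.cos (θ * (a j + B * sv x j) + α j)
          - Real.cos (θ * (b * sv x j) + α j)| ≤ |(θ * (a j + B * sv x j) + α j)
          - (θ * (b * sv x j) + α j)| := Real.abs_cos_sub_cos_le _ _
      refine e4.trans ?_
      rw [show (θ * (a j + B * sv x j) + α j) - (θ * (b * sv x j) + α j)
        = θ * a j + θ * (B - b) * sv x j by ring]
      refine (abs_add_le _ _).trans ?_
      rw [abs_mul, abs_mul, abs_mul, hσ, mul_one]
    have e5 : |Real.exp (-(θ ^ 2 * B / 2)) - Real.exp (-(θ ^ 2 * b / 2))| *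
        |Real.cos (θ * (a j + B * sv x j) + α j)| ≤ θ ^ 2 / 2 * |B - b| := by
      calc _ ≤ |Real.exp (-(θ ^ 2 * B / 2)) - Real.exp (-(θ ^ 2 * b / 2))| * 1 :=
            mul_le_mul_of_nonneg_left e1 (abs_nonneg _)
        _ ≤ _ := by rw [mul_one]; exact hexp'
    have e6 : Real.exp (-(θ ^ 2 * b / 2)) * |Real.cos (θ * (a j + B * sv x j) + α j)
        - Real.cos (θ * (b * sv x j) + α j)| ≤ |θ| * |a j| + |θ| * |B - b| := by
      calc _ ≤ 1 * |Real.cos (θ * (a j + B * sv x j) + α j)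
            - Real.cos (θ * (b * sv x j) + α j)| :=
            mul_le_mul_of_nonneg_right e2 (abs_nonneg _)
        _ ≤ _ := by rw [one_mul]; exact e3
    calc _ ≤ θ ^ 2 / 2 * |B - b| + (|θ| * |a j| + |θ| * |B - b|) := add_le_add e5 e6
      _ = (θ ^ 2 / 2 + |θ|) * |B - b| + |θ| * |a j| := by ring
  rw [← mul_div_assoc, ← mul_div_assoc, ← sub_div, Finset.mul_sum, Finset.mul_sum,
    ← Finset.sum_sub_distrib, abs_div, abs_of_pos hn']
  calc _ ≤ (∑ j, 2 * C * ((θ ^ 2 / 2 + |θ|) * |B - b| + |θ| * |a j|)) / (n : ℝ) := by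
        refine div_le_div_of_nonneg_right ?_ hn'.le
        exact (Finset.abs_sum_le_sum_abs _ _).trans (Finset.sum_le_sum fun j _ => hterm j)
    _ = 2 * C * ((θ ^ 2 / 2 + |θ|) * |B - b| + |θ| * ((∑ j, |a j|) / (n : ℝ))) := by
        have e : ∑ j, |θ| * |a j| = |θ| * ∑ j, |a j| := (Finset.mul_sum _ _ _).symm
        rw [← Finset.mul_sum, Finset.sum_add_distrib, e]
        simp only [Finset.sum_const, Finset.card_univ, Fintype.card_fin, nsmul_eq_mul]
        field_simp
    _ ≤ _ := by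
        have := sum_abs_div_le a hn
        gcongr

end fixed

section

variable {ι : Type} {F : Filter ι} {d : ι → Dat}

/-- D3a', family form: in zero field the local fields given the spins are `N (r² σ, r²)`. -/
theorem field_law_fam (hp : ∀ i, IsProb (d i).ν) (hn : Tendsto (fun i => (d i).n) F atTop)
    (hM : ∀ i, OpLe (d i).M 3) (hy : ∀ i, (d i).y = 0) (hr0 : ∀ i, 0 ≤ (d i).r)
    (hr1 : ∀ i, (d i).r ≤ 1)
    (hN : ∀ k s, 1 ≤ k → k ∈ s → (∀ l ∈ s, k ≤ l) → N2T F d k s)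
    (hc : ∀ k, MW F d (fun i x => (d i).c x k))
    (hQ : ∀ ε : ℝ, 0 < ε → ∃ K₀ : ℕ, ∀ K, K₀ ≤ K → ∀ᶠ i in F,
      EE d (fun i x => qq ((d i).m x K)) i ≤ ε)
    {φ : Scl d} (hφ : MW F d φ) {u v α : ∀ i, Vec (d i).n} {θ : ι → ℝ} {C : ℝ} (hC : 0 ≤ C)
    (hu : ∀ i j, |u i j| ≤ C) (hv : ∀ i j, |v i j| ≤ C) (hθ : ∀ i, |θ i| ≤ C) :
    Tendsto (EE d fun i x => φ i x *
      ((∑ j, (u i j + v i j * sv x j) * Real.cos (θ i * (d i).a x 1 j + α i j)) / (d i).n
      - Real.exp (-(θ i ^ 2 * (d i).r ^ 2 / 2)) *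
        ((∑ j, (u i j + v i j * sv x j) *
          Real.cos (θ i * ((d i).r ^ 2 * sv x j) + α i j)) / (d i).n))) F (𝓝 0) := by
  obtain ⟨A, hA⟩ := hφ.1
  rw [Metric.tendsto_nhds]
  intro ε hε
  -- constants
  set R : ℝ := |A| * (2 * C) * (C ^ 2 / 2 + 9 * C) + 1 with hR
  have hR0 : 0 < R := by (clear * - hC; positivity)
  set δ : ℝ := min 1 ((ε / (4 * R)) ^ 2) with hδ
  have hδ0 : 0 < δ := lt_min one_pos (by (clear * - hε hC; positivity))
  have hδ1 : δ ≤ 1 := min_le_left _ _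
  have hsδ : √δ ≤ ε / (4 * R) := by
    rw [Real.sqrt_le_left (by (clear * - hε hC; positivity))]
    exact min_le_right _ _
  have hδs : δ ≤ √δ := by
    refine Real.le_sqrt_of_sq_le ?_
    (by_contra nlg; linarith only [mul_pos (sub_pos.2 (not_le.1 nlg)) (sub_pos.2 hδ0), mul_nonneg (le_of_lt (sub_pos.2 (not_le.1 nlg))) (sub_nonneg.2 hδ1), mul_nonneg (le_of_lt (sub_pos.2 hδ0)) (sub_nonneg.2 hδ1)])
  obtain ⟨K₀, hK₀⟩ := hQ δ hδ0
  set k : ℕ := K₀ with hk
  have hq1 := hK₀ k le_rfl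
  have hq2 := hK₀ (k + 1) (Nat.le_succ _)
  -- composition up to `K = k + 2`
  have hcomp := charComp (F := F) (d := d) (K := k + 2)
    (fun l h1 h2 => hN l _ h1 (Finset.mem_Icc.2 ⟨le_rfl, h2.le⟩)
      (fun l' hl' => (Finset.mem_Icc.1 hl').1)) hc (k := k + 2) (by omega) le_rfl
    hφ (MW.const (F := F) (d := d) 0) (u := u) (v := v) (α := α) (θ := θ)
    (ω := fun _ _ => 0) (C := C) hu hv hθ (fun _ _ => by rw [abs_zero]; exact hC)
    (fun _ _ _ => rfl)
  have h1 := (Metric.tendsto_nhds.1 hcomp) (ε / 2) (by positivity)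
  filter_upwards [h1, hq1, hq2, hA, hn.eventually (eventually_ge_atTop 1)] with i h1 h2 h3 h4 h5
  have hn0 : 0 < (d i).n := h5
  have hn' : (0 : ℝ) < (d i).n := by exact_mod_cast hn0
  rw [dist_zero_right, Real.norm_eq_abs] at h1 ⊢
  -- the remainder
  let e1 : Cfg (d i).n → ℝ := fun x => φ i x * (av1 d (Finset.Icc (k + 2) (k + 2)) θ
      (fun _ _ => 0) u v α (fun _ _ => 0) 1 i x
      - Real.exp (-(θ i ^ 2 * ((d i).r ^ 2 * (d i).t x (k + 2 - 1)) / 2)) *
        av1 d (Finset.Icc (k + 2) (k + 2)) θ (fun _ _ => 0) u v α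
          (fun i x => 0 + (d i).r ^ 2 * (d i).t x (k + 2 - 1)) (k + 2) i x)
  let e2 : Cfg (d i).n → ℝ := fun x => φ i x * (
      Real.exp (-(θ i ^ 2 * ((d i).r ^ 2 * (1 - qq ((d i).m x (k + 1)))) / 2)) *
        ((∑ j, (u i j + v i j * sv x j) * Real.cos (θ i * ((d i).a x (k + 2) j +
          ((d i).r ^ 2 * (1 - qq ((d i).m x (k + 1)))) * sv x j) + α i j)) / (d i).n)
      - Real.exp (-(θ i ^ 2 * (d i).r ^ 2 / 2)) *
        ((∑ j, (u i j + v i j * sv x j) *
          Real.cos (θ i * ((d i).r ^ 2 * sv x j) + α i j)) / (d i).n))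
  have hsplit : EE d (fun i x => φ i x *
      ((∑ j, (u i j + v i j * sv x j) * Real.cos (θ i * (d i).a x 1 j + α i j)) / (d i).n
      - Real.exp (-(θ i ^ 2 * (d i).r ^ 2 / 2)) *
        ((∑ j, (u i j + v i j * sv x j) *
          Real.cos (θ i * ((d i).r ^ 2 * sv x j) + α i j)) / (d i).n))) i
      = Ex (d i).ν e1 + Ex (d i).ν e2 := by
    rw [← Ex_add]
    unfold EE Ex
    refine Finset.sum_congr rfl fun x _ => ?_
    congr 1
    simp only [e1, e2]
    rw [← mul_add]
    congr 1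
    have f1 : av1 d (Finset.Icc (k + 2) (k + 2)) θ (fun _ _ => 0) u v α (fun _ _ => 0) 1 i x
        = (∑ j, (u i j + v i j * sv x j) * Real.cos (θ i * (d i).a x 1 j + α i j)) / (d i).n := by
      unfold av1 ph
      simp
    have f2 : (d i).t x (k + 2 - 1) = 1 - qq ((d i).m x (k + 1)) := tD_succ _ _ _ hn0
    have f3 : av1 d (Finset.Icc (k + 2) (k + 2)) θ (fun _ _ => 0) u v α
          (fun i x => 0 + (d i).r ^ 2 * (d i).t x (k + 2 - 1)) (k + 2) i x
        = (∑ j, (u i j + v i j * sv x j) * Real.cos (θ i * ((d i).a x (k + 2) j +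
          ((d i).r ^ 2 * (1 - qq ((d i).m x (k + 1)))) * sv x j) + α i j)) / (d i).n := by
      unfold av1 ph
      simp only [f2]
      simp
    rw [f1, f3, f2]
    ring
  rw [hsplit]
  have hb1 : |Ex (d i).ν e1| < ε / 2 := h1
  have hb2 : |Ex (d i).ν e2| ≤ ε / 4 := by
    have g1 : ∀ x, |e2 x| ≤ |A| * (2 * C) * ((C ^ 2 / 2 + C) * qq ((d i).m x (k + 1))
        + C * √(sq ((d i).a x (k + 2)) / (d i).n)) := by
      intro x
      simp only [e2]
      rw [abs_mul]
      have hB0 : 0 ≤ (d i).r ^ 2 * (1 - qq ((d i).m x (k + 1))) :=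
        mul_nonneg (sq_nonneg _) (by linarith only [qD_le (d i) x (k + 1)])
      have g2 := avg_compare (n := (d i).n) (C := C) (θ := θ i)
        (B := (d i).r ^ 2 * (1 - qq ((d i).m x (k + 1)))) (b := (d i).r ^ 2) hn0 x
        (u := u i) (v := v i) (α := α i) (a := (d i).a x (k + 2)) (hu i) (hv i) hB0
        (sq_nonneg _)
      have g3 : |(d i).r ^ 2 * (1 - qq ((d i).m x (k + 1))) - (d i).r ^ 2|
          ≤ qq ((d i).m x (k + 1)) := by
        rw [show (d i).r ^ 2 * (1 - qq ((d i).m x (k + 1))) - (d i).r ^ 2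
          = -((d i).r ^ 2 * qq ((d i).m x (k + 1))) by ring, abs_neg,
          abs_of_nonneg (mul_nonneg (sq_nonneg _) (qD_nonneg _ _ _))]
        have : (d i).r ^ 2 ≤ 1 := pow_le_one₀ (hr0 i) (hr1 i)
        (by_contra nlg; linarith only [mul_pos (sub_pos.2 (not_le.1 nlg)) (sub_pos.2 hδ0), mul_nonneg (le_of_lt (sub_pos.2 (not_le.1 nlg))) (sub_nonneg.2 hδ1), mul_nonneg (sub_nonneg.2 this) (sub_nonneg.2 (qD_nonneg (d i) x (k + 1)))])
      have g4 : θ i ^ 2 ≤ C ^ 2 := by
        rw [← sq_abs]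
        exact pow_le_pow_left₀ (abs_nonneg _) (hθ i) 2
      have g5 : 0 ≤ qq ((d i).m x (k + 1)) := qD_nonneg _ _ _
      calc |φ i x| * _ ≤ |A| * (2 * C * ((θ i ^ 2 / 2 + |θ i|) *
            |(d i).r ^ 2 * (1 - qq ((d i).m x (k + 1))) - (d i).r ^ 2|
            + |θ i| * √(sq ((d i).a x (k + 2)) / (d i).n))) :=
            mul_le_mul ((h4 x).trans (le_abs_self _)) g2 (abs_nonneg _) (abs_nonneg _)
        _ ≤ |A| * (2 * C * ((C ^ 2 / 2 + C) * qq ((d i).m x (k + 1))
            + C * √(sq ((d i).a x (k + 2)) / (d i).n))) := by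
            refine mul_le_mul_of_nonneg_left ?_ (abs_nonneg _)
            refine mul_le_mul_of_nonneg_left ?_ (by (clear * - hC; positivity))
            refine add_le_add (mul_le_mul (add_le_add (by linarith only [g4]) (hθ i)) g3
              (abs_nonneg _) (by (clear * - hC; positivity))) ?_
            exact mul_le_mul_of_nonneg_right (hθ i) (Real.sqrt_nonneg _)
        _ = _ := by ring
    have g6 : Ex (d i).ν (fun x => √(sq ((d i).a x (k + 2)) / (d i).n)) ≤ √(20 * δ) := by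
      refine (Ex_le_sqrt (hp i) _).trans (Real.sqrt_le_sqrt ?_)
      have g0 : ∀ x, √(sq ((d i).a x (k + 2)) / (d i).n) ^ 2
          = sq ((d i).a x (k + 2)) / (d i).n := fun x =>
        Real.sq_sqrt (div_nonneg (sqN_nonneg _) hn'.le)
      simp only [g0]
      have g7 : ∀ x, sq ((d i).a x (k + 2)) / (d i).n ≤
          18 * qq ((d i).m x (k + 1)) + 2 * qq ((d i).m x k) := by
        intro x
        have := sq_aD_le (d i) x k (hy i) (hM i) (hr0 i) (hr1 i)
        unfold qq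
        rw [div_le_iff₀ hn', add_mul, mul_assoc, mul_assoc, div_mul_cancel₀ _ hn'.ne',
          div_mul_cancel₀ _ hn'.ne']
        linarith only [this]
      refine (Ex_mono (hp i) g7).trans ?_
      rw [Ex_add, Ex_const_mul, Ex_const_mul]
      have g8 : Ex (d i).ν (fun x => qq ((d i).m x (k + 1))) ≤ δ := h3
      have g9 : Ex (d i).ν (fun x => qq ((d i).m x k)) ≤ δ := h2
      linarith only [g9, g8]
    have g10 : √(20 * δ) ≤ 5 * √δ := by
      rw [Real.sqrt_le_left (by (clear * - hε hC; positivity)), mul_pow, Real.sq_sqrt hδ0.le]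
      linarith only [hδ0]
    have g11 : Ex (d i).ν (fun x => qq ((d i).m x (k + 1))) ≤ √δ := le_trans h3 hδs
    refine (abs_Ex_le (hp i) e2).trans ((Ex_mono (hp i) g1).trans ?_)
    rw [Ex_const_mul, Ex_add, Ex_const_mul, Ex_const_mul]
    calc |A| * (2 * C) * ((C ^ 2 / 2 + C) * Ex (d i).ν (fun x => qq ((d i).m x (k + 1)))
          + C * Ex (d i).ν (fun x => √(sq ((d i).a x (k + 2)) / (d i).n)))
        ≤ |A| * (2 * C) * ((C ^ 2 / 2 + C) * √δ + C * (5 * √δ)) := by
          refine mul_le_mul_of_nonneg_left ?_ (by (clear * - hC; positivity))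
          exact add_le_add (mul_le_mul_of_nonneg_left g11 (by (clear * - hC; positivity)))
            (mul_le_mul_of_nonneg_left (g6.trans g10) hC)
      _ = |A| * (2 * C) * (C ^ 2 / 2 + 6 * C) * √δ := by ring
      _ ≤ R * √δ := by
          refine mul_le_mul_of_nonneg_right ?_ (Real.sqrt_nonneg _)
          rw [hR]
          have : |A| * (2 * C) * (C ^ 2 / 2 + 6 * C) ≤ |A| * (2 * C) * (C ^ 2 / 2 + 9 * C) :=
            mul_le_mul_of_nonneg_left (by linarith only [hC]) (by (clear * - hC; positivity))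
          linarith only [this]
      _ ≤ R * (ε / (4 * R)) := mul_le_mul_of_nonneg_left hsδ hR0.le
      _ = ε / 4 := by field_simp
  calc |Ex (d i).ν e1 + Ex (d i).ν e2| ≤ |Ex (d i).ν e1| + |Ex (d i).ν e2| := abs_add_le _ _
    _ < ε / 2 + ε / 4 + ε / 4 := by linarith only [hb2, hb1, hε]
    _ = ε := by ring

end

end Vale.Agent.P150.F.D3
end
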