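import Mathlib
import Vale.Agent.P150.Bdl.B9
import Vale.Agent.P150.Bdl.B1
import Vale.Agent.P150.Bdl.B14

set_option linter.all false

section

/-! Module G6a: the class of matrix functions with controlled differences (helper477). -/

open MeasureTheory ProbabilityTheory Filter Topology
open scoped Matrix

namespace Vale.Agent.P150.F

/-- matrix functions of parameters and couplings with controlled differences on the region -/
structure Cls {n d : ℕ} (β K c C : ℝ) (F : Par n d → Mat n → Mat n) : Prop where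
  nn : 0 ≤ C
  bd : ∀ (p : Par n d) (J : Mat n), p.Ok β K → p.Reg c J → OpLe (F p J) C
  lipJ : ∀ (p : Par n d) (J J' : Mat n), p.Ok β K → p.Reg c J → p.Reg c J' →
    hs (F p J - F p J') ≤ C * hs (J - J')
  lipP : ∀ (p p' : Par n d) (J : Mat n) (ε : ℝ), 0 ≤ ε → p.Ok β K → p'.Ok β K → p.Reg c J →
    p'.Reg c J → p.Near ε p' → OpLe (F p J - F p' J) (C * ε)
  mix : ∀ (p p' : Par n d) (J J' : Mat n) (ε : ℝ), 0 ≤ ε → p.Ok β K → p'.Ok β K → p.Reg c J →
    p.Reg c J' → p'.Reg c J → p'.Reg c J' → p.Near ε p' →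
    hs ((F p J - F p J') - (F p' J - F p' J')) ≤ C * ε * hs (J - J')

end Vale.Agent.P150.F
end

section

/-! Module G6a: stability of the region under small changes of the parameters. -/

open MeasureTheory ProbabilityTheory Filter Topology
open scoped Matrix

namespace Vale.Agent.P150.F

variable {n d : ℕ}

theorem g6k_H_eq (p : Par n d) (J : Mat n) :
    p.H J = dg (fun i => 1 / (1 - p.m i ^ 2)) + p.B J := by
  unfold Par.H Par.B Hess
  abel

theorem g6k_qf_add (B : Mat n) (a b : Vec n) :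
    qf B (a + b) = qf B a + ip a (B.mulVec b) + ip b (B.mulVec a) + qf B b := by
  unfold qf
  rw [Matrix.mulVec_add, ip_add_left, ip_add_right, ip_add_right]
  ring

theorem g6k_qf_dg (a v : Vec n) : qf (dg a) v = ∑ i, a i * v i ^ 2 := by
  unfold qf ip dg
  refine Finset.sum_congr rfl fun i _ => ?_
  rw [Matrix.mulVec_diagonal]
  ring

theorem g6k_qf_matAdd (A B : Mat n) (v : Vec n) : qf (A + B) v = qf A v + qf B v := by
  unfold qf
  rw [Matrix.add_mulVec, ip_add_right]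

theorem g6k_ip_A (p : Par n d) (v : Vec n) : qf p.A v = ∑ a, ip (p.w a) v ^ 2 := by
  unfold qf Par.A
  rw [Matrix.sum_mulVec, ip_sum_right]
  refine Finset.sum_congr rfl fun a _ => ?_
  rw [vecMulVec_mulVec, ip_smul_right, ipN_comm v (p.w a)]
  ring

/-- the quadratic form of the bounded part -/
theorem g6k_qf_B (p : Par n d) (J : Mat n) (v : Vec n) :
    qf (p.B J) v = p.r ^ 2 * (1 - qq p.m) * sq v - p.r * qf J v + (∑ a, ip (p.w a) v ^ 2)
      - 2 * p.r ^ 2 / n * ip p.m v ^ 2 := by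
  have h : qf (p.B J) v = ip v ((p.r ^ 2 * (1 - qq p.m)) • v) - ip v (p.r • J.mulVec v)
      + qf p.A v - ip v ((2 * p.r ^ 2 / n) • (ip p.m v • p.m)) := by
    unfold qf Par.B
    rw [Matrix.sub_mulVec, Matrix.add_mulVec, Matrix.sub_mulVec, Matrix.smul_mulVec,
      Matrix.smul_mulVec, Matrix.smul_mulVec, Matrix.one_mulVec, vecMulVec_mulVec,
      ip_sub_right, ip_add_right, ip_sub_right]
  rw [h, g6k_ip_A, ip_smul_right, ip_smul_right, ip_smul_right, ip_smul_right, ipN_self,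
    ipN_comm v p.m]
  unfold qf
  ring

theorem g6k_nv_m {p : Par n d} {β K : ℝ} (h : p.Ok β K) : nv p.m ≤ √n :=
  nv_le_sqrt_n fun i => (h.1 i).le

theorem g6k_sq_m {p : Par n d} {β K : ℝ} (h : p.Ok β K) : sq p.m ≤ n := by
  have h1 := g6k_nv_m h
  have h2 := sq_le_of_nv_le h1
  rwa [Real.sq_sqrt (Nat.cast_nonneg n)] at h2

theorem g6k_qq {p : Par n d} {β K : ℝ} (h : p.Ok β K) : 0 ≤ qq p.m ∧ qq p.m ≤ 1 :=
  ⟨qq_nonneg _, qq_le_one fun i => (h.1 i).le⟩

/-- the constant of the bounded part -/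
noncomputable def g6k_CB (d : ℕ) (K : ℝ) : ℝ := 6 + d * max K 0

theorem g6k_CB_pos (d : ℕ) (K : ℝ) : 0 < g6k_CB d K := by
  unfold g6k_CB
  positivity

theorem g6k_nv_w {p : Par n d} {β K : ℝ} (h : p.Ok β K) (a : Fin d) :
    nv (p.w a) * nv (p.w a) ≤ max K 0 := by
  have h1 := h.2.2 a
  rw [← nv_sq, pow_two] at h1
  exact h1.trans (le_max_left _ _)

theorem g6k_opLe_A {p : Par n d} {β K : ℝ} (h : p.Ok β K) : OpLe p.A (d * max K 0) := by
  refine opLe_of_nv fun v => ?_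
  unfold Par.A
  rw [Matrix.sum_mulVec]
  refine (nv_sum_le _ _).trans ?_
  calc ∑ a, nv ((Matrix.vecMulVec (p.w a) (p.w a)).mulVec v)
      ≤ ∑ _a : Fin d, max K 0 * nv v := by
        refine Finset.sum_le_sum fun a _ => ?_
        refine ((opLe_vecMulVec (p.w a) (p.w a)).nv_le
          (mul_nonneg (nv_nonneg _) (nv_nonneg _)) v).trans ?_
        exact mul_le_mul_of_nonneg_right (g6k_nv_w h a) (nv_nonneg _)
    _ = _ := by
        rw [Finset.sum_const, Finset.card_univ, Fintype.card_fin, nsmul_eq_mul]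
        ring

theorem g6k_opLe_B {p : Par n d} {β K : ℝ} (hn : 1 ≤ n) (hβ : β ≤ 1) (h : p.Ok β K) {J : Mat n}
    (hJ : OpLe J 3) : OpLe (p.B J) (g6k_CB d K) := by
  have hr0 := h.2.1.1
  have hr1 : p.r ≤ 1 := h.2.1.2.trans hβ
  have hr2 : p.r ^ 2 ≤ 1 := pow_le_one₀ hr0 hr1
  obtain ⟨hq0, hq1⟩ := g6k_qq h
  have hn0 : (0 : ℝ) < n := by exact_mod_cast hn
  refine opLe_of_nv fun v => ?_
  have e : (p.B J).mulVec v = (p.r ^ 2 * (1 - qq p.m)) • v - p.r • J.mulVec v + p.A.mulVec v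
      - (2 * p.r ^ 2 / n) • (ip p.m v • p.m) := by
    unfold Par.B
    rw [Matrix.sub_mulVec, Matrix.add_mulVec, Matrix.sub_mulVec, Matrix.smul_mulVec,
      Matrix.smul_mulVec, Matrix.smul_mulVec, Matrix.one_mulVec, vecMulVec_mulVec]
  rw [e]
  have t1 : nv ((p.r ^ 2 * (1 - qq p.m)) • v) ≤ 1 * nv v := by
    rw [nv_smul, abs_of_nonneg (mul_nonneg (by positivity) (by linarith only [hq1]))]
    refine mul_le_mul_of_nonneg_right ?_ (nv_nonneg _)
    exact mul_le_one₀ hr2 (by linarith only [hq1]) (by linarith only [hq0])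
  have t2 : nv (p.r • J.mulVec v) ≤ 3 * nv v := by
    rw [nv_smul, abs_of_nonneg hr0]
    have h1 := hJ.nv_le (by norm_num) v
    calc p.r * nv (J.mulVec v) ≤ 1 * (3 * nv v) :=
          mul_le_mul hr1 h1 (nv_nonneg _) (by norm_num)
      _ = _ := one_mul _
  have t3 : nv (p.A.mulVec v) ≤ d * max K 0 * nv v :=
    (g6k_opLe_A h).nv_le (by (clear * -; positivity)) v
  have t4 : nv ((2 * p.r ^ 2 / n) • (ip p.m v • p.m)) ≤ 2 * nv v := by
    rw [nv_smul, nv_smul, abs_of_nonneg (by (clear * - hn; positivity))]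
    have h1 : |ip p.m v| ≤ √n * nv v :=
      (abs_ip_le _ _).trans (mul_le_mul_of_nonneg_right (g6k_nv_m h) (nv_nonneg _))
    have h2 : |ip p.m v| * nv p.m ≤ (√n * nv v) * √n :=
      mul_le_mul h1 (g6k_nv_m h) (nv_nonneg _) (mul_nonneg (Real.sqrt_nonneg _) (nv_nonneg _))
    have h3 : (√n * nv v) * √n = n * nv v := by
      rw [mul_right_comm, Real.mul_self_sqrt hn0.le]
    rw [h3] at h2
    calc 2 * p.r ^ 2 / n * (|ip p.m v| * nv p.m) ≤ 2 * p.r ^ 2 / n * (n * nv v) :=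
          mul_le_mul_of_nonneg_left h2 (by (clear * - hn; positivity))
      _ = 2 * p.r ^ 2 * nv v := by field_simp
      _ ≤ 2 * 1 * nv v := by
          refine mul_le_mul_of_nonneg_right ?_ (nv_nonneg _)
          linarith only [hr2]
      _ = _ := by ring
  calc _ ≤ _ := nv_sub_le _ _
    _ ≤ (nv ((p.r ^ 2 * (1 - qq p.m)) • v - p.r • J.mulVec v) + nv (p.A.mulVec v)) +
        nv ((2 * p.r ^ 2 / n) • (ip p.m v • p.m)) := by
        have := nv_add_le ((p.r ^ 2 * (1 - qq p.m)) • v - p.r • J.mulVec v) (p.A.mulVec v)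
        linarith only [this]
    _ ≤ ((1 * nv v + 3 * nv v) + d * max K 0 * nv v) + 2 * nv v := by
        have := nv_sub_le ((p.r ^ 2 * (1 - qq p.m)) • v) (p.r • J.mulVec v)
        linarith only [this, t4, t3, t2, t1]
    _ = _ := by
        unfold g6k_CB
        ring

/-- difference of the quadratic forms of the bounded parts -/
theorem g6k_B_diff {p p' : Par n d} {β K ε : ℝ} (hn : 1 ≤ n) (hβ : β ≤ 1) (h : p.Ok β K)
    (h' : p'.Ok β K) (hε : 0 ≤ ε) (hN : p.Near ε p') {J : Mat n} (hJ : OpLe J 3) (v : Vec n) :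
    qf (p.B J) v - qf (p'.B J) v ≤ (15 + 2 * d * √(max K 0)) * ε * sq v := by
  have hr0 := h.2.1.1
  have hr1 : p.r ≤ 1 := h.2.1.2.trans hβ
  have hr0' := h'.2.1.1
  have hr1' : p'.r ≤ 1 := h'.2.1.2.trans hβ
  obtain ⟨hq0, hq1⟩ := g6k_qq h
  obtain ⟨hq0', hq1'⟩ := g6k_qq h'
  have hn0 : (0 : ℝ) < n := by exact_mod_cast hn
  have hsv := sqN_nonneg v
  have hrr := hN.2.1
  -- squares
  have hr2 : |p.r ^ 2 - p'.r ^ 2| ≤ 2 * ε := by
    have e : p.r ^ 2 - p'.r ^ 2 = (p.r - p'.r) * (p.r + p'.r) := by ring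
    rw [e, abs_mul, abs_of_nonneg (by linarith only [hr0', hr0] : (0 : ℝ) ≤ p.r + p'.r)]
    calc |p.r - p'.r| * (p.r + p'.r) ≤ ε * 2 :=
          mul_le_mul hrr (by linarith only [hr1', hr1]) (by linarith) hε
      _ = _ := by ring
  have hqq : |qq p.m - qq p'.m| ≤ 2 * ε := by
    have e : qq p.m - qq p'.m = (∑ i, (p.m i - p'.m i) * (p.m i + p'.m i)) / n := by
      unfold qq sq
      rw [← sub_div, ← Finset.sum_sub_distrib]
      congr 1
      refine Finset.sum_congr rfl fun i _ => ?_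
      ring
    rw [e, abs_div, abs_of_pos hn0, div_le_iff₀ hn0]
    refine (Finset.abs_sum_le_sum_abs _ _).trans ?_
    calc ∑ i, |(p.m i - p'.m i) * (p.m i + p'.m i)| ≤ ∑ _i : Fin n, 2 * ε := by
          refine Finset.sum_le_sum fun i _ => ?_
          rw [abs_mul]
          have h1 : |p.m i + p'.m i| ≤ 2 := by
            have := abs_add_le (p.m i) (p'.m i)
            linarith only [this, h.1 i, h'.1 i]
          calc |p.m i - p'.m i| * |p.m i + p'.m i| ≤ ε * 2 :=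
                mul_le_mul (hN.1 i) h1 (abs_nonneg _) hε
            _ = _ := by ring
      _ = _ := by
          rw [Finset.sum_const, Finset.card_univ, Fintype.card_fin, nsmul_eq_mul]
          ring
  -- first term
  have T1 : p.r ^ 2 * (1 - qq p.m) * sq v - p'.r ^ 2 * (1 - qq p'.m) * sq v ≤ 4 * ε * sq v := by
    have e : p.r ^ 2 * (1 - qq p.m) * sq v - p'.r ^ 2 * (1 - qq p'.m) * sq v =
        ((p.r ^ 2 - p'.r ^ 2) * (1 - qq p.m) + p'.r ^ 2 * (qq p'.m - qq p.m)) * sq v := by ring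
    rw [e]
    refine mul_le_mul_of_nonneg_right ?_ hsv
    have a1 : (p.r ^ 2 - p'.r ^ 2) * (1 - qq p.m) ≤ 2 * ε * 1 :=
      mul_le_mul ((le_abs_self _).trans hr2) (by linarith only [hq0]) (by linarith only [hq1]) (by linarith only [hε])
    have a2 : p'.r ^ 2 * (qq p'.m - qq p.m) ≤ 2 * ε := by
      have b1 : qq p'.m - qq p.m ≤ 2 * ε := by
        have := (abs_le.mp hqq).1
        linarith only [this]
      have b2 : p'.r ^ 2 ≤ 1 := pow_le_one₀ hr0' hr1'
      calc p'.r ^ 2 * (qq p'.m - qq p.m) ≤ p'.r ^ 2 * (2 * ε) :=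
            mul_le_mul_of_nonneg_left b1 (by (clear * -; positivity))
        _ ≤ 1 * (2 * ε) := mul_le_mul_of_nonneg_right b2 (by linarith only [hε])
        _ = _ := one_mul _
    linarith only [a2, a1]
  -- second term
  have T2 : -(p.r * qf J v) + p'.r * qf J v ≤ 3 * ε * sq v := by
    have e : -(p.r * qf J v) + p'.r * qf J v = (p'.r - p.r) * qf J v := by ring
    rw [e]
    have a1 : |qf J v| ≤ 3 * sq v := by
      unfold qf
      refine (abs_ip_le _ _).trans ?_
      have := hJ.nv_le (by norm_num) v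
      calc nv v * nv (J.mulVec v) ≤ nv v * (3 * nv v) :=
            mul_le_mul_of_nonneg_left this (nv_nonneg _)
        _ = 3 * nv v ^ 2 := by ring
        _ = _ := by rw [nv_sq]
    calc (p'.r - p.r) * qf J v ≤ |(p'.r - p.r) * qf J v| := le_abs_self _
      _ = |p.r - p'.r| * |qf J v| := by rw [abs_mul, abs_sub_comm]
      _ ≤ ε * (3 * sq v) := mul_le_mul hrr a1 (abs_nonneg _) hε
      _ = _ := by ring
  -- third term
  have T3 : (∑ a, ip (p.w a) v ^ 2) - ∑ a, ip (p'.w a) v ^ 2 ≤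
      2 * d * √(max K 0) * ε * sq v := by
    rw [← Finset.sum_sub_distrib]
    calc ∑ a, (ip (p.w a) v ^ 2 - ip (p'.w a) v ^ 2) ≤ ∑ _a : Fin d, 2 * √(max K 0) * ε * sq v := by
          refine Finset.sum_le_sum fun a _ => ?_
          have e : ip (p.w a) v ^ 2 - ip (p'.w a) v ^ 2 =
              ip (p.w a - p'.w a) v * ip (p.w a + p'.w a) v := by
            rw [ip_sub_left, ip_add_left]
            ring
          rw [e]
          have b0 : ∀ q : Par n d, q.Ok β K → nv (q.w a) ≤ √(max K 0) := by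
            intro q hq
            rw [nv_eq_sqrt]
            exact Real.sqrt_le_sqrt ((hq.2.2 a).trans (le_max_left _ _))
          have b1 : |ip (p.w a - p'.w a) v| ≤ ε * nv v :=
            (abs_ip_le _ _).trans (mul_le_mul_of_nonneg_right
              (nv_le_of_sq_le hε (hN.2.2 a)) (nv_nonneg _))
          have b2 : |ip (p.w a + p'.w a) v| ≤ 2 * √(max K 0) * nv v := by
            refine (abs_ip_le _ _).trans (mul_le_mul_of_nonneg_right ?_ (nv_nonneg _))
            have := nv_add_le (p.w a) (p'.w a)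
            linarith only [b0 p' h', b0 p h, this]
          calc _ ≤ |ip (p.w a - p'.w a) v * ip (p.w a + p'.w a) v| := le_abs_self _
            _ = |ip (p.w a - p'.w a) v| * |ip (p.w a + p'.w a) v| := abs_mul _ _
            _ ≤ (ε * nv v) * (2 * √(max K 0) * nv v) :=
                mul_le_mul b1 b2 (abs_nonneg _) (mul_nonneg hε (nv_nonneg _))
            _ = 2 * √(max K 0) * ε * nv v ^ 2 := by ring
            _ = _ := by rw [nv_sq]
      _ = _ := by
          rw [Finset.sum_const, Finset.card_univ, Fintype.card_fin, nsmul_eq_mul]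
          ring
  -- fourth term
  have T4 : -(2 * p.r ^ 2 / n * ip p.m v ^ 2) + 2 * p'.r ^ 2 / n * ip p'.m v ^ 2 ≤
      8 * ε * sq v := by
    have e : -(2 * p.r ^ 2 / n * ip p.m v ^ 2) + 2 * p'.r ^ 2 / n * ip p'.m v ^ 2 =
        2 / n * (ip (p'.r • p'.m - p.r • p.m) v * ip (p'.r • p'.m + p.r • p.m) v) := by
      rw [ip_sub_left, ip_add_left, ip_smul_left, ip_smul_left]
      ring
    rw [e]
    have hs0 : 0 ≤ √(n : ℝ) := Real.sqrt_nonneg _
    have b1 : nv (p'.r • p'.m - p.r • p.m) ≤ 2 * ε * √n := by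
      have e1 : p'.r • p'.m - p.r • p.m = (p'.r - p.r) • p'.m + p.r • (p'.m - p.m) := by
        funext i
        simp only [Pi.sub_apply, Pi.add_apply, Pi.smul_apply, smul_eq_mul]
        ring
      rw [e1]
      refine (nv_add_le _ _).trans ?_
      rw [nv_smul, nv_smul, abs_of_nonneg hr0, abs_sub_comm]
      have c1 : |p.r - p'.r| * nv p'.m ≤ ε * √n :=
        mul_le_mul hrr (g6k_nv_m h') (nv_nonneg _) hε
      have c2 : nv (p'.m - p.m) ≤ ε * √n := by
        refine nv_le_sqrt hε fun i => ?_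
        rw [Pi.sub_apply, abs_sub_comm]
        exact hN.1 i
      have c3 : p.r * nv (p'.m - p.m) ≤ 1 * (ε * √n) :=
        mul_le_mul hr1 c2 (nv_nonneg _) zero_le_one
      linarith only [c1, c3]
    have b2 : nv (p'.r • p'.m + p.r • p.m) ≤ 2 * √n := by
      refine (nv_add_le _ _).trans ?_
      rw [nv_smul, nv_smul, abs_of_nonneg hr0, abs_of_nonneg hr0']
      have c1 : p'.r * nv p'.m ≤ 1 * √n :=
        mul_le_mul hr1' (g6k_nv_m h') (nv_nonneg _) zero_le_one
      have c2 : p.r * nv p.m ≤ 1 * √n :=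
        mul_le_mul hr1 (g6k_nv_m h) (nv_nonneg _) zero_le_one
      linarith only [c2, c1]
    have b3 : |ip (p'.r • p'.m - p.r • p.m) v| ≤ 2 * ε * √n * nv v :=
      (abs_ip_le _ _).trans (mul_le_mul_of_nonneg_right b1 (nv_nonneg _))
    have b4 : |ip (p'.r • p'.m + p.r • p.m) v| ≤ 2 * √n * nv v :=
      (abs_ip_le _ _).trans (mul_le_mul_of_nonneg_right b2 (nv_nonneg _))
    have hnv := nv_nonneg v
    calc 2 / n * (ip (p'.r • p'.m - p.r • p.m) v * ip (p'.r • p'.m + p.r • p.m) v)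
        ≤ 2 / n * ((2 * ε * √n * nv v) * (2 * √n * nv v)) := by
          refine mul_le_mul_of_nonneg_left ?_ (by positivity)
          calc _ ≤ |ip (p'.r • p'.m - p.r • p.m) v * ip (p'.r • p'.m + p.r • p.m) v| :=
                le_abs_self _
            _ = _ := abs_mul _ _
            _ ≤ _ := mul_le_mul b3 b4 (abs_nonneg _) (by (clear * - hε hn hnv; positivity))
      _ = 8 * ε * ((√n * √n) / n) * nv v ^ 2 := by ring
      _ = 8 * ε * sq v := by
          rw [Real.mul_self_sqrt hn0.le, div_self hn0.ne', nv_sq, mul_one]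
  rw [g6k_qf_B, g6k_qf_B]
  have hsum := add_le_add (add_le_add T1 T2) (add_le_add T3 T4)
  calc _ = _ := by ring
    _ ≤ _ := hsum
    _ = _ := by ring

/-- the main step: replacing `D` by `D + e` -/
theorem g6k_split {p : Par n d} {β K c e : ℝ} (hn : 1 ≤ n) (hβ : β ≤ 1) (hc : 0 < c)
    (h : p.Ok β K) {J : Mat n} (hR : p.Reg c J) (he : 0 < e)
    (he1 : e * (g6k_CB d K + 8 * g6k_CB d K ^ 2 / c + 6 * c) ≤ 1) (v : Vec n) :
    3 * c / 4 * sq v ≤ (∑ i, v i ^ 2 / ((1 - p.m i ^ 2) + e)) + qf (p.B J) v := by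
  set D : Vec n := fun i => 1 - p.m i ^ 2 with hD
  have hDpos : ∀ i, 0 < D i := fun i => by
    have h1 := h.1 i
    have h2 : p.m i ^ 2 < 1 := by
      rw [← sq_abs]
      exact pow_lt_one₀ (abs_nonneg _) h1 (by norm_num)
    rw [hD]
    linarith only [h2]
  set a : Vec n := fun i => v i * D i / (D i + e) with ha
  set b : Vec n := fun i => v i * e / (D i + e) with hb
  have hab : v = a + b := by
    funext i
    have := hDpos i
    rw [Pi.add_apply, ha, hb]
    field_simp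
  have hsum : (∑ i, v i ^ 2 / (D i + e)) = qf (dg fun i => 1 / (1 - p.m i ^ 2)) a + sq b / e := by
    rw [g6k_qf_dg]
    unfold sq
    rw [Finset.sum_div, ← Finset.sum_add_distrib]
    refine Finset.sum_congr rfl fun i _ => ?_
    have h1 := hDpos i
    have h2 : (1 : ℝ) - p.m i ^ 2 = D i := rfl
    rw [h2, ha, hb]
    field_simp
  have hCB := g6k_CB_pos d K
  have hB := g6k_opLe_B hn hβ h hR.2.1
  have hq : qf (p.B J) v = qf (p.B J) a + ip a ((p.B J).mulVec b) + ip b ((p.B J).mulVec a)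
      + qf (p.B J) b := by
    rw [hab, g6k_qf_add]
  have hHa := hR.2.2 a
  rw [g6k_H_eq, g6k_qf_matAdd] at hHa
  have c1 : |ip a ((p.B J).mulVec b)| ≤ g6k_CB d K * (nv a * nv b) := by
    refine (abs_ip_le _ _).trans ?_
    have := hB.nv_le hCB.le b
    calc nv a * nv ((p.B J).mulVec b) ≤ nv a * (g6k_CB d K * nv b) :=
          mul_le_mul_of_nonneg_left this (nv_nonneg _)
      _ = _ := by ring
  have c2 : |ip b ((p.B J).mulVec a)| ≤ g6k_CB d K * (nv a * nv b) := by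
    refine (abs_ip_le _ _).trans ?_
    have := hB.nv_le hCB.le a
    calc nv b * nv ((p.B J).mulVec a) ≤ nv b * (g6k_CB d K * nv a) :=
          mul_le_mul_of_nonneg_left this (nv_nonneg _)
      _ = _ := by ring
  have c3 : |qf (p.B J) b| ≤ g6k_CB d K * nv b ^ 2 := by
    unfold qf
    refine (abs_ip_le _ _).trans ?_
    have := hB.nv_le hCB.le b
    calc nv b * nv ((p.B J).mulVec b) ≤ nv b * (g6k_CB d K * nv b) :=
          mul_le_mul_of_nonneg_left this (nv_nonneg _)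
      _ = _ := by ring
  have hv : nv v ≤ nv a + nv b := by
    rw [hab]
    exact nv_add_le _ _
  have hv2 : sq v ≤ (nv a + nv b) ^ 2 := sq_le_of_nv_le hv
  rw [hsum, hq, ← nv_sq b]
  rw [← nv_sq a] at hHa
  set A := nv a
  set B := nv b
  set CB := g6k_CB d K
  have hA0 : 0 ≤ A := nv_nonneg _
  have hB0 : 0 ≤ B := nv_nonneg _
  have k1 : 3 * c / 4 * sq v ≤ 7 * c / 8 * A ^ 2 + 21 * c / 4 * B ^ 2 := by
    have h1 : (A + B) ^ 2 ≤ 7 / 6 * A ^ 2 + 7 * B ^ 2 := by
      linarith only [sq_nonneg (A - 6 * B)]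
    have h2 := mul_le_mul_of_nonneg_left (hv2.trans h1) (by positivity : (0 : ℝ) ≤ 3 * c / 4)
    linarith only [h2]
  have k2 : 2 * CB * (A * B) ≤ c / 8 * A ^ 2 + 8 * CB ^ 2 / c * B ^ 2 := by
    have h1 : 8 * CB ^ 2 / c * B ^ 2 = (8 * CB * B) ^ 2 / (8 * c) := by
      field_simp
    have h2 : 0 ≤ (c * A - 8 * CB * B) ^ 2 / (8 * c) := by (clear * - hc; positivity)
    have h3 : (c * A - 8 * CB * B) ^ 2 / (8 * c) =
        c / 8 * A ^ 2 - 2 * CB * (A * B) + (8 * CB * B) ^ 2 / (8 * c) := by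
      field_simp
      ring
    linarith only [h3, h2, h1]
  have k3 : (CB + 8 * CB ^ 2 / c + 6 * c) * B ^ 2 ≤ B ^ 2 / e := by
    rw [le_div_iff₀ he]
    calc (CB + 8 * CB ^ 2 / c + 6 * c) * B ^ 2 * e =
          (e * (CB + 8 * CB ^ 2 / c + 6 * c)) * B ^ 2 := by ring
      _ ≤ 1 * B ^ 2 := mul_le_mul_of_nonneg_right he1 (by (clear * -; positivity))
      _ = _ := one_mul _
  have k4 := (abs_le.mp c1).1
  have k5 := (abs_le.mp c2).1
  have k6 := (abs_le.mp c3).1
  have k7 : 0 ≤ c * B ^ 2 := by (clear * - hc; positivity)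
  linarith only [k7, k6, k5, k4, k3, k2, k1, hHa]

/-- G6a-2: stability of the region under small changes of the parameters -/
theorem G6a_near (β c K : ℝ) (d : ℕ) (hβ : β ≤ 1) (hc : 0 < c) :
    ∃ ε₀ : ℝ, 0 < ε₀ ∧ ∀ n : ℕ, 1 ≤ n → ∀ (p p' : Par n d) (J : Mat n), p.Ok β K → p'.Ok β K →
      p.Near ε₀ p' → p.Reg c J → p'.Reg (c / 2) J := by
  have hCB := g6k_CB_pos d K
  set S : ℝ := g6k_CB d K + 8 * g6k_CB d K ^ 2 / c + 6 * c with hS
  have hSpos : 0 < S := by positivity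
  set T : ℝ := 15 + 2 * d * √(max K 0) with hT
  have hTpos : 0 < T := by (clear * -; positivity)
  refine ⟨min (1 / (2 * S)) (c / (4 * T)), by (clear * - hCB hc; positivity), ?_⟩
  intro n hn p p' J h h' hN hR
  set ε : ℝ := min (1 / (2 * S)) (c / (4 * T)) with hε
  have hε0 : 0 < ε := by (clear * - hCB hc; positivity)
  have hε1 : ε ≤ 1 / (2 * S) := min_le_left _ _
  have hε2 : ε ≤ c / (4 * T) := min_le_right _ _
  refine ⟨hR.1, hR.2.1, fun v => ?_⟩
  have he1 : (2 * ε) * S ≤ 1 := by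
    rw [le_div_iff₀ (by positivity)] at hε1
    linarith only [hε1]
  have h1 := g6k_split hn hβ hc h hR (by (clear * - hCB hc; positivity) : 0 < 2 * ε) he1 v
  have h2 := g6k_B_diff hn hβ h h' hε0.le hN hR.2.1 v
  have h3 : (∑ i, v i ^ 2 / ((1 - p.m i ^ 2) + 2 * ε)) ≤
      qf (dg fun i => 1 / (1 - p'.m i ^ 2)) v := by
    rw [g6k_qf_dg]
    refine Finset.sum_le_sum fun i _ => ?_
    have hD' : 0 < 1 - p'.m i ^ 2 := by
      have h4 : p'.m i ^ 2 < 1 := by
        rw [← sq_abs]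
        exact pow_lt_one₀ (abs_nonneg _) (h'.1 i) (by norm_num)
      linarith only [h4]
    have hle : 1 - p'.m i ^ 2 ≤ (1 - p.m i ^ 2) + 2 * ε := by
      have h5 := hN.1 i
      have h6 : p.m i ^ 2 - p'.m i ^ 2 = (p.m i - p'.m i) * (p.m i + p'.m i) := by ring
      have h7 : |p.m i + p'.m i| ≤ 2 := by
        have := abs_add_le (p.m i) (p'.m i)
        linarith only [h'.1 i, h.1 i, this]
      have h8 : p.m i ^ 2 - p'.m i ^ 2 ≤ ε * 2 := by
        rw [h6]
        calc _ ≤ |(p.m i - p'.m i) * (p.m i + p'.m i)| := le_abs_self _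
          _ = _ := abs_mul _ _
          _ ≤ _ := mul_le_mul h5 h7 (abs_nonneg _) hε0.le
      linarith only [h8]
    rw [one_div_mul_eq_div]
    exact div_le_div_of_nonneg_left (sq_nonneg _) hD' hle
  rw [g6k_H_eq, g6k_qf_matAdd]
  have h9 : T * ε ≤ c / 4 := by
    rw [le_div_iff₀ (by (clear * -; positivity))] at hε2
    linarith only [hε2]
  have h10 : T * ε * sq v ≤ c / 4 * sq v := mul_le_mul_of_nonneg_right h9 (sqN_nonneg v)
  linarith only [h10, h3, h2, h1]

end Vale.Agent.P150.F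
end

section

/-! Module G6a: `kap` versus `U`. -/

open MeasureTheory ProbabilityTheory Filter Topology
open scoped Matrix

namespace Vale.Agent.P150.F

variable {n d : ℕ}

theorem g6k_D_pos {p : Par n d} {β K : ℝ} (h : p.Ok β K) (i : Fin n) : 0 < 1 - p.m i ^ 2 := by
  have h2 : p.m i ^ 2 < 1 := by
    rw [← sq_abs]
    exact pow_lt_one₀ (abs_nonneg _) (h.1 i) (by norm_num)
  linarith

/-- `kap = U + ` rank one term -/
theorem g6k_kap_eq {p : Par n d} {β K : ℝ} (h : p.Ok β K) (κ₀ : ℝ) {J G : Mat n}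
    (hG : p.H J * G = 1) (j : Fin n) :
    kap p.r 1 κ₀ (J + κ₀ • (1 : Mat n)) G p.m j =
      p.U κ₀ J j + 2 * p.r ^ 2 / n * (G * (J + κ₀ • (1 : Mat n)) * G).mulVec p.m j := by
  have hGH : G * p.H J = 1 := mul_eq_one_comm.mp hG
  have hinv : p.G J = G := Matrix.inv_eq_right_inv hG
  set a : Vec n := fun i => 1 / (1 - p.m i ^ 2) with ha
  have e1 : 1 - p.B J * G = dg a * G := by
    rw [← hG, g6k_H_eq, add_mul, add_sub_cancel_right]
  have e2 : 1 - G * p.B J = G * dg a := by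
    rw [← hGH, g6k_H_eq, mul_add, add_sub_cancel_right]
  have e3 : ((1 - p.B J * G) * (J + κ₀ • (1 : Mat n)) * (1 - G * p.B J)) j j =
      (G * (J + κ₀ • (1 : Mat n)) * G) j j / (1 - p.m j ^ 2) ^ 2 := by
    rw [e1, e2]
    have e4 : dg a * G * (J + κ₀ • (1 : Mat n)) * (G * dg a) =
        dg a * (G * (J + κ₀ • (1 : Mat n)) * G) * dg a := by
      simp only [mul_assoc]
    rw [e4]
    unfold dg
    rw [Matrix.mul_diagonal, Matrix.diagonal_mul, ha]
    have := g6k_D_pos h j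
    field_simp
  unfold kap Par.U
  rw [hinv, e3]
  ring

/-- the inverse of the Hessian is bounded -/
theorem g6k_opLe_G {p : Par n d} {c : ℝ} (hc : 0 < c) {J G : Mat n} (hR : p.Reg c J)
    (hG : p.H J * G = 1) : OpLe G (1 / c) := by
  refine opLe_of_nv fun v => ?_
  have h1 := hR.2.2 (G.mulVec v)
  have h2 : qf (p.H J) (G.mulVec v) = ip (G.mulVec v) v := by
    unfold qf
    rw [Matrix.mulVec_mulVec, hG, Matrix.one_mulVec]
  rw [h2] at h1
  have h3 := ip_le (G.mulVec v) v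
  rw [← nv_sq] at h1
  have h4 : c * nv (G.mulVec v) ^ 2 ≤ nv (G.mulVec v) * nv v := h1.trans h3
  rcases (nv_nonneg (G.mulVec v)).eq_or_lt with h5 | h5
  · rw [← h5]
    exact mul_nonneg (by positivity) (nv_nonneg _)
  · have h6 : c * nv (G.mulVec v) ≤ nv v := by
      have h7 : nv (G.mulVec v) * (c * nv (G.mulVec v)) ≤ nv (G.mulVec v) * nv v := by
        calc _ = c * nv (G.mulVec v) ^ 2 := by ring
          _ ≤ _ := h4
      exact le_of_mul_le_mul_left h7 h5
    rw [one_div_mul_eq_div, le_div_iff₀ hc]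
    linarith only [h6]

/-- the constant in the rank-one term -/
theorem g6k_rank {p : Par n d} {β K c : ℝ} (κ₀ : ℝ) (hn : 1 ≤ n) (hβ : β ≤ 1) (hc : 0 < c)
    (h : p.Ok β K) {J G : Mat n} (hR : p.Reg c J) (hG : p.H J * G = 1) :
    ∑ j, (2 * p.r ^ 2 / n * (G * (J + κ₀ • (1 : Mat n)) * G).mulVec p.m j) ^ 2 ≤
      4 * (1 / c * (3 + |κ₀|) * (1 / c)) ^ 2 := by
  have hn0 : (0 : ℝ) < n := by exact_mod_cast hn
  have hn1 : (1 : ℝ) ≤ n := by exact_mod_cast hn
  have hr0 := h.2.1.1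
  have hr1 : p.r ≤ 1 := h.2.1.2.trans hβ
  have hr2 : p.r ^ 2 ≤ 1 := pow_le_one₀ hr0 hr1
  have hc' : (0 : ℝ) ≤ 1 / c := by positivity
  have hQ : OpLe (J + κ₀ • (1 : Mat n)) (3 + |κ₀|) := by
    have h1 := (opLe_one (n := n)).smul (by norm_num) κ₀
    rw [mul_one] at h1
    exact hR.2.1.add h1 (by norm_num) (abs_nonneg _)
  have hGo := g6k_opLe_G hc hR hG
  have hM : OpLe (G * (J + κ₀ • (1 : Mat n)) * G) (1 / c * (3 + |κ₀|) * (1 / c)) :=
    (hGo.mulN hQ hc' (by positivity)).mulN hGo (by positivity) hc'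
  set E : ℝ := 1 / c * (3 + |κ₀|) * (1 / c) with hE
  have hE0 : 0 ≤ E := by positivity
  have h1 := hM p.m
  have h2 : ∑ j, (2 * p.r ^ 2 / n * (G * (J + κ₀ • (1 : Mat n)) * G).mulVec p.m j) ^ 2 =
      (2 * p.r ^ 2 / n) ^ 2 * sq ((G * (J + κ₀ • (1 : Mat n)) * G).mulVec p.m) := by
    unfold sq
    rw [Finset.mul_sum]
    refine Finset.sum_congr rfl fun j _ => ?_
    ring
  rw [h2]
  have h3 : sq ((G * (J + κ₀ • (1 : Mat n)) * G).mulVec p.m) ≤ E ^ 2 * n :=
    h1.trans (mul_le_mul_of_nonneg_left (g6k_sq_m h) (by (clear * - hc; positivity)))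
  have h4 : (2 * p.r ^ 2 / n) ^ 2 ≤ 4 / n := by
    rw [div_pow, div_le_div_iff₀ (by positivity) hn0]
    have h5 : (2 * p.r ^ 2) ^ 2 ≤ 4 := by
      linarith only [mul_nonneg (sub_nonneg.2 hr2) (sub_nonneg.2 hr2), mul_nonneg (sub_nonneg.2 hr2) (sub_nonneg.2 (pow_nonneg hr0 2))]
    calc (2 * p.r ^ 2) ^ 2 * n ≤ 4 * n := mul_le_mul_of_nonneg_right h5 hn0.le
      _ ≤ 4 * (n : ℝ) ^ 2 := by (by_contra nlg; linarith only [mul_nonneg (sq_nonneg (↑n : ℝ)) (sub_nonneg.2 hn1), mul_pos (sub_pos.2 (not_le.1 nlg)) (sub_pos.2 hn0)])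
  calc (2 * p.r ^ 2 / n) ^ 2 * sq ((G * (J + κ₀ • (1 : Mat n)) * G).mulVec p.m)
      ≤ 4 / n * (E ^ 2 * n) := mul_le_mul h4 h3 (sqN_nonneg _) (by positivity)
    _ = 4 * E ^ 2 := by field_simp

/-- G6a-3: `kap` versus `U` -/
theorem G6a_kap (β κ₀ c K : ℝ) (d : ℕ) (hβ : β ≤ 1) (hc : 0 < c) :
    ∃ C : ℝ, ∀ n : ℕ, 1 ≤ n → ∀ (p : Par n d) (J : Mat n), p.Ok β K → p.Reg c J →
      ∀ G : Mat n, p.H J * G = 1 →
        ∑ j, kap p.r 1 κ₀ (J + κ₀ • (1 : Mat n)) G p.m j ^ 2
          ≤ 2 * sq (fun j => p.U κ₀ J j) + C := by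
  refine ⟨2 * (4 * (1 / c * (3 + |κ₀|) * (1 / c)) ^ 2), ?_⟩
  intro n hn p J h hR G hG
  have h1 := g6k_rank κ₀ hn hβ hc h hR hG
  calc ∑ j, kap p.r 1 κ₀ (J + κ₀ • (1 : Mat n)) G p.m j ^ 2
      ≤ ∑ j, (2 * p.U κ₀ J j ^ 2 +
          2 * (2 * p.r ^ 2 / n * (G * (J + κ₀ • (1 : Mat n)) * G).mulVec p.m j) ^ 2) := by
        refine Finset.sum_le_sum fun j _ => ?_
        rw [g6k_kap_eq h κ₀ hG j]
        linarith only [sq_nonneg (p.U κ₀ J j - 2 * p.r ^ 2 / n * (G * (J + κ₀ • (1 : Mat n)) * G).mulVec p.m j)]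
    _ = 2 * sq (fun j => p.U κ₀ J j) +
          2 * ∑ j, (2 * p.r ^ 2 / n * (G * (J + κ₀ • (1 : Mat n)) * G).mulVec p.m j) ^ 2 := by
        rw [Finset.sum_add_distrib, ← Finset.mul_sum, ← Finset.mul_sum]
        rfl
    _ ≤ _ := by linarith only [h1]

end Vale.Agent.P150.F
end

section

/-! Module G6a: closure properties of the class, and the inverse Hessian (helper477). -/

open MeasureTheory ProbabilityTheory Filter Topology
open scoped Matrix

namespace Vale.Agent.P150.F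

namespace Cls

variable {n d : ℕ} {β K c C C' : ℝ}

theorem hs_zero' : hs (0 : Mat n) = 0 := by
  unfold hs hsq
  simp

theorem opLe_zero' {C : ℝ} : OpLe (0 : Mat n) C := by
  intro v
  rw [Matrix.zero_mulVec]
  have : sq (0 : Vec n) = 0 := by simp [sq]
  rw [this]
  exact mul_nonneg (sq_nonneg _) (sq_nn v)

theorem mono {F : Par n d → Mat n → Mat n} (h : Cls β K c C F) (hC : C ≤ C') :
    Cls β K c C' F where
  nn := h.nn.trans hC
  bd p J hp hR := (h.bd p J hp hR).mono h.nn hC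
  lipJ p J J' hp hR hR' := (h.lipJ p J J' hp hR hR').trans
    (mul_le_mul_of_nonneg_right hC (hs_nn _))
  lipP p p' J ε hε hp hp' hR hR' hN := (h.lipP p p' J ε hε hp hp' hR hR' hN).mono
    (mul_nonneg h.nn hε) (mul_le_mul_of_nonneg_right hC hε)
  mix p p' J J' ε hε hp hp' h1 h2 h3 h4 hN := (h.mix p p' J J' ε hε hp hp' h1 h2 h3 h4 hN).trans
    (mul_le_mul_of_nonneg_right (mul_le_mul_of_nonneg_right hC hε) (hs_nn _))

theorem add {F F' : Par n d → Mat n → Mat n} (h : Cls β K c C F) (h' : Cls β K c C' F') :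
    Cls β K c (C + C') (fun p J => F p J + F' p J) where
  nn := add_nonneg h.nn h'.nn
  bd p J hp hR := (h.bd p J hp hR).add (h'.bd p J hp hR) h.nn h'.nn
  lipJ p J J' hp hR hR' := by
    have e : F p J + F' p J - (F p J' + F' p J') = (F p J - F p J') + (F' p J - F' p J') := by
      abel
    rw [e, add_mul]
    exact (hs_add_le _ _).trans (add_le_add (h.lipJ p J J' hp hR hR') (h'.lipJ p J J' hp hR hR'))
  lipP p p' J ε hε hp hp' hR hR' hN := by
    have e : F p J + F' p J - (F p' J + F' p' J) = (F p J - F p' J) + (F' p J - F' p' J) := by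
      abel
    rw [e, add_mul]
    exact (h.lipP p p' J ε hε hp hp' hR hR' hN).add (h'.lipP p p' J ε hε hp hp' hR hR' hN)
      (mul_nonneg h.nn hε) (mul_nonneg h'.nn hε)
  mix p p' J J' ε hε hp hp' h1 h2 h3 h4 hN := by
    have e : F p J + F' p J - (F p J' + F' p J') - (F p' J + F' p' J - (F p' J' + F' p' J'))
        = ((F p J - F p J') - (F p' J - F p' J')) + ((F' p J - F' p J') - (F' p' J - F' p' J')) := by
      abel
    rw [e, add_mul, add_mul]
    exact (hs_add_le _ _).trans (add_le_add (h.mix p p' J J' ε hε hp hp' h1 h2 h3 h4 hN)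
      (h'.mix p p' J J' ε hε hp hp' h1 h2 h3 h4 hN))

theorem mul {F F' : Par n d → Mat n → Mat n} (h : Cls β K c C F) (h' : Cls β K c C' F') :
    Cls β K c (4 * (C * C')) (fun p J => F p J * F' p J) where
  nn := by have := mul_nonneg h.nn h'.nn; linarith
  bd p J hp hR := by
    have h1 := (h.bd p J hp hR).mul (h'.bd p J hp hR)
    have h2 := mul_nonneg h.nn h'.nn
    exact h1.mono h2 (by linarith)
  lipJ p J J' hp hR hR' := by
    have e : F p J * F' p J - F p J' * F' p J'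
        = (F p J - F p J') * F' p J + F p J' * (F' p J - F' p J') := by
      rw [sub_mul, mul_sub]; abel
    rw [e]
    refine (hs_add_le _ _).trans ?_
    have h1 := (hs_mul_le' h'.nn (h'.bd p J hp hR) (F p J - F p J')).trans
      (mul_le_mul_of_nonneg_left (h.lipJ p J J' hp hR hR') h'.nn)
    have h2 := (hs_mul_le h.nn (h.bd p J' hp hR') (F' p J - F' p J')).trans
      (mul_le_mul_of_nonneg_left (h'.lipJ p J J' hp hR hR') h.nn)
    have h3 : 0 ≤ C * C' * hs (J - J') := mul_nonneg (mul_nonneg h.nn h'.nn) (hs_nn _)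
    linarith only [h3, h2, h1]
  lipP p p' J ε hε hp hp' hR hR' hN := by
    have e : F p J * F' p J - F p' J * F' p' J
        = (F p J - F p' J) * F' p J + F p' J * (F' p J - F' p' J) := by
      rw [sub_mul, mul_sub]; abel
    rw [e]
    have h1 := (h.lipP p p' J ε hε hp hp' hR hR' hN).mul (h'.bd p J hp hR)
    have h2 := (h.bd p' J hp' hR').mul (h'.lipP p p' J ε hε hp hp' hR hR' hN)
    have n1 : 0 ≤ C * ε * C' := mul_nonneg (mul_nonneg h.nn hε) h'.nn
    have n2 : 0 ≤ C * (C' * ε) := mul_nonneg h.nn (mul_nonneg h'.nn hε)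
    exact (h1.add h2 n1 n2).mono (add_nonneg n1 n2) (by linarith only [n2])
  mix p p' J J' ε hε hp hp' h1 h2 h3 h4 hN := by
    have e : F p J * F' p J - F p J' * F' p J' - (F p' J * F' p' J - F p' J' * F' p' J')
        = ((F p J - F p J') - (F p' J - F p' J')) * F' p J
          + (F p' J - F p' J') * (F' p J - F' p' J)
          + ((F p J' - F p' J') * (F' p J - F' p J')
          + F p' J' * ((F' p J - F' p J') - (F' p' J - F' p' J'))) := by
      simp only [sub_mul, mul_sub]; abel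
    rw [e]
    have a1 := (hs_mul_le' h'.nn (h'.bd p J hp h1) ((F p J - F p J') - (F p' J - F p' J'))).trans
      (mul_le_mul_of_nonneg_left (h.mix p p' J J' ε hε hp hp' h1 h2 h3 h4 hN) h'.nn)
    have a2 := (hs_mul_le' (mul_nonneg h'.nn hε) (h'.lipP p p' J ε hε hp hp' h1 h3 hN)
      (F p' J - F p' J')).trans (mul_le_mul_of_nonneg_left (h.lipJ p' J J' hp' h3 h4)
        (mul_nonneg h'.nn hε))
    have a3 := (hs_mul_le (mul_nonneg h.nn hε) (h.lipP p p' J' ε hε hp hp' h2 h4 hN)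
      (F' p J - F' p J')).trans (mul_le_mul_of_nonneg_left (h'.lipJ p J J' hp h1 h2)
        (mul_nonneg h.nn hε))
    have a4 := (hs_mul_le h.nn (h.bd p' J' hp' h4) ((F' p J - F' p J') - (F' p' J - F' p' J'))).trans
      (mul_le_mul_of_nonneg_left (h'.mix p p' J J' ε hε hp hp' h1 h2 h3 h4 hN) h.nn)
    refine (hs_add_le _ _).trans ((add_le_add (hs_add_le _ _) (hs_add_le _ _)).trans ?_)
    refine (add_le_add (add_le_add a1 a2) (add_le_add a3 a4)).trans (le_of_eq ?_)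
    ring

theorem ofPar {F : Par n d → Mat n} (hC : 0 ≤ C) (hb : ∀ p, p.Ok β K → OpLe (F p) C)
    (hl : ∀ (p p' : Par n d) (ε : ℝ), 0 ≤ ε → p.Ok β K → p'.Ok β K → p.Near ε p' →
      OpLe (F p - F p') (C * ε)) : Cls β K c C (fun p _ => F p) where
  nn := hC
  bd p _ hp _ := hb p hp
  lipJ p J J' _ _ _ := by
    rw [sub_self, hs_zero']
    exact mul_nonneg hC (hs_nn _)
  lipP p p' _ ε hε hp hp' _ _ hN := hl p p' ε hε hp hp' hN
  mix p p' J J' ε hε _ _ _ _ _ _ _ := by
    rw [sub_self, sub_self, sub_zero, hs_zero']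
    exact mul_nonneg (mul_nonneg hC hε) (hs_nn _)

theorem scal {f : Par n d → ℝ} (hC : 0 ≤ C) (hb : ∀ p, p.Ok β K → |f p| ≤ C)
    (hl : ∀ (p p' : Par n d) (ε : ℝ), 0 ≤ ε → p.Ok β K → p'.Ok β K → p.Near ε p' →
      |f p - f p'| ≤ C * ε) : Cls β K c C (fun p _ => f p • (1 : Mat n)) := by
  have h1 : ∀ (a b : ℝ), |a| ≤ b → OpLe (a • (1 : Mat n)) b := by
    intro a b hab v
    rw [Matrix.smul_mulVec, Matrix.one_mulVec]
    have e : sq (a • v) = a ^ 2 * sq v := by
      unfold sq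
      rw [Finset.mul_sum]
      exact Finset.sum_congr rfl fun i _ => by rw [Pi.smul_apply, smul_eq_mul]; ring
    rw [e]
    refine mul_le_mul_of_nonneg_right ?_ (sq_nn v)
    rw [← sq_abs a]
    exact pow_le_pow_left₀ (abs_nonneg _) hab 2
  refine ofPar hC (fun p hp => h1 _ _ (hb p hp)) fun p p' ε hε hp hp' hN => ?_
  rw [← sub_smul]
  exact h1 _ _ (hl p p' ε hε hp hp' hN)

theorem one : Cls β K c 1 (fun (_ : Par n d) _ => (1 : Mat n)) :=
  ofPar zero_le_one (fun _ _ => opLe_one) fun p p' ε hε _ _ _ => by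
    rw [sub_self]
    exact opLe_zero'

theorem const_one (a : ℝ) : Cls β K c |a| (fun (_ : Par n d) _ => a • (1 : Mat n)) :=
  scal (abs_nonneg a) (fun _ _ => le_rfl) fun p p' ε hε _ _ _ => by
    rw [sub_self, abs_zero]
    exact mul_nonneg (abs_nonneg a) hε

theorem J : Cls β K c 3 (fun (_ : Par n d) J => J) where
  nn := by norm_num
  bd _ _ _ hR := hR.2.1
  lipJ p J J' _ _ _ := by
    have := hs_nn (J - J')
    linarith
  lipP p p' J ε hε _ _ _ _ _ := by
    rw [sub_self]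
    exact opLe_zero'
  mix p p' J J' ε hε _ _ _ _ _ _ _ := by
    rw [sub_self, hs_zero']
    exact mul_nonneg (mul_nonneg (by norm_num) hε) (hs_nn _)

theorem neg {F : Par n d → Mat n → Mat n} (h : Cls β K c C F) :
    Cls β K c (4 * (|(-1 : ℝ)| * C)) (fun p J => -F p J) := by
  have := (const_one (β := β) (K := K) (c := c) (n := n) (d := d) (-1)).mul h
  simpa using this

theorem r (hβ : β ≤ 1) : Cls β K c 1 (fun (p : Par n d) _ => p.r • (1 : Mat n)) :=
  scal zero_le_one (fun p hp => by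
    rw [abs_of_nonneg hp.2.1.1]
    exact hp.2.1.2.trans hβ) fun p p' ε _ _ _ hN => by
    rw [one_mul]
    exact hN.2.1

theorem abs_qq_sub_le {p p' : Par n d} {ε : ℝ} (hp : p.Ok β K) (hp' : p'.Ok β K)
    (hε : 0 ≤ ε) (hN : p.Near ε p') : |qq p.m - qq p'.m| ≤ 2 * ε := by
  unfold qq
  rcases Nat.eq_zero_or_pos n with hn | hn
  · subst hn
    simp [hε]
  have hn' : (0 : ℝ) < n := by exact_mod_cast hn
  rw [← sub_div, abs_div, abs_of_pos hn', div_le_iff₀ hn']
  unfold sq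
  rw [← Finset.sum_sub_distrib]
  refine (Finset.abs_sum_le_sum_abs _ _).trans ?_
  have h1 : ∀ i ∈ Finset.univ, |p.m i ^ 2 - p'.m i ^ 2| ≤ 2 * ε := by
    intro i _
    have e : p.m i ^ 2 - p'.m i ^ 2 = (p.m i + p'.m i) * (p.m i - p'.m i) := by ring
    rw [e, abs_mul]
    have h2 : |p.m i + p'.m i| ≤ 2 := (abs_add_le _ _).trans (by linarith only [hp'.1 i, hp.1 i])
    exact mul_le_mul h2 (hN.1 i) (abs_nonneg _) (by norm_num)
  refine (Finset.sum_le_card_nsmul _ _ _ h1).trans (le_of_eq ?_)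
  rw [Finset.card_univ, Fintype.card_fin, nsmul_eq_mul]
  ring

theorem t (hβ : β ≤ 1) :
    Cls β K c 4 (fun (p : Par n d) _ => (p.r ^ 2 * (1 - qq p.m)) • (1 : Mat n)) := by
  refine scal (by norm_num) (fun p hp => ?_) fun p p' ε hε hp hp' hN => ?_
  · obtain ⟨h1, h2⟩ := g6k_qq hp
    have h3 : p.r ^ 2 ≤ 1 := pow_le_one₀ hp.2.1.1 (hp.2.1.2.trans hβ)
    rw [abs_of_nonneg (mul_nonneg (sq_nonneg _) (by linarith))]
    (by_contra nlg; linarith only [nlg, mul_nonneg (sub_nonneg.2 h3) (sq_nonneg p.r), mul_nonneg (sub_nonneg.2 h3) (sub_nonneg.2 h3), mul_nonneg (sub_nonneg.2 h1) (sq_nonneg p.r), mul_nonneg (le_of_lt (sub_pos.2 (not_le.1 nlg))) (sq_nonneg p.r), mul_nonneg (le_of_lt (sub_pos.2 (not_le.1 nlg))) (sub_nonneg.2 h3)])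
  · obtain ⟨h1, h2⟩ := g6k_qq hp
    have h3 : p'.r ^ 2 ≤ 1 := pow_le_one₀ hp'.2.1.1 (hp'.2.1.2.trans hβ)
    have h4 := abs_qq_sub_le hp hp' hε hN
    have e : p.r ^ 2 * (1 - qq p.m) - p'.r ^ 2 * (1 - qq p'.m)
        = (p.r - p'.r) * ((p.r + p'.r) * (1 - qq p.m)) - p'.r ^ 2 * (qq p.m - qq p'.m) := by ring
    rw [e]
    have h5 : |(p.r + p'.r) * (1 - qq p.m)| ≤ 2 := by
      rw [abs_of_nonneg (mul_nonneg (add_nonneg hp.2.1.1 hp'.2.1.1) (by linarith))]
      have h6 : p.r + p'.r ≤ 2 := by linarith only [hp'.2.1.2, hp.2.1.2, hβ]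
      linarith only [mul_nonneg (sub_nonneg.2 h1) (sub_nonneg.2 hp.2.1.1), mul_nonneg (sub_nonneg.2 h1) (sub_nonneg.2 hp'.2.1.1), mul_nonneg (sub_nonneg.2 h6) (sub_nonneg.2 h6), mul_nonneg (sub_nonneg.2 h6) (sub_nonneg.2 hp.2.1.1), mul_nonneg (sub_nonneg.2 h6) (sub_nonneg.2 hp'.2.1.1)]
    have h7 : |(p.r - p'.r) * ((p.r + p'.r) * (1 - qq p.m))| ≤ ε * 2 := by
      rw [abs_mul]
      exact mul_le_mul hN.2.1 h5 (abs_nonneg _) hε
    have h8 : |p'.r ^ 2 * (qq p.m - qq p'.m)| ≤ 1 * (2 * ε) := by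
      rw [abs_mul, abs_of_nonneg (sq_nonneg _)]
      exact mul_le_mul h3 h4 (abs_nonneg _) zero_le_one
    exact (abs_sub _ _).trans (by linarith)

theorem vec_diff (u v : Vec n) {a b e : ℝ} (hu : nv u ≤ a) (hv : nv v ≤ b)
    (huv : nv (u - v) ≤ e) :
    OpLe (Matrix.vecMulVec u u - Matrix.vecMulVec v v) ((a + b) * e) := by
  have e1 : Matrix.vecMulVec u u - Matrix.vecMulVec v v
      = Matrix.vecMulVec (u - v) u + Matrix.vecMulVec v (u - v) := by
    ext i j
    simp only [Matrix.sub_apply, Matrix.add_apply, Matrix.vecMulVec_apply, Pi.sub_apply]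
    ring
  rw [e1]
  have n1 := nv_nonneg u
  have n2 := nv_nonneg v
  have n3 := nv_nonneg (u - v)
  refine ((opLe_vecMulVec (u - v) u).add (opLe_vecMulVec v (u - v)) (mul_nonneg n3 n1)
    (mul_nonneg n2 n3)).mono (by positivity) ?_
  linarith only [mul_le_mul hu huv n3 (n1.trans hu), mul_le_mul hv huv n3 (n2.trans hv)]

theorem mm (hn : 1 ≤ n) :
    Cls β K c 2 (fun (p : Par n d) _ => (1 / (n : ℝ)) • Matrix.vecMulVec p.m p.m) := by
  have hn' : (0 : ℝ) < n := by exact_mod_cast hn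
  have hsn : √(n : ℝ) * √n = n := Real.mul_self_sqrt hn'.le
  refine ofPar (by norm_num) (fun p hp => ?_) fun p p' ε hε hp hp' hN => ?_
  · have h1 := g6k_nv_m hp
    have h2 := nv_nonneg p.m
    refine ((opLe_vecMulVec p.m p.m).smul (mul_nonneg h2 h2) (1 / n)).mono (by (clear * - hn h2; positivity)) ?_
    rw [abs_of_pos (by positivity)]
    have h3 : nv p.m * nv p.m ≤ n := by
      rw [← hsn]
      exact mul_le_mul h1 h1 h2 (Real.sqrt_nonneg _)
    rw [div_mul_eq_mul_div, one_mul, div_le_iff₀ hn']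
    linarith only [h3, hn']
  · rw [← smul_sub]
    have h1 := g6k_nv_m hp
    have h2 := g6k_nv_m hp'
    have h3 : nv (p.m - p'.m) ≤ ε * √n := nv_le_sqrt hε fun i => by
      simpa using hN.1 i
    have h4 := vec_diff p.m p'.m h1 h2 h3
    refine (h4.smul (by (clear * - hn hε; positivity)) (1 / n)).mono (by (clear * - hn hε; positivity)) (le_of_eq ?_)
    rw [abs_of_pos (by positivity)]
    field_simp
    rw [pow_two, hsn]
    ring

theorem A : Cls β K c (d * max K 0 + 2 * d * √(max K 0)) (fun (p : Par n d) _ => p.A) := by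
  have hK : 0 ≤ max K 0 := le_max_right _ _
  have n1 : 0 ≤ (d : ℝ) * max K 0 := by positivity
  have n2 : 0 ≤ 2 * (d : ℝ) * √(max K 0) := by positivity
  refine ofPar (by positivity) (fun p hp => (g6k_opLe_A hp).mono n1 (by linarith only [n2]))
    fun p p' ε hε hp hp' hN => ?_
  have key : ∀ s : Finset (Fin d), OpLe (∑ a ∈ s, (Matrix.vecMulVec (p.w a) (p.w a)
      - Matrix.vecMulVec (p'.w a) (p'.w a))) (s.card * (2 * √(max K 0) * ε)) := by
    intro s
    induction s using Finset.induction_on with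
    | empty =>
      rw [Finset.sum_empty]
      exact opLe_zero'
    | insert a s ha ih =>
      rw [Finset.sum_insert ha, Finset.card_insert_of_notMem ha]
      have h1 : nv (p.w a) ≤ √(max K 0) := by
        rw [nv_eq_sqrt]
        exact Real.sqrt_le_sqrt ((hp.2.2 a).trans (le_max_left _ _))
      have h2 : nv (p'.w a) ≤ √(max K 0) := by
        rw [nv_eq_sqrt]
        exact Real.sqrt_le_sqrt ((hp'.2.2 a).trans (le_max_left _ _))
      have h3 : nv (p.w a - p'.w a) ≤ ε := nv_le_of_sq_le hε (hN.2.2 a)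
      have h4 := vec_diff _ _ h1 h2 h3
      have n3 : 0 ≤ (√(max K 0) + √(max K 0)) * ε := by (clear * - hε; positivity)
      have n4 : 0 ≤ (s.card : ℝ) * (2 * √(max K 0) * ε) := by (clear * - hε; positivity)
      refine (h4.add ih n3 n4).mono (add_nonneg n3 n4) (le_of_eq ?_)
      push_cast
      ring
  have h5 := key Finset.univ
  rw [Finset.sum_sub_distrib, Finset.card_univ, Fintype.card_fin] at h5
  refine OpLe.mono h5 (by (clear * - hε; positivity)) ?_
  linarith only [mul_nonneg n1 hε]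

/-- the constant of `B` -/
noncomputable def cB (d : ℕ) (K : ℝ) : ℝ :=
  4 + 4 * (|(-1 : ℝ)| * (4 * (1 * 3))) + (d * max K 0 + 2 * d * √(max K 0))
    + 4 * (|(-1 : ℝ)| * (4 * (4 * (|(2 : ℝ)| * (4 * (1 * 1))) * 2)))

theorem B (hn : 1 ≤ n) (hβ : β ≤ 1) : Cls β K c (cB d K) (fun (p : Par n d) J => p.B J) := by
  have h1 := t (β := β) (K := K) (c := c) (n := n) (d := d) hβ
  have h2 := ((r (β := β) (K := K) (c := c) (n := n) (d := d) hβ).mul J).neg
  have h3 := A (β := β) (K := K) (c := c) (n := n) (d := d)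
  have h4 := ((((const_one (β := β) (K := K) (c := c) (n := n) (d := d) 2).mul
    ((r (β := β) (K := K) (c := c) hβ).mul (r hβ))).mul (mm hn))).neg
  have h5 := ((h1.add h2).add h3).add h4
  have e : (fun (p : Par n d) J => p.B J) = fun (p : Par n d) J =>
      (p.r ^ 2 * (1 - qq p.m)) • (1 : Mat n) + -(p.r • (1 : Mat n) * J) + p.A
        + -((2 : ℝ) • (1 : Mat n) * (p.r • (1 : Mat n) * (p.r • (1 : Mat n)))
          * ((1 / (n : ℝ)) • Matrix.vecMulVec p.m p.m)) := by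
    funext p J
    unfold Par.B
    simp only [Matrix.smul_mul, Matrix.one_mul, Matrix.mul_smul, smul_smul]
    rw [sub_eq_add_neg, sub_eq_add_neg]
    congr 3
    ring
  rw [e]
  exact h5

end Cls

end Vale.Agent.P150.F
end

section

/-! Module G6a: the inverse Hessian belongs to the class (helper477). -/

open MeasureTheory ProbabilityTheory Filter Topology
open scoped Matrix

namespace Vale.Agent.P150.F

namespace Cls

variable {n d : ℕ} {β K c C C' : ℝ}

theorem isUnit_H (hc : 0 < c) {p : Par n d} {J : Mat n} (hR : p.Reg c J) : IsUnit (p.H J) := by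
  rw [← Matrix.mulVec_injective_iff_isUnit]
  intro u v huv
  have h1 : (p.H J).mulVec (u - v) = 0 := by
    rw [Matrix.mulVec_sub]
    exact sub_eq_zero.2 huv
  have h2 := hR.2.2 (u - v)
  have h3 : qf (p.H J) (u - v) = 0 := by
    unfold qf
    rw [h1]
    simp [ip]
  rw [h3] at h2
  have h4 : sq (u - v) = 0 := le_antisymm (by
    by_contra h
    rw [not_le] at h
    linarith [mul_pos hc h]) (sq_nn _)
  exact sub_eq_zero.1 ((sq_eq_zero_iff _).1 h4)

theorem H_mul_G (hc : 0 < c) {p : Par n d} {J : Mat n} (hR : p.Reg c J) : p.H J * p.G J = 1 :=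
  Matrix.mul_nonsing_inv _ ((Matrix.isUnit_iff_isUnit_det _).1 (isUnit_H hc hR))

theorem G_mul_H (hc : 0 < c) {p : Par n d} {J : Mat n} (hR : p.Reg c J) : p.G J * p.H J = 1 :=
  Matrix.nonsing_inv_mul _ ((Matrix.isUnit_iff_isUnit_det _).1 (isUnit_H hc hR))

theorem opLe_G (hc : 0 < c) {p : Par n d} {J : Mat n} (hR : p.Reg c J) :
    OpLe (p.G J) (1 / c) := g6k_opLe_G hc hR (H_mul_G hc hR)

/-- inverse differences -/
theorem G_sub (hc : 0 < c) {p p' : Par n d} {J J' : Mat n} (hR : p.Reg c J) (hR' : p'.Reg c J') :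
    p.G J - p'.G J' = p.G J * (p'.H J' - p.H J) * p'.G J' := by
  rw [mul_sub, sub_mul, G_mul_H hc hR, mul_assoc, H_mul_G hc hR', one_mul, mul_one]

theorem H_sub_J (p : Par n d) (J J' : Mat n) : p.H J' - p.H J = p.r • (J - J') := by
  unfold Par.H Hess
  rw [smul_sub]
  abel

theorem dg_sub {p p' : Par n d} (hp : p.Ok β K) (hp' : p'.Ok β K) :
    dg (fun i => 1 / (1 - p'.m i ^ 2)) - dg (fun i => 1 / (1 - p.m i ^ 2))
      = dg (fun i => 1 / (1 - p.m i ^ 2)) * dg (fun i => p'.m i ^ 2 - p.m i ^ 2)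
        * dg (fun i => 1 / (1 - p'.m i ^ 2)) := by
  unfold dg
  rw [Matrix.diagonal_mul_diagonal, Matrix.diagonal_mul_diagonal, Matrix.diagonal_sub]
  congr 1
  funext i
  have h1 := (g6k_D_pos hp i).ne'
  have h2 := (g6k_D_pos hp' i).ne'
  field_simp
  ring

/-- the Lipschitz constant of the inverse in the parameters -/
noncomputable def cL (d : ℕ) (K c : ℝ) : ℝ :=
  (1 + 1 / c * cB d K) * 2 * (1 + cB d K * (1 / c)) + 1 / c * cB d K * (1 / c)

theorem cB_nonneg (d : ℕ) (K : ℝ) : 0 ≤ cB d K := by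
  unfold cB
  positivity

theorem cL_nonneg (hc : 0 < c) (d : ℕ) (K : ℝ) : 0 ≤ cL d K c := by
  unfold cL
  have := cB_nonneg d K
  positivity

theorem G_lipP (hn : 1 ≤ n) (hβ : β ≤ 1) (hc : 0 < c) {p p' : Par n d} {J : Mat n} {ε : ℝ}
    (hε : 0 ≤ ε) (hp : p.Ok β K) (hp' : p'.Ok β K) (hR : p.Reg c J) (hR' : p'.Reg c J)
    (hN : p.Near ε p') : OpLe (p.G J - p'.G J) (cL d K c * ε) := by
  have hB := B (β := β) (K := K) (c := c) (n := n) (d := d) hn hβ
  have hcB := cB_nonneg d K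
  have hc1 : 0 ≤ 1 / c := by positivity
  have e1 : p.G J - p'.G J = p.G J * dg (fun i => 1 / (1 - p.m i ^ 2))
        * dg (fun i => p'.m i ^ 2 - p.m i ^ 2) * (dg (fun i => 1 / (1 - p'.m i ^ 2)) * p'.G J)
        + p.G J * (-(p.B J - p'.B J)) * p'.G J := by
    rw [G_sub hc hR hR', g6k_H_eq, g6k_H_eq]
    have e2 : dg (fun i => 1 / (1 - p'.m i ^ 2)) + p'.B J
        - (dg (fun i => 1 / (1 - p.m i ^ 2)) + p.B J)
        = dg (fun i => 1 / (1 - p.m i ^ 2)) * dg (fun i => p'.m i ^ 2 - p.m i ^ 2)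
        * dg (fun i => 1 / (1 - p'.m i ^ 2)) + -(p.B J - p'.B J) := by
      rw [← dg_sub hp hp']
      abel
    rw [e2, mul_add, add_mul]
    simp only [mul_assoc]
  have e3 : p.G J * dg (fun i => 1 / (1 - p.m i ^ 2)) = 1 - p.G J * p.B J := by
    have := G_mul_H hc hR
    rw [g6k_H_eq, mul_add] at this
    rw [← this]
    abel
  have e4 : dg (fun i => 1 / (1 - p'.m i ^ 2)) * p'.G J = 1 - p'.B J * p'.G J := by
    have := H_mul_G hc hR'
    rw [g6k_H_eq, add_mul] at this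
    rw [← this]
    abel
  rw [e1, e3, e4]
  have b1 : OpLe (1 - p.G J * p.B J) (1 + 1 / c * cB d K) :=
    opLe_one.sub ((opLe_G hc hR).mul (hB.bd p J hp hR)) zero_le_one (mul_nonneg hc1 hcB)
  have b2 : OpLe (1 - p'.B J * p'.G J) (1 + cB d K * (1 / c)) :=
    opLe_one.sub ((hB.bd p' J hp' hR').mul (opLe_G hc hR')) zero_le_one (mul_nonneg hcB hc1)
  have b3 : OpLe (dg (fun i => p'.m i ^ 2 - p.m i ^ 2)) (2 * ε) := by
    intro v
    unfold sq F.dg
    rw [Finset.mul_sum]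
    refine Finset.sum_le_sum fun i _ => ?_
    rw [Matrix.mulVec_diagonal, mul_pow]
    refine mul_le_mul_of_nonneg_right ?_ (sq_nonneg _)
    rw [← sq_abs]
    refine pow_le_pow_left₀ (abs_nonneg _) ?_ 2
    have e : p'.m i ^ 2 - p.m i ^ 2 = -((p.m i + p'.m i) * (p.m i - p'.m i)) := by ring
    rw [e, abs_neg, abs_mul]
    have h2 : |p.m i + p'.m i| ≤ 2 := (abs_add_le _ _).trans (by linarith only [hp'.1 i, hp.1 i])
    exact mul_le_mul h2 (hN.1 i) (abs_nonneg _) (by norm_num)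
  have b4 : OpLe (-(p.B J - p'.B J)) (cB d K * ε) := by
    have := hB.lipP p p' J ε hε hp hp' hR hR' hN
    intro v
    have h := this v
    rw [Matrix.neg_mulVec]
    have e : sq (-(p.B J - p'.B J).mulVec v) = sq ((p.B J - p'.B J).mulVec v) := by
      unfold sq
      exact Finset.sum_congr rfl fun i _ => by rw [Pi.neg_apply, neg_sq]
    rw [e]
    exact h
  have s1 := (b1.mul b3).mul b2
  have s2 := ((opLe_G hc hR).mul b4).mul (opLe_G hc hR')
  refine (s1.add s2 (by (clear * - hc hcB hε; positivity)) (by (clear * - hc hcB hε; positivity))).mono (by (clear * - hc hcB hε; positivity)) (le_of_eq ?_)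
  unfold cL
  ring

/-- the constant of `G` -/
noncomputable def cG (d : ℕ) (K c : ℝ) : ℝ :=
  1 / c + 1 / c * (1 / c) + cL d K c + 2 * (cL d K c * (1 / c))

theorem G (hn : 1 ≤ n) (hβ : β ≤ 1) (hc : 0 < c) :
    Cls β K c (cG d K c) (fun (p : Par n d) J => p.G J) := by
  have hc1 : 0 ≤ 1 / c := by positivity
  have hcL := cL_nonneg hc d K
  have hcLc : 0 ≤ cL d K c * (1 / c) := by positivity
  have hcc : 0 ≤ 1 / c * (1 / c) := by positivity
  have hJd : ∀ (p : Par n d) (J J' : Mat n), p.Reg c J → p.Reg c J' →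
      p.G J - p.G J' = p.G J * (p.r • (J - J')) * p.G J' := by
    intro p J J' hR hR'
    rw [G_sub hc hR hR', H_sub_J]
  have hr : ∀ (p : Par n d), p.Ok β K → |p.r| ≤ 1 := fun p hp => by
    rw [abs_of_nonneg hp.2.1.1]
    exact hp.2.1.2.trans hβ
  have hsm : ∀ (a b : ℝ) (X : Mat n), |a| ≤ b → hs (a • X) ≤ b * hs X := by
    intro a b X hab
    have h1 : OpLe (a • (1 : Mat n)) b := by
      have := (opLe_one (n := n)).smul zero_le_one a
      rw [mul_one] at this
      exact this.mono (abs_nonneg a) hab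
    have h2 := hs_mul_le ((abs_nonneg a).trans hab) h1 X
    simpa using h2
  refine ⟨?_, fun p J hp hR => ?_, fun p J J' hp hR hR' => ?_,
    fun p p' J ε hε hp hp' hR hR' hN => ?_, fun p p' J J' ε hε hp hp' h1 h2 h3 h4 hN => ?_⟩
  · unfold cG
    (clear * - hc hcL; positivity)
  · refine (opLe_G hc hR).mono hc1 ?_
    unfold cG
    linarith only [hcc, hcLc, hcL]
  · rw [hJd p J J' hR hR']
    have a1 := hs_mul_le' hc1 (opLe_G hc hR') (p.G J * (p.r • (J - J')))
    have a2 := hs_mul_le hc1 (opLe_G hc hR) (p.r • (J - J'))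
    have a3 := hsm p.r 1 (J - J') (hr p hp)
    have a4 : hs (p.G J * (p.r • (J - J')) * p.G J') ≤ 1 / c * (1 / c * (1 * hs (J - J'))) :=
      a1.trans (mul_le_mul_of_nonneg_left (a2.trans (mul_le_mul_of_nonneg_left a3 hc1)) hc1)
    refine a4.trans ?_
    have : 0 ≤ hs (J - J') := hs_nn _
    rw [one_mul, ← mul_assoc]
    refine mul_le_mul_of_nonneg_right ?_ this
    unfold cG
    linarith only [hc1, hcL, hcLc]
  · refine (G_lipP hn hβ hc hε hp hp' hR hR' hN).mono (mul_nonneg hcL hε)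
      (mul_le_mul_of_nonneg_right ?_ hε)
    unfold cG
    linarith only [hcc, hcLc, hc1]
  · rw [hJd p J J' h1 h2, hJd p' J J' h3 h4]
    set X := J - J' with hX
    have e : p.G J * (p.r • X) * p.G J' - p'.G J * (p'.r • X) * p'.G J'
        = (p.G J * ((p.r - p'.r) • X)) * p.G J'
          + ((p.G J - p'.G J) * (p'.r • X)) * p.G J'
          + (p'.G J * (p'.r • X)) * (p.G J' - p'.G J') := by
      simp only [Matrix.mul_smul, Matrix.smul_mul, sub_smul, sub_mul, mul_sub]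
      abel
    rw [e]
    have hx : 0 ≤ hs X := hs_nn _
    have hrr := hsm (p.r - p'.r) ε X hN.2.1
    have hr' := hsm p'.r 1 X (hr p' hp')
    rw [one_mul] at hr'
    have L1 := G_lipP hn hβ hc hε hp hp' h1 h3 hN
    have L2 := G_lipP hn hβ hc hε hp hp' h2 h4 hN
    have a1 : hs ((p.G J * ((p.r - p'.r) • X)) * p.G J') ≤ 1 / c * (1 / c * (ε * hs X)) :=
      (hs_mul_le' hc1 (opLe_G hc h2) _).trans (mul_le_mul_of_nonneg_left
        ((hs_mul_le hc1 (opLe_G hc h1) _).trans (mul_le_mul_of_nonneg_left hrr hc1)) hc1)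
    have a2 : hs (((p.G J - p'.G J) * (p'.r • X)) * p.G J')
        ≤ 1 / c * (cL d K c * ε * hs X) :=
      (hs_mul_le' hc1 (opLe_G hc h2) _).trans (mul_le_mul_of_nonneg_left
        ((hs_mul_le (mul_nonneg hcL hε) L1 _).trans (mul_le_mul_of_nonneg_left hr'
          (mul_nonneg hcL hε))) hc1)
    have a3 : hs ((p'.G J * (p'.r • X)) * (p.G J' - p'.G J'))
        ≤ cL d K c * ε * (1 / c * hs X) :=
      (hs_mul_le' (mul_nonneg hcL hε) L2 _).trans (mul_le_mul_of_nonneg_left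
        ((hs_mul_le hc1 (opLe_G hc h3) _).trans (mul_le_mul_of_nonneg_left hr' hc1))
          (mul_nonneg hcL hε))
    refine (hs_add_le _ _).trans ((add_le_add (hs_add_le _ _) le_rfl).trans
      ((add_le_add (add_le_add a1 a2) a3).trans ?_))
    have hεx : 0 ≤ ε * hs X := mul_nonneg hε hx
    have e5 : 1 / c * (1 / c * (ε * hs X)) + 1 / c * (cL d K c * ε * hs X)
        + cL d K c * ε * (1 / c * hs X)
        = (1 / c * (1 / c) + 2 * (cL d K c * (1 / c))) * (ε * hs X) := by ring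
    rw [e5, mul_assoc (cG d K c)]
    refine mul_le_mul_of_nonneg_right ?_ hεx
    unfold cG
    linarith only [hcL, hc1]

/-- the first matrix of the drift error -/
theorem X (hn : 1 ≤ n) (hβ : β ≤ 1) (hc : 0 < c) (κ₀ : ℝ) :
    ∃ C : ℝ, C = 4 * (4 * ((1 + 4 * (|(-1 : ℝ)| * (4 * (cB d K * cG d K c)))) * (3 + |κ₀|))
      * (1 + 4 * (|(-1 : ℝ)| * (4 * (cG d K c * cB d K))))) ∧
    Cls β K c C (fun (p : Par n d) J =>
      (1 - p.B J * p.G J) * (J + κ₀ • (1 : Mat n)) * (1 - p.G J * p.B J)) := by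
  refine ⟨_, rfl, ?_⟩
  have hB := B (β := β) (K := K) (c := c) (n := n) (d := d) hn hβ
  have hG := G (β := β) (K := K) (c := c) (n := n) (d := d) hn hβ hc
  have h1 := one (β := β) (K := K) (c := c) (n := n) (d := d)
  have hQ := (J (β := β) (K := K) (c := c) (n := n) (d := d)).add (const_one κ₀)
  have := ((h1.add (hB.mul hG).neg).mul hQ).mul (h1.add (hG.mul hB).neg)
  simpa only [← sub_eq_add_neg] using this

/-- the second matrix of the drift error -/
theorem Y (hn : 1 ≤ n) (hβ : β ≤ 1) (hc : 0 < c) (κ₀ : ℝ) :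
    ∃ C : ℝ, C = 4 * (4 * (cG d K c * (3 + |κ₀|)) * cG d K c) ∧
    Cls β K c C (fun (p : Par n d) J => p.G J * (J + κ₀ • (1 : Mat n)) * p.G J) := by
  refine ⟨_, rfl, ?_⟩
  have hG := G (β := β) (K := K) (c := c) (n := n) (d := d) hn hβ hc
  have hQ := (J (β := β) (K := K) (c := c) (n := n) (d := d)).add (const_one κ₀)
  exact (hG.mul hQ).mul hG

end Cls

end Vale.Agent.P150.F
end

section

/-! Module G6a: bounds of the drift error from the class (helper477). -/

open MeasureTheory ProbabilityTheory Filter Topology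
open scoped Matrix

namespace Vale.Agent.P150.F

namespace Cls

variable {n d : ℕ} {β K c C C' : ℝ}

theorem nv_diag_le (A : Mat n) : nv (fun j => A j j) ≤ hs A := by
  rw [nv_eq_sqrt]
  unfold hs hsq
  refine Real.sqrt_le_sqrt (Finset.sum_le_sum fun j _ => ?_)
  exact Finset.single_le_sum (f := fun k => A j k ^ 2) (fun k _ => sq_nonneg _)
    (Finset.mem_univ j)

theorem nv_const (a : ℝ) : nv (fun _ : Fin n => a) = |a| * √n := by
  rw [nv_eq_sqrt]
  unfold sq
  rw [Finset.sum_const, Finset.card_univ, Fintype.card_fin, nsmul_eq_mul, mul_comm,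
    Real.sqrt_mul (sq_nonneg a), Real.sqrt_sq_eq_abs]

theorem nv_trN_le (hn : 1 ≤ n) (A : Mat n) : nv (fun _ : Fin n => trN A) ≤ hs A := by
  have hn' : (0 : ℝ) < n := by exact_mod_cast hn
  rw [nv_const]
  have h := abs_trN_le A
  rwa [le_div_iff₀ (Real.sqrt_pos.2 hn')] at h

theorem abs_entry_le {A : Mat n} {C : ℝ} (hC : 0 ≤ C) (h : OpLe A C) (j : Fin n) :
    |A j j| ≤ C := by
  have h1 := h.nv_le hC (Pi.single j 1)
  have h2 := abs_le_nv (A.mulVec (Pi.single j 1)) j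
  have h3 : A.mulVec (Pi.single j 1) j = A j j := by simp
  have h4 : nv (Pi.single j (1 : ℝ) : Vec n) = 1 := by
    rw [nv_eq_sqrt]
    have : sq (Pi.single j (1 : ℝ) : Vec n) = 1 := by
      unfold sq
      rw [Finset.sum_eq_single j]
      · simp
      · intro i _ hi
        simp [hi]
      · simp
    rw [this, Real.sqrt_one]
  rw [h4, mul_one] at h1
  rw [h3] at h2
  exact h2.trans h1

theorem nv_mul_bd {a : ℝ} (ha : 0 ≤ a) {u v : Vec n} (h : ∀ j, |u j| ≤ a) :
    nv (fun j => u j * v j) ≤ a * nv v :=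
  nv_le_mul ha fun j => by
    rw [abs_mul]
    exact mul_le_mul_of_nonneg_right (h j) (abs_nonneg _)

end Cls

/-- the four bounds of `U` from the class membership of its two matrices -/
theorem U_of_cls (κ₀ C : ℝ) (hC : 0 ≤ C) : ∃ D : ℝ, 0 < D ∧ ∀ (n d : ℕ) (β K c : ℝ), 1 ≤ n →
    β ≤ 1 →
    Cls β K c C (fun (p : Par n d) J =>
      (1 - p.B J * p.G J) * (J + κ₀ • (1 : Mat n)) * (1 - p.G J * p.B J)) →
    Cls β K c C (fun (p : Par n d) J => p.G J * (J + κ₀ • (1 : Mat n)) * p.G J) →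
      (∀ (p : Par n d) (J : Mat n), p.Ok β K → p.Reg c J → ∀ j, |p.U κ₀ J j| ≤ D) ∧
      (∀ (p : Par n d) (J J' : Mat n), p.Ok β K → p.Reg c J → p.Reg c J' →
        sq (fun j => p.U κ₀ J j - p.U κ₀ J' j) ≤ D ^ 2 * hsq (J - J')) ∧
      (∀ (p p' : Par n d) (J J' : Mat n) (ε : ℝ), p.Ok β K → p'.Ok β K → p.Reg c J → p.Reg c J' →
        p'.Reg c J → p'.Reg c J' → p.Near ε p' →
        sq (fun j => p.U κ₀ J j - p.U κ₀ J' j - (p'.U κ₀ J j - p'.U κ₀ J' j))
          ≤ D ^ 2 * ε ^ 2 * hsq (J - J')) ∧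
      (∀ (p p' : Par n d) (J : Mat n) (ε : ℝ), p.Ok β K → p'.Ok β K → p.Reg c J →
        p'.Reg c J → p.Near ε p' → ∀ j, |p.U κ₀ J j - p'.U κ₀ J j| ≤ D * ε) := by
  refine ⟨|κ₀| + 8 + 6 * C, by positivity, ?_⟩
  intro n d β K c hn hβ hX hY
  set D : ℝ := |κ₀| + 8 + 6 * C with hD
  have hD0 : 0 ≤ D := by positivity
  set X : Par n d → Mat n → Mat n := fun p J =>
      (1 - p.B J * p.G J) * (J + κ₀ • (1 : Mat n)) * (1 - p.G J * p.B J) with hXd
  set Y : Par n d → Mat n → Mat n := fun p J =>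
      p.G J * (J + κ₀ • (1 : Mat n)) * p.G J with hYd
  have hU : ∀ (p : Par n d) J j, p.U κ₀ J j = p.m j * (κ₀ + 2 * p.r * (1 - qq p.m) - X p J j j
      + p.r ^ 2 * trN (Y p J)) := fun p J j => rfl
  have hr : ∀ (p : Par n d), p.Ok β K → 0 ≤ p.r ∧ p.r ≤ 1 := fun p hp =>
    ⟨hp.2.1.1, hp.2.1.2.trans hβ⟩
  have hr2 : ∀ (p : Par n d), p.Ok β K → p.r ^ 2 ≤ 1 := fun p hp =>
    pow_le_one₀ (hr p hp).1 (hr p hp).2
  have hm : ∀ (p : Par n d), p.Ok β K → ∀ j, |p.m j| ≤ 1 := fun p hp j => (hp.1 j).le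
  have hε : ∀ (p p' : Par n d) ε, p.Near ε p' → 0 ≤ ε := fun p p' ε hN =>
    (abs_nonneg _).trans (hN.1 ⟨0, hn⟩)
  -- the inner difference in the couplings
  set W : Par n d → Mat n → Mat n → Vec n := fun p J J' =>
    (fun j => -((X p J - X p J') j j)) + (fun _ => p.r ^ 2 * trN (Y p J - Y p J')) with hW
  have hUW : ∀ p J J' j, p.U κ₀ J j - p.U κ₀ J' j = p.m j * W p J J' j := by
    intro p J J' j
    rw [hU, hU, hW]
    simp only [Pi.add_apply, Matrix.sub_apply, trN_sub]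
    ring
  have nv_neg' : ∀ A : Mat n, nv (fun j => -(A j j)) ≤ hs A := by
    intro A
    have : (fun j => -(A j j)) = -(fun j => A j j) := rfl
    rw [this, nv_neg]
    exact Cls.nv_diag_le A
  have nv_tr' : ∀ (a b : ℝ) (A : Mat n), |a| ≤ b → nv (fun _ : Fin n => a * trN A) ≤ b * hs A := by
    intro a b A hab
    have : (fun _ : Fin n => a * trN A) = a • (fun _ : Fin n => trN A) := rfl
    rw [this, nv_smul]
    exact mul_le_mul hab (Cls.nv_trN_le hn A) (nv_nonneg _) ((abs_nonneg a).trans hab)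
  have hWb : ∀ p J J', p.Ok β K → p.Reg c J → p.Reg c J' →
      nv (W p J J') ≤ 2 * C * hs (J - J') := by
    intro p J J' hp hR hR'
    refine (nv_add_le _ _).trans ?_
    have h1 := (nv_neg' (X p J - X p J')).trans (hX.lipJ p J J' hp hR hR')
    have h2 := (nv_tr' (p.r ^ 2) 1 (Y p J - Y p J') (by
      rw [abs_of_nonneg (sq_nonneg _)]; exact hr2 p hp))
    rw [one_mul] at h2
    have h3 := h2.trans (hY.lipJ p J J' hp hR hR')
    linarith only [h3, h1]
  refine ⟨fun p J hp hR j => ?_, fun p J J' hp hR hR' => ?_,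
    fun p p' J J' ε hp hp' h1 h2 h3 h4 hN => ?_, fun p p' J ε hp hp' hR hR' hN j => ?_⟩
  · rw [hU, abs_mul]
    obtain ⟨hq0, hq1⟩ := g6k_qq hp
    obtain ⟨r0, r1⟩ := hr p hp
    have h1 : |X p J j j| ≤ C := Cls.abs_entry_le hC (hX.bd p J hp hR) j
    have h2 : |trN (Y p J)| ≤ C := abs_trN_le_of_opLe hC (hY.bd p J hp hR)
    have h3 : |p.r ^ 2 * trN (Y p J)| ≤ C := by
      rw [abs_mul, abs_of_nonneg (sq_nonneg _)]
      linarith only [mul_nonneg (sub_nonneg.2 h2) (sub_nonneg.2 (hr2 p hp)), mul_nonneg (sub_nonneg.2 h2) (sq_nonneg p.r), mul_nonneg (sub_nonneg.2 (hr2 p hp)) (sub_nonneg.2 (abs_nonneg (trN (Y p J))))]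
    have h4 : |2 * p.r * (1 - qq p.m)| ≤ 2 := by
      rw [abs_of_nonneg (by linarith only [mul_nonneg (sub_nonneg.2 hq1) (sub_nonneg.2 r0)])]
      linarith only [mul_nonneg (sub_nonneg.2 hq0) (sub_nonneg.2 r0), mul_nonneg (sub_nonneg.2 r0) (sub_nonneg.2 r1), mul_nonneg (sub_nonneg.2 r1) (sub_nonneg.2 r1)]
    have h5 : |κ₀ + 2 * p.r * (1 - qq p.m) - X p J j j + p.r ^ 2 * trN (Y p J)|
        ≤ |κ₀| + 2 + C + C := by
      refine (abs_add_le _ _).trans (add_le_add ((abs_sub _ _).trans (add_le_add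
        ((abs_add_le _ _).trans (add_le_add le_rfl h4)) h1)) h3)
    have h6 : 0 ≤ |κ₀| := abs_nonneg _
    calc _ ≤ 1 * (|κ₀| + 2 + C + C) :=
          mul_le_mul (hm p hp j) h5 (abs_nonneg _) zero_le_one
      _ ≤ D := by rw [hD]; linarith only [hC]
  · have e1 : (fun j => p.U κ₀ J j - p.U κ₀ J' j) = fun j => p.m j * W p J J' j := by
      funext j
      exact hUW p J J' j
    rw [e1, ← nv_sq, ← hs_sq, ← mul_pow]
    refine pow_le_pow_left₀ (nv_nonneg _) ?_ 2
    refine (Cls.nv_mul_bd zero_le_one (hm p hp)).trans ?_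
    rw [one_mul]
    refine (hWb p J J' hp hR hR').trans (mul_le_mul_of_nonneg_right ?_ (hs_nn _))
    rw [hD]
    linarith only [abs_nonneg κ₀, hC]
  · have hε0 := hε p p' ε hN
    set V : Vec n := W p J J' - W p' J J' with hV
    have e1 : (fun j => p.U κ₀ J j - p.U κ₀ J' j - (p'.U κ₀ J j - p'.U κ₀ J' j))
        = (fun j => p.m j * V j) + (fun j => (p.m j - p'.m j) * W p' J J' j) := by
      funext j
      rw [hUW, hUW, hV]
      simp only [Pi.add_apply, Pi.sub_apply]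
      ring
    have e2 : V = (fun j => -(((X p J - X p J') - (X p' J - X p' J')) j j))
        + ((fun _ => p.r ^ 2 * trN ((Y p J - Y p J') - (Y p' J - Y p' J')))
        + (fun _ => (p.r ^ 2 - p'.r ^ 2) * trN (Y p' J - Y p' J'))) := by
      rw [hV, hW]
      funext j
      simp only [Pi.add_apply, Pi.sub_apply, Matrix.sub_apply, trN_sub]
      ring
    have h5 : |p.r ^ 2 - p'.r ^ 2| ≤ 2 * ε := by
      have e : p.r ^ 2 - p'.r ^ 2 = (p.r + p'.r) * (p.r - p'.r) := by ring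
      rw [e, abs_mul]
      have h6 : |p.r + p'.r| ≤ 2 := by
        rw [abs_of_nonneg (add_nonneg (hr p hp).1 (hr p' hp').1)]
        linarith only [(hr p' hp').2, (hr p hp).2]
      exact mul_le_mul h6 hN.2.1 (abs_nonneg _) (by norm_num)
    have hx : 0 ≤ hs (J - J') := hs_nn _
    have bV : nv V ≤ 4 * C * ε * hs (J - J') := by
      rw [e2]
      have b1 := (nv_neg' ((X p J - X p J') - (X p' J - X p' J'))).trans
        (hX.mix p p' J J' ε hε0 hp hp' h1 h2 h3 h4 hN)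
      have b2 := (nv_tr' (p.r ^ 2) 1 ((Y p J - Y p J') - (Y p' J - Y p' J')) (by
        rw [abs_of_nonneg (sq_nonneg _)]; exact hr2 p hp))
      rw [one_mul] at b2
      have b3 := b2.trans (hY.mix p p' J J' ε hε0 hp hp' h1 h2 h3 h4 hN)
      have b4 := (nv_tr' (p.r ^ 2 - p'.r ^ 2) (2 * ε) (Y p' J - Y p' J') h5).trans
        (mul_le_mul_of_nonneg_left (hY.lipJ p' J J' hp' h3 h4) (by linarith only [hε0]))
      refine (nv_add_le _ _).trans ((add_le_add b1 ((nv_add_le _ _).trans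
        (add_le_add b3 b4))).trans (le_of_eq ?_))
      ring
    rw [e1, ← nv_sq, ← hs_sq, ← mul_pow, ← mul_pow]
    refine pow_le_pow_left₀ (nv_nonneg _) ?_ 2
    have c1 : nv (fun j => p.m j * V j) ≤ 4 * C * ε * hs (J - J') :=
      (Cls.nv_mul_bd (v := V) zero_le_one (hm p hp)).trans (by rw [one_mul]; exact bV)
    have c2 := (Cls.nv_mul_bd (u := fun j => p.m j - p'.m j) (v := W p' J J') hε0
      hN.1).trans (mul_le_mul_of_nonneg_left (hWb p' J J' hp' h3 h4) hε0)
    refine (nv_add_le _ _).trans ((add_le_add c1 c2).trans ?_)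
    have e3 : 4 * C * ε * hs (J - J') + ε * (2 * C * hs (J - J'))
        = 6 * C * (ε * hs (J - J')) := by ring
    rw [e3, mul_assoc D]
    refine mul_le_mul_of_nonneg_right ?_ (mul_nonneg hε0 hx)
    rw [hD]
    linarith only [abs_nonneg κ₀]
  · have hε0 := hε p p' ε hN
    obtain ⟨hq0, hq1⟩ := g6k_qq hp
    obtain ⟨hq0', hq1'⟩ := g6k_qq hp'
    obtain ⟨r0, r1⟩ := hr p hp
    obtain ⟨r0', r1'⟩ := hr p' hp'
    have hqd := Cls.abs_qq_sub_le hp hp' hε0 hN
    have hXd1 : |X p J j j - X p' J j j| ≤ C * ε := by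
      have := Cls.abs_entry_le (mul_nonneg hC hε0) (hX.lipP p p' J ε hε0 hp hp' hR hR' hN) j
      simpa using this
    have hYd1 : |trN (Y p J) - trN (Y p' J)| ≤ C * ε := by
      rw [← trN_sub]
      exact abs_trN_le_of_opLe (mul_nonneg hC hε0) (hY.lipP p p' J ε hε0 hp hp' hR hR' hN)
    have hXb : |X p' J j j| ≤ C := Cls.abs_entry_le hC (hX.bd p' J hp' hR') j
    have hYb : |trN (Y p' J)| ≤ C := abs_trN_le_of_opLe hC (hY.bd p' J hp' hR')
    have h5 : |p.r ^ 2 - p'.r ^ 2| ≤ 2 * ε := by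
      have e : p.r ^ 2 - p'.r ^ 2 = (p.r + p'.r) * (p.r - p'.r) := by ring
      rw [e, abs_mul]
      have h6 : |p.r + p'.r| ≤ 2 := by
        rw [abs_of_nonneg (add_nonneg r0 r0')]
        linarith only [r1', r1]
      exact mul_le_mul h6 hN.2.1 (abs_nonneg _) (by norm_num)
    have e1 : p.U κ₀ J j - p'.U κ₀ J j
        = (p.m j - p'.m j) * (κ₀ + 2 * p'.r * (1 - qq p'.m) - X p' J j j
            + p'.r ^ 2 * trN (Y p' J))
          + p.m j * ((2 * ((p.r - p'.r) * (1 - qq p.m)) - 2 * (p'.r * (qq p.m - qq p'.m)))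
            - (X p J j j - X p' J j j)
            + (p.r ^ 2 * (trN (Y p J) - trN (Y p' J)) + (p.r ^ 2 - p'.r ^ 2) * trN (Y p' J))) := by
      rw [hU, hU]
      ring
    have a1 : |κ₀ + 2 * p'.r * (1 - qq p'.m) - X p' J j j + p'.r ^ 2 * trN (Y p' J)|
        ≤ |κ₀| + 2 + C + C := by
      have h4 : |2 * p'.r * (1 - qq p'.m)| ≤ 2 := by
        rw [abs_of_nonneg (by linarith only [mul_nonneg (sub_nonneg.2 hq1') (sub_nonneg.2 r0')])]
        linarith only [mul_nonneg (sub_nonneg.2 hq0') (sub_nonneg.2 r0'), mul_nonneg (sub_nonneg.2 r0') (sub_nonneg.2 r1'), mul_nonneg (sub_nonneg.2 r1') (sub_nonneg.2 r1')]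
      have h3 : |p'.r ^ 2 * trN (Y p' J)| ≤ C := by
        rw [abs_mul, abs_of_nonneg (sq_nonneg _)]
        linarith only [mul_nonneg (sub_nonneg.2 hYb) (sub_nonneg.2 (hr2 p' hp')), mul_nonneg (sub_nonneg.2 hYb) (sq_nonneg p'.r), mul_nonneg (sub_nonneg.2 (hr2 p' hp')) (sub_nonneg.2 (abs_nonneg (trN (Y p' J))))]
      exact (abs_add_le _ _).trans (add_le_add ((abs_sub _ _).trans (add_le_add
        ((abs_add_le _ _).trans (add_le_add le_rfl h4)) hXb)) h3)
    have a2 : |2 * ((p.r - p'.r) * (1 - qq p.m)) - 2 * (p'.r * (qq p.m - qq p'.m))| ≤ 6 * ε := by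
      have b1 : |(p.r - p'.r) * (1 - qq p.m)| ≤ ε * 1 := by
        rw [abs_mul, abs_of_nonneg (show 0 ≤ 1 - qq p.m by linarith only [hq1])]
        exact mul_le_mul hN.2.1 (by linarith only [hq0]) (by linarith only [hq1]) hε0
      have b2 : |p'.r * (qq p.m - qq p'.m)| ≤ 1 * (2 * ε) := by
        rw [abs_mul, abs_of_nonneg r0']
        exact mul_le_mul r1' hqd (abs_nonneg _) zero_le_one
      have b3 : ∀ x : ℝ, |2 * x| = 2 * |x| := fun x => by rw [abs_mul, abs_two]
      refine (abs_sub _ _).trans ?_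
      rw [b3, b3]
      linarith only [b2, b1]
    have a3 : |p.r ^ 2 * (trN (Y p J) - trN (Y p' J)) + (p.r ^ 2 - p'.r ^ 2) * trN (Y p' J)|
        ≤ 3 * C * ε := by
      have b1 : |p.r ^ 2 * (trN (Y p J) - trN (Y p' J))| ≤ 1 * (C * ε) := by
        rw [abs_mul, abs_of_nonneg (sq_nonneg _)]
        exact mul_le_mul (hr2 p hp) hYd1 (abs_nonneg _) zero_le_one
      have b2 : |(p.r ^ 2 - p'.r ^ 2) * trN (Y p' J)| ≤ 2 * ε * C := by
        rw [abs_mul]
        exact mul_le_mul h5 hYb (abs_nonneg _) (by linarith)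
      exact (abs_add_le _ _).trans (by linarith only [b2, b1])
    have a4 : |(2 * ((p.r - p'.r) * (1 - qq p.m)) - 2 * (p'.r * (qq p.m - qq p'.m)))
            - (X p J j j - X p' J j j)
            + (p.r ^ 2 * (trN (Y p J) - trN (Y p' J)) + (p.r ^ 2 - p'.r ^ 2) * trN (Y p' J))|
        ≤ 6 * ε + C * ε + 3 * C * ε :=
      (abs_add_le _ _).trans (add_le_add ((abs_sub _ _).trans (add_le_add a2 hXd1)) a3)
    have a5 : |(p.m j - p'.m j) * (κ₀ + 2 * p'.r * (1 - qq p'.m) - X p' J j j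
            + p'.r ^ 2 * trN (Y p' J))| ≤ ε * (|κ₀| + 2 + C + C) := by
      rw [abs_mul]
      exact mul_le_mul (hN.1 j) a1 (abs_nonneg _) hε0
    have a6 : |p.m j * ((2 * ((p.r - p'.r) * (1 - qq p.m)) - 2 * (p'.r * (qq p.m - qq p'.m)))
            - (X p J j j - X p' J j j)
            + (p.r ^ 2 * (trN (Y p J) - trN (Y p' J)) + (p.r ^ 2 - p'.r ^ 2) * trN (Y p' J)))|
        ≤ 1 * (6 * ε + C * ε + 3 * C * ε) := by
      rw [abs_mul]
      exact mul_le_mul (hm p hp j) a4 (abs_nonneg _) zero_le_one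
    rw [e1]
    refine (abs_add_le _ _).trans ((add_le_add a5 a6).trans (le_of_eq ?_))
    rw [hD]
    ring

/-- **[G6a]** -/
theorem G6a_U (β κ₀ c K : ℝ) (d : ℕ) (hβ : β ≤ 1) (hc : 0 < c) :
    ∃ C : ℝ, 0 < C ∧ ∀ n : ℕ, 1 ≤ n →
      (∀ (p : Par n d) (J : Mat n), p.Ok β K → p.Reg c J → ∀ j, |p.U κ₀ J j| ≤ C) ∧
      (∀ (p : Par n d) (J J' : Mat n), p.Ok β K → p.Reg c J → p.Reg c J' →
        sq (fun j => p.U κ₀ J j - p.U κ₀ J' j) ≤ C ^ 2 * hsq (J - J')) ∧
      (∀ (p p' : Par n d) (J J' : Mat n) (ε : ℝ), p.Ok β K → p'.Ok β K → p.Reg c J → p.Reg c J' →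
        p'.Reg c J → p'.Reg c J' → p.Near ε p' →
        sq (fun j => p.U κ₀ J j - p.U κ₀ J' j - (p'.U κ₀ J j - p'.U κ₀ J' j))
          ≤ C ^ 2 * ε ^ 2 * hsq (J - J')) ∧
      (∀ (p p' : Par n d) (J : Mat n) (ε : ℝ), p.Ok β K → p'.Ok β K → p.Reg c J →
        p'.Reg c J → p.Near ε p' → ∀ j, |p.U κ₀ J j - p'.U κ₀ J j| ≤ C * ε) := by
  set C₁ : ℝ := 4 * (4 * ((1 + 4 * (|(-1 : ℝ)| * (4 * (Cls.cB d K * Cls.cG d K c))))
    * (3 + |κ₀|)) * (1 + 4 * (|(-1 : ℝ)| * (4 * (Cls.cG d K c * Cls.cB d K))))) with hC₁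
  set C₂ : ℝ := 4 * (4 * (Cls.cG d K c * (3 + |κ₀|)) * Cls.cG d K c) with hC₂
  set C := max (max C₁ C₂) 0 with hC
  obtain ⟨D, hD, h⟩ := U_of_cls κ₀ C (le_max_right _ _)
  refine ⟨D, hD, fun n hn => ?_⟩
  obtain ⟨_, e1, hX⟩ := Cls.X (β := β) (K := K) (c := c) (n := n) (d := d) hn hβ hc κ₀
  obtain ⟨_, e2, hY⟩ := Cls.Y (β := β) (K := K) (c := c) (n := n) (d := d) hn hβ hc κ₀
  refine h n d β K c hn hβ (hX.mono ?_) (hY.mono ?_)
  · rw [e1]
    exact (le_max_left _ _).trans (le_max_left _ _)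
  · rw [e2]
    exact (le_max_right _ _).trans (le_max_left _ _)

end Vale.Agent.P150.F
end

section

/-! P150 FULL, D6 tracking: maximal inequality for the accumulated Gaussian noise of a stage, uniform
in the number of micro steps. -/

open MeasureTheory ProbabilityTheory Filter Topology Real
open scoped Matrix ENNReal

namespace Vale.Agent.P150.F

variable {n : ℕ}

/-- accumulated noise `∑_{j<t} √δ_j ω_j` -/
noncomputable def Wn (δ : ℕ → ℝ) (ω : ℕ → Vec n) (t : ℕ) : Vec n :=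
  fun i => ∑ j ∈ Finset.range t, √(δ j) * ω j i

@[simp] theorem Wn_zero (δ : ℕ → ℝ) (ω : ℕ → Vec n) : Wn δ ω 0 = 0 := by
  funext i; simp [Wn]

theorem Wn_succ (δ : ℕ → ℝ) (ω : ℕ → Vec n) (t : ℕ) :
    Wn δ ω (t + 1) = Wn δ ω t + √(δ t) • ω t := by
  funext i
  simp only [Wn, Pi.add_apply, Pi.smul_apply, smul_eq_mul]
  rw [Finset.sum_range_succ]

theorem Wn_consS (δ : ℕ → ℝ) (ξ : Vec n) (ω : ℕ → Vec n) (t : ℕ) :
    Wn δ (consS ξ ω) (t + 1) = √(δ 0) • ξ + Wn (fun j => δ (j + 1)) ω t := by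
  funext i
  simp only [Wn, Pi.add_apply, Pi.smul_apply, smul_eq_mul]
  rw [Finset.sum_range_succ']
  simp only [consS_succ, consS_zero]
  ring

theorem measurable_Wn (δ : ℕ → ℝ) (t : ℕ) : Measurable fun ω : ℕ → Vec n => Wn δ ω t := by
  rw [measurable_pi_iff]
  intro i
  unfold Wn
  refine Finset.measurable_fun_sum _ fun j _ => ?_
  have h1 : Measurable fun ω : ℕ → Vec n => ω j i :=
    (measurable_pi_apply i).comp (measurable_pi_apply j)
  exact h1.const_mul _

/-! ### one dimensional Gaussian integral -/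

theorem gexp_int {u δ : ℝ} (hu : 0 < u) (hδ : 0 ≤ δ) (s : ℝ) :
    ∫ x, exp ((s + √δ * x) ^ 2 / (2 * (u + δ))) ∂(gaussianReal 0 1)
      = √((u + δ) / u) * exp (s ^ 2 / (2 * u)) := by
  have hud : 0 < u + δ := by linarith
  rw [integral_gaussianReal_eq_integral_smul one_ne_zero]
  set b : ℝ := u / (2 * (u + δ)) with hb
  have hbpos : 0 < b := by positivity
  have h1 : ∀ x : ℝ, gaussianPDFReal 0 1 x • exp ((s + √δ * x) ^ 2 / (2 * (u + δ)))
      = ((√(2 * π))⁻¹ * exp (s ^ 2 / (2 * u))) * exp (-b * (x - s * √δ / u) ^ 2) := by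
    intro x
    rw [gaussianPDFReal]
    simp only [NNReal.coe_one, mul_one, sub_zero, smul_eq_mul]
    rw [mul_assoc, ← exp_add, mul_assoc, ← exp_add]
    congr 2
    have hs : √δ ^ 2 = δ := Real.sq_sqrt hδ
    rw [hb]
    field_simp
    ring_nf
    rw [hs]
    ring
  simp_rw [h1]
  rw [integral_const_mul, integral_sub_right_eq_self (fun x => exp (-b * x ^ 2)), integral_gaussian]
  have h3 : π / b = (2 * π) * ((u + δ) / u) := by
    rw [hb]; field_simp
  rw [h3, sqrt_mul (show (0 : ℝ) ≤ 2 * π by positivity)]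
  have h4 : √(2 * π) ≠ 0 := by positivity
  calc (√(2 * π))⁻¹ * exp (s ^ 2 / (2 * u)) * (√(2 * π) * √((u + δ) / u))
      = ((√(2 * π))⁻¹ * √(2 * π)) * (√((u + δ) / u) * exp (s ^ 2 / (2 * u))) := by ring
    _ = _ := by rw [inv_mul_cancel₀ h4, one_mul]

theorem gexp_integrable {u δ : ℝ} (hu : 0 < u) (hδ : 0 ≤ δ) (s : ℝ) :
    Integrable (fun x => exp ((s + √δ * x) ^ 2 / (2 * (u + δ)))) (gaussianReal 0 1) := by
  by_contra h
  have h1 := gexp_int hu hδ s
  rw [integral_undef h] at h1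
  have : 0 < √((u + δ) / u) * exp (s ^ 2 / (2 * u)) := by positivity
  linarith only [h1, this]

/-! ### the supermartingale -/

/-- the explicit (super)martingale -/
noncomputable def vv (S : Finset (Fin n)) (a U u : ℝ) (s : Vec n) : ℝ :=
  exp (-a / (2 * U)) * √(U / u) ^ S.card * exp ((∑ i ∈ S, s i ^ 2) / (2 * u))

theorem prod_form (S : Finset (Fin n)) {u δ : ℝ} (s ξ : Vec n) :
    exp ((∑ i ∈ S, (s + √δ • ξ) i ^ 2) / (2 * (u + δ)))
      = ∏ i, (if i ∈ S then exp ((s i + √δ * ξ i) ^ 2 / (2 * (u + δ))) else 1) := by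
  rw [Finset.prod_ite_mem, Finset.univ_inter, ← exp_sum, Finset.sum_div]
  simp only [Pi.add_apply, Pi.smul_apply, smul_eq_mul]

theorem vv_step (S : Finset (Fin n)) {a U u δ : ℝ} (hU : 0 < U) (hu : 0 < u) (hδ : 0 ≤ δ)
    (s : Vec n) :
    ∫⁻ ξ, ENNReal.ofReal (vv S a U (u + δ) (s + √δ • ξ)) ∂(gpi (Fin n))
      = ENNReal.ofReal (vv S a U u s) := by
  classical
  have hud : 0 < u + δ := by linarith
  set f : Fin n → ℝ → ℝ := fun i x =>
    if i ∈ S then exp ((s i + √δ * x) ^ 2 / (2 * (u + δ))) else 1 with hf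
  have hint : Integrable (fun ξ : Vec n => ∏ i, f i (ξ i)) (gpi (Fin n)) := by
    refine Integrable.fintype_prod (μ := fun _ => gaussianReal 0 1) (f := f) fun k => ?_
    simp only [hf]
    split_ifs
    · exact gexp_integrable hu hδ _
    · exact integrable_const _
  have hval : ∫ ξ, ∏ i, f i (ξ i) ∂(gpi (Fin n))
      = √((u + δ) / u) ^ S.card * exp ((∑ i ∈ S, s i ^ 2) / (2 * u)) := by
    have h := integral_fintype_prod_eq_prod (𝕜 := ℝ) f (μ := fun _ => gaussianReal 0 1)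
    rw [h]
    have h2 : ∀ i, ∫ x, f i x ∂(gaussianReal 0 1)
        = if i ∈ S then √((u + δ) / u) * exp (s i ^ 2 / (2 * u)) else 1 := by
      intro i
      simp only [hf]
      split_ifs
      · exact gexp_int hu hδ _
      · simp
    simp_rw [h2]
    rw [Finset.prod_ite_mem, Finset.univ_inter, Finset.prod_mul_distrib, Finset.prod_const,
      ← exp_sum, Finset.sum_div]
  have hfun : ∀ ξ : Vec n, vv S a U (u + δ) (s + √δ • ξ)
      = (exp (-a / (2 * U)) * √(U / (u + δ)) ^ S.card) * ∏ i, f i (ξ i) := by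
    intro ξ
    unfold vv
    rw [prod_form S s ξ]
  simp_rw [hfun]
  rw [← ofReal_integral_eq_lintegral_ofReal (hint.const_mul _)
    (Eventually.of_forall fun ξ => ?_), integral_const_mul, hval]
  · congr 1
    unfold vv
    have h5 : √(U / (u + δ)) * √((u + δ) / u) = √(U / u) := by
      rw [← Real.sqrt_mul (by positivity)]
      congr 1
      field_simp
    calc exp (-a / (2 * U)) * √(U / (u + δ)) ^ S.card *
          (√((u + δ) / u) ^ S.card * exp ((∑ i ∈ S, s i ^ 2) / (2 * u)))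
        = exp (-a / (2 * U)) * (√(U / (u + δ)) * √((u + δ) / u)) ^ S.card
            * exp ((∑ i ∈ S, s i ^ 2) / (2 * u)) := by rw [mul_pow]; ring
      _ = _ := by rw [h5]
  · have : 0 ≤ ∏ i, f i (ξ i) := by
      refine Finset.prod_nonneg fun i _ => ?_
      simp only [hf]
      split_ifs
      · positivity
      · norm_num
    positivity

theorem one_le_vv (S : Finset (Fin n)) {a U u : ℝ} (ha : 0 ≤ a) (hu : 0 < u) (huU : u ≤ U)
    (s : Vec n) (hs : a ≤ ∑ i ∈ S, s i ^ 2) : 1 ≤ vv S a U u s := by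
  have hU : 0 < U := lt_of_lt_of_le hu huU
  unfold vv
  have h1 : 1 ≤ √(U / u) ^ S.card := by
    apply one_le_pow₀
    rw [Real.one_le_sqrt, one_le_div hu]
    exact huU
  have h2 : 1 ≤ exp (-a / (2 * U)) * exp ((∑ i ∈ S, s i ^ 2) / (2 * u)) := by
    rw [← exp_add, ← exp_zero]
    apply exp_le_exp.2
    have h3 : a / (2 * U) ≤ a / (2 * u) := by
      apply div_le_div_of_nonneg_left ha (by positivity) (by linarith only [huU])
    have h4 : a / (2 * u) ≤ (∑ i ∈ S, s i ^ 2) / (2 * u) :=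
      div_le_div_of_nonneg_right hs (by positivity)
    rw [neg_div]
    linarith only [h3, h4]
  calc (1 : ℝ) = 1 * 1 := by ring
    _ ≤ (exp (-a / (2 * U)) * exp ((∑ i ∈ S, s i ^ 2) / (2 * u))) * √(U / u) ^ S.card :=
        mul_le_mul h2 h1 (by norm_num) (by positivity)
    _ = _ := by ring

/-- the event that the noise, started at `s`, has reached squared size `a` within `N` steps -/
def mev (S : Finset (Fin n)) (a : ℝ) (δ : ℕ → ℝ) (N : ℕ) (s : Vec n) : Set (ℕ → Vec n) :=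
  {ω | ∃ t ≤ N, a ≤ ∑ i ∈ S, (s + Wn δ ω t) i ^ 2}

theorem measurableSet_mev (S : Finset (Fin n)) (a : ℝ) (δ : ℕ → ℝ) (N : ℕ) (s : Vec n) :
    MeasurableSet (mev S a δ N s) := by
  have : mev S a δ N s = ⋃ t, ⋃ (_ : t ≤ N), {ω | a ≤ ∑ i ∈ S, (s + Wn δ ω t) i ^ 2} := by
    ext ω; simp [mev]
  rw [this]
  refine MeasurableSet.iUnion fun t => MeasurableSet.iUnion fun _ => ?_
  refine measurableSet_le measurable_const ?_
  refine Finset.measurable_fun_sum _ fun i _ => Measurable.pow_const ?_ 2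
  exact measurable_const.add ((measurable_pi_apply i).comp (measurable_Wn δ t))

theorem mev_le (S : Finset (Fin n)) {a U : ℝ} (ha : 0 ≤ a) (N : ℕ) :
    ∀ (δ : ℕ → ℝ) (u : ℝ) (s : Vec n), (∀ j, 0 ≤ δ j) → 0 < u →
      u + ∑ j ∈ Finset.range N, δ j ≤ U →
      PN n (mev S a δ N s) ≤ ENNReal.ofReal (vv S a U u s) := by
  induction N with
  | zero =>
    intro δ u s hδ hu hU
    rw [Finset.sum_range_zero, add_zero] at hU
    by_cases hs : a ≤ ∑ i ∈ S, s i ^ 2
    · calc PN n (mev S a δ 0 s) ≤ 1 := prob_le_one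
        _ = ENNReal.ofReal 1 := by simp
        _ ≤ _ := ENNReal.ofReal_le_ofReal (one_le_vv S ha hu hU s hs)
    · have : mev S a δ 0 s = ∅ := by
        ext ω
        simp only [mev, Set.mem_ofPred_eq, Set.mem_empty_iff_false, iff_false, not_exists, not_and]
        intro t ht
        obtain rfl : t = 0 := by omega
        rw [Wn_zero, add_zero]
        exact hs
      rw [this]; simp
  | succ N ih =>
    intro δ u s hδ hu hU
    have hsum : u + δ 0 + ∑ j ∈ Finset.range N, δ (j + 1) ≤ U := by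
      rw [Finset.sum_range_succ'] at hU
      linarith
    have huU : u ≤ U := by
      have : 0 ≤ ∑ j ∈ Finset.range (N + 1), δ j := Finset.sum_nonneg fun j _ => hδ j
      linarith
    by_cases hs : a ≤ ∑ i ∈ S, s i ^ 2
    · calc PN n (mev S a δ (N + 1) s) ≤ 1 := prob_le_one
        _ = ENNReal.ofReal 1 := by simp
        _ ≤ _ := ENNReal.ofReal_le_ofReal (one_le_vv S ha hu huU s hs)
    · have hpre : ∀ ξ ω, consS ξ ω ∈ mev S a δ (N + 1) s
          ↔ ω ∈ mev S a (fun j => δ (j + 1)) N (s + √(δ 0) • ξ) := by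
        intro ξ ω
        simp only [mev, Set.mem_ofPred_eq]
        constructor
        · rintro ⟨t, ht, h⟩
          cases t with
          | zero => rw [Wn_zero, add_zero] at h; exact absurd h hs
          | succ t =>
            refine ⟨t, by omega, ?_⟩
            rw [Wn_consS, ← add_assoc] at h
            exact h
        · rintro ⟨t, ht, h⟩
          refine ⟨t + 1, by omega, ?_⟩
          rw [Wn_consS, ← add_assoc]
          exact h
      have hm := measurableSet_mev S a δ (N + 1) s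
      have h1 : PN n (mev S a δ (N + 1) s)
          = ∫⁻ ω, (mev S a δ (N + 1) s).indicator 1 ω ∂PN n := (lintegral_indicator_one hm).symm
      rw [h1, lintegral_consS (measurable_one.indicator hm)]
      have h2 : ∀ ξ, ∫⁻ ω, (mev S a δ (N + 1) s).indicator (1 : (ℕ → Vec n) → ℝ≥0∞) (consS ξ ω) ∂PN n
          ≤ ENNReal.ofReal (vv S a U (u + δ 0) (s + √(δ 0) • ξ)) := by
        intro ξ
        have h3 : ∀ ω, (mev S a δ (N + 1) s).indicator (1 : (ℕ → Vec n) → ℝ≥0∞) (consS ξ ω)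
            = (mev S a (fun j => δ (j + 1)) N (s + √(δ 0) • ξ)).indicator 1 ω := by
          intro ω
          by_cases h : consS ξ ω ∈ mev S a δ (N + 1) s
          · rw [Set.indicator_of_mem h, Set.indicator_of_mem ((hpre ξ ω).1 h)]; rfl
          · rw [Set.indicator_of_notMem h, Set.indicator_of_notMem (fun h' => h ((hpre ξ ω).2 h'))]
        simp_rw [h3]
        rw [lintegral_indicator_one (measurableSet_mev _ _ _ _ _)]
        exact ih (fun j => δ (j + 1)) (u + δ 0) (s + √(δ 0) • ξ) (fun j => hδ _)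
          (by have := hδ 0; linarith only [this, hu]) hsum
      refine (lintegral_mono h2).trans ?_
      rw [vv_step S (lt_of_lt_of_le hu huU) hu (hδ 0) s]

/-- MAXIMAL INEQUALITY, general form (coordinates in `S`) -/
theorem maxNoise (S : Finset (Fin n)) {δ : ℕ → ℝ} (hδ : ∀ j, 0 ≤ δ j) {N : ℕ} {τ a : ℝ}
    (hτ : 0 < τ) (ha : 0 ≤ a) (hsum : ∑ j ∈ Finset.range N, δ j ≤ τ) :
    (PN n).real {ω | ∃ t ≤ N, a ≤ ∑ i ∈ S, (Wn δ ω t) i ^ 2}
      ≤ √2 ^ S.card * exp (-(a / (4 * τ))) := by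
  have h := mev_le S (U := 2 * τ) ha N δ τ 0 hδ hτ (by linarith)
  have e1 : mev S a δ N 0 = {ω | ∃ t ≤ N, a ≤ ∑ i ∈ S, (Wn δ ω t) i ^ 2} := by
    unfold mev; simp only [zero_add]
  rw [e1] at h
  have e2 : vv S a (2 * τ) τ 0 = √2 ^ S.card * exp (-(a / (4 * τ))) := by
    unfold vv
    have : 2 * τ / τ = 2 := by field_simp
    rw [this]
    have h0 : (∑ i ∈ S, (0 : Vec n) i ^ 2) / (2 * τ) = 0 := by simp
    rw [h0, exp_zero, mul_one, mul_comm]
    congr 2
    rw [neg_div]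
    congr 2
    ring
  rw [e2] at h
  exact ENNReal.toReal_le_of_le_ofReal (by positivity) h

/-- MAXIMAL INEQUALITY for the whole vector: `|W_t|² ≤ A n τ` for all `t ≤ N` up to probability
`exp (-(A/4 - 1/2) n)` -/
theorem maxNoise_vec {δ : ℕ → ℝ} (hδ : ∀ j, 0 ≤ δ j) {N : ℕ} {τ A : ℝ}
    (hτ : 0 < τ) (hA : 0 ≤ A) (hsum : ∑ j ∈ Finset.range N, δ j ≤ τ) :
    (PN n).real {ω | ∃ t ≤ N, A * n * τ ≤ sq (Wn δ ω t)}
      ≤ exp (-((A / 4 - 1 / 2) * n)) := by
  have h := maxNoise (n := n) Finset.univ hδ hτ (a := A * n * τ) (by positivity) hsum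
  refine h.trans ?_
  rw [Finset.card_univ, Fintype.card_fin]
  have h1 : √2 ≤ exp (1 / 2) := by
    have h2 : (2 : ℝ) ≤ exp 1 := by have := add_one_le_exp (1 : ℝ); linarith only [this]
    have h3 : exp (1 / 2) = √(exp 1) := by
      rw [Real.exp_half]
    rw [h3]
    exact Real.sqrt_le_sqrt h2
  have h4 : √2 ^ n ≤ exp (n / 2) := by
    calc √2 ^ n ≤ exp (1 / 2) ^ n := pow_le_pow_left₀ (by positivity) h1 n
      _ = exp (n / 2) := by rw [← exp_nat_mul]; congr 1; ring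
  calc √2 ^ n * exp (-(A * n * τ / (4 * τ))) ≤ exp (n / 2) * exp (-(A * n * τ / (4 * τ))) :=
        mul_le_mul_of_nonneg_right h4 (exp_pos _).le
    _ = exp (-((A / 4 - 1 / 2) * n)) := by
        rw [← exp_add]
        congr 1
        field_simp
        ring

/-! ### stages starting at a later step -/

theorem mp_shS (k : ℕ) : MeasurePreserving (shS (n := n) k) (PN n) (PN n) := by
  refine ⟨measurable_shS k, ?_⟩
  refine Measure.eq_infinitePi _ fun s t ht => ?_
  rw [Measure.map_apply (measurable_shS k) (MeasurableSet.pi s.countable_toSet fun i _ => ht i)]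
  have hpre : shS k ⁻¹' (Set.pi s t)
      = Set.pi (s.image (k + ·) : Finset ℕ) fun j => t (j - k) := by
    ext ω
    simp only [Set.mem_preimage, Set.mem_pi, Finset.mem_coe, Finset.mem_image,
      forall_exists_index, and_imp, forall_apply_eq_imp_iff₂, Nat.add_sub_cancel_left]
    rfl
  rw [hpre, PN, Measure.infinitePi_pi _ (fun i _ => ht (i - k)),
    Finset.prod_image fun a _ b _ h => Nat.add_left_cancel h]
  exact Finset.prod_congr rfl fun j _ => by rw [Nat.add_sub_cancel_left]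

theorem maxNoise_vec_sh (k : ℕ) {δ : ℕ → ℝ} (hδ : ∀ j, 0 ≤ δ j) {N : ℕ} {τ A : ℝ}
    (hτ : 0 < τ) (hA : 0 ≤ A) (hsum : ∑ j ∈ Finset.range N, δ j ≤ τ) :
    (PN n).real {ω | ∃ t ≤ N, A * n * τ ≤ sq (Wn δ (shS k ω) t)}
      ≤ exp (-((A / 4 - 1 / 2) * n)) := by
  have hm : MeasurableSet {ω : ℕ → Vec n | ∃ t ≤ N, A * n * τ ≤ sq (Wn δ ω t)} := by
    have h := measurableSet_mev (Finset.univ : Finset (Fin n)) (A * n * τ) δ N 0
    unfold mev at h
    simp only [zero_add] at h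
    exact h
  have h1 := (mp_shS (n := n) k).measureReal_preimage hm.nullMeasurableSet
  have h2 := maxNoise_vec (n := n) hδ hτ hA hsum
  rw [← h1] at h2
  exact h2

end Vale.Agent.P150.F
end
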