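import Mathlib
import Vale.Agent.P150.Bdl.B13
import Vale.Agent.P150.Bdl.B3
import Vale.Agent.P150.Bdl.B1
import Vale.Agent.P150.Bdl.B12
import Vale.Agent.P150.Bdl.B10
import Vale.Agent.P150.Bdl.B15

set_option linter.all false

section

open Finset Filter Topology Set

namespace Vale.Agent.P150.Semi

lemma pinsker_aux_mono :
    MonotoneOn (fun h : ℝ => (h + 1) * Real.log h - 2 * (h - 1)) (Set.Ioi 0) := by
  have hd : ∀ h : ℝ, 0 < h → HasDerivAt (fun h : ℝ => (h + 1) * Real.log h - 2 * (h - 1))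
      (1 * Real.log h + (h + 1) * h⁻¹ - 2 * 1) h := by
    intro h hh
    exact ((((hasDerivAt_id h).add_const 1).mul (Real.hasDerivAt_log hh.ne')).sub
      (((hasDerivAt_id h).sub_const 1).const_mul 2))
  apply monotoneOn_of_deriv_nonneg (convex_Ioi 0)
  · intro h hh
    exact (hd h hh).continuousAt.continuousWithinAt
  · intro h hh
    rw [interior_Ioi] at hh
    exact (hd h hh).differentiableAt.differentiableWithinAt
  · intro h hh
    rw [interior_Ioi] at hh
    rw [(hd h hh).deriv]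
    have h1 := Real.one_sub_inv_le_log_of_pos hh
    have hh' : (0 : ℝ) < h := hh
    have h2 : (h + 1) * h⁻¹ = 1 + h⁻¹ := by field_simp
    rw [h2]
    linarith only [h1]

lemma pinsker_pt (h : ℝ) (hh : 0 ≤ h) :
    3 * (h - 1) ^ 2 ≤ (2 * h + 4) * (h * Real.log h - h + 1) := by
  rcases hh.eq_or_lt with rfl | hpos
  · norm_num
  set g : ℝ → ℝ := fun h => (2 * h + 4) * (h * Real.log h - h + 1) - 3 * (h - 1) ^ 2 with hg
  have hd : ∀ h : ℝ, 0 < h → HasDerivAt g (4 * ((h + 1) * Real.log h - 2 * (h - 1))) h := by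
    intro h hh
    have h1 : HasDerivAt (fun h : ℝ => 2 * h + 4) (2 * 1) h :=
      ((hasDerivAt_id h).const_mul 2).add_const 4
    have h2 : HasDerivAt (fun h : ℝ => h * Real.log h - h + 1)
        (1 * Real.log h + h * h⁻¹ - 1) h :=
      (((hasDerivAt_id h).mul (Real.hasDerivAt_log hh.ne')).sub (hasDerivAt_id h)).add_const 1
    have h3 : HasDerivAt (fun h : ℝ => 3 * (h - 1) ^ 2) (3 * ((2 : ℕ) * (h - 1) ^ (2 - 1) * 1)) h :=
      (((hasDerivAt_id h).sub_const 1).pow 2).const_mul 3
    have h4 := (h1.mul h2).sub h3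
    have e : 2 * 1 * (h * Real.log h - h + 1) + (2 * h + 4) * (1 * Real.log h + h * h⁻¹ - 1)
        - 3 * (((2 : ℕ) : ℝ) * (h - 1) ^ (2 - 1) * 1)
        = 4 * ((h + 1) * Real.log h - 2 * (h - 1)) := by
      rw [mul_inv_cancel₀ hh.ne']
      norm_num
      ring
    rw [e] at h4
    exact h4
  have hk1 : (fun h : ℝ => (h + 1) * Real.log h - 2 * (h - 1)) 1 = 0 := by norm_num
  have hg1 : g 1 = 0 := by simp [hg]
  have key : 0 ≤ g h := by
    rcases le_total 1 h with h1 | h1
    · have hm : MonotoneOn g (Set.Ici 1) := by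
        apply monotoneOn_of_deriv_nonneg (convex_Ici 1)
        · intro y hy
          exact (hd y (lt_of_lt_of_le one_pos hy)).continuousAt.continuousWithinAt
        · intro y hy
          rw [interior_Ici] at hy
          exact (hd y (lt_trans one_pos hy)).differentiableAt.differentiableWithinAt
        · intro y hy
          rw [interior_Ici] at hy
          have hy0 : (0 : ℝ) < y := lt_trans one_pos hy
          rw [(hd y hy0).deriv]
          have := pinsker_aux_mono (Set.mem_Ioi.2 one_pos) (Set.mem_Ioi.2 hy0) hy.le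
          rw [hk1] at this
          have h5 : 0 ≤ (y + 1) * Real.log y - 2 * (y - 1) := this
          linarith only [h5]
      have := hm (Set.mem_Ici.2 le_rfl) (Set.mem_Ici.2 h1) h1
      rw [hg1] at this
      exact this
    · have hm : AntitoneOn g (Set.Ioc 0 1) := by
        apply antitoneOn_of_deriv_nonpos (convex_Ioc 0 1)
        · intro y hy
          exact (hd y hy.1).continuousAt.continuousWithinAt
        · intro y hy
          rw [interior_Ioc] at hy
          exact (hd y hy.1).differentiableAt.differentiableWithinAt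
        · intro y hy
          rw [interior_Ioc] at hy
          rw [(hd y hy.1).deriv]
          have := pinsker_aux_mono (Set.mem_Ioi.2 hy.1) (Set.mem_Ioi.2 one_pos) hy.2.le
          rw [hk1] at this
          have h5 : (y + 1) * Real.log y - 2 * (y - 1) ≤ 0 := this
          linarith only [h5]
      have := hm (Set.mem_Ioc.2 ⟨hpos, h1⟩) (Set.mem_Ioc.2 ⟨one_pos, le_rfl⟩) h1
      rw [hg1] at this
      exact this
  have : g h = (2 * h + 4) * (h * Real.log h - h + 1) - 3 * (h - 1) ^ 2 := rfl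
  linarith only [key]

lemma pinsker_pt_nonneg (h : ℝ) (hh : 0 ≤ h) : 0 ≤ h * Real.log h - h + 1 := by
  have h1 := pinsker_pt h hh
  have h2 : 0 ≤ (2 * h + 4) * (h * Real.log h - h + 1) := le_trans (by positivity) h1
  exact nonneg_of_mul_nonneg_right h2 (by linarith)

variable {n : ℕ} {J : Fin n → Fin n → ℝ} (b : Fin n → ℝ)

/-- Pinsker's inequality for a density relative to the Gibbs measure -/
lemma pinsker (h : Cfg n → ℝ) (h0 : ∀ x, 0 ≤ h x) (h1 : ex J b h = 1) :
    (∑ y, gibbs J b y * |h y - 1|) ^ 2 ≤ 2 * ex J b (fun y => h y * Real.log (h y)) := by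
  have hs := gibbs_sum J b
  have e1 : ∑ y, gibbs J b y * ((2 * h y + 4) / 3) = 2 := by
    have : ∀ y, gibbs J b y * ((2 * h y + 4) / 3) = (2 / 3) * (gibbs J b y * h y)
        + (4 / 3) * gibbs J b y := by intro y; ring
    simp only [this, Finset.sum_add_distrib, ← Finset.mul_sum]
    unfold ex at h1
    rw [h1, hs]; norm_num
  have e2 : ∑ y, gibbs J b y * (h y * Real.log (h y) - h y + 1)
      = ex J b (fun y => h y * Real.log (h y)) := by
    have : ∀ y, gibbs J b y * (h y * Real.log (h y) - h y + 1)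
        = gibbs J b y * (h y * Real.log (h y)) - gibbs J b y * h y + gibbs J b y := by
      intro y; ring
    simp only [this, Finset.sum_add_distrib, Finset.sum_sub_distrib]
    unfold ex at h1 ⊢
    rw [h1, hs]; ring
  rw [← e1, ← e2]
  apply Finset.sum_sq_le_sum_mul_sum_of_sq_le_mul
  · intro y _
    have := gibbs_pos J b y
    have := h0 y
    positivity
  · intro y _
    exact mul_nonneg (gibbs_pos J b y).le (pinsker_pt_nonneg _ (h0 y))
  · intro y _
    have hp := pinsker_pt (h y) (h0 y)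
    rw [mul_pow, sq_abs]
    have hg := gibbs_pos J b y
    have : gibbs J b y * ((2 * h y + 4) / 3) * (gibbs J b y * (h y * Real.log (h y) - h y + 1))
      = gibbs J b y ^ 2 * (((2 * h y + 4) * (h y * Real.log (h y) - h y + 1)) / 3) := by ring
    rw [this]
    apply mul_le_mul_of_nonneg_left _ (by (clear * - hg; positivity))
    linarith only [hp]

lemma tvDist_eq (t : ℝ) (x : Cfg n) :
    tvDist J b t x = (1 / 2) * ∑ y, gibbs J b y * |dens J b x t y - 1| := by
  unfold tvDist
  congr 1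
  apply Finset.sum_congr rfl
  intro y _
  have hg := gibbs_pos J b y
  unfold dens
  rw [← abs_of_pos hg, ← abs_mul, abs_of_pos hg]
  congr 1
  field_simp

end Vale.Agent.P150.Semi
end

section

open Finset Filter Topology Set

namespace Vale.Agent.P150.Semi

variable {n : ℕ} {J : Fin n → Fin n → ℝ} (b : Fin n → ℝ)

/-- the entropy of a function relative to the Gibbs measure -/
noncomputable def entg {n : ℕ} (J : Fin n → Fin n → ℝ) (b : Fin n → ℝ) (f : Cfg n → ℝ) : ℝ :=
  ex J b (fun x => f x * Real.log (f x)) - ex J b f * Real.log (ex J b f)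

lemma ex_deriv (u : ℝ → Cfg n → ℝ) (v : Cfg n → ℝ) (t : ℝ)
    (hu : ∀ x, HasDerivAt (fun s => u s x) (v x) t) :
    HasDerivAt (fun s => ex J b (u s)) (ex J b v) t := by
  unfold ex
  apply HasDerivAt.fun_sum
  intro x _
  exact (hu x).const_mul _

lemma ex_flow_const (hJ : ∀ i j, J i j = J j i) (u : ℝ → Cfg n → ℝ)
    (hu : ∀ t x, HasDerivAt (fun s => u s x) (gen J b (u t) x) t) (t : ℝ) :
    ex J b (u t) = ex J b (u 0) := by
  have hd : ∀ s, HasDerivAt (fun s => ex J b (u s)) 0 s := by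
    intro s
    have := ex_deriv (J := J) b u (gen J b (u s)) s (hu s)
    rwa [ex_gen b hJ] at this
  exact is_const_of_deriv_eq_zero (fun s => (hd s).differentiableAt) (fun s => (hd s).deriv) t 0

lemma entg_deriv (hJ : ∀ i j, J i j = J j i) (u : ℝ → Cfg n → ℝ)
    (hu : ∀ t x, HasDerivAt (fun s => u s x) (gen J b (u t) x) t) (t : ℝ)
    (hpos : ∀ x, 0 < u t x) :
    HasDerivAt (fun s => entg J b (u s)) (-dir J b (u t) (fun x => Real.log (u t x))) t := by
  have h1 : HasDerivAt (fun s => ex J b (fun x => u s x * Real.log (u s x)))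
      (ex J b (fun x => gen J b (u t) x * Real.log (u t x)
        + u t x * (gen J b (u t) x / u t x))) t := by
    apply ex_deriv b (fun s x => u s x * Real.log (u s x))
    intro x
    exact (hu t x).mul ((hu t x).log (hpos x).ne')
  have h2 : ex J b (fun x => gen J b (u t) x * Real.log (u t x)
        + u t x * (gen J b (u t) x / u t x)) = -dir J b (u t) (fun x => Real.log (u t x)) := by
    rw [dir_symm b hJ]
    unfold dir
    rw [neg_neg]
    have h3 := ex_gen b hJ (u t)
    unfold ex at h3 ⊢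
    have h4 : ∀ x, gibbs J b x * (gen J b (u t) x * Real.log (u t x)
        + u t x * (gen J b (u t) x / u t x))
        = gibbs J b x * (Real.log (u t x) * gen J b (u t) x) + gibbs J b x * gen J b (u t) x := by
      intro x
      have := (hpos x).ne'
      field_simp
    simp only [h4, Finset.sum_add_distrib]
    rw [h3, add_zero]
  rw [h2] at h1
  have h5 : ∀ s, entg J b (u s) = ex J b (fun x => u s x * Real.log (u s x))
      - ex J b (u 0) * Real.log (ex J b (u 0)) := by
    intro s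
    unfold entg
    rw [ex_flow_const b hJ u hu s]
  have h6 := h1.sub_const (ex J b (u 0) * Real.log (ex J b (u 0)))
  have h7 : (fun s => entg J b (u s)) = fun s => ex J b (fun x => u s x * Real.log (u s x))
      - ex J b (u 0) * Real.log (ex J b (u 0)) := funext h5
  rw [h7]
  exact h6

lemma entg_decay (hJ : ∀ i j, J i j = J j i) (C : ℝ) (hC : 0 < C)
    (hM : ∀ f : Cfg n → ℝ, (∀ x, 0 < f x) →
      entg J b f ≤ C * dir J b f (fun x => Real.log (f x)))
    (u : ℝ → Cfg n → ℝ)
    (hu : ∀ t x, HasDerivAt (fun s => u s x) (gen J b (u t) x) t)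
    (hpos : ∀ t, 0 ≤ t → ∀ x, 0 < u t x) (t : ℝ) (ht : 0 ≤ t) :
    entg J b (u t) ≤ Real.exp (-(t / C)) * entg J b (u 0) := by
  set F : ℝ → ℝ := fun s => Real.exp (s / C) * entg J b (u s) with hF
  have hd : ∀ s, 0 ≤ s → HasDerivAt F (Real.exp (s / C) * (1 / C) * entg J b (u s)
      + Real.exp (s / C) * (-dir J b (u s) (fun x => Real.log (u s x)))) s := by
    intro s hs
    exact (((hasDerivAt_id s).div_const C).exp).mul (entg_deriv b hJ u hu s (hpos s hs))
  have hanti : AntitoneOn F (Set.Ici 0) := by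
    apply antitoneOn_of_deriv_nonpos (convex_Ici 0)
    · intro s hs
      exact (hd s hs).continuousAt.continuousWithinAt
    · intro s hs
      rw [interior_Ici] at hs
      exact (hd s (le_of_lt hs)).differentiableAt.differentiableWithinAt
    · intro s hs
      rw [interior_Ici] at hs
      have hs0 : (0 : ℝ) ≤ s := le_of_lt hs
      rw [(hd s hs0).deriv]
      have h1 := hM (u s) (hpos s hs0)
      have h2 : (1 / C) * entg J b (u s) ≤ dir J b (u s) (fun x => Real.log (u s x)) := by
        rw [one_div, inv_mul_le_iff₀ hC]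
        exact h1
      have h3 := Real.exp_pos (s / C)
      have h4 := mul_le_mul_of_nonneg_left h2 h3.le
      linarith only [h4]
  have h0 := hanti (Set.mem_Ici.2 le_rfl) (Set.mem_Ici.2 ht) ht
  have h1 : F t = Real.exp (t / C) * entg J b (u t) := rfl
  have h2 : F 0 = entg J b (u 0) := by simp [hF]
  rw [h1, h2] at h0
  have h3 : Real.exp (-(t / C)) * Real.exp (t / C) = 1 := by
    rw [← Real.exp_add]; simp
  calc entg J b (u t) = Real.exp (-(t / C)) * (Real.exp (t / C) * entg J b (u t)) := by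
        rw [← mul_assoc, h3, one_mul]
    _ ≤ Real.exp (-(t / C)) * entg J b (u 0) :=
        mul_le_mul_of_nonneg_left h0 (Real.exp_pos _).le

lemma continuous_entg_mix (h : Cfg n → ℝ) :
    Continuous (fun ε : ℝ => entg J b (fun y => (1 - ε) * h y + ε)) := by
  unfold entg ex
  have hc : ∀ y, Continuous (fun ε : ℝ => (1 - ε) * h y + ε) := by intro y; fun_prop
  apply Continuous.sub
  · apply continuous_finsetSum
    intro y _
    exact continuous_const.mul (Real.continuous_mul_log.comp (hc y))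
  · exact Real.continuous_mul_log.comp
      (continuous_finsetSum _ fun y _ => continuous_const.mul (hc y))

lemma entg_dens_decay (hJ : ∀ i j, J i j = J j i) (C : ℝ) (hC : 0 < C)
    (hM : ∀ f : Cfg n → ℝ, (∀ x, 0 < f x) →
      entg J b f ≤ C * dir J b f (fun x => Real.log (f x)))
    (x : Cfg n) (t : ℝ) (ht : 0 ≤ t) :
    entg J b (dens J b x t) ≤ Real.exp (-(t / C)) * entg J b (dens J b x 0) := by
  have key : ∀ ε : ℝ, 0 < ε → ε < 1 →
      entg J b (fun y => (1 - ε) * dens J b x t y + ε)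
      ≤ Real.exp (-(t / C)) * entg J b (fun y => (1 - ε) * dens J b x 0 y + ε) := by
    intro ε h0 h1
    refine entg_decay b hJ C hC hM (fun s y => (1 - ε) * dens J b x s y + ε) ?_ ?_ t ht
    · intro s y
      have h2 := ((dens_deriv b hJ x s y).const_mul (1 - ε)).add_const ε
      have h3 : gen J b (fun y => (1 - ε) * dens J b x s y + ε) y
          = (1 - ε) * gen J b (dens J b x s) y := by
        rw [gen_add, gen_smul, gen_const, add_zero]
      rw [h3]
      exact h2
    · intro s hs y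
      have := dens_nonneg (J := J) b x hs y
      have : 0 ≤ (1 - ε) * dens J b x s y := mul_nonneg (by linarith) this
      linarith
  have l1 : Tendsto (fun ε : ℝ => entg J b (fun y => (1 - ε) * dens J b x t y + ε))
      (𝓝[>] 0) (𝓝 (entg J b (dens J b x t))) := by
    have := ((continuous_entg_mix (J := J) b (dens J b x t)).tendsto 0)
    simp only [sub_zero, one_mul, add_zero] at this
    exact this.mono_left nhdsWithin_le_nhds
  have l2 : Tendsto (fun ε : ℝ => Real.exp (-(t / C))
      * entg J b (fun y => (1 - ε) * dens J b x 0 y + ε))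
      (𝓝[>] 0) (𝓝 (Real.exp (-(t / C)) * entg J b (dens J b x 0))) := by
    have := ((continuous_entg_mix (J := J) b (dens J b x 0)).tendsto 0)
    simp only [sub_zero, one_mul, add_zero] at this
    exact (this.mono_left nhdsWithin_le_nhds).const_mul _
  apply le_of_tendsto_of_tendsto l1 l2
  have : Set.Ioo (0 : ℝ) 1 ∈ 𝓝[>] (0 : ℝ) := Ioo_mem_nhdsGT one_pos
  filter_upwards [this] with ε hε
  exact key ε hε.1 hε.2

lemma dens_zero (x y : Cfg n) : dens J b x 0 y = if x = y then (gibbs J b y)⁻¹ else 0 := by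
  unfold dens
  rw [kernel_zero]
  split_ifs <;> simp

lemma entg_dens_zero (x : Cfg n) : entg J b (dens J b x 0) = -Real.log (gibbs J b x) := by
  unfold entg
  rw [ex_dens, Real.log_one, mul_zero, sub_zero]
  unfold ex
  simp only [dens_zero]
  rw [Finset.sum_eq_single x]
  · rw [if_pos rfl]
    have hg := (gibbs_pos J b x).ne'
    rw [Real.log_inv]
    field_simp
  · intro y _ hy
    rw [if_neg (Ne.symm hy)]
    simp
  · simp

end Vale.Agent.P150.Semi
end

section

open Finset Filter Topology Set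

namespace Vale.Agent.P150.Semi

variable {n : ℕ} {J : Fin n → Fin n → ℝ} (b : Fin n → ℝ)

lemma continuous_ex : Continuous (fun f : Cfg n → ℝ => ex J b f) := by
  unfold ex
  fun_prop

lemma continuous_ex_sq : Continuous (fun f : Cfg n → ℝ => ex J b (fun x => f x ^ 2)) := by
  unfold ex
  fun_prop

lemma continuous_dir (hJ : ∀ i j, J i j = J j i) :
    Continuous (fun f : Cfg n → ℝ => dir J b f f) := by
  simp only [dir_eq hJ]
  fun_prop

lemma ex_const (c : ℝ) : ex J b (fun _ => c) = c := by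
  unfold ex
  rw [← Finset.sum_mul, gibbs_sum, one_mul]

lemma ex_add (f g : Cfg n → ℝ) : ex J b (fun x => f x + g x) = ex J b f + ex J b g := by
  unfold ex
  rw [← Finset.sum_add_distrib]
  exact Finset.sum_congr rfl fun x _ => by ring

lemma ex_smul (c : ℝ) (f : Cfg n → ℝ) : ex J b (fun x => c * f x) = c * ex J b f := by
  unfold ex
  rw [Finset.mul_sum]
  exact Finset.sum_congr rfl fun x _ => by ring

lemma ex_nonneg {f : Cfg n → ℝ} (hf : ∀ x, 0 ≤ f x) : 0 ≤ ex J b f :=
  Finset.sum_nonneg fun x _ => mul_nonneg (gibbs_pos J b x).le (hf x)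

lemma ex_mono {f g : Cfg n → ℝ} (h : ∀ x, f x ≤ g x) : ex J b f ≤ ex J b g :=
  Finset.sum_le_sum fun x _ => mul_le_mul_of_nonneg_left (h x) (gibbs_pos J b x).le

lemma var_eq (f : Cfg n → ℝ) : var J b f = ex J b (fun x => f x ^ 2) - ex J b f ^ 2 := by
  unfold var
  have h : ∀ x, (f x - ex J b f) ^ 2
      = f x ^ 2 + ((-2 * ex J b f) * f x + ex J b f ^ 2) := by intro x; ring
  simp only [h]
  rw [ex_add b (fun x => f x ^ 2) (fun x => (-2 * ex J b f) * f x + ex J b f ^ 2),
    ex_add b (fun x => (-2 * ex J b f) * f x) (fun _ => ex J b f ^ 2), ex_smul, ex_const]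
  ring

lemma var_nonneg (f : Cfg n → ℝ) : 0 ≤ var J b f :=
  ex_nonneg b fun _ => sq_nonneg _

lemma gibbs_le_one (x : Cfg n) : gibbs J b x ≤ 1 := by
  rw [← gibbs_sum J b]
  exact Finset.single_le_sum (fun y _ => (gibbs_pos J b y).le) (Finset.mem_univ x)

lemma dir_affine (hJ : ∀ i j, J i j = J j i) (c a : ℝ) (f : Cfg n → ℝ) :
    dir J b (fun x => c * (f x - a)) (fun x => c * (f x - a)) = c ^ 2 * dir J b f f := by
  rw [dir_eq hJ, dir_eq hJ, Finset.mul_sum, Finset.mul_sum, Finset.mul_sum]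
  apply Finset.sum_congr rfl; intro i _
  rw [Finset.mul_sum, Finset.mul_sum, Finset.mul_sum]
  apply Finset.sum_congr rfl; intro x _
  ring

/-- normalised mean-zero functions -/
def sphere0 {n : ℕ} (J : Fin n → Fin n → ℝ) (b : Fin n → ℝ) : Set (Cfg n → ℝ) :=
  {f | ex J b f = 0 ∧ ex J b (fun x => f x ^ 2) = 1}

lemma isCompact_sphere0 : IsCompact (sphere0 J b) := by
  have hK : IsCompact (Set.pi Set.univ
      (fun x : Cfg n => Set.Icc (-(gibbs J b x)⁻¹) ((gibbs J b x)⁻¹))) :=
    isCompact_univ_pi fun x => isCompact_Icc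
  refine hK.of_isClosed_subset ?_ ?_
  · exact (isClosed_eq (continuous_ex b) continuous_const).inter
      (isClosed_eq (continuous_ex_sq b) continuous_const)
  · intro f hf x _
    have hg := gibbs_pos J b x
    have hg1 := gibbs_le_one (J := J) b x
    have h1 : gibbs J b x * f x ^ 2 ≤ 1 := by
      rw [← hf.2]
      exact Finset.single_le_sum (f := fun y => gibbs J b y * f y ^ 2)
        (fun y _ => mul_nonneg (gibbs_pos J b y).le (sq_nonneg _)) (Finset.mem_univ x)
    have h2 : (gibbs J b x * f x) ^ 2 ≤ 1 ^ 2 := by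
      calc (gibbs J b x * f x) ^ 2 = gibbs J b x * (gibbs J b x * f x ^ 2) := by ring
        _ ≤ 1 * 1 := mul_le_mul hg1 h1 (by positivity) zero_le_one
        _ = 1 ^ 2 := by norm_num
    have h3 := abs_le_of_sq_le_sq' h2 (by norm_num)
    constructor
    · rw [neg_le, ← one_div, le_div_iff₀ hg]
      linarith [h3.1]
    · rw [← one_div, le_div_iff₀ hg]
      linarith only [h3.2]

lemma normalise_mem {f : Cfg n → ℝ} (hf : var J b f ≠ 0) :
    (fun x => (Real.sqrt (var J b f))⁻¹ * (f x - ex J b f)) ∈ sphere0 J b := by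
  have hv : 0 < var J b f := lt_of_le_of_ne (var_nonneg b f) (Ne.symm hf)
  constructor
  · rw [ex_smul b _ (fun x => f x - ex J b f)]
    have : ex J b (fun x => f x - ex J b f) = 0 := by
      have h := ex_add (J := J) b f (fun _ => - ex J b f)
      rw [ex_const] at h
      simp only [← sub_eq_add_neg] at h
      rw [h]; ring
    rw [this, mul_zero]
  · have h1 : (fun x => ((Real.sqrt (var J b f))⁻¹ * (f x - ex J b f)) ^ 2)
        = fun x => (var J b f)⁻¹ * (f x - ex J b f) ^ 2 := by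
      funext x
      rw [mul_pow, inv_pow, Real.sq_sqrt hv.le]
    rw [h1, ex_smul b _ (fun x => (f x - ex J b f) ^ 2)]
    exact inv_mul_cancel₀ hf

lemma exists_var_ne (hn : 0 < n) : ∃ f : Cfg n → ℝ, var J b f ≠ 0 := by
  set x0 : Cfg n := fun _ => true
  set x1 : Cfg n := fun _ => false
  have hne : x1 ≠ x0 := by
    intro h
    have := congrFun h ⟨0, hn⟩
    simp [x0, x1] at this
  refine ⟨fun x => if x = x0 then 1 else 0, ?_⟩
  have h1 : ex J b (fun x => if x = x0 then (1 : ℝ) else 0) = gibbs J b x0 := by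
    unfold ex
    rw [Finset.sum_eq_single x0]
    · simp
    · intro y _ hy; simp [hy]
    · simp
  have h2 : ex J b (fun x => (if x = x0 then (1 : ℝ) else 0) ^ 2) = gibbs J b x0 := by
    rw [← h1]
    congr 1
    funext x
    split_ifs <;> norm_num
  rw [var_eq, h1, h2]
  have h3 := gibbs_pos J b x0
  have h4 := gibbs_pos J b x1
  have h5 : gibbs J b x0 + gibbs J b x1 ≤ 1 := by
    rw [← gibbs_sum J b, ← Finset.sum_pair (Ne.symm hne)]
    exact Finset.sum_le_sum_of_subset_of_nonneg (Finset.subset_univ _)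
      (fun y _ _ => (gibbs_pos J b y).le)
  have h6 : 0 < gibbs J b x0 * (1 - gibbs J b x0) := mul_pos h3 (by linarith only [h5, h4])
  have h7 : gibbs J b x0 - gibbs J b x0 ^ 2 = gibbs J b x0 * (1 - gibbs J b x0) := by ring
  rw [h7]
  exact h6.ne'

lemma const_of_flip {f : Cfg n → ℝ} (h : ∀ x i, f (flip x i) = f x) (x y : Cfg n) : f x = f y := by
  have key : ∀ s : Finset (Fin n), f (fun i => if i ∈ s then y i else x i) = f x := by
    intro s
    induction s using Finset.induction_on with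
    | empty => simp
    | insert a s ha ih =>
      rw [← ih]
      by_cases hxy : y a = x a
      · congr 1
        funext i
        by_cases hi : i = a
        · subst hi; simp [ha, hxy]
        · simp [Finset.mem_insert, hi]
      · rw [← h (fun i => if i ∈ s then y i else x i) a]
        congr 1
        funext i
        unfold flip
        by_cases hi : i = a
        · subst hi
          simp only [Finset.mem_insert, true_or, if_true, Function.update_self, if_neg ha]
          cases hya : y i <;> cases hxa : x i <;> simp_all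
        · rw [Function.update_of_ne hi]
          simp [Finset.mem_insert, hi]
  have h1 := key Finset.univ
  simp only [Finset.mem_univ, if_true] at h1
  exact h1.symm

lemma flip_eq_of_dir_zero (hJ : ∀ i j, J i j = J j i) {f : Cfg n → ℝ} (h : dir J b f f = 0)
    (x : Cfg n) (i : Fin n) : f (flip x i) = f x := by
  rw [dir_eq hJ] at h
  have hnn : ∀ i x, 0 ≤ gibbs J b x * gibbs J b (flip x i)
      / (gibbs J b x + gibbs J b (flip x i)) * ((f (flip x i) - f x) * (f (flip x i) - f x)) := by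
    intro i x
    have h1 := gibbs_pos J b x
    have h2 := gibbs_pos J b (flip x i)
    exact mul_nonneg (by positivity) (mul_self_nonneg _)
  have h1 : ∑ i, ∑ x, gibbs J b x * gibbs J b (flip x i)
      / (gibbs J b x + gibbs J b (flip x i)) * ((f (flip x i) - f x) * (f (flip x i) - f x)) = 0 := by
    linarith
  have h2 := (Finset.sum_eq_zero_iff_of_nonneg
    (fun i _ => Finset.sum_nonneg fun x _ => hnn i x)).1 h1 i (Finset.mem_univ i)
  have h3 := (Finset.sum_eq_zero_iff_of_nonneg (fun x _ => hnn i x)).1 h2 x (Finset.mem_univ x)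
  have h4 := gibbs_pos J b x
  have h5 := gibbs_pos J b (flip x i)
  have h6 : gibbs J b x * gibbs J b (flip x i) / (gibbs J b x + gibbs J b (flip x i)) ≠ 0 := by
    positivity
  have h7 := (mul_eq_zero.1 h3).resolve_left h6
  have h8 := mul_self_eq_zero.1 h7
  linarith

/-- existence of an optimal function for the spectral gap -/
lemma exists_minimiser (hJ : ∀ i j, J i j = J j i) (hn : 0 < n) :
    ∃ φ : Cfg n → ℝ, ex J b φ = 0 ∧ ex J b (fun x => φ x ^ 2) = 1 ∧
      (∀ f, dir J b φ φ * var J b f ≤ dir J b f f) ∧ gap J b = dir J b φ φ ∧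
      0 < dir J b φ φ := by
  obtain ⟨f0, hf0⟩ := exists_var_ne (J := J) b hn
  obtain ⟨φ, hφ, hmin⟩ := (isCompact_sphere0 (J := J) b).exists_isMinOn
    ⟨_, normalise_mem b hf0⟩ (continuous_dir b hJ).continuousOn
  have hle : ∀ f, var J b f ≠ 0 → dir J b φ φ * var J b f ≤ dir J b f f := by
    intro f hf
    have hv : 0 < var J b f := lt_of_le_of_ne (var_nonneg b f) (Ne.symm hf)
    have h1 := hmin (normalise_mem b hf)
    have h2 : dir J b φ φ ≤ dir J b (fun x => (Real.sqrt (var J b f))⁻¹ * (f x - ex J b f))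
      (fun x => (Real.sqrt (var J b f))⁻¹ * (f x - ex J b f)) := h1
    rw [dir_affine b hJ, inv_pow, Real.sq_sqrt hv.le] at h2
    rw [inv_mul_eq_div, le_div_iff₀ hv] at h2
    exact h2
  have hall : ∀ f, dir J b φ φ * var J b f ≤ dir J b f f := by
    intro f
    by_cases hf : var J b f = 0
    · rw [hf, mul_zero]; exact dir_self_nonneg b hJ f
    · exact hle f hf
  have hvφ : var J b φ = 1 := by
    rw [var_eq, hφ.1, hφ.2]; norm_num
  refine ⟨φ, hφ.1, hφ.2, hall, ?_, ?_⟩
  · unfold gap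
    apply IsLeast.csInf_eq
    constructor
    · exact ⟨φ, by rw [hvφ]; norm_num, by rw [hvφ, div_one]⟩
    · rintro r ⟨f, hf, rfl⟩
      have hv : 0 < var J b f := lt_of_le_of_ne (var_nonneg b f) (Ne.symm hf)
      rw [le_div_iff₀ hv]
      exact hall f
  · refine lt_of_le_of_ne (dir_self_nonneg b hJ φ) ?_
    intro h0
    have hc := const_of_flip (flip_eq_of_dir_zero b hJ h0.symm)
    set x0 : Cfg n := fun _ => true
    have h1 : φ = fun _ => φ x0 := funext fun x => hc x x0
    have h2 : ex J b φ = φ x0 := by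
      conv_lhs => rw [h1]
      exact ex_const b _
    rw [hφ.1] at h2
    have h3 : ex J b (fun x => φ x ^ 2) = 0 := by
      rw [h1, ← h2]
      have := ex_const (J := J) b (0 : ℝ)
      simpa using this
    rw [hφ.2] at h3
    exact one_ne_zero h3

lemma linear_coeff_zero {B D : ℝ} (h : ∀ s : ℝ, 0 ≤ 2 * s * B + s ^ 2 * D) : B = 0 := by
  by_contra hB
  have hD : 0 < |D| + 1 := by positivity
  have h1 := h (-(B / (|D| + 1)))
  have h2 : 0 < B ^ 2 := by positivity
  have h3 : D ≤ |D| := le_abs_self D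
  have h4 : 2 * -(B / (|D| + 1)) * B + (-(B / (|D| + 1))) ^ 2 * D
      = B ^ 2 / (|D| + 1) ^ 2 * (D - 2 * (|D| + 1)) := by
    field_simp
    ring
  rw [h4] at h1
  have h5 : 0 < B ^ 2 / (|D| + 1) ^ 2 := by (clear * - hB; positivity)
  have h6 : D - 2 * (|D| + 1) < 0 := by linarith only [abs_nonneg D, h3]
  have := mul_neg_of_pos_of_neg h5 h6
  linarith only [this, h1]

lemma dir_add_smul (hJ : ∀ i j, J i j = J j i) (f g : Cfg n → ℝ) (s : ℝ) :
    dir J b (fun x => f x + s * g x) (fun x => f x + s * g x)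
      = dir J b f f + 2 * s * dir J b f g + s ^ 2 * dir J b g g := by
  rw [dir_eq hJ, dir_eq hJ, dir_eq hJ, dir_eq hJ]
  simp only [Finset.mul_sum, ← Finset.sum_add_distrib]
  apply Finset.sum_congr rfl; intro i _
  apply Finset.sum_congr rfl; intro x _
  ring

/-- the optimal function is an eigenfunction -/
lemma exists_eigen (hJ : ∀ i j, J i j = J j i) (hn : 0 < n) :
    ∃ φ : Cfg n → ℝ, ex J b φ = 0 ∧ ex J b (fun x => φ x ^ 2) = 1 ∧
      dir J b φ φ = gap J b ∧ (∀ x, gen J b φ x = -gap J b * φ x) ∧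
      (∀ f, gap J b * var J b f ≤ dir J b f f) ∧ 0 < gap J b := by
  obtain ⟨φ, h0, h1, hall, hgap, hpos⟩ := exists_minimiser (J := J) b hJ hn
  refine ⟨φ, h0, h1, hgap.symm, ?_, by rw [hgap]; exact hall, by rw [hgap]; exact hpos⟩
  rw [hgap]
  set γ := dir J b φ φ with hγ
  have hEL : ∀ ψ : Cfg n → ℝ, dir J b φ ψ - γ * ex J b (fun x => φ x * ψ x) = 0 := by
    intro ψ
    apply linear_coeff_zero (D := dir J b ψ ψ - γ * var J b ψ)
    intro s
    have h2 := hall (fun x => φ x + s * ψ x)
    rw [dir_add_smul b hJ, var_eq, ex_add b φ (fun x => s * ψ x), ex_smul, h0, zero_add] at h2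
    have h3 : ex J b (fun x => (φ x + s * ψ x) ^ 2)
        = 1 + 2 * s * ex J b (fun x => φ x * ψ x) + s ^ 2 * ex J b (fun x => ψ x ^ 2) := by
      have e : ∀ x, (φ x + s * ψ x) ^ 2
          = φ x ^ 2 + ((2 * s) * (φ x * ψ x) + s ^ 2 * ψ x ^ 2) := by intro x; ring
      simp only [e]
      rw [ex_add b (fun x => φ x ^ 2) (fun x => (2 * s) * (φ x * ψ x) + s ^ 2 * ψ x ^ 2),
        ex_add b (fun x => (2 * s) * (φ x * ψ x)) (fun x => s ^ 2 * ψ x ^ 2),
        ex_smul b (2 * s) (fun x => φ x * ψ x), ex_smul b (s ^ 2) (fun x => ψ x ^ 2), h1]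
      ring
    rw [h3] at h2
    rw [var_eq]
    have : 2 * s * (dir J b φ ψ - γ * ex J b (fun x => φ x * ψ x))
        + s ^ 2 * (dir J b ψ ψ - γ * (ex J b (fun x => ψ x ^ 2) - ex J b ψ ^ 2))
        = (γ + 2 * s * dir J b φ ψ + s ^ 2 * dir J b ψ ψ)
          - γ * (1 + 2 * s * ex J b (fun x => φ x * ψ x) + s ^ 2 * ex J b (fun x => ψ x ^ 2)
            - (s * ex J b ψ) ^ 2) := by ring
    rw [this]
    linarith only [h2]
  intro x
  have h2 := hEL (fun y => if y = x then 1 else 0)
  rw [dir_symm b hJ] at h2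
  unfold dir ex at h2
  rw [Finset.sum_eq_single x, Finset.sum_eq_single x] at h2
  · simp only [if_true, one_mul, mul_one] at h2
    have hg := gibbs_pos J b x
    have h3 : gibbs J b x * (gen J b φ x + γ * φ x) = 0 := by linarith
    have h4 := (mul_eq_zero.1 h3).resolve_left hg.ne'
    linarith
  · intro y _ hy; simp [hy]
  · simp
  · intro y _ hy; simp [hy]
  · simp

theorem gap_pos (hJ : ∀ i j, J i j = J j i) (hn : 0 < n) : 0 < gap J b := by
  obtain ⟨φ, _, _, _, _, _, h⟩ := exists_eigen (J := J) b hJ hn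
  exact h

theorem gap_mul_var_le (hJ : ∀ i j, J i j = J j i) (f : Cfg n → ℝ) :
    gap J b * var J b f ≤ dir J b f f := by
  rcases Nat.eq_zero_or_pos n with hn | hn
  · subst hn
    have h1 : var J b f = 0 := by
      have hc : ∀ x, f x = ex J b f := by
        intro x
        have : f = fun _ => f x := funext fun y => by congr 1; exact Subsingleton.elim _ _
        conv_rhs => rw [this]
        rw [ex_const]
      unfold var
      have h2 : (fun x => (f x - ex J b f) ^ 2) = fun _ => 0 := by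
        funext x; rw [hc x]; ring
      rw [h2, ex_const]
    rw [h1, mul_zero]
    exact dir_self_nonneg b hJ f
  · obtain ⟨φ, _, _, _, _, h, _⟩ := exists_eigen (J := J) b hJ hn
    exact h f

end Vale.Agent.P150.Semi
end

section

open Finset Filter Topology Set

namespace Vale.Agent.P150.Semi

variable {n : ℕ} {J : Fin n → Fin n → ℝ} (b : Fin n → ℝ)

/-- if `gap = 0`-type lower bound `γ var ≤ dir` holds then mean-zero flows decay in `L²` -/
lemma l2_decay (hJ : ∀ i j, J i j = J j i) (γ : ℝ)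
    (hP : ∀ f : Cfg n → ℝ, γ * var J b f ≤ dir J b f f)
    (u : ℝ → Cfg n → ℝ)
    (hu : ∀ t x, HasDerivAt (fun s => u s x) (gen J b (u t) x) t)
    (hmean : ∀ t, ex J b (u t) = 0) (t : ℝ) (ht : 0 ≤ t) :
    ex J b (fun x => u t x ^ 2) ≤ Real.exp (-(2 * γ * t)) * ex J b (fun x => u 0 x ^ 2) := by
  set F : ℝ → ℝ := fun s => Real.exp (2 * γ * s) * ex J b (fun x => u s x ^ 2) with hF
  have hd : ∀ s, HasDerivAt F (Real.exp (2 * γ * s) * (2 * γ * 1) * ex J b (fun x => u s x ^ 2)
      + Real.exp (2 * γ * s) * (-(2 * dir J b (u s) (u s)))) s := by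
    intro s
    have h1 : HasDerivAt (fun s => ex J b (fun x => u s x ^ 2))
        (ex J b (fun x => (2 : ℕ) * u s x ^ (2 - 1) * gen J b (u s) x)) s := by
      apply ex_deriv b (fun s x => u s x ^ 2)
      intro x
      exact (hu s x).pow 2
    have h2 : ex J b (fun x => ((2 : ℕ) : ℝ) * u s x ^ (2 - 1) * gen J b (u s) x)
        = -(2 * dir J b (u s) (u s)) := by
      unfold dir
      rw [mul_neg, neg_neg, ← ex_smul b 2 (fun x => u s x * gen J b (u s) x)]
      congr 1
      funext x
      norm_num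
      ring
    rw [h2] at h1
    exact (((hasDerivAt_id s).const_mul (2 * γ)).exp).mul h1
  have hanti : Antitone F := by
    apply antitone_of_deriv_nonpos
    · intro s; exact (hd s).differentiableAt
    · intro s
      rw [(hd s).deriv]
      have h1 := hP (u s)
      rw [var_eq, hmean s] at h1
      have h2 := Real.exp_pos (2 * γ * s)
      have h3 : γ * ex J b (fun x => u s x ^ 2) ≤ dir J b (u s) (u s) := by
        have : ex J b (fun x => u s x ^ 2) - 0 ^ 2 = ex J b (fun x => u s x ^ 2) := by ring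
        rwa [this] at h1
      have h4 := mul_le_mul_of_nonneg_left h3 h2.le
      linarith
  have h0 := hanti ht
  have h1 : F t = Real.exp (2 * γ * t) * ex J b (fun x => u t x ^ 2) := rfl
  have h2 : F 0 = ex J b (fun x => u 0 x ^ 2) := by simp [hF]
  rw [h1, h2] at h0
  have h3 : Real.exp (-(2 * γ * t)) * Real.exp (2 * γ * t) = 1 := by
    rw [← Real.exp_add]; simp
  calc ex J b (fun x => u t x ^ 2)
      = Real.exp (-(2 * γ * t)) * (Real.exp (2 * γ * t) * ex J b (fun x => u t x ^ 2)) := by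
        rw [← mul_assoc, h3, one_mul]
    _ ≤ Real.exp (-(2 * γ * t)) * ex J b (fun x => u 0 x ^ 2) :=
        mul_le_mul_of_nonneg_left h0 (Real.exp_pos _).le

lemma ex_dens_sub (x : Cfg n) (t : ℝ) : ex J b (fun y => dens J b x t y - 1) = 0 := by
  have h := ex_add (J := J) b (dens J b x t) (fun _ => -1)
  rw [ex_dens, ex_const] at h
  simp only [← sub_eq_add_neg] at h
  rw [h]; norm_num

/-- `L²` bound on the total variation distance -/
lemma tv_sq_le (hJ : ∀ i j, J i j = J j i) (γ : ℝ)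
    (hP : ∀ f : Cfg n → ℝ, γ * var J b f ≤ dir J b f f) (x : Cfg n) (t : ℝ) (ht : 0 ≤ t) :
    (2 * tvDist J b t x) ^ 2 ≤ Real.exp (-(2 * γ * t)) * (gibbs J b x)⁻¹ := by
  have h1 := l2_decay b hJ γ hP (fun s y => dens J b x s y - 1)
    (by
      intro s y
      have h2 := (dens_deriv b hJ x s y).sub_const 1
      have h3 : gen J b (fun y => dens J b x s y - 1) y = gen J b (dens J b x s) y := by
        have := gen_add J b (dens J b x s) (fun _ => -1) y
        rw [gen_const, add_zero] at this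
        simpa only [← sub_eq_add_neg] using this
      rw [h3]
      exact h2) (ex_dens_sub b x) t ht
  have h4 : ex J b (fun y => (dens J b x 0 y - 1) ^ 2) ≤ (gibbs J b x)⁻¹ := by
    have e : ∀ y, (dens J b x 0 y - 1) ^ 2
        = dens J b x 0 y ^ 2 + ((-2) * dens J b x 0 y + 1) := by intro y; ring
    simp only [e]
    rw [ex_add b (fun y => dens J b x 0 y ^ 2) (fun y => (-2) * dens J b x 0 y + 1),
      ex_add b (fun y => (-2) * dens J b x 0 y) (fun _ => 1), ex_smul b (-2) (dens J b x 0),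
      ex_dens, ex_const]
    have h5 : ex J b (fun y => dens J b x 0 y ^ 2) = (gibbs J b x)⁻¹ := by
      unfold ex
      simp only [dens_zero]
      rw [Finset.sum_eq_single x]
      · have hg := (gibbs_pos J b x).ne'
        rw [if_pos rfl]
        field_simp
      · intro y _ hy
        rw [if_neg (Ne.symm hy)]
        simp
      · simp
    rw [h5]
    linarith
  have h6 : (∑ y, gibbs J b y * |dens J b x t y - 1|) ^ 2
      ≤ ex J b (fun y => (dens J b x t y - 1) ^ 2) := by
    have hs := gibbs_sum J b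
    have : ex J b (fun y => (dens J b x t y - 1) ^ 2)
        = (∑ y, gibbs J b y) * ∑ y, gibbs J b y * (dens J b x t y - 1) ^ 2 := by
      rw [hs, one_mul]; rfl
    rw [this]
    apply Finset.sum_sq_le_sum_mul_sum_of_sq_le_mul
    · intro y _; exact (gibbs_pos J b y).le
    · intro y _; exact mul_nonneg (gibbs_pos J b y).le (sq_nonneg _)
    · intro y _
      rw [mul_pow, sq_abs]
      apply le_of_eq; ring
  rw [tvDist_eq]
  have h7 : 2 * (1 / 2 * ∑ y, gibbs J b y * |dens J b x t y - 1|)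
      = ∑ y, gibbs J b y * |dens J b x t y - 1| := by ring
  rw [h7]
  exact (h6.trans h1).trans (mul_le_mul_of_nonneg_left h4 (Real.exp_pos _).le)

/-- the set defining the mixing time is nonempty -/
lemma tmix_set_nonempty (hJ : ∀ i j, J i j = J j i) (hn : 0 < n) :
    {t : ℝ | 0 ≤ t ∧ ∀ x, tvDist J b t x ≤ 1 / 4}.Nonempty := by
  have hγ := gap_pos (J := J) b hJ hn
  have hP := gap_mul_var_le (J := J) b hJ
  have hlim : ∀ x : Cfg n, Tendsto (fun t : ℝ => Real.exp (-(2 * gap J b * t)) * (gibbs J b x)⁻¹)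
      atTop (𝓝 0) := by
    intro x
    have h1 : Tendsto (fun t : ℝ => 2 * gap J b * t) atTop atTop :=
      tendsto_id.const_mul_atTop (by linarith only [hγ])
    have h2 := (Real.tendsto_exp_neg_atTop_nhds_zero.comp h1).mul_const (gibbs J b x)⁻¹
    rw [zero_mul] at h2
    exact h2
  have hev : ∀ᶠ t : ℝ in atTop, ∀ x : Cfg n,
      Real.exp (-(2 * gap J b * t)) * (gibbs J b x)⁻¹ < 1 / 4 := by
    rw [Filter.eventually_all]
    intro x
    exact (hlim x).eventually_lt_const (by norm_num)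
  obtain ⟨t, ht, ht0⟩ := (hev.and (eventually_ge_atTop (0 : ℝ))).exists
  refine ⟨t, ht0, fun x => ?_⟩
  have h1 := tv_sq_le b hJ (gap J b) hP x t ht0
  have h2 : (2 * tvDist J b t x) ^ 2 ≤ (1 / 2) ^ 2 := by
    have := ht x
    norm_num at this ⊢
    linarith only [h1, this]
  have h3 := abs_le_of_sq_le_sq' h2 (by norm_num)
  linarith only [h3.2]

lemma log_two_le_of_mem (hJ : ∀ i j, J i j = J j i) (hn : 0 < n) (t : ℝ)
    (htv : ∀ x, tvDist J b t x ≤ 1 / 4) : Real.log 2 ≤ gap J b * t := by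
  obtain ⟨φ, h0, h1, _, h3, _, _⟩ := exists_eigen (J := J) b hJ hn
  obtain ⟨x, hx⟩ := Finite.exists_max (fun x => |φ x|)
  have hxpos : 0 < |φ x| := by
    rcases (abs_nonneg (φ x)).eq_or_lt with h | h
    · exfalso
      have hz : ∀ y, φ y = 0 := by
        intro y
        have := hx y
        rw [← h] at this
        exact abs_eq_zero.1 (le_antisymm this (abs_nonneg _))
      have : ex J b (fun x => φ x ^ 2) = 0 := by
        simp only [hz]
        have := ex_const (J := J) b (0 : ℝ)
        simpa using this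
      rw [h1] at this
      exact one_ne_zero this
    · exact h
  have h4 := kernel_eigen J b φ (-gap J b) h3 t x
  have h5 : ∑ y, kernel J b t x y * φ y = ∑ y, (kernel J b t x y - gibbs J b y) * φ y := by
    unfold ex at h0
    simp only [sub_mul, Finset.sum_sub_distrib]
    rw [h0, sub_zero]
  have h6 : |∑ y, (kernel J b t x y - gibbs J b y) * φ y| ≤ 2 * tvDist J b t x * |φ x| := by
    refine (Finset.abs_sum_le_sum_abs _ _).trans ?_
    unfold tvDist
    have : 2 * (1 / 2 * ∑ y, |kernel J b t x y - gibbs J b y|) * |φ x|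
        = ∑ y, |kernel J b t x y - gibbs J b y| * |φ x| := by
      rw [← Finset.sum_mul]; ring
    rw [this]
    apply Finset.sum_le_sum
    intro y _
    rw [abs_mul]
    exact mul_le_mul_of_nonneg_left (hx y) (abs_nonneg _)
  rw [← h5, h4, abs_mul, abs_of_pos (Real.exp_pos _)] at h6
  have h7 : 2 * tvDist J b t x * |φ x| ≤ (1 / 2) * |φ x| :=
    mul_le_mul_of_nonneg_right (by linarith only [htv x]) hxpos.le
  have h8 : Real.exp (-gap J b * t) ≤ 1 / 2 := le_of_mul_le_mul_right (h6.trans h7) hxpos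
  have h9 := Real.log_le_log (Real.exp_pos _) h8
  rw [Real.log_exp, one_div, Real.log_inv] at h9
  linarith only [h9]

/-- (S2) the mixing time is at least `log 2` times the relaxation time -/
theorem log_two_le (hJ : ∀ i j, J i j = J j i) (hn : 0 < n) :
    Real.log 2 ≤ gap J b * tmix J b := by
  have hγ := gap_pos (J := J) b hJ hn
  have h1 : Real.log 2 / gap J b ≤ tmix J b := by
    unfold tmix
    apply le_csInf (tmix_set_nonempty b hJ hn)
    rintro t ⟨_, ht⟩
    rw [div_le_iff₀ hγ]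
    have := log_two_le_of_mem b hJ hn t ht
    linarith only [this]
  rw [div_le_iff₀ hγ] at h1
  linarith only [h1]

theorem tmix_pos (hJ : ∀ i j, J i j = J j i) (hn : 0 < n) : 0 < tmix J b := by
  have h1 := log_two_le (J := J) b hJ hn
  have h2 := gap_pos (J := J) b hJ hn
  have h3 : 0 < Real.log 2 := Real.log_pos (by norm_num)
  by_contra h
  push Not at h
  have := mul_nonpos_of_nonneg_of_nonpos h2.le h
  linarith only [this, h3, h1]

end Vale.Agent.P150.Semi
end

section

namespace Vale.Agent.P150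

/-- the mixing time is at least `log 2` times the relaxation time -/
theorem log_two_le {n : ℕ} (hn : 0 < n) {J : Fin n → Fin n → ℝ} (hJs : ∀ i j, J i j = J j i)
    (b : Fin n → ℝ) : Real.log 2 ≤ gap J b * tmix J b :=
  Semi.log_two_le b hJs hn

/-- the spectral gap is positive -/
theorem gap_pos {n : ℕ} (hn : 0 < n) {J : Fin n → Fin n → ℝ} (hJs : ∀ i j, J i j = J j i)
    (b : Fin n → ℝ) : 0 < gap J b :=
  Semi.gap_pos b hJs hn

/-- mixing time lower bound from an upper bound on the gap -/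
theorem tmix_ge {n : ℕ} (hn : 0 < n) {J : Fin n → Fin n → ℝ} (hJs : ∀ i j, J i j = J j i)
    (b : Fin n → ℝ) {a : ℝ} (ha : 0 < a) (h : gap J b ≤ a) : Real.log 2 / a ≤ tmix J b := by
  have h1 := log_two_le hn hJs b
  have h2 := Semi.tmix_pos (J := J) b hJs hn
  rw [div_le_iff₀ ha, mul_comm]
  exact h1.trans (mul_le_mul_of_nonneg_right h h2.le)

end Vale.Agent.P150
end

section

open Finset

namespace Vale.Agent.P150.Low

variable {n : ℕ} {J : Fin n → Fin n → ℝ} (b : Fin n → ℝ)

lemma gen_deriv (u : ℝ → Cfg n → ℝ) (v : Cfg n → ℝ) (t : ℝ)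
    (hu : ∀ x, HasDerivAt (fun s => u s x) (v x) t) (x : Cfg n) :
    HasDerivAt (fun s => gen J b (u s) x) (gen J b v x) t := by
  have h : HasDerivAt (fun s => ∑ y, genMat J b x y * u s y) (∑ y, genMat J b x y * v y) t := by
    apply HasDerivAt.fun_sum
    intro y _
    exact (hu y).const_mul _
  rw [Semi.genMat_mul] at h
  simp only [Semi.genMat_mul] at h
  exact h

lemma ex_cs (f g : Cfg n → ℝ) :
    ex J b (fun x => f x * g x) ^ 2 ≤ ex J b (fun x => f x ^ 2) * ex J b (fun x => g x ^ 2) := by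
  have h := Finset.sum_mul_sq_le_sq_mul_sq Finset.univ
    (fun x : Cfg n => Real.sqrt (gibbs J b x) * f x) (fun x => Real.sqrt (gibbs J b x) * g x)
  have e : ∀ x, Real.sqrt (gibbs J b x) ^ 2 = gibbs J b x := fun x =>
    Real.sq_sqrt (gibbs_pos J b x).le
  unfold ex
  calc (∑ x, gibbs J b x * (f x * g x)) ^ 2
      = (∑ x, Real.sqrt (gibbs J b x) * f x * (Real.sqrt (gibbs J b x) * g x)) ^ 2 := by
        congr 1
        apply Finset.sum_congr rfl; intro x _
        calc gibbs J b x * (f x * g x) = Real.sqrt (gibbs J b x) ^ 2 * (f x * g x) := by rw [e x]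
          _ = Real.sqrt (gibbs J b x) * f x * (Real.sqrt (gibbs J b x) * g x) := by ring
    _ ≤ _ := h
    _ = _ := by
        congr 1
        · apply Finset.sum_congr rfl; intro x _
          rw [mul_pow, e x]
        · apply Finset.sum_congr rfl; intro x _
          rw [mul_pow, e x]

lemma dir_le_ex (hJ : ∀ i j, J i j = J j i) (f : Cfg n → ℝ) :
    dir J b f f ≤ 2 * n * ex J b (fun x => f x ^ 2) := by
  rw [dir_eq hJ]
  have h1 : ∀ i : Fin n, ∑ x, gibbs J b x * gibbs J b (flip x i)
      / (gibbs J b x + gibbs J b (flip x i)) * ((f (flip x i) - f x) * (f (flip x i) - f x))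
      ≤ 4 * ex J b (fun x => f x ^ 2) := by
    intro i
    have h2 : ∑ x, 2 * (gibbs J b (flip x i) * f (flip x i) ^ 2)
        = 2 * ex J b (fun x => f x ^ 2) := by
      rw [sum_flip i (fun x => 2 * (gibbs J b x * f x ^ 2))]
      unfold ex
      rw [Finset.mul_sum]
    have h3 : ∑ x, 2 * (gibbs J b x * f x ^ 2) = 2 * ex J b (fun x => f x ^ 2) := by
      unfold ex
      rw [Finset.mul_sum]
    calc ∑ x, gibbs J b x * gibbs J b (flip x i)
      / (gibbs J b x + gibbs J b (flip x i)) * ((f (flip x i) - f x) * (f (flip x i) - f x))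
        ≤ ∑ x, (2 * (gibbs J b (flip x i) * f (flip x i) ^ 2) + 2 * (gibbs J b x * f x ^ 2)) := by
          apply Finset.sum_le_sum; intro x _
          have g1 := gibbs_pos J b x
          have g2 := gibbs_pos J b (flip x i)
          set p := gibbs J b x
          set q := gibbs J b (flip x i)
          set c := f (flip x i)
          set d := f x
          have w1 : p * q / (p + q) ≤ p := by
            rw [div_le_iff₀ (by (clear * - g1 g2; positivity))]; linarith only [mul_pos (sub_pos.2 g1) (sub_pos.2 g1)]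
          have w2 : p * q / (p + q) ≤ q := by
            rw [div_le_iff₀ (by positivity)]; linarith only [mul_pos (sub_pos.2 g2) (sub_pos.2 g2)]
          have w0 : 0 < p * q / (p + q) := by (clear * - g1 g2; positivity)
          have h4 : (c - d) * (c - d) ≤ 2 * c ^ 2 + 2 * d ^ 2 := by linarith only [sq_nonneg (c + d)]
          calc p * q / (p + q) * ((c - d) * (c - d))
              ≤ p * q / (p + q) * (2 * c ^ 2 + 2 * d ^ 2) :=
                mul_le_mul_of_nonneg_left h4 w0.le
            _ = 2 * (p * q / (p + q) * c ^ 2) + 2 * (p * q / (p + q) * d ^ 2) := by ring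
            _ ≤ 2 * (q * c ^ 2) + 2 * (p * d ^ 2) := by
                have := mul_le_mul_of_nonneg_right w2 (sq_nonneg c)
                have := mul_le_mul_of_nonneg_right w1 (sq_nonneg d)
                linarith
      _ = _ := by
          rw [Finset.sum_add_distrib, h2, h3]; ring
  calc (1 / 2 : ℝ) * ∑ i : Fin n, ∑ x, gibbs J b x * gibbs J b (flip x i)
      / (gibbs J b x + gibbs J b (flip x i)) * ((f (flip x i) - f x) * (f (flip x i) - f x))
      ≤ (1 / 2) * ∑ _i : Fin n, 4 * ex J b (fun x => f x ^ 2) :=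
        mul_le_mul_of_nonneg_left (Finset.sum_le_sum fun i _ => h1 i) (by norm_num)
    _ = _ := by
        rw [Finset.sum_const, Finset.card_univ, Fintype.card_fin, nsmul_eq_mul]; ring

/-- the second moment along the flow decays at most at the initial rate -/
theorem second_moment_flow (hJ : ∀ i j, J i j = J j i) (f : Cfg n → ℝ)
    (hA0 : 0 < ex J b (fun x => f x ^ 2)) (t : ℝ) (ht : 0 ≤ t) :
    Real.exp (-(2 * (dir J b f f / ex J b (fun x => f x ^ 2)) * t)) * ex J b (fun x => f x ^ 2)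
      ≤ ex J b (fun x => Pt J b t f x ^ 2) := by
  set A : ℝ → ℝ := fun s => ex J b (fun x => Pt J b s f x ^ 2) with hA
  set B : ℝ → ℝ := fun s => dir J b (Pt J b s f) (Pt J b s f) with hB
  set C : ℝ → ℝ := fun s => ex J b (fun x => gen J b (Pt J b s f) x ^ 2) with hC
  have dA : ∀ s, HasDerivAt A (-(2 * B s)) s := by
    intro s
    have h1 := Semi.ex_deriv (J := J) b (fun s x => Pt J b s f x ^ 2)
      (fun x => (2 : ℕ) * Pt J b s f x ^ (2 - 1) * gen J b (Pt J b s f) x) s
      (fun x => (Pt_deriv b f s x).pow 2)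
    have e : ex J b (fun x => (2 : ℕ) * Pt J b s f x ^ (2 - 1) * gen J b (Pt J b s f) x)
        = -(2 * B s) := by
      simp only [hB, dir]
      rw [mul_neg, neg_neg, ← Semi.ex_smul]
      congr 1
      ext x
      push_cast
      ring
    rw [e] at h1
    exact h1
  have dB : ∀ s, HasDerivAt B (-(2 * C s)) s := by
    intro s
    have h1 := Semi.ex_deriv (J := J) b (fun s x => Pt J b s f x * gen J b (Pt J b s f) x)
      (fun x => gen J b (Pt J b s f) x * gen J b (Pt J b s f) x
        + Pt J b s f x * gen J b (gen J b (Pt J b s f)) x) s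
      (fun x => (Pt_deriv b f s x).mul (gen_deriv b (fun s => Pt J b s f) _ s
        (fun y => Pt_deriv b f s y) x))
    have e : ex J b (fun x => gen J b (Pt J b s f) x * gen J b (Pt J b s f) x
        + Pt J b s f x * gen J b (gen J b (Pt J b s f)) x) = 2 * C s := by
      rw [Semi.ex_add]
      have h2 := Semi.dir_symm b hJ (Pt J b s f) (gen J b (Pt J b s f))
      unfold dir at h2
      have h3 : ex J b (fun x => Pt J b s f x * gen J b (gen J b (Pt J b s f)) x)
          = ex J b (fun x => gen J b (Pt J b s f) x * gen J b (Pt J b s f) x) := by linarith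
      rw [h3, hC]
      have h4 : (fun x => gen J b (Pt J b s f) x * gen J b (Pt J b s f) x)
          = fun x => gen J b (Pt J b s f) x ^ 2 := by ext x; ring
      rw [h4]; ring
    rw [e] at h1
    exact h1.neg
  have hAnn : ∀ s, 0 ≤ A s := fun s => Semi.ex_nonneg b fun x => sq_nonneg _
  have hBnn : ∀ s, 0 ≤ B s := fun s => Semi.dir_self_nonneg b hJ _
  have hA0' : 0 < A 0 := by simp only [hA, Pt_zero]; exact hA0
  -- positivity of A
  have hApos : ∀ s, 0 < A s := by
    intro s
    rcases le_total 0 s with hs | hs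
    · have hm : Monotone (fun s => Real.exp (4 * n * s) * A s) := by
        apply monotone_of_hasDerivAt_nonneg (f' := fun s => Real.exp (4 * n * s) * (4 * n * 1) * A s
            + Real.exp (4 * n * s) * (-(2 * B s)))
        · intro s
          exact (((hasDerivAt_id s).const_mul (4 * (n : ℝ))).exp).mul (dA s)
        · intro s
          have h1 := dir_le_ex b hJ (Pt J b s f)
          have h2 : B s ≤ 2 * n * A s := h1
          have h3 : Real.exp (4 * n * s) * (4 * n * 1) * A s
            + Real.exp (4 * n * s) * (-(2 * B s))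
              = Real.exp (4 * n * s) * (2 * (2 * n * A s - B s)) := by ring
          change 0 ≤ Real.exp (4 * n * s) * (4 * n * 1) * A s
            + Real.exp (4 * n * s) * (-(2 * B s))
          rw [h3]
          apply mul_nonneg (Real.exp_pos _).le
          linarith only [h2]
      have h1 := hm hs
      simp only [mul_zero, Real.exp_zero, one_mul] at h1
      have h2 : 0 < Real.exp (4 * n * s) * A s := lt_of_lt_of_le hA0' h1
      exact pos_of_mul_pos_right h2 (Real.exp_pos _).le
    · have hm : Antitone A := by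
        apply antitone_of_hasDerivAt_nonpos dA
        intro s
        have := hBnn s
        change -(2 * B s) ≤ 0
        linarith
      exact lt_of_lt_of_le hA0' (hm hs)
  -- the Rayleigh quotient decreases
  have hR : Antitone (fun s => B s / A s) := by
    apply antitone_of_hasDerivAt_nonpos (f' := fun s =>
      (-(2 * C s) * A s - B s * (-(2 * B s))) / A s ^ 2)
    · intro s
      exact (dB s).div (dA s) (hApos s).ne'
    · intro s
      change (-(2 * C s) * A s - B s * (-(2 * B s))) / A s ^ 2 ≤ 0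
      apply div_nonpos_of_nonpos_of_nonneg _ (sq_nonneg _)
      have h1 := ex_cs (J := J) b (Pt J b s f) (gen J b (Pt J b s f))
      have h2 : B s ^ 2 ≤ A s * C s := by
        simp only [hB, hA, hC, dir]
        rw [neg_sq]; exact h1
      linarith only [h2]
  set R0 : ℝ := dir J b f f / ex J b (fun x => f x ^ 2) with hR0
  have hR0' : B 0 / A 0 = R0 := by simp only [hA, hB, hR0, Pt_zero]
  have hmon : MonotoneOn (fun s => Real.exp (2 * R0 * s) * A s) (Set.Ici 0) := by
    have hdiff : ∀ s, HasDerivAt (fun s => Real.exp (2 * R0 * s) * A s)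
        (Real.exp (2 * R0 * s) * (2 * R0 * 1) * A s + Real.exp (2 * R0 * s) * (-(2 * B s))) s :=
      fun s => (((hasDerivAt_id s).const_mul (2 * R0)).exp).mul (dA s)
    apply monotoneOn_of_deriv_nonneg (convex_Ici 0)
    · exact fun s _ => (hdiff s).continuousAt.continuousWithinAt
    · exact fun s _ => (hdiff s).differentiableAt.differentiableWithinAt
    · intro s hs
      rw [interior_Ici, Set.mem_Ioi] at hs
      rw [(hdiff s).deriv]
      have h1 := hR hs.le
      simp only at h1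
      rw [hR0', div_le_iff₀ (hApos s)] at h1
      have h3 : Real.exp (2 * R0 * s) * (2 * R0 * 1) * A s + Real.exp (2 * R0 * s) * (-(2 * B s))
          = Real.exp (2 * R0 * s) * (2 * (R0 * A s - B s)) := by ring
      rw [h3]
      apply mul_nonneg (Real.exp_pos _).le
      linarith only [h1]
  have h1 := hmon Set.self_mem_Ici ht ht
  simp only [mul_zero, Real.exp_zero, one_mul] at h1
  have h2 : A 0 = ex J b (fun x => f x ^ 2) := by simp only [hA, Pt_zero]
  rw [h2] at h1
  calc Real.exp (-(2 * R0 * t)) * ex J b (fun x => f x ^ 2)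
      ≤ Real.exp (-(2 * R0 * t)) * (Real.exp (2 * R0 * t) * A t) :=
        mul_le_mul_of_nonneg_left h1 (Real.exp_pos _).le
    _ = A t := by
        rw [← mul_assoc, ← Real.exp_add, neg_add_cancel, Real.exp_zero, one_mul]

/-- reversibility -/
lemma ex_mul_Pt (hJ : ∀ i j, J i j = J j i) (f : Cfg n → ℝ) (t : ℝ) :
    ex J b (fun x => f x * Pt J b t f x) = ex J b (fun x => Pt J b (t / 2) f x ^ 2) := by
  have hd : ∀ s, HasDerivAt (fun s => ex J b (fun x => Pt J b s f x * Pt J b (t - s) f x)) 0 s := by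
    intro s
    have h1 := Semi.ex_deriv (J := J) b (fun s x => Pt J b s f x * Pt J b (t - s) f x)
      (fun x => gen J b (Pt J b s f) x * Pt J b (t - s) f x
        + Pt J b s f x * (gen J b (Pt J b (t - s) f) x * (-1))) s
      (by
        intro x
        have h2 : HasDerivAt (fun s => Pt J b (t - s) f x)
            (gen J b (Pt J b (t - s) f) x * (-1)) s := by
          have h3 : HasDerivAt (fun s : ℝ => t - s) (-1) s := by
            simpa using (hasDerivAt_id s).const_sub t
          exact (Pt_deriv b f (t - s) x).comp s h3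
        exact (Pt_deriv b f s x).mul h2)
    have e : ex J b (fun x => gen J b (Pt J b s f) x * Pt J b (t - s) f x
        + Pt J b s f x * (gen J b (Pt J b (t - s) f) x * (-1))) = 0 := by
      have h2 := Semi.dir_symm b hJ (Pt J b (t - s) f) (Pt J b s f)
      unfold dir at h2
      have h3 : (fun x => gen J b (Pt J b s f) x * Pt J b (t - s) f x
        + Pt J b s f x * (gen J b (Pt J b (t - s) f) x * (-1)))
        = fun x => (Pt J b (t - s) f x * gen J b (Pt J b s f) x)
          + (-1) * (Pt J b s f x * gen J b (Pt J b (t - s) f) x) := by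
        ext x; ring
      rw [h3, Semi.ex_add, Semi.ex_smul b (-1)]
      linarith
    rw [e] at h1
    exact h1
  have hconst := is_const_of_deriv_eq_zero (fun s => (hd s).differentiableAt)
    (fun s => (hd s).deriv) 0 (t / 2)
  simp only [Pt_zero, sub_zero] at hconst
  rw [hconst]
  congr 1
  ext x
  rw [show t - t / 2 = t / 2 by ring]
  ring

/-- lower bound on the autocorrelation of one spin -/
theorem auto_spin (hJ : ∀ i j, J i j = J j i) (t : ℝ) (ht : 0 ≤ t) (i : Fin n) :
    Real.exp (-t) ≤ ex J b (fun x => sp (x i) * Pt J b t (fun y => sp (y i)) x) := by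
  rw [ex_mul_Pt b hJ (fun y => sp (y i)) t]
  have h1 : ex J b (fun x => sp (x i) ^ 2) = 1 := by
    have : (fun x : Cfg n => sp (x i) ^ 2) = fun _ => (1 : ℝ) := by
      ext x
      rw [pow_two]; exact sp_sq (x i)
    rw [this, Semi.ex_const]
  have h2 := second_moment_flow b hJ (fun y => sp (y i)) (by rw [h1]; norm_num) (t / 2)
    (by linarith only [ht])
  rw [h1, mul_one, div_one] at h2
  refine le_trans ?_ h2
  apply Real.exp_le_exp.2
  have h3 := Poinc.dir_lin_le J b hJ (fun j => if j = i then 1 else 0)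
  have h4 : (fun x : Cfg n => ∑ j, (if j = i then (1 : ℝ) else 0) * sp (x j))
      = fun x => sp (x i) := by ext x; simp
  rw [h4] at h3
  have h5 : (∑ j, (if j = i then (1 : ℝ) else 0) ^ 2) = 1 := by simp
  rw [h5] at h3
  have h6 : 2 * dir J b (fun y => sp (y i)) (fun y => sp (y i)) * (t / 2)
      ≤ 1 * t := by
    have := mul_le_mul_of_nonneg_right h3 ht
    linarith only [this]
  linarith only [h6]

end Vale.Agent.P150.Low
end

section

/-! P150 FULL, D6: lemmas on the schedule: clocks, kinds, the parameter `r`, the multiple of the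
identity. (Matrix lemmas are in `SchedLem2`.) -/

open MeasureTheory ProbabilityTheory Filter Topology
open scoped Matrix

namespace Vale.Agent.P150.F

namespace SPar

variable {n : ℕ} (p : SPar n)

/-! ### (1) clocks -/

theorem q_pos' : (0 : ℝ) < p.q := by exact_mod_cast p.hq

theorem dl_pos : 0 < p.dl := by unfold dl; have := p.q_pos'; positivity

theorem dl_le_one : p.dl ≤ 1 := by
  unfold dl
  rw [div_le_one p.q_pos']
  exact_mod_cast p.hq

theorem th_nonneg (f k : ℕ) : 0 ≤ p.th f k := by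
  unfold th; positivity

theorem th_le_one (f k : ℕ) : p.th f k ≤ 1 := by
  unfold th
  rw [div_le_one p.q_pos']
  exact_mod_cast min_le_right _ _

theorem th_eq_zero {f k : ℕ} (h : k ≤ f * p.q) : p.th f k = 0 := by
  unfold th
  rw [Nat.sub_eq_zero_of_le h]
  simp

theorem th_eq_one {f k : ℕ} (h : (f + 1) * p.q ≤ k) : p.th f k = 1 := by
  unfold th
  have h1 : p.q ≤ k - f * p.q := by
    rw [Nat.add_mul, one_mul] at h; omega
  rw [min_eq_right h1]
  exact div_self p.q_pos'.ne'

theorem div_eq_iff_level {f k : ℕ} : k / p.q = f ↔ f * p.q ≤ k ∧ k < (f + 1) * p.q := by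
  rw [Nat.div_eq_iff p.hq, Nat.add_mul, one_mul]
  have := p.hq
  constructor
  · rintro ⟨h1, h2⟩; constructor <;> omega
  · rintro ⟨h1, h2⟩; constructor <;> omega

theorem th_succ (f k : ℕ) : p.th f (k + 1) = p.th f k + if k / p.q = f then p.dl else 0 := by
  have hq := p.hq
  by_cases h : k / p.q = f
  · rw [if_pos h]
    rw [div_eq_iff_level, Nat.add_mul, one_mul] at h
    have e : min (k + 1 - f * p.q) p.q = min (k - f * p.q) p.q + 1 := by omega
    unfold th dl
    rw [e]
    push_cast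
    ring
  · rw [if_neg h, add_zero]
    rw [div_eq_iff_level, Nat.add_mul, one_mul] at h
    have e : min (k + 1 - f * p.q) p.q = min (k - f * p.q) p.q := by omega
    unfold th
    rw [e]

/-- phases before the current one are completed -/
theorem th_eq_one_of_lt {f k : ℕ} (h : f < k / p.q) : p.th f k = 1 := by
  refine p.th_eq_one ?_
  exact (Nat.mul_le_mul_right _ h).trans (Nat.div_mul_le_self _ _)

/-- phases after the current one have not started -/
theorem th_eq_zero_of_lt {f k : ℕ} (h : k / p.q < f) : p.th f k = 0 := by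
  refine p.th_eq_zero ?_
  have h1 : k < (k / p.q + 1) * p.q := by
    have := Nat.lt_div_mul_add (a := k) p.hq
    rw [Nat.add_mul, one_mul]; exact this
  exact h1.le.trans (Nat.mul_le_mul_right _ h)

theorem N_mul_dl : (p.N : ℝ) * p.dl = p.nF := by
  unfold N dl
  push_cast
  have := p.q_pos'.ne'
  field_simp

/-! ### (2) kinds -/

theorem idx_div {i a : ℕ} (ha : a ≤ p.d) : (i * (p.d + 1) + a) / (p.d + 1) = i := by
  rw [mul_comm, Nat.mul_add_div (Nat.succ_pos _), Nat.div_eq_of_lt (by omega), add_zero]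

theorem idx_mod {i a : ℕ} (ha : a ≤ p.d) : (i * (p.d + 1) + a) % (p.d + 1) = a := by
  rw [mul_comm, Nat.mul_add_mod, Nat.mod_eq_of_lt (by omega)]

theorem idx_lt {i a : ℕ} (hi : i < p.Nw) (ha : a ≤ p.d) :
    i * (p.d + 1) + a < p.Nw * (p.d + 1) := by
  calc i * (p.d + 1) + a < i * (p.d + 1) + (p.d + 1) := by omega
    _ = (i + 1) * (p.d + 1) := by ring
    _ ≤ _ := Nat.mul_le_mul_right _ hi

theorem kind_eq_steer_iff {k : ℕ} {i : Fin p.Nw} {a : Fin p.d} :
    p.kind k = .steer i a ↔ k / p.q = i * (p.d + 1) + a := by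
  unfold kind
  constructor
  · intro h
    split_ifs at h with h1 h2
    simp only [Kind.steer.injEq] at h
    obtain ⟨h3, h4⟩ := h
    have e1 : (i : ℕ) = k / p.q / (p.d + 1) := by rw [← h3]
    have e2 : (a : ℕ) = k / p.q % (p.d + 1) := by rw [← h4]
    rw [e1, e2, mul_comm]
    exact (Nat.div_add_mod _ _).symm
  · intro h
    have e1 : k / p.q / (p.d + 1) = i := by rw [h]; exact p.idx_div a.2.le
    have e2 : k / p.q % (p.d + 1) = a := by rw [h]; exact p.idx_mod a.2.le
    rw [dif_pos (by rw [e1]; exact i.2), dif_pos (by rw [e2]; exact a.2)]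
    simp only [Kind.steer.injEq]
    exact ⟨Fin.ext e1, Fin.ext e2⟩

theorem kind_eq_kill_iff {k : ℕ} {i : Fin p.Nw} :
    p.kind k = .kill i ↔ k / p.q = i * (p.d + 1) + p.d := by
  unfold kind
  constructor
  · intro h
    split_ifs at h with h1 h2
    simp only [Kind.kill.injEq] at h
    have e1 : (i : ℕ) = k / p.q / (p.d + 1) := by rw [← h]
    have e2 : k / p.q % (p.d + 1) = p.d := by
      have h3 : k / p.q % (p.d + 1) < p.d + 1 := Nat.mod_lt (k / p.q) (Nat.succ_pos p.d)
      omega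
    rw [e1]
    calc k / p.q = (p.d + 1) * (k / p.q / (p.d + 1)) + k / p.q % (p.d + 1) :=
          (Nat.div_add_mod _ _).symm
      _ = _ := by rw [e2, mul_comm]
  · intro h
    have e1 : k / p.q / (p.d + 1) = i := by rw [h]; exact p.idx_div le_rfl
    have e2 : k / p.q % (p.d + 1) = p.d := by rw [h]; exact p.idx_mod le_rfl
    rw [dif_pos (by rw [e1]; exact i.2), dif_neg (by rw [e2]; exact lt_irrefl _)]
    simp only [Kind.kill.injEq]
    exact Fin.ext e1

theorem div_lt_Nw_iff {k : ℕ} : k / p.q / (p.d + 1) < p.Nw ↔ k < p.Nw * (p.d + 1) * p.q := by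
  rw [Nat.div_lt_iff_lt_mul (Nat.succ_pos _), Nat.div_lt_iff_lt_mul p.hq]

theorem kind_eq_last_iff {k : ℕ} :
    p.kind k = .last ↔ p.Nw * (p.d + 1) * p.q ≤ k ∧ k < p.N := by
  unfold kind
  constructor
  · intro h
    split_ifs at h with h1 h2 h3
    rw [div_lt_Nw_iff] at h1
    exact ⟨by omega, by assumption⟩
  · rintro ⟨h1, h2⟩
    rw [dif_neg (by rw [div_lt_Nw_iff]; omega), if_pos h2]

theorem N_eq : p.N = p.Nw * (p.d + 1) * p.q + p.q := by
  unfold N nF; ring

theorem kind_eq_idle_iff {k : ℕ} : p.kind k = .idle ↔ p.N ≤ k := by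
  unfold kind
  constructor
  · intro h
    split_ifs at h with h1 h2 h3
    · omega
  · intro h1
    have := p.N_eq
    rw [dif_neg (by rw [div_lt_Nw_iff]; omega), if_neg (by omega)]

/-- phase of a final step -/
theorem div_eq_of_last {k : ℕ} (h : p.kind k = .last) : k / p.q = p.Nw * (p.d + 1) := by
  rw [kind_eq_last_iff, N_eq] at h
  rw [div_eq_iff_level, Nat.add_mul, one_mul]
  exact h

theorem div_gt_of_idle {k : ℕ} (h : p.kind k = .idle) : p.Nw * (p.d + 1) < k / p.q := by
  rw [kind_eq_idle_iff] at h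
  rw [Nat.lt_iff_add_one_le, Nat.le_div_iff_mul_le p.hq]
  exact h

/-- case distinction for the level -/
theorem kind_cases (k : ℕ) :
    (∃ (i : Fin p.Nw) (a : Fin p.d), p.kind k = .steer i a ∧ k / p.q = i * (p.d + 1) + a) ∨
    (∃ i : Fin p.Nw, p.kind k = .kill i ∧ k / p.q = i * (p.d + 1) + p.d) ∨
    (p.kind k = .last ∧ k / p.q = p.Nw * (p.d + 1)) ∨
    (p.kind k = .idle ∧ p.Nw * (p.d + 1) < k / p.q) := by
  rcases h : p.kind k with ⟨i, a⟩ | i
  · exact Or.inl ⟨i, a, rfl, p.kind_eq_steer_iff.1 h⟩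
  · exact Or.inr (Or.inl ⟨i, rfl, p.kind_eq_kill_iff.1 h⟩)
  · exact Or.inr (Or.inr (Or.inl ⟨rfl, p.div_eq_of_last h⟩))
  · exact Or.inr (Or.inr (Or.inr ⟨rfl, p.div_gt_of_idle h⟩))

/-! ### (3) the parameter `r` -/

theorem τ_nonneg : 0 ≤ p.τ := div_nonneg p.hβ (Nat.cast_nonneg _)

theorem Nw_mul_τ : (p.Nw : ℝ) * p.τ = p.β := by
  unfold τ
  have : (p.Nw : ℝ) ≠ 0 := by exact_mod_cast p.hNw.ne'
  field_simp

theorem τ_le_one : p.τ ≤ 1 := by
  unfold τ
  have h1 : (1 : ℝ) ≤ p.Nw := by exact_mod_cast p.hNw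
  rw [div_le_one (by linarith)]
  linarith [p.hβ1]

/-- number of completed killing phases (with fractions) -/
noncomputable def kk (k : ℕ) : ℝ := ∑ i : Fin p.Nw, p.th (i * (p.d + 1) + p.d) k

theorem rr_eq (k : ℕ) : p.rr k = p.β - p.τ * p.kk k := rfl

theorem kk_nonneg (k : ℕ) : 0 ≤ p.kk k := Finset.sum_nonneg fun _ _ => p.th_nonneg _ _

theorem kk_le (k : ℕ) : p.kk k ≤ p.Nw := by
  calc p.kk k ≤ ∑ _i : Fin p.Nw, (1 : ℝ) := Finset.sum_le_sum fun _ _ => p.th_le_one _ _
    _ = p.Nw := by simp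

theorem kk_zero : p.kk 0 = 0 :=
  Finset.sum_eq_zero fun _ _ => p.th_eq_zero (Nat.zero_le _)

/-- the number of indices below `i` -/
theorem card_lt (i : ℕ) (hi : i ≤ p.Nw) :
    ∑ i' : Fin p.Nw, (if (i' : ℕ) < i then (1 : ℝ) else 0) = i := by
  rw [Fin.sum_univ_eq_sum_range (fun i' => if i' < i then (1 : ℝ) else 0) p.Nw]
  rw [← Finset.sum_filter]
  have e : (Finset.range p.Nw).filter (fun i' => i' < i) = Finset.range i := by
    ext j; simp only [Finset.mem_filter, Finset.mem_range]; omega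
  rw [e]; simp

/-- comparison of indices of killing phases -/
theorem idx_lt_idx {i i' : ℕ} (h : i' < i) (a : ℕ) :
    i' * (p.d + 1) + p.d < i * (p.d + 1) + a := by
  have : (i' + 1) * (p.d + 1) ≤ i * (p.d + 1) := Nat.mul_le_mul_right _ h
  have e : (i' + 1) * (p.d + 1) = i' * (p.d + 1) + (p.d + 1) := by ring
  omega

theorem kk_steer {k : ℕ} {i : Fin p.Nw} {a : Fin p.d} (h : k / p.q = i * (p.d + 1) + a) :
    p.kk k = i := by
  rw [← p.card_lt i i.2.le]
  refine Finset.sum_congr rfl fun i' _ => ?_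
  by_cases hi : (i' : ℕ) < i
  · rw [if_pos hi]
    exact p.th_eq_one_of_lt (by rw [h]; exact p.idx_lt_idx hi _)
  · rw [if_neg hi]
    refine p.th_eq_zero_of_lt ?_
    rw [h]
    have h1 : (i : ℕ) * (p.d + 1) ≤ i' * (p.d + 1) := Nat.mul_le_mul_right _ (by omega)
    have := a.2
    omega

theorem kk_kill {k : ℕ} {i : Fin p.Nw} (h : k / p.q = i * (p.d + 1) + p.d) :
    p.kk k = i + p.th (i * (p.d + 1) + p.d) k := by
  rw [← p.card_lt i i.2.le]
  have e : p.th (i * (p.d + 1) + p.d) k
      = ∑ i' : Fin p.Nw, (if i' = i then p.th (i * (p.d + 1) + p.d) k else 0) := by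
    rw [Finset.sum_ite_eq']; simp
  rw [e, ← Finset.sum_add_distrib]
  refine Finset.sum_congr rfl fun i' _ => ?_
  rcases lt_trichotomy (i' : ℕ) i with hi | hi | hi
  · have hne : i' ≠ i := fun h => by rw [h] at hi; exact lt_irrefl _ hi
    rw [if_pos hi, if_neg hne, add_zero]
    exact p.th_eq_one_of_lt (by rw [h]; exact p.idx_lt_idx hi _)
  · have he : i' = i := Fin.ext hi
    rw [if_neg (by omega), if_pos he, he, zero_add]
  · have hne : i' ≠ i := fun h => by rw [h] at hi; exact lt_irrefl _ hi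
    rw [if_neg (by omega), if_neg hne, add_zero]
    exact p.th_eq_zero_of_lt (by rw [h]; exact p.idx_lt_idx hi _)

theorem kk_end {k : ℕ} (h : p.Nw * (p.d + 1) ≤ k / p.q) : p.kk k = p.Nw := by
  have : p.kk k = ∑ _i : Fin p.Nw, (1 : ℝ) :=
    Finset.sum_congr rfl fun i _ => p.th_eq_one_of_lt ((p.idx_lt i.2 le_rfl).trans_le h)
  rw [this]; simp

theorem kk_succ (k : ℕ) : p.kk (k + 1) = p.kk k + match p.kind k with
    | .steer _ _ => 0
    | .kill _ => p.dl
    | .last => 0
    | .idle => 0 := by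
  have e : p.kk (k + 1) = p.kk k
      + ∑ i : Fin p.Nw, (if k / p.q = i * (p.d + 1) + p.d then p.dl else 0) := by
    unfold kk
    rw [← Finset.sum_add_distrib]
    exact Finset.sum_congr rfl fun i _ => p.th_succ _ _
  rw [e]
  congr 1
  rcases h : p.kind k with ⟨i, a⟩ | i
  · refine Finset.sum_eq_zero fun i' _ => if_neg fun h' => ?_
    rw [← kind_eq_kill_iff] at h'
    rw [h] at h'
    exact absurd h' (by simp)
  · rw [Finset.sum_eq_single i]
    · exact if_pos (p.kind_eq_kill_iff.1 h)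
    · intro i' _ hi'
      refine if_neg fun h' => ?_
      rw [← kind_eq_kill_iff] at h'
      rw [h] at h'
      simp only [Kind.kill.injEq] at h'
      exact hi' h'.symm
    · exact fun h' => absurd (Finset.mem_univ _) h'
  · refine Finset.sum_eq_zero fun i' _ => if_neg fun h' => ?_
    rw [← kind_eq_kill_iff] at h'
    rw [h] at h'
    exact absurd h' (by simp)
  · refine Finset.sum_eq_zero fun i' _ => if_neg fun h' => ?_
    rw [← kind_eq_kill_iff] at h'
    rw [h] at h'
    exact absurd h' (by simp)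

theorem rr_zero : p.rr 0 = p.β := by rw [rr_eq, kk_zero, mul_zero, sub_zero]

theorem rr_nonneg (k : ℕ) : 0 ≤ p.rr k := by
  rw [rr_eq, ← p.Nw_mul_τ]
  have := mul_le_mul_of_nonneg_left (p.kk_le k) p.τ_nonneg
  linarith [mul_comm (p.Nw : ℝ) p.τ]

theorem rr_le (k : ℕ) : p.rr k ≤ p.β := by
  rw [rr_eq]
  have := mul_nonneg p.τ_nonneg (p.kk_nonneg k)
  linarith

theorem rr_mem (k : ℕ) : p.rr k ∈ Set.Icc (0 : ℝ) p.β := ⟨p.rr_nonneg k, p.rr_le k⟩

theorem rr_le_one (k : ℕ) : p.rr k ≤ 1 := (p.rr_le k).trans p.hβ1.le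

theorem rr_steer {k : ℕ} {i : Fin p.Nw} {a : Fin p.d} (h : p.kind k = .steer i a) :
    p.rr k = p.β - p.τ * i := by
  rw [rr_eq, p.kk_steer (p.kind_eq_steer_iff.1 h)]

theorem rr_kill {k : ℕ} {i : Fin p.Nw} (h : p.kind k = .kill i) :
    p.rr k = p.β - p.τ * (i + p.th (i * (p.d + 1) + p.d) k) := by
  rw [rr_eq, p.kk_kill (p.kind_eq_kill_iff.1 h)]

theorem rr_kill_mem {k : ℕ} {i : Fin p.Nw} (h : p.kind k = .kill i) :
    p.rr k ∈ Set.Icc (p.β - p.τ * (i + 1)) (p.β - p.τ * i) := by
  rw [p.rr_kill h]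
  have h1 := p.th_nonneg (i * (p.d + 1) + p.d) k
  have h2 := p.th_le_one (i * (p.d + 1) + p.d) k
  have h3 := p.τ_nonneg
  constructor <;> nlinarith

theorem rr_end {k : ℕ} (h : p.Nw * (p.d + 1) * p.q ≤ k) : p.rr k = 0 := by
  rw [rr_eq, p.kk_end ((Nat.le_div_iff_mul_le p.hq).2 h), ← p.Nw_mul_τ]
  ring

/-! ### (7) initial and terminal values -/

theorem th_last_eq_zero {k : ℕ} (h : k ≤ p.Nw * (p.d + 1) * p.q) :
    p.th (p.Nw * (p.d + 1)) k = 0 := p.th_eq_zero h

theorem AA_zero (P : p.Ctr) : p.AA 0 P = 0 := by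
  unfold AA
  have : ∀ f, p.th f 0 = 0 := fun f => p.th_eq_zero (Nat.zero_le _)
  simp [this]

theorem cc_zero : p.cc 0 = 0 := by
  unfold cc
  rw [rr_zero, p.th_eq_zero (Nat.zero_le _)]
  ring

theorem MM_zero (P : p.Ctr) : p.MM 0 P = p.β • p.J := by
  unfold MM
  rw [rr_zero, AA_zero, cc_zero, zero_smul, sub_zero, sub_zero]

/-! ### (8) speeds -/

/-- speed of `-r` -/
noncomputable def rho (k : ℕ) : ℝ :=
  match p.kind k with
  | .steer _ _ => 0
  | .kill _ => p.τ
  | .last => 0
  | .idle => 0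

/-- speed of `cc` -/
noncomputable def kapc (k : ℕ) : ℝ :=
  match p.kind k with
  | .steer _ _ => 0
  | .kill _ => p.τ * p.κ₀
  | .last => p.Kp
  | .idle => 0

theorem rr_succ (k : ℕ) : p.rr (k + 1) = p.rr k - p.dl * p.rho k := by
  rw [rr_eq, rr_eq, kk_succ]
  unfold rho
  rcases p.kind k with ⟨i, a⟩ | i <;> simp only <;> ring

theorem th_last_succ (k : ℕ) : p.th (p.Nw * (p.d + 1)) (k + 1) = p.th (p.Nw * (p.d + 1)) k +
    match p.kind k with
    | .steer _ _ => 0
    | .kill _ => 0
    | .last => p.dl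
    | .idle => 0 := by
  rw [th_succ]
  congr 1
  rcases p.kind_cases k with ⟨i, a, h, h'⟩ | ⟨i, h, h'⟩ | ⟨h, h'⟩ | ⟨h, h'⟩
  · rw [h, h']
    exact if_neg (p.idx_lt i.2 a.2.le).ne
  · rw [h, h']
    exact if_neg (p.idx_lt i.2 le_rfl).ne
  · rw [h, h']
    exact if_pos rfl
  · rw [h]
    exact if_neg h'.ne'

theorem cc_succ (k : ℕ) : p.cc (k + 1) = p.cc k + p.dl * p.kapc k := by
  unfold cc
  rw [rr_succ, th_last_succ]
  unfold rho kapc
  rcases p.kind k with ⟨i, a⟩ | i <;> simp only <;> ring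

end SPar

end Vale.Agent.P150.F
end

section

/-! P150 FULL, D6: the concrete process and the localization scheme. -/

open MeasureTheory ProbabilityTheory Filter Topology
open scoped Matrix

namespace Vale.Agent.P150.F

namespace SPar

variable {n : ℕ} (p : SPar n)

/-- the centres chosen so far are in the closed cube -/
def Valid (k : ℕ) (P : p.Ctr) : Prop :=
  ∀ i : Fin p.Nw, (i : ℕ) * (p.d + 1) * p.q ≤ k → ∀ j, |p.ctr P i j| ≤ 1

/-- strong monotonicity of the TAP equation on the window of level `k` -/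
def Mono (c : ℝ) (k : ℕ) (P : p.Ctr) : Prop :=
  ∀ m ∈ Win.window (p.cen k P) (p.rad k), ∀ v,
    c * sq v ≤ qf (Hess (p.rr k) p.J (p.AA k P) m) v

/-- `m` is a TAP solution in the window of level `k` -/
def IsSol (k : ℕ) (P : p.Ctr) (y m : Vec n) : Prop :=
  m ∈ Win.window (p.cen k P) (p.rad k) ∧ tapG (p.rr k) p.J (p.AA k P) y m = 0

open Classical in
/-- the tracked TAP solution -/
noncomputable def mh (c : ℝ) (k : ℕ) (P : p.Ctr) (y : Vec n) : Vec n :=
  if h : p.Mono c k P ∧ ∃ m, p.IsSol k P y m then h.2.choose else 0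

/-- states: level, rounded centres, field -/
abbrev St : Type := ℕ × (p.Ctr × Vec n)

/-- exit states -/
def exitS (c : ℝ) : Set p.St :=
  {s | ¬ p.Valid s.1 s.2.1 ∨ ¬ p.Mono c s.1 s.2.1 ∨ (¬ ∃ m, p.IsSol s.1 s.2.1 s.2.2 m) ∨
    p.far s.1 s.2.1 (p.mh c s.1 s.2.1 s.2.2)}

/-- new state -/
noncomputable def nxtS (c : ℝ) (s : p.St) (z : Vec n) : p.St :=
  (s.1 + 1, p.updC (s.1 + 1) s.2.1 (p.mh c (s.1 + 1) s.2.1 (s.2.2 + z)), s.2.2 + z)

theorem mh_spec {c : ℝ} {k : ℕ} {P : p.Ctr} {y : Vec n} (h : p.Mono c k P)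
    (h2 : ∃ m, p.IsSol k P y m) : p.IsSol k P y (p.mh c k P y) := by
  unfold mh
  rw [dif_pos ⟨h, h2⟩]
  exact Exists.choose_spec _

theorem mh_eq {c : ℝ} (hc : 0 < c) {k : ℕ} {P : p.Ctr} {y m : Vec n} (h : p.Mono c k P)
    (h2 : p.IsSol k P y m) : p.mh c k P y = m := by
  have h3 := p.mh_spec h ⟨m, h2⟩
  exact Win.tap_unique hc h h2.1 h3.1 h2.2 h3.2

theorem abs_mh_le (c : ℝ) (k : ℕ) (P : p.Ctr) (y : Vec n) (i : Fin n) :
    |p.mh c k P y i| ≤ 1 := by
  by_cases h : p.Mono c k P ∧ ∃ m, p.IsSol k P y m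
  · exact ((p.mh_spec h.1 h.2).1.1 i).le
  · unfold mh
    rw [dif_neg h]
    simp

/-- functions of the discrete part of the state are measurable -/
theorem meas_disc {X : Type*} [MeasurableSpace X] (f : ℕ → p.Ctr → X) :
    Measurable fun s : p.St => f s.1 s.2.1 := by
  have h : Measurable fun q : ℕ × p.Ctr => f q.1 q.2 := measurable_of_countable _
  exact h.comp (measurable_fst.prodMk (measurable_fst.comp measurable_snd))

/-- measurability on the state space -/
theorem meas_sec {X Z : Type*} [MeasurableSpace X] [MeasurableSpace Z]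
    {f : ℕ → p.Ctr → Z → X} (hf : ∀ k P, Measurable (f k P)) {g : Z → p.St} (hg : Measurable g) :
    Measurable fun z => f (g z).1 (g z).2.1 z := by
  have h : Measurable fun q : Z × (ℕ × p.Ctr) => f q.2.1 q.2.2 q.1 :=
    measurable_from_prod_countable_left fun q => hf q.1 q.2
  exact h.comp (measurable_id.prodMk ((measurable_fst.comp hg).prodMk
    (measurable_fst.comp (measurable_snd.comp hg))))

/-- measurability of the update of the centres -/
theorem meas_updC (k : ℕ) (P : p.Ctr) : Measurable fun m : Vec n => p.updC k P m := by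
  rw [measurable_pi_iff]
  intro i
  rw [measurable_pi_iff]
  intro j
  unfold updC
  split_ifs
  · exact Int.measurable_floor.comp ((measurable_pi_apply j).const_mul _)
  · exact measurable_const

/-- the recursion of the couplings (SchedLem) -/
def MMSucc : Prop := ∀ (k : ℕ) (P : p.Ctr) (m : Vec n),
  p.MM (k + 1) (p.updC (k + 1) P m) = p.MM k P - p.dl • (p.RR k P * (p.RR k P)ᵀ)

/-- measurability of the tracked solution (Sol) -/
def MhMeas (c : ℝ) : Prop := ∀ (k : ℕ) (P : p.Ctr), Measurable fun y : Vec n => p.mh c k P y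

/-- the concrete process -/
noncomputable def proc (c : ℝ) (hM : p.MMSucc) (hm : p.MhMeas c) : Proc n n p.St where
  δ _ := p.dl
  hδ _ := p.dl_pos
  hδ1 _ := p.dl_le_one
  M s := p.MM s.1 s.2.1
  y s := s.2.2
  R s := p.RR s.1 s.2.1
  nxt := p.nxtS c
  measδ := measurable_const
  measM i j := p.meas_disc fun k P => p.MM k P i j
  measy i := (measurable_pi_apply i).comp (measurable_snd.comp measurable_snd)
  measR i j := p.meas_disc fun k P => p.RR k P i j
  measnxt := by
    have hy : Measurable fun q : p.St × Vec n => q.1.2.2 + q.2 :=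
      (measurable_snd.comp (measurable_snd.comp measurable_fst)).add measurable_snd
    have h1 : Measurable fun q : p.St × Vec n =>
        p.updC (q.1.1 + 1) q.1.2.1 (p.mh c (q.1.1 + 1) q.1.2.1 (q.1.2.2 + q.2)) :=
      p.meas_sec (f := fun k P (q : p.St × Vec n) =>
        p.updC (k + 1) P (p.mh c (k + 1) P (q.1.2.2 + q.2)))
        (fun k P => (p.meas_updC (k + 1) P).comp ((hm (k + 1) P).comp hy)) measurable_fst
    exact ((measurable_fst.comp measurable_fst).add_const 1).prodMk (h1.prodMk hy)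
  hM s z := hM s.1 s.2.1 _
  hy s z := rfl

/-- the localization scheme -/
noncomputable def loc (c : ℝ) (hM : p.MMSucc) (hm : p.MhMeas c) : Loc n p.St where
  P := p.proc c hM hm
  dl := p.dl
  N := p.N
  lev s := s.1
  mh s := p.mh c s.1 s.2.1 s.2.2
  exit := p.exitS c
  s0 := (0, (0, 0))

/-! ### measurability of the exit set -/

/-- the window is a countable union of compact sets -/
theorem isSigmaCompact_window (P : Vec n) (R : ℝ) : IsSigmaCompact (Win.window P R) := by
  have h : Win.window P R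
      = ⋃ j : ℕ, {m : Vec n | (∀ i, |m i| ≤ 1 - 1 / ((j : ℝ) + 1)) ∧ nv (m - P) ≤ R} := by
    ext m
    simp only [Win.window, Set.mem_ofPred_eq, Set.mem_iUnion]
    constructor
    · rintro ⟨h1, h2⟩
      have h3 : ∀ i, ∃ j₀ : ℕ, ∀ j : ℕ, j₀ ≤ j → |m i| ≤ 1 - 1 / ((j : ℝ) + 1) := by
        intro i
        obtain ⟨j₀, hj₀⟩ := exists_nat_one_div_lt (show (0 : ℝ) < 1 - |m i| by linarith [h1 i])
        refine ⟨j₀, fun j hj => ?_⟩
        have : 1 / ((j : ℝ) + 1) ≤ 1 / ((j₀ : ℝ) + 1) := by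
          apply one_div_le_one_div_of_le (by positivity)
          have : (j₀ : ℝ) ≤ j := by exact_mod_cast hj
          linarith only [this]
        linarith
      choose f hf using h3
      exact ⟨Finset.univ.sup f, fun i => hf i _ (Finset.le_sup (Finset.mem_univ i)), h2⟩
    · rintro ⟨j, h1, h2⟩
      refine ⟨fun i => ?_, h2⟩
      have : (0 : ℝ) < 1 / ((j : ℝ) + 1) := by positivity
      linarith only [h1 i, this]
  rw [h]
  refine isSigmaCompact_iUnion_of_isCompact _ fun j => ?_
  refine Metric.isCompact_of_isClosed_isBounded ?_ ?_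
  · have h1 : IsClosed {m : Vec n | ∀ i, |m i| ≤ 1 - 1 / ((j : ℝ) + 1)} := by
      have : {m : Vec n | ∀ i, |m i| ≤ 1 - 1 / ((j : ℝ) + 1)}
          = ⋂ i, {m : Vec n | |m i| ≤ 1 - 1 / ((j : ℝ) + 1)} := by ext m; simp
      rw [this]
      exact isClosed_iInter fun i =>
        isClosed_le (continuous_abs.comp (continuous_apply i)) continuous_const
    have h2 : IsClosed {m : Vec n | nv (m - P) ≤ R} :=
      isClosed_le (Win.continuous_nv.comp (continuous_id.sub continuous_const)) continuous_const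
    exact h1.inter h2
  · rw [isBounded_iff_forall_norm_le]
    refine ⟨1, fun m hm => ?_⟩
    rw [pi_norm_le_iff_of_nonneg zero_le_one]
    intro i
    rw [Real.norm_eq_abs]
    have : (0 : ℝ) < 1 / ((j : ℝ) + 1) := by positivity
    linarith only [this, hm.1 i]


theorem continuousOn_G0 (r : ℝ) (J A : Mat n) (P : Vec n) (R : ℝ) :
    ContinuousOn (fun m : Vec n => tapG r J A 0 m) (Win.window P R) := by
  rw [continuousOn_pi]
  intro i
  have h1 : ContinuousOn (fun m : Vec n => Real.artanh (m i)) (Win.window P R) := by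
    intro m hm
    have h2 : ContinuousAt Real.artanh (m i) := (Win.hasDerivAt_artanh (hm.1 i)).continuousAt
    have h2' : ContinuousAt (fun m : Vec n => m i) m := (continuous_apply i).continuousAt
    exact (ContinuousAt.comp (f := fun m : Vec n => m i) h2 h2').continuousWithinAt
  have h3 : Continuous fun m : Vec n => Win.tapL r J A 0 m i :=
    (continuous_apply i).comp (Win.continuous_tapL r J A 0)
  have h4 := h1.add h3.continuousOn
  exact h4.congr fun m _ => Win.tapG_eq r J A 0 m i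

theorem tapG_zero_iff (r : ℝ) (J A : Mat n) (y m : Vec n) :
    tapG r J A y m = 0 ↔ tapG r J A 0 m = y := by
  constructor
  · intro h
    funext i
    have := congrFun h i
    unfold tapG at this ⊢
    simp only [Pi.zero_apply] at this ⊢
    linarith
  · intro h
    funext i
    have := congrFun h i
    unfold tapG at this ⊢
    simp only [Pi.zero_apply] at this ⊢
    linarith

theorem measurableSet_dom (k : ℕ) (P : p.Ctr) : MeasurableSet {y : Vec n | ∃ m, p.IsSol k P y m} := by
  have h : {y : Vec n | ∃ m, p.IsSol k P y m}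
      = (fun m : Vec n => tapG (p.rr k) p.J (p.AA k P) 0 m) '' Win.window (p.cen k P) (p.rad k) := by
    ext y
    simp only [Set.mem_ofPred_eq, Set.mem_image, IsSol, tapG_zero_iff]
  rw [h]
  have h1 := (isSigmaCompact_window (p.cen k P) (p.rad k)).image_of_continuousOn
    (continuousOn_G0 (p.rr k) p.J (p.AA k P) _ _)
  obtain ⟨K, hK, hU⟩ := h1
  rw [← hU]
  exact MeasurableSet.iUnion fun j => (hK j).measurableSet

theorem mhMeas {c : ℝ} (hc : 0 < c) : p.MhMeas c := by
  intro k P
  by_cases hM : p.Mono c k P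
  · have hcont : ContinuousOn (fun y => p.mh c k P y) {y : Vec n | ∃ m, p.IsSol k P y m} := by
      have hlip : ∀ y ∈ {y : Vec n | ∃ m, p.IsSol k P y m},
          ∀ y' ∈ {y : Vec n | ∃ m, p.IsSol k P y m},
          c * nv (p.mh c k P y' - p.mh c k P y) ≤ nv (y' - y) := by
        intro y hy y' hy'
        have h1 := p.mh_spec hM hy
        have h2 := p.mh_spec hM hy'
        have h3 := Win.dist_le (y := 0) hM h1.1 h2.1
        rw [(tapG_zero_iff _ _ _ _ _).1 h1.2, (tapG_zero_iff _ _ _ _ _).1 h2.2] at h3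
        exact h3
      intro y hy
      rw [ContinuousWithinAt, tendsto_pi_nhds]
      intro i
      rw [Metric.tendsto_nhds]
      intro ε hε
      have h5 : Continuous fun y' : Vec n => nv (y' - y) :=
        Win.continuous_nv.comp (continuous_id.sub continuous_const)
      have h6 : Tendsto (fun y' : Vec n => nv (y' - y)) (𝓝[{y : Vec n | ∃ m, p.IsSol k P y m}] y)
          (𝓝 0) := by
        have := h5.tendsto y
        rw [sub_self, nv_zero] at this
        exact this.mono_left nhdsWithin_le_nhds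
      have h7 := h6.eventually (gt_mem_nhds (show (0 : ℝ) < c * ε by positivity))
      filter_upwards [h7, self_mem_nhdsWithin] with y' hy' hy'm
      have h8 := hlip y hy y' hy'm
      have h9 : |(p.mh c k P y' - p.mh c k P y) i| ≤ nv (p.mh c k P y' - p.mh c k P y) :=
        abs_le_nv _ _
      rw [Real.dist_eq]
      rw [Pi.sub_apply] at h9
      (by_contra nlg; linarith only [nlg, mul_nonneg (le_of_lt (sub_pos.2 hc)) (sub_nonneg.2 h9), mul_nonneg (sub_nonneg.2 (not_lt.1 nlg)) (le_of_lt (sub_pos.2 hc)), h8, hy'])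
    have hms := p.measurableSet_dom k P
    refine measurable_of_restrict_of_restrict_compl hms ?_ ?_
    · exact (continuousOn_iff_continuous_domRestrict.1 hcont).measurable
    · have : (Set.domRestrict {y : Vec n | ∃ m, p.IsSol k P y m}ᶜ fun y => p.mh c k P y)
          = fun _ => 0 := by
        funext y
        have hy : ¬ ∃ m, p.IsSol k P y m := y.2
        show p.mh c k P y = 0
        unfold mh
        rw [dif_neg (fun h => hy h.2)]
      rw [this]
      exact measurable_const
  · have : (fun y => p.mh c k P y) = fun _ => 0 := by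
      funext y
      unfold mh
      rw [dif_neg (fun h => hM h.1)]
    rw [this]
    exact measurable_const

/-- the set of exit states is measurable -/
theorem meas_exitS {c : ℝ} (hc : 0 < c) : MeasurableSet (p.exitS c) := by
  have hsec : ∀ (f : ℕ → p.Ctr → Set (Vec n)), (∀ k P, MeasurableSet (f k P)) →
      MeasurableSet {s : p.St | s.2.2 ∈ f s.1 s.2.1} := by
    intro f hf
    have h : {s : p.St | s.2.2 ∈ f s.1 s.2.1}
        = ⋃ k : ℕ, ⋃ P : p.Ctr, ({k} : Set ℕ) ×ˢ (({P} : Set p.Ctr) ×ˢ f k P) := by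
      ext ⟨k, P, y⟩
      simp only [Set.mem_ofPred_eq, Set.mem_iUnion, Set.mem_prod, Set.mem_singleton_iff]
      constructor
      · intro h; exact ⟨k, P, rfl, rfl, h⟩
      · rintro ⟨k', P', rfl, rfl, h⟩; exact h
    rw [h]
    exact MeasurableSet.iUnion fun k => MeasurableSet.iUnion fun P =>
      (measurableSet_singleton k).prod ((measurableSet_singleton P).prod (hf k P))
  have h1 : MeasurableSet {s : p.St | ¬ p.Valid s.1 s.2.1} :=
    hsec (fun k P => {_y | ¬ p.Valid k P}) fun k P => MeasurableSet.const _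
  have h2 : MeasurableSet {s : p.St | ¬ p.Mono c s.1 s.2.1} :=
    hsec (fun k P => {_y | ¬ p.Mono c k P}) fun k P => MeasurableSet.const _
  have h3 : MeasurableSet {s : p.St | ¬ ∃ m, p.IsSol s.1 s.2.1 s.2.2 m} :=
    hsec (fun k P => {y | ¬ ∃ m, p.IsSol k P y m}) fun k P => (p.measurableSet_dom k P).compl
  have hfar : ∀ (k : ℕ) (P : p.Ctr), MeasurableSet {m : Vec n | p.far k P m} := by
    intro k P
    unfold far
    have hb : ∀ c : Vec n, MeasurableSet {m : Vec n | p.ρ * √n / 2 < nv (m - c)} := fun c =>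
      measurableSet_lt measurable_const
        (Win.continuous_nv.comp (continuous_id.sub continuous_const)).measurable
    cases p.kind k with
    | steer i a => exact (hb _).union (hb _)
    | kill i => exact hb _
    | last => exact MeasurableSet.const _
    | idle => exact MeasurableSet.const _
  have h4 : MeasurableSet {s : p.St | p.far s.1 s.2.1 (p.mh c s.1 s.2.1 s.2.2)} :=
    hsec (fun k P => {y | p.far k P (p.mh c k P y)}) fun k P => (p.mhMeas hc k P) (hfar k P)
  exact h1.union (h2.union (h3.union h4))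

theorem meas_mhS {c : ℝ} (hc : 0 < c) (i : Fin n) :
    Measurable fun s : p.St => p.mh c s.1 s.2.1 s.2.2 i :=
  (measurable_pi_apply i).comp (p.meas_sec (f := fun k P (s : p.St) => p.mh c k P s.2.2)
    (fun k P => (p.mhMeas hc k P).comp (measurable_snd.comp measurable_snd)) measurable_id)

end SPar

end Vale.Agent.P150.F
end

section

/-! P150 FULL, D6: the last phase and the terminal level of the concrete scheme. -/

open MeasureTheory ProbabilityTheory Filter Topology
open scoped Matrix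

namespace Vale.Agent.P150.F

namespace SPar

variable {n : ℕ} (p : SPar n)

theorem lt_kind_last {k : ℕ} (h1 : p.Nw * (p.d + 1) * p.q ≤ k) (h2 : k < p.N) :
    p.kind k = .last := by
  have hd : 0 < p.d + 1 := by omega
  have h : ¬ k / p.q / (p.d + 1) < p.Nw := by
    rw [not_lt, Nat.le_div_iff_mul_le hd, Nat.le_div_iff_mul_le p.hq]
    exact h1
  unfold kind
  rw [dif_neg h, if_pos h2]

theorem lt_kind_idle {k : ℕ} (h1 : p.N ≤ k) : p.kind k = .idle := by
  have hd : 0 < p.d + 1 := by omega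
  have h0 : p.Nw * (p.d + 1) * p.q ≤ k := by
    refine le_trans ?_ h1
    unfold N nF
    exact Nat.mul_le_mul_right _ (by omega)
  have h : ¬ k / p.q / (p.d + 1) < p.Nw := by
    rw [not_lt, Nat.le_div_iff_mul_le hd, Nat.le_div_iff_mul_le p.hq]
    exact h0
  unfold kind
  rw [dif_neg h, if_neg (by omega)]

theorem lt_rr {k : ℕ} (h1 : p.Nw * (p.d + 1) * p.q ≤ k) : p.rr k = 0 := by
  unfold rr
  have h2 : ∀ i : Fin p.Nw, p.th (i * (p.d + 1) + p.d) k = 1 := by
    intro i
    apply p.lp_th_eq_one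
    refine le_trans (Nat.mul_le_mul_right _ ?_) h1
    have := i.2
    calc (i : ℕ) * (p.d + 1) + p.d + 1 = (i + 1) * (p.d + 1) := by ring
      _ ≤ p.Nw * (p.d + 1) := Nat.mul_le_mul_right _ this
  simp only [h2]
  have h3 : (p.Nw : ℝ) ≠ 0 := by
    have := p.hNw
    positivity
  rw [Finset.sum_const, Finset.card_univ, Fintype.card_fin, nsmul_eq_mul, mul_one]
  unfold τ
  field_simp
  ring

theorem lt_AA {k : ℕ} (h1 : p.N ≤ k) (P : p.Ctr) : p.AA k P = 0 := by
  unfold AA
  rw [p.lp_th_eq_one (by unfold N nF at h1; exact h1), sub_self, zero_smul]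

theorem lt_MM {k : ℕ} (h1 : p.N ≤ k) (P : p.Ctr) {i j : Fin n} (hij : i ≠ j) :
    p.MM k P i j = 0 := by
  have h0 : p.Nw * (p.d + 1) * p.q ≤ k := by
    refine le_trans ?_ h1
    unfold N nF
    exact Nat.mul_le_mul_right _ (by omega)
  unfold MM
  rw [p.lt_rr h0, p.lt_AA h1]
  simp [Matrix.one_apply_ne hij]

/-- in the last phase the Hessian is at least one on the whole cube -/
theorem mono_last {c : ℝ} (hc1 : c ≤ 1) {k : ℕ} (h1 : p.Nw * (p.d + 1) * p.q ≤ k) (P : p.Ctr)
    (hA : ∀ v, 0 ≤ qf (p.AA k P) v) : p.Mono c k P := by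
  intro m hm v
  rw [p.lt_rr h1, Win.qf_Hess]
  have h2 : sq v ≤ ∑ i, 1 / (1 - m i ^ 2) * v i ^ 2 := by
    unfold sq
    refine Finset.sum_le_sum fun i _ => ?_
    have h3 := hm.1 i
    have h4 : m i ^ 2 < 1 := by rw [sq_lt_one_iff_abs_lt_one]; exact h3
    have h5 : 1 ≤ 1 / (1 - m i ^ 2) := by
      rw [le_div_iff₀ (by linarith only [h4])]; linarith only [sq_nonneg (m i)]
    (by_contra nlg; linarith only [mul_nonneg (sq_nonneg (m i : ℝ)) (le_of_lt (sub_pos.2 (not_le.1 nlg))), mul_pos (sub_pos.2 (not_le.1 nlg)) (sub_pos.2 h4), mul_nonneg (sub_nonneg.2 h5) (sq_nonneg (v i))])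
  have h3 := hA v
  have h4 : 0 ≤ sq v := Finset.sum_nonneg fun i _ => sq_nonneg _
  have h5 : c * sq v ≤ 1 * sq v := mul_le_mul_of_nonneg_right hc1 h4
  have h6 : (∑ i, 1 / (1 - m i ^ 2) * v i ^ 2) + (0 : ℝ) ^ 2 * (1 - qq m) * sq v
      - 0 * qf p.J v + qf (p.AA k P) v - 2 * (0 : ℝ) ^ 2 / n * ip m v ^ 2
      = (∑ i, 1 / (1 - m i ^ 2) * v i ^ 2) + qf (p.AA k P) v := by ring
  rw [h6]
  linarith only [h5, h3, h2]

theorem cen_last {k : ℕ} (h1 : p.Nw * (p.d + 1) * p.q ≤ k) (P : p.Ctr) : p.cen k P = 0 := by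
  unfold cen
  by_cases h : k < p.N
  · rw [p.lt_kind_last h1 h]
  · rw [p.lt_kind_idle (not_lt.1 h)]

theorem rad_last {k : ℕ} (h1 : p.Nw * (p.d + 1) * p.q ≤ k) : p.rad k = √n := by
  unfold rad
  by_cases h : k < p.N
  · rw [p.lt_kind_last h1 h]
  · rw [p.lt_kind_idle (not_lt.1 h)]

theorem not_far_last {k : ℕ} (h1 : p.Nw * (p.d + 1) * p.q ≤ k) (P : p.Ctr) (m : Vec n) :
    ¬ p.far k P m := by
  unfold far
  by_cases h : k < p.N
  · rw [p.lt_kind_last h1 h]; exact not_false
  · rw [p.lt_kind_idle (not_lt.1 h)]; exact not_false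

/-- in the last phase the window is the whole open cube -/
theorem mem_window_last {k : ℕ} (h1 : p.Nw * (p.d + 1) * p.q ≤ k) (P : p.Ctr) (m : Vec n) :
    m ∈ Win.window (p.cen k P) (p.rad k) ↔ ∀ i, |m i| < 1 := by
  rw [p.cen_last h1, p.rad_last h1]
  constructor
  · exact fun h => h.1
  · intro h
    refine ⟨h, ?_⟩
    rw [sub_zero]
    exact nv_le_sqrt_n fun i => (h i).le

theorem isSol_term {k : ℕ} (h1 : p.N ≤ k) (P : p.Ctr) (y : Vec n) :
    p.IsSol k P y fun i => Real.tanh (y i) := by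
  have h0 : p.Nw * (p.d + 1) * p.q ≤ k := by
    refine le_trans ?_ h1
    unfold N nF
    exact Nat.mul_le_mul_right _ (by omega)
  refine ⟨(p.mem_window_last h0 P _).2 fun i => Real.abs_tanh_lt_one _, ?_⟩
  rw [p.lt_rr h0, p.lt_AA h1]
  funext i
  unfold tapG tapB
  simp [Real.artanh_tanh]

theorem mh_term {c : ℝ} (hc : 0 < c) (hc1 : c ≤ 1) {k : ℕ} (h1 : p.N ≤ k) (P : p.Ctr)
    (y : Vec n) : p.mh c k P y = fun i => Real.tanh (y i) := by
  have h0 : p.Nw * (p.d + 1) * p.q ≤ k := by
    refine le_trans ?_ h1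
    unfold N nF
    exact Nat.mul_le_mul_right _ (by omega)
  refine p.mh_eq hc (p.mono_last hc1 h0 P fun v => ?_) (p.isSol_term h1 P y)
  rw [p.lt_AA h1]
  unfold qf ip
  simp

end SPar

end Vale.Agent.P150.F
end

section

/-! P150 FULL, D6: continuation of the tracked TAP solution over one micro step (helper287). -/

open MeasureTheory ProbabilityTheory Filter Topology
open scoped Matrix

namespace Vale.Agent.P150.F

namespace SPar

variable {n : ℕ} (p : SPar n)

/-! ### the parameters of a level do not see the update of the centres -/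

theorem AA_symmC (k : ℕ) (P : p.Ctr) : (p.AA k P).IsSymm := by
  unfold AA Matrix.IsSymm
  rw [Matrix.transpose_smul, Matrix.transpose_sum]
  congr 1
  refine Finset.sum_congr rfl fun i _ => ?_
  rw [Matrix.transpose_sum]
  refine Finset.sum_congr rfl fun a _ => ?_
  rw [Matrix.transpose_smul, Matrix.transpose_vecMulVec]

theorem updC_of_ne {k : ℕ} {P : p.Ctr} {m : Vec n} {i : Fin p.Nw}
    (h : k ≠ i * (p.d + 1) * p.q) : p.updC k P m i = P i := by
  funext j
  unfold updC
  exact if_neg h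

theorem updC_of_eq {k : ℕ} {P : p.Ctr} {m : Vec n} {i : Fin p.Nw}
    (h : k = i * (p.d + 1) * p.q) (j : Fin n) : p.updC k P m i j = ⌊p.ℓ * m j⌋ := by
  unfold updC
  exact if_pos h

theorem ctr_updC_of_ne {k : ℕ} {P : p.Ctr} {m : Vec n} {i : Fin p.Nw}
    (h : k ≠ i * (p.d + 1) * p.q) : p.ctr (p.updC k P m) i = p.ctr P i := by
  unfold ctr
  rw [p.updC_of_ne h]

theorem ct_AA_updC (k : ℕ) (P : p.Ctr) (m : Vec n) : p.AA k (p.updC k P m) = p.AA k P := by
  unfold AA
  congr 1
  refine Finset.sum_congr rfl fun i _ => Finset.sum_congr rfl fun a _ => ?_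
  by_cases h : k = i * (p.d + 1) * p.q
  · have h1 : p.th (i * (p.d + 1) + a) k = 0 := by
      refine p.th_eq_zero ?_
      rw [h]
      exact Nat.mul_le_mul_right _ (Nat.le_add_right _ _)
    rw [h1, zero_mul, zero_smul, zero_smul]
  · unfold vd
    rw [p.ctr_updC_of_ne h]

theorem ctrPrev_updC {k : ℕ} {P : p.Ctr} {m : Vec n} {i : Fin p.Nw}
    (h : (i : ℕ) * (p.d + 1) * p.q ≤ k) : p.ctrPrev (p.updC k P m) i = p.ctrPrev P i := by
  unfold ctrPrev
  by_cases hi : 0 < (i : ℕ)
  · rw [dif_pos hi, dif_pos hi]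
    refine p.ctr_updC_of_ne ?_
    have h1 : ((i : ℕ) - 1) * (p.d + 1) < i * (p.d + 1) :=
      Nat.mul_lt_mul_of_pos_right (by omega) (Nat.succ_pos _)
    have h2 : ((i : ℕ) - 1) * (p.d + 1) * p.q < i * (p.d + 1) * p.q :=
      Nat.mul_lt_mul_of_pos_right h1 p.hq
    show k ≠ ((i : ℕ) - 1) * (p.d + 1) * p.q
    omega
  · rw [dif_neg hi, dif_neg hi]

theorem le_of_steer {k : ℕ} {i : Fin p.Nw} {a : Fin p.d} (h : p.kind k = .steer i a) :
    (i : ℕ) * (p.d + 1) * p.q ≤ k := by
  have h1 := (p.div_eq_iff_level.1 (p.kind_eq_steer_iff.1 h)).1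
  exact (Nat.mul_le_mul_right _ (Nat.le_add_right _ _)).trans h1

theorem lt_of_kill {k : ℕ} {i : Fin p.Nw} (h : p.kind k = .kill i) :
    (i : ℕ) * (p.d + 1) * p.q < k := by
  have h1 := (p.div_eq_iff_level.1 (p.kind_eq_kill_iff.1 h)).1
  refine lt_of_lt_of_le ?_ h1
  exact Nat.mul_lt_mul_of_pos_right (Nat.lt_add_of_pos_right p.hd) p.hq

theorem ct_cen_updC (k : ℕ) (P : p.Ctr) (m : Vec n) : p.cen k (p.updC k P m) = p.cen k P := by
  unfold cen
  rcases h : p.kind k with ⟨i, a⟩ | i
  · exact p.ctrPrev_updC (p.le_of_steer h)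
  · exact p.ctr_updC_of_ne (p.lt_of_kill h).ne'
  · rfl
  · rfl

theorem valid_updC {k : ℕ} {P : p.Ctr} (h : p.Valid k P) {m : Vec n} (hm : ∀ j, |m j| ≤ 1) :
    p.Valid (k + 1) (p.updC (k + 1) P m) := by
  intro i hi j
  by_cases he : k + 1 = i * (p.d + 1) * p.q
  · have hℓ : (0 : ℝ) < p.ℓ := by exact_mod_cast p.hℓ
    show |((p.updC (k + 1) P m i j : ℤ) : ℝ) / p.ℓ| ≤ 1
    rw [p.updC_of_eq he, abs_div, abs_of_pos hℓ, div_le_one hℓ]
    have h1 := abs_le.1 (hm j)
    have h2 : ((-(p.ℓ : ℤ) : ℤ) : ℝ) ≤ p.ℓ * m j := by push_cast; nlinarith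
    have h3 : -(p.ℓ : ℤ) ≤ ⌊p.ℓ * m j⌋ := Int.le_floor.2 h2
    have h4 : (-(p.ℓ : ℝ)) ≤ ⌊p.ℓ * m j⌋ := by exact_mod_cast h3
    have h5 : (⌊p.ℓ * m j⌋ : ℝ) ≤ p.ℓ * m j := Int.floor_le _
    rw [abs_le]
    constructor
    · exact h4
    · nlinarith
  · rw [p.ctr_updC_of_ne he]
    exact h i (by omega) j

theorem mono_updC {c : ℝ} {k : ℕ} {P : p.Ctr} {m : Vec n}
    : p.Mono c k (p.updC k P m) ↔ p.Mono c k P := by
  unfold Mono
  rw [p.ct_AA_updC, p.ct_cen_updC]

theorem isSol_updC {k : ℕ} {P : p.Ctr} {m y m' : Vec n} :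
    p.IsSol k (p.updC k P m) y m' ↔ p.IsSol k P y m' := by
  unfold IsSol
  rw [p.ct_AA_updC, p.ct_cen_updC]

open Classical in
private theorem choose_congr {A B : Prop} {f g : Vec n → Prop} (hAB : A = B) (hfg : f = g) :
    (if h : A ∧ ∃ m, f m then h.2.choose else (0 : Vec n))
      = if h : B ∧ ∃ m, g m then h.2.choose else 0 := by
  subst hAB
  subst hfg
  rfl

/-- the tracked solution does not see the update of the centres -/
theorem ct_mh_updC (c : ℝ) (k : ℕ) (P : p.Ctr) (m y : Vec n) :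
    p.mh c k (p.updC k P m) y = p.mh c k P y := by
  have h1 : p.Mono c k (p.updC k P m) = p.Mono c k P := propext p.mono_updC
  have h2 : (fun m' => p.IsSol k (p.updC k P m) y m') = fun m' => p.IsSol k P y m' :=
    funext fun m' => propext p.isSol_updC
  unfold mh
  exact choose_congr h1 h2

/-- the next level is monotone -/
theorem mono_succ {c : ℝ} (hW : ∀ k P, p.Valid k P → p.Mono c k P) {k : ℕ} {P : p.Ctr}
    (h : p.Valid k P) : p.Mono c (k + 1) P :=
  p.mono_updC.1 (hW _ _ (p.valid_updC h (m := 0) (by simp)))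

/-! ### the window of the next level -/

/-- windows of radius at least `√n` around the origin are the whole cube -/
theorem window_zero_big {R : ℝ} (hR : √n ≤ R) {m : Vec n} :
    m ∈ Win.window 0 R ↔ ∀ i, |m i| < 1 := by
  rw [Win.mem_window, sub_zero]
  exact ⟨fun h => h.1, fun h => ⟨h, (nv_le_sqrt_n fun i => (h i).le).trans hR⟩⟩

/-- the window of level `k` is a ball of radius `ρ √n`, with `m` at most half way, or the cube -/
def Half (k : ℕ) (P : p.Ctr) (m : Vec n) : Prop :=
  (p.rad k = p.ρ * √n ∧ nv (m - p.cen k P) ≤ p.ρ * √n / 2) ∨ (p.rad k = √n ∧ p.cen k P = 0)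

theorem rad_steer {k : ℕ} {i : Fin p.Nw} {a : Fin p.d} (h : p.kind k = .steer i a) :
    p.rad k = p.ρ * √n := by unfold rad; rw [h]

theorem rad_kill {k : ℕ} {i : Fin p.Nw} (h : p.kind k = .kill i) :
    p.rad k = p.ρ * √n := by unfold rad; rw [h]

theorem cen_steer {k : ℕ} {P : p.Ctr} {i : Fin p.Nw} {a : Fin p.d} (h : p.kind k = .steer i a) :
    p.cen k P = p.ctrPrev P i := by unfold cen; rw [h]

theorem cen_kill {k : ℕ} {P : p.Ctr} {i : Fin p.Nw} (h : p.kind k = .kill i) :
    p.cen k P = p.ctr P i := by unfold cen; rw [h]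

theorem half_of_last {k : ℕ} (P : p.Ctr) (m : Vec n) (h : p.kind k = .last) : p.Half k P m := by
  right
  unfold rad cen
  rw [h]
  exact ⟨rfl, rfl⟩

theorem half_of_idle {k : ℕ} (P : p.Ctr) (m : Vec n) (h : p.kind k = .idle) : p.Half k P m := by
  right
  unfold rad cen
  rw [h]
  exact ⟨rfl, rfl⟩

/-- the phase of the next level -/
theorem div_succ (k : ℕ) : (k + 1) / p.q = k / p.q ∨ (k + 1) / p.q = k / p.q + 1 := by
  rw [Nat.succ_div]
  split_ifs
  · exact Or.inr rfl
  · exact Or.inl rfl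

theorem kind_congr {k k' : ℕ} (h : k' / p.q = k / p.q) : p.kind k' = p.kind k := by
  have e : k' < p.N ↔ k < p.N := by
    unfold N
    rw [← Nat.div_lt_iff_lt_mul p.hq, ← Nat.div_lt_iff_lt_mul p.hq, h]
  unfold kind
  simp only [h, e]

/-- a state which is not far is half way inside the window of the next level -/
theorem half_succ {k : ℕ} {P : p.Ctr} {m : Vec n} (hf : ¬ p.far k P m) :
    p.Half (k + 1) P m := by
  rcases p.kind_cases (k + 1) with ⟨i', a', h', e'⟩ | ⟨i', h', e'⟩ | ⟨h', -⟩ | ⟨h', -⟩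
  · -- steering at the next level
    left
    rw [p.rad_steer h', p.cen_steer h']
    refine ⟨rfl, ?_⟩
    rcases p.div_succ k with hs | hs
    · have h : p.kind k = .steer i' a' := by rw [← p.kind_congr hs]; exact h'
      unfold far at hf
      rw [h] at hf
      exact not_lt.1 fun hh => hf (Or.inl hh)
    · rw [e'] at hs
      rcases Nat.eq_zero_or_pos (a' : ℕ) with ha | ha
      · -- the previous level kills window `i' - 1`
        have hi : 0 < (i' : ℕ) := by
          rcases Nat.eq_zero_or_pos (i' : ℕ) with h0 | h0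
          · rw [h0, ha] at hs
            simp at hs
          · exact h0
        have hk : k / p.q = ((i' : ℕ) - 1) * (p.d + 1) + p.d := by
          obtain ⟨j, hj⟩ := Nat.exists_eq_add_of_lt hi
          rw [hj, ha] at hs
          rw [hj]
          have e1 : 0 + j + 1 - 1 = j := by omega
          rw [e1]
          have e2 : (0 + j + 1) * (p.d + 1) = j * (p.d + 1) + p.d + 1 := by ring
          omega
        have h : p.kind k = .kill ⟨(i' : ℕ) - 1, by have := i'.2; omega⟩ :=
          p.kind_eq_kill_iff.2 hk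
        unfold far at hf
        rw [h] at hf
        unfold ctrPrev
        rw [dif_pos hi]
        exact not_lt.1 hf
      · have hk : k / p.q = (i' : ℕ) * (p.d + 1) + ((a' : ℕ) - 1) := by omega
        have h : p.kind k = .steer i' ⟨(a' : ℕ) - 1, by have := a'.2; omega⟩ :=
          p.kind_eq_steer_iff.2 hk
        unfold far at hf
        rw [h] at hf
        exact not_lt.1 fun hh => hf (Or.inl hh)
  · -- killing at the next level
    left
    rw [p.rad_kill h', p.cen_kill h']
    refine ⟨rfl, ?_⟩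
    rcases p.div_succ k with hs | hs
    · have h : p.kind k = .kill i' := by rw [← p.kind_congr hs]; exact h'
      unfold far at hf
      rw [h] at hf
      exact not_lt.1 hf
    · rw [e'] at hs
      have hd := p.hd
      have hk : k / p.q = (i' : ℕ) * (p.d + 1) + (p.d - 1) := by omega
      have h : p.kind k = .steer i' ⟨p.d - 1, by omega⟩ := p.kind_eq_steer_iff.2 hk
      unfold far at hf
      rw [h] at hf
      exact not_lt.1 fun hh => hf (Or.inr hh)
  · exact p.half_of_last P m h'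
  · exact p.half_of_idle P m h'

theorem half_mem (hn : 0 < n) {k : ℕ} {P : p.Ctr} {m : Vec n} (h : p.Half k P m)
    (hm : ∀ i, |m i| < 1) : m ∈ Win.window (p.cen k P) (p.rad k) := by
  have hn' : 0 < √(n : ℝ) := Real.sqrt_pos.2 (by exact_mod_cast hn)
  rcases h with ⟨h1, h2⟩ | ⟨h1, h2⟩
  · rw [Win.mem_window, h1]
    have := mul_pos p.hρ hn'
    exact ⟨hm, by linarith only [h2, this]⟩
  · rw [h1, h2]
    exact (window_zero_big le_rfl).2 hm

/-- existence of the solution at a level, from an approximate solution half way inside -/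
theorem exists_sol (hn : 0 < n) {c : ℝ} (hc : 0 < c) {k : ℕ} {P : p.Ctr} (hM : p.Mono c k P)
    {y m : Vec n} (h : p.Half k P m) (hm : ∀ i, |m i| < 1)
    (hg : nv (tapG (p.rr k) p.J (p.AA k P) y m) ≤ c * p.ρ * √n / 4) :
    ∃ m', p.IsSol k P y m' ∧ c * nv (m' - m) ≤ nv (tapG (p.rr k) p.J (p.AA k P) y m) := by
  have hn' : 0 < √(n : ℝ) := Real.sqrt_pos.2 (by exact_mod_cast hn)
  have hρn := mul_pos p.hρ hn'
  have hgc : nv (tapG (p.rr k) p.J (p.AA k P) y m) / c ≤ p.ρ * √n / 4 := by
    rw [div_le_iff₀ hc]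
    linarith only [hg]
  rcases h with ⟨h1, h2⟩ | ⟨h1, h2⟩
  · obtain ⟨m', hm', h3, h4⟩ := Win.exists_tap (R := p.rad k) (p := p.cen k P) p.hJ
      (p.AA_symmC k P) hc hM hm (by rw [h1]; linarith only [hρn, hgc, h2])
    exact ⟨m', ⟨hm', h3⟩, h4⟩
  · have hm1 : nv m ≤ √n := nv_le_sqrt_n fun i => (hm i).le
    have hbig : √(n : ℝ) ≤ √n + p.ρ * √n := by linarith only [hρn]
    have hM' : ∀ m ∈ Win.window (0 : Vec n) (√n + p.ρ * √n), ∀ v,
        c * sq v ≤ qf (Hess (p.rr k) p.J (p.AA k P) m) v := by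
      intro m'' hm'' v
      refine hM m'' ?_ v
      rw [h1, h2]
      exact (window_zero_big le_rfl).2 ((window_zero_big hbig).1 hm'')
    obtain ⟨m', hm', h3, h4⟩ := Win.exists_tap p.hJ (p.AA_symmC k P) hc hM' hm
      (by rw [sub_zero]; linarith only [hm1, hgc, hρn])
    refine ⟨m', ⟨?_, h3⟩, h4⟩
    rw [h1, h2]
    exact (window_zero_big le_rfl).2 ((window_zero_big hbig).1 hm')

/-- continuation of the tracked solution over one micro step -/
theorem cont_step (hn : 0 < n) {c : ℝ} (hc : 0 < c) (hW : ∀ k P, p.Valid k P → p.Mono c k P)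
    {s : p.St} (hs : s ∉ p.exitS c) (z : Vec n) :
    Tap (p.rr s.1) p.J (p.AA s.1 s.2.1) s.2.2 (p.mh c s.1 s.2.1 s.2.2) ∧
    (∀ v, c * sq v ≤
      qf (Hess (p.rr (s.1 + 1)) p.J (p.AA (s.1 + 1) s.2.1) (p.mh c s.1 s.2.1 s.2.2)) v) ∧
    (nv (tapG (p.rr (s.1 + 1)) p.J (p.AA (s.1 + 1) s.2.1) (s.2.2 + z) (p.mh c s.1 s.2.1 s.2.2))
        ≤ c * p.ρ * √n / 4 →
      Tap (p.rr (s.1 + 1)) p.J (p.AA (s.1 + 1) s.2.1) (s.2.2 + z)
        (p.mh c (p.nxtS c s z).1 (p.nxtS c s z).2.1 (p.nxtS c s z).2.2) ∧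
      c * nv (p.mh c (p.nxtS c s z).1 (p.nxtS c s z).2.1 (p.nxtS c s z).2.2
          - p.mh c s.1 s.2.1 s.2.2)
        ≤ nv (tapG (p.rr (s.1 + 1)) p.J (p.AA (s.1 + 1) s.2.1) (s.2.2 + z)
            (p.mh c s.1 s.2.1 s.2.2))) := by
  have hs' : ¬ (¬ p.Valid s.1 s.2.1 ∨ ¬ p.Mono c s.1 s.2.1 ∨
      (¬ ∃ m, p.IsSol s.1 s.2.1 s.2.2 m) ∨ p.far s.1 s.2.1 (p.mh c s.1 s.2.1 s.2.2)) := hs
  rw [not_or, not_or, not_or, not_not, not_not, not_not] at hs'
  obtain ⟨hV, hM, hE, hF⟩ := hs'
  have hsol := p.mh_spec hM hE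
  have hM1 : p.Mono c (s.1 + 1) s.2.1 := p.mono_succ hW hV
  have hH := p.half_succ hF
  refine ⟨tap_of_grad hsol.1.1 hsol.2, hM1 _ (p.half_mem hn hH hsol.1.1), fun hg => ?_⟩
  obtain ⟨m', h1, h2⟩ := p.exists_sol hn hc hM1 hH hsol.1.1 hg
  have h3 : p.mh c (p.nxtS c s z).1 (p.nxtS c s z).2.1 (p.nxtS c s z).2.2 = m' := by
    show p.mh c (s.1 + 1) (p.updC (s.1 + 1) s.2.1 _) (s.2.2 + z) = m'
    rw [p.ct_mh_updC]
    exact p.mh_eq hc hM1 h1
  rw [h3]
  exact ⟨tap_of_grad h1.1.1 h1.2, h2⟩

end SPar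

end Vale.Agent.P150.F
end

section

/-! From localization schemes to the output interface of D6. -/

open MeasureTheory ProbabilityTheory Filter Topology
open scoped Matrix

namespace Vale.Agent.P150.F

variable {n : ℕ} {S : Type} [MeasurableSpace S]

/-- A localization scheme with small exit probability gives `D6Out`. -/
theorem Loc.toD6Out (L : Loc n S) {β C K c δ₀ : ℝ} {J : Mat n} (hC : 0 ≤ C) (hOK : L.OK β J C)
    (hD : L.Drift C K) (hK : K * √L.dl ≤ 1) (hdl : L.dl ≤ δ₀)
    (hex : L.pexit ≤ Real.exp (-(c * n))) :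
    Nonempty (D6Out β (C ^ 2 + C + 1) C c J δ₀) := by
  have hCC : C ≤ C ^ 2 + C + 1 := by linarith only [sq_nonneg C]
  refine ⟨{ S := S, ms := inferInstance, P := L.P, N := L.N, s0 := L.s0,
            Inv := fun k s => L.lev s + k = L.N, Exit := L.exit, mh := L.mh,
            dur := fun _ => L.dl,
            measExit := hOK.meas_exit, measmh := hOK.meas_mh, mh_le := hOK.mh_le,
            M0 := hOK.M_s0, y0 := hOK.y_s0,
            inv0 := by rw [hOK.lev_s0, zero_add],
            invS := ?_, δ_eq := fun k s _ => hOK.step s,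
            dur_pos := fun _ => hOK.dl_pos, dur_le := fun _ => hdl,
            dur_sum := ?_,
            R_le := fun k s _ i j => (hOK.bddR s i j).trans hCC,
            Q_le := fun k s _ => (hOK.opQ s).monoN hC hCC,
            fin_M := fun s hs i j hij => hOK.term s (by simpa using hs) i j hij,
            fin_mh := ?_, drift := ?_, exit_le := hex }⟩
  · intro k s z hs
    show L.lev (L.P.nxt s z) + k = L.N
    have : L.lev s + (k + 1) = L.N := hs
    rw [hOK.lev_next]; omega
  · rw [Finset.sum_const, Finset.card_range, nsmul_eq_mul]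
    exact hOK.time
  · intro s hs _
    have h0 : (L.mh s - fun i => Real.tanh (L.P.y s i)) = 0 := by
      funext i
      rw [Pi.sub_apply, hOK.term_mh s (by simpa using hs) i, sub_self, Pi.zero_apply]
    rw [h0]
    have : nv (0 : Vec n) = 0 := nv_zero
    rw [this]; exact zero_le_one
  · intro k s hs hse ν hν
    have hs' : L.lev s + (k + 1) = L.N := hs
    obtain ⟨G, κ, hG, hκ, h⟩ := hD s (by omega) hse
    have h1 := h ν hν
    have hdl0 := hOK.dl_pos
    rw [hOK.step s]
    set X : Vec n := (fun i => EC ν (L.P.R s) L.dl (fun _ z => L.mh (L.P.nxt s z) i)) with hX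
    set w : Vec n := mean ν - L.mh s with hw
    set Y : Vec n := G.mulVec ((L.P.Q s).mulVec w + κ) with hY
    have e : X - L.mh s = (X - L.mh s - L.dl • Y) + L.dl • Y := by abel
    have h2 : nv Y ≤ C * (C * nv w + C) := by
      refine (hG.nv_le hC _).trans (mul_le_mul_of_nonneg_left ?_ hC)
      exact (nv_add_le _ _).trans (add_le_add ((hOK.opQ s).nv_le hC w) hκ)
    have h3 : nv (X - L.mh s - L.dl • Y) ≤ L.dl := by
      refine h1.trans ?_
      calc K * (L.dl * √L.dl) = L.dl * (K * √L.dl) := by ring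
        _ ≤ L.dl * 1 := mul_le_mul_of_nonneg_left hK hdl0.le
        _ = L.dl := mul_one _
    have hw0 : 0 ≤ nv w := nv_nonneg w
    calc nv (X - L.mh s) ≤ nv (X - L.mh s - L.dl • Y) + nv (L.dl • Y) := by
          conv_lhs => rw [e]
          exact nv_add_le _ _
      _ ≤ L.dl + L.dl * (C * (C * nv w + C)) := by
          rw [nv_smul, abs_of_pos hdl0]
          exact add_le_add h3 (mul_le_mul_of_nonneg_left h2 hdl0.le)
      _ ≤ (C ^ 2 + C + 1) * L.dl * (nv w + 1) := by
          have h4 : 0 ≤ L.dl * nv w := mul_nonneg hdl0.le hw0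
          have h5 : 0 ≤ C * L.dl := mul_nonneg hC hdl0.le
          have h6 : 0 ≤ C * (L.dl * nv w) := mul_nonneg hC h4
          linarith only [h6, h5, h4]

end Vale.Agent.P150.F
end

section

/-! P150 FULL, D6: the constants of the localization scheme, admissible parameters, and the
statements of the remaining pieces of D6 (helper486). -/

open MeasureTheory ProbabilityTheory Filter Topology
open scoped Matrix

namespace Vale.Agent.P150.F

/-- the constants of the scheme: everything except `n`, the couplings `J`, their root, the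
directions and the number `q` of micro steps per phase -/
structure Cst where
  /-- inverse temperature -/
  β : ℝ
  /-- multiple of the identity added to `J` -/
  κ₀ : ℝ
  /-- curvature constant in `UC` -/
  c₁ : ℝ
  /-- truncation in `UC` -/
  L : ℝ
  /-- slack in the operator norm of `J` -/
  ε : ℝ
  /-- bound in `KB` -/
  C₀ : ℝ
  /-- relative radius of the balls -/
  ρ : ℝ
  /-- steering strength -/
  Ks : ℝ
  /-- strength of the final killing -/
  Kp : ℝ
  /-- number of windows -/
  Nw : ℕ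
  /-- steering directions per window -/
  d : ℕ
  /-- grid of the centres -/
  ℓ : ℕ

/-- strong monotonicity constant of the TAP equation on the windows -/
noncomputable def Cst.c (K : Cst) : ℝ := min (min (K.c₁ / 4) ((1 - K.β) ^ 2 / 2)) 1

/-- duration of a window -/
noncomputable def Cst.τ (K : Cst) : ℝ := K.β / K.Nw

/-- consistency of the constants -/
structure Cst.OK (K : Cst) : Prop where
  hβ : 0 ≤ K.β
  hβ1 : K.β < 1
  hκ : K.κ₀ = 4
  hc₁ : 0 < K.c₁
  hL : 0 < K.L
  hε : 0 < K.ε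
  hρ : 0 < K.ρ
  hρ1 : K.ρ ≤ 1
  hερ : K.ε + 3 * K.ρ ^ 2 ≤ (1 - K.β) ^ 2 / 2
  hKs : K.Ks = Win.Ks K.c₁ K.L
  hKp : K.Kp = K.Nw * K.d * K.Ks
  hNw : 0 < K.Nw
  hd : 0 < K.d
  hτ : K.τ ≤ K.c₁ / 36
  hℓ : 16 ≤ K.ρ * K.ℓ

namespace SPar

variable {n : ℕ} (p : SPar n)

/-- `p` has the constants `K` and its couplings and directions have the properties which hold with
high probability -/
structure Adm (K : Cst) : Prop where
  ok : K.OK
  β_eq : p.β = K.β
  κ_eq : p.κ₀ = K.κ₀
  Nw_eq : p.Nw = K.Nw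
  d_eq : p.d = K.d
  Ks_eq : p.Ks = K.Ks
  Kp_eq : p.Kp = K.Kp
  ρ_eq : p.ρ = K.ρ
  ℓ_eq : p.ℓ = K.ℓ
  op : OpLe p.J (2 + K.ε)
  zd : ∀ i, p.J i i = 0
  kb : KB p.β p.κ₀ (K.c / 2) p.Ks (p.Nw * p.d) K.C₀ p.J
  dirs_orth : ∀ i : ℕ, i < p.Nw → ∀ z : Vec n, (∀ j, |z j| ≤ 1) →
    Win.Orth (fun a : Fin p.d => p.dirs i z a)
  dirs_hl : ∀ i : ℕ, i < p.Nw → ∀ z : Vec n, (∀ j, |z j| ≤ 1) → ∀ m : Vec n, (∀ j, |m j| < 1) →
    sq (m - z) ≤ p.ρ ^ 2 * n → ∀ v, (∀ a : Fin p.d, ip (p.dirs i z a) v = 0) →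
      K.c₁ * sq v ≤ HL K.L (p.β - p.τ * i) p.J m v

/-- change the number of micro steps per phase -/
def withQ (q : ℕ) (hq : 0 < q) : SPar n := { p with q := q, hq := hq }

end SPar

/-- the recursion of the couplings (SchedLem) -/
def MMStatement : Prop := ∀ {n : ℕ} (p : SPar n), p.MMSucc

/-- structural part of the scheme (LocPol) -/
def OKStatement : Prop := ∀ K : Cst, K.OK → ∃ C : ℝ, 0 ≤ C ∧ ∀ {n : ℕ} (p : SPar n), p.Adm K →
  ∀ (hM : p.MMSucc) (hm : p.MhMeas K.c), (p.loc K.c hM hm).OK K.β p.J C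

/-- drift of the tracked mean -/
def DriftStatement : Prop := ∀ K : Cst, K.OK → ∃ C : ℝ, 0 ≤ C ∧ ∀ {n : ℕ} (p : SPar n), p.Adm K →
  ∃ E : ℝ, 0 ≤ E ∧ ∀ (q : ℕ) (hq : 0 < q) (hM : (p.withQ q hq).MMSucc)
    (hm : (p.withQ q hq).MhMeas K.c), ((p.withQ q hq).loc K.c hM hm).Drift C E

/-- small exit probability, if the windows are short enough -/
def ExitStatement : Prop := ∀ (β : ℝ), 0 ≤ β → β < 1 →
  ∀ {I : Type} (F : Filter I) (n : I → ℕ) (J : ∀ i, Mat (n i)), Good β F n J →
    ∀ (c₁ L ε ρ : ℝ) (d : ℕ), 0 < c₁ → 0 < L → 0 < ε → 0 < ρ → ∃ τ₀ > 0, ∀ K : Cst, K.OK →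
      K.β = β → K.c₁ = c₁ → K.L = L → K.ε = ε → K.ρ = ρ → K.d = d → K.τ ≤ τ₀ →
      ∃ Pm : ℕ, 0 < Pm ∧ ∃ c > 0, ∀ᶠ i in F, ∀ p : SPar (n i), p.Adm K → p.J = J i →
        ∃ q₀ : ℕ, ∀ q' : ℕ, q₀ ≤ q' → ∀ (hq : 0 < Pm * q') (hM : (p.withQ (Pm * q') hq).MMSucc)
          (hm : (p.withQ (Pm * q') hq).MhMeas K.c),
          ((p.withQ (Pm * q') hq).loc K.c hM hm).pexit ≤ Real.exp (-(c * n i))

end Vale.Agent.P150.F
end

section

/-! P150 FULL, D6: choice of the constants and assembly of `D6Statement` (helper486). -/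

open MeasureTheory ProbabilityTheory Filter Topology
open scoped Matrix

namespace Vale.Agent.P150.F

variable {n : ℕ}

section
open scoped MatrixOrder

/-- square roots of `J + κ` (copy of helper555's lemma) -/
theorem d6_exists_sqrt {J : Mat n} (hs : ∀ i j, J i j = J j i) {C : ℝ} (hC : 0 ≤ C)
    (hJ : OpLe J C) {κ : ℝ} (hκ : C ≤ κ) : ∃ R : Mat n, R * Rᵀ = J + κ • (1 : Mat n) := by
  have hpsd : (J + κ • (1 : Mat n)).PosSemidef := by
    refine Matrix.PosSemidef.of_dotProduct_mulVec_nonneg ?_ ?_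
    · ext i j
      rw [Matrix.conjTranspose_apply]
      simp only [Matrix.add_apply, Matrix.smul_apply, star_trivial, Matrix.one_apply, hs j i]
      by_cases h : i = j
      · subst h; rfl
      · rw [if_neg h, if_neg (Ne.symm h)]
    · intro v
      rw [star_trivial]
      have h1 : v ⬝ᵥ (J + κ • (1 : Mat n)) *ᵥ v = ip v (J.mulVec v) + κ * sq v := by
        rw [Matrix.add_mulVec, Matrix.smul_mulVec, Matrix.one_mulVec, dotProduct_add,
          dotProduct_smul, smul_eq_mul]
        congr 1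
        unfold sq dotProduct
        congr 1
        exact Finset.sum_congr rfl fun i _ => by ring
      have h2 : ip v (J.mulVec v) ^ 2 ≤ (C * sq v) ^ 2 := by
        calc ip v (J.mulVec v) ^ 2 ≤ sq v * sq (J.mulVec v) := Finset.sum_mul_sq_le_sq_mul_sq _ _ _
          _ ≤ sq v * (C ^ 2 * sq v) :=
              mul_le_mul_of_nonneg_left (hJ v) (Finset.sum_nonneg fun _ _ => sq_nonneg _)
          _ = (C * sq v) ^ 2 := by ring
      have h0 : 0 ≤ sq v := Finset.sum_nonneg fun _ _ => sq_nonneg _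
      have h3 := abs_le_of_sq_le_sq h2 (mul_nonneg hC h0)
      rw [abs_le] at h3
      rw [h1]
      linarith only [mul_le_mul_of_nonneg_right hκ h0, h3.1]
  obtain ⟨B, hB⟩ := CStarAlgebra.nonneg_iff_eq_star_mul_self.mp hpsd.nonneg
  refine ⟨Bᵀ, ?_⟩
  rw [hB, Matrix.transpose_transpose, Matrix.star_eq_conjTranspose]
  congr 1

end

theorem Loc.OK.mono {S : Type} [MeasurableSpace S] {L : Loc n S} {β C C' : ℝ} {J : Mat n}
    (h : L.OK β J C) (hC : 0 ≤ C) (hCC : C ≤ C') : L.OK β J C' :=
  { h with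
    time := h.time.trans hCC
    opQ := fun s => (h.opQ s).monoN hC hCC
    bddR := fun s i j => (h.bddR s i j).trans hCC }

theorem Loc.Drift.mono {S : Type} [MeasurableSpace S] {L : Loc n S} {C C' K : ℝ}
    (h : L.Drift C K) (hC : 0 ≤ C) (hCC : C ≤ C') : L.Drift C' K := by
  intro s hs hse
  obtain ⟨G, κ, hG, hκ, h1⟩ := h s hs hse
  exact ⟨G, κ, hG.monoN hC hCC, hκ.trans hCC, h1⟩

theorem SPar.Adm.withQ {p : SPar n} {K : Cst} (h : p.Adm K) (q : ℕ) (hq : 0 < q) :
    (p.withQ q hq).Adm K :=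
  { ok := h.ok
    β_eq := h.β_eq
    κ_eq := h.κ_eq
    Nw_eq := h.Nw_eq
    d_eq := h.d_eq
    Ks_eq := h.Ks_eq
    Kp_eq := h.Kp_eq
    ρ_eq := h.ρ_eq
    ℓ_eq := h.ℓ_eq
    op := h.op
    zd := h.zd
    kb := h.kb
    dirs_orth := h.dirs_orth
    dirs_hl := h.dirs_hl }

theorem Cst.OK.c_pos {K : Cst} (h : K.OK) : 0 < K.c := by
  have h1 := h.hc₁
  have h2 : 0 < 1 - K.β := by linarith [h.hβ1]
  exact lt_min (lt_min (by positivity) (by positivity)) one_pos

open Classical in
/-- the directions obtained from `UC` -/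
noncomputable def ucDirs {β c₁ L ρ : ℝ} {d : ℕ} {J : Mat n} (h : UC β c₁ L ρ d J) (τ : ℝ)
    (i : ℕ) (z : Vec n) (a : ℕ) : Vec n :=
  if h2 : (β - τ * i ∈ Set.Icc 0 β ∧ ∀ j, |z j| ≤ 1) ∧ a < d then
    (Win.UC.orth h (β - τ * i) h2.1.1 z h2.1.2).choose ⟨a, h2.2⟩ else 0

lemma ucDirs_norm {β c₁ L ρ : ℝ} {d : ℕ} {J : Mat n} (h : UC β c₁ L ρ d J) (τ : ℝ)
    (i : ℕ) (z : Vec n) (a : ℕ) : ucDirs h τ i z a = 0 ∨ sq (ucDirs h τ i z a) = 1 := by
  unfold ucDirs
  split_ifs with h2
  · rcases (Win.UC.orth h (β - τ * i) h2.1.1 z h2.1.2).choose_spec.1.1 ⟨a, h2.2⟩ with h3 | h3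
    · exact Or.inr h3
    · exact Or.inl h3
  · exact Or.inl rfl

lemma ucDirs_eq {β c₁ L ρ : ℝ} {d : ℕ} {J : Mat n} (h : UC β c₁ L ρ d J) (τ : ℝ)
    (i : ℕ) (z : Vec n) (h1 : β - τ * i ∈ Set.Icc 0 β) (h2 : ∀ j, |z j| ≤ 1) :
    (fun a : Fin d => ucDirs h τ i z a) = (Win.UC.orth h (β - τ * i) h1 z h2).choose := by
  funext a
  unfold ucDirs
  rw [dif_pos ⟨⟨h1, h2⟩, a.2⟩]

/-- one zero direction added -/
lemma ucDirs_orth {β c₁ L ρ : ℝ} {d : ℕ} {J : Mat n} (h : UC β c₁ L ρ d J) (τ : ℝ)
    (i : ℕ) (z : Vec n) (h1 : β - τ * i ∈ Set.Icc 0 β) (h2 : ∀ j, |z j| ≤ 1) :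
    Win.Orth (fun a : Fin (d + 1) => ucDirs h τ i z a) := by
  have e := ucDirs_eq h τ i z h1 h2
  have ho := (Win.UC.orth h (β - τ * i) h1 z h2).choose_spec.1
  rw [← e] at ho
  have h0 : ∀ a : ℕ, ¬ a < d → ucDirs h τ i z a = 0 := by
    intro a ha
    unfold ucDirs
    rw [dif_neg (fun h3 => ha h3.2)]
  refine ⟨fun a => ?_, fun a b hab => ?_⟩
  · rcases ucDirs_norm h τ i z a with h3 | h3
    · exact Or.inr h3
    · exact Or.inl h3
  · by_cases ha : (a : ℕ) < d
    · by_cases hb : (b : ℕ) < d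
      · exact ho.2 ⟨a, ha⟩ ⟨b, hb⟩ (fun h3 => hab (Fin.ext (Fin.mk.inj_iff.1 h3)))
      · show ip (ucDirs h τ i z a) (ucDirs h τ i z b) = 0
        rw [h0 b hb]; unfold ip; simp
    · show ip (ucDirs h τ i z a) (ucDirs h τ i z b) = 0
      rw [h0 a ha]; unfold ip; simp

/-- D6 from its pieces -/
theorem d6_of (hMM : MMStatement) (hOK : OKStatement) (hDr : DriftStatement)
    (hEx : ExitStatement) : D6Statement := by
  intro β hβ0 hβ1 I F n J hg
  obtain ⟨c₁, hc₁, L, hL, ρ₀, hρ₀, huc⟩ := hg.uc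
  set ε : ℝ := (1 - β) ^ 2 / 4 with hεd
  have hβp : 0 < 1 - β := by linarith only [hβ1]
  have hε : 0 < ε := by positivity
  set ρ : ℝ := min ρ₀ (min 1 ((1 - β) / 4)) with hρd
  have hρ : 0 < ρ := lt_min hρ₀ (lt_min one_pos (by positivity))
  have hρ1 : ρ ≤ 1 := (min_le_right _ _).trans (min_le_left _ _)
  have hρβ : ρ ≤ (1 - β) / 4 := (min_le_right _ _).trans (min_le_right _ _)
  obtain ⟨d, hd⟩ := huc ρ hρ (min_le_left _ _)
  obtain ⟨τ₀, hτ₀, hex⟩ := hEx β hβ0 hβ1 F n J hg c₁ L ε ρ (d + 1) hc₁ hL hε hρ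
  set τ₁ : ℝ := min τ₀ (c₁ / 36) with hτ₁d
  have hτ₁ : 0 < τ₁ := lt_min hτ₀ (by positivity)
  obtain ⟨Nw', hNw'⟩ := exists_nat_ge (β / τ₁)
  set Nw : ℕ := Nw' + 1 with hNwd
  have hNw : 0 < Nw := Nat.succ_pos _
  have hNwR : (0 : ℝ) < Nw := by exact_mod_cast hNw
  have hτ : β / Nw ≤ τ₁ := by
    rw [div_le_iff₀ hNwR]
    rw [div_le_iff₀ hτ₁] at hNw'
    have : (Nw' : ℝ) ≤ Nw := by rw [hNwd]; push_cast; linarith only [hβ0, hρ, hρβ]
    (by_contra nlg; linarith only [mul_pos (sub_pos.2 (not_le.1 nlg)) (sub_pos.2 hρ), mul_nonneg (le_of_lt (sub_pos.2 (not_le.1 nlg))) (sub_nonneg.2 hρ1), mul_nonneg (le_of_lt (sub_pos.2 hρ)) (sub_nonneg.2 hNw'), mul_nonneg (sub_nonneg.2 hρ1) (sub_nonneg.2 hNw'), mul_nonneg (le_of_lt (sub_pos.2 hτ₁)) (sub_nonneg.2 this)])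
  obtain ⟨ℓ', hℓ'⟩ := exists_nat_ge (16 / ρ)
  set ℓ : ℕ := ℓ' + 1 with hℓd
  have hℓ : 0 < ℓ := Nat.succ_pos _
  have hℓρ : 16 ≤ ρ * ℓ := by
    rw [div_le_iff₀ hρ] at hℓ'
    have : (ℓ' : ℝ) ≤ ℓ := by rw [hℓd]; push_cast; linarith only [hρβ, hρ, hβ0]
    (by_contra nlg; linarith only [mul_pos (sub_pos.2 (not_le.1 nlg)) (sub_pos.2 hρ), mul_nonneg (le_of_lt (sub_pos.2 (not_le.1 nlg))) (sub_nonneg.2 hρ1), mul_nonneg (le_of_lt (sub_pos.2 hρ)) (sub_nonneg.2 hℓ'), mul_nonneg (le_of_lt (sub_pos.2 hρ)) (sub_nonneg.2 this), mul_nonneg (sub_nonneg.2 hρ1) (sub_nonneg.2 hℓ')])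
  set Ks : ℝ := Win.Ks c₁ L with hKsd
  have hKs : 0 ≤ Ks := by rw [hKsd]; unfold Win.Ks; (clear * - hL hc₁; positivity)
  set c : ℝ := min (min (c₁ / 4) ((1 - β) ^ 2 / 2)) 1 with hcd
  have hc : 0 < c := lt_min (lt_min (by positivity) (by positivity)) one_pos
  obtain ⟨C₀, hC₀⟩ := hg.kb 4 (c / 2) Ks (Nw * (d + 1)) le_rfl (by positivity)
  set K : Cst := { β := β, κ₀ := 4, c₁ := c₁, L := L, ε := ε, C₀ := C₀, ρ := ρ, Ks := Ks,
                   Kp := Nw * (d + 1 : ℕ) * Ks, Nw := Nw, d := d + 1, ℓ := ℓ } with hKd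
  have hKc : K.c = c := rfl
  have hKOK : K.OK :=
    { hβ := hβ0, hβ1 := hβ1, hκ := rfl, hc₁ := hc₁, hL := hL, hε := hε, hρ := hρ, hρ1 := hρ1,
      hερ := by
        show ε + 3 * ρ ^ 2 ≤ (1 - β) ^ 2 / 2
        have : ρ ^ 2 ≤ ((1 - β) / 4) ^ 2 := pow_le_pow_left₀ hρ.le hρβ 2
        linarith only [this, hε, hεd]
      hKs := rfl, hKp := rfl, hNw := hNw, hd := Nat.succ_pos d
      hτ := hτ.trans (min_le_right _ _)
      hℓ := hℓρ }
  obtain ⟨Pm, hPm, c', hc', hexi⟩ := hex K hKOK rfl rfl rfl rfl rfl rfl (hτ.trans (min_le_left _ _))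
  obtain ⟨C1, hC1, hok⟩ := hOK K hKOK
  obtain ⟨C2, hC2, hdr⟩ := hDr K hKOK
  set C : ℝ := max C1 C2 + 1 with hCd
  have hC1' : C1 ≤ C := by rw [hCd]; linarith only [le_max_left C1 C2, hρβ, hρ, hβ0]
  have hC2' : C2 ≤ C := by rw [hCd]; linarith only [le_max_right C1 C2, hρβ, hρ, hβ0]
  have hCp : 0 < C := by rw [hCd]; linarith only [le_max_left C1 C2, hC1, hρβ, hρ, hβ0]
  refine ⟨C ^ 2 + C + 1, C, c', by (clear * - hC1; positivity), hCp, hc', ?_⟩
  filter_upwards [hg.op ε hε, hg.op 1 one_pos, hd, hC₀, hexi] with i h1 h2 h3 h4 h5 δ₀ hδ₀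
  have hJ3 : OpLe (J i) 3 := by norm_num at h2; exact h2
  obtain ⟨S0, hS0⟩ := d6_exists_sqrt (hg.symm i) (by norm_num) hJ3 (κ := 4) (by norm_num)
  have hr : ∀ j : ℕ, j < Nw → β - β / Nw * j ∈ Set.Icc 0 β := by
    intro j hj
    have hjR : (j : ℝ) ≤ Nw := by exact_mod_cast hj.le
    have h6 : β / Nw * j ≤ β := by
      calc β / Nw * j ≤ β / Nw * Nw := mul_le_mul_of_nonneg_left hjR (by (clear * - hβ0; positivity))
        _ = β := by field_simp
    have h7 : 0 ≤ β / Nw * j := by (clear * - hβ0; positivity)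
    exact ⟨by linarith only [h6], by linarith only [h7]⟩
  set p : SPar (n i) :=
    { β := β, κ₀ := 4, Nw := Nw, d := d + 1, Ks := Ks, Kp := Nw * (d + 1 : ℕ) * Ks, ρ := ρ,
      q := 1, ℓ := ℓ,
      J := J i, S0 := S0, dirs := ucDirs h3 (β / Nw),
      hβ := hβ0, hβ1 := hβ1, hκ := by norm_num, hNw := hNw, hd := Nat.succ_pos d, hKs := hKs,
      hKp := le_rfl, hρ := hρ, hq := one_pos, hℓ := hℓ,
      hJ := by ext a b; exact hg.symm i b a
      hJ3 := hJ3, hS0 := hS0, hdirs := fun j z a => ucDirs_norm h3 _ j z a } with hpd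
  have hp : p.Adm K :=
    { ok := hKOK, β_eq := rfl, κ_eq := rfl, Nw_eq := rfl, d_eq := rfl, Ks_eq := rfl, Kp_eq := rfl,
      ρ_eq := rfl, ℓ_eq := rfl, op := h1, zd := hg.diag i, kb := h4
      dirs_orth := by
        intro j hj z hz
        exact ucDirs_orth h3 (β / Nw) j z (hr j hj) hz
      dirs_hl := by
        intro j hj z hz m hm hmz v hv
        have e := ucDirs_eq h3 (β / Nw) j z (hr j hj) hz
        refine (Win.UC.orth h3 (β - β / Nw * j) (hr j hj) z hz).choose_spec.2 m hm hmz v ?_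
        intro a
        have h8 := hv (Fin.castSucc a)
        have h9 := congrFun e a
        rw [← h9]
        exact h8 }
  obtain ⟨E, hE0, hE⟩ := hdr p hp
  obtain ⟨q₀, hq₀⟩ := h5 p hp rfl
  obtain ⟨q₁, hq₁⟩ := exists_nat_ge (max (1 / δ₀) (E ^ 2))
  set q' : ℕ := max q₀ (q₁ + 1) with hqd'
  have hq' : 0 < q' := lt_of_lt_of_le (Nat.succ_pos q₁) (le_max_right _ _)
  set q : ℕ := Pm * q' with hqd
  have hq : 0 < q := Nat.mul_pos hPm hq'
  have hqR : (0 : ℝ) < q := by exact_mod_cast hq
  have hq1q : (q₁ : ℝ) ≤ q := by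
    have h6 : q₁ ≤ q' := (Nat.le_succ _).trans (le_max_right _ _)
    have h7 : q' ≤ q := by rw [hqd]; exact Nat.le_mul_of_pos_left _ hPm
    exact_mod_cast h6.trans h7
  have hdl : (p.withQ q hq).dl = 1 / q := rfl
  have hM := hMM (p.withQ q hq)
  have hm := (p.withQ q hq).mhMeas hKOK.c_pos
  refine Loc.toD6Out ((p.withQ q hq).loc K.c hM hm) (K := E) hCp.le
    ((hok (p.withQ q hq) (hp.withQ q hq) hM hm).mono hC1 hC1') ((hE q hq hM hm).mono hC2 hC2')
    ?_ ?_ (hq₀ q' (le_max_left _ _) hq hM hm)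
  · show E * √((p.withQ q hq).dl) ≤ 1
    rw [hdl]
    have h6 : E ^ 2 ≤ q := ((le_max_right _ _).trans hq₁).trans hq1q
    have h7 : E ≤ √(q : ℝ) := Real.le_sqrt_of_sq_le h6
    rw [one_div, Real.sqrt_inv, ← div_eq_mul_inv]
    exact div_le_one_of_le₀ h7 (Real.sqrt_nonneg _)
  · show (p.withQ q hq).dl ≤ δ₀
    rw [hdl, div_le_iff₀ hqR]
    have h6 : 1 / δ₀ ≤ q := ((le_max_left _ _).trans hq₁).trans hq1q
    rw [div_le_iff₀ hδ₀] at h6
    linarith only [h6]

end Vale.Agent.P150.F
end

section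

/-! Mixing uniformly over all external fields: burn-in argument. -/

open Filter Topology

namespace Vale.Agent.P150.Unif

open Semi

variable {n : ℕ} {J : Fin n → Fin n → ℝ} (b : Fin n → ℝ)

/-- total variation decay from a single start -/
theorem tv_le_of_mlsi_at (hJ : ∀ i j, J i j = J j i) (C m : ℝ) (hC : 0 < C)
    (hM : ∀ f : Cfg n → ℝ, (∀ x, 0 < f x) →
      entg J b f ≤ C * dir J b f (fun x => Real.log (f x)))
    (x : Cfg n) (hmin : Real.exp (-m) ≤ gibbs J b x) (t : ℝ) (ht : 0 ≤ t) :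
    (2 * tvDist J b t x) ^ 2 ≤ 2 * (Real.exp (-(t / C)) * m) := by
  have h1 := entg_dens_decay b hJ C hC hM x t ht
  rw [entg_dens_zero] at h1
  have h2 : -Real.log (gibbs J b x) ≤ m := by
    have := Real.log_le_log (Real.exp_pos _) hmin
    rw [Real.log_exp] at this
    linarith only [this]
  have h3 := pinsker b (dens J b x t) (dens_nonneg b x ht) (ex_dens b x t)
  have h4 : entg J b (dens J b x t) = ex J b (fun y => dens J b x t y * Real.log (dens J b x t y)) := by
    unfold entg
    rw [ex_dens, Real.log_one, mul_zero, sub_zero]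
  rw [← h4] at h3
  rw [tvDist_eq]
  have h5 : 2 * (1 / 2 * ∑ y, gibbs J b y * |dens J b x t y - 1|)
      = ∑ y, gibbs J b y * |dens J b x t y - 1| := by ring
  rw [h5]
  refine h3.trans ?_
  have h6 := mul_le_mul_of_nonneg_left h2 (Real.exp_pos (-(t / C))).le
  linarith only [h1, h6]

lemma tvDist_le_one {t : ℝ} (ht : 0 ≤ t) (x : Cfg n) : tvDist J b t x ≤ 1 := by
  unfold tvDist
  have h1 : ∑ y, |kernel J b t x y - gibbs J b y| ≤ ∑ y, (kernel J b t x y + gibbs J b y) := by
    apply Finset.sum_le_sum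
    intro y _
    have h2 := kernel_nonneg (J := J) b ht x y
    have h3 := (gibbs_pos J b y).le
    rw [abs_le]
    constructor <;> linarith
  rw [Finset.sum_add_distrib, kernel_row] at h1
  have h4 : ∑ y, gibbs J b y = 1 := Poinc.gibbs_sum J b
  rw [h4] at h1
  linarith

/-- the semigroup property and convexity of total variation -/
lemma tvDist_add {s t : ℝ} (hs : 0 ≤ s) (x : Cfg n) :
    tvDist J b (s + t) x ≤ ∑ z, kernel J b s x z * tvDist J b t z := by
  unfold tvDist
  have h1 : ∀ y, kernel J b (s + t) x y - gibbs J b y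
      = ∑ z, kernel J b s x z * (kernel J b t z y - gibbs J b y) := by
    intro y
    rw [kernel_add, Matrix.mul_apply]
    simp only [mul_sub, Finset.sum_sub_distrib]
    rw [← Finset.sum_mul, kernel_row, one_mul]
  calc 1 / 2 * ∑ y, |kernel J b (s + t) x y - gibbs J b y|
      ≤ 1 / 2 * ∑ y, ∑ z, kernel J b s x z * |kernel J b t z y - gibbs J b y| := by
        apply mul_le_mul_of_nonneg_left _ (by norm_num)
        apply Finset.sum_le_sum
        intro y _
        rw [h1]
        refine (Finset.abs_sum_le_sum_abs _ _).trans ?_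
        apply Finset.sum_le_sum
        intro z _
        rw [abs_mul, abs_of_nonneg (kernel_nonneg (J := J) b hs x z)]
    _ = ∑ z, kernel J b s x z * (1 / 2 * ∑ y, |kernel J b t z y - gibbs J b y|) := by
        rw [Finset.sum_comm, Finset.mul_sum]
        apply Finset.sum_congr rfl
        intro z _
        rw [← Finset.mul_sum]
        ring

/-- resampling the indicator of a single-site event -/
lemma resample_site (i k : Fin n) (s : Bool) (x : Cfg n) :
    resample J b k (fun z => if z i = s then (1:ℝ) else 0) x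
      = if k = i then Real.exp (sp s * locField J b x i) / (2 * Real.cosh (locField J b x i))
        else if x i = s then 1 else 0 := by
  unfold resample
  by_cases hk : k = i
  · subst hk
    simp only [if_true, Function.update_self]
    cases s <;> simp
  · rw [if_neg hk]
    have h1 : ∀ u : Bool, (Function.update x k u) i = x i := by
      intro u
      rw [Function.update_of_ne (Ne.symm hk)]
    simp only [h1]
    have h2 := resample_weight_sum (J := J) b x k
    rw [← Finset.sum_mul, h2, one_mul]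

lemma gen_site (i : Fin n) (s : Bool) (x : Cfg n) :
    gen J b (fun z => if z i = s then (1:ℝ) else 0) x
      = Real.exp (sp s * locField J b x i) / (2 * Real.cosh (locField J b x i))
        - if x i = s then 1 else 0 := by
  unfold gen
  rw [Finset.sum_eq_single i]
  · rw [resample_site, if_pos rfl]
  · intro k _ hk
    rw [resample_site, if_neg hk, sub_self]
  · simp

/-- one-site marginals of `P_t` -/
lemma site_marginal (i : Fin n) (s : Bool) (Q : ℝ)
    (hQ : ∀ z, Real.exp (sp s * locField J b z i) / (2 * Real.cosh (locField J b z i)) ≤ Q)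
    (t : ℝ) (ht : 0 ≤ t) (x : Cfg n) :
    Pt J b t (fun z => if z i = s then (1:ℝ) else 0) x ≤ Real.exp (-t) + Q := by
  set f : Cfg n → ℝ := fun z => if z i = s then (1:ℝ) else 0 with hf
  have hQ0 : 0 ≤ Q := le_trans (by positivity) (hQ x)
  -- F u = e^u (P_u f - Q) is antitone
  set F : ℝ → ℝ := fun u => Real.exp u * (Pt J b u f x - Q) with hF
  have hd : ∀ u, HasDerivAt F (Real.exp u * (Pt J b u f x - Q) + Real.exp u * Pt J b u (gen J b f) x) u := by
    intro u
    exact (Real.hasDerivAt_exp u).mul ((Pt_deriv b f u x).sub_const Q)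
  have hle : ∀ u, 0 ≤ u → Pt J b u (gen J b f) x ≤ Q - Pt J b u f x := by
    intro u hu
    have h1 : Q - Pt J b u f x = Pt J b u (fun z => Q - f z) x := by
      unfold Pt
      simp only [mul_sub, Finset.sum_sub_distrib]
      rw [← Finset.sum_mul, kernel_row, one_mul]
    rw [h1]
    unfold Pt
    apply Finset.sum_le_sum
    intro z _
    apply mul_le_mul_of_nonneg_left _ (kernel_nonneg (J := J) b hu x z)
    rw [hf, gen_site]
    have := hQ z
    simp only
    linarith
  have hanti : AntitoneOn F (Set.Ici 0) := by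
    apply antitoneOn_of_deriv_nonpos (convex_Ici 0)
    · exact fun u _ => (hd u).continuousAt.continuousWithinAt
    · exact fun u _ => (hd u).differentiableAt.differentiableWithinAt
    · intro u hu
      rw [interior_Ici] at hu
      rw [(hd u).deriv, ← mul_add]
      have h2 := hle u (le_of_lt hu)
      exact mul_nonpos_of_nonneg_of_nonpos (Real.exp_pos _).le (by linarith)
  have h0 := hanti (Set.mem_Ici.mpr le_rfl) (Set.mem_Ici.mpr ht) ht
  simp only [hF, Real.exp_zero, one_mul, Pt_zero] at h0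
  have h3 : f x ≤ 1 := by rw [hf]; simp only; split_ifs <;> norm_num
  have h4 : Real.exp t * (Pt J b t f x - Q) ≤ 1 := by linarith
  have h5 : Pt J b t f x - Q ≤ Real.exp (-t) := by
    have h6 := mul_le_mul_of_nonneg_left h4 (Real.exp_pos (-t)).le
    rw [← mul_assoc, ← Real.exp_add, neg_add_cancel, Real.exp_zero, one_mul, mul_one] at h6
    exact h6
  linarith

end Vale.Agent.P150.Unif
end
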