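import Mathlib
import Vale.Agent.P150.Bdl.B1

set_option linter.all false

section

/-!
The scalar Gaussian channel `a = γ σ + √γ N`: overlap, free energy, Nishimori identities.
-/

open MeasureTheory ProbabilityTheory Filter Topology

namespace Vale.Agent.P150.F

/-! ### tanh -/

lemma sc_tanh_deriv (x : ℝ) : HasDerivAt Real.tanh (1 - Real.tanh x ^ 2) x := by
  have hc : Real.cosh x ≠ 0 := (Real.cosh_pos x).ne'
  have h := (Real.hasDerivAt_sinh x).div (Real.hasDerivAt_cosh x) hc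
  have e : (fun x => Real.sinh x / Real.cosh x) = Real.tanh := by
    funext y; rw [Real.tanh_eq_sinh_div_cosh]
  have h' : HasDerivAt Real.tanh ((Real.cosh x * Real.cosh x - Real.sinh x * Real.sinh x) /
      Real.cosh x ^ 2) x := by
    rw [← e]; exact h
  convert h' using 1
  rw [Real.tanh_eq_sinh_div_cosh]
  field_simp

lemma sc_tanh_cont : Continuous Real.tanh :=
  continuous_iff_continuousAt.2 fun x => (sc_tanh_deriv x).continuousAt

lemma sc_abs_tanh (x : ℝ) : |Real.tanh x| ≤ 1 := (Real.abs_tanh_lt_one x).le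

lemma sc_tanh_sq (x : ℝ) : Real.tanh x ^ 2 ≤ 1 := (Real.tanh_sq_lt_one x).le

/-- reflection identity behind the Nishimori line -/
lemma sc_refl (a : ℝ) : (1 + Real.tanh a) * Real.exp (-2 * a) = 1 - Real.tanh a := by
  have h1 : Real.exp a * Real.exp (-a) = 1 := by rw [← Real.exp_add]; simp
  have h2 : Real.exp (-2 * a) = Real.exp (-a) * Real.exp (-a) := by
    rw [← Real.exp_add]; ring_nf
  have h3 : 0 < Real.exp a + Real.exp (-a) := by positivity
  rw [Real.tanh_eq, h2]
  field_simp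
  nlinarith [h1]

/-! ### Gaussian integrals -/

/-- the scalar channel, in terms of the standard deviation -/
noncomputable def gT (t : ℝ) (f : ℝ → ℝ) : ℝ := ∫ x, f (t ^ 2 + t * x) ∂(gaussianReal 0 1)

/-- expectation of a function of `γ + √γ N` -/
noncomputable def gE (γ : ℝ) (f : ℝ → ℝ) : ℝ :=
  ∫ x, f (γ + Real.sqrt γ * x) ∂(gaussianReal 0 1)

lemma gE_eq {γ : ℝ} (h : 0 ≤ γ) (f : ℝ → ℝ) : gE γ f = gT (Real.sqrt γ) f := by
  unfold gE gT
  rw [Real.sq_sqrt h]

lemma sc_int_id : Integrable (fun x : ℝ => x) (gaussianReal 0 1) := by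
  have := (memLp_id_gaussianReal (μ := 0) (v := 1) 1).integrable le_rfl
  exact this

lemma sc_int_abs : Integrable (fun x : ℝ => |x|) (gaussianReal 0 1) := sc_int_id.abs

lemma sc_int_of_le {F : ℝ → ℝ} (hF : Continuous F) {A B : ℝ} (h : ∀ x, |F x| ≤ A + B * |x|) :
    Integrable F (gaussianReal 0 1) := by
  refine ((integrable_const A).add (sc_int_abs.const_mul B)).mono' hF.aestronglyMeasurable ?_
  exact Eventually.of_forall fun x => by simpa using h x

lemma sc_int_bdd {F : ℝ → ℝ} (hF : Continuous F) {A : ℝ} (h : ∀ x, |F x| ≤ A) :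
    Integrable F (gaussianReal 0 1) :=
  sc_int_of_le hF (A := A) (B := 0) fun x => by simpa using h x

/-- Nishimori identity: for odd `f`, `E f(a) = E f(a) tanh a`. -/
theorem nishiT {f : ℝ → ℝ} (hodd : ∀ x, f (-x) = - f x) (t : ℝ)
    (hi : Integrable (fun x => f (t ^ 2 + t * x)) (gaussianReal 0 1))
    (hi2 : Integrable (fun x => f (t ^ 2 + t * x) * Real.tanh (t ^ 2 + t * x))
      (gaussianReal 0 1)) :
    gT t f = gT t (fun a => f a * Real.tanh a) := by
  have key : ∫ x, f (t ^ 2 + t * x) * (1 - Real.tanh (t ^ 2 + t * x)) ∂(gaussianReal 0 1) = 0 := by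
    have e1 : ∫ x, f (t ^ 2 + t * x) * (1 - Real.tanh (t ^ 2 + t * x)) ∂(gaussianReal 0 1) =
        - ∫ x, f (t ^ 2 + t * x) * (1 - Real.tanh (t ^ 2 + t * x)) ∂(gaussianReal 0 1) := by
      rw [integral_gaussianReal_eq_integral_smul one_ne_zero, ← integral_neg]
      rw [← integral_sub_left_eq_self (fun x => gaussianPDFReal 0 1 x •
        (f (t ^ 2 + t * x) * (1 - Real.tanh (t ^ 2 + t * x)))) volume (-2 * t)]
      refine integral_congr_ae (Eventually.of_forall fun x => ?_)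
      simp only [smul_eq_mul]
      have h1 : t ^ 2 + t * (-2 * t - x) = -(t ^ 2 + t * x) := by ring
      rw [h1, hodd, Real.tanh_neg]
      have h2 : gaussianPDFReal 0 1 (-2 * t - x) =
          gaussianPDFReal 0 1 x * Real.exp (-2 * (t ^ 2 + t * x)) := by
        have hx : -(-2 * t - x - 0) ^ 2 / (2 * ((1 : NNReal) : ℝ)) =
            -(x - 0) ^ 2 / (2 * ((1 : NNReal) : ℝ)) + (-2 * (t ^ 2 + t * x)) := by
          rw [NNReal.coe_one]
          ring
        unfold gaussianPDFReal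
        rw [hx, Real.exp_add]
        ring
      rw [h2]
      have h3 := sc_refl (t ^ 2 + t * x)
      have h4 : 1 - -Real.tanh (t ^ 2 + t * x) = 1 + Real.tanh (t ^ 2 + t * x) := by ring
      rw [h4]
      calc gaussianPDFReal 0 1 x * Real.exp (-2 * (t ^ 2 + t * x)) *
            (-f (t ^ 2 + t * x) * (1 + Real.tanh (t ^ 2 + t * x)))
          = -(gaussianPDFReal 0 1 x * (f (t ^ 2 + t * x) *
            ((1 + Real.tanh (t ^ 2 + t * x)) * Real.exp (-2 * (t ^ 2 + t * x))))) := by ring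
        _ = _ := by rw [h3]
    linarith
  have e2 : ∫ x, f (t ^ 2 + t * x) * (1 - Real.tanh (t ^ 2 + t * x)) ∂(gaussianReal 0 1) =
      gT t f - gT t (fun a => f a * Real.tanh a) := by
    unfold gT
    rw [← integral_sub hi hi2]
    refine integral_congr_ae (Eventually.of_forall fun x => ?_)
    simp only
    ring
  linarith

/-- Derivative of Gaussian expectations. -/
theorem gT_deriv {f f' f'' : ℝ → ℝ} (h1 : ∀ x, HasDerivAt f (f' x) x)
    (h2 : ∀ x, HasDerivAt f' (f'' x) x) (hc : Continuous f'') {C : ℝ} (b1 : ∀ x, |f' x| ≤ C)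
    (b2 : ∀ x, |f'' x| ≤ C) (t : ℝ) :
    HasDerivAt (fun t => gT t f) (2 * t * gT t (fun a => f' a + f'' a / 2)) t := by
  have hC : 0 ≤ C := (abs_nonneg _).trans (b1 0)
  have cf : Continuous f := continuous_iff_continuousAt.2 fun x => (h1 x).continuousAt
  have cf' : Continuous f' := continuous_iff_continuousAt.2 fun x => (h2 x).continuousAt
  have hlin : ∀ x, |f x| ≤ |f 0| + C * |x| := by
    intro x
    have h := Convex.norm_image_sub_le_of_norm_hasDerivWithin_le (f := f) (f' := f') (C := C)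
      (s := Set.univ) (x := 0) (y := x) (fun x _ => (h1 x).hasDerivWithinAt)
      (fun x _ => by simpa using b1 x) convex_univ (Set.mem_univ _) (Set.mem_univ _)
    rw [Real.norm_eq_abs, Real.norm_eq_abs, sub_zero] at h
    have := abs_sub_abs_le_abs_sub (f x) (f 0)
    linarith only [this, h]
  have hmain := hasDerivAt_integral_of_dominated_loc_of_deriv_le (μ := gaussianReal 0 1)
    (F := fun s x => f (s ^ 2 + s * x)) (F' := fun s x => f' (s ^ 2 + s * x) * (2 * s + x))
    (x₀ := t) (s := Metric.ball t 1) (bound := fun x => C * (2 * (|t| + 1)) + C * |x|)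
    (Metric.ball_mem_nhds t one_pos)
    (Eventually.of_forall fun s => (cf.comp (by fun_prop)).aestronglyMeasurable)
    (sc_int_of_le (cf.comp (by fun_prop)) (A := |f 0| + C * t ^ 2) (B := C * |t|) fun x => by
      refine (hlin _).trans ?_
      have : |t ^ 2 + t * x| ≤ t ^ 2 + |t| * |x| := by
        refine (abs_add_le _ _).trans ?_
        rw [abs_mul, abs_of_nonneg (sq_nonneg t)]
      linarith only [mul_nonneg (sub_nonneg.2 hC) (sub_nonneg.2 this)])
    (((cf'.comp (by fun_prop)).mul (by fun_prop)).aestronglyMeasurable)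
    (Eventually.of_forall fun x s hs => by
      have hs' : |s| ≤ |t| + 1 := by
        rw [Metric.mem_ball, Real.dist_eq] at hs
        have := abs_sub_abs_le_abs_sub s t
        linarith
      rw [Real.norm_eq_abs, abs_mul]
      have h3 : |2 * s + x| ≤ 2 * (|t| + 1) + |x| := by
        refine (abs_add_le _ _).trans ?_
        rw [abs_mul, abs_two]
        linarith
      calc |f' (s ^ 2 + s * x)| * |2 * s + x| ≤ C * (2 * (|t| + 1) + |x|) :=
            mul_le_mul (b1 _) h3 (abs_nonneg _) hC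
        _ = _ := by ring)
    (((integrable_const _).add (sc_int_abs.const_mul C)))
    (Eventually.of_forall fun x s _ => by
      have h4 : HasDerivAt (fun s : ℝ => s ^ 2 + s * x) (2 * s + x) s := by
        have := ((hasDerivAt_id s).pow 2).add ((hasDerivAt_id s).mul_const x)
        refine this.congr_deriv ?_
        simp
      exact (h1 _).comp s h4)
  have h5 := hmain.2
  have e : ∫ x, f' (t ^ 2 + t * x) * (2 * t + x) ∂(gaussianReal 0 1) =
      2 * t * gT t (fun a => f' a + f'' a / 2) := by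
    have i1 : Integrable (fun x => f' (t ^ 2 + t * x)) (gaussianReal 0 1) :=
      sc_int_bdd (cf'.comp (by fun_prop)) fun x => b1 _
    have i2 : Integrable (fun x => f'' (t ^ 2 + t * x)) (gaussianReal 0 1) :=
      sc_int_bdd (hc.comp (by fun_prop)) fun x => b2 _
    have i3 : Integrable (fun x => x * f' (t ^ 2 + t * x)) (gaussianReal 0 1) :=
      sc_int_of_le (continuous_id.mul (cf'.comp (by fun_prop))) (A := 0) (B := C) fun x => by
        rw [abs_mul, zero_add, mul_comm]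
        exact mul_le_mul_of_nonneg_right (b1 _) (abs_nonneg _)
    have hst := stein_one (g := fun x => f' (t ^ 2 + t * x))
      (g' := fun x => f'' (t ^ 2 + t * x) * t) (fun x => by
        have h4 : HasDerivAt (fun x : ℝ => t ^ 2 + t * x) t x := by
          have := ((hasDerivAt_id x).const_mul t).const_add (t ^ 2)
          refine this.congr_deriv ?_
          simp
        exact (h2 _).comp x h4) i3 (i2.mul_const t) i1
    have e1 : ∫ x, f' (t ^ 2 + t * x) * (2 * t + x) ∂(gaussianReal 0 1) =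
        2 * t * (∫ x, f' (t ^ 2 + t * x) ∂(gaussianReal 0 1)) +
          ∫ x, x * f' (t ^ 2 + t * x) ∂(gaussianReal 0 1) := by
      rw [← integral_const_mul, ← integral_add (i1.const_mul _) i3]
      refine integral_congr_ae (Eventually.of_forall fun x => ?_)
      simp only
      ring
    have e2 : gT t (fun a => f' a + f'' a / 2) = (∫ x, f' (t ^ 2 + t * x) ∂(gaussianReal 0 1)) +
        (∫ x, f'' (t ^ 2 + t * x) ∂(gaussianReal 0 1)) / 2 := by
      unfold gT
      rw [integral_add i1 (i2.div_const 2), integral_div]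
    rw [e1, hst, e2, integral_mul_const]
    ring
  rw [e] at h5
  exact h5

end Vale.Agent.P150.F
end

section

/-! P150 FULL, D3 scalar part: the replica symmetric functions (helper812).

`NE F g = E F(g + sqrt g N)`, `qRS g = E tanh (g + sqrt g N) = E tanh^2 (g + sqrt g N)`,
`iRS g = g - E log cosh (g + sqrt g N)`. -/

open MeasureTheory ProbabilityTheory Filter Topology Set

namespace Vale.Agent.P150.F

set_option linter.all false

/-! ### tanh -/

theorem rs_tanh_deriv (a : ℝ) : HasDerivAt Real.tanh (1 - Real.tanh a ^ 2) a := by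
  have h1 : (fun x => Real.sinh x / Real.cosh x) = Real.tanh := by
    funext x; exact (Real.tanh_eq_sinh_div_cosh x).symm
  have hc : Real.cosh a ≠ 0 := (Real.cosh_pos a).ne'
  have h2 := (Real.hasDerivAt_sinh a).div (Real.hasDerivAt_cosh a) hc
  have h3 : (Real.sinh / Real.cosh : ℝ → ℝ) = Real.tanh := by
    funext x; exact (Real.tanh_eq_sinh_div_cosh x).symm
  rw [h3] at h2
  refine h2.congr_deriv ?_
  rw [Real.tanh_eq_sinh_div_cosh]
  field_simp

theorem rs_tanh_cont : Continuous Real.tanh :=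
  continuous_iff_continuousAt.2 fun a => (rs_tanh_deriv a).continuousAt

theorem rs_tanh_sq_deriv (a : ℝ) :
    HasDerivAt (fun a => 1 - Real.tanh a ^ 2) (-(2 * Real.tanh a * (1 - Real.tanh a ^ 2))) a := by
  have h := ((rs_tanh_deriv a).pow 2).const_sub 1
  refine h.congr_deriv ?_
  simp

theorem rs_tanh_abs_le (a : ℝ) : |Real.tanh a| ≤ 1 := (Real.abs_tanh_lt_one a).le

theorem rs_one_sub_nonneg (a : ℝ) : 0 ≤ 1 - Real.tanh a ^ 2 := by
  have := (Real.tanh_sq_lt_one a).le
  linarith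

theorem rs_one_sub_le (a : ℝ) : 1 - Real.tanh a ^ 2 ≤ 1 := by
  linarith only [sq_nonneg (Real.tanh a)]

theorem rs_logcosh_deriv (a : ℝ) :
    HasDerivAt (fun a => Real.log (Real.cosh a)) (Real.tanh a) a := by
  have h := (Real.hasDerivAt_cosh a).log (Real.cosh_pos a).ne'
  refine h.congr_deriv ?_
  rw [Real.tanh_eq_sinh_div_cosh]

theorem rs_logcosh_abs_le (a : ℝ) : |Real.log (Real.cosh a)| ≤ |a| := by
  rw [abs_of_nonneg (Real.log_nonneg (Real.one_le_cosh a)), ← Real.cosh_abs a]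
  rw [Real.log_le_iff_le_exp (Real.cosh_pos _)]
  rw [Real.cosh_eq]
  have h : Real.exp (-|a|) ≤ Real.exp |a| := Real.exp_le_exp.2 (by linarith only [abs_nonneg a])
  linarith only [h]

/-! ### the standard Gaussian -/

/-- the standard Gaussian law on the line -/
noncomputable abbrev gm1 : Measure ℝ := gaussianReal 0 1

theorem sg_map_neg (h : ℝ → ℝ) : ∫ x, h (-x) ∂gm1 = ∫ x, h x ∂gm1 := by
  have h1 : gm1.map (fun x : ℝ => -x) = gm1 := by
    have := gaussianReal_map_neg (μ := 0) (v := 1)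
    rw [neg_zero] at this
    exact this
  have h2 : MeasurableEmbedding (fun x : ℝ => -x) := (MeasurableEquiv.neg ℝ).measurableEmbedding
  conv_rhs => rw [← h1]
  rw [h2.integral_map]

theorem sg_odd {h : ℝ → ℝ} (ho : ∀ x, h (-x) = - h x) : ∫ x, h x ∂gm1 = 0 := by
  have h1 := sg_map_neg h
  simp_rw [ho] at h1
  rw [integral_neg] at h1
  linarith

/-- Cameron-Martin in dimension one -/
theorem sg_shift (F : ℝ → ℝ) (s : ℝ) :
    ∫ x, F (x + s) ∂gm1 = ∫ x, F x * Real.exp (s * x - s ^ 2 / 2) ∂gm1 := by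
  rw [gm1, integral_gaussianReal_eq_integral_smul one_ne_zero,
    integral_gaussianReal_eq_integral_smul one_ne_zero]
  rw [← integral_add_right_eq_self (fun x => gaussianPDFReal 0 1 x • (F x * Real.exp (s * x - s ^ 2 / 2))) s]
  congr 1
  funext x
  simp only [smul_eq_mul, gaussianPDFReal]
  have : Real.exp (-(x - 0) ^ 2 / (2 * ((1 : NNReal) : ℝ)))
      = Real.exp (-(x + s - 0) ^ 2 / (2 * ((1 : NNReal) : ℝ)))
        * Real.exp (s * (x + s) - s ^ 2 / 2) := by
    rw [← Real.exp_add]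
    congr 1
    simp
    ring
  rw [this]
  ring

/-! ### Gaussian expectations at signal to noise ratio `g` -/

/-- `E F(g + sqrt g N)` -/
noncomputable def NE (F : ℝ → ℝ) (g : ℝ) : ℝ := ∫ x, F (g + √g * x) ∂gm1

theorem sg_integrable_of_bdd {h : ℝ → ℝ} (hm : AEStronglyMeasurable h gm1) {C : ℝ}
    (hb : ∀ x, |h x| ≤ C) : Integrable h gm1 :=
  Integrable.of_bound hm C (Eventually.of_forall fun x => by rw [Real.norm_eq_abs]; exact hb x)

theorem NE_integrable {F : ℝ → ℝ} (hF : Continuous F) {C : ℝ} (hb : ∀ x, |F x| ≤ C) (g : ℝ) :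
    Integrable (fun x => F (g + √g * x)) gm1 :=
  sg_integrable_of_bdd (Continuous.aestronglyMeasurable (by fun_prop)) fun x => hb _

theorem sg_integrable_id : Integrable (fun x : ℝ => x) gm1 := by
  have h := memLp_id_gaussianReal (μ := 0) (v := 1) 1
  exact (memLp_one_iff_integrable.1 h)

theorem sg_integrable_abs : Integrable (fun x : ℝ => |x|) gm1 := sg_integrable_id.abs

theorem NE_integrable_lin {F : ℝ → ℝ} (hF : Continuous F) {C : ℝ} (hb : ∀ x, |F x| ≤ C * (1 + |x|))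
    (g : ℝ) : Integrable (fun x => F (g + √g * x)) gm1 := by
  have hC : 0 ≤ C := by
    have := (abs_nonneg _).trans (hb 0)
    simpa using this
  have h1 : Integrable (fun x : ℝ => C * (1 + |g| + √g * |x|)) gm1 :=
    ((integrable_const _).add (sg_integrable_abs.const_mul _)).const_mul _
  refine h1.mono' (Continuous.aestronglyMeasurable (by fun_prop)) (Eventually.of_forall fun x => ?_)
  rw [Real.norm_eq_abs]
  refine (hb _).trans (mul_le_mul_of_nonneg_left ?_ hC)
  have := abs_add_le g (√g * x)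
  rw [abs_mul, abs_of_nonneg (Real.sqrt_nonneg g)] at this
  linarith

theorem NE_eq_tilt (F : ℝ → ℝ) {g : ℝ} (hg : 0 ≤ g) :
    NE F g = ∫ x, F (√g * x) * Real.exp (√g * x - g / 2) ∂gm1 := by
  unfold NE
  have h := sg_shift (fun x => F (√g * x)) (√g)
  have h2 : (fun x => F (g + √g * x)) = fun x => F (√g * (x + √g)) := by
    funext x
    congr 1
    rw [mul_add, Real.mul_self_sqrt hg]
    ring
  rw [h2, h, Real.sq_sqrt hg]

/-- Nishimori identity for odd test functions -/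
theorem NE_odd {F : ℝ → ℝ} (hF : Continuous F) {C : ℝ} (hb : ∀ x, |F x| ≤ C * (1 + |x|))
    (ho : ∀ x, F (-x) = - F x) {g : ℝ} (hg : 0 ≤ g) :
    NE F g = NE (fun a => F a * Real.tanh a) g := by
  have hC : 0 ≤ C := by
    have := (abs_nonneg _).trans (hb 0)
    simpa using this
  have hb2 : ∀ x, |F x * Real.tanh x| ≤ C * (1 + |x|) := by
    intro x
    rw [abs_mul]
    have h1 := hb x
    have h2 := rs_tanh_abs_le x
    calc |F x| * |Real.tanh x| ≤ |F x| * 1 := mul_le_mul_of_nonneg_left h2 (abs_nonneg _)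
      _ ≤ _ := by linarith
  have hc : Continuous fun a => F a * Real.tanh a := hF.mul rs_tanh_cont
  have e : NE F g - NE (fun a => F a * Real.tanh a) g = 0 := by
    unfold NE
    rw [← integral_sub (NE_integrable_lin hF hb g) (NE_integrable_lin hc hb2 g)]
    have h1 := NE_eq_tilt (fun a => F a - F a * Real.tanh a) hg
    unfold NE at h1
    rw [h1]
    have h2 : (fun x => (F (√g * x) - F (√g * x) * Real.tanh (√g * x))
        * Real.exp (√g * x - g / 2))
        = fun x => Real.exp (-(g / 2)) * (F (√g * x) / Real.cosh (√g * x)) := by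
      funext x
      set u := √g * x with hu
      have h3 : Real.exp (u - g / 2) = Real.exp (-(g / 2)) * Real.exp u := by
        rw [← Real.exp_add]; congr 1; ring
      have h4 : (1 - Real.tanh u) * Real.exp u = 1 / Real.cosh u := by
        rw [Real.tanh_eq_sinh_div_cosh]
        have hcp := (Real.cosh_pos u).ne'
        field_simp
        have h5 := Real.cosh_sub_sinh u
        rw [h5, ← Real.exp_add, neg_add_cancel, Real.exp_zero]
      calc (F u - F u * Real.tanh u) * Real.exp (u - g / 2)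
          = Real.exp (-(g / 2)) * (F u * ((1 - Real.tanh u) * Real.exp u)) := by
            rw [h3]; ring
        _ = _ := by rw [h4]; ring
    rw [h2, integral_const_mul]
    have h3 : ∫ x, F (√g * x) / Real.cosh (√g * x) ∂gm1 = 0 := by
      apply sg_odd
      intro x
      rw [mul_neg, ho, Real.cosh_neg, neg_div]
    rw [h3, mul_zero]
  linarith

theorem NE_congr {F G : ℝ → ℝ} (h : ∀ a, F a = G a) (g : ℝ) : NE F g = NE G g := by
  have : F = G := funext h
  rw [this]

theorem NE_continuous {F : ℝ → ℝ} (hF : Continuous F) {C : ℝ} (hb : ∀ x, |F x| ≤ C * (1 + |x|)) :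
    Continuous (NE F) := by
  have hC : 0 ≤ C := by
    have := (abs_nonneg _).trans (hb 0)
    simpa using this
  rw [continuous_iff_continuousAt]
  intro g0
  refine continuousAt_of_dominated (bound := fun x => C * (1 + (|g0| + 1) + √(|g0| + 1) * |x|))
    (Eventually.of_forall fun g => (NE_integrable_lin hF hb g).aestronglyMeasurable) ?_ ?_ ?_
  · have hn : ∀ᶠ g in 𝓝 g0, |g| ≤ |g0| + 1 := by
      have : ∀ᶠ g in 𝓝 g0, |g| < |g0| + 1 :=
        continuous_abs.continuousAt.eventually_lt continuousAt_const (by simp)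
      exact this.mono fun g hg => hg.le
    refine hn.mono fun g hg => Eventually.of_forall fun x => ?_
    rw [Real.norm_eq_abs]
    refine (hb _).trans (mul_le_mul_of_nonneg_left ?_ hC)
    have h1 := abs_add_le g (√g * x)
    rw [abs_mul, abs_of_nonneg (Real.sqrt_nonneg g)] at h1
    have h2 : √g ≤ √(|g0| + 1) := Real.sqrt_le_sqrt ((le_abs_self g).trans hg)
    have h3 := mul_le_mul_of_nonneg_right h2 (abs_nonneg x)
    linarith
  · exact ((integrable_const _).add (sg_integrable_abs.const_mul _)).const_mul _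
  · exact Eventually.of_forall fun x => by
      have : Continuous fun g => F (g + √g * x) := by fun_prop
      exact this.continuousAt

/-- derivative in the signal to noise ratio -/
theorem NE_hasDerivAt {F F' F'' : ℝ → ℝ} (h1 : ∀ a, HasDerivAt F (F' a) a)
    (h2 : ∀ a, HasDerivAt F' (F'' a) a) (hc : Continuous F'') {C : ℝ}
    (hb0 : ∀ x, |F x| ≤ C * (1 + |x|)) (hb1 : ∀ x, |F' x| ≤ C)
    (hb2 : ∀ x, |F'' x| ≤ C) {g : ℝ} (hg : 0 < g) :
    HasDerivAt (NE F) (NE F' g + NE F'' g / 2) g := by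
  have hC : 0 ≤ C := (abs_nonneg _).trans (hb1 0)
  have hcF : Continuous F := continuous_iff_continuousAt.2 fun a => (h1 a).continuousAt
  have hcF' : Continuous F' := continuous_iff_continuousAt.2 fun a => (h2 a).continuousAt
  have hs : (0 : ℝ) < √g := Real.sqrt_pos.2 hg
  have key := hasDerivAt_integral_of_dominated_loc_of_deriv_le (μ := gm1)
    (F := fun y x => F (y + √y * x))
    (F' := fun y x => F' (y + √y * x) * (1 + x / (2 * √y)))
    (x₀ := g) (s := Ioi (g / 2)) (bound := fun x => C * (1 + |x| / (2 * √(g / 2))))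
    (Ioi_mem_nhds (by linarith only [hg]))
    (Eventually.of_forall fun y => (NE_integrable_lin hcF hb0 y).aestronglyMeasurable)
    (NE_integrable_lin hcF hb0 g)
    (Continuous.aestronglyMeasurable (by fun_prop))
    (Eventually.of_forall fun x y hy => by
      have hy' : g / 2 < y := hy
      have hg2 : 0 < √(g / 2) := Real.sqrt_pos.2 (by linarith only [hg])
      have hle : √(g / 2) ≤ √y := Real.sqrt_le_sqrt hy'.le
      have hsy : 0 < √y := hg2.trans_le hle
      rw [Real.norm_eq_abs, abs_mul]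
      refine mul_le_mul (hb1 _) ?_ (abs_nonneg _) hC
      refine (abs_add_le _ _).trans ?_
      rw [abs_one, abs_div, abs_of_pos (by positivity : (0 : ℝ) < 2 * √y)]
      have : |x| / (2 * √y) ≤ |x| / (2 * √(g / 2)) :=
        div_le_div_of_nonneg_left (abs_nonneg x) (by positivity) (by linarith only [hle])
      linarith only [this])
    (((integrable_const _).add (sg_integrable_abs.div_const _)).const_mul _)
    (Eventually.of_forall fun x y hy => by
      have hy' : g / 2 < y := hy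
      have hy0 : y ≠ 0 := by linarith
      have e1 : HasDerivAt (fun y => y + √y * x) (1 + 1 / (2 * √y) * x) y :=
        (hasDerivAt_id y).add ((Real.hasDerivAt_sqrt hy0).mul_const x)
      have e2 := (h1 (y + √y * x)).comp y e1
      refine e2.congr_deriv ?_
      ring)
  have e := key.2
  refine e.congr_deriv ?_
  -- Gaussian integration by parts
  have hst := Vale.Agent.P150.stein_one (g := fun x => F' (g + √g * x))
    (g' := fun x => F'' (g + √g * x) * √g)
    (fun t => by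
      have e1 : HasDerivAt (fun t => g + √g * t) (√g) t := by
        have := ((hasDerivAt_id t).const_mul (√g)).const_add g
        refine this.congr_deriv ?_
        ring
      exact (h2 (g + √g * t)).comp t e1)
    (by
      refine (sg_integrable_abs.const_mul C).mono' (Continuous.aestronglyMeasurable (by fun_prop))
        (Eventually.of_forall fun x => ?_)
      rw [Real.norm_eq_abs, abs_mul, mul_comm]
      exact mul_le_mul_of_nonneg_right (hb1 _) (abs_nonneg _))
    ((NE_integrable hc hb2 g).mul_const _)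
    (NE_integrable hcF' hb1 g)
  have i1 : Integrable (fun x => F' (g + √g * x)) gm1 := NE_integrable hcF' hb1 g
  have i2 : Integrable (fun x => x * F' (g + √g * x)) gm1 := by
    refine (sg_integrable_abs.const_mul C).mono' (Continuous.aestronglyMeasurable (by fun_prop))
      (Eventually.of_forall fun x => ?_)
    rw [Real.norm_eq_abs, abs_mul, mul_comm]
    exact mul_le_mul_of_nonneg_right (hb1 _) (abs_nonneg _)
  have e3 : (fun x => F' (g + √g * x) * (1 + x / (2 * √g)))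
      = fun x => F' (g + √g * x) + (1 / (2 * √g)) * (x * F' (g + √g * x)) := by
    funext x
    ring
  show ∫ x, F' (g + √g * x) * (1 + x / (2 * √g)) ∂gm1 = _
  rw [e3, integral_add i1 (i2.const_mul _), integral_const_mul]
  have hst' : ∫ x, x * F' (g + √g * x) ∂gm1 = (∫ x, F'' (g + √g * x) ∂gm1) * √g := by
    rw [← integral_mul_const]
    exact hst
  rw [hst']
  unfold NE
  field_simp

/-! ### the function `qRS` -/

/-- `q(g) = E tanh(g + sqrt g N)` -/
noncomputable def qRS (g : ℝ) : ℝ := NE Real.tanh g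

theorem rs_bd_tanh (x : ℝ) : |Real.tanh x| ≤ 1 * (1 + |x|) := by
  have := rs_tanh_abs_le x
  have := abs_nonneg x
  linarith

theorem rs_tanh_sq_abs_le (x : ℝ) : |Real.tanh x ^ 2| ≤ 1 := by
  rw [abs_of_nonneg (sq_nonneg _)]
  exact (Real.tanh_sq_lt_one x).le

theorem qRS_eq {g : ℝ} (hg : 0 ≤ g) : qRS g = NE (fun a => Real.tanh a ^ 2) g := by
  unfold qRS
  rw [NE_odd rs_tanh_cont rs_bd_tanh (fun x => Real.tanh_neg x) hg]
  exact NE_congr (fun a => by ring) g

theorem qRS_continuous : Continuous qRS := NE_continuous rs_tanh_cont rs_bd_tanh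

theorem qRS_nonneg {g : ℝ} (hg : 0 ≤ g) : 0 ≤ qRS g := by
  rw [qRS_eq hg]
  exact integral_nonneg fun x => sq_nonneg _

theorem qRS_lt_one (g : ℝ) : qRS g < 1 := by
  unfold qRS NE
  have h1 : Integrable (fun x => Real.tanh (g + √g * x)) gm1 :=
    NE_integrable rs_tanh_cont rs_tanh_abs_le g
  have h2 : 0 < ∫ x, (1 - Real.tanh (g + √g * x)) ∂gm1 := by
    rw [integral_pos_iff_support_of_nonneg]
    · have : Function.support (fun x => 1 - Real.tanh (g + √g * x)) = univ := by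
        ext x
        simp only [Function.mem_support, mem_univ, iff_true]
        have := Real.tanh_lt_one (g + √g * x)
        linarith
      rw [this, measure_univ]
      exact one_pos
    · intro x
      have := Real.tanh_lt_one (g + √g * x)
      simp only [Pi.zero_apply]
      linarith
    · exact (integrable_const 1).sub h1
  rw [integral_sub (integrable_const 1) h1] at h2
  simp at h2
  linarith

theorem qRS_le_one (g : ℝ) : qRS g ≤ 1 := (qRS_lt_one g).le

/-- the derivative of `qRS` -/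
theorem qRS_hasDerivAt {g : ℝ} (hg : 0 < g) :
    HasDerivAt qRS (NE (fun a => (1 - Real.tanh a ^ 2) ^ 2) g) g := by
  have hcc : Continuous fun a => -(2 * Real.tanh a * (1 - Real.tanh a ^ 2)) := by
    have := rs_tanh_cont
    fun_prop
  have h := NE_hasDerivAt (F := Real.tanh) (F' := fun a => 1 - Real.tanh a ^ 2)
    (F'' := fun a => -(2 * Real.tanh a * (1 - Real.tanh a ^ 2))) (C := 2) rs_tanh_deriv
    rs_tanh_sq_deriv hcc
    (fun x => by have := rs_tanh_abs_le x; have := abs_nonneg x; linarith)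
    (fun x => by
      rw [abs_of_nonneg (rs_one_sub_nonneg x)]
      have := rs_one_sub_le x
      linarith)
    (fun x => by
      rw [abs_neg, abs_mul, abs_mul, abs_of_nonneg (rs_one_sub_nonneg x), abs_two]
      have h1 := rs_tanh_abs_le x
      have h2 := rs_one_sub_le x
      have h3 := rs_one_sub_nonneg x
      have h4 := abs_nonneg (Real.tanh x)
      linarith only [mul_nonneg (sub_nonneg.2 h1) (sub_nonneg.2 h3), mul_nonneg (sub_nonneg.2 h2) (sub_nonneg.2 h2), mul_nonneg (sub_nonneg.2 h2) (sub_nonneg.2 h3)]) hg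
  refine h.congr_deriv ?_
  have hT : Continuous fun a => Real.tanh a * (1 - Real.tanh a ^ 2) := by
    have := rs_tanh_cont
    fun_prop
  have hb : ∀ x, |Real.tanh x * (1 - Real.tanh x ^ 2)| ≤ 1 * (1 + |x|) := by
    intro x
    rw [abs_mul, abs_of_nonneg (rs_one_sub_nonneg x)]
    have h1 := rs_tanh_abs_le x
    have h2 := rs_one_sub_le x
    have h3 := rs_one_sub_nonneg x
    have h4 := abs_nonneg (Real.tanh x)
    have h5 := abs_nonneg x
    linarith [mul_nonneg (sub_nonneg.2 h1) (sub_nonneg.2 h3), mul_nonneg (sub_nonneg.2 h2) (sub_nonneg.2 h2), mul_nonneg (sub_nonneg.2 h2) (sub_nonneg.2 h3), mul_nonneg (sub_nonneg.2 h2) (sub_nonneg.2 h5), mul_nonneg (sub_nonneg.2 h3) (sub_nonneg.2 h5)]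
  have e1 := NE_odd hT hb (fun x => by rw [Real.tanh_neg]; ring) hg.le
  have e2 : NE (fun a => -(2 * Real.tanh a * (1 - Real.tanh a ^ 2))) g
      = -2 * NE (fun a => Real.tanh a * (1 - Real.tanh a ^ 2)) g := by
    unfold NE
    rw [← integral_const_mul]
    congr 1
    funext x
    ring
  rw [e2, e1]
  have i1 : Integrable (fun x => 1 - Real.tanh (g + √g * x) ^ 2) gm1 := by
    have hcont : Continuous fun a => 1 - Real.tanh a ^ 2 := by
      have := rs_tanh_cont
      fun_prop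
    exact NE_integrable hcont (C := 1) (fun x => by
      rw [abs_of_nonneg (rs_one_sub_nonneg x)]
      exact rs_one_sub_le x) g
  have i2 : Integrable (fun x => Real.tanh (g + √g * x) * (1 - Real.tanh (g + √g * x) ^ 2)
      * Real.tanh (g + √g * x)) gm1 := by
    have hcont : Continuous fun a => Real.tanh a * (1 - Real.tanh a ^ 2) * Real.tanh a := by
      have := rs_tanh_cont
      fun_prop
    exact NE_integrable hcont (C := 1) (fun x => by
      rw [abs_mul, abs_mul, abs_of_nonneg (rs_one_sub_nonneg x)]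
      have h1 := rs_tanh_abs_le x
      have h2 := rs_one_sub_le x
      have h3 := rs_one_sub_nonneg x
      have h4 := abs_nonneg (Real.tanh x)
      have h5 : |Real.tanh x| * (1 - Real.tanh x ^ 2) ≤ 1 := by linarith only [mul_nonneg (sub_nonneg.2 h2) (sub_nonneg.2 h3), mul_nonneg (sub_nonneg.2 h2) (sub_nonneg.2 h2), mul_nonneg (sub_nonneg.2 h1) (sub_nonneg.2 h3)]
      have h6 : 0 ≤ |Real.tanh x| * (1 - Real.tanh x ^ 2) := by (clear * - h3; positivity)
      linarith only [mul_nonneg (sub_nonneg.2 h1) (sub_nonneg.2 h6), mul_nonneg (sub_nonneg.2 h5) (sub_nonneg.2 h5), mul_nonneg (sub_nonneg.2 h5) (sub_nonneg.2 h6)]) g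
  unfold NE
  have e3 : (∫ x, (1 - Real.tanh (g + √g * x) ^ 2) ∂gm1)
      + -2 * (∫ x, Real.tanh (g + √g * x) * (1 - Real.tanh (g + √g * x) ^ 2)
        * Real.tanh (g + √g * x) ∂gm1) / 2
      = (∫ x, (1 - Real.tanh (g + √g * x) ^ 2) ∂gm1)
      - ∫ x, Real.tanh (g + √g * x) * (1 - Real.tanh (g + √g * x) ^ 2)
        * Real.tanh (g + √g * x) ∂gm1 := by ring
  rw [e3, ← integral_sub i1 i2]
  congr 1
  funext x
  ring

theorem qRS_deriv_nonneg (g : ℝ) : 0 ≤ NE (fun a => (1 - Real.tanh a ^ 2) ^ 2) g :=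
  integral_nonneg fun x => sq_nonneg _

theorem qRS_deriv_le_one (g : ℝ) : NE (fun a => (1 - Real.tanh a ^ 2) ^ 2) g ≤ 1 := by
  unfold NE
  have h : ∫ x, (1 - Real.tanh (g + √g * x) ^ 2) ^ 2 ∂gm1 ≤ ∫ x, (1 : ℝ) ∂gm1 := by
    refine integral_mono_of_nonneg (Eventually.of_forall fun x => sq_nonneg _)
      (integrable_const 1) (Eventually.of_forall fun x => ?_)
    have h2 := rs_one_sub_le (g + √g * x)
    have h3 := rs_one_sub_nonneg (g + √g * x)
    simp only
    linarith only [mul_nonneg (sub_nonneg.2 h2) (sub_nonneg.2 h2), mul_nonneg (sub_nonneg.2 h2) (sub_nonneg.2 h3)]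
  simpa using h

theorem qRS_mono {g g' : ℝ} (hg : 0 ≤ g) (h : g ≤ g') : qRS g ≤ qRS g' := by
  have hm : MonotoneOn qRS (Ici 0) := by
    refine monotoneOn_of_deriv_nonneg (convex_Ici 0) qRS_continuous.continuousOn ?_ ?_
    · intro x hx
      rw [interior_Ici] at hx
      exact (qRS_hasDerivAt hx).differentiableAt.differentiableWithinAt
    · intro x hx
      rw [interior_Ici] at hx
      rw [(qRS_hasDerivAt hx).deriv]
      exact qRS_deriv_nonneg x
  exact hm hg (hg.trans h) h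

theorem qRS_sub_le {g g' : ℝ} (hg : 0 ≤ g) (h : g ≤ g') : qRS g' - qRS g ≤ g' - g := by
  have hm : MonotoneOn (fun g => g - qRS g) (Ici 0) := by
    refine monotoneOn_of_deriv_nonneg (convex_Ici 0)
      (continuous_id.sub qRS_continuous).continuousOn ?_ ?_
    · intro x hx
      rw [interior_Ici] at hx
      exact ((hasDerivAt_id x).sub (qRS_hasDerivAt hx)).differentiableAt.differentiableWithinAt
    · intro x hx
      rw [interior_Ici] at hx
      have := ((hasDerivAt_id x).sub (qRS_hasDerivAt hx)).deriv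
      have h2 : deriv (fun g => g - qRS g) x = 1 - NE (fun a => (1 - Real.tanh a ^ 2) ^ 2) x := this
      rw [h2]
      have := qRS_deriv_le_one x
      linarith
  have := hm hg (hg.trans h) h
  simp only at this
  linarith

/-! ### the function `iRS` -/

/-- `i(g) = g - E log cosh(g + sqrt g N)` -/
noncomputable def iRS (g : ℝ) : ℝ := g - NE (fun a => Real.log (Real.cosh a)) g

theorem rs_logcosh_cont : Continuous fun a => Real.log (Real.cosh a) :=
  continuous_iff_continuousAt.2 fun a => (rs_logcosh_deriv a).continuousAt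

theorem rs_bd_logcosh (x : ℝ) : |Real.log (Real.cosh x)| ≤ 1 * (1 + |x|) := by
  have := rs_logcosh_abs_le x
  linarith only [this]

/-- entropy of a spin seen through the channel:
`E [log (2 cosh a) - a tanh a] = log 2 - i(g)`. -/
theorem NE_entropy {g : ℝ} (hg : 0 ≤ g) :
    NE (fun a => Real.log (2 * Real.cosh a) - a * Real.tanh a) g = Real.log 2 - iRS g := by
  have i1 : Integrable (fun x => Real.log (Real.cosh (g + √g * x))) gm1 :=
    NE_integrable_lin rs_logcosh_cont rs_bd_logcosh g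
  have hc2 : Continuous fun a : ℝ => a * Real.tanh a := continuous_id.mul rs_tanh_cont
  have hb2 : ∀ x : ℝ, |x * Real.tanh x| ≤ 1 * (1 + |x|) := by
    intro x
    rw [abs_mul]
    have h1 := rs_tanh_abs_le x
    have h2 := abs_nonneg x
    linarith only [mul_nonneg (sub_nonneg.2 h1) (sub_nonneg.2 h2)]
  have i2 : Integrable (fun x => (g + √g * x) * Real.tanh (g + √g * x)) gm1 :=
    NE_integrable_lin hc2 hb2 g
  have e1 : NE (fun a => a) g = NE (fun a => a * Real.tanh a) g :=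
    NE_odd continuous_id (C := 1) (fun x => by simp only [id]; linarith only [])
      (fun x => rfl) hg
  have e2 : NE (fun a => a) g = g := by
    unfold NE
    rw [integral_add (integrable_const g) (sg_integrable_id.const_mul _), integral_const_mul]
    have : ∫ x, x ∂gm1 = 0 := sg_odd fun x => rfl
    rw [this]
    simp
  unfold iRS
  have e3 : NE (fun a => Real.log (2 * Real.cosh a) - a * Real.tanh a) g
      = Real.log 2 + NE (fun a => Real.log (Real.cosh a)) g - NE (fun a => a * Real.tanh a) g := by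
    unfold NE
    have : (fun x => Real.log (2 * Real.cosh (g + √g * x))
        - (g + √g * x) * Real.tanh (g + √g * x))
        = fun x => (Real.log 2 + Real.log (Real.cosh (g + √g * x)))
          - (g + √g * x) * Real.tanh (g + √g * x) := by
      funext x
      rw [Real.log_mul two_ne_zero (Real.cosh_pos _).ne']
    have i3 : Integrable (fun x => Real.log 2 + Real.log (Real.cosh (g + √g * x))) gm1 :=
      (integrable_const _).add i1
    rw [this, integral_sub i3 i2, integral_add (integrable_const _) i1]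
    simp
  rw [e3, ← e1, e2]
  ring

end Vale.Agent.P150.F
end

section

/-! P150 FULL, D3 scalar part 2: the AMP recursion `gam`, its limit `gst` and the entropy
identity (helper812). -/

open MeasureTheory ProbabilityTheory Filter Topology Set

namespace Vale.Agent.P150.F

set_option linter.all false

/-- signal to noise ratio of the field `a^{k+1}` at time `s` of the `J`-killing path -/
noncomputable def gam (β κ s : ℝ) : ℕ → ℝ
  | 0 => β ^ 2 + s * κ
  | (k + 1) => β ^ 2 + s * κ - (β - s) ^ 2 * (1 - qRS (gam β κ s k))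

/-- the limit of `gam` -/
noncomputable def gst (β κ s : ℝ) : ℝ := ⨅ k, gam β κ s k

/-- the overlap along the path, `q_RS(s)` -/
noncomputable def qst (β κ s : ℝ) : ℝ := qRS (gst β κ s)

variable {β κ s t : ℝ}

theorem gam_zero (β κ s : ℝ) : gam β κ s 0 = β ^ 2 + s * κ := rfl

theorem gam_succ (β κ s : ℝ) (k : ℕ) :
    gam β κ s (k + 1) = β ^ 2 + s * κ - (β - s) ^ 2 * (1 - qRS (gam β κ s k)) := rfl

theorem rs_r_sq_le (hs : s ∈ Icc 0 β) : (β - s) ^ 2 ≤ β ^ 2 := by
  have h1 := hs.1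
  have h2 := hs.2
  linarith only [mul_nonneg (sub_nonneg.2 h1) (sub_nonneg.2 h1), mul_nonneg (sub_nonneg.2 h1) (sub_nonneg.2 h2)]

theorem gam_nonneg (hκ : 0 ≤ κ) (hs : s ∈ Icc 0 β) (k : ℕ) : 0 ≤ gam β κ s k := by
  have h0 : 0 ≤ s * κ := mul_nonneg hs.1 hκ
  induction k with
  | zero => rw [gam_zero]; positivity
  | succ k ih =>
    rw [gam_succ]
    have h1 := rs_r_sq_le hs
    have h2 := qRS_nonneg ih
    have h3 := sq_nonneg (β - s)
    have h4 : (β - s) ^ 2 * (1 - qRS (gam β κ s k)) ≤ (β - s) ^ 2 * 1 :=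
      mul_le_mul_of_nonneg_left (by linarith) h3
    linarith

theorem gam_succ_le (hκ : 0 ≤ κ) (hs : s ∈ Icc 0 β) (k : ℕ) :
    gam β κ s (k + 1) ≤ gam β κ s k := by
  induction k with
  | zero =>
    rw [gam_succ, gam_zero]
    have h3 := sq_nonneg (β - s)
    have h4 := qRS_le_one (gam β κ s 0)
    rw [gam_zero] at h4
    have : 0 ≤ (β - s) ^ 2 * (1 - qRS (β ^ 2 + s * κ)) := mul_nonneg h3 (by linarith)
    linarith
  | succ k ih =>
    rw [gam_succ β κ s (k + 1), gam_succ β κ s k]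
    have h := qRS_mono (gam_nonneg hκ hs (k + 1)) ih
    rw [gam_succ β κ s k] at h
    have h3 := sq_nonneg (β - s)
    have := mul_le_mul_of_nonneg_left (sub_le_sub_left h 1) h3
    linarith only [this]

theorem gam_antitone (hκ : 0 ≤ κ) (hs : s ∈ Icc 0 β) : Antitone (gam β κ s) :=
  antitone_nat_of_succ_le (gam_succ_le hκ hs)

theorem gam_bddBelow (hκ : 0 ≤ κ) (hs : s ∈ Icc 0 β) : BddBelow (range (gam β κ s)) :=
  ⟨0, by rintro _ ⟨k, rfl⟩; exact gam_nonneg hκ hs k⟩

theorem gam_tendsto (hκ : 0 ≤ κ) (hs : s ∈ Icc 0 β) :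
    Tendsto (gam β κ s) atTop (𝓝 (gst β κ s)) :=
  tendsto_atTop_ciInf (gam_antitone hκ hs) (gam_bddBelow hκ hs)

theorem gst_le_gam (hκ : 0 ≤ κ) (hs : s ∈ Icc 0 β) (k : ℕ) : gst β κ s ≤ gam β κ s k :=
  ciInf_le (gam_bddBelow hκ hs) k

theorem gst_nonneg (hκ : 0 ≤ κ) (hs : s ∈ Icc 0 β) : 0 ≤ gst β κ s :=
  le_ciInf fun k => gam_nonneg hκ hs k

theorem qst_nonneg (hκ : 0 ≤ κ) (hs : s ∈ Icc 0 β) : 0 ≤ qst β κ s :=
  qRS_nonneg (gst_nonneg hκ hs)

theorem qst_lt_one (β κ s : ℝ) : qst β κ s < 1 := qRS_lt_one _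

/-- the fixed point equation -/
theorem gst_eq (hκ : 0 ≤ κ) (hs : s ∈ Icc 0 β) :
    gst β κ s = β ^ 2 + s * κ - (β - s) ^ 2 * (1 - qst β κ s) := by
  have h1 : Tendsto (fun k => gam β κ s (k + 1)) atTop (𝓝 (gst β κ s)) :=
    (gam_tendsto hκ hs).comp (tendsto_add_atTop_nat 1)
  have h2 : Tendsto (fun k => β ^ 2 + s * κ - (β - s) ^ 2 * (1 - qRS (gam β κ s k))) atTop
      (𝓝 (β ^ 2 + s * κ - (β - s) ^ 2 * (1 - qRS (gst β κ s)))) :=
    (((qRS_continuous.tendsto _).comp (gam_tendsto hκ hs)).const_sub 1 |>.const_mul _).const_sub _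
  exact tendsto_nhds_unique h1 h2

/-- geometric convergence -/
theorem gam_sub_gst_le (hκ : 0 ≤ κ) (hs : s ∈ Icc 0 β) (k : ℕ) :
    gam β κ s k - gst β κ s ≤ (β ^ 2) ^ (k + 1) := by
  induction k with
  | zero =>
    rw [gam_zero, gst_eq hκ hs]
    have h1 := rs_r_sq_le hs
    have h2 := qst_nonneg hκ hs
    have h3 := qst_lt_one β κ s
    have h4 : (β - s) ^ 2 * (1 - qst β κ s) ≤ β ^ 2 * 1 :=
      mul_le_mul h1 (by linarith) (by linarith) (sq_nonneg _)
    rw [zero_add, pow_one]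
    linarith only [h4]
  | succ k ih =>
    rw [gam_succ]
    have h0 := gst_eq hκ hs
    have h1 := rs_r_sq_le hs
    have h2 := qRS_sub_le (gst_nonneg hκ hs) (gst_le_gam hκ hs k)
    have h3 := qRS_mono (gst_nonneg hκ hs) (gst_le_gam hκ hs k)
    have h5 : β ^ 2 + s * κ - (β - s) ^ 2 * (1 - qRS (gam β κ s k)) - gst β κ s
        = (β - s) ^ 2 * (qRS (gam β κ s k) - qRS (gst β κ s)) := by
      unfold qst at h0
      linear_combination -h0
    rw [h5, pow_succ (β ^ 2) (k + 1), mul_comm ((β ^ 2) ^ (k + 1))]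
    exact mul_le_mul h1 (h2.trans ih) (by linarith) (sq_nonneg _)

theorem qRS_gam_sub_qst_le (hκ : 0 ≤ κ) (hs : s ∈ Icc 0 β) (k : ℕ) :
    qRS (gam β κ s k) - qst β κ s ≤ (β ^ 2) ^ (k + 1) :=
  (qRS_sub_le (gst_nonneg hκ hs) (gst_le_gam hκ hs k)).trans (gam_sub_gst_le hκ hs k)

theorem qst_le_qRS_gam (hκ : 0 ≤ κ) (hs : s ∈ Icc 0 β) (k : ℕ) :
    qst β κ s ≤ qRS (gam β κ s k) :=
  qRS_mono (gst_nonneg hκ hs) (gst_le_gam hκ hs k)

theorem qRS_gam_sub_le (hκ : 0 ≤ κ) (hs : s ∈ Icc 0 β) (k : ℕ) :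
    qRS (gam β κ s k) - qRS (gam β κ s (k + 1)) ≤ (β ^ 2) ^ (k + 1) := by
  have h1 := qRS_gam_sub_qst_le hκ hs k
  have h2 := qst_le_qRS_gam hκ hs (k + 1)
  linarith

/-- the potential whose derivative along the path is explicit -/
noncomputable def phRS (β κ s : ℝ) : ℝ :=
  iRS (gst β κ s) - (β - s) ^ 2 / 2 * (qst β κ s - qst β κ s ^ 2 / 2)

end Vale.Agent.P150.F
end

section

/-! P150 FULL, module D3b: joint laws of `(x, ξ)` and the statement of D3b (helper691). -/

open MeasureTheory ProbabilityTheory Filter Topology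
open scoped Matrix

namespace Vale.Agent.P150.F.D3

variable {n m : ℕ}

/-- the indicator of `σ = ε` for `σ, ε ∈ {1, -1}` -/
noncomputable def ind (ε σ : ℝ) : ℝ := (1 + ε * σ) / 2

/-- expectation of `Φ (x, ξ)` under the joint law with density `w` (counting × Gaussian) -/
noncomputable def EJ (w : Cfg n → (Fin m → ℝ) → ℝ) (Φ : Cfg n → (Fin m → ℝ) → ℝ) : ℝ :=
  ∑ x, ∫ ξ, w x ξ * Φ x ξ ∂(gpi (Fin m))

/-- `w` is the density of a joint law of `(x, ξ)` -/
structure JL (w : Cfg n → (Fin m → ℝ) → ℝ) : Prop where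
  nonneg : ∀ x ξ, 0 ≤ w x ξ
  meas : ∀ x, Measurable (w x)
  int : ∀ x, Integrable (w x) (gpi (Fin m))
  one : ∑ x, ∫ ξ, w x ξ ∂(gpi (Fin m)) = 1

/-- the shift back from `ξ' = ξ + √s Rᵀ σ` to `ξ` -/
noncomputable def bsh (R : Matrix (Fin n) (Fin m) ℝ) (s : ℝ) (x : Cfg n) (ξ : Fin m → ℝ) :
    Fin m → ℝ :=
  ξ - √s • Rᵀ.mulVec (sv x)

/-- the density of the joint law of `(x, ξ')`, `ξ' = ξ + √s Rᵀ σ`; the label is
`obs R s x ξ = √s R ξ'` -/
noncomputable def shw (R : Matrix (Fin n) (Fin m) ℝ) (s : ℝ) (w : Cfg n → (Fin m → ℝ) → ℝ) :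
    Cfg n → (Fin m → ℝ) → ℝ := fun x ξ =>
  w x (bsh R s x ξ) * Real.exp (√s * ip (R.mulVec ξ) (sv x) - s / 2 * qf (R * Rᵀ) (sv x))

/-- the hypotheses of D3b on the joint law `w` of `(x, ξ)` -/
structure JHyp (β κ : ℝ) (J : Mat n) (R : Matrix (Fin n) (Fin m) ℝ) (s C η : ℝ)
    (w : Cfg n → (Fin m → ℝ) → ℝ) : Prop where
  law : JL w
  hR : R * Rᵀ = J + κ • (1 : Mat n)
  J1 : ∫ ξ, dlr (β • J) 0 (fun x => w x ξ) ∂(gpi (Fin m)) ≤ η * n
  J2 : ∫ ξ, dlr ((β - s) • J) (√s • R.mulVec ξ) (fun x => shw R s w x ξ) ∂(gpi (Fin m)) ≤ η * n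
  J3c : ∀ θ ε : ℝ, |θ| ≤ 1 / η → (ε = 1 ∨ ε = -1) →
    EJ w (fun x ξ => |(∑ j, ind ε (sv x j) *
      (Real.cos (θ * R.mulVec ξ j) - Real.exp (-(θ ^ 2 * κ / 2)))) / n|) ≤ η
  J3s : ∀ θ ε : ℝ, |θ| ≤ 1 / η → (ε = 1 ∨ ε = -1) →
    EJ w (fun x ξ => |(∑ j, ind ε (sv x j) * Real.sin (θ * R.mulVec ξ j)) / n|) ≤ η
  J4i : ∀ x, Integrable (fun ξ => w x ξ * sq (R.mulVec ξ)) (gpi (Fin m))
  J4 : EJ w (fun _ ξ => sq (R.mulVec ξ)) ≤ C * n

/-- jointly macroscopic functions: macroscopic in `x` at fixed `ξ` and at fixed `ξ'` -/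
structure JMac (R : Matrix (Fin n) (Fin m) ℝ) (s C : ℝ) (φ : Cfg n → (Fin m → ℝ) → ℝ) :
    Prop where
  meas : ∀ x, Measurable (φ x)
  mac : ∀ ξ, Macro C (fun x => φ x ξ)
  mac' : ∀ ξ, Macro C (fun x => φ x (bsh R s x ξ))

/-- `E f(ε, g ε + √g N)` -/
noncomputable def NEs (f : ℝ → ℝ → ℝ) (g ε : ℝ) : ℝ := ∫ z, f ε (g * ε + √g * z) ∂gm1

/-- D3b, overlaps: `E |q_{k+1} - q(g_{k+1})|` is small at time `s` -/
def D3bQ (β κ : ℝ) : Prop :=
  ∀ {I : Type} (F : Filter I) (n : I → ℕ) (J : ∀ i, Mat (n i)), Good β F n J →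
    ∀ (C : ℝ) (k : ℕ) (e : ℝ), 0 < e → ∃ η > 0, ∀ᶠ i in F, ∀ (m : ℕ)
      (R : Matrix (Fin (n i)) (Fin m) ℝ) (s : ℝ) (w : Cfg (n i) → (Fin m → ℝ) → ℝ),
      s ∈ Set.Icc 0 β → JHyp β κ (J i) R s C η w →
      EJ w (fun x ξ => |qq (ampM ((β - s) • J i) (β - s) (obs R s x ξ) x (k + 1))
        - qRS (gam β κ s k)|) ≤ e

/-- D3b, laws: the law of `a^{k+1}` given `σ` is `N (g σ, g)`, `g = gam β κ s k` -/
def D3bA (β κ : ℝ) : Prop :=
  ∀ {I : Type} (F : Filter I) (n : I → ℕ) (J : ∀ i, Mat (n i)), Good β F n J →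
    ∀ (f : ℝ → ℝ → ℝ) (C₁ : ℝ), (∀ ε, Continuous (f ε)) → (∀ ε a, |f ε a| ≤ C₁ * (1 + |a|)) →
    ∀ (C : ℝ) (k : ℕ) (e : ℝ), 0 < e → ∃ η > 0, ∀ᶠ i in F, ∀ (m : ℕ)
      (R : Matrix (Fin (n i)) (Fin m) ℝ) (s : ℝ) (w : Cfg (n i) → (Fin m → ℝ) → ℝ),
      s ∈ Set.Icc 0 β → JHyp β κ (J i) R s C η w →
      EJ w (fun x ξ => |(∑ j, (f (sv x j)
        (ampA ((β - s) • J i) (β - s) (obs R s x ξ) x k j)
        - NEs f (gam β κ s k) (sv x j))) / n i|) ≤ e

/-- D3b, laws of the zero-field local fields `h = β J σ` given `σ`: `N (β² σ, β²)` -/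
def D3bH (β κ : ℝ) : Prop :=
  ∀ {I : Type} (F : Filter I) (n : I → ℕ) (J : ∀ i, Mat (n i)), Good β F n J →
    ∀ (f : ℝ → ℝ → ℝ) (C₁ : ℝ), (∀ ε, Continuous (f ε)) → (∀ ε a, |f ε a| ≤ C₁ * (1 + |a|)) →
    ∀ (C : ℝ) (e : ℝ), 0 < e → ∃ η > 0, ∀ᶠ i in F, ∀ (m : ℕ)
      (R : Matrix (Fin (n i)) (Fin m) ℝ) (s : ℝ) (w : Cfg (n i) → (Fin m → ℝ) → ℝ),
      s ∈ Set.Icc 0 β → JHyp β κ (J i) R s C η w →
      EJ w (fun x _ => |(∑ j, (f (sv x j) ((β • J i).mulVec (sv x) j)
        - NEs f (β ^ 2) (sv x j))) / n i|) ≤ e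

/-- D3b, laws of the noise `B = R ξ` given `σ`: `N (0, κ)` -/
def D3bB (β κ : ℝ) : Prop :=
  ∀ {I : Type} (F : Filter I) (n : I → ℕ) (J : ∀ i, Mat (n i)), Good β F n J →
    ∀ (f : ℝ → ℝ → ℝ) (C₁ : ℝ), (∀ ε, Continuous (f ε)) → (∀ ε a, |f ε a| ≤ C₁ * (1 + |a|)) →
    ∀ (C : ℝ) (e : ℝ), 0 < e → ∃ η > 0, ∀ᶠ i in F, ∀ (m : ℕ)
      (R : Matrix (Fin (n i)) (Fin m) ℝ) (s : ℝ) (w : Cfg (n i) → (Fin m → ℝ) → ℝ),
      s ∈ Set.Icc 0 β → JHyp β κ (J i) R s C η w →
      EJ w (fun x ξ => |(∑ j, (f (sv x j) (R.mulVec ξ j)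
        - ∫ z, f (sv x j) (√κ * z) ∂gm1)) / n i|) ≤ e

/-- what D3b delivers -/
def D3bStatement : Prop := ∀ β κ : ℝ, 0 ≤ β → β < 1 → 4 ≤ κ →
  D3bQ β κ ∧ D3bA β κ ∧ D3bH β κ ∧ D3bB β κ

end Vale.Agent.P150.F.D3
end

section

/-! Exponential moments of the noise field `R ξ` (hypotheses J3 and J4 of D3b). -/

open MeasureTheory ProbabilityTheory Real Set Filter Topology
open scoped Matrix

namespace Vale.Agent.P150.F.TP

open D3 (EJ JL ind)

variable {n m : ℕ}

/-! ### the matrix `R` -/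

theorem ip_tr (R : Matrix (Fin n) (Fin m) ℝ) (v : Vec n) (ξ : Vec m) :
    ip v (R.mulVec ξ) = ip (Rᵀ.mulVec v) ξ := by
  unfold ip Matrix.mulVec dotProduct
  simp only [Matrix.transpose_apply, Finset.mul_sum, Finset.sum_mul]
  rw [Finset.sum_comm]
  exact Finset.sum_congr rfl fun i _ => Finset.sum_congr rfl fun j _ => by ring

theorem sq_tr_le {R : Matrix (Fin n) (Fin m) ℝ} {C : ℝ} (h : OpLe (R * Rᵀ) C) (hC : 0 ≤ C)
    (v : Vec n) : sq (Rᵀ.mulVec v) ≤ C * sq v := by
  rw [← nv_sq, ← nv_sq]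
  calc nv (Rᵀ.mulVec v) ^ 2 = ip (Rᵀ.mulVec v) (Rᵀ.mulVec v) := by rw [nv_sq, ipN_self]
    _ = ip v ((R * Rᵀ).mulVec v) := by rw [← ip_tr, Matrix.mulVec_mulVec]
    _ ≤ nv v * nv ((R * Rᵀ).mulVec v) := ip_le _ _
    _ ≤ nv v * (C * nv v) := mul_le_mul_of_nonneg_left (h.nv_le hC v) (nv_nonneg v)
    _ = C * nv v ^ 2 := by ring

theorem nv_R_le {R : Matrix (Fin n) (Fin m) ℝ} {C : ℝ} (h : OpLe (R * Rᵀ) C) (hC : 0 ≤ C)
    (ξ : Vec m) : nv (R.mulVec ξ) ≤ √C * nv ξ := by
  have h1 : nv (R.mulVec ξ) ^ 2 ≤ nv (Rᵀ.mulVec (R.mulVec ξ)) * nv ξ := by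
    calc nv (R.mulVec ξ) ^ 2 = ip (R.mulVec ξ) (R.mulVec ξ) := by rw [nv_sq, ipN_self]
      _ = ip (Rᵀ.mulVec (R.mulVec ξ)) ξ := ip_tr _ _ _
      _ ≤ _ := ip_le _ _
  have h2 := sq_tr_le h hC (R.mulVec ξ)
  rw [← nv_sq, ← nv_sq] at h2
  have h3 : nv (Rᵀ.mulVec (R.mulVec ξ)) ≤ √C * nv (R.mulVec ξ) := by
    refine le_of_sq_le_sq ?_ (mul_nonneg (Real.sqrt_nonneg _) (nv_nonneg _))
    rw [mul_pow, Real.sq_sqrt hC]
    exact h2
  rcases (nv_nonneg (R.mulVec ξ)).eq_or_lt with h0 | h0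
  · rw [← h0]
    exact mul_nonneg (Real.sqrt_nonneg _) (nv_nonneg _)
  · have h4 : nv (R.mulVec ξ) * nv (R.mulVec ξ) ≤ (√C * nv ξ) * nv (R.mulVec ξ) := by
      linarith only [mul_le_mul_of_nonneg_right h3 (nv_nonneg ξ), h1]
    exact le_of_mul_le_mul_right h4 h0

theorem ed_eq_nv (ξ ξ' : Vec m) : ed ξ ξ' = nv (ξ - ξ') := by
  rw [nv_eq_sqrt]
  rfl

/-! ### Lipschitz averages -/

theorem lip_avg {R : Matrix (Fin n) (Fin m) ℝ} {C : ℝ} (h : OpLe (R * Rᵀ) C) (hC : 0 ≤ C)
    {c : Vec n} (hc : ∀ j, |c j| ≤ 1) {φ : ℝ → ℝ} (hφ : ∀ a b, |φ a - φ b| ≤ |a - b|)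
    (θ e : ℝ) :
    Lip (|θ| * √C / √n) (fun ξ : Fin m → ℝ => (∑ j, c j * (φ (θ * R.mulVec ξ j) - e)) / n) := by
  intro ξ ξ'
  rw [ed_eq_nv]
  rcases Nat.eq_zero_or_pos n with hn | hn
  · subst hn
    simp
  have hn' : (0 : ℝ) < n := by exact_mod_cast hn
  have hs : 0 < √(n : ℝ) := Real.sqrt_pos.2 hn'
  have hss : √(n : ℝ) * √n = n := Real.mul_self_sqrt hn'.le
  have h1 : (∑ j, c j * (φ (θ * R.mulVec ξ j) - e)) / (n : ℝ) -
      (∑ j, c j * (φ (θ * R.mulVec ξ' j) - e)) / n =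
      (∑ j, c j * (φ (θ * R.mulVec ξ j) - φ (θ * R.mulVec ξ' j))) / n := by
    rw [← sub_div, ← Finset.sum_sub_distrib]
    congr 1
    exact Finset.sum_congr rfl fun j _ => by ring
  have h2 : |∑ j, c j * (φ (θ * R.mulVec ξ j) - φ (θ * R.mulVec ξ' j))| ≤
      |θ| * ∑ j, |R.mulVec (ξ - ξ') j| := by
    rw [Finset.mul_sum]
    refine (Finset.abs_sum_le_sum_abs _ _).trans (Finset.sum_le_sum fun j _ => ?_)
    rw [abs_mul]
    have h3 : |φ (θ * R.mulVec ξ j) - φ (θ * R.mulVec ξ' j)| ≤ |θ| * |R.mulVec (ξ - ξ') j| := by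
      refine (hφ _ _).trans (le_of_eq ?_)
      rw [← abs_mul, Matrix.mulVec_sub, Pi.sub_apply]
      congr 1
      ring
    calc |c j| * |φ (θ * R.mulVec ξ j) - φ (θ * R.mulVec ξ' j)| ≤
        1 * |φ (θ * R.mulVec ξ j) - φ (θ * R.mulVec ξ' j)| :=
          mul_le_mul_of_nonneg_right (hc j) (abs_nonneg _)
      _ ≤ _ := by rw [one_mul]; exact h3
  have h4 : ∑ j, |R.mulVec (ξ - ξ') j| ≤ √n * (√C * nv (ξ - ξ')) := by
    have h5 : ∑ j, |R.mulVec (ξ - ξ') j| ≤ √n * nv (R.mulVec (ξ - ξ')) := by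
      have h6 : (∑ j, |R.mulVec (ξ - ξ') j|) ^ 2 ≤ n * sq (R.mulVec (ξ - ξ')) := by
        have := sq_sum_le_card_mul_sum_sq (s := (Finset.univ : Finset (Fin n)))
          (f := fun j => |R.mulVec (ξ - ξ') j|)
        simpa [sq, sq_abs] using this
      refine le_of_sq_le_sq ?_ (mul_nonneg hs.le (nv_nonneg _))
      rw [mul_pow, Real.sq_sqrt hn'.le, nv_sq]
      exact h6
    exact h5.trans (mul_le_mul_of_nonneg_left (nv_R_le h hC _) hs.le)
  rw [h1, abs_div, abs_of_pos hn', div_le_iff₀ hn']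
  calc |∑ j, c j * (φ (θ * R.mulVec ξ j) - φ (θ * R.mulVec ξ' j))| ≤
      |θ| * ∑ j, |R.mulVec (ξ - ξ') j| := h2
    _ ≤ |θ| * (√n * (√C * nv (ξ - ξ'))) := mul_le_mul_of_nonneg_left h4 (abs_nonneg _)
    _ = |θ| * √C / √n * nv (ξ - ξ') * n := by
        field_simp
        rw [Real.sq_sqrt hn'.le]
        ring

/-- exponential moment of the absolute value of a centred Lipschitz function -/
theorem exp_abs_le {L : ℝ} {f : (Fin m → ℝ) → ℝ} (hf : Lip L f)
    (h0 : ∫ ξ, f ξ ∂gpi (Fin m) = 0) (t : ℝ) :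
    ∫ ξ, Real.exp (t * |f ξ|) ∂gpi (Fin m) ≤ Real.exp (Real.log 2 + t ^ 2 * L ^ 2) := by
  have h1 := hf.mgf_le t
  have h2 := hf.mgf_le (-t)
  rw [h0] at h1 h2
  simp only [sub_zero] at h1 h2
  rw [neg_sq] at h2
  have i1 := hf.integrable_exp t
  have i2 := hf.integrable_exp (-t)
  have h3 : ∫ ξ, Real.exp (t * |f ξ|) ∂gpi (Fin m) ≤
      ∫ ξ, (Real.exp (t * f ξ) + Real.exp (-t * f ξ)) ∂gpi (Fin m) := by
    refine integral_mono_of_nonneg (ae_of_all _ fun ξ => (Real.exp_pos _).le) (i1.add i2)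
      (ae_of_all _ fun ξ => ?_)
    simp only
    rcases abs_cases (f ξ) with ⟨h, _⟩ | ⟨h, _⟩
    · rw [h]; exact le_add_of_nonneg_right (Real.exp_pos _).le
    · rw [h]
      have e1 : t * -f ξ = -t * f ξ := by ring
      rw [e1]; exact le_add_of_nonneg_left (Real.exp_pos _).le
  rw [integral_add i1 i2] at h3
  rw [Real.exp_add, Real.exp_log (by norm_num)]
  linarith

theorem lip_abs_exp_integrable {L : ℝ} {f : (Fin m → ℝ) → ℝ} (hf : Lip L f) (t : ℝ) :
    Integrable (fun ξ => Real.exp (t * |f ξ|)) (gpi (Fin m)) := by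
  have i1 := hf.integrable_exp t
  have i2 := hf.integrable_exp (-t)
  refine (i1.add i2).mono' ((hf.measurable.abs.const_mul t).exp.aestronglyMeasurable)
    (ae_of_all _ fun ξ => ?_)
  rw [Real.norm_eq_abs, abs_of_pos (Real.exp_pos _)]
  simp only [Pi.add_apply]
  rcases abs_cases (f ξ) with ⟨h, _⟩ | ⟨h, _⟩
  · rw [h]; exact le_add_of_nonneg_right (Real.exp_pos _).le
  · rw [h]
    have e1 : t * -f ξ = -t * f ξ := by ring
    rw [e1]; exact le_add_of_nonneg_left (Real.exp_pos _).le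

/-! ### characteristic functions -/

theorem integral_cexp_gpi (a : Fin m → ℝ) :
    ∫ z, Complex.exp ((∑ i, a i * z i : ℝ) * Complex.I) ∂(gpi (Fin m)) =
      Complex.exp (-((∑ i, a i ^ 2) / 2 : ℝ)) := by
  have e : ∀ z : Fin m → ℝ, Complex.exp ((∑ i, a i * z i : ℝ) * Complex.I) =
      ∏ i, Complex.exp ((a i * z i : ℝ) * Complex.I) := by
    intro z
    rw [← Complex.exp_sum]
    congr 1
    push_cast
    rw [Finset.sum_mul]
  simp_rw [e]
  unfold gpi
  rw [integral_fintype_prod_eq_prod (𝕜 := ℂ) (μ := fun _ => gaussianReal 0 1)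
    (f := fun (i : Fin m) (x : ℝ) => Complex.exp ((a i * x : ℝ) * Complex.I))]
  have e1 : ∀ i : Fin m, ∫ x, Complex.exp ((a i * x : ℝ) * Complex.I) ∂(gaussianReal 0 1) =
      Complex.exp (-(a i ^ 2 / 2 : ℝ)) := by
    intro i
    have h := charFun_gaussianReal (μ := 0) (v := 1) (a i)
    rw [charFun_apply_real] at h
    simp only [Complex.ofReal_mul]
    rw [h]
    congr 1
    push_cast
    ring
  simp_rw [e1]
  rw [← Complex.exp_sum]
  congr 1
  push_cast
  rw [Finset.sum_div, Finset.sum_neg_distrib]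

theorem integrable_cexp_gpi (a : Fin m → ℝ) :
    Integrable (fun z : Fin m → ℝ => Complex.exp ((∑ i, a i * z i : ℝ) * Complex.I))
      (gpi (Fin m)) := by
  refine Integrable.of_bound (C := 1) ?_ (ae_of_all _ fun z => ?_)
  · exact (by fun_prop : Continuous fun z : Fin m → ℝ =>
      Complex.exp ((∑ i, a i * z i : ℝ) * Complex.I)).aestronglyMeasurable
  · rw [Complex.norm_exp_ofReal_mul_I]

theorem integral_cos_gpi (a : Fin m → ℝ) :
    ∫ z, Real.cos (∑ i, a i * z i) ∂(gpi (Fin m)) = Real.exp (-((∑ i, a i ^ 2) / 2)) := by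
  have h := integral_re (integrable_cexp_gpi a)
  rw [integral_cexp_gpi] at h
  simp only [RCLike.re_to_complex, Complex.exp_ofReal_mul_I_re] at h
  rw [h, ← Complex.ofReal_neg, ← Complex.ofReal_exp, Complex.ofReal_re]

theorem integral_sin_gpi (a : Fin m → ℝ) :
    ∫ z, Real.sin (∑ i, a i * z i) ∂(gpi (Fin m)) = 0 := by
  have h := integral_im (integrable_cexp_gpi a)
  rw [integral_cexp_gpi] at h
  simp only [RCLike.im_to_complex, Complex.exp_ofReal_mul_I_im] at h
  rw [h, ← Complex.ofReal_neg, ← Complex.ofReal_exp, Complex.ofReal_im]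

theorem lin_R (R : Matrix (Fin n) (Fin m) ℝ) (θ : ℝ) (j : Fin n) (ξ : Fin m → ℝ) :
    θ * R.mulVec ξ j = ∑ i, (θ * R j i) * ξ i := by
  unfold Matrix.mulVec dotProduct
  rw [Finset.mul_sum]
  exact Finset.sum_congr rfl fun i _ => by ring

theorem sum_sq_R (R : Matrix (Fin n) (Fin m) ℝ) (θ : ℝ) (j : Fin n) :
    ∑ i, (θ * R j i) ^ 2 = θ ^ 2 * (R * Rᵀ) j j := by
  rw [Matrix.mul_apply, Finset.mul_sum]
  exact Finset.sum_congr rfl fun i _ => by rw [Matrix.transpose_apply]; ring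

theorem integral_avg_cos {R : Matrix (Fin n) (Fin m) ℝ} {κ : ℝ} (hR : ∀ j, (R * Rᵀ) j j = κ)
    (c : Vec n) (θ : ℝ) :
    ∫ ξ, (∑ j, c j * (Real.cos (θ * R.mulVec ξ j) - Real.exp (-(θ ^ 2 * κ / 2)))) / n
      ∂gpi (Fin m) = 0 := by
  have hi : ∀ j, Integrable (fun ξ : Fin m → ℝ => Real.cos (θ * R.mulVec ξ j)) (gpi (Fin m)) := by
    intro j
    refine Integrable.of_bound (C := 1) ?_ (ae_of_all _ fun z => ?_)
    · simp_rw [lin_R]
      exact (by fun_prop : Continuous fun z : Fin m → ℝ =>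
        Real.cos (∑ i, θ * R j i * z i)).aestronglyMeasurable
    · rw [Real.norm_eq_abs]; exact Real.abs_cos_le_one _
  have hi2 : ∀ j, Integrable (fun ξ : Fin m → ℝ =>
      c j * (Real.cos (θ * R.mulVec ξ j) - Real.exp (-(θ ^ 2 * κ / 2)))) (gpi (Fin m)) :=
    fun j => ((hi j).sub (integrable_const _)).const_mul _
  rw [integral_div, integral_finsetSum _ fun j _ => hi2 j]
  have : ∀ j, ∫ ξ, c j * (Real.cos (θ * R.mulVec ξ j) - Real.exp (-(θ ^ 2 * κ / 2)))
      ∂gpi (Fin m) = 0 := by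
    intro j
    rw [integral_const_mul, integral_sub (hi j) (integrable_const _)]
    have h1 : ∫ ξ : Fin m → ℝ, Real.cos (θ * R.mulVec ξ j) ∂gpi (Fin m) =
        Real.exp (-(θ ^ 2 * κ / 2)) := by
      simp_rw [lin_R]
      rw [integral_cos_gpi, sum_sq_R, hR]
    rw [h1]
    simp
  simp [this]

theorem integral_avg_sin (R : Matrix (Fin n) (Fin m) ℝ) (c : Vec n) (θ : ℝ) :
    ∫ ξ, (∑ j, c j * (Real.sin (θ * R.mulVec ξ j) - 0)) / n ∂gpi (Fin m) = 0 := by
  have hi : ∀ j, Integrable (fun ξ : Fin m → ℝ => Real.sin (θ * R.mulVec ξ j)) (gpi (Fin m)) := by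
    intro j
    refine Integrable.of_bound (C := 1) ?_ (ae_of_all _ fun z => ?_)
    · simp_rw [lin_R]
      exact (by fun_prop : Continuous fun z : Fin m → ℝ =>
        Real.sin (∑ i, θ * R j i * z i)).aestronglyMeasurable
    · rw [Real.norm_eq_abs]; exact Real.abs_sin_le_one _
  simp only [sub_zero]
  rw [integral_div, integral_finsetSum _ fun j _ => (hi j).const_mul _]
  have : ∀ j, ∫ ξ, c j * Real.sin (θ * R.mulVec ξ j) ∂gpi (Fin m) = 0 := by
    intro j
    rw [integral_const_mul]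
    have h1 : ∫ ξ : Fin m → ℝ, Real.sin (θ * R.mulVec ξ j) ∂gpi (Fin m) = 0 := by
      simp_rw [lin_R]
      rw [integral_sin_gpi]
    rw [h1, mul_zero]
  simp [this]

/-! ### the second moment -/

theorem integral_exp_ip (a : Fin m → ℝ) :
    ∫ z, Real.exp (ip a z) ∂(gpi (Fin m)) = Real.exp (sq a / 2) := by
  rw [gpi_eq_gsn]
  exact P245.integral_gam_exp a

theorem integrable_exp_ip (a : Fin m → ℝ) :
    Integrable (fun z => Real.exp (ip a z)) (gpi (Fin m)) := by
  have hl : Lip (nv a) (fun z : Fin m → ℝ => ip a z) := by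
    intro z z'
    rw [← ip_sub_right, ed_eq_nv]
    exact abs_ip_le _ _
  simpa using hl.integrable_exp 1

theorem lint_exp_sq_R {R : Matrix (Fin n) (Fin m) ℝ} {C t : ℝ} (h : OpLe (R * Rᵀ) C)
    (hC : 0 ≤ C) (ht : 0 ≤ t) (htC : t * C ≤ 1 / 4) :
    ∫⁻ ξ, ENNReal.ofReal (Real.exp (t * sq (R.mulVec ξ))) ∂gpi (Fin m) ≤
      ENNReal.ofReal (Real.exp (2 * (t * C) * n)) := by
  set c := √(2 * t) with hc
  have hc2 : c ^ 2 = 2 * t := Real.sq_sqrt (by positivity)
  have hlin : ∀ v : Vec n, ENNReal.ofReal (Real.exp (t * sq v)) =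
      ∫⁻ g, ENNReal.ofReal (Real.exp (ip (c • v) g)) ∂gpi (Fin n) := by
    intro v
    rw [← ofReal_integral_eq_lintegral_ofReal (integrable_exp_ip _)
      (ae_of_all _ fun z => (Real.exp_pos _).le), integral_exp_ip]
    congr 2
    have : sq (c • v) = c ^ 2 * sq v := by
      unfold sq
      rw [Finset.mul_sum]
      exact Finset.sum_congr rfl fun i _ => by rw [Pi.smul_apply, smul_eq_mul]; ring
    rw [this, hc2]
    ring
  simp_rw [hlin]
  have hmeas : Measurable (Function.uncurry fun (ξ : Fin m → ℝ) (g : Fin n → ℝ) =>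
      ENNReal.ofReal (Real.exp (ip (c • R.mulVec ξ) g))) := by
    refine ENNReal.measurable_ofReal.comp (Real.measurable_exp.comp ?_)
    have : Continuous fun p : (Fin m → ℝ) × (Fin n → ℝ) => ip (c • R.mulVec p.1) p.2 := by
      unfold ip Matrix.mulVec dotProduct
      simp only [Pi.smul_apply, smul_eq_mul]
      fun_prop
    exact this.measurable
  rw [lintegral_lintegral_swap hmeas.aemeasurable]
  have hin : ∀ g : Fin n → ℝ, ∫⁻ ξ, ENNReal.ofReal (Real.exp (ip (c • R.mulVec ξ) g))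
      ∂gpi (Fin m) ≤ ENNReal.ofReal (Real.exp (t * C * sq g)) := by
    intro g
    have e1 : ∀ ξ : Fin m → ℝ, ip (c • R.mulVec ξ) g = ip (c • Rᵀ.mulVec g) ξ := by
      intro ξ
      rw [ip_smul_left, ip_smul_left, ipN_comm, ip_tr]
    simp_rw [e1]
    rw [← ofReal_integral_eq_lintegral_ofReal (integrable_exp_ip _)
      (ae_of_all _ fun z => (Real.exp_pos _).le), integral_exp_ip]
    refine ENNReal.ofReal_le_ofReal (Real.exp_le_exp.2 ?_)
    have : sq (c • Rᵀ.mulVec g) = c ^ 2 * sq (Rᵀ.mulVec g) := by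
      unfold sq
      rw [Finset.mul_sum]
      exact Finset.sum_congr rfl fun i _ => by rw [Pi.smul_apply, smul_eq_mul]; ring
    rw [this, hc2]
    have h1 := sq_tr_le h hC g
    linarith only [mul_nonneg (sub_nonneg.2 ht) (sub_nonneg.2 h1)]
  refine (lintegral_mono hin).trans ?_
  set u := t * C with hu
  have hu0 : 0 ≤ u := by positivity
  -- the chi-square moment
  have hprod : ∀ g : Fin n → ℝ, Real.exp (u * sq g) = ∏ k, Real.exp (u * g k ^ 2) := by
    intro g
    unfold sq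
    rw [Finset.mul_sum, Real.exp_sum]
  have hint : ∫ g, Real.exp (u * sq g) ∂(gpi (Fin n)) = ((√(1 - 2 * u))⁻¹) ^ n := by
    simp_rw [hprod]
    unfold gpi
    rw [integral_fintype_prod_eq_prod (μ := fun _ => gaussianReal 0 1)
      (f := fun (_ : Fin n) (x : ℝ) => Real.exp (u * x ^ 2))]
    simp_rw [integral_exp_sq_gaussian (t := u) (by linarith)]
    simp
  have hintg : Integrable (fun g : Fin n → ℝ => Real.exp (u * sq g)) (gpi (Fin n)) := by
    simp_rw [hprod]
    exact Integrable.fintype_prod (μ := fun _ => gaussianReal 0 1)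
      (f := fun (_ : Fin n) (x : ℝ) => Real.exp (u * x ^ 2)) fun k =>
        integrable_exp_sq_gaussian (by linarith)
  rw [← ofReal_integral_eq_lintegral_ofReal hintg (ae_of_all _ fun z => (Real.exp_pos _).le), hint]
  refine ENNReal.ofReal_le_ofReal ?_
  have h2 : (√(1 - 2 * u))⁻¹ ≤ Real.exp (2 * u) := by
    rw [inv_le_comm₀ (Real.sqrt_pos.2 (by linarith)) (Real.exp_pos _), ← Real.exp_neg]
    refine Real.le_sqrt_of_sq_le ?_
    rw [← Real.exp_nat_mul]
    have h3 : Real.exp (((2 : ℕ) : ℝ) * -(2 * u)) ≤ 1 - 2 * u := by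
      have h4 : 1 + 4 * u ≤ Real.exp (4 * u) := by
        have := Real.add_one_le_exp (4 * u); linarith
      have h5 : ((2 : ℕ) : ℝ) * -(2 * u) = -(4 * u) := by push_cast; ring
      rw [h5, Real.exp_neg]
      have h6 : (Real.exp (4 * u))⁻¹ ≤ (1 + 4 * u)⁻¹ := by
        rw [inv_le_inv₀ (Real.exp_pos _) (by linarith only [hu0])]
        exact h4
      refine h6.trans ?_
      rw [inv_le_iff_one_le_mul₀ (by linarith)]
      linarith only [mul_nonneg (sub_nonneg.2 htC) (sub_nonneg.2 hu0)]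
    exact h3
  calc ((√(1 - 2 * u))⁻¹) ^ n ≤ (Real.exp (2 * u)) ^ n :=
        pow_le_pow_left₀ (by positivity) h2 n
    _ = Real.exp (2 * u * n) := by rw [← Real.exp_nat_mul]; congr 1; ring

theorem integrable_exp_sq_R {R : Matrix (Fin n) (Fin m) ℝ} {C t : ℝ} (h : OpLe (R * Rᵀ) C)
    (hC : 0 ≤ C) (ht : 0 ≤ t) (htC : t * C ≤ 1 / 4) :
    Integrable (fun ξ => Real.exp (t * sq (R.mulVec ξ))) (gpi (Fin m)) := by
  have hm : Continuous fun ξ : Fin m → ℝ => Real.exp (t * sq (R.mulVec ξ)) := by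
    unfold sq Matrix.mulVec dotProduct
    fun_prop
  refine ⟨hm.aestronglyMeasurable, ?_⟩
  rw [hasFiniteIntegral_iff_ofReal (ae_of_all _ fun z => (Real.exp_pos _).le)]
  exact (lint_exp_sq_R h hC ht htC).trans_lt ENNReal.ofReal_lt_top

theorem integral_exp_sq_R_le {R : Matrix (Fin n) (Fin m) ℝ} {C t : ℝ} (h : OpLe (R * Rᵀ) C)
    (hC : 0 ≤ C) (ht : 0 ≤ t) (htC : t * C ≤ 1 / 4) :
    ∫ ξ, Real.exp (t * sq (R.mulVec ξ)) ∂gpi (Fin m) ≤ Real.exp (2 * (t * C) * n) := by
  have h1 := lint_exp_sq_R h hC ht htC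
  rw [← ofReal_integral_eq_lintegral_ofReal (integrable_exp_sq_R h hC ht htC)
    (ae_of_all _ fun z => (Real.exp_pos _).le),
    ENNReal.ofReal_le_ofReal_iff (Real.exp_pos _).le] at h1
  exact h1

theorem integrable_sq_R (R : Matrix (Fin n) (Fin m) ℝ) :
    Integrable (fun ξ => sq (R.mulVec ξ)) (gpi (Fin m)) := by
  unfold sq
  refine integrable_finsetSum _ fun j _ => ?_
  have hl : Lip (nv (fun i => R j i)) (fun z : Fin m → ℝ => R.mulVec z j) := by
    intro z z'
    show |ip (fun i => R j i) z - ip (fun i => R j i) z'| ≤ _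
    rw [← ip_sub_right, ed_eq_nv]
    exact abs_ip_le _ _
  exact hl.integrable_sq

end Vale.Agent.P150.F.TP
end
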