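import Mathlib
import Vale.Agent.P150.MathlibUsed
import Vale.Agent.P150.Bdl.B1
import Vale.Agent.P150.Bdl.B4

set_option linter.all false

section

/-! Extension from a set, fourth moments and bad events for Lipschitz functions of Gaussians. -/

open MeasureTheory ProbabilityTheory Real Set Filter Topology

namespace Vale.Agent.P150.F

variable {ι : Type*} [Fintype ι]

lemma ed_eq_dist' (w w' : ι → ℝ) :
    ed w w' = dist (WithLp.toLp 2 w : EuclideanSpace ℝ ι) (WithLp.toLp 2 w') := by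
  rw [EuclideanSpace.dist_eq]
  unfold ed
  simp [Real.dist_eq, sq_abs]

/-- McShane extension -/
theorem exists_lip_ext {S : Set (ι → ℝ)} {L : ℝ} (hL : 0 ≤ L) {f : (ι → ℝ) → ℝ}
    (hf : ∀ w ∈ S, ∀ w' ∈ S, |f w - f w'| ≤ L * ed w w') :
    ∃ fe : (ι → ℝ) → ℝ, Lip L fe ∧ ∀ w ∈ S, fe w = f w := by
  have h1 : LipschitzOnWith ⟨L, hL⟩ (fun x : EuclideanSpace ℝ ι => f (WithLp.ofLp x))
      {x | WithLp.ofLp x ∈ S} := by
    refine LipschitzOnWith.of_dist_le_mul fun x hx y hy => ?_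
    have h2 := hf _ hx _ hy
    rw [ed_eq_dist'] at h2
    rw [Real.dist_eq]
    exact h2
  obtain ⟨g, hg, hgs⟩ := h1.extend_real
  refine ⟨fun w => g (WithLp.toLp 2 w), fun w w' => ?_, fun w hw => ?_⟩
  · have h3 := hg.dist_le_mul (WithLp.toLp 2 w) (WithLp.toLp 2 w')
    rw [Real.dist_eq, ← ed_eq_dist'] at h3
    exact h3
  · have h4 : WithLp.toLp 2 w ∈ {x : EuclideanSpace ℝ ι | WithLp.ofLp x ∈ S} := hw
    exact (hgs h4).symm

lemma pow_four_le_exp (x : ℝ) : x ^ 4 ≤ 24 * (Real.exp x + Real.exp (-x)) := by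
  have h := Real.pow_div_factorial_le_exp |x| (abs_nonneg x) 4
  have h1 : |x| ^ 4 = x ^ 4 := by
    have : |x| ^ 4 = (|x| ^ 2) ^ 2 := by ring
    rw [this, sq_abs]; ring
  rw [h1] at h
  have h2 : ((4 : ℕ).factorial : ℝ) = 24 := by norm_num [Nat.factorial]
  rw [h2] at h
  have h3 : Real.exp |x| ≤ Real.exp x + Real.exp (-x) := by
    rcases le_total 0 x with h4 | h4
    · rw [abs_of_nonneg h4]; linarith only [Real.exp_pos (-x)]
    · rw [abs_of_nonpos h4]; linarith only [Real.exp_pos x]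
  linarith

lemma Lip.integrable_exp_centered {L : ℝ} {f : (ι → ℝ) → ℝ} (hf : Lip L f) (c e : ℝ) :
    Integrable (fun w => Real.exp (c * (f w - e))) (gpi ι) := by
  have := (hf.add_const (-e)).integrable_exp c
  refine this.congr (ae_of_all _ fun w => ?_)
  simp only [sub_eq_add_neg]

/-- fourth centered moment of a Lipschitz function -/
lemma Lip.integrable_four {L : ℝ} {f : (ι → ℝ) → ℝ} (hf : Lip L f) (hL : 0 < L) :
    Integrable (fun w => (f w - ∫ w', f w' ∂gpi ι) ^ 4) (gpi ι) := by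
  set E := ∫ w', f w' ∂gpi ι with hE
  have i1 := hf.integrable_exp_centered (1 / L) E
  have i2 := hf.integrable_exp_centered (-(1 / L)) E
  refine ((i1.add i2).const_mul (24 * L ^ 4)).mono'
    ((hf.measurable.sub_const E).pow_const 4).aestronglyMeasurable (ae_of_all _ fun w => ?_)
  have h := pow_four_le_exp (1 / L * (f w - E))
  rw [Real.norm_eq_abs, abs_of_nonneg (by (clear * -; positivity))]
  have h1 : (f w - E) ^ 4 = L ^ 4 * (1 / L * (f w - E)) ^ 4 := by
    field_simp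
  rw [h1]
  have h2 := mul_le_mul_of_nonneg_left h (pow_pos hL 4).le
  refine h2.trans (le_of_eq ?_)
  simp only [Pi.add_apply, neg_mul]
  ring

lemma Lip.four_le {L : ℝ} {f : (ι → ℝ) → ℝ} (hf : Lip L f) (hL : 0 < L) :
    ∫ w, (f w - ∫ w', f w' ∂gpi ι) ^ 4 ∂gpi ι ≤ 144 * L ^ 4 := by
  set E := ∫ w', f w' ∂gpi ι with hE
  have i1 := hf.integrable_exp_centered (1 / L) E
  have i2 := hf.integrable_exp_centered (-(1 / L)) E
  have h1 : ∫ w, (f w - E) ^ 4 ∂gpi ι ≤ ∫ w, 24 * L ^ 4 *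
      (Real.exp (1 / L * (f w - E)) + Real.exp (-(1 / L) * (f w - E))) ∂gpi ι := by
    refine integral_mono (hf.integrable_four hL) ((i1.add i2).const_mul (24 * L ^ 4)) fun w => ?_
    have h := pow_four_le_exp (1 / L * (f w - E))
    have h1 : (f w - E) ^ 4 = L ^ 4 * (1 / L * (f w - E)) ^ 4 := by
      field_simp
    simp only
    rw [h1]
    have h2 := mul_le_mul_of_nonneg_left h (pow_pos hL 4).le
    refine h2.trans (le_of_eq ?_)
    simp only [neg_mul]
    ring
  have h2 := hf.mgf_le (1 / L)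
  have h3 := hf.mgf_le (-(1 / L))
  rw [← hE] at h2 h3
  have e1 : (1 / L) ^ 2 * L ^ 2 = 1 := by field_simp
  have e2 : (-(1 / L)) ^ 2 * L ^ 2 = 1 := by rw [neg_sq]; exact e1
  rw [e1] at h2
  rw [e2] at h3
  rw [integral_const_mul, integral_add i1 i2] at h1
  have h4 : Real.exp 1 ≤ 3 := by
    have := Real.exp_one_lt_d9
    linarith only [this]
  have h5 : 0 < 24 * L ^ 4 := by positivity
  refine h1.trans ?_
  have h6 := mul_le_mul_of_nonneg_left (add_le_add (h2.trans h4) (h3.trans h4)) h5.le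
  refine h6.trans (le_of_eq ?_)
  ring

lemma integrable_coord_sq (i : ι) : Integrable (fun w : ι → ℝ => w i ^ 2) (gpi ι) := by
  have h : MeasurePreserving (Function.eval i) (gpi ι) (gaussianReal 0 1) :=
    measurePreserving_eval _ i
  have h2 : Integrable (fun x : ℝ => x ^ 2) (gaussianReal 0 1) :=
    (memLp_id_gaussianReal 2).integrable_sq
  exact h.integrable_comp_of_integrable h2

lemma integral_coord_sq (i : ι) : ∫ w : ι → ℝ, w i ^ 2 ∂gpi ι = 1 := by
  have h : MeasurePreserving (Function.eval i) (gpi ι) (gaussianReal 0 1) :=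
    measurePreserving_eval _ i
  have h1 : ∫ w : ι → ℝ, w i ^ 2 ∂gpi ι = ∫ x : ℝ, x ^ 2 ∂(gaussianReal 0 1) := by
    rw [← h.map_eq, integral_map h.measurable.aemeasurable (by fun_prop)]
  rw [h1]
  have h2 := variance_of_integral_eq_zero (μ := gaussianReal 0 1) (X := id) aemeasurable_id
    (by simp)
  simp only [id] at h2
  have h3 : Var[id; gaussianReal 0 1] = 1 := by simp
  rw [← h3, ← h2]

lemma Lip.abs_le_norm {L : ℝ} {f : (ι → ℝ) → ℝ} (hf : Lip L f) (h0 : f 0 = 0) (w : ι → ℝ) :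
    f w ^ 2 ≤ L ^ 2 * ∑ i, w i ^ 2 := by
  have h := hf w 0
  rw [h0, sub_zero] at h
  have h1 : f w ^ 2 ≤ (L * ed w 0) ^ 2 := by
    rw [← sq_abs (f w)]
    exact pow_le_pow_left₀ (abs_nonneg _) h 2
  rw [mul_pow, ed_sq] at h1
  simpa using h1

/-- contribution of a bad event -/
lemma Lip.bad_le {L : ℝ} {f : (ι → ℝ) → ℝ} (hf : Lip L f) (h0 : f 0 = 0) {B : Set (ι → ℝ)}
    (hB : MeasurableSet B) {s : ℝ} (hs : 0 < s) :
    ∫ w in B, |f w| ∂gpi ι ≤ (s * (L ^ 2 * Fintype.card ι) + (gpi ι).real B / s) / 2 := by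
  have hi : Integrable (fun w : ι → ℝ => L ^ 2 * ∑ i, w i ^ 2) (gpi ι) :=
    (integrable_finsetSum _ fun i _ => integrable_coord_sq i).const_mul _
  have h1 : ∫ w in B, |f w| ∂gpi ι
      ≤ ∫ w, (s * (L ^ 2 * ∑ i, w i ^ 2) + B.indicator (fun _ => 1 / s) w) / 2 ∂gpi ι := by
    rw [← integral_indicator hB]
    refine integral_mono ((hf.integrable.abs).indicator hB)
      (((hi.const_mul s).add ((integrable_const (1 / s)).indicator hB)).div_const 2) fun w => ?_
    by_cases hw : w ∈ B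
    · simp only [Set.indicator_of_mem hw]
      have h2 := hf.abs_le_norm h0 w
      have h3 : |f w| ^ 2 = f w ^ 2 := sq_abs _
      rw [le_div_iff₀ two_pos]
      have h4 : |f w| * 2 ≤ s * |f w| ^ 2 + 1 / s := by
        have h5 : 0 ≤ (s * |f w| - 1) ^ 2 / s := by (clear * - hs; positivity)
        have h6 : (s * |f w| - 1) ^ 2 / s = s * |f w| ^ 2 + 1 / s - |f w| * 2 := by
          field_simp
          ring
        linarith
      have h7 : s * |f w| ^ 2 ≤ s * (L ^ 2 * ∑ i, w i ^ 2) := by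
        rw [h3]; exact mul_le_mul_of_nonneg_left h2 hs.le
      linarith only [h7, h4]
    · simp only [Set.indicator_of_notMem hw, add_zero]
      have : 0 ≤ ∑ i, w i ^ 2 := Finset.sum_nonneg fun _ _ => sq_nonneg _
      (clear * - hs; positivity)
  refine h1.trans (le_of_eq ?_)
  rw [integral_div, integral_add (hi.const_mul s) ((integrable_const (1 / s)).indicator hB),
    integral_const_mul, integral_const_mul, integral_finsetSum _ fun i _ => integrable_coord_sq i,
    integral_indicator hB]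
  simp only [integral_coord_sq, Finset.sum_const, Finset.card_univ, nsmul_eq_mul, mul_one,
    integral_const, smul_eq_mul, measureReal_restrict_apply_univ]
  ring

end Vale.Agent.P150.F
end

section

set_option linter.all false

/-!
P150-FULL, module G1: functions of polynomial growth of a standard Gaussian vector:
integrability, moments with explicit dimension dependence, Gaussian integration by parts.
-/

open MeasureTheory ProbabilityTheory Filter Topology

namespace Vale.Agent.P150.F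

section PG

variable {ι : Type*} [Fintype ι]

/-- continuous with polynomial growth -/
def PG (f : (ι → ℝ) → ℝ) : Prop :=
  Continuous f ∧ ∃ (C : ℝ) (m : ℕ), ∀ w, |f w| ≤ C * (1 + ∑ k, w k ^ 2) ^ m

lemma one_le_ssq (w : ι → ℝ) : 1 ≤ 1 + ∑ k, w k ^ 2 :=
  le_add_of_nonneg_right (Finset.sum_nonneg fun _ _ => sq_nonneg _)

lemma PG.exists_pos {f : (ι → ℝ) → ℝ} (hf : PG f) :
    ∃ (C : ℝ) (m : ℕ), 0 ≤ C ∧ ∀ w, |f w| ≤ C * (1 + ∑ k, w k ^ 2) ^ m := by
  obtain ⟨C, m, h⟩ := hf.2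
  refine ⟨C, m, ?_, h⟩
  have := (abs_nonneg _).trans (h 0)
  simpa using this

lemma PG.const (c : ℝ) : PG (fun _ : ι → ℝ => c) :=
  ⟨continuous_const, |c|, 0, fun w => by simp⟩

lemma PG.coord (k : ι) : PG (fun w : ι → ℝ => w k) := by
  refine ⟨continuous_apply k, 1, 1, fun w => ?_⟩
  have h : w k ^ 2 ≤ ∑ k, w k ^ 2 :=
    Finset.single_le_sum (f := fun k => w k ^ 2) (fun _ _ => sq_nonneg _) (Finset.mem_univ k)
  rw [one_mul, pow_one]
  linarith only [h, abs_nonneg (w k), sq_abs (w k), sq_nonneg (|w k| - 1)]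

lemma PG.add {f g : (ι → ℝ) → ℝ} (hf : PG f) (hg : PG g) : PG (fun w => f w + g w) := by
  obtain ⟨C, m, hC, h⟩ := hf.exists_pos
  obtain ⟨D, k, hD, h'⟩ := hg.exists_pos
  refine ⟨hf.1.add hg.1, C + D, max m k, fun w => ?_⟩
  have h1 := one_le_ssq w
  have e1 : (1 + ∑ k, w k ^ 2) ^ m ≤ (1 + ∑ k, w k ^ 2) ^ (max m k) :=
    pow_le_pow_right₀ h1 (le_max_left _ _)
  have e2 : (1 + ∑ k, w k ^ 2) ^ k ≤ (1 + ∑ k, w k ^ 2) ^ (max m k) :=
    pow_le_pow_right₀ h1 (le_max_right _ _)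
  calc |f w + g w| ≤ |f w| + |g w| := abs_add_le _ _
    _ ≤ C * (1 + ∑ k, w k ^ 2) ^ m + D * (1 + ∑ k, w k ^ 2) ^ k := add_le_add (h w) (h' w)
    _ ≤ C * (1 + ∑ k, w k ^ 2) ^ (max m k) + D * (1 + ∑ k, w k ^ 2) ^ (max m k) :=
        add_le_add (mul_le_mul_of_nonneg_left e1 hC) (mul_le_mul_of_nonneg_left e2 hD)
    _ = _ := by ring

lemma PG.mul {f g : (ι → ℝ) → ℝ} (hf : PG f) (hg : PG g) : PG (fun w => f w * g w) := by
  obtain ⟨C, m, hC, h⟩ := hf.exists_pos
  obtain ⟨D, k, hD, h'⟩ := hg.exists_pos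
  refine ⟨hf.1.mul hg.1, C * D, m + k, fun w => ?_⟩
  calc |f w * g w| = |f w| * |g w| := abs_mul _ _
    _ ≤ (C * (1 + ∑ k, w k ^ 2) ^ m) * (D * (1 + ∑ k, w k ^ 2) ^ k) :=
        mul_le_mul (h w) (h' w) (abs_nonneg _) ((abs_nonneg _).trans (h w))
    _ = _ := by rw [pow_add]; ring

lemma PG.const_mul {f : (ι → ℝ) → ℝ} (c : ℝ) (hf : PG f) : PG (fun w => c * f w) :=
  (PG.const c).mul hf

lemma PG.neg {f : (ι → ℝ) → ℝ} (hf : PG f) : PG (fun w => -f w) := by
  simpa using hf.const_mul (-1)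

lemma PG.sub {f g : (ι → ℝ) → ℝ} (hf : PG f) (hg : PG g) : PG (fun w => f w - g w) := by
  simpa [sub_eq_add_neg] using hf.add hg.neg

lemma PG.abs {f : (ι → ℝ) → ℝ} (hf : PG f) : PG (fun w => |f w|) := by
  obtain ⟨C, m, h⟩ := hf.2
  exact ⟨hf.1.abs, C, m, fun w => by rw [abs_abs]; exact h w⟩

lemma PG.pow {f : (ι → ℝ) → ℝ} (hf : PG f) (m : ℕ) : PG (fun w => f w ^ m) := by
  induction m with
  | zero => simpa using PG.const 1
  | succ m ih => simpa [pow_succ] using ih.mul hf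

lemma PG.sum {α : Type*} (s : Finset α) {f : α → (ι → ℝ) → ℝ} (hf : ∀ a ∈ s, PG (f a)) :
    PG (fun w => ∑ a ∈ s, f a w) := by
  classical
  induction s using Finset.induction_on with
  | empty => simpa using PG.const 0
  | insert a s ha ih =>
    simp only [Finset.sum_insert ha]
    exact (hf a (Finset.mem_insert_self _ _)).add
      (ih fun b hb => hf b (Finset.mem_insert_of_mem hb))

lemma PG.ssq : PG (fun w : ι → ℝ => 1 + ∑ k, w k ^ 2) :=
  (PG.const 1).add (PG.sum _ fun k _ => (PG.coord k).pow 2)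

/-- one-dimensional moments -/
lemma integrable_pow_gauss (m : ℕ) : Integrable (fun x : ℝ => x ^ m) (gaussianReal 0 1) := by
  have h : MemLp id m (gaussianReal 0 1) := memLp_id_gaussianReal (m : NNReal)
  have := h.integrable_norm_pow'
  exact this.mono' (by fun_prop) (Eventually.of_forall fun x => by simp)

lemma integrable_pow_coord (k : ι) (m : ℕ) : Integrable (fun w : ι → ℝ => w k ^ m) (gpi ι) := by
  have : MeasurePreserving (Function.eval k) (gpi ι) (gaussianReal 0 1) :=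
    measurePreserving_eval _ k
  exact this.integrable_comp_of_integrable (integrable_pow_gauss m)

lemma integral_pow_coord (k : ι) (m : ℕ) :
    ∫ w : ι → ℝ, w k ^ m ∂(gpi ι) = ∫ x : ℝ, x ^ m ∂(gaussianReal 0 1) := by
  have h : MeasurePreserving (Function.eval k) (gpi ι) (gaussianReal 0 1) :=
    measurePreserving_eval _ k
  rw [← h.map_eq, integral_map h.measurable.aemeasurable
    (by fun_prop)]

lemma ssq_pow_le (w : ι → ℝ) (m : ℕ) :
    (1 + ∑ k, w k ^ 2) ^ (m + 1) ≤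
      (1 + Fintype.card ι : ℝ) ^ m * (1 + ∑ k, w k ^ (2 * (m + 1))) := by
  have key := pow_sum_le_card_mul_sum_pow (s := (Finset.univ : Finset (Option ι)))
    (f := fun o => o.elim (1 : ℝ) fun k => w k ^ 2)
    (fun o _ => by cases o <;> simp [sq_nonneg]) m
  simp only [Fintype.sum_option, Finset.card_univ, Fintype.card_option, Option.elim_none,
    Option.elim_some, one_pow, ← pow_mul] at key
  refine key.trans (le_of_eq ?_)
  push_cast
  ring

end PG

/-- moments of `1 + |w|²` with explicit dependence on the dimension -/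
theorem moment (m : ℕ) : ∃ c : ℝ, 0 < c ∧ ∀ (ι : Type) [Fintype ι],
    Integrable (fun w : ι → ℝ => (1 + ∑ k, w k ^ 2) ^ m) (gpi ι) ∧
    ∫ w, (1 + ∑ k, w k ^ 2) ^ m ∂(gpi ι) ≤ c * (1 + Fintype.card ι) ^ m := by
  cases m with
  | zero => exact ⟨1, one_pos, fun ι _ => by simp⟩
  | succ m =>
    set c0 : ℝ := ∫ x : ℝ, x ^ (2 * (m + 1)) ∂(gaussianReal 0 1) with hc0
    have hc0' : 0 ≤ c0 := integral_nonneg fun x => by
      show (0 : ℝ) ≤ x ^ (2 * (m + 1))
      rw [pow_mul]; positivity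
    refine ⟨1 + c0, by positivity, fun ι _ => ?_⟩
    have hi : Integrable (fun w : ι → ℝ => (1 + Fintype.card ι : ℝ) ^ m *
        (1 + ∑ k, w k ^ (2 * (m + 1)))) (gpi ι) :=
      ((integrable_const 1).add (integrable_finsetSum _ fun k _ =>
        integrable_pow_coord k _)).const_mul _
    have hI : Integrable (fun w : ι → ℝ => (1 + ∑ k, w k ^ 2) ^ (m + 1)) (gpi ι) := by
      refine hi.mono' ((PG.ssq (ι := ι)).pow (m + 1)).1.measurable.aestronglyMeasurable
        (Eventually.of_forall fun w => ?_)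
      rw [Real.norm_of_nonneg (pow_nonneg (zero_le_one.trans (one_le_ssq w)) _)]
      exact ssq_pow_le w m
    refine ⟨hI, ?_⟩
    refine (integral_mono hI hi fun w => ssq_pow_le w m).trans ?_
    rw [integral_const_mul, integral_add (integrable_const 1)
      (integrable_finsetSum _ fun k _ => integrable_pow_coord k _),
      integral_finsetSum _ fun k _ => integrable_pow_coord k _]
    simp only [integral_pow_coord, integral_const, probReal_univ, smul_eq_mul, mul_one,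
      Finset.sum_const, Finset.card_univ, nsmul_eq_mul, ← hc0]
    have hN : (0 : ℝ) ≤ Fintype.card ι := Nat.cast_nonneg _
    have e : (1 : ℝ) + Fintype.card ι * c0 ≤ (1 + c0) * (1 + Fintype.card ι) := by linarith only [hN, hc0']
    calc (1 + Fintype.card ι : ℝ) ^ m * (1 + Fintype.card ι * c0)
        ≤ (1 + Fintype.card ι : ℝ) ^ m * ((1 + c0) * (1 + Fintype.card ι)) :=
          mul_le_mul_of_nonneg_left e (by positivity)
      _ = _ := by ring

section PG2

variable {ι : Type} [Fintype ι]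

lemma PG.integrable {f : (ι → ℝ) → ℝ} (hf : PG f) : Integrable f (gpi ι) := by
  obtain ⟨C, m, h⟩ := hf.2
  obtain ⟨c, _, hm⟩ := moment m
  refine ((hm ι).1.const_mul C).mono' hf.1.measurable.aestronglyMeasurable
    (Eventually.of_forall fun w => ?_)
  exact h w

/-- Gaussian integration by parts for functions of polynomial growth -/
theorem stein_PG [DecidableEq ι] (k : ι) {G G' : (ι → ℝ) → ℝ} (hG : PG G) (hG' : PG G')
    (hd : ∀ x, HasDerivAt (fun t => G (Function.update x k t)) (G' x) (x k)) :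
    ∫ x, x k * G x ∂(gpi ι) = ∫ x, G' x ∂(gpi ι) := by
  have h1 : Integrable (fun x : ι → ℝ => x k * G x) (gpi ι) := ((PG.coord k).mul hG).integrable
  have h2 := hG'.integrable
  have h3 := hG.integrable
  have mp := measurePreserving_update (fun _ : ι => gaussianReal 0 1) k
  have slice : ∀ {f : (ι → ℝ) → ℝ}, Integrable f (gpi ι) →
      ∀ᵐ x ∂(gpi ι), Integrable (fun t => f (Function.update x k t)) (gaussianReal 0 1) := by
    intro f hf
    exact (mp.integrable_comp_of_integrable hf).prod_right_ae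
  rw [integral_update _ k h1, integral_update _ k h2]
  refine integral_congr_ae ?_
  filter_upwards [slice h1, slice h2, slice h3] with x s1 s2 s3
  simp only [Function.update_self] at s1 ⊢
  refine stein_one (g := fun t => G (Function.update x k t))
    (g' := fun t => G' (Function.update x k t)) (fun t => ?_) s1 s2 s3
  have := hd (Function.update x k t)
  simpa using this

end PG2

end Vale.Agent.P150.F
end

section

/-! Bridge between the channel on the cube and the abstract channel; CH0, CH1, CH1'. -/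

open MeasureTheory ProbabilityTheory Filter Topology Real
open scoped Matrix

namespace Vale.Agent.P150.F

open P245 (gsn EG1)

variable {n m : ℕ}

/-- the signal of a configuration -/
noncomputable def chv (R : Matrix (Fin n) (Fin m) ℝ) (x : Cfg n) : Fin m → ℝ := Rᵀ.mulVec (sv x)

/-- the label as a function of the (shifted) noise -/
noncomputable def lb (R : Matrix (Fin n) (Fin m) ℝ) (δ : ℝ) (g : Fin m → ℝ) : Vec n :=
  fun i => √δ * R.mulVec g i

theorem abs_sv (x : Cfg n) (i : Fin n) : |sv x i| = 1 := by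
  unfold sv sp
  split_ifs <;> simp

theorem abs_sg {R : Matrix (Fin n) (Fin m) ℝ} {C : ℝ} (hR : ∀ i j, |R i j| ≤ C) (x : Cfg n)
    (k : Fin m) : |chv R x k| ≤ n * C := by
  unfold chv Matrix.mulVec dotProduct
  refine (Finset.abs_sum_le_sum_abs _ _).trans ?_
  calc ∑ i, |Rᵀ k i * sv x i| ≤ ∑ _i : Fin n, C := by
        apply Finset.sum_le_sum; intro i _
        rw [abs_mul, abs_sv, mul_one, Matrix.transpose_apply]
        exact hR i k
    _ = n * C := by simp

theorem obs_eq (R : Matrix (Fin n) (Fin m) ℝ) {δ : ℝ} (hδ : 0 ≤ δ) (x : Cfg n) (ξ : Fin m → ℝ) :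
    obs R δ x ξ = lb R δ (ξ + √δ • chv R x) := by
  funext i
  unfold obs lb chv
  rw [Matrix.mulVec_add, Matrix.mulVec_smul, ← Matrix.mulVec_mulVec]
  simp only [Pi.add_apply, Pi.smul_apply, smul_eq_mul]
  have := mul_self_sqrt hδ
  linear_combination (-(R.mulVec (Rᵀ.mulVec (sv x)) i)) * this

theorem ip_lb (R : Matrix (Fin n) (Fin m) ℝ) (δ : ℝ) (g : Fin m → ℝ) (x : Cfg n) :
    ip (lb R δ g) (sv x) = √δ * ∑ k, g k * chv R x k := by
  have h1 : ip (lb R δ g) (sv x) = √δ * (R.mulVec g ⬝ᵥ sv x) := by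
    unfold ip lb dotProduct
    rw [Finset.mul_sum]
    apply Finset.sum_congr rfl; intro i _; ring
  rw [h1, dotProduct_comm, Matrix.dotProduct_mulVec, ← Matrix.mulVec_transpose]
  unfold chv dotProduct
  congr 1
  apply Finset.sum_congr rfl; intro k _; ring

theorem qf_sg (R : Matrix (Fin n) (Fin m) ℝ) (x : Cfg n) :
    qf (R * Rᵀ) (sv x) = ∑ k, chv R x k ^ 2 := by
  have h1 : qf (R * Rᵀ) (sv x) = sv x ⬝ᵥ (R * Rᵀ).mulVec (sv x) := rfl
  rw [h1, ← Matrix.mulVec_mulVec, Matrix.dotProduct_mulVec, ← Matrix.mulVec_transpose]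
  unfold chv dotProduct
  apply Finset.sum_congr rfl; intro k _; ring

theorem lk_eq (R : Matrix (Fin n) (Fin m) ℝ) (δ : ℝ) (g : Fin m → ℝ) (x : Cfg n) :
    Real.exp (ip (lb R δ g) (sv x) - δ / 2 * qf (R * Rᵀ) (sv x)) = lk δ (chv R x) g := by
  rw [ip_lb, qf_sg]; rfl

theorem evd_lb (ν : Cfg n → ℝ) (R : Matrix (Fin n) (Fin m) ℝ) (δ : ℝ) (g : Fin m → ℝ) :
    evd ν (R * Rᵀ) δ (lb R δ g) = mlk ν (chv R) δ g := by
  unfold evd mlk
  simp_rw [lk_eq]

theorem pst_lb (ν : Cfg n → ℝ) (R : Matrix (Fin n) (Fin m) ℝ) (δ : ℝ) (g : Fin m → ℝ)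
    (x : Cfg n) : pst ν (R * Rᵀ) δ (lb R δ g) x = ν x * lk δ (chv R x) g / mlk ν (chv R) δ g := by
  unfold pst mlk
  simp_rw [lk_eq]

theorem continuous_lb (R : Matrix (Fin n) (Fin m) ℝ) (δ : ℝ) : Continuous (lb R δ) := by
  unfold lb Matrix.mulVec dotProduct
  fun_prop

/-- expectation over the channel through the likelihood -/
theorem integral_obs (R : Matrix (Fin n) (Fin m) ℝ) {δ : ℝ} (hδ : 0 ≤ δ) (x : Cfg n)
    (Φ : Vec n → ℝ) :
    ∫ ξ, Φ (obs R δ x ξ) ∂(gpi (Fin m)) = ∫ g, lk δ (chv R x) g * Φ (lb R δ g) ∂(gsn m) := by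
  rw [gpi_eq_gsn, integral_lk hδ]
  congr 1
  funext ξ
  rw [obs_eq R hδ]

theorem integrable_obs_iff (R : Matrix (Fin n) (Fin m) ℝ) {δ : ℝ} (hδ : 0 ≤ δ) (x : Cfg n)
    (Φ : Vec n → ℝ) :
    Integrable (fun ξ => Φ (obs R δ x ξ)) (gpi (Fin m)) ↔
      Integrable (fun g => lk δ (chv R x) g * Φ (lb R δ g)) (gsn m) := by
  rw [gpi_eq_gsn, P245.integrable_gam_iff, P245.integrable_gam_iff]
  have e : ∀ ξ : Fin m → ℝ, obs R δ x ξ = lb R δ (ξ + √δ • chv R x) := fun ξ => obs_eq R hδ x ξ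
  simp_rw [e]
  set a := √δ • chv R x with ha
  have h1 : Integrable (fun z => P245.gd z * Φ (lb R δ (z + a)))
      ↔ Integrable (fun z => P245.gd (z - a) * Φ (lb R δ z)) := by
    constructor
    · intro h
      have := h.comp_sub_right a
      simpa using this
    · intro h
      have := h.comp_add_right a
      simpa using this
  rw [h1]
  apply integrable_congr
  refine Eventually.of_forall fun z => ?_
  simp only
  have : P245.gd (z - a) = P245.gd z * lk δ (chv R x) z := by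
    rw [lk_shift hδ, P245.gd_eq, P245.gd_eq, mul_assoc, ← Real.exp_add]
    congr 2
    simp only [Pi.sub_apply, ← ha]
    rw [← sub_eq_zero]
    have e : ∑ i, (z i - a i) ^ 2 = ∑ i, z i ^ 2 - 2 * ∑ i, a i * z i + ∑ i, a i ^ 2 := by
      rw [Finset.mul_sum, ← Finset.sum_sub_distrib, ← Finset.sum_add_distrib]
      apply Finset.sum_congr rfl
      intro i _; ring
    rw [e]; ring
  rw [this]; ring

theorem EC_eq (ν : Cfg n → ℝ) (R : Matrix (Fin n) (Fin m) ℝ) {δ : ℝ} (hδ : 0 ≤ δ)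
    (Φ : Cfg n → Vec n → ℝ) :
    EC ν R δ Φ = ∑ x, ν x * ∫ g, lk δ (chv R x) g * Φ x (lb R δ g) ∂(gsn m) := by
  unfold EC
  simp_rw [integral_obs R hδ]

theorem mlk_pos {X : Type*} [Fintype X] {ν : X → ℝ} (h0 : ∀ x, 0 ≤ ν x) (h1 : ∑ x, ν x = 1)
    (V : X → Fin m → ℝ) (δ : ℝ) (g : Fin m → ℝ) : 0 < mlk ν V δ g := by
  obtain ⟨x, hx⟩ : ∃ x, 0 < ν x := by
    by_contra hcon
    push Not at hcon
    have : ∑ x, ν x ≤ 0 := Finset.sum_nonpos fun x _ => hcon x
    linarith
  unfold mlk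
  have := Finset.single_le_sum (f := fun x => ν x * lk δ (V x) g)
    (fun x _ => mul_nonneg (h0 x) (lk_pos _ _ _).le) (Finset.mem_univ x)
  exact (mul_pos hx (lk_pos _ _ _)).trans_le this

/-- expectation of a function of the label alone -/
theorem EC_label (ν : Cfg n → ℝ) (R : Matrix (Fin n) (Fin m) ℝ) {δ : ℝ} (hδ : 0 ≤ δ)
    (Φ : Vec n → ℝ) (h : ∀ x, Integrable (fun g => lk δ (chv R x) g * Φ (lb R δ g)) (gsn m)) :
    EC ν R δ (fun _ z => Φ z) = ∫ g, mlk ν (chv R) δ g * Φ (lb R δ g) ∂(gsn m) := by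
  rw [EC_eq ν R hδ]
  simp_rw [← integral_const_mul]
  rw [← integral_finsetSum _ fun x _ => (h x).const_mul _]
  congr 1
  funext g
  unfold mlk
  rw [Finset.sum_mul]
  apply Finset.sum_congr rfl; intro x _; ring

theorem thCH1 : CH1 := by
  intro n m R δ hδ ν hν Φ hΦ
  have hI : ∀ x, Integrable (fun g => lk δ (chv R x) g * Φ x (lb R δ g)) (gsn m) := fun x =>
    (integrable_obs_iff R hδ x (Φ x)).1 (hΦ x)
  have hpos := fun g => mlk_pos (m := m) hν.1 hν.2 (chv R) δ g
  -- the averaged function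
  set Ψ : Vec n → ℝ := fun z => ∑ x', pst ν (R * Rᵀ) δ z x' * Φ x' z with hΨ
  have e1 : ∀ g, mlk ν (chv R) δ g * Ψ (lb R δ g)
      = ∑ x', ν x' * (lk δ (chv R x') g * Φ x' (lb R δ g)) := by
    intro g
    rw [hΨ]
    simp only [pst_lb]
    rw [Finset.mul_sum]
    apply Finset.sum_congr rfl; intro x' _
    have := (hpos g).ne'
    field_simp
  have hM : Integrable (fun g => mlk ν (chv R) δ g * Ψ (lb R δ g)) (gsn m) := by
    simp_rw [e1]
    exact integrable_finsetSum _ fun x' _ => (hI x').const_mul _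
  rw [EC_eq ν R hδ, EC_eq ν R hδ]
  by_cases hall : ∀ x, Integrable (fun g => ν x * (lk δ (chv R x) g * Ψ (lb R δ g))) (gsn m)
  · simp_rw [← integral_const_mul]
    rw [← integral_finsetSum _ fun x _ => (hI x).const_mul _,
      ← integral_finsetSum _ fun x _ => hall x]
    congr 1
    funext g
    rw [← e1 g]
    unfold mlk
    rw [Finset.sum_mul]
    apply Finset.sum_congr rfl; intro x _; ring
  · exfalso
    apply hall
    intro x
    -- `ν x lk_x ≤ mlk`
    refine Integrable.mono hM ?_ (Eventually.of_forall fun g => ?_)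
    · have hc : Continuous fun g => ν x * lk δ (chv R x) g / mlk ν (chv R) δ g := by
        have hcm : Continuous fun g => mlk ν (chv R) δ g := by
          unfold mlk
          exact continuous_finsetSum _ fun x _ => continuous_const.mul (continuous_lk _ _)
        exact (continuous_const.mul (continuous_lk _ _)).div hcm fun g => (hpos g).ne'
      have := hc.aestronglyMeasurable.mul hM.aestronglyMeasurable (μ := gsn m)
      refine this.congr (Eventually.of_forall fun g => ?_)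
      simp only [Pi.mul_apply]
      have := (hpos g).ne'
      field_simp
    · have hle : ν x * lk δ (chv R x) g ≤ mlk ν (chv R) δ g := by
        unfold mlk
        exact Finset.single_le_sum (f := fun x => ν x * lk δ (chv R x) g)
          (fun x _ => mul_nonneg (hν.1 x) (lk_pos _ _ _).le) (Finset.mem_univ x)
      rw [norm_mul, norm_mul, norm_mul, ← mul_assoc]
      apply mul_le_mul_of_nonneg_right _ (norm_nonneg _)
      rw [← norm_mul, Real.norm_of_nonneg (mul_nonneg (hν.1 x) (lk_pos _ _ _).le),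
        Real.norm_of_nonneg (hpos g).le]
      exact hle

theorem thCH1' : CH1' := by
  intro n m R δ hδ μ f hμ hf hf1 Φ hΦ
  have hI : ∀ x, Integrable (fun g => lk δ (chv R x) g * Φ (lb R δ g)) (gsn m) := fun x =>
    (integrable_obs_iff R hδ x Φ).1 (hΦ x)
  have hpos := fun g => mlk_pos (m := m) hμ.1 hμ.2 (chv R) δ g
  have h1 := thCH1 n m R δ hδ μ hμ (fun x z => f x * Φ z) (fun x => (hΦ x).const_mul _)
  have e1 : EC (fun x => f x * μ x) R δ (fun _ z => Φ z) = EC μ R δ (fun x z => f x * Φ z) := by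
    unfold EC
    apply Finset.sum_congr rfl; intro x _
    rw [integral_const_mul]; ring
  rw [e1, h1]
  congr 1
  funext _ z
  unfold Ex
  rw [Finset.sum_mul]
  apply Finset.sum_congr rfl; intro x _; ring

end Vale.Agent.P150.F
end

section

/-! CH5: monotonicity of Dirichlet forms along the channel. -/

open MeasureTheory ProbabilityTheory Filter Topology Real
open scoped Matrix

namespace Vale.Agent.P150.F

open P245 (gsn EG1)

variable {n m : ℕ}

theorem eg1_lk (δ : ℝ) (hδ : 0 ≤ δ) (v : Fin m → ℝ) : EG1 (lk δ v) := by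
  refine eg1_of_le (C := 1) (c := √δ * ∑ k, |v k|) fun z => ?_
  rw [abs_of_pos (lk_pos _ _ _), one_mul]
  unfold lk
  apply Real.exp_le_exp.2
  have h1 : ∑ k, z k * v k ≤ (∑ k, |v k|) * S1 z :=
    (le_abs_self _).trans (abs_inner_le (fun k => Finset.single_le_sum (f := fun k => |v k|)
      (fun k _ => abs_nonneg _) (Finset.mem_univ k)) z)
  have h2 : 0 ≤ δ / 2 * ∑ k, v k ^ 2 := by positivity
  have h3 := mul_le_mul_of_nonneg_left h1 (Real.sqrt_nonneg δ)
  linarith only [h3, h2]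

theorem integrable_lk {δ : ℝ} (hδ : 0 ≤ δ) (v : Fin m → ℝ) : Integrable (lk δ v) (gsn m) :=
  (eg1_lk δ hδ v).integrable (continuous_lk δ v).aestronglyMeasurable

theorem integrable_lk_bdd {δ : ℝ} (hδ : 0 ≤ δ) (v : Fin m → ℝ) {Ψ : (Fin m → ℝ) → ℝ}
    (hm : Measurable Ψ) {C : ℝ} (hb : ∀ g, |Ψ g| ≤ C) :
    Integrable (fun g => lk δ v g * Ψ g) (gsn m) := by
  have h1 := (integrable_lk hδ v).const_mul C
  refine h1.mono' ((continuous_lk δ v).measurable.mul hm).aestronglyMeasurable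
    (Eventually.of_forall fun g => ?_)
  rw [norm_mul, Real.norm_of_nonneg (lk_pos _ _ _).le, Real.norm_eq_abs, mul_comm]
  exact mul_le_mul_of_nonneg_right (hb g) (lk_pos _ _ _).le

theorem integrable_obs_bdd (R : Matrix (Fin n) (Fin m) ℝ) {δ : ℝ} (hδ : 0 ≤ δ) (x : Cfg n)
    {Φ : Vec n → ℝ} (hm : Measurable Φ) {C : ℝ} (hb : ∀ z, |Φ z| ≤ C) :
    Integrable (fun ξ => Φ (obs R δ x ξ)) (gpi (Fin m)) :=
  (integrable_obs_iff R hδ x Φ).2 (integrable_lk_bdd hδ _
    (hm.comp (continuous_lb R δ).measurable) fun _ => hb _)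

theorem EC_mono {ν : Cfg n → ℝ} (hν : ∀ x, 0 ≤ ν x) (R : Matrix (Fin n) (Fin m) ℝ) (δ : ℝ)
    {Φ Ψ : Cfg n → Vec n → ℝ} (h1 : ∀ x, Integrable (fun ξ => Φ x (obs R δ x ξ)) (gpi (Fin m)))
    (h2 : ∀ x, Integrable (fun ξ => Ψ x (obs R δ x ξ)) (gpi (Fin m)))
    (h : ∀ x z, Φ x z ≤ Ψ x z) : EC ν R δ Φ ≤ EC ν R δ Ψ := by
  unfold EC
  apply Finset.sum_le_sum
  intro x _
  exact mul_le_mul_of_nonneg_left (integral_mono (h1 x) (h2 x) fun ξ => h x _) (hν x)

theorem EC_add {ν : Cfg n → ℝ} (R : Matrix (Fin n) (Fin m) ℝ) (δ : ℝ)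
    {Φ Ψ : Cfg n → Vec n → ℝ} (h1 : ∀ x, Integrable (fun ξ => Φ x (obs R δ x ξ)) (gpi (Fin m)))
    (h2 : ∀ x, Integrable (fun ξ => Ψ x (obs R δ x ξ)) (gpi (Fin m))) :
    EC ν R δ (fun x z => Φ x z + Ψ x z) = EC ν R δ Φ + EC ν R δ Ψ := by
  unfold EC
  rw [← Finset.sum_add_distrib]
  apply Finset.sum_congr rfl
  intro x _
  rw [integral_add (h1 x) (h2 x)]; ring

theorem EC_const_mul (ν : Cfg n → ℝ) (R : Matrix (Fin n) (Fin m) ℝ) (δ c : ℝ)
    (Φ : Cfg n → Vec n → ℝ) :
    EC ν R δ (fun x z => c * Φ x z) = c * EC ν R δ Φ := by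
  unfold EC
  rw [Finset.mul_sum]
  apply Finset.sum_congr rfl
  intro x _
  rw [integral_const_mul]; ring

theorem EC_sum {ι : Type*} (s : Finset ι) (ν : Cfg n → ℝ) (R : Matrix (Fin n) (Fin m) ℝ) (δ : ℝ)
    {Φ : ι → Cfg n → Vec n → ℝ}
    (h : ∀ k ∈ s, ∀ x, Integrable (fun ξ => Φ k x (obs R δ x ξ)) (gpi (Fin m))) :
    EC ν R δ (fun x z => ∑ k ∈ s, Φ k x z) = ∑ k ∈ s, EC ν R δ (Φ k) := by
  unfold EC
  rw [Finset.sum_comm]
  apply Finset.sum_congr rfl
  intro x _
  rw [integral_finsetSum _ fun k hk => h k hk x, Finset.mul_sum]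

theorem EC_const {ν : Cfg n → ℝ} (h1 : ∑ x, ν x = 1) (R : Matrix (Fin n) (Fin m) ℝ) (δ c : ℝ) :
    EC ν R δ (fun _ _ => c) = c := by
  unfold EC
  simp only [integral_const, probReal_univ, smul_eq_mul, one_mul]
  rw [← Finset.sum_mul, h1, one_mul]

theorem evd_pos {ν : Cfg n → ℝ} (hν : IsProb ν) (Q : Mat n) (δ : ℝ) (z : Vec n) :
    0 < evd ν Q δ z := by
  obtain ⟨x, hx⟩ : ∃ x, 0 < ν x := by
    by_contra hcon
    push Not at hcon
    have : ∑ x, ν x ≤ 0 := Finset.sum_nonpos fun x _ => hcon x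
    linarith [hν.2]
  unfold evd
  have := Finset.single_le_sum (f := fun x => ν x * Real.exp (ip z (sv x) - δ / 2 * qf Q (sv x)))
    (fun x _ => mul_nonneg (hν.1 x) (Real.exp_pos _).le) (Finset.mem_univ x)
  exact (mul_pos hx (Real.exp_pos _)).trans_le this

theorem pst_eq (ν : Cfg n → ℝ) (Q : Mat n) (δ : ℝ) (z : Vec n) (x : Cfg n) :
    pst ν Q δ z x = ν x * Real.exp (ip z (sv x) - δ / 2 * qf Q (sv x)) / evd ν Q δ z := rfl

theorem pst_isProb {ν : Cfg n → ℝ} (hν : IsProb ν) (Q : Mat n) (δ : ℝ) (z : Vec n) :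
    IsProb (pst ν Q δ z) := by
  have h := evd_pos hν Q δ z
  refine ⟨fun x => ?_, ?_⟩
  · rw [pst_eq]
    exact div_nonneg (mul_nonneg (hν.1 x) (Real.exp_pos _).le) h.le
  · simp_rw [pst_eq]
    rw [← Finset.sum_div]
    exact div_self h.ne'

theorem pst_pos {ν : Cfg n → ℝ} (hν : IsProb ν) (hp : ∀ x, 0 < ν x) (Q : Mat n) (δ : ℝ)
    (z : Vec n) (x : Cfg n) : 0 < pst ν Q δ z x := by
  rw [pst_eq]
  exact div_pos (mul_pos (hp x) (Real.exp_pos _)) (evd_pos hν Q δ z)

theorem pst_le_one {ν : Cfg n → ℝ} (hν : IsProb ν) (Q : Mat n) (δ : ℝ)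
    (z : Vec n) (x : Cfg n) : pst ν Q δ z x ≤ 1 := by
  have h := pst_isProb hν Q δ z
  rw [← h.2]
  exact Finset.single_le_sum (fun y _ => h.1 y) (Finset.mem_univ x)

theorem continuous_evd (ν : Cfg n → ℝ) (Q : Mat n) (δ : ℝ) : Continuous (evd ν Q δ) := by
  unfold evd ip
  fun_prop

theorem continuous_pst {ν : Cfg n → ℝ} (hν : IsProb ν) (Q : Mat n) (δ : ℝ) (x : Cfg n) :
    Continuous fun z => pst ν Q δ z x := by
  simp_rw [pst_eq]
  refine Continuous.div ?_ (continuous_evd ν Q δ) fun z => (evd_pos hν Q δ z).ne'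
  unfold ip
  fun_prop

theorem measurable_pst {ν : Cfg n → ℝ} (hν : IsProb ν) (Q : Mat n) (δ : ℝ) (x : Cfg n) :
    Measurable fun z => pst ν Q δ z x := (continuous_pst hν Q δ x).measurable

/-- the posterior averages to the prior -/
theorem EC_pst {ν : Cfg n → ℝ} (hν : IsProb ν) (R : Matrix (Fin n) (Fin m) ℝ) {δ : ℝ}
    (hδ : 0 ≤ δ) (x : Cfg n) : EC ν R δ (fun _ z => pst ν (R * Rᵀ) δ z x) = ν x := by
  have hb : ∀ z, |pst ν (R * Rᵀ) δ z x| ≤ 1 := fun z => by
    rw [abs_of_nonneg ((pst_isProb hν _ _ z).1 x)]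
    exact pst_le_one hν _ _ _ _
  rw [EC_label ν R hδ _ fun x' => integrable_lk_bdd hδ _
    ((measurable_pst hν _ _ x).comp (continuous_lb R δ).measurable) fun g => hb _]
  have e : ∀ g, mlk ν (chv R) δ g * pst ν (R * Rᵀ) δ (lb R δ g) x = ν x * lk δ (chv R x) g := by
    intro g
    rw [pst_lb]
    have := (mlk_pos hν.1 hν.2 (chv R) δ g).ne'
    field_simp
  simp_rw [e]
  rw [integral_const_mul, integral_lk_one hδ, mul_one]

/-- the parallel sum is below its tangents -/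
theorem par_le0 {p q t : ℝ} (hp : 0 ≤ p) (hq : 0 ≤ q) :
    p * q / (p + q) ≤ p * t ^ 2 + q * (1 - t) ^ 2 := by
  rcases (add_nonneg hp hq).eq_or_lt with h | h
  · rw [← h, div_zero]; positivity
  · rw [div_le_iff₀ h]
    linarith only [sq_nonneg (p * t - q * (1 - t))]

theorem par_nonneg {p q : ℝ} (hp : 0 ≤ p) (hq : 0 ≤ q) : 0 ≤ p * q / (p + q) := by positivity

theorem par_le_left {p q : ℝ} (hp : 0 ≤ p) (hq : 0 ≤ q) : p * q / (p + q) ≤ p := by
  have := par_le0 (t := 1) hp hq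
  linarith only [this]

theorem par_eq0 {p q : ℝ} (hp : 0 ≤ p) (hq : 0 ≤ q) :
    p * (q / (p + q)) ^ 2 + q * (1 - q / (p + q)) ^ 2 = p * q / (p + q) := by
  rcases (add_nonneg hp hq).eq_or_lt with h | h
  · have h1 : p = 0 := by linarith
    have h2 : q = 0 := by linarith
    simp [h1, h2]
  · have : 1 - q / (p + q) = p / (p + q) := by field_simp; ring
    rw [this]
    field_simp
    ring

theorem measurable_AW {μ : Cfg n → ℝ} (hμ : IsProb μ) (Q : Mat n) (δ : ℝ)
    (a : Fin n → Cfg n → ℝ) : Measurable fun z => AW (pst μ Q δ z) a := by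
  unfold AW
  refine Finset.measurable_sum _ fun i _ => Finset.measurable_sum _ fun x _ => ?_
  exact (((measurable_pst hμ Q δ x).mul (measurable_pst hμ Q δ (flip x i))).div
    ((measurable_pst hμ Q δ x).add (measurable_pst hμ Q δ (flip x i)))).mul_const _

theorem AW_nonneg {μ : Cfg n → ℝ} (hμ : ∀ x, 0 ≤ μ x) {a : Fin n → Cfg n → ℝ}
    (ha : ∀ i x, 0 ≤ a i x) : 0 ≤ AW μ a :=
  Finset.sum_nonneg fun i _ => Finset.sum_nonneg fun x _ =>
    mul_nonneg (par_nonneg (hμ x) (hμ _)) (ha i x)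

theorem AW_le {μ : Cfg n → ℝ} (hμ : IsProb μ) {a : Fin n → Cfg n → ℝ} (ha : ∀ i x, 0 ≤ a i x) :
    AW μ a ≤ ∑ i, ∑ x, a i x := by
  unfold AW
  refine Finset.sum_le_sum fun i _ => Finset.sum_le_sum fun x _ => ?_
  have h1 : μ x ≤ 1 := by
    rw [← hμ.2]; exact Finset.single_le_sum (fun y _ => hμ.1 y) (Finset.mem_univ x)
  have h2 := (par_le_left (hμ.1 x) (hμ.1 (flip x i))).trans h1
  calc _ ≤ 1 * a i x := mul_le_mul_of_nonneg_right h2 (ha i x)
    _ = a i x := one_mul _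

theorem thCH5 : CH5 := by
  intro n m R δ hδ μ hμ a ha
  set t : Fin n → Cfg n → ℝ := fun i x => μ (flip x i) / (μ x + μ (flip x i)) with ht
  have hint : ∀ (Φ : Vec n → ℝ), Measurable Φ → (∃ C, ∀ z, |Φ z| ≤ C) → ∀ x,
      Integrable (fun ξ => Φ (obs R δ x ξ)) (gpi (Fin m)) := by
    intro Φ hm ⟨C, hC⟩ x
    exact integrable_obs_bdd R hδ x hm hC
  have hpm := fun x => measurable_pst hμ (R * Rᵀ) δ x
  have hpb : ∀ x z, |pst μ (R * Rᵀ) δ z x| ≤ 1 := fun x z => by
    rw [abs_of_nonneg ((pst_isProb hμ _ _ z).1 x)]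
    exact pst_le_one hμ _ _ _ _
  -- the linear majorant
  set L : Vec n → ℝ := fun z => ∑ i, ∑ x,
    (a i x * t i x ^ 2 * pst μ (R * Rᵀ) δ z x
      + a i x * (1 - t i x) ^ 2 * pst μ (R * Rᵀ) δ z (flip x i)) with hL
  have hLm : Measurable L := by
    refine Finset.measurable_sum _ fun i _ => Finset.measurable_sum _ fun x _ => ?_
    exact ((hpm x).const_mul _).add ((hpm _).const_mul _)
  have hLb : ∃ C, ∀ z, |L z| ≤ C := by
    refine ⟨∑ i, ∑ x, (|a i x * t i x ^ 2| + |a i x * (1 - t i x) ^ 2|), fun z => ?_⟩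
    refine (Finset.abs_sum_le_sum_abs _ _).trans (Finset.sum_le_sum fun i _ => ?_)
    refine (Finset.abs_sum_le_sum_abs _ _).trans (Finset.sum_le_sum fun x _ => ?_)
    refine (abs_add_le _ _).trans (add_le_add ?_ ?_)
    · rw [abs_mul]
      calc _ ≤ |a i x * t i x ^ 2| * 1 := mul_le_mul_of_nonneg_left (hpb _ _) (abs_nonneg _)
        _ = _ := mul_one _
    · rw [abs_mul]
      calc _ ≤ |a i x * (1 - t i x) ^ 2| * 1 := mul_le_mul_of_nonneg_left (hpb _ _) (abs_nonneg _)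
        _ = _ := mul_one _
  have hAb : ∃ C, ∀ z, |AW (pst μ (R * Rᵀ) δ z) a| ≤ C :=
    ⟨∑ i, ∑ x, a i x, fun z => by
      rw [abs_of_nonneg (AW_nonneg (pst_isProb hμ _ _ z).1 ha)]
      exact AW_le (pst_isProb hμ _ _ z) ha⟩
  have step1 : EC μ R δ (fun _ z => AW (pst μ (R * Rᵀ) δ z) a) ≤ EC μ R δ (fun _ z => L z) := by
    refine EC_mono hμ.1 R δ (hint _ (measurable_AW hμ _ _ a) hAb) (hint _ hLm hLb) fun _ z => ?_
    unfold AW
    refine Finset.sum_le_sum fun i _ => Finset.sum_le_sum fun x _ => ?_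
    have h1 := par_le0 (t := t i x) ((pst_isProb hμ (R * Rᵀ) δ z).1 x)
      ((pst_isProb hμ (R * Rᵀ) δ z).1 (flip x i))
    have h2 := mul_le_mul_of_nonneg_right h1 (ha i x)
    linarith only [h2]
  refine step1.trans (le_of_eq ?_)
  have e1 : EC μ R δ (fun _ z => L z) = ∑ i, ∑ x,
      (a i x * t i x ^ 2 * μ x + a i x * (1 - t i x) ^ 2 * μ (flip x i)) := by
    rw [hL]
    have hb1 : ∀ (c : ℝ) (x : Cfg n), ∀ x', Integrable
        (fun ξ => c * pst μ (R * Rᵀ) δ (obs R δ x' ξ) x) (gpi (Fin m)) := fun c x x' =>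
      (integrable_obs_bdd R hδ x' (hpm x) (hpb x)).const_mul c
    rw [EC_sum]
    · apply Finset.sum_congr rfl; intro i _
      rw [EC_sum]
      · apply Finset.sum_congr rfl; intro x _
        rw [EC_add R δ (hb1 _ _) (hb1 _ _), EC_const_mul, EC_const_mul, EC_pst hμ R hδ,
          EC_pst hμ R hδ]
      · intro x _ x'
        exact (hb1 _ _ _).add (hb1 _ _ _)
    · intro i _ x'
      exact integrable_finsetSum _ fun x _ => (hb1 _ _ _).add (hb1 _ _ _)
  rw [e1]
  unfold AW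
  refine Finset.sum_congr rfl fun i _ => Finset.sum_congr rfl fun x _ => ?_
  have := par_eq0 (hμ.1 x) (hμ.1 (flip x i))
  rw [← this]
  simp only [ht]
  ring

theorem DirW_eq_AW (μ f g : Cfg n → ℝ) :
    DirW μ f g = (1 / 2) * AW μ (fun i x => (f (flip x i) - f x) * (g (flip x i) - g x)) := rfl

theorem thCH5a : CH5a := by
  intro n m R δ hδ μ hμ F
  have h := thCH5 n m R δ hδ μ hμ (fun i x => (F (flip x i) - F x) * (F (flip x i) - F x))
    (fun i x => mul_self_nonneg _)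
  simp_rw [DirW_eq_AW]
  rw [EC_const_mul]
  linarith

/-- `DirW` under scaling -/
theorem DirW_smul (μ f g : Cfg n → ℝ) (c d : ℝ) :
    DirW μ (fun x => c * f x) (fun x => d * g x) = c * d * DirW μ f g := by
  unfold DirW
  have : ∑ i, ∑ x, μ x * μ (flip x i) / (μ x + μ (flip x i)) *
      ((c * f (flip x i) - c * f x) * (d * g (flip x i) - d * g x))
      = c * d * ∑ i, ∑ x, μ x * μ (flip x i) / (μ x + μ (flip x i)) *
      ((f (flip x i) - f x) * (g (flip x i) - g x)) := by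
    rw [Finset.mul_sum]
    apply Finset.sum_congr rfl; intro i _
    rw [Finset.mul_sum]
    apply Finset.sum_congr rfl; intro x _
    ring
  rw [this]; ring

/-- the posterior density -/
theorem pst_ratio {ν μ : Cfg n → ℝ} (hν : IsProb ν) (hμ : IsProb μ) (hp : ∀ x, 0 < μ x)
    (Q : Mat n) (δ : ℝ) (z : Vec n) :
    0 < Ex (pst μ Q δ z) (fun x => ν x / μ x) ∧
    Ex (pst μ Q δ z) (fun x => ν x / μ x) = evd ν Q δ z / evd μ Q δ z ∧
    ∀ x, pst ν Q δ z x / pst μ Q δ z x
      = (Ex (pst μ Q δ z) (fun x => ν x / μ x))⁻¹ * (ν x / μ x) := by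
  have h1 := evd_pos hν Q δ z
  have h2 := evd_pos hμ Q δ z
  have e : Ex (pst μ Q δ z) (fun x => ν x / μ x) = evd ν Q δ z / evd μ Q δ z := by
    unfold Ex
    simp_rw [pst_eq]
    have e0 : evd ν Q δ z = ∑ x, ν x * Real.exp (ip z (sv x) - δ / 2 * qf Q (sv x)) := rfl
    rw [e0, Finset.sum_div]
    apply Finset.sum_congr rfl; intro x _
    have h3 := (hp x).ne'
    have h4 := h2.ne'
    field_simp
  refine ⟨by rw [e]; exact div_pos h1 h2, e, fun x => ?_⟩
  rw [e, pst_eq, pst_eq]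
  have := (hp x).ne'
  have := (Real.exp_pos (ip z (sv x) - δ / 2 * qf Q (sv x))).ne'
  field_simp

theorem thCH5b : CH5b := by
  intro n m R δ hδ ν μ hν hμ hp
  set f : Cfg n → ℝ := fun x => ν x / μ x with hf
  have hf0 : ∀ x, 0 ≤ f x := fun x => div_nonneg (hν.1 x) (hp x).le
  have hfm : (fun x => f x * μ x) = ν := by
    funext x; simp only [hf]; exact div_mul_cancel₀ _ (hp x).ne'
  have hf1 : Ex μ f = 1 := by
    unfold Ex
    rw [← hν.2]
    apply Finset.sum_congr rfl; intro x _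
    rw [← hfm]; ring
  set Φ : Vec n → ℝ := fun z => IP' (pst ν (R * Rᵀ) δ z) (pst μ (R * Rᵀ) δ z) with hΦ
  have key : ∀ z, Ex (pst μ (R * Rᵀ) δ z) f * Φ z
      = DirW (pst μ (R * Rᵀ) δ z) (fun x => √(f x)) (fun x => √(f x)) := by
    intro z
    obtain ⟨hc, -, hr⟩ := pst_ratio hν hμ hp (R * Rᵀ) δ z
    set c := Ex (pst μ (R * Rᵀ) δ z) f with hcd
    rw [hΦ]
    simp only
    unfold IP'
    have e : ∀ x, √(pst ν (R * Rᵀ) δ z x / pst μ (R * Rᵀ) δ z x) = √c⁻¹ * √(f x) := by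
      intro x
      rw [hr x, Real.sqrt_mul (inv_nonneg.2 hc.le)]
    simp_rw [e]
    rw [DirW_smul, ← mul_assoc, Real.mul_self_sqrt (inv_nonneg.2 hc.le), mul_inv_cancel₀ hc.ne',
      one_mul]
  -- `IP'` is bounded by `n`
  have hb0 : ∀ z, 0 ≤ DirW (pst μ (R * Rᵀ) δ z) (fun x => √(f x)) (fun x => √(f x)) := by
    intro z
    rw [DirW_eq_AW]
    have := AW_nonneg (pst_isProb hμ (R * Rᵀ) δ z).1 (a := fun i x =>
      (√(f (flip x i)) - √(f x)) * (√(f (flip x i)) - √(f x))) (fun i x => mul_self_nonneg _)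
    linarith only [this]
  have hb1 : ∀ z, DirW (pst μ (R * Rᵀ) δ z) (fun x => √(f x)) (fun x => √(f x))
      ≤ n * Ex (pst μ (R * Rᵀ) δ z) f := by
    intro z
    set p := pst μ (R * Rᵀ) δ z with hpd
    have hpp := pst_isProb hμ (R * Rᵀ) δ z
    have hterm : ∀ (i : Fin n) (x : Cfg n), p x * p (flip x i) / (p x + p (flip x i)) *
        ((√(f (flip x i)) - √(f x)) * (√(f (flip x i)) - √(f x)))
        ≤ p x * f x + p (flip x i) * f (flip x i) := by
      intro i x
      have h0 := hpp.1 x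
      have h1 := hpp.1 (flip x i)
      have hA := par_le_left h0 h1
      have hB : p x * p (flip x i) / (p x + p (flip x i)) ≤ p (flip x i) := by
        have := par_le0 (t := 0) h0 h1
        linarith only [this]
      have hC := par_nonneg h0 h1
      set w := p x * p (flip x i) / (p x + p (flip x i))
      have s1 := Real.sqrt_nonneg (f x)
      have s2 := Real.sqrt_nonneg (f (flip x i))
      have q1 := Real.mul_self_sqrt (hf0 x)
      have q2 := Real.mul_self_sqrt (hf0 (flip x i))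
      have h3 : (√(f (flip x i)) - √(f x)) * (√(f (flip x i)) - √(f x))
          ≤ f x + f (flip x i) := by linarith only [mul_nonneg s1 s2, q2, q1]
      calc w * ((√(f (flip x i)) - √(f x)) * (√(f (flip x i)) - √(f x)))
          ≤ w * (f x + f (flip x i)) := mul_le_mul_of_nonneg_left h3 hC
        _ = w * f x + w * f (flip x i) := by ring
        _ ≤ p x * f x + p (flip x i) * f (flip x i) :=
            add_le_add (mul_le_mul_of_nonneg_right hA (hf0 _))
              (mul_le_mul_of_nonneg_right hB (hf0 _))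
    unfold DirW
    have h1 : ∑ i, ∑ x, p x * p (flip x i) / (p x + p (flip x i)) *
        ((√(f (flip x i)) - √(f x)) * (√(f (flip x i)) - √(f x)))
        ≤ ∑ i : Fin n, ∑ x, (p x * f x + p (flip x i) * f (flip x i)) :=
      Finset.sum_le_sum fun i _ => Finset.sum_le_sum fun x _ => hterm i x
    have h2 : ∑ i : Fin n, ∑ x, (p x * f x + p (flip x i) * f (flip x i)) = 2 * (n * Ex p f) := by
      simp_rw [Finset.sum_add_distrib]
      have : ∀ i : Fin n, ∑ x, p (flip x i) * f (flip x i) = ∑ x, p x * f x := fun i =>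
        sum_flip i (fun x => p x * f x)
      simp_rw [this]
      simp only [Finset.sum_const, Finset.card_univ, Fintype.card_fin, nsmul_eq_mul]
      unfold Ex; ring
    linarith only [h1, h2]
  have hΦm : Measurable Φ := by
    have e : Φ = fun z => (Ex (pst μ (R * Rᵀ) δ z) f)⁻¹ *
        DirW (pst μ (R * Rᵀ) δ z) (fun x => √(f x)) (fun x => √(f x)) := by
      funext z
      obtain ⟨hc, -, -⟩ := pst_ratio hν hμ hp (R * Rᵀ) δ z
      rw [← key z, ← mul_assoc, inv_mul_cancel₀ hc.ne', one_mul]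
    rw [e]
    refine Measurable.mul (Measurable.inv ?_) ?_
    · unfold Ex
      exact Finset.measurable_sum _ fun x _ => (measurable_pst hμ _ _ x).mul_const _
    · simp_rw [DirW_eq_AW]
      exact (measurable_AW hμ _ _ _).const_mul _
  have hΦb : ∀ z, |Φ z| ≤ n := by
    intro z
    obtain ⟨hc, -, -⟩ := pst_ratio hν hμ hp (R * Rᵀ) δ z
    have h1 := key z
    have h2 := hb0 z
    have h3 := hb1 z
    rw [← h1] at h2 h3
    have h4 : 0 ≤ Φ z := by
      by_contra hneg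
      push Not at hneg
      have := mul_neg_of_pos_of_neg hc hneg
      linarith only [this, h2]
    rw [abs_of_nonneg h4]
    rw [mul_comm] at h3
    exact le_of_mul_le_mul_right h3 hc
  have h1 := thCH1' n m R δ hδ μ f hμ hf0 hf1 Φ
    (fun x => integrable_obs_bdd R hδ x hΦm hΦb)
  rw [hfm] at h1
  have h2 : EC ν R δ (fun _ z => IP' (pst ν (R * Rᵀ) δ z) (pst μ (R * Rᵀ) δ z))
      = EC ν R δ (fun _ z => Φ z) := rfl
  rw [h2, h1]
  simp_rw [key]
  exact thCH5a n m R δ hδ μ hμ (fun x => √(f x))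

end Vale.Agent.P150.F
end

section

/-! Module CH: posterior weights, posterior of a Gibbs measure (CHG), chain rule of relative
entropy (CH4'). (CH0, CH1, CH1' are in `CHB`.) -/

open MeasureTheory ProbabilityTheory Filter Topology Real
open scoped Matrix

namespace Vale.Agent.P150.F

variable {n m : ℕ}

/-- likelihood of the label `z` given the spins `x`, relative to the pure noise -/
noncomputable def lkz (Q : Mat n) (δ : ℝ) (z : Vec n) (x : Cfg n) : ℝ :=
  Real.exp (ip z (sv x) - δ / 2 * qf Q (sv x))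

theorem lkz_pos (Q : Mat n) (δ : ℝ) (z : Vec n) (x : Cfg n) : 0 < lkz Q δ z x := Real.exp_pos _

theorem evd_def (ν : Cfg n → ℝ) (Q : Mat n) (δ : ℝ) (z : Vec n) :
    evd ν Q δ z = ∑ x, ν x * lkz Q δ z x := rfl

theorem pst_def (ν : Cfg n → ℝ) (Q : Mat n) (δ : ℝ) (z : Vec n) (x : Cfg n) :
    pst ν Q δ z x = ν x * lkz Q δ z x / evd ν Q δ z := rfl

theorem IsProb.exists_pos {ν : Cfg n → ℝ} (h : IsProb ν) : ∃ x, 0 < ν x := by
  by_contra hc
  push Not at hc
  have h0 : ∑ x, ν x = 0 := Finset.sum_eq_zero fun x _ => le_antisymm (hc x) (h.1 x)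
  rw [h.2] at h0
  exact one_ne_zero h0

theorem IsProb.evd_pos {ν : Cfg n → ℝ} (h : IsProb ν) (Q : Mat n) (δ : ℝ) (z : Vec n) :
    0 < evd ν Q δ z := by
  obtain ⟨x, hx⟩ := h.exists_pos
  rw [evd_def]
  exact Finset.sum_pos' (fun y _ => mul_nonneg (h.1 y) (lkz_pos Q δ z y).le)
    ⟨x, Finset.mem_univ x, mul_pos hx (lkz_pos Q δ z x)⟩

theorem IsProb.pst {ν : Cfg n → ℝ} (h : IsProb ν) (Q : Mat n) (δ : ℝ) (z : Vec n) :
    IsProb (pst ν Q δ z) := by
  refine ⟨fun x => ?_, ?_⟩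
  · rw [pst_def]
    exact div_nonneg (mul_nonneg (h.1 x) (lkz_pos Q δ z x).le) (h.evd_pos Q δ z).le
  · simp_rw [pst_def]
    rw [← Finset.sum_div, ← evd_def, div_self (h.evd_pos Q δ z).ne']

theorem IsProb.le_one {ν : Cfg n → ℝ} (h : IsProb ν) (x : Cfg n) : ν x ≤ 1 := by
  rw [← h.2]
  exact Finset.single_le_sum (f := ν) (fun y _ => h.1 y) (Finset.mem_univ x)

/-! ### continuity in the label -/

theorem continuous_obs (R : Matrix (Fin n) (Fin m) ℝ) (δ : ℝ) (x : Cfg n) :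
    Continuous (obs R δ x) := by
  unfold obs Matrix.mulVec dotProduct; fun_prop

/-! ### posterior of a Gibbs measure -/

theorem c1_gM_eq (M : Mat n) (y : Vec n) (x : Cfg n) :
    gM M y x = Real.exp (qf M (sv x) / 2 + ip y (sv x)) /
      ∑ x', Real.exp (qf M (sv x') / 2 + ip y (sv x')) := rfl

theorem c1_gZ_pos (M : Mat n) (y : Vec n) :
    0 < ∑ x' : Cfg n, Real.exp (qf M (sv x') / 2 + ip y (sv x')) :=
  Finset.sum_pos (fun _ _ => Real.exp_pos _) Finset.univ_nonempty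

theorem c1_qf_sub_smul (M Q : Mat n) (δ : ℝ) (v : Vec n) :
    qf (M - δ • Q) v = qf M v - δ * qf Q v := by
  have e : ∀ A : Mat n, qf A v = v ⬝ᵥ A.mulVec v := fun _ => rfl
  rw [e, e, e, Matrix.sub_mulVec, Matrix.smul_mulVec, dotProduct_sub, dotProduct_smul, smul_eq_mul]

theorem c1_ip_add_left (y z v : Vec n) : ip (y + z) v = ip y v + ip z v := by
  unfold ip
  rw [← Finset.sum_add_distrib]
  refine Finset.sum_congr rfl fun i _ => ?_
  rw [Pi.add_apply]; ring

/-- **CHG** -/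
theorem thCHG : CHG := by
  intro n M Q y z δ
  funext x
  have hw : ∀ x : Cfg n, Real.exp (qf M (sv x) / 2 + ip y (sv x))
      * Real.exp (ip z (sv x) - δ / 2 * qf Q (sv x))
      = Real.exp (qf (M - δ • Q) (sv x) / 2 + ip (y + z) (sv x)) := by
    intro x
    rw [← Real.exp_add, c1_qf_sub_smul, c1_ip_add_left]
    congr 1; ring
  have hZ := c1_gZ_pos M y
  unfold pst
  simp_rw [c1_gM_eq]
  set Z := ∑ x' : Cfg n, Real.exp (qf M (sv x') / 2 + ip y (sv x')) with hZd
  have e1 : ∀ x : Cfg n, Real.exp (qf M (sv x) / 2 + ip y (sv x)) / Z *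
      Real.exp (ip z (sv x) - δ / 2 * qf Q (sv x))
      = Real.exp (qf (M - δ • Q) (sv x) / 2 + ip (y + z) (sv x)) / Z := by
    intro x
    rw [← hw x]; ring
  simp_rw [e1]
  rw [← Finset.sum_div, div_div_div_cancel_right₀ hZ.ne']

/-! ### integrability of functions of linear growth of the label -/

theorem integrable_coord_gpi (j : Fin m) :
    Integrable (fun ξ : Fin m → ℝ => ξ j) (gpi (Fin m)) := by
  have : MeasurePreserving (Function.eval j) (gpi (Fin m)) (gaussianReal 0 1) :=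
    measurePreserving_eval _ j
  exact this.integrable_comp_of_integrable ((memLp_id_gaussianReal 1).integrable le_rfl)

theorem integrable_obs_coord (R : Matrix (Fin n) (Fin m) ℝ) (δ : ℝ) (x : Cfg n) (i : Fin n) :
    Integrable (fun ξ => obs R δ x ξ i) (gpi (Fin m)) := by
  unfold obs
  refine (integrable_const _).add (Integrable.const_mul ?_ _)
  unfold Matrix.mulVec dotProduct
  exact integrable_finsetSum _ fun j _ => (integrable_coord_gpi j).const_mul _

theorem integrable_abs_sum_obs (R : Matrix (Fin n) (Fin m) ℝ) (δ : ℝ) (x : Cfg n) :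
    Integrable (fun ξ => ∑ i, |obs R δ x ξ i|) (gpi (Fin m)) :=
  integrable_finsetSum _ fun i _ => (integrable_obs_coord R δ x i).abs

/-- functions of linear growth of the label are integrable -/
theorem integrable_obs_of_linear {Φ : Vec n → ℝ} (hc : Measurable Φ) {a b : ℝ}
    (h : ∀ z, |Φ z| ≤ a * (∑ i, |z i|) + b) (R : Matrix (Fin n) (Fin m) ℝ) (δ : ℝ) (x : Cfg n) :
    Integrable (fun ξ => Φ (obs R δ x ξ)) (gpi (Fin m)) := by
  refine Integrable.mono' (((integrable_abs_sum_obs R δ x).const_mul a).add (integrable_const b))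
    (hc.comp (continuous_obs R δ x).measurable).aestronglyMeasurable
    (Eventually.of_forall fun ξ => ?_)
  rw [Real.norm_eq_abs]
  exact h _

/-- bounded measurable functions of the label are integrable -/
theorem integrable_obs_of_bdd {Φ : Vec n → ℝ} (hc : Measurable Φ) {b : ℝ}
    (h : ∀ z, |Φ z| ≤ b) (R : Matrix (Fin n) (Fin m) ℝ) (δ : ℝ) (x : Cfg n) :
    Integrable (fun ξ => Φ (obs R δ x ξ)) (gpi (Fin m)) :=
  integrable_obs_of_linear hc (a := 0) (b := b) (fun z => by simpa using h z) R δ x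

/-- bound of the exponent -/
theorem abs_log_lkz_le (Q : Mat n) (δ : ℝ) (z : Vec n) (x : Cfg n) :
    |ip z (sv x) - δ / 2 * qf Q (sv x)|
      ≤ (∑ i, |z i|) + ∑ x' : Cfg n, |δ / 2 * qf Q (sv x')| := by
  refine (abs_sub _ _).trans (add_le_add ?_ ?_)
  · unfold ip
    refine (Finset.abs_sum_le_sum_abs _ _).trans (Finset.sum_le_sum fun i _ => ?_)
    rw [abs_mul, abs_sv, mul_one]
  · exact Finset.single_le_sum (f := fun x' : Cfg n => |δ / 2 * qf Q (sv x')|)
      (fun _ _ => abs_nonneg _) (Finset.mem_univ x)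

theorem abs_log_evd_le {ν : Cfg n → ℝ} (h : IsProb ν) (Q : Mat n) (δ : ℝ) (z : Vec n) :
    |Real.log (evd ν Q δ z)| ≤ (∑ i, |z i|) + ∑ x' : Cfg n, |δ / 2 * qf Q (sv x')| := by
  set B := (∑ i, |z i|) + ∑ x' : Cfg n, |δ / 2 * qf Q (sv x')| with hB
  have hp := h.evd_pos Q δ z
  have hb : ∀ x, Real.exp (-B) ≤ lkz Q δ z x ∧ lkz Q δ z x ≤ Real.exp B := by
    intro x
    have := abs_le.1 (abs_log_lkz_le Q δ z x)
    exact ⟨Real.exp_le_exp.2 this.1, Real.exp_le_exp.2 this.2⟩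
  rw [abs_le, Real.le_log_iff_exp_le hp, Real.log_le_iff_le_exp hp, evd_def]
  constructor
  · calc Real.exp (-B) = ∑ x, ν x * Real.exp (-B) := by rw [← Finset.sum_mul, h.2, one_mul]
      _ ≤ _ := Finset.sum_le_sum fun x _ => mul_le_mul_of_nonneg_left (hb x).1 (h.1 x)
  · calc _ ≤ ∑ x, ν x * Real.exp B :=
          Finset.sum_le_sum fun x _ => mul_le_mul_of_nonneg_left (hb x).2 (h.1 x)
      _ = Real.exp B := by rw [← Finset.sum_mul, h.2, one_mul]

theorem measurable_log_evd (ν : Cfg n → ℝ) (Q : Mat n) (δ : ℝ) :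
    Measurable fun z => Real.log (evd ν Q δ z) :=
  Real.measurable_log.comp (continuous_evd ν Q δ).measurable

theorem integrable_log_evd {ν : Cfg n → ℝ} (h : IsProb ν) (Q : Mat n) (δ : ℝ)
    (R : Matrix (Fin n) (Fin m) ℝ) (δ' : ℝ) (x : Cfg n) :
    Integrable (fun ξ => Real.log (evd ν Q δ (obs R δ' x ξ))) (gpi (Fin m)) :=
  integrable_obs_of_linear (measurable_log_evd ν Q δ) (a := 1)
    (b := ∑ x' : Cfg n, |δ / 2 * qf Q (sv x')|)
    (fun z => by rw [one_mul]; exact abs_log_evd_le h Q δ z) R δ' x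

/-- pointwise chain rule -/
theorem KL_pst {ν μ : Cfg n → ℝ} (hν : IsProb ν) (hμ : IsProb μ) (hμ0 : ∀ x, 0 < μ x) (Q : Mat n)
    (δ : ℝ) (z : Vec n) :
    KL (pst ν Q δ z) (pst μ Q δ z) = (∑ x, pst ν Q δ z x * Real.log (ν x / μ x))
      - (Real.log (evd ν Q δ z) - Real.log (evd μ Q δ z)) := by
  have hp := hν.evd_pos Q δ z
  have hq := hμ.evd_pos Q δ z
  have e : ∀ x, pst ν Q δ z x * Real.log (pst ν Q δ z x / pst μ Q δ z x)
      = pst ν Q δ z x * Real.log (ν x / μ x)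
        - pst ν Q δ z x * (Real.log (evd ν Q δ z) - Real.log (evd μ Q δ z)) := by
    intro x
    rcases (hν.1 x).eq_or_lt with h0 | h0
    · have : pst ν Q δ z x = 0 := by rw [pst_def, ← h0, zero_mul, zero_div]
      rw [this]; ring
    · have hl := lkz_pos Q δ z x
      have : pst ν Q δ z x / pst μ Q δ z x
          = ν x / μ x * (evd μ Q δ z / evd ν Q δ z) := by
        rw [pst_def, pst_def]
        have := (hμ0 x).ne'
        field_simp
      rw [this, Real.log_mul (div_pos h0 (hμ0 x)).ne' (div_pos hq hp).ne',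
        Real.log_div hq.ne' hp.ne']
      ring
  unfold KL
  simp_rw [e]
  rw [Finset.sum_sub_distrib, ← Finset.sum_mul, (hν.pst Q δ z).2, one_mul]

/-- **CH4'**, chain rule of relative entropy -/
theorem thCH4' : CH4' := by
  intro n m R δ hδ ν μ hν hμ hμ0
  have h1 := thCH1 n m R δ hδ ν hν (fun x _ => Real.log (ν x / μ x))
    (fun x => integrable_const _)
  have e1 : EC ν R δ (fun x _ => Real.log (ν x / μ x)) = KL ν μ := by
    unfold EC KL
    refine Finset.sum_congr rfl fun x _ => ?_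
    rw [integral_const]
    simp
  have hA : ∀ x, Integrable (fun ξ => ∑ x', pst ν (R * Rᵀ) δ (obs R δ x ξ) x' *
      Real.log (ν x' / μ x')) (gpi (Fin m)) := by
    intro x
    refine integrable_obs_of_bdd (Φ := fun z => ∑ x', pst ν (R * Rᵀ) δ z x' *
      Real.log (ν x' / μ x')) ?_ (b := ∑ x', |Real.log (ν x' / μ x')|) (fun z => ?_) R δ x
    · exact Finset.measurable_fun_sum _ fun x' _ =>
        ((continuous_pst hν _ δ x').measurable).mul_const _
    · refine (Finset.abs_sum_le_sum_abs _ _).trans (Finset.sum_le_sum fun x' _ => ?_)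
      rw [abs_mul, abs_of_nonneg ((hν.pst _ δ z).1 x')]
      exact mul_le_of_le_one_left (abs_nonneg _) ((hν.pst _ δ z).le_one x')
  have hL : ∀ x, Integrable (fun ξ => Real.log (evd ν (R * Rᵀ) δ (obs R δ x ξ))
      - Real.log (evd μ (R * Rᵀ) δ (obs R δ x ξ))) (gpi (Fin m)) := fun x =>
    (integrable_log_evd hν _ δ R δ x).sub (integrable_log_evd hμ _ δ R δ x)
  have hK : ∀ x, Integrable (fun ξ => KL (pst ν (R * Rᵀ) δ (obs R δ x ξ))
      (pst μ (R * Rᵀ) δ (obs R δ x ξ))) (gpi (Fin m)) := by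
    intro x
    simp_rw [KL_pst hν hμ hμ0]
    exact (hA x).sub (hL x)
  rw [← EC_add R δ hK hL, ← e1, h1]
  congr 1
  funext _ z
  rw [KL_pst hν hμ hμ0]
  ring

end Vale.Agent.P150.F
end

section

/-! Module CH: first moments (CH6a) and higher moments (CH6b) of the label. -/

open MeasureTheory ProbabilityTheory Filter Topology Real
open scoped Matrix

namespace Vale.Agent.P150.F

variable {n m : ℕ}

theorem integral_coord (k : Fin m) : ∫ w : Fin m → ℝ, w k ∂(gpi (Fin m)) = 0 := by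
  have h := stein_PG (ι := Fin m) k (G := fun _ => (1 : ℝ)) (G' := fun _ => 0) (PG.const 1)
    (PG.const 0) (fun x => hasDerivAt_const _ _)
  simpa using h

theorem integral_coord_mul (k l : Fin m) :
    ∫ w : Fin m → ℝ, w k * w l ∂(gpi (Fin m)) = if k = l then 1 else 0 := by
  by_cases hkl : k = l
  · subst hkl
    have h := stein_PG (ι := Fin m) k (G := fun w => w k) (G' := fun _ => 1) (PG.coord k)
      (PG.const 1) (fun x => by
        simp only [Function.update_self]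
        exact hasDerivAt_id _)
    rw [h]
    simp
  · have h := stein_PG (ι := Fin m) k (G := fun w => w l) (G' := fun _ => 0) (PG.coord l)
      (PG.const 0) (fun x => by
        simp only [Function.update_of_ne (Ne.symm hkl)]
        exact hasDerivAt_const _ _)
    rw [h]
    simp [hkl]

theorem integrable_coord (k : Fin m) : Integrable (fun w : Fin m → ℝ => w k) (gpi (Fin m)) :=
  (PG.coord k).integrable

theorem integrable_coord_mul (k l : Fin m) :
    Integrable (fun w : Fin m → ℝ => w k * w l) (gpi (Fin m)) :=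
  ((PG.coord k).mul (PG.coord l)).integrable

theorem integrable_lin (R : Matrix (Fin n) (Fin m) ℝ) (i : Fin n) :
    Integrable (fun ξ : Fin m → ℝ => R.mulVec ξ i) (gpi (Fin m)) := by
  unfold Matrix.mulVec dotProduct
  exact integrable_finsetSum _ fun k _ => (integrable_coord k).const_mul _

theorem integral_lin (R : Matrix (Fin n) (Fin m) ℝ) (i : Fin n) :
    ∫ ξ : Fin m → ℝ, R.mulVec ξ i ∂(gpi (Fin m)) = 0 := by
  unfold Matrix.mulVec dotProduct
  rw [integral_finsetSum _ fun k _ => (integrable_coord k).const_mul _]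
  simp [integral_const_mul, integral_coord]

theorem lin_mul (R : Matrix (Fin n) (Fin m) ℝ) (i j : Fin n) (ξ : Fin m → ℝ) :
    R.mulVec ξ i * R.mulVec ξ j = ∑ k, ∑ l, R i k * R j l * (ξ k * ξ l) := by
  unfold Matrix.mulVec dotProduct
  rw [Finset.sum_mul_sum]
  refine Finset.sum_congr rfl fun k _ => Finset.sum_congr rfl fun l _ => ?_
  ring

theorem integrable_lin_mul (R : Matrix (Fin n) (Fin m) ℝ) (i j : Fin n) :
    Integrable (fun ξ : Fin m → ℝ => R.mulVec ξ i * R.mulVec ξ j) (gpi (Fin m)) := by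
  simp_rw [lin_mul]
  exact integrable_finsetSum _ fun k _ => integrable_finsetSum _ fun l _ =>
    (integrable_coord_mul k l).const_mul _

theorem integral_lin_mul (R : Matrix (Fin n) (Fin m) ℝ) (i j : Fin n) :
    ∫ ξ : Fin m → ℝ, R.mulVec ξ i * R.mulVec ξ j ∂(gpi (Fin m)) = (R * Rᵀ) i j := by
  simp_rw [lin_mul]
  rw [integral_finsetSum _ fun k _ => integrable_finsetSum _ fun l _ =>
    (integrable_coord_mul k l).const_mul _]
  have h : ∀ k : Fin m, ∫ ξ : Fin m → ℝ, ∑ l, R i k * R j l * (ξ k * ξ l) ∂(gpi (Fin m)) =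
      R i k * R j k := by
    intro k
    rw [integral_finsetSum _ fun l _ => (integrable_coord_mul k l).const_mul _]
    simp [integral_const_mul, integral_coord_mul]
  simp_rw [h]
  rw [Matrix.mul_apply]
  rfl

theorem thCH6a : CH6a := by
  intro n m R δ hδ ν hν
  have h3 : ∀ F : Cfg n → ℝ, EC ν R δ (fun _ z => Ex (pst ν (R * Rᵀ) δ z) F) = Ex ν F := by
    intro F
    have h := thCH1 n m R δ hδ ν hν (fun x _ => F x) (fun x => integrable_const _)
    have h' : EC ν R δ (fun x _ => F x) = Ex ν F := by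
      unfold EC Ex
      simp
    rw [← h', h]
    rfl
  refine ⟨fun i => ?_, fun i => h3 fun x => sv x i, h3, fun i j => ?_⟩
  · unfold EC obs
    have h : ∀ x : Cfg n, ∫ ξ : Fin m → ℝ, (δ * (R * Rᵀ).mulVec (sv x) i + √δ * R.mulVec ξ i)
        ∂(gpi (Fin m)) = δ * (R * Rᵀ).mulVec (sv x) i := by
      intro x
      have c0 : ∫ _ξ : Fin m → ℝ, δ * (R * Rᵀ).mulVec (sv x) i ∂(gpi (Fin m)) =
          δ * (R * Rᵀ).mulVec (sv x) i := by
        rw [integral_const]
        simp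
      have c1 : ∫ ξ : Fin m → ℝ, √δ * R.mulVec ξ i ∂(gpi (Fin m)) = 0 := by
        rw [integral_const_mul, integral_lin, mul_zero]
      rw [integral_add (integrable_const _) ((integrable_lin R i).const_mul _), c0, c1, add_zero]
    simp_rw [h]
    unfold mean Matrix.mulVec dotProduct
    simp_rw [Finset.mul_sum]
    rw [Finset.sum_comm]
    refine Finset.sum_congr rfl fun k _ => Finset.sum_congr rfl fun x _ => ?_
    ring
  · unfold EC obs
    have h : ∀ x : Cfg n, ∫ ξ : Fin m → ℝ, (δ * (R * Rᵀ).mulVec (sv x) i + √δ * R.mulVec ξ i) *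
        (δ * (R * Rᵀ).mulVec (sv x) j + √δ * R.mulVec ξ j) ∂(gpi (Fin m)) =
        δ ^ 2 * ((R * Rᵀ).mulVec (sv x) i * (R * Rᵀ).mulVec (sv x) j) + δ * (R * Rᵀ) i j := by
      intro x
      have e : ∀ ξ : Fin m → ℝ, (δ * (R * Rᵀ).mulVec (sv x) i + √δ * R.mulVec ξ i) *
          (δ * (R * Rᵀ).mulVec (sv x) j + √δ * R.mulVec ξ j) =
          δ ^ 2 * ((R * Rᵀ).mulVec (sv x) i * (R * Rᵀ).mulVec (sv x) j) +
          ((δ * √δ * (R * Rᵀ).mulVec (sv x) i) * R.mulVec ξ j +
            ((δ * √δ * (R * Rᵀ).mulVec (sv x) j) * R.mulVec ξ i +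
              δ * (R.mulVec ξ i * R.mulVec ξ j))) := by
        intro ξ
        have := mul_self_sqrt hδ
        linear_combination (R.mulVec ξ i * R.mulVec ξ j) * this
      simp_rw [e]
      have i1 := (integrable_lin R j).const_mul (δ * √δ * (R * Rᵀ).mulVec (sv x) i)
      have i2 := (integrable_lin R i).const_mul (δ * √δ * (R * Rᵀ).mulVec (sv x) j)
      have i3 := (integrable_lin_mul R i j).const_mul δ
      have i23 : Integrable (fun ξ : Fin m → ℝ =>
          (δ * √δ * (R * Rᵀ).mulVec (sv x) j) * R.mulVec ξ i +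
              δ * (R.mulVec ξ i * R.mulVec ξ j)) (gpi (Fin m)) := i2.add i3
      have i123 : Integrable (fun ξ : Fin m → ℝ =>
          (δ * √δ * (R * Rᵀ).mulVec (sv x) i) * R.mulVec ξ j +
          ((δ * √δ * (R * Rᵀ).mulVec (sv x) j) * R.mulVec ξ i +
              δ * (R.mulVec ξ i * R.mulVec ξ j))) (gpi (Fin m)) := i1.add i23
      have c0 : ∫ _ξ : Fin m → ℝ, δ ^ 2 * ((R * Rᵀ).mulVec (sv x) i * (R * Rᵀ).mulVec (sv x) j)
          ∂(gpi (Fin m)) = δ ^ 2 * ((R * Rᵀ).mulVec (sv x) i * (R * Rᵀ).mulVec (sv x) j) := by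
        rw [integral_const]
        simp
      have c1 : ∫ ξ : Fin m → ℝ, (δ * √δ * (R * Rᵀ).mulVec (sv x) i) * R.mulVec ξ j
          ∂(gpi (Fin m)) = 0 := by
        rw [integral_const_mul, integral_lin, mul_zero]
      have c2 : ∫ ξ : Fin m → ℝ, (δ * √δ * (R * Rᵀ).mulVec (sv x) j) * R.mulVec ξ i
          ∂(gpi (Fin m)) = 0 := by
        rw [integral_const_mul, integral_lin, mul_zero]
      have c3 : ∫ ξ : Fin m → ℝ, δ * (R.mulVec ξ i * R.mulVec ξ j) ∂(gpi (Fin m)) =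
          δ * (R * Rᵀ) i j := by
        rw [integral_const_mul, integral_lin_mul]
      rw [integral_add (integrable_const _) i123, integral_add i1 i23, integral_add i2 i3,
        c0, c1, c2, c3, zero_add, zero_add]
    simp_rw [h, mul_add, Finset.sum_add_distrib, ← Finset.sum_mul]
    rw [hν.2, one_mul, add_comm, Finset.mul_sum]
    congr 1
    refine Finset.sum_congr rfl fun x _ => ?_
    ring

end Vale.Agent.P150.F
end

section

/-! P150 FULL, D6: the error term in the expectation of the displacement (helper645). -/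

open MeasureTheory ProbabilityTheory Filter Topology
open scoped Matrix

namespace Vale.Agent.P150.F

variable {n : ℕ}

/-- the sum `1 + |ξ|²` -/
noncomputable def sS (ξ : Vec n) : ℝ := 1 + ∑ k, ξ k ^ 2

theorem one_le_sS (ξ : Vec n) : 1 ≤ sS ξ := one_le_ssq ξ

theorem pg_sS : PG (fun ξ : Vec n => sS ξ) := PG.ssq

theorem nv_le_sS (ξ : Vec n) : nv ξ ≤ sS ξ := by
  have h1 : nv ξ ^ 2 = sS ξ - 1 := by
    rw [nv_sq]
    unfold sS sq
    ring
  have h2 := nv_nonneg ξ
  linarith only [h1, h2, sq_nonneg (nv ξ - 1)]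

/-- the bound for the change of the field -/
theorem nv_eps_le {δ A C : ℝ} {R : Mat n} {a ξ : Vec n} (hδ : 0 < δ) (hδ1 : δ ≤ 1) (hC : 0 ≤ C)
    (hR : OpLe R C) (ha : nv a ≤ A) :
    nv (δ • a + √δ • R.mulVec ξ) ≤ √δ * ((A + C) * sS ξ) := by
  have hA : 0 ≤ A := (nv_nonneg a).trans ha
  have hs0 := Real.sqrt_nonneg δ
  have hs : δ ≤ √δ := by
    have := Real.mul_self_sqrt hδ.le
    have h2 : √δ ≤ 1 := Real.sqrt_le_one.2 hδ1
    nlinarith
  have h1 := one_le_sS ξ
  calc nv (δ • a + √δ • R.mulVec ξ) ≤ nv (δ • a) + nv (√δ • R.mulVec ξ) := nv_add_le _ _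
    _ = δ * nv a + √δ * nv (R.mulVec ξ) := by
        rw [nv_smul, nv_smul, abs_of_pos hδ, abs_of_nonneg hs0]
    _ ≤ √δ * (A * sS ξ) + √δ * (C * sS ξ) := by
        refine add_le_add ?_ (mul_le_mul_of_nonneg_left ?_ hs0)
        · calc δ * nv a ≤ √δ * A := mul_le_mul hs ha (nv_nonneg a) hs0
            _ ≤ √δ * (A * sS ξ) := mul_le_mul_of_nonneg_left (by (by_contra nlg; linarith only [mul_pos (sub_pos.2 (not_le.1 nlg)) (sub_pos.2 hδ), mul_nonneg (le_of_lt (sub_pos.2 (not_le.1 nlg))) (sub_nonneg.2 hδ1), mul_nonneg (sub_nonneg.2 hA) (sub_nonneg.2 h1)])) hs0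
        · exact (hR.nv_le hC ξ).trans (mul_le_mul_of_nonneg_left (nv_le_sS ξ) hC)
    _ = √δ * ((A + C) * sS ξ) := by ring

/-- the majorant of the error -/
noncomputable def majW (C K0 D e₀ : ℝ) (ξ : Vec n) : ℝ :=
  C * (D * sS ξ) ^ 3
    + (C + K0 * (D * sS ξ + (D * sS ξ) ^ 2)) * ((D * sS ξ) ^ 3 * (1 / e₀ ^ 3))

theorem pg_majW (C K0 D e₀ : ℝ) : PG (fun ξ : Vec n => majW C K0 D e₀ ξ) := by
  have hD : PG (fun ξ : Vec n => D * sS ξ) := pg_sS.const_mul D
  unfold majW
  exact ((hD.pow 3).const_mul C).add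
    (((PG.const C).add ((hD.add (hD.pow 2)).const_mul K0)).mul ((hD.pow 3).mul (PG.const _)))

/-- pointwise error bound -/
theorem err_pt {C K0 D e₀ δ e f g h : ℝ} (s : ℝ) (hC : 0 ≤ C) (hK : 0 ≤ K0)
    (he₀ : 0 < e₀) (hδ : 0 < δ) (hδ1 : δ ≤ 1) (he : 0 ≤ e) (hes : e ≤ √δ * (D * s))
    (hDs : 0 ≤ D * s) (hf : f ≤ C) (hg : g ≤ K0 * (e + e ^ 2)) (hfg : h ≤ f + g)
    (hloc : e ≤ e₀ → h ≤ C * e ^ 3) :
    h ≤ δ * √δ * (C * (D * s) ^ 3
      + (C + K0 * (D * s + (D * s) ^ 2)) * ((D * s) ^ 3 * (1 / e₀ ^ 3))) := by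
  have hs0 := Real.sqrt_nonneg δ
  have hs1 : √δ ≤ 1 := Real.sqrt_le_one.2 hδ1
  have hss := Real.mul_self_sqrt hδ.le
  set t := D * s with ht
  have e3 : e ^ 3 ≤ δ * √δ * t ^ 3 := by
    calc e ^ 3 ≤ (√δ * t) ^ 3 := pow_le_pow_left₀ he hes 3
      _ = (√δ * √δ) * √δ * t ^ 3 := by ring
      _ = δ * √δ * t ^ 3 := by rw [hss]
  have et : e ≤ t := hes.trans (by (by_contra nlg; linarith only [mul_pos (sub_pos.2 (not_le.1 nlg)) (sub_pos.2 hδ), mul_nonneg (le_of_lt (sub_pos.2 (not_le.1 nlg))) (sub_nonneg.2 hs0), mul_nonneg (sub_nonneg.2 hδ1) (sub_nonneg.2 he), mul_nonneg (sub_nonneg.2 hδ1) (sub_nonneg.2 hes), mul_eq_zero_of_left (sub_eq_zero.2 hss) (t - (0))]))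
  have hdd : 0 ≤ δ * √δ := mul_nonneg hδ.le hs0
  have hi : 0 ≤ 1 / e₀ ^ 3 := by positivity
  have hn1 : 0 ≤ C * t ^ 3 := by (clear * - hC hDs; positivity)
  have hn2 : 0 ≤ (C + K0 * (t + t ^ 2)) * (t ^ 3 * (1 / e₀ ^ 3)) := by (clear * - hC hK hDs he₀; positivity)
  by_cases hc : e ≤ e₀
  · calc h ≤ C * e ^ 3 := hloc hc
      _ ≤ C * (δ * √δ * t ^ 3) := mul_le_mul_of_nonneg_left e3 hC
      _ = δ * √δ * (C * t ^ 3) := by ring
      _ ≤ _ := mul_le_mul_of_nonneg_left (by linarith only [hn2]) hdd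
  · push Not at hc
    have h1 : 1 ≤ e ^ 3 * (1 / e₀ ^ 3) := by
      rw [mul_one_div, le_div_iff₀ (by positivity), one_mul]
      exact pow_le_pow_left₀ he₀.le hc.le 3
    have h2 : h ≤ C + K0 * (t + t ^ 2) := by
      have h3 : e + e ^ 2 ≤ t + t ^ 2 := add_le_add et (pow_le_pow_left₀ he et 2)
      have := mul_le_mul_of_nonneg_left h3 hK
      linarith only [this, hfg, hg, hf]
    have h4 : 0 ≤ C + K0 * (t + t ^ 2) := by (clear * - hC hK hDs; positivity)
    calc h ≤ C + K0 * (t + t ^ 2) := h2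
      _ ≤ (C + K0 * (t + t ^ 2)) * (e ^ 3 * (1 / e₀ ^ 3)) := le_mul_of_one_le_right h4 h1
      _ ≤ (C + K0 * (t + t ^ 2)) * ((δ * √δ * t ^ 3) * (1 / e₀ ^ 3)) := by
          refine mul_le_mul_of_nonneg_left (mul_le_mul_of_nonneg_right e3 hi) h4
      _ = δ * √δ * ((C + K0 * (t + t ^ 2)) * (t ^ 3 * (1 / e₀ ^ 3))) := by ring
      _ ≤ _ := mul_le_mul_of_nonneg_left (by linarith only [hn1]) hdd

/-- the error term in the expectation, coordinatewise -/
theorem drift_err (n : ℕ) (C K0 A e₀ : ℝ) (hC : 0 ≤ C) (hK : 0 ≤ K0) (hA : 0 ≤ A)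
    (he₀ : 0 < e₀) : ∃ K : ℝ, 0 ≤ K ∧ ∀ δ : ℝ, 0 < δ → δ ≤ 1 → ∀ (R : Mat n) (a : Vec n),
      OpLe R C → nv a ≤ A → ∀ F F0 : Vec n → Vec n, (∀ i, Measurable fun ξ => F ξ i) →
      (∀ i, PG fun ξ => F0 ξ i) → (∀ ξ, nv (F ξ) ≤ C) →
      (∀ ξ, nv (F0 ξ) ≤ K0 * (nv (δ • a + √δ • R.mulVec ξ)
        + nv (δ • a + √δ • R.mulVec ξ) ^ 2)) →
      (∀ ξ, nv (δ • a + √δ • R.mulVec ξ) ≤ e₀ →
        nv (F ξ - F0 ξ) ≤ C * nv (δ • a + √δ • R.mulVec ξ) ^ 3) →
      ∀ i, |(∫ ξ, F ξ i ∂(gpi (Fin n))) - ∫ ξ, F0 ξ i ∂(gpi (Fin n))| ≤ K * (δ * √δ) := by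
  have hnn : ∀ ξ : Vec n, 0 ≤ majW C K0 (A + C) e₀ ξ := by
    intro ξ
    have h1 := one_le_sS ξ
    have h2 : 0 ≤ (A + C) * sS ξ := by positivity
    unfold majW
    positivity
  refine ⟨∫ ξ : Vec n, majW C K0 (A + C) e₀ ξ ∂(gpi (Fin n)), integral_nonneg hnn, ?_⟩
  intro δ hδ hδ1 R a hR ha F F0 hFm hF0 hF hF0b hloc i
  have hW := (pg_majW (n := n) C K0 (A + C) e₀).integrable
  have hI0 := (hF0 i).integrable
  have hI : Integrable (fun ξ => F ξ i) (gpi (Fin n)) := by
    refine (integrable_const C).mono' (hFm i).aestronglyMeasurable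
      (Eventually.of_forall fun ξ => ?_)
    rw [Real.norm_eq_abs]
    exact (abs_le_nv _ i).trans (hF ξ)
  rw [← integral_sub hI hI0]
  have hpt : ∀ ξ : Vec n, |F ξ i - F0 ξ i| ≤ δ * √δ * majW C K0 (A + C) e₀ ξ := by
    intro ξ
    have h1 := one_le_sS ξ
    refine (abs_le_nv (F ξ - F0 ξ) i).trans ?_
    exact err_pt (sS ξ) hC hK he₀ hδ hδ1 (nv_nonneg _) (nv_eps_le hδ hδ1 hC hR ha)
      (by (clear * - hA hC h1; positivity)) (hF ξ) (hF0b ξ) (nv_sub_le _ _) (hloc ξ)
  calc |∫ ξ, (F ξ i - F0 ξ i) ∂(gpi (Fin n))| ≤ ∫ ξ, |F ξ i - F0 ξ i| ∂(gpi (Fin n)) :=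
        abs_integral_le_integral_abs
    _ ≤ ∫ ξ, δ * √δ * majW C K0 (A + C) e₀ ξ ∂(gpi (Fin n)) :=
        integral_mono (hI.sub hI0).abs (hW.const_mul _) hpt
    _ = _ := by rw [integral_const_mul]; ring

end Vale.Agent.P150.F
end
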