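import Mathlib
import Vale.Agent.P150.Bdl.B12
import Vale.Agent.P150.Bdl.B1
import Vale.Agent.P150.Bdl.B15
import Vale.Agent.P150.Bdl.B8
import Vale.Agent.P150.Bdl.B7
import Vale.Agent.P150.Bdl.B10

set_option linter.all false

section

/-! D7: the variance recursion along a localization process. -/

open MeasureTheory ProbabilityTheory Filter Topology Real
open scoped Matrix

namespace Vale.Agent.P150.F.D7R

variable {n : ℕ}

lemma VarX_eq {ν : Cfg n → ℝ} (hν : IsProb ν) (F : Cfg n → ℝ) :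
    VarX ν F = (∑ x, ν x * F x ^ 2) - Ex ν F ^ 2 := by
  unfold VarX
  set e := Ex ν F with he
  unfold Ex
  have h : ∀ x, ν x * (F x - e) ^ 2 = ν x * F x ^ 2 - 2 * e * (ν x * F x) + e ^ 2 * ν x := by
    intro x; ring
  simp only [h, Finset.sum_add_distrib, Finset.sum_sub_distrib, ← Finset.mul_sum]
  rw [hν.2]
  have : ∑ x, ν x * F x = e := by rw [he]; rfl
  rw [this]; ring

lemma VarX_nonneg {ν : Cfg n → ℝ} (hν : IsProb ν) (F : Cfg n → ℝ) : 0 ≤ VarX ν F :=
  Finset.sum_nonneg fun x _ => mul_nonneg (hν.1 x) (sq_nonneg _)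

lemma VarX_le {ν : Cfg n → ℝ} (hν : IsProb ν) (F : Cfg n → ℝ) :
    VarX ν F ≤ ∑ x, ν x * F x ^ 2 := by
  rw [VarX_eq hν]; linarith only [sq_nonneg (Ex ν F)]

lemma prob_le_one' {ν : Cfg n → ℝ} (hν : IsProb ν) (x : Cfg n) : ν x ≤ 1 := by
  rw [← hν.2]
  exact Finset.single_le_sum (fun y _ => hν.1 y) (Finset.mem_univ x)

/-- `qf Q v ≤ C |v|²` -/
lemma qf_le_of_opLe {Q : Mat n} {C : ℝ} (hC : 0 ≤ C) (hQ : OpLe Q C) (v : Vec n) :
    qf Q v ≤ C * sq v := by
  unfold qf
  have h1 := abs_ip_le v (Q.mulVec v)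
  have h2 : nv (Q.mulVec v) ≤ C * nv v := by
    apply nv_le_of_sq_le (mul_nonneg hC (nv_nonneg v))
    rw [mul_pow, nv_sq]
    exact hQ v
  calc ip v (Q.mulVec v) ≤ nv v * nv (Q.mulVec v) := (le_abs_self _).trans h1
    _ ≤ nv v * (C * nv v) := mul_le_mul_of_nonneg_left h2 (nv_nonneg v)
    _ = C * nv v ^ 2 := by ring
    _ = C * sq v := by rw [nv_sq]

/-- measurability of the posterior variance -/
lemma meas_VarX {m : ℕ} {S : Type} [MeasurableSpace S] (P : Proc n m S) (F : Cfg n → ℝ) :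
    Measurable fun s => VarX (P.law s) F := by
  have he : Measurable fun s => Ex (P.law s) F := by
    unfold Ex
    exact Finset.measurable_fun_sum _ fun x _ => (P.meas_law x).mul_const _
  unfold VarX
  show Measurable fun s => ∑ x, P.law s x * (F x - Ex (P.law s) F) ^ 2
  exact Finset.measurable_fun_sum _ fun x _ =>
    (P.meas_law x).mul ((measurable_const.sub he).pow_const 2)

lemma meas_DirW {m : ℕ} {S : Type} [MeasurableSpace S] (P : Proc n m S) (F G : Cfg n → ℝ) :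
    Measurable fun s => DirW (P.law s) F G := by
  unfold DirW
  refine Measurable.const_mul ?_ _
  refine Finset.measurable_fun_sum _ fun i _ => Finset.measurable_fun_sum _ fun x _ => ?_
  exact (((P.meas_law x).mul (P.meas_law _)).div ((P.meas_law x).add (P.meas_law _))).mul_const _

lemma DirW_nonneg {μ : Cfg n → ℝ} (hμ : IsProb μ) (F : Cfg n → ℝ) : 0 ≤ DirW μ F F := by
  unfold DirW
  refine mul_nonneg (by norm_num) (Finset.sum_nonneg fun i _ => Finset.sum_nonneg fun x _ => ?_)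
  refine mul_nonneg (div_nonneg (mul_nonneg (hμ.1 _) (hμ.1 _)) (add_nonneg (hμ.1 _) (hμ.1 _))) ?_
  linarith only [sq_nonneg (F (flip x i) - F x)]

/-- a crude bound for the Dirichlet form -/
lemma DirW_le {μ : Cfg n → ℝ} (hμ : IsProb μ) (F : Cfg n → ℝ) :
    DirW μ F F ≤ (1 / 2) * ∑ i, ∑ x, (F (flip x i) - F x) ^ 2 := by
  unfold DirW
  refine mul_le_mul_of_nonneg_left ?_ (by norm_num)
  refine Finset.sum_le_sum fun i _ => Finset.sum_le_sum fun x _ => ?_
  have h1 : μ x * μ (flip x i) / (μ x + μ (flip x i)) ≤ 1 := by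
    apply div_le_one_of_le₀ ?_ (add_nonneg (hμ.1 _) (hμ.1 _))
    have := mul_le_mul_of_nonneg_left (prob_le_one' hμ (flip x i)) (hμ.1 x)
    linarith only [this, hμ.1 (flip x i)]
  have h2 : 0 ≤ (F (flip x i) - F x) ^ 2 := sq_nonneg _
  linarith only [mul_nonneg (sub_nonneg.2 h1) (sub_nonneg.2 h2)]

/-- the backward variance recursion -/
theorem d7_var (h1 : CH1) (hG : CHG) (h2 : CH2) (h5 : CH5a)
    (hprod : ∀ (n : ℕ) (M : Mat n) (y : Vec n), (∀ i j, i ≠ j → M i j = 0) →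
      ∀ F : Cfg n → ℝ, VarX (gM M y) F ≤ DirW (gM M y) F F)
    (n : ℕ) {C C2 : ℝ} (hC : 0 ≤ C) (hC2 : 0 ≤ C2) :
    ∃ δ₁ > 0, ∀ (β T c : ℝ) (J : Mat n) (δ₀ : ℝ), δ₀ ≤ δ₁ → ∀ (D : D6Out β C T c J δ₀)
      (B : ℕ → Set D.S), (∀ k, MeasurableSet (B k)) →
      (∀ k s, k + 1 ≤ D.N → D.Inv (k + 1) s → s ∉ B (k + 1) → ∀ F : Cfg n → ℝ,
        sq (covF (D.P.law s) F) ≤ C2 * VarX (D.P.law s) F) →
      ∀ k s, k ≤ D.N → D.Inv k s → ∀ F : Cfg n → ℝ,
        VarX (D.P.law s) F ≤ Real.exp (2 * (C * C2 + 1) * ∑ j ∈ Finset.range k, D.dur j) *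
          (DirW (D.P.law s) F F + ∑ x, D.P.law s x * (F x ^ 2 * D.P.hit B k s x)) := by
  obtain ⟨K, hK0, hK⟩ := h2 n n C
  set a : ℝ := C * C2 + 1 with ha
  have ha1 : 1 ≤ a := by rw [ha]; linarith only [mul_nonneg hC hC2]
  refine ⟨min 1 (min (1 / (2 * a)) ((1 / (K + 1)) ^ 2)), ?_, ?_⟩
  · refine lt_min one_pos (lt_min (by positivity) (by positivity))
  intro β T c J δ₀ hδ₀ D B hB hcov k
  have hd1 : δ₀ ≤ 1 := hδ₀.trans (min_le_left _ _)
  have hd2 : δ₀ ≤ 1 / (2 * a) := hδ₀.trans ((min_le_right _ _).trans (min_le_left _ _))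
  have hd3 : δ₀ ≤ (1 / (K + 1)) ^ 2 := hδ₀.trans ((min_le_right _ _).trans (min_le_right _ _))
  have hexp1 : ∀ k : ℕ, 1 ≤ Real.exp (2 * a * ∑ j ∈ Finset.range k, D.dur j) := by
    intro k
    apply Real.one_le_exp
    exact mul_nonneg (by positivity) (Finset.sum_nonneg fun j _ => (D.dur_pos j).le)
  have hbad : ∀ k s, s ∈ B k → ∀ F : Cfg n → ℝ,
      VarX (D.P.law s) F ≤ Real.exp (2 * a * ∑ j ∈ Finset.range k, D.dur j) *
          (DirW (D.P.law s) F F + ∑ x, D.P.law s x * (F x ^ 2 * D.P.hit B k s x)) := by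
    intro k s hs F
    have e : ∑ x, D.P.law s x * (F x ^ 2 * D.P.hit B k s x) = ∑ x, D.P.law s x * F x ^ 2 :=
      Finset.sum_congr rfl fun x _ => by rw [D.P.hit_of_mem B hs, mul_one]
    rw [e]
    have h3 := VarX_le (D.P.law_isProb s) F
    have h4 := DirW_nonneg (D.P.law_isProb s) F
    have h5' : 0 ≤ ∑ x, D.P.law s x * F x ^ 2 :=
      Finset.sum_nonneg fun x _ => mul_nonneg (D.P.law_pos s x).le (sq_nonneg _)
    calc _ ≤ 1 * (DirW (D.P.law s) F F + ∑ x, D.P.law s x * F x ^ 2) := by linarith only [h4, h3]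
      _ ≤ _ := mul_le_mul_of_nonneg_right (hexp1 k) (by linarith only [h5', h4])
  induction k with
  | zero =>
    intro s hkN hs F
    by_cases hsB : s ∈ B 0
    · exact hbad 0 s hsB F
    · have h3 : VarX (D.P.law s) F ≤ DirW (D.P.law s) F F := hprod n _ _ (D.fin_M s hs) F
      have e : ∑ x, D.P.law s x * (F x ^ 2 * D.P.hit B 0 s x) = 0 :=
        Finset.sum_eq_zero fun x _ => by rw [D.P.hit_zero_not B hsB]; ring
      rw [e, Finset.range_zero, Finset.sum_empty, mul_zero, Real.exp_zero, one_mul, add_zero]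
      exact h3
  | succ k ih =>
    intro s hkN hs F
    by_cases hsB : s ∈ B (k + 1)
    · exact hbad _ s hsB F
    · -- good state
      have hR := D.R_le k s hs
      have hδs : D.P.δ s = D.dur k := D.δ_eq k s hs
      have hδpos : 0 < D.P.δ s := D.P.hδ s
      have hδle : D.P.δ s ≤ δ₀ := by rw [hδs]; exact D.dur_le k
      have hδ1 : D.P.δ s ≤ 1 := hδle.trans hd1
      have hν := D.P.law_isProb s
      have hstep := hK (D.P.R s) hR (D.P.δ s) hδpos.le hδ1 (D.P.law s) hν F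
      have hV0 := VarX_nonneg hν F
      have hqf : qf (D.P.R s * (D.P.R s)ᵀ) (covF (D.P.law s) F) ≤ C * (C2 * VarX (D.P.law s) F) :=
        (qf_le_of_opLe hC (D.Q_le k s hs) _).trans
          (mul_le_mul_of_nonneg_left (hcov k s hkN hs hsB F) hC)
      have hKs : K * √(D.P.δ s) ≤ 1 := by
        have h6 : √(D.P.δ s) ≤ 1 / (K + 1) := by
          rw [show (1 : ℝ) / (K + 1) = √((1 / (K + 1)) ^ 2) from
            (Real.sqrt_sq (by (clear * - hK0; positivity))).symm]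
          exact Real.sqrt_le_sqrt (hδle.trans hd3)
        calc K * √(D.P.δ s) ≤ K * (1 / (K + 1)) := mul_le_mul_of_nonneg_left h6 hK0
          _ ≤ 1 := by rw [mul_one_div]; exact div_le_one_of_le₀ (by linarith only []) (by linarith only [hK0])
      have hmain : VarX (D.P.law s) F * (1 - a * D.P.δ s)
          ≤ EC (D.P.law s) (D.P.R s) (D.P.δ s)
              (fun _ z => VarX (pst (D.P.law s) (D.P.R s * (D.P.R s)ᵀ) (D.P.δ s) z) F) := by
        have h7 : D.P.δ s * qf (D.P.R s * (D.P.R s)ᵀ) (covF (D.P.law s) F)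
            ≤ D.P.δ s * (C * (C2 * VarX (D.P.law s) F)) := mul_le_mul_of_nonneg_left hqf hδpos.le
        have h8 : K * (D.P.δ s * √(D.P.δ s)) * VarX (D.P.law s) F
            ≤ D.P.δ s * VarX (D.P.law s) F := by
          have : K * (D.P.δ s * √(D.P.δ s)) * VarX (D.P.law s) F
              = (K * √(D.P.δ s)) * (D.P.δ s * VarX (D.P.law s) F) := by ring
          rw [this]
          calc _ ≤ 1 * (D.P.δ s * VarX (D.P.law s) F) :=
                mul_le_mul_of_nonneg_right hKs (mul_nonneg hδpos.le hV0)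
            _ = _ := one_mul _
        rw [ha]
        linarith only [h8, h7, hstep]
      -- the right-hand side as an operator
      have hRHS : EC (D.P.law s) (D.P.R s) (D.P.δ s)
              (fun _ z => VarX (pst (D.P.law s) (D.P.R s * (D.P.R s)ᵀ) (D.P.δ s) z) F)
          = D.P.avg (D.P.T fun s' _ => VarX (D.P.law s') F) s := by
        unfold EC Proc.avg Proc.T Proc.nx
        refine Finset.sum_congr rfl fun x _ => ?_
        congr 1
        refine integral_congr_ae (Eventually.of_forall fun ξ => ?_)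
        beta_reduce
        unfold Proc.law
        rw [hG, D.P.hM, D.P.hy]
      set E : ℝ := Real.exp (2 * a * ∑ j ∈ Finset.range k, D.dur j) with hE
      have hE0 : 0 ≤ E := (Real.exp_pos _).le
      -- constants for integrability
      set CF : ℝ := ∑ x : Cfg n, F x ^ 2 with hCF
      set CD : ℝ := (1 / 2) * ∑ i, ∑ x : Cfg n, (F (flip x i) - F x) ^ 2 with hCD
      have hFx : ∀ x, F x ^ 2 ≤ CF := fun x =>
        Finset.single_le_sum (f := fun x => F x ^ 2) (fun y _ => sq_nonneg _) (Finset.mem_univ x)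
      have hΨm : ∀ x, Measurable fun s' => F x ^ 2 * D.P.hit B k s' x :=
        fun x => (D.P.meas_hit B hB k x).const_mul _
      have hΨb : ∀ (s' : D.S) x, |F x ^ 2 * D.P.hit B k s' x| ≤ CF := by
        intro s' x
        rw [abs_of_nonneg (mul_nonneg (sq_nonneg _) (D.P.hit_nonneg B k s' x))]
        calc _ ≤ F x ^ 2 * 1 := mul_le_mul_of_nonneg_left (D.P.hit_le_one B k s' x) (sq_nonneg _)
          _ ≤ CF := by rw [mul_one]; exact hFx x
      have hI1 : ∀ x, Integrable (fun ξ => VarX (D.P.law (D.P.nx s x ξ)) F) (gpi (Fin n)) := by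
        intro x
        refine D.P.integrable_nx (Φ := fun s' _ => VarX (D.P.law s') F) (C := CF)
          (fun _ => meas_VarX D.P F) (fun s' _ => ?_) s x x
        rw [abs_of_nonneg (VarX_nonneg (D.P.law_isProb s') F)]
        refine (VarX_le (D.P.law_isProb s') F).trans ?_
        refine Finset.sum_le_sum fun y _ => ?_
        calc _ ≤ 1 * F y ^ 2 :=
              mul_le_mul_of_nonneg_right (prob_le_one' (D.P.law_isProb s') y) (sq_nonneg _)
          _ = _ := one_mul _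
      have hI2 : ∀ x, Integrable (fun ξ => DirW (D.P.law (D.P.nx s x ξ)) F F) (gpi (Fin n)) := by
        intro x
        refine D.P.integrable_nx (Φ := fun s' _ => DirW (D.P.law s') F F) (C := CD)
          (fun _ => meas_DirW D.P F F) (fun s' _ => ?_) s x x
        rw [abs_of_nonneg (DirW_nonneg (D.P.law_isProb s') F)]
        exact DirW_le (D.P.law_isProb s') F
      have hmavg : Measurable fun s' => D.P.avg (fun s' x => F x ^ 2 * D.P.hit B k s' x) s' :=
        D.P.meas_avg hΨm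
      have hI3 : ∀ x, Integrable
          (fun ξ => D.P.avg (fun s' x => F x ^ 2 * D.P.hit B k s' x) (D.P.nx s x ξ))
          (gpi (Fin n)) := by
        intro x
        refine D.P.integrable_nx
          (Φ := fun s' _ => D.P.avg (fun s' x => F x ^ 2 * D.P.hit B k s' x) s') (C := CF)
          (fun _ => hmavg) (fun s' _ => ?_) s x x
        have h9 : 0 ≤ D.P.avg (fun s' x => F x ^ 2 * D.P.hit B k s' x) s' :=
          Finset.sum_nonneg fun y _ => mul_nonneg (D.P.law_pos s' y).le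
            (mul_nonneg (sq_nonneg _) (D.P.hit_nonneg B k s' y))
        rw [abs_of_nonneg h9]
        calc _ ≤ D.P.avg (fun _ _ => CF) s' :=
              D.P.avg_mono fun y => (le_abs_self _).trans (hΨb s' y)
          _ = CF := D.P.avg_const CF s'
      -- apply the induction hypothesis inside
      have hstep2 : D.P.avg (D.P.T fun s' _ => VarX (D.P.law s') F) s
          ≤ E * (D.P.avg (D.P.T fun s' _ => DirW (D.P.law s') F F) s
            + D.P.avg (D.P.T fun s' _ =>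
                D.P.avg (fun s' x => F x ^ 2 * D.P.hit B k s' x) s') s) := by
        unfold Proc.avg
        rw [← Finset.sum_add_distrib, Finset.mul_sum]
        refine Finset.sum_le_sum fun x _ => ?_
        rw [← mul_add, mul_left_comm]
        refine mul_le_mul_of_nonneg_left ?_ (D.P.law_pos s x).le
        have e1 : E * ((∫ ξ, DirW (D.P.law (D.P.nx s x ξ)) F F ∂(gpi (Fin n)))
            + ∫ ξ, D.P.avg (fun s' x => F x ^ 2 * D.P.hit B k s' x) (D.P.nx s x ξ) ∂(gpi (Fin n)))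
            = ∫ ξ, E * (DirW (D.P.law (D.P.nx s x ξ)) F F
              + D.P.avg (fun s' x => F x ^ 2 * D.P.hit B k s' x) (D.P.nx s x ξ))
              ∂(gpi (Fin n)) := by
          rw [← integral_add (hI2 x) (hI3 x), ← integral_const_mul]
        refine le_trans ?_ (le_of_eq e1.symm)
        exact integral_mono (hI1 x) (((hI2 x).add (hI3 x)).const_mul E)
          fun ξ => ih _ (by omega) (D.invS k s _ hs) F
      have hD : D.P.avg (D.P.T fun s' _ => DirW (D.P.law s') F F) s ≤ DirW (D.P.law s) F F := by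
        have h10 := h5 n n (D.P.R s) (D.P.δ s) hδpos.le (D.P.law s) hν F
        refine le_trans (le_of_eq ?_) h10
        unfold EC Proc.avg Proc.T Proc.nx
        refine Finset.sum_congr rfl fun x _ => ?_
        congr 1
        refine integral_congr_ae (Eventually.of_forall fun ξ => ?_)
        beta_reduce
        unfold Proc.law
        rw [hG, D.P.hM, D.P.hy]
      have hH : D.P.avg (D.P.T fun s' _ =>
            D.P.avg (fun s' x => F x ^ 2 * D.P.hit B k s' x) s') s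
          = ∑ x, D.P.law s x * (F x ^ 2 * D.P.hit B (k + 1) s x) := by
        rw [← D.P.avg_T_bdd h1 hG hΨm hΨb s]
        unfold Proc.avg
        refine Finset.sum_congr rfl fun x _ => ?_
        rw [D.P.hit_succ_not B hsB]
        congr 1
        unfold Proc.T
        rw [← integral_const_mul]
      have hX0 : 0 ≤ DirW (D.P.law s) F F
          + ∑ x, D.P.law s x * (F x ^ 2 * D.P.hit B (k + 1) s x) :=
        add_nonneg (DirW_nonneg hν F) (Finset.sum_nonneg fun x _ =>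
          mul_nonneg (D.P.law_pos s x).le (mul_nonneg (sq_nonneg _) (D.P.hit_nonneg B _ s x)))
      have hfin : VarX (D.P.law s) F * (1 - a * D.P.δ s) ≤ E * (DirW (D.P.law s) F F
          + ∑ x, D.P.law s x * (F x ^ 2 * D.P.hit B (k + 1) s x)) := by
        calc _ ≤ _ := hmain
          _ = _ := hRHS
          _ ≤ _ := hstep2
          _ ≤ _ := by rw [hH]; exact mul_le_mul_of_nonneg_left (by linarith only [hD]) hE0
      have haδ : a * D.P.δ s ≤ 1 / 2 := by
        calc a * D.P.δ s ≤ a * (1 / (2 * a)) :=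
              mul_le_mul_of_nonneg_left (hδle.trans hd2) (by linarith only [ha1])
          _ = 1 / 2 := by field_simp
      have hexp : 1 ≤ Real.exp (2 * a * D.P.δ s) * (1 - a * D.P.δ s) := by
        have h11 : 1 + 2 * a * D.P.δ s ≤ Real.exp (2 * a * D.P.δ s) := by
          linarith only [Real.add_one_le_exp (2 * a * D.P.δ s)]
        have h12 : 0 ≤ a * D.P.δ s := by (clear * - hC hC2 hδpos; positivity)
        (by_contra nlg; linarith only [mul_pos (sub_pos.2 (not_le.1 nlg)) (sub_pos.2 hδpos), mul_nonneg (le_of_lt (sub_pos.2 (not_le.1 nlg))) (sub_nonneg.2 hδ1), mul_nonneg (sub_nonneg.2 haδ) (sub_nonneg.2 h11), mul_nonneg (sub_nonneg.2 haδ) (sub_nonneg.2 h12), mul_nonneg (sub_nonneg.2 h11) (sub_nonneg.2 h12)])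
      have hsum : Real.exp (2 * a * ∑ j ∈ Finset.range (k + 1), D.dur j)
          = E * Real.exp (2 * a * D.P.δ s) := by
        rw [hE, ← Real.exp_add, Finset.sum_range_succ, hδs]; ring_nf
      rw [hsum]
      calc VarX (D.P.law s) F
          ≤ VarX (D.P.law s) F * (Real.exp (2 * a * D.P.δ s) * (1 - a * D.P.δ s)) :=
            le_mul_of_one_le_right hV0 hexp
        _ = Real.exp (2 * a * D.P.δ s) * (VarX (D.P.law s) F * (1 - a * D.P.δ s)) := by ring
        _ ≤ Real.exp (2 * a * D.P.δ s) * (E * (DirW (D.P.law s) F F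
          + ∑ x, D.P.law s x * (F x ^ 2 * D.P.hit B (k + 1) s x))) :=
            mul_le_mul_of_nonneg_left hfin (Real.exp_pos _).le
        _ = _ := by ring

end Vale.Agent.P150.F.D7R
end

section

/-! Module CH: the DLR defect is controlled by the Dirichlet form of the square root (CH5d). -/

open MeasureTheory ProbabilityTheory Filter Topology Real
open scoped Matrix

namespace Vale.Agent.P150.F

variable {n : ℕ}

/-- the two-point inequality -/
theorem ch5d_core {a b p q : ℝ} (ha : 0 < a) (hb : 0 < b) (hp : 0 < p) (hq : 0 < q) :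
    (a + b) * ((a - b) / (a + b) - (p - q) / (p + q)) ^ 2
      ≤ 4 * (p * q / (p + q) * (√(b / q) - √(a / p)) ^ 2) := by
  obtain ⟨A, hA, rfl⟩ : ∃ A : ℝ, 0 < A ∧ A ^ 2 = a := ⟨√a, Real.sqrt_pos.2 ha, Real.sq_sqrt ha.le⟩
  obtain ⟨B, hB, rfl⟩ : ∃ B : ℝ, 0 < B ∧ B ^ 2 = b := ⟨√b, Real.sqrt_pos.2 hb, Real.sq_sqrt hb.le⟩
  obtain ⟨P, hP, rfl⟩ : ∃ P : ℝ, 0 < P ∧ P ^ 2 = p := ⟨√p, Real.sqrt_pos.2 hp, Real.sq_sqrt hp.le⟩
  obtain ⟨Q, hQ, rfl⟩ : ∃ Q : ℝ, 0 < Q ∧ Q ^ 2 = q := ⟨√q, Real.sqrt_pos.2 hq, Real.sq_sqrt hq.le⟩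
  have e1 : √(B ^ 2 / Q ^ 2) = B / Q := by
    rw [← div_pow, Real.sqrt_sq (div_pos hB hQ).le]
  have e2 : √(A ^ 2 / P ^ 2) = A / P := by
    rw [← div_pow, Real.sqrt_sq (div_pos hA hP).le]
  rw [e1, e2]
  have e3 : (A ^ 2 + B ^ 2) * ((A ^ 2 - B ^ 2) / (A ^ 2 + B ^ 2) - (P ^ 2 - Q ^ 2) / (P ^ 2 + Q ^ 2)) ^ 2
      = 4 * ((A * Q - B * P) ^ 2 * (A * Q + B * P) ^ 2 / ((A ^ 2 + B ^ 2) * (P ^ 2 + Q ^ 2) ^ 2)) := by
    field_simp
    ring
  have e4 : P ^ 2 * Q ^ 2 / (P ^ 2 + Q ^ 2) * (B / Q - A / P) ^ 2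
      = (A * Q - B * P) ^ 2 / (P ^ 2 + Q ^ 2) := by
    field_simp
    ring
  rw [e3, e4]
  refine mul_le_mul_of_nonneg_left ?_ (by norm_num)
  rw [div_le_div_iff₀ (by positivity) (by (clear * - hP hQ; positivity))]
  have h5 : (A * Q + B * P) ^ 2 ≤ (A ^ 2 + B ^ 2) * (P ^ 2 + Q ^ 2) := by
    linarith only [sq_nonneg (A * P - B * Q)]
  have h6 : (A * Q - B * P) ^ 2 * (A * Q + B * P) ^ 2 * (P ^ 2 + Q ^ 2)
      ≤ (A * Q - B * P) ^ 2 * ((A ^ 2 + B ^ 2) * (P ^ 2 + Q ^ 2)) * (P ^ 2 + Q ^ 2) :=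
    mul_le_mul_of_nonneg_right (mul_le_mul_of_nonneg_left h5 (sq_nonneg _)) (by positivity)
  calc _ ≤ _ := h6
    _ = _ := by ring

theorem ch5d_condMean_flip (ν : Cfg n → ℝ) (i : Fin n) (x : Cfg n) :
    condMean ν i (flip x i) = condMean ν i x := by
  unfold condMean flip
  simp only [Function.update_idem]

theorem ch5d_pt {ν μ : Cfg n → ℝ} (hν : ∀ x, 0 < ν x) (hμ : ∀ x, 0 < μ x) (i : Fin n)
    (x : Cfg n) :
    (ν x + ν (flip x i)) * (condMean ν i x - condMean μ i x) ^ 2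
      ≤ 4 * (μ x * μ (flip x i) / (μ x + μ (flip x i)) *
        ((√(ν (flip x i) / μ (flip x i)) - √(ν x / μ x)) *
          (√(ν (flip x i) / μ (flip x i)) - √(ν x / μ x)))) := by
  have h := ch5d_core (hν x) (hν (flip x i)) (hμ x) (hμ (flip x i))
  have hx : Function.update x i (x i) = x := Function.update_eq_self i x
  have key : (condMean ν i x - condMean μ i x) ^ 2
      = ((ν x - ν (flip x i)) / (ν x + ν (flip x i))
          - (μ x - μ (flip x i)) / (μ x + μ (flip x i))) ^ 2 := by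
    unfold condMean flip
    cases hxi : x i
    · rw [hxi] at hx
      simp only [Bool.not_false, hx]
      rw [add_comm (ν x), add_comm (μ x), ← neg_sub (ν _) (ν x), ← neg_sub (μ _) (μ x),
        neg_div, neg_div]
      ring
    · rw [hxi] at hx
      simp only [Bool.not_true, hx]
  rw [key, ← pow_two (√(ν (flip x i) / μ (flip x i)) - √(ν x / μ x))]
  exact h

/-- **CH5d** -/
theorem thCH5d : CH5d := by
  intro n M y hM ν _ hν
  have hs : M.IsSymm := Matrix.IsSymm.ext fun i j => hM j i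
  have hμ := gM_pos M y
  rw [dlr_eq_lf]
  simp_rw [← condMean_gM hs y]
  unfold IP' DirW
  have h1 : ∀ i, ∑ x, ν x * (condMean ν i x - condMean (gM M y) i x) ^ 2
      = (1 / 2) * ∑ x, (ν x + ν (flip x i)) * (condMean ν i x - condMean (gM M y) i x) ^ 2 := by
    intro i
    have e := sum_flip i (fun x => ν x * (condMean ν i x - condMean (gM M y) i x) ^ 2)
    simp only [ch5d_condMean_flip] at e
    simp only [add_mul, Finset.sum_add_distrib]
    rw [e]; ring
  have h2 : ∑ x, ν x * ∑ i, (condMean ν i x - condMean (gM M y) i x) ^ 2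
      = (1 / 2) * ∑ i, ∑ x, (ν x + ν (flip x i)) *
          (condMean ν i x - condMean (gM M y) i x) ^ 2 := by
    simp_rw [Finset.mul_sum]
    rw [Finset.sum_comm]
    refine Finset.sum_congr rfl fun i _ => ?_
    rw [h1 i, Finset.mul_sum]
  rw [h2]
  have h3 : ∀ i, ∑ x, (ν x + ν (flip x i)) * (condMean ν i x - condMean (gM M y) i x) ^ 2
      ≤ 4 * ∑ x, gM M y x * gM M y (flip x i) / (gM M y x + gM M y (flip x i)) *
        ((√(ν (flip x i) / gM M y (flip x i)) - √(ν x / gM M y x)) *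
          (√(ν (flip x i) / gM M y (flip x i)) - √(ν x / gM M y x))) := by
    intro i
    rw [Finset.mul_sum]
    exact Finset.sum_le_sum fun x _ => ch5d_pt hν hμ i x
  have h4 := Finset.sum_le_sum (s := Finset.univ) fun i (_ : i ∈ Finset.univ) => h3 i
  rw [← Finset.mul_sum] at h4
  linarith only [h4]

end Vale.Agent.P150.F
end

section

/-! D3M, step (B): the DLR defect along the `J`-killing path, product law. -/

open MeasureTheory ProbabilityTheory Filter Topology Real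
open scoped Matrix

namespace Vale.Agent.P150.F.DM

variable {n m : ℕ}

/-- the DLR defect does not see the diagonal -/
theorem dlr_Jkill {J : Mat n} (hd : ∀ i, J i i = 0) (β κ s : ℝ) (z : Vec n) (ν : Cfg n → ℝ) :
    dlr (β • J - s • (J + κ • (1 : Mat n))) z ν = dlr ((β - s) • J) z ν := by
  unfold dlr
  refine Finset.sum_congr rfl fun x _ => ?_
  congr 1
  refine Finset.sum_congr rfl fun i _ => ?_
  congr 3
  have e1 : β • J - s • (J + κ • (1 : Mat n)) = (β - s) • J - (s * κ) • (1 : Mat n) := by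
    rw [smul_add, smul_smul, sub_smul]; abel
  rw [e1, Matrix.sub_mulVec, Matrix.smul_mulVec, Matrix.smul_mulVec, Matrix.one_mulVec]
  simp only [Pi.sub_apply, Pi.smul_apply, smul_eq_mul, Matrix.sub_apply, Matrix.smul_apply,
    Matrix.one_apply_eq, hd]
  ring

theorem symm_of_RRt {J : Mat n} {R : Matrix (Fin n) (Fin m) ℝ} {κ : ℝ}
    (hR : R * Rᵀ = J + κ • (1 : Mat n)) (i j : Fin n) : J i j = J j i := by
  have h1 : (R * Rᵀ) i j = (R * Rᵀ) j i := by
    rw [Matrix.mul_apply, Matrix.mul_apply]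
    exact Finset.sum_congr rfl fun k _ => by
      rw [Matrix.transpose_apply, Matrix.transpose_apply, mul_comm]
  rw [hR] at h1
  simp only [Matrix.add_apply, Matrix.smul_apply, Matrix.one_apply, smul_eq_mul,
    eq_comm (a := j) (b := i)] at h1
  linarith only [h1]

theorem symm_Jkill {J : Mat n} (hs : ∀ i j, J i j = J j i) (β κ s : ℝ) (i j : Fin n) :
    (β • J - s • (J + κ • (1 : Mat n))) i j = (β • J - s • (J + κ • (1 : Mat n))) j i := by
  simp only [Matrix.add_apply, Matrix.sub_apply, Matrix.smul_apply, Matrix.one_apply,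
    smul_eq_mul, eq_comm (a := j) (b := i)]
  rw [hs i j]

/-- the posterior of the Gibbs law along the `J`-killing path -/
theorem pst_gM_Jkill (J : Mat n) (β κ s : ℝ) (z : Vec n) :
    pst (gM (β • J) 0) (J + κ • (1 : Mat n)) s z
      = gM (β • J - s • (J + κ • (1 : Mat n))) z := by
  rw [thCHG, zero_add]

theorem abs_condMean_sub_tanh_sq {ν : Cfg n → ℝ} (hν : ∀ x, 0 ≤ ν x) (i : Fin n) (x : Cfg n)
    (a : ℝ) : (condMean ν i x - Real.tanh a) ^ 2 ≤ 4 := by
  have h1 : |condMean ν i x| ≤ 1 := by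
    unfold condMean
    have h1 := hν (Function.update x i true)
    have h2 := hν (Function.update x i false)
    rcases (add_nonneg h1 h2).eq_or_lt with h | h
    · rw [← h, div_zero, abs_zero]; norm_num
    · rw [abs_div, abs_of_pos h, div_le_one h, abs_le]
      constructor <;> linarith
  have h2 : |Real.tanh a| ≤ 1 := by
    have hc : 0 < Real.cosh a := Real.cosh_pos a
    have h1 := Real.exp_pos a
    have h2 := Real.exp_pos (-a)
    rw [← Real.cosh_add_sinh] at h1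
    rw [← Real.cosh_sub_sinh] at h2
    rw [Real.tanh_eq_sinh_div_cosh, abs_le]
    constructor
    · rw [le_div_iff₀ hc]; linarith
    · rw [div_le_iff₀ hc]; linarith
  have h3 : |condMean ν i x - Real.tanh a| ≤ 2 := (abs_sub _ _).trans (by linarith)
  rw [← sq_abs]
  linarith only [mul_nonneg (sub_nonneg.2 h3) (sub_nonneg.2 h3), mul_nonneg (sub_nonneg.2 h3) (sub_nonneg.2 (abs_nonneg (condMean ν i x - Real.tanh a)))]

theorem dlr_nonneg {ν : Cfg n → ℝ} (hν : ∀ x, 0 ≤ ν x) (M : Mat n) (y : Vec n) :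
    0 ≤ dlr M y ν :=
  Finset.sum_nonneg fun x _ => mul_nonneg (hν x) (Finset.sum_nonneg fun _ _ => sq_nonneg _)

theorem dlr_le {ν : Cfg n → ℝ} (hν : IsProb ν) (M : Mat n) (y : Vec n) : dlr M y ν ≤ 4 * n := by
  unfold dlr
  have h : ∀ x, ν x * ∑ i, (condMean ν i x
      - Real.tanh (M.mulVec (sv x) i - M i i * sv x i + y i)) ^ 2 ≤ ν x * (4 * n) := by
    intro x
    refine mul_le_mul_of_nonneg_left ?_ (hν.1 x)
    calc _ ≤ ∑ _i : Fin n, (4 : ℝ) :=
          Finset.sum_le_sum fun i _ => abs_condMean_sub_tanh_sq hν.1 i x _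
      _ = 4 * n := by simp; ring
  refine (Finset.sum_le_sum fun x _ => h x).trans (le_of_eq ?_)
  rw [← Finset.sum_mul, hν.2, one_mul]

theorem measurable_dlr_pst {ν : Cfg n → ℝ} (hν : IsProb ν) (M Q : Mat n) (δ : ℝ) :
    Measurable fun z => dlr M z (pst ν Q δ z) := by
  unfold dlr condMean
  have hp := measurable_pst hν Q δ
  refine Finset.measurable_fun_sum _ fun x _ => (hp x).mul ?_
  refine Finset.measurable_fun_sum _ fun i _ => Measurable.pow_const ?_ 2
  refine (((hp _).sub (hp _)).div ((hp _).add (hp _))).sub ?_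
  have ht : Measurable Real.tanh := by
    have : Real.tanh = fun a => Real.sinh a / Real.cosh a := by
      funext a; exact Real.tanh_eq_sinh_div_cosh a
    rw [this]
    exact Real.measurable_sinh.div Real.measurable_cosh
  exact ht.comp ((measurable_pi_apply i).const_add _)

/-- `I'` is between `0` and `n` -/
theorem IP'_bd {ν μ : Cfg n → ℝ} (hν : IsProb ν) (hμ : IsProb μ) (hp : ∀ x, 0 < μ x) :
    0 ≤ IP' ν μ ∧ IP' ν μ ≤ n := by
  set f : Cfg n → ℝ := fun x => ν x / μ x with hf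
  have hf0 : ∀ x, 0 ≤ f x := fun x => div_nonneg (hν.1 x) (hp x).le
  have hfm : ∀ x, μ x * f x = ν x := fun x => mul_div_cancel₀ _ (hp x).ne'
  have e : IP' ν μ = (1 / 2) * ∑ i, ∑ x, μ x * μ (flip x i) / (μ x + μ (flip x i)) *
      ((√(f (flip x i)) - √(f x)) * (√(f (flip x i)) - √(f x))) := rfl
  have hterm : ∀ (i : Fin n) (x : Cfg n), μ x * μ (flip x i) / (μ x + μ (flip x i)) *
      ((√(f (flip x i)) - √(f x)) * (√(f (flip x i)) - √(f x)))
      ≤ ν x + ν (flip x i) := by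
    intro i x
    have h0 := hμ.1 x
    have h1 := hμ.1 (flip x i)
    have hA := par_le_left h0 h1
    have hB : μ x * μ (flip x i) / (μ x + μ (flip x i)) ≤ μ (flip x i) := by
      have := par_le0 (t := 0) h0 h1
      linarith only [this]
    have hC := par_nonneg h0 h1
    set w := μ x * μ (flip x i) / (μ x + μ (flip x i))
    have s1 := Real.sqrt_nonneg (f x)
    have s2 := Real.sqrt_nonneg (f (flip x i))
    have q1 := Real.mul_self_sqrt (hf0 x)
    have q2 := Real.mul_self_sqrt (hf0 (flip x i))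
    have h3 : (√(f (flip x i)) - √(f x)) * (√(f (flip x i)) - √(f x))
        ≤ f x + f (flip x i) := by linarith only [q1, q2, mul_nonneg s1 s2]
    calc w * ((√(f (flip x i)) - √(f x)) * (√(f (flip x i)) - √(f x)))
        ≤ w * (f x + f (flip x i)) := mul_le_mul_of_nonneg_left h3 hC
      _ = w * f x + w * f (flip x i) := by ring
      _ ≤ μ x * f x + μ (flip x i) * f (flip x i) :=
          add_le_add (mul_le_mul_of_nonneg_right hA (hf0 _))
            (mul_le_mul_of_nonneg_right hB (hf0 _))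
      _ = ν x + ν (flip x i) := by rw [hfm, hfm]
  constructor
  · rw [e]
    refine mul_nonneg (by norm_num) (Finset.sum_nonneg fun i _ => Finset.sum_nonneg fun x _ => ?_)
    exact mul_nonneg (par_nonneg (hμ.1 _) (hμ.1 _)) (mul_self_nonneg _)
  · rw [e]
    have h1 := Finset.sum_le_sum fun i (_ : i ∈ (Finset.univ : Finset (Fin n))) =>
      Finset.sum_le_sum fun x (_ : x ∈ (Finset.univ : Finset (Cfg n))) => hterm i x
    have h2 : ∑ i : Fin n, ∑ x, (ν x + ν (flip x i)) = 2 * n := by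
      simp_rw [Finset.sum_add_distrib]
      have : ∀ i : Fin n, ∑ x, ν (flip x i) = 1 := fun i => by
        rw [sum_flip i (fun x => ν x), hν.2]
      simp_rw [this, hν.2]
      simp
      ring
    linarith only [h1, h2]

theorem measurable_IP'_pst {ν μ : Cfg n → ℝ} (hν : IsProb ν) (hμ : IsProb μ) (Q : Mat n)
    (δ : ℝ) : Measurable fun z => IP' (pst ν Q δ z) (pst μ Q δ z) := by
  unfold IP' DirW
  have hpν := measurable_pst hν Q δ
  have hpμ := measurable_pst hμ Q δ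
  refine Measurable.const_mul ?_ _
  refine Finset.measurable_fun_sum _ fun i _ => Finset.measurable_fun_sum _ fun x _ => ?_
  have hs : ∀ x, Measurable fun z => √(pst ν Q δ z x / pst μ Q δ z x) := fun x =>
    Real.continuous_sqrt.measurable.comp ((hpν x).div (hpμ x))
  exact (((hpμ _).mul (hpμ _)).div ((hpμ _).add (hpμ _))).mul
    (((hs _).sub (hs _)).mul ((hs _).sub (hs _)))

/-- **(B)**: the mean DLR defect of the posteriors along the `J`-killing path -/
theorem dlr_path {β κ : ℝ} {J : Mat n} (hd : ∀ i, J i i = 0)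
    {R : Matrix (Fin n) (Fin m) ℝ} (hR : R * Rᵀ = J + κ • (1 : Mat n)) {s : ℝ} (hs : 0 ≤ s)
    {ν : Cfg n → ℝ} (hν : IsProb ν) (hp : ∀ x, 0 < ν x) :
    EC ν R s (fun _ z => dlr ((β - s) • J) z (pst ν (R * Rᵀ) s z))
      ≤ 4 * IP' ν (gM (β • J) 0) := by
  have hμ : IsProb (gM (β • J) 0) := by
    have hZ : 0 < ∑ x' : Cfg n, Real.exp (qf (β • J) (sv x') / 2 + ip 0 (sv x')) :=
      Finset.sum_pos (fun _ _ => Real.exp_pos _) Finset.univ_nonempty
    refine ⟨fun x => (div_pos (Real.exp_pos _) hZ).le, ?_⟩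
    unfold gM
    rw [← Finset.sum_div, div_self hZ.ne']
  have hμp : ∀ x, 0 < gM (β • J) 0 x := fun x =>
    div_pos (Real.exp_pos _) (Finset.sum_pos (fun _ _ => Real.exp_pos _) Finset.univ_nonempty)
  have hle : ∀ z, dlr ((β - s) • J) z (pst ν (R * Rᵀ) s z)
      ≤ 4 * IP' (pst ν (R * Rᵀ) s z) (pst (gM (β • J) 0) (R * Rᵀ) s z) := by
    intro z
    have h1 := thCH5d n (β • J - s • (J + κ • (1 : Mat n))) z (symm_Jkill (symm_of_RRt hR) β κ s)
      (pst ν (R * Rᵀ) s z) (pst_isProb hν _ _ _) (pst_pos hν hp _ _ _)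
    rw [dlr_Jkill hd, ← pst_gM_Jkill, ← hR] at h1
    exact h1
  have h2 := EC_mono hν.1 R s (Φ := fun _ z => dlr ((β - s) • J) z (pst ν (R * Rᵀ) s z))
    (Ψ := fun _ z => 4 * IP' (pst ν (R * Rᵀ) s z) (pst (gM (β • J) 0) (R * Rᵀ) s z))
    (fun x => integrable_obs_bdd R hs x (measurable_dlr_pst hν _ _ _) (C := 4 * n) fun z => by
      rw [abs_of_nonneg (dlr_nonneg (pst_isProb hν _ _ _).1 _ _)]
      exact dlr_le (pst_isProb hν _ _ _) _ _)
    (fun x => (integrable_obs_bdd R hs x (measurable_IP'_pst hν hμ _ _) (C := n) fun z => by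
      obtain ⟨h3, h4⟩ := IP'_bd (pst_isProb hν (R * Rᵀ) s z) (pst_isProb hμ (R * Rᵀ) s z)
        (pst_pos hμ hμp (R * Rᵀ) s z)
      rw [abs_of_nonneg h3]
      exact h4).const_mul 4)
    (fun _ z => hle z)
  refine h2.trans ?_
  rw [EC_const_mul]
  exact mul_le_mul_of_nonneg_left (thCH5b n m R s hs ν _ hν hμ hμp) (by norm_num)

end Vale.Agent.P150.F.DM
end

section

/-! Joint laws of (spins, noise): toolbox, Cameron-Martin change of variables, lifting of
per-label statements. -/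

open MeasureTheory ProbabilityTheory Filter Topology Real
open scoped Matrix

namespace Vale.Agent.P150.F.D3

variable {n m : ℕ}

/-! ### The expectation `EJ` -/

/-- integrability under the joint weights -/
def JI (w Φ : Cfg n → (Fin m → ℝ) → ℝ) : Prop :=
  ∀ x, Integrable (fun ξ => w x ξ * Φ x ξ) (gpi (Fin m))

variable {w : Cfg n → (Fin m → ℝ) → ℝ}

lemma JI.of_bdd (hw : JL w) {Φ : Cfg n → (Fin m → ℝ) → ℝ} (hΦ : ∀ x, Measurable (Φ x)) {C : ℝ}
    (hC : ∀ x ξ, |Φ x ξ| ≤ C) : JI w Φ := by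
  intro x
  refine Integrable.mono' ((hw.int x).mul_const C)
    ((hw.meas x).mul (hΦ x)).aestronglyMeasurable (ae_of_all _ fun ξ => ?_)
  rw [Real.norm_eq_abs, abs_mul, abs_of_nonneg (hw.nonneg x ξ)]
  exact mul_le_mul_of_nonneg_left (hC x ξ) (hw.nonneg x ξ)

lemma JI.const (hw : JL w) (c : ℝ) : JI w (fun _ _ => c) := fun x => (hw.int x).mul_const c

lemma JI.add {Φ Ψ : Cfg n → (Fin m → ℝ) → ℝ} (hΦ : JI w Φ) (hΨ : JI w Ψ) :
    JI w (fun x ξ => Φ x ξ + Ψ x ξ) := by
  intro x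
  have := (hΦ x).add (hΨ x)
  refine this.congr (ae_of_all _ fun ξ => ?_)
  simp only [Pi.add_apply]
  ring

lemma JI.sub {Φ Ψ : Cfg n → (Fin m → ℝ) → ℝ} (hΦ : JI w Φ) (hΨ : JI w Ψ) :
    JI w (fun x ξ => Φ x ξ - Ψ x ξ) := by
  intro x
  have := (hΦ x).sub (hΨ x)
  refine this.congr (ae_of_all _ fun ξ => ?_)
  simp only [Pi.sub_apply]
  ring

lemma JI.cmul {Φ : Cfg n → (Fin m → ℝ) → ℝ} (hΦ : JI w Φ) (c : ℝ) :
    JI w (fun x ξ => c * Φ x ξ) := by
  intro x
  refine ((hΦ x).const_mul c).congr (ae_of_all _ fun ξ => ?_)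
  simp only
  ring

lemma JI.abs (hw : JL w) {Φ : Cfg n → (Fin m → ℝ) → ℝ} (hΦ : JI w Φ) :
    JI w (fun x ξ => |Φ x ξ|) := by
  intro x
  refine (hΦ x).norm.congr (ae_of_all _ fun ξ => ?_)
  simp only
  rw [Real.norm_eq_abs, abs_mul, abs_of_nonneg (hw.nonneg x ξ)]

lemma EJ_add {Φ Ψ : Cfg n → (Fin m → ℝ) → ℝ} (hΦ : JI w Φ) (hΨ : JI w Ψ) :
    EJ w (fun x ξ => Φ x ξ + Ψ x ξ) = EJ w Φ + EJ w Ψ := by
  unfold EJ
  rw [← Finset.sum_add_distrib]
  refine Finset.sum_congr rfl fun x _ => ?_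
  rw [← integral_add (hΦ x) (hΨ x)]
  exact integral_congr_ae (ae_of_all _ fun ξ => by ring)

lemma EJ_sub {Φ Ψ : Cfg n → (Fin m → ℝ) → ℝ} (hΦ : JI w Φ) (hΨ : JI w Ψ) :
    EJ w (fun x ξ => Φ x ξ - Ψ x ξ) = EJ w Φ - EJ w Ψ := by
  unfold EJ
  rw [← Finset.sum_sub_distrib]
  refine Finset.sum_congr rfl fun x _ => ?_
  rw [← integral_sub (hΦ x) (hΨ x)]
  exact integral_congr_ae (ae_of_all _ fun ξ => by ring)

lemma EJ_cmul (w Φ : Cfg n → (Fin m → ℝ) → ℝ) (c : ℝ) :
    EJ w (fun x ξ => c * Φ x ξ) = c * EJ w Φ := by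
  unfold EJ
  rw [Finset.mul_sum]
  refine Finset.sum_congr rfl fun x _ => ?_
  rw [← integral_const_mul]
  exact integral_congr_ae (ae_of_all _ fun ξ => by ring)

lemma EJ_neg (w Φ : Cfg n → (Fin m → ℝ) → ℝ) :
    EJ w (fun x ξ => -Φ x ξ) = -EJ w Φ := by
  have h := EJ_cmul w Φ (-1)
  simpa using h

lemma EJ_const (hw : JL w) (c : ℝ) : EJ w (fun _ _ => c) = c := by
  unfold EJ
  have : ∀ x, ∫ ξ, w x ξ * c ∂(gpi (Fin m)) = (∫ ξ, w x ξ ∂(gpi (Fin m))) * c := fun x =>
    integral_mul_const c _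
  simp_rw [this]
  rw [← Finset.sum_mul, hw.one, one_mul]

lemma EJ_congr {Φ Ψ : Cfg n → (Fin m → ℝ) → ℝ} (h : ∀ x ξ, Φ x ξ = Ψ x ξ) : EJ w Φ = EJ w Ψ := by
  have : Φ = Ψ := by funext x ξ; exact h x ξ
  rw [this]

lemma EJ_mono (hw : JL w) {Φ Ψ : Cfg n → (Fin m → ℝ) → ℝ} (hΦ : JI w Φ) (hΨ : JI w Ψ)
    (h : ∀ x ξ, Φ x ξ ≤ Ψ x ξ) : EJ w Φ ≤ EJ w Ψ :=
  Finset.sum_le_sum fun x _ => integral_mono (hΦ x) (hΨ x) fun ξ =>
    mul_le_mul_of_nonneg_left (h x ξ) (hw.nonneg x ξ)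

/-- monotonicity without integrability of the smaller (nonnegative) function -/
lemma EJ_mono_nonneg (hw : JL w) {Φ Ψ : Cfg n → (Fin m → ℝ) → ℝ} (hΨ : JI w Ψ)
    (h0 : ∀ x ξ, 0 ≤ Φ x ξ) (h : ∀ x ξ, Φ x ξ ≤ Ψ x ξ) : EJ w Φ ≤ EJ w Ψ :=
  Finset.sum_le_sum fun x _ => integral_mono_of_nonneg
    (ae_of_all _ fun ξ => mul_nonneg (hw.nonneg x ξ) (h0 x ξ)) (hΨ x)
    (ae_of_all _ fun ξ => mul_le_mul_of_nonneg_left (h x ξ) (hw.nonneg x ξ))

lemma EJ_nonneg (hw : JL w) {Φ : Cfg n → (Fin m → ℝ) → ℝ} (h : ∀ x ξ, 0 ≤ Φ x ξ) :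
    0 ≤ EJ w Φ :=
  Finset.sum_nonneg fun x _ => integral_nonneg fun ξ => mul_nonneg (hw.nonneg x ξ) (h x ξ)

lemma EJ_le_of_le (hw : JL w) {Φ : Cfg n → (Fin m → ℝ) → ℝ} {C : ℝ} (hC0 : 0 ≤ C)
    (hC : ∀ x ξ, Φ x ξ ≤ C) : EJ w Φ ≤ C := by
  by_cases hI : JI w Φ
  · have h := EJ_mono hw hI (JI.const hw C) hC
    rwa [EJ_const hw] at h
  · -- termwise
    unfold EJ
    have h1 : ∀ x, ∫ ξ, w x ξ * Φ x ξ ∂(gpi (Fin m)) ≤ (∫ ξ, w x ξ ∂(gpi (Fin m))) * C := by
      intro x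
      rw [← integral_mul_const]
      by_cases hx : Integrable (fun ξ => w x ξ * Φ x ξ) (gpi (Fin m))
      · exact integral_mono hx ((hw.int x).mul_const C) fun ξ =>
          mul_le_mul_of_nonneg_left (hC x ξ) (hw.nonneg x ξ)
      · rw [integral_undef hx]
        exact integral_nonneg fun ξ => mul_nonneg (hw.nonneg x ξ) hC0
    refine (Finset.sum_le_sum fun x _ => h1 x).trans ?_
    rw [← Finset.sum_mul, hw.one, one_mul]

/-- Jensen / Cauchy-Schwarz -/
lemma EJ_le_sqrt (hw : JL w) {Φ : Cfg n → (Fin m → ℝ) → ℝ} (hΦ : JI w Φ)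
    (hΦ2 : JI w (fun x ξ => Φ x ξ ^ 2)) : EJ w Φ ≤ √(EJ w (fun x ξ => Φ x ξ ^ 2)) := by
  apply Real.le_sqrt_of_sq_le
  have h1 : 0 ≤ EJ w (fun x ξ => (Φ x ξ - EJ w Φ) ^ 2) := EJ_nonneg hw fun x ξ => sq_nonneg _
  have h2 : EJ w (fun x ξ => (Φ x ξ - EJ w Φ) ^ 2)
      = EJ w (fun x ξ => Φ x ξ ^ 2) - EJ w Φ ^ 2 := by
    have h3 : EJ w (fun x ξ => (Φ x ξ - EJ w Φ) ^ 2) =
        EJ w (fun x ξ => (Φ x ξ ^ 2 - 2 * EJ w Φ * Φ x ξ) + EJ w Φ ^ 2) :=
      EJ_congr fun x ξ => by ring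
    rw [h3, EJ_add (hΦ2.sub (hΦ.cmul _)) (JI.const hw _), EJ_sub hΦ2 (hΦ.cmul _), EJ_cmul,
      EJ_const hw]
    ring
  linarith only [h2, h1]

/-- exchange of sum and integral -/
lemma EJ_eq_integral {Φ : Cfg n → (Fin m → ℝ) → ℝ} (hΦ : JI w Φ) :
    EJ w Φ = ∫ ξ, (∑ x, w x ξ * Φ x ξ) ∂(gpi (Fin m)) := by
  unfold EJ
  rw [integral_finsetSum _ fun x _ => hΦ x]

/-! ### Product laws -/

/-- product weights -/
def pw (m : ℕ) (ν : Cfg n → ℝ) : Cfg n → (Fin m → ℝ) → ℝ := fun x _ => ν x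

lemma JL.pw {ν : Cfg n → ℝ} (hν : IsProb ν) : JL (pw m ν) where
  nonneg := fun x _ => hν.1 x
  meas := fun _ => measurable_const
  int := fun _ => integrable_const _
  one := by simp [D3.pw, hν.2]

lemma EJ_pw (ν : Cfg n → ℝ) (Φ : Cfg n → (Fin m → ℝ) → ℝ) :
    EJ (pw m ν) Φ = ∑ x, ν x * ∫ ξ, Φ x ξ ∂(gpi (Fin m)) := by
  unfold EJ pw
  refine Finset.sum_congr rfl fun x _ => ?_
  rw [integral_const_mul]

/-! ### Cameron-Martin -/

variable (R : Matrix (Fin n) (Fin m) ℝ)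

lemma bsh_eq (s : ℝ) (x : Cfg n) (ξ : Fin m → ℝ) : bsh R s x ξ = ξ - √s • chv R x := rfl

lemma exp_eq_lk (s : ℝ) (x : Cfg n) (ξ : Fin m → ℝ) :
    Real.exp (√s * ip (R.mulVec ξ) (sv x) - s / 2 * qf (R * Rᵀ) (sv x)) = lk s (chv R x) ξ := by
  rw [← lk_eq]
  congr 2
  unfold ip lb
  rw [Finset.mul_sum]
  exact Finset.sum_congr rfl fun i _ => by ring

lemma shw_eq (s : ℝ) (w : Cfg n → (Fin m → ℝ) → ℝ) (x : Cfg n) (ξ : Fin m → ℝ) :
    shw R s w x ξ = w x (ξ - √s • chv R x) * lk s (chv R x) ξ := by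
  unfold shw
  rw [exp_eq_lk]
  rfl

lemma integral_shift {s : ℝ} (hs : 0 ≤ s) (x : Cfg n) (F : (Fin m → ℝ) → ℝ) :
    ∫ ξ, F ξ ∂(gpi (Fin m)) = ∫ ξ, F (ξ - √s • chv R x) * lk s (chv R x) ξ ∂(gpi (Fin m)) := by
  rw [gpi_eq_gsn]
  have h := integral_lk hs (chv R x) (fun g => F (g - √s • chv R x))
  simp only [add_sub_cancel_right] at h
  rw [← h]
  exact integral_congr_ae (ae_of_all _ fun ξ => mul_comm _ _)

lemma integrable_shift {s : ℝ} (hs : 0 ≤ s) (x : Cfg n) (F : (Fin m → ℝ) → ℝ) :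
    Integrable F (gpi (Fin m)) ↔
      Integrable (fun ξ => F (ξ - √s • chv R x) * lk s (chv R x) ξ) (gpi (Fin m)) := by
  rw [gpi_eq_gsn, P245.integrable_gam_iff, P245.integrable_gam_iff]
  set a := √s • chv R x with ha
  have h1 : Integrable (fun z => P245.gd z * F z)
      ↔ Integrable (fun z => P245.gd (z - a) * F (z - a)) := by
    constructor
    · intro h
      exact h.comp_sub_right a
    · intro h
      have := h.comp_add_right a
      simpa using this
  rw [h1]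
  apply integrable_congr
  refine Eventually.of_forall fun z => ?_
  simp only
  have : P245.gd (z - a) = P245.gd z * lk s (chv R x) z := by
    rw [lk_shift hs, P245.gd_eq, P245.gd_eq, mul_assoc, ← Real.exp_add]
    congr 2
    simp only [Pi.sub_apply, ← ha]
    rw [← sub_eq_zero]
    have e : ∑ i, (z i - a i) ^ 2 = ∑ i, z i ^ 2 - 2 * ∑ i, a i * z i + ∑ i, a i ^ 2 := by
      rw [Finset.mul_sum, ← Finset.sum_sub_distrib, ← Finset.sum_add_distrib]
      apply Finset.sum_congr rfl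
      intro i _; ring
    rw [e]; ring
  rw [this]; ring

lemma JL.shw {s : ℝ} (hs : 0 ≤ s) (hw : JL w) : JL (shw R s w) where
  nonneg := fun x ξ => mul_nonneg (hw.nonneg x _) (Real.exp_pos _).le
  meas := fun x => by
    have e : D3.shw R s w x = fun ξ => w x (ξ - √s • chv R x) * lk s (chv R x) ξ := by
      funext ξ
      exact shw_eq R s w x ξ
    rw [e]
    exact ((hw.meas x).comp (measurable_id.sub_const _)).mul (continuous_lk _ _).measurable
  int := fun x => by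
    have e : D3.shw R s w x = fun ξ => w x (ξ - √s • chv R x) * lk s (chv R x) ξ := by
      funext ξ
      exact shw_eq R s w x ξ
    rw [e]
    exact (integrable_shift R hs x (w x)).1 (hw.int x)
  one := by
    have h : ∀ x, ∫ ξ, D3.shw R s w x ξ ∂(gpi (Fin m)) = ∫ ξ, w x ξ ∂(gpi (Fin m)) := by
      intro x
      rw [integral_shift R hs x (w x)]
      exact integral_congr_ae (ae_of_all _ fun ξ => shw_eq R s w x ξ)
    simp_rw [h]
    exact hw.one

/-- **Cameron-Martin**: expectation in terms of the shifted noise `ξ' = ξ + √s Rᵀσ` -/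
lemma EJ_shift {s : ℝ} (hs : 0 ≤ s) (Φ : Cfg n → (Fin m → ℝ) → ℝ) :
    EJ w Φ = EJ (D3.shw R s w) (fun x ξ => Φ x (bsh R s x ξ)) := by
  unfold EJ
  refine Finset.sum_congr rfl fun x _ => ?_
  rw [integral_shift R hs x (fun ξ => w x ξ * Φ x ξ)]
  refine integral_congr_ae (ae_of_all _ fun ξ => ?_)
  simp only
  rw [shw_eq, ← bsh_eq]
  ring

/-- the field in terms of the shifted noise -/
lemma obs_bsh {s : ℝ} (hs : 0 ≤ s) (x : Cfg n) (ξ : Fin m → ℝ) :
    obs R s x (bsh R s x ξ) = √s • R.mulVec ξ := by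
  rw [Vale.Agent.P150.F.obs_eq R hs, bsh_eq, sub_add_cancel]
  rfl

/-- functions of `(x, y_s)` -/
lemma EJ_obs {s : ℝ} (hs : 0 ≤ s) (Φ : Cfg n → Vec n → ℝ) :
    EJ w (fun x ξ => Φ x (obs R s x ξ)) = EJ (D3.shw R s w) (fun x ξ => Φ x (√s • R.mulVec ξ)) := by
  rw [EJ_shift R hs]
  exact EJ_congr fun x ξ => by rw [obs_bsh R hs]

/-! ### Lifting per-label statements -/

lemma condMean_smul (ν : Cfg n → ℝ) {c : ℝ} (hc : c ≠ 0) (i : Fin n) (x : Cfg n) :
    condMean (fun x => c * ν x) i x = condMean ν i x := by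
  unfold condMean
  rw [← mul_sub, ← mul_add, mul_div_mul_left _ _ hc]

lemma dlr_smul (M : Mat n) (y : Vec n) (ν : Cfg n → ℝ) {c : ℝ} (hc : c ≠ 0) :
    dlr M y (fun x => c * ν x) = c * dlr M y ν := by
  unfold dlr
  simp_rw [condMean_smul ν hc]
  rw [Finset.mul_sum]
  exact Finset.sum_congr rfl fun x _ => by ring

lemma abs_condMean_le {ν : Cfg n → ℝ} (h : ∀ x, 0 ≤ ν x) (i : Fin n) (x : Cfg n) :
    |condMean ν i x| ≤ 1 := by
  unfold condMean
  have ha := h (Function.update x i true)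
  have hb := h (Function.update x i false)
  rw [abs_div, abs_of_nonneg (add_nonneg ha hb)]
  refine div_le_one_of_le₀ ?_ (add_nonneg ha hb)
  rw [abs_le]
  constructor <;> linarith

lemma dlr_nonneg {M : Mat n} {y : Vec n} {ν : Cfg n → ℝ} (h : ∀ x, 0 ≤ ν x) : 0 ≤ dlr M y ν :=
  Finset.sum_nonneg fun x _ => mul_nonneg (h x) (Finset.sum_nonneg fun i _ => sq_nonneg _)

lemma dlr_le (M : Mat n) (y : Vec n) {ν : Cfg n → ℝ} (h : ∀ x, 0 ≤ ν x) :
    dlr M y ν ≤ 4 * n * ∑ x, ν x := by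
  unfold dlr
  rw [Finset.mul_sum]
  refine Finset.sum_le_sum fun x _ => ?_
  rw [mul_comm]
  refine mul_le_mul_of_nonneg_right ?_ (h x)
  calc ∑ i, (condMean ν i x - Real.tanh (M.mulVec (sv x) i - M i i * sv x i + y i)) ^ 2
      ≤ ∑ _ : Fin n, (4 : ℝ) := by
        refine Finset.sum_le_sum fun i _ => ?_
        have h1 := abs_le.1 (abs_condMean_le h i x)
        have h2 := abs_lt.1 (Real.abs_tanh_lt_one (M.mulVec (sv x) i - M i i * sv x i + y i))
        nlinarith [h1.1, h1.2, h2.1, h2.2]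
    _ = 4 * n := by simp [mul_comm]

lemma continuous_tanh' : Continuous Real.tanh := by
  have h : Real.tanh = fun x => Real.sinh x / Real.cosh x := by
    funext x
    exact Real.tanh_eq_sinh_div_cosh x
  rw [h]
  exact Real.continuous_sinh.div Real.continuous_cosh fun x => (Real.cosh_pos x).ne'

lemma measurable_dlr {W : Cfg n → (Fin m → ℝ) → ℝ} (hW : ∀ x, Measurable (W x)) (M : Mat n)
    {y : (Fin m → ℝ) → Vec n} (hy : Measurable y) :
    Measurable fun ξ => dlr M (y ξ) (fun x => W x ξ) := by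
  unfold dlr condMean
  refine Finset.measurable_fun_sum _ fun x _ => ?_
  refine (hW x).mul (Finset.measurable_fun_sum _ fun i _ => ?_)
  refine Measurable.pow_const ?_ 2
  refine Measurable.sub (Measurable.div ((hW _).sub (hW _)) ((hW _).add (hW _))) ?_
  have h1 : Measurable fun ξ => y ξ i := (measurable_pi_apply i).comp hy
  exact continuous_tanh'.measurable.comp (h1.const_add _)

/-- Lifting of a per-label statement to the joint law, with absolute values per label. -/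
theorem lift_abs {W : Cfg n → (Fin m → ℝ) → ℝ} (hW : JL W) (M : Mat n)
    {y : (Fin m → ℝ) → Vec n} (hy : Measurable y) {η η' ε C : ℝ} (hn : 0 < n) (hη : 0 < η)
    (hε : 0 ≤ ε) (hC : 0 ≤ C) {Φ : Cfg n → (Fin m → ℝ) → ℝ} (hb : ∀ x ξ, |Φ x ξ| ≤ C)
    (h : ∀ ξ, ∀ ν : Cfg n → ℝ, IsProb ν → dlr M (y ξ) ν ≤ η * n →
      |Ex ν (fun x => Φ x ξ)| ≤ ε)
    (hJ : ∫ ξ, dlr M (y ξ) (fun x => W x ξ) ∂(gpi (Fin m)) ≤ η' * n) :
    ∫ ξ, |∑ x, W x ξ * Φ x ξ| ∂(gpi (Fin m)) ≤ ε + C * (η' / η) := by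
  have hn' : (0 : ℝ) < n := by exact_mod_cast hn
  set D : (Fin m → ℝ) → ℝ := fun ξ => dlr M (y ξ) (fun x => W x ξ) with hD
  set T : (Fin m → ℝ) → ℝ := fun ξ => ∑ x, W x ξ with hT
  have hTI : Integrable T (gpi (Fin m)) := integrable_finsetSum _ fun x _ => hW.int x
  have hT1 : ∫ ξ, T ξ ∂(gpi (Fin m)) = 1 := by
    rw [hT, integral_finsetSum _ fun x _ => hW.int x]
    exact hW.one
  have hD0 : ∀ ξ, 0 ≤ D ξ := fun ξ => dlr_nonneg fun x => hW.nonneg x ξ
  have hDI : Integrable D (gpi (Fin m)) := by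
    refine Integrable.mono' (hTI.const_mul (4 * n))
      (measurable_dlr hW.meas M hy).aestronglyMeasurable (ae_of_all _ fun ξ => ?_)
    rw [Real.norm_eq_abs, abs_of_nonneg (hD0 ξ)]
    exact dlr_le M (y ξ) fun x => hW.nonneg x ξ
  have key : ∀ ξ, |∑ x, W x ξ * Φ x ξ| ≤ ε * T ξ + C / (η * n) * D ξ := by
    intro ξ
    have hT0 : 0 ≤ T ξ := Finset.sum_nonneg fun x _ => hW.nonneg x ξ
    rcases hT0.eq_or_lt with h0 | hpos
    · have hz : ∀ x, W x ξ = 0 := by
        intro x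
        have := (Finset.sum_eq_zero_iff_of_nonneg fun x _ => hW.nonneg x ξ).1 h0.symm
        exact this x (Finset.mem_univ x)
      have e1 : ∑ x, W x ξ * Φ x ξ = 0 := Finset.sum_eq_zero fun x _ => by rw [hz x, zero_mul]
      rw [e1, abs_zero]
      have := hD0 ξ
      (clear * - hε hT0 hC hη hn this; positivity)
    · set ν : Cfg n → ℝ := fun x => (T ξ)⁻¹ * W x ξ with hν
      have hνP : IsProb ν := by
        refine ⟨fun x => mul_nonneg (inv_nonneg.2 hT0) (hW.nonneg x ξ), ?_⟩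
        rw [hν, ← Finset.mul_sum]
        exact inv_mul_cancel₀ hpos.ne'
      have hdν : dlr M (y ξ) ν = (T ξ)⁻¹ * D ξ := dlr_smul M (y ξ) _ (inv_pos.2 hpos).ne'
      have hEx : ∑ x, W x ξ * Φ x ξ = T ξ * Ex ν (fun x => Φ x ξ) := by
        unfold Ex
        rw [Finset.mul_sum]
        refine Finset.sum_congr rfl fun x _ => ?_
        rw [hν]
        field_simp
      rw [hEx, abs_mul, abs_of_pos hpos]
      have hDn : 0 ≤ C / (η * n) * D ξ := by
        have := hD0 ξ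
        (clear * - hC hη hn this; positivity)
      by_cases hd : dlr M (y ξ) ν ≤ η * n
      · have := h ξ ν hνP hd
        have h2 : T ξ * |Ex ν (fun x => Φ x ξ)| ≤ T ξ * ε := mul_le_mul_of_nonneg_left this hpos.le
        linarith only [h2, hDn]
      · rw [not_le, hdν] at hd
        have h1 : |Ex ν (fun x => Φ x ξ)| ≤ C := by
          unfold Ex
          refine (Finset.abs_sum_le_sum_abs _ _).trans ?_
          calc ∑ x, |ν x * Φ x ξ| ≤ ∑ x, ν x * C := by
                refine Finset.sum_le_sum fun x _ => ?_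
                rw [abs_mul, abs_of_nonneg (hνP.1 x)]
                exact mul_le_mul_of_nonneg_left (hb x ξ) (hνP.1 x)
            _ = C := by rw [← Finset.sum_mul, hνP.2, one_mul]
        have h2 : T ξ ≤ D ξ / (η * n) := by
          rw [le_div_iff₀ (by positivity)]
          have h6 := mul_lt_mul_of_pos_left hd hpos
          have h7 : T ξ * ((T ξ)⁻¹ * D ξ) = D ξ := by
            rw [← mul_assoc, mul_inv_cancel₀ hpos.ne', one_mul]
          rw [h7] at h6
          exact h6.le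
        have h3 : T ξ * |Ex ν (fun x => Φ x ξ)| ≤ D ξ / (η * n) * C :=
          mul_le_mul h2 h1 (abs_nonneg _) (div_nonneg (hD0 ξ) (by positivity))
        have h4 : D ξ / (η * n) * C = C / (η * n) * D ξ := by ring
        have h5 : 0 ≤ ε * T ξ := mul_nonneg hε hpos.le
        linarith only [h5, h4, h3]
  calc ∫ ξ, |∑ x, W x ξ * Φ x ξ| ∂gpi (Fin m)
      ≤ ∫ ξ, (ε * T ξ + C / (η * n) * D ξ) ∂gpi (Fin m) := by
        refine integral_mono_of_nonneg (ae_of_all _ fun ξ => abs_nonneg _)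
          ((hTI.const_mul _).add (hDI.const_mul _)) (ae_of_all _ key)
    _ = ε * 1 + C / (η * n) * ∫ ξ, D ξ ∂gpi (Fin m) := by
        rw [integral_add (hTI.const_mul _) (hDI.const_mul _), integral_const_mul,
          integral_const_mul, hT1]
    _ ≤ ε * 1 + C / (η * n) * (η' * n) := by
        have : 0 ≤ C / (η * n) := by (clear * - hC hη hn; positivity)
        gcongr
    _ = ε + C * (η' / η) := by
        field_simp

/-- Lifting of a per-label statement to the joint law. -/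
theorem lift {W : Cfg n → (Fin m → ℝ) → ℝ} (hW : JL W) (M : Mat n)
    {y : (Fin m → ℝ) → Vec n} (hy : Measurable y) {η η' ε C : ℝ} (hn : 0 < n) (hη : 0 < η)
    (hε : 0 ≤ ε) (hC : 0 ≤ C) {Φ : Cfg n → (Fin m → ℝ) → ℝ} (hΦ : ∀ x, Measurable (Φ x))
    (hb : ∀ x ξ, |Φ x ξ| ≤ C)
    (h : ∀ ξ, ∀ ν : Cfg n → ℝ, IsProb ν → dlr M (y ξ) ν ≤ η * n →
      |Ex ν (fun x => Φ x ξ)| ≤ ε)
    (hJ : ∫ ξ, dlr M (y ξ) (fun x => W x ξ) ∂(gpi (Fin m)) ≤ η' * n) :
    |EJ W Φ| ≤ ε + C * (η' / η) := by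
  rw [EJ_eq_integral (JI.of_bdd hW hΦ hb)]
  exact abs_integral_le_integral_abs.trans (lift_abs hW M hy hn hη hε hC hb h hJ)

/-! ### (J1) and (J2) for product laws -/

lemma IP'_term_le {ν μ : Cfg n → ℝ} (hν : ∀ x, 0 ≤ ν x) (hμ : ∀ x, 0 < μ x) (i : Fin n)
    (x : Cfg n) :
    0 ≤ μ x * μ (flip x i) / (μ x + μ (flip x i)) *
        ((√(ν (flip x i) / μ (flip x i)) - √(ν x / μ x)) *
          (√(ν (flip x i) / μ (flip x i)) - √(ν x / μ x))) ∧
    μ x * μ (flip x i) / (μ x + μ (flip x i)) *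
        ((√(ν (flip x i) / μ (flip x i)) - √(ν x / μ x)) *
          (√(ν (flip x i) / μ (flip x i)) - √(ν x / μ x))) ≤ ν x + ν (flip x i) := by
  set f : Cfg n → ℝ := fun x => ν x / μ x with hf
  have hf0 : ∀ x, 0 ≤ f x := fun x => div_nonneg (hν x) (hμ x).le
  have h0 := (hμ x).le
  have h1 := (hμ (flip x i)).le
  have hA := par_le_left h0 h1
  have hB : μ x * μ (flip x i) / (μ x + μ (flip x i)) ≤ μ (flip x i) := by
    have := par_le0 (t := 0) h0 h1
    linarith only [this]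
  have hC := par_nonneg h0 h1
  refine ⟨mul_nonneg hC (mul_self_nonneg _), ?_⟩
  have e1 : μ x * f x = ν x := by rw [hf]; exact mul_div_cancel₀ _ (hμ x).ne'
  have e2 : μ (flip x i) * f (flip x i) = ν (flip x i) := by
    rw [hf]; exact mul_div_cancel₀ _ (hμ _).ne'
  set w := μ x * μ (flip x i) / (μ x + μ (flip x i))
  have s1 := Real.sqrt_nonneg (f x)
  have s2 := Real.sqrt_nonneg (f (flip x i))
  have q1 := Real.mul_self_sqrt (hf0 x)
  have q2 := Real.mul_self_sqrt (hf0 (flip x i))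
  have h3 : (√(f (flip x i)) - √(f x)) * (√(f (flip x i)) - √(f x))
      ≤ f x + f (flip x i) := by linarith only [q1, q2, mul_nonneg s1 s2]
  calc w * ((√(f (flip x i)) - √(f x)) * (√(f (flip x i)) - √(f x)))
      ≤ w * (f x + f (flip x i)) := mul_le_mul_of_nonneg_left h3 hC
    _ = w * f x + w * f (flip x i) := by ring
    _ ≤ μ x * f x + μ (flip x i) * f (flip x i) :=
        add_le_add (mul_le_mul_of_nonneg_right hA (hf0 _))
          (mul_le_mul_of_nonneg_right hB (hf0 _))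
    _ = ν x + ν (flip x i) := by rw [e1, e2]

lemma IP'_nonneg {ν μ : Cfg n → ℝ} (hν : ∀ x, 0 ≤ ν x) (hμ : ∀ x, 0 < μ x) : 0 ≤ IP' ν μ := by
  unfold IP' DirW
  have : 0 ≤ ∑ i, ∑ x, μ x * μ (flip x i) / (μ x + μ (flip x i)) *
        ((√(ν (flip x i) / μ (flip x i)) - √(ν x / μ x)) *
          (√(ν (flip x i) / μ (flip x i)) - √(ν x / μ x))) :=
    Finset.sum_nonneg fun i _ => Finset.sum_nonneg fun x _ => (IP'_term_le hν hμ i x).1
  linarith only [this]

lemma IP'_le {ν μ : Cfg n → ℝ} (hν : IsProb ν) (hμ : ∀ x, 0 < μ x) : IP' ν μ ≤ n := by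
  unfold IP' DirW
  have h1 : ∑ i, ∑ x, μ x * μ (flip x i) / (μ x + μ (flip x i)) *
        ((√(ν (flip x i) / μ (flip x i)) - √(ν x / μ x)) *
          (√(ν (flip x i) / μ (flip x i)) - √(ν x / μ x)))
      ≤ ∑ i : Fin n, ∑ x, (ν x + ν (flip x i)) :=
    Finset.sum_le_sum fun i _ => Finset.sum_le_sum fun x _ => (IP'_term_le hν.1 hμ i x).2
  have h2 : ∑ i : Fin n, ∑ x, (ν x + ν (flip x i)) = 2 * n := by
    simp_rw [Finset.sum_add_distrib]
    have : ∀ i : Fin n, ∑ x, ν (flip x i) = 1 := fun i => by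
      rw [sum_flip i (fun x => ν x)]
      exact hν.2
    simp_rw [this, hν.2]
    simp
    ring
  linarith

lemma measurable_IP'_pst {ν μ : Cfg n → ℝ} (hν : IsProb ν) (hμ : IsProb μ) (Q : Mat n) (δ : ℝ) :
    Measurable fun z => IP' (pst ν Q δ z) (pst μ Q δ z) := by
  unfold IP' DirW
  refine Measurable.const_mul (Finset.measurable_fun_sum _ fun i _ =>
    Finset.measurable_fun_sum _ fun x _ => ?_) _
  have h1 := fun x => measurable_pst hμ Q δ x
  have h2 := fun x => measurable_pst hν Q δ x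
  refine Measurable.mul (Measurable.div ((h1 x).mul (h1 _)) ((h1 x).add (h1 _))) ?_
  have h3 : Measurable fun z => √(pst ν Q δ z (flip x i) / pst μ Q δ z (flip x i))
      - √(pst ν Q δ z x / pst μ Q δ z x) :=
    (((h2 _).div (h1 _)).sqrt).sub (((h2 _).div (h1 _)).sqrt)
  exact h3.mul h3

/-- `dlr` does not see the diagonal of the couplings -/
lemma dlr_add_diag (M : Mat n) (y : Vec n) (ν : Cfg n → ℝ) (c : ℝ) :
    dlr (M + c • (1 : Mat n)) y ν = dlr M y ν := by
  unfold dlr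
  refine Finset.sum_congr rfl fun x _ => ?_
  congr 1
  refine Finset.sum_congr rfl fun i _ => ?_
  have e : (M + c • (1 : Mat n)).mulVec (sv x) i - (M + c • (1 : Mat n)) i i * sv x i
      = M.mulVec (sv x) i - M i i * sv x i := by
    rw [Matrix.add_mulVec, Matrix.smul_mulVec, Matrix.one_mulVec]
    simp only [Pi.add_apply, Pi.smul_apply, smul_eq_mul, Matrix.add_apply, Matrix.smul_apply,
      Matrix.one_apply_eq, mul_one]
    ring
  rw [e]

/-- **(J1) for product laws** -/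
theorem J1_pw {J : Mat n} (hJ : ∀ i j, J i j = J j i) (β : ℝ) {ν : Cfg n → ℝ} (hν : IsProb ν)
    (hν0 : ∀ x, 0 < ν x) :
    ∫ ξ, dlr (β • J) 0 (fun x => pw m ν x ξ) ∂(gpi (Fin m)) ≤ 4 * IP' ν (gM (β • J) 0) := by
  have h := thCH5d n (β • J) 0 (fun i j => by simp [hJ i j]) ν hν hν0
  have e : ∫ ξ, dlr (β • J) 0 (fun x => pw m ν x ξ) ∂(gpi (Fin m)) = dlr (β • J) 0 ν := by
    unfold pw
    simp
  rw [e]
  exact h

/-- **(J2) for product laws** -/
theorem J2_pw {J : Mat n} (hJ : ∀ i j, J i j = J j i) (β κ : ℝ) {ν : Cfg n → ℝ} (hν : IsProb ν)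
    (hν0 : ∀ x, 0 < ν x) (hR : R * Rᵀ = J + κ • (1 : Mat n)) {s : ℝ} (hs : 0 ≤ s) :
    ∫ ξ, dlr ((β - s) • J) (√s • R.mulVec ξ) (fun x => D3.shw R s (pw m ν) x ξ) ∂(gpi (Fin m))
      ≤ 4 * IP' ν (gM (β • J) 0) := by
  set Q := R * Rᵀ with hQ
  have hQs : ∀ i j, Q i j = Q j i := by
    intro i j
    have : Qᵀ = Q := by rw [hQ, Matrix.transpose_mul, Matrix.transpose_transpose]
    exact (congrFun (congrFun this j) i)
  have hμ := gM_isProb (β • J) (0 : Vec n)
  have hμ0 := gM_pos (β • J) (0 : Vec n)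
  have h5b := thCH5b n m R s hs ν (gM (β • J) 0) hν hμ hμ0
  rw [← hQ] at h5b
  -- the two sides as integrals over the noise
  have e1 : ∀ ξ : Fin m → ℝ, dlr ((β - s) • J) (√s • R.mulVec ξ)
      (fun x => D3.shw R s (pw m ν) x ξ)
      = mlk ν (chv R) s ξ * dlr ((β - s) • J) (lb R s ξ) (pst ν Q s (lb R s ξ)) := by
    intro ξ
    have hpos := mlk_pos (m := m) hν.1 hν.2 (chv R) s ξ
    rw [← dlr_smul _ _ _ hpos.ne']
    have e2 : (fun x => D3.shw R s (pw m ν) x ξ)
        = fun x => mlk ν (chv R) s ξ * pst ν Q s (lb R s ξ) x := by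
      funext x
      rw [hQ, pst_lb, shw_eq]
      unfold pw
      field_simp
    rw [e2]
    rfl
  have key : ∀ z : Vec n, dlr ((β - s) • J) z (pst ν Q s z)
      ≤ 4 * IP' (pst ν Q s z) (pst (gM (β • J) 0) Q s z) := by
    intro z
    have hp := pst_isProb hν Q s z
    have hp0 : ∀ x, 0 < pst ν Q s z x := pst_pos hν hν0 Q s z
    have h1 := thCH5d n (β • J - s • Q) (0 + z) (fun i j => by
      simp only [Matrix.sub_apply, Matrix.smul_apply, smul_eq_mul]
      rw [hJ i j, hQs i j]) (pst ν Q s z) hp hp0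
    rw [thCHG n (β • J) Q 0 z s]
    have e3 : β • J - s • Q = (β - s) • J + (-(s * κ)) • (1 : Mat n) := by
      rw [hR, smul_add, sub_smul, smul_smul, neg_smul]
      abel
    rw [e3, dlr_add_diag, zero_add] at h1
    rw [e3, zero_add]
    exact h1
  have hI : Integrable (fun ξ => mlk ν (chv R) s ξ *
      IP' (pst ν Q s (lb R s ξ)) (pst (gM (β • J) 0) Q s (lb R s ξ))) (P245.gsn m) := by
    have h1 : Integrable (fun ξ => mlk ν (chv R) s ξ) (P245.gsn m) := by
      unfold mlk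
      exact integrable_finsetSum _ fun x _ => (integrable_lk hs _).const_mul _
    refine Integrable.mono' (h1.mul_const (n : ℝ)) ?_ (ae_of_all _ fun ξ => ?_)
    · refine h1.aestronglyMeasurable.mul ?_
      exact ((measurable_IP'_pst hν hμ Q s).comp (continuous_lb R s).measurable).aestronglyMeasurable
    · have hpos := mlk_pos (m := m) hν.1 hν.2 (chv R) s ξ
      have hp := pst_isProb hν Q s (lb R s ξ)
      have hq0 : ∀ x, 0 < pst (gM (β • J) 0) Q s (lb R s ξ) x := pst_pos hμ hμ0 Q s _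
      rw [Real.norm_eq_abs, abs_mul, abs_of_pos hpos, abs_of_nonneg (IP'_nonneg hp.1 hq0)]
      exact mul_le_mul_of_nonneg_left (IP'_le hp hq0) hpos.le
  have hEC : EC ν R s (fun _ z => IP' (pst ν Q s z) (pst (gM (β • J) 0) Q s z))
      = ∫ ξ, mlk ν (chv R) s ξ *
        IP' (pst ν Q s (lb R s ξ)) (pst (gM (β • J) 0) Q s (lb R s ξ)) ∂(P245.gsn m) := by
    refine EC_label ν R hs (fun z => IP' (pst ν Q s z) (pst (gM (β • J) 0) Q s z)) fun x => ?_
    refine Integrable.mono' ((integrable_lk hs (chv R x)).mul_const (n : ℝ)) ?_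
      (ae_of_all _ fun ξ => ?_)
    · refine (continuous_lk s _).aestronglyMeasurable.mul ?_
      exact ((measurable_IP'_pst hν hμ Q s).comp (continuous_lb R s).measurable).aestronglyMeasurable
    · have hp := pst_isProb hν Q s (lb R s ξ)
      have hq0 : ∀ x, 0 < pst (gM (β • J) 0) Q s (lb R s ξ) x := pst_pos hμ hμ0 Q s _
      rw [Real.norm_eq_abs, abs_mul, abs_of_pos (lk_pos _ _ _),
        abs_of_nonneg (IP'_nonneg hp.1 hq0)]
      exact mul_le_mul_of_nonneg_left (IP'_le hp hq0) (lk_pos _ _ _).le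
  rw [hEC] at h5b
  rw [gpi_eq_gsn]
  calc ∫ ξ, dlr ((β - s) • J) (√s • R.mulVec ξ) (fun x => D3.shw R s (pw m ν) x ξ) ∂(P245.gsn m)
      ≤ ∫ ξ, 4 * (mlk ν (chv R) s ξ *
        IP' (pst ν Q s (lb R s ξ)) (pst (gM (β • J) 0) Q s (lb R s ξ))) ∂(P245.gsn m) := by
        refine integral_mono_of_nonneg (ae_of_all _ fun ξ => ?_) (hI.const_mul 4)
          (ae_of_all _ fun ξ => ?_)
        · exact dlr_nonneg fun x => (JL.shw R hs (JL.pw (m := m) hν)).nonneg x ξ
        · simp only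
          rw [e1 ξ]
          have hpos := mlk_pos (m := m) hν.1 hν.2 (chv R) s ξ
          have := mul_le_mul_of_nonneg_left (key (lb R s ξ)) hpos.le
          linarith
    _ = 4 * ∫ ξ, (mlk ν (chv R) s ξ *
        IP' (pst ν Q s (lb R s ξ)) (pst (gM (β • J) 0) Q s (lb R s ξ))) ∂(P245.gsn m) := by
        rw [integral_const_mul]
    _ ≤ 4 * IP' ν (gM (β • J) 0) := by linarith

end Vale.Agent.P150.F.D3
end

section

/-! The hypotheses of D3b for product laws. -/

open MeasureTheory ProbabilityTheory Filter Topology Real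
open scoped Matrix

namespace Vale.Agent.P150.F.D3

variable {n m : ℕ}

lemma abs_cos_sub_cos_le (a b : ℝ) : |Real.cos a - Real.cos b| ≤ |a - b| := by
  rw [Real.cos_sub_cos, abs_mul, abs_mul, abs_neg, abs_two]
  have h1 : |Real.sin ((a + b) / 2)| ≤ 1 := Real.abs_sin_le_one _
  have h2 : |Real.sin ((a - b) / 2)| ≤ |(a - b) / 2| := Real.abs_sin_le_abs
  have h3 : |(a - b) / 2| = |a - b| / 2 := by rw [abs_div, abs_two]
  have h4 := abs_nonneg (Real.sin ((a + b) / 2))
  have h5 := abs_nonneg (Real.sin ((a - b) / 2))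
  nlinarith

lemma abs_sin_sub_sin_le (a b : ℝ) : |Real.sin a - Real.sin b| ≤ |a - b| := by
  rw [Real.sin_sub_sin, abs_mul, abs_mul, abs_two]
  have h1 : |Real.cos ((a + b) / 2)| ≤ 1 := Real.abs_cos_le_one _
  have h2 : |Real.sin ((a - b) / 2)| ≤ |(a - b) / 2| := Real.abs_sin_le_abs
  have h3 : |(a - b) / 2| = |a - b| / 2 := by rw [abs_div, abs_two]
  have h4 := abs_nonneg (Real.cos ((a + b) / 2))
  have h5 := abs_nonneg (Real.sin ((a - b) / 2))
  nlinarith

lemma abs_ind_le_pw {ε σ : ℝ} (hε : ε = 1 ∨ ε = -1) (hσ : |σ| = 1) : |ind ε σ| ≤ 1 := by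
  unfold ind
  rcases hε with rfl | rfl <;> rcases (abs_eq (zero_le_one)).1 hσ with rfl | rfl <;> norm_num

lemma integral_abs_le_sqrt {f : (Fin m → ℝ) → ℝ} (hf : Integrable f (gpi (Fin m)))
    (hf2 : Integrable (fun ξ => f ξ ^ 2) (gpi (Fin m))) :
    ∫ ξ, |f ξ| ∂(gpi (Fin m)) ≤ √(∫ ξ, f ξ ^ 2 ∂(gpi (Fin m))) := by
  apply Real.le_sqrt_of_sq_le
  set E := ∫ ξ, |f ξ| ∂(gpi (Fin m)) with hE
  have h1 : 0 ≤ ∫ ξ, (|f ξ| - E) ^ 2 ∂(gpi (Fin m)) := integral_nonneg fun ξ => sq_nonneg _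
  have h2 : ∫ ξ, (|f ξ| - E) ^ 2 ∂(gpi (Fin m)) = ∫ ξ, f ξ ^ 2 ∂(gpi (Fin m)) - E ^ 2 := by
    have e : ∀ ξ, (|f ξ| - E) ^ 2 = f ξ ^ 2 - 2 * E * |f ξ| + E ^ 2 := fun ξ => by
      rw [sub_sq, sq_abs]; ring
    simp_rw [e]
    have i1 : Integrable (fun ξ => 2 * E * |f ξ|) (gpi (Fin m)) := hf.abs.const_mul _
    have i2 : Integrable (fun ξ => f ξ ^ 2 - 2 * E * |f ξ|) (gpi (Fin m)) := hf2.sub i1
    rw [integral_add i2 (integrable_const _), integral_sub hf2 i1, integral_const_mul, ← hE]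
    simp
    ring
  linarith

/-- mean absolute value of a centred Lipschitz function -/
lemma lip_abs_le {L : ℝ} {f : (Fin m → ℝ) → ℝ} (hf : Lip L f) (hL : 0 < L)
    (h0 : ∫ ξ, f ξ ∂(gpi (Fin m)) = 0) : ∫ ξ, |f ξ| ∂(gpi (Fin m)) ≤ 2 * L := by
  refine (integral_abs_le_sqrt hf.integrable hf.integrable_sq).trans ?_
  have h := hf.var_le hL
  rw [h0] at h
  simp only [sub_zero] at h
  apply Real.sqrt_le_iff.2
  exact ⟨by positivity, h.trans (le_of_eq (by ring))⟩

/-- the bound for (J3) -/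
lemma J3_pw {R : Matrix (Fin n) (Fin m) ℝ} {C κ : ℝ} (h : OpLe (R * Rᵀ) C) (hC : 0 ≤ C)
    (hR : ∀ j, (R * Rᵀ) j j = κ) (hn : 0 < n) {ν : Cfg n → ℝ} (hν : IsProb ν) {ε : ℝ}
    (hε : ε = 1 ∨ ε = -1) {θ T : ℝ} (hθ : |θ| ≤ T) :
    EJ (fun x (_ : Fin m → ℝ) => ν x) (fun x ξ => |(∑ j, ind ε (sv x j) *
      (Real.cos (θ * R.mulVec ξ j) - Real.exp (-(θ ^ 2 * κ / 2)))) / n|)
        ≤ 2 * ((T * √C + 1) / √n) ∧
    EJ (fun x (_ : Fin m → ℝ) => ν x) (fun x ξ => |(∑ j, ind ε (sv x j) *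
      Real.sin (θ * R.mulVec ξ j)) / n|) ≤ 2 * ((T * √C + 1) / √n) := by
  have hn' : (0 : ℝ) < n := by exact_mod_cast hn
  have hs : 0 < √(n : ℝ) := Real.sqrt_pos.2 hn'
  have hT : 0 ≤ T := (abs_nonneg θ).trans hθ
  have hL : 0 < (T * √C + 1) / √(n : ℝ) := by positivity
  have hLL : |θ| * √C / √(n : ℝ) ≤ (T * √C + 1) / √(n : ℝ) := by
    have : |θ| * √C ≤ T * √C + 1 := by
      have := mul_le_mul_of_nonneg_right hθ (Real.sqrt_nonneg C)
      linarith only [this]
    gcongr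
  have hc : ∀ x : Cfg n, ∀ j, |ind ε (sv x j)| ≤ 1 := fun x j => abs_ind_le_pw hε (Vale.Agent.P150.F.abs_sv x j)
  constructor
  · have key : ∀ x : Cfg n, ∫ ξ : Fin m → ℝ, |(∑ j, ind ε (sv x j) *
      (Real.cos (θ * R.mulVec ξ j) - Real.exp (-(θ ^ 2 * κ / 2)))) / n| ∂(gpi (Fin m))
        ≤ 2 * ((T * √C + 1) / √n) := by
      intro x
      exact lip_abs_le ((TP.lip_avg h hC (hc x) abs_cos_sub_cos_le θ
        (Real.exp (-(θ ^ 2 * κ / 2)))).mono hLL) hL (TP.integral_avg_cos hR _ θ)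
    have e := EJ_pw (m := m) ν (fun x ξ => |(∑ j, ind ε (sv x j) *
      (Real.cos (θ * R.mulVec ξ j) - Real.exp (-(θ ^ 2 * κ / 2)))) / n|)
    unfold pw at e
    rw [e]
    calc _ ≤ ∑ x, ν x * (2 * ((T * √C + 1) / √n)) :=
          Finset.sum_le_sum fun x _ => mul_le_mul_of_nonneg_left (key x) (hν.1 x)
      _ = _ := by rw [← Finset.sum_mul, hν.2, one_mul]
  · have key : ∀ x : Cfg n, ∫ ξ : Fin m → ℝ, |(∑ j, ind ε (sv x j) *
      Real.sin (θ * R.mulVec ξ j)) / n| ∂(gpi (Fin m)) ≤ 2 * ((T * √C + 1) / √n) := by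
      intro x
      have h1 := lip_abs_le ((TP.lip_avg h hC (hc x) abs_sin_sub_sin_le θ 0).mono hLL) hL
        (TP.integral_avg_sin R _ θ)
      simpa only [sub_zero] using h1
    have e := EJ_pw (m := m) ν (fun x ξ => |(∑ j, ind ε (sv x j) *
      Real.sin (θ * R.mulVec ξ j)) / n|)
    unfold pw at e
    rw [e]
    calc _ ≤ ∑ x, ν x * (2 * ((T * √C + 1) / √n)) :=
          Finset.sum_le_sum fun x _ => mul_le_mul_of_nonneg_left (key x) (hν.1 x)
      _ = _ := by rw [← Finset.sum_mul, hν.2, one_mul]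

/-- second moment of the noise field for the product law -/
lemma J4_pw {R : Matrix (Fin n) (Fin m) ℝ} {κ : ℝ} (hR : ∀ j, (R * Rᵀ) j j = κ)
    {ν : Cfg n → ℝ} (hν : IsProb ν) :
    EJ (fun x (_ : Fin m → ℝ) => ν x) (fun _ ξ => sq (R.mulVec ξ)) = κ * n := by
  have e := EJ_pw (m := m) ν (fun _ ξ => sq (R.mulVec ξ))
  unfold pw at e
  rw [e, ← Finset.sum_mul, hν.2, one_mul]
  unfold sq
  have h1 : ∀ j, ∫ ξ : Fin m → ℝ, R.mulVec ξ j ^ 2 ∂(gpi (Fin m)) = κ := by
    intro j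
    have := integral_lin_mul R j j
    rw [hR] at this
    rw [← this]
    exact integral_congr_ae (ae_of_all _ fun ξ => pow_two _)
  rw [integral_finsetSum _ fun j _ => ?_]
  · simp_rw [h1]
    simp
    ring
  · have := integrable_lin_mul R j j
    exact this.congr (ae_of_all _ fun ξ => (pow_two _).symm)

lemma opLe_add_smul_one {J : Mat n} {C κ : ℝ} (hC : 0 ≤ C) (hκ : 0 ≤ κ) (h : OpLe J C) :
    OpLe (J + κ • (1 : Mat n)) (C + κ) := by
  refine opLe_of_nv fun v => ?_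
  rw [Matrix.add_mulVec, Matrix.smul_mulVec, Matrix.one_mulVec]
  refine (nv_add_le _ _).trans ?_
  rw [nv_smul, abs_of_nonneg hκ, add_mul]
  have := h.nv_le hC v
  linarith

/-- **The hypotheses of D3b for product laws.** -/
theorem jhyp_prod {β κ : ℝ} (hκ : 4 ≤ κ) {I : Type} {F : Filter I}
    {n : I → ℕ} {J : ∀ i, Mat (n i)} (hG : Good β F n J) {η : ℝ} (hη : 0 < η) :
    ∃ η' > 0, ∀ᶠ i in F, ∀ (m : ℕ) (R : Matrix (Fin (n i)) (Fin m) ℝ) (s : ℝ)
      (ν : Cfg (n i) → ℝ), s ∈ Set.Icc 0 β → R * Rᵀ = J i + κ • (1 : Mat (n i)) → IsProb ν →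
      (∀ x, 0 < ν x) → IP' ν (gM (β • J i) 0) ≤ η' * n i →
      JHyp β κ (J i) R s κ η (fun x _ => ν x) := by
  have hκ0 : 0 ≤ κ := by linarith only [hκ]
  refine ⟨η / 4, by positivity, ?_⟩
  have hlim : Tendsto (fun i => 2 * ((1 / η * √(3 + κ) + 1) / √(n i : ℝ))) F (𝓝 0) := by
    have h1 : Tendsto (fun i => √(n i : ℝ)) F atTop :=
      Real.tendsto_sqrt_atTop.comp (tendsto_natCast_atTop_atTop.comp hG.hn)
    have h2 := (tendsto_const_nhds (x := 1 / η * √(3 + κ) + 1)).div_atTop h1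
    simpa using h2.const_mul 2
  filter_upwards [hG.op 1 one_pos, hlim.eventually (ge_mem_nhds hη), hG.hn.eventually_gt_atTop 0]
    with i hop hsmall hn m R s ν hs hR hν hν0 hI
  have hop' : OpLe (R * Rᵀ) (3 + κ) := by
    rw [hR]
    have : (2 : ℝ) + 1 = 3 := by norm_num
    rw [this] at hop
    exact opLe_add_smul_one (by norm_num) hκ0 hop
  have hdiag : ∀ j, (R * Rᵀ) j j = κ := by
    intro j
    rw [hR]
    simp [hG.diag i j]
  have hJs := hG.symm i
  have hn' : (0 : ℝ) < n i := by exact_mod_cast hn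
  have hbd : 4 * IP' ν (gM (β • J i) 0) ≤ η * n i := by
    have : η / 4 * (n i : ℝ) = η * n i / 4 := by ring
    linarith only [hI]
  exact
    { law := JL.pw (m := m) hν
      hR := hR
      J1 := (J1_pw (m := m) hJs β hν hν0).trans hbd
      J2 := (J2_pw R hJs β κ hν hν0 hR hs.1).trans hbd
      J3c := fun θ ε hθ hε =>
        ((J3_pw hop' (by positivity) hdiag hn hν hε hθ).1).trans hsmall
      J3s := fun θ ε hθ hε =>
        ((J3_pw hop' (by positivity) hdiag hn hν hε hθ).2).trans hsmall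
      J4i := fun x => (TP.integrable_sq_R R).const_mul _
      J4 := (J4_pw hdiag hν).le }

end Vale.Agent.P150.F.D3
end

section

/-! P150 FULL, D6: existence of good parameters for the concrete schedule (helper155). -/

open MeasureTheory ProbabilityTheory Filter Topology
open scoped Matrix

namespace Vale.Agent.P150.F

namespace SPar

end SPar

namespace D6Par

open scoped MatrixOrder in
theorem exists_symm_root {n : ℕ} {A : Matrix (Fin n) (Fin n) ℝ} (hA : A.PosSemidef) :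
    ∃ S : Matrix (Fin n) (Fin n) ℝ, S.IsSymm ∧ S * S = A := by
  refine ⟨CFC.sqrt A, ?_, ?_⟩
  · have h : 0 ≤ CFC.sqrt A := CFC.sqrt_nonneg A
    rw [Matrix.nonneg_iff_posSemidef] at h
    have := h.isHermitian
    rwa [Matrix.IsHermitian, Matrix.conjTranspose_eq_transpose_of_trivial] at this
  · exact CFC.sqrt_mul_sqrt_self A (Matrix.nonneg_iff_posSemidef.2 hA)

variable {n : ℕ}

/-- positivity of a symmetric matrix from its quadratic form -/
theorem posSemidef_of_qf {A : Mat n} (hA : A.IsSymm) (h : ∀ v, 0 ≤ qf A v) : A.PosSemidef := by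
  rw [Matrix.posSemidef_iff_dotProduct_mulVec]
  refine ⟨?_, fun v => ?_⟩
  · rw [Matrix.IsHermitian, Matrix.conjTranspose_eq_transpose_of_trivial]; exact hA
  · rw [star_trivial]; exact h v

/-- a root of a positive semidefinite matrix given by its quadratic form -/
theorem exists_root_of_qf {A : Mat n} (hA : A.IsSymm) (h : ∀ v, 0 ≤ qf A v) :
    ∃ S : Mat n, S.IsSymm ∧ S * Sᵀ = A := by
  obtain ⟨S, hS, hSS⟩ := exists_symm_root (posSemidef_of_qf hA h)
  exact ⟨S, hS, by rw [show Sᵀ = S from hS, hSS]⟩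

end D6Par

end Vale.Agent.P150.F
end
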