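import Mathlib
import Vale.Agent.P150.Bdl.B1
import Vale.Agent.P150.Bdl.B3
import Vale.Agent.P150.Bdl.B6
import Vale.Agent.P150.Bdl.B15
import Vale.Agent.P150.Bdl.B7
import Vale.Agent.P150.Bdl.B14
import Vale.Agent.P150.Bdl.B13
import Vale.Agent.P150.Bdl.B10

set_option linter.all false

section

/-! P150 FULL: operator norm bounds for the discrete derivatives of the AMP iterates, for
external fields depending on the configuration (helper383). -/

open scoped Matrix

namespace Vale.Agent.P150.F.DB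

open D2 (DD gsq)

variable {n : ℕ}

/-! ### matrices -/

theorem ip_mulVec_tr (A : Mat n) (u v : Vec n) : ip u (A.mulVec v) = ip (Aᵀ.mulVec u) v := by
  unfold ip Matrix.mulVec dotProduct
  simp only [Matrix.transpose_apply, Finset.mul_sum, Finset.sum_mul]
  rw [Finset.sum_comm]
  exact Finset.sum_congr rfl fun i _ => Finset.sum_congr rfl fun j _ => by ring

theorem opLe_transpose {A : Mat n} {C : ℝ} (h : OpLe A C) (hC : 0 ≤ C) : OpLe Aᵀ C := by
  refine opLe_of_nv fun v => ?_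
  have h1 : nv (Aᵀ.mulVec v) ^ 2 ≤ nv v * (C * nv (Aᵀ.mulVec v)) := by
    calc nv (Aᵀ.mulVec v) ^ 2 = ip (Aᵀ.mulVec v) (Aᵀ.mulVec v) := by rw [nv_sq, ipN_self]
      _ = ip v (A.mulVec (Aᵀ.mulVec v)) := (ip_mulVec_tr A v _).symm
      _ ≤ nv v * nv (A.mulVec (Aᵀ.mulVec v)) := ip_le _ _
      _ ≤ nv v * (C * nv (Aᵀ.mulVec v)) :=
          mul_le_mul_of_nonneg_left (h.nv_le hC _) (nv_nonneg _)
  rcases (nv_nonneg (Aᵀ.mulVec v)).eq_or_lt with h0 | h0
  · rw [← h0]; exact mul_nonneg hC (nv_nonneg _)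
  · have : nv (Aᵀ.mulVec v) * nv (Aᵀ.mulVec v) ≤ (C * nv v) * nv (Aᵀ.mulVec v) := by
      linarith only [h1]
    exact le_of_mul_le_mul_right this h0

theorem col_le {A : Mat n} {C : ℝ} (h : OpLe A C) (j : Fin n) : ∑ i, A i j ^ 2 ≤ C ^ 2 := by
  have h1 := h (Pi.single j 1)
  have e1 : A.mulVec (Pi.single j 1) = fun i => A i j := by
    funext i; simp [Matrix.mulVec]
  have e2 : sq (Pi.single j (1 : ℝ)) = 1 := by
    unfold sq
    rw [Finset.sum_eq_single j]
    · simp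
    · intro b _ hb; simp [hb]
    · simp
  rw [e1, e2, mul_one] at h1
  exact h1

theorem row_le {A : Mat n} {C : ℝ} (h : OpLe A C) (hC : 0 ≤ C) (i : Fin n) :
    ∑ j, A i j ^ 2 ≤ C ^ 2 := by
  have := col_le (opLe_transpose h hC) i
  simpa using this

/-- Schur test for the entrywise square -/
theorem opLe_of_abs_le_sq {A E : Mat n} {C c : ℝ} (h : OpLe A C) (hC : 0 ≤ C)
    (hE : ∀ i j, |E i j| ≤ c * A i j ^ 2) (_hc : 0 ≤ c) : OpLe E (c * C ^ 2) := by
  intro v
  have hrow : ∀ i, E.mulVec v i ^ 2 ≤ c ^ 2 * (C ^ 2 * ∑ j, A i j ^ 2 * v j ^ 2) := by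
    intro i
    have h1 : |E.mulVec v i| ≤ c * ∑ j, |A i j| * (|A i j| * |v j|) := by
      unfold Matrix.mulVec dotProduct
      rw [Finset.mul_sum]
      refine (Finset.abs_sum_le_sum_abs _ _).trans (Finset.sum_le_sum fun j _ => ?_)
      rw [abs_mul]
      refine (mul_le_mul_of_nonneg_right (hE i j) (abs_nonneg _)).trans (le_of_eq ?_)
      rw [← sq_abs (A i j)]; ring
    have h2 : (∑ j, |A i j| * (|A i j| * |v j|)) ^ 2
        ≤ (∑ j, |A i j| ^ 2) * ∑ j, (|A i j| * |v j|) ^ 2 := Finset.sum_mul_sq_le_sq_mul_sq _ _ _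
    have h3 : ∑ j, |A i j| ^ 2 ≤ C ^ 2 := by
      simp only [sq_abs]; exact row_le h hC i
    have h4 : ∑ j, (|A i j| * |v j|) ^ 2 = ∑ j, A i j ^ 2 * v j ^ 2 := by
      refine Finset.sum_congr rfl fun j _ => ?_
      rw [mul_pow, sq_abs, sq_abs]
    calc E.mulVec v i ^ 2 = |E.mulVec v i| ^ 2 := (sq_abs _).symm
      _ ≤ (c * ∑ j, |A i j| * (|A i j| * |v j|)) ^ 2 := pow_le_pow_left₀ (abs_nonneg _) h1 2
      _ = c ^ 2 * (∑ j, |A i j| * (|A i j| * |v j|)) ^ 2 := by rw [mul_pow]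
      _ ≤ c ^ 2 * (C ^ 2 * ∑ j, A i j ^ 2 * v j ^ 2) := by
          refine mul_le_mul_of_nonneg_left (h2.trans ?_) (sq_nonneg c)
          rw [h4]
          exact mul_le_mul_of_nonneg_right h3 (Finset.sum_nonneg fun _ _ => by (clear * -; positivity))
  unfold sq
  calc ∑ i, E.mulVec v i ^ 2 ≤ ∑ i, c ^ 2 * (C ^ 2 * ∑ j, A i j ^ 2 * v j ^ 2) :=
        Finset.sum_le_sum fun i _ => hrow i
    _ = c ^ 2 * (C ^ 2 * ∑ j, (∑ i, A i j ^ 2) * v j ^ 2) := by
        rw [← Finset.mul_sum, ← Finset.mul_sum, Finset.sum_comm]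
        congr 2
        exact Finset.sum_congr rfl fun j _ => by rw [Finset.sum_mul]
    _ ≤ c ^ 2 * (C ^ 2 * ∑ j, C ^ 2 * v j ^ 2) := by
        refine mul_le_mul_of_nonneg_left (mul_le_mul_of_nonneg_left ?_ (sq_nonneg C))
          (sq_nonneg c)
        exact Finset.sum_le_sum fun j _ =>
          mul_le_mul_of_nonneg_right (col_le h j) (sq_nonneg _)
    _ = (c * C ^ 2) ^ 2 * ∑ j, v j ^ 2 := by rw [← Finset.mul_sum]; ring

theorem opLe_dg {a : Vec n} {c : ℝ} (hc : 0 ≤ c) (h : ∀ i, |a i| ≤ c) : OpLe (dg a) c := by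
  refine opLe_of_nv fun v => ?_
  refine nv_le_mul hc fun i => ?_
  unfold dg
  rw [Matrix.mulVec_diagonal, abs_mul]
  exact mul_le_mul_of_nonneg_right (h i) (abs_nonneg _)

/-! ### the discrete derivative -/

theorem sp_mul_self (b : Bool) : sp b * sp b = 1 := by cases b <;> simp [sp]

theorem sp_abs (b : Bool) : |sp b| = 1 := by cases b <;> simp [sp]

theorem update_self_eq (x : Cfg n) (i : Fin n) : Function.update x i (x i) = x :=
  Function.update_eq_self i x

/-- values at the two ends of the edge in terms of the value at `x` -/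
theorem dd_flip (i : Fin n) (f : Cfg n → ℝ) (x : Cfg n) :
    f (Function.update x i (!x i)) = f x - 2 * sp (x i) * dd i f x := by
  unfold dd
  cases h : x i
  · have e : Function.update x i false = x := by rw [← h]; exact update_self_eq x i
    simp only [Bool.not_false, sp, e]
    simp; ring
  · have e : Function.update x i true = x := by rw [← h]; exact update_self_eq x i
    simp only [Bool.not_true, sp, e]
    simp; ring

theorem dd_eq_flip (i : Fin n) (f : Cfg n → ℝ) (x : Cfg n) :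
    dd i f x = sp (x i) * (f x - f (Function.update x i (!x i))) / 2 := by
  rw [dd_flip i f x]
  have := sp_mul_self (x i)
  linear_combination (-(dd i f x)) * this

theorem dd_add (i : Fin n) (f g : Cfg n → ℝ) (x : Cfg n) :
    dd i (fun z => f z + g z) x = dd i f x + dd i g x := by unfold dd; ring

theorem dd_sub (i : Fin n) (f g : Cfg n → ℝ) (x : Cfg n) :
    dd i (fun z => f z - g z) x = dd i f x - dd i g x := by unfold dd; ring

theorem dd_const_mul (i : Fin n) (c : ℝ) (g : Cfg n → ℝ) (x : Cfg n) :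
    dd i (fun z => c * g z) x = c * dd i g x := by unfold dd; ring

theorem dd_const (i : Fin n) (c : ℝ) (x : Cfg n) : dd i (fun _ : Cfg n => c) x = 0 := by
  unfold dd; ring

theorem dd_sum {ι : Type*} (s : Finset ι) (i : Fin n) (f : ι → Cfg n → ℝ) (x : Cfg n) :
    dd i (fun z => ∑ k ∈ s, f k z) x = ∑ k ∈ s, dd i (f k) x := by
  unfold dd
  rw [← Finset.sum_sub_distrib, Finset.sum_div]

/-- product rule -/
theorem dd_mul (i : Fin n) (f g : Cfg n → ℝ) (x : Cfg n) :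
    dd i (fun z => f z * g z) x
      = f x * dd i g x + g x * dd i f x - 2 * sp (x i) * (dd i f x * dd i g x) := by
  have h1 := dd_eq_flip i (fun z => f z * g z) x
  have h2 := dd_flip i f x
  have h3 := dd_flip i g x
  simp only [h2, h3] at h1
  have := sp_mul_self (x i)
  rw [h1]
  linear_combination (f x * dd i g x + g x * dd i f x - 2 * sp (x i) * (dd i f x * dd i g x)) * this

theorem dd_sv (i j : Fin n) (x : Cfg n) : dd i (fun z => sv z j) x = if j = i then 1 else 0 := by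
  unfold dd sv
  by_cases h : j = i
  · subst h; simp [sp]
  · simp [h]

theorem dd_abs_le {f : Cfg n → ℝ} {C : ℝ} (h : ∀ z, |f z| ≤ C) (i : Fin n) (x : Cfg n) :
    |dd i f x| ≤ C := by
  unfold dd
  have h1 := abs_le.1 (h (Function.update x i true))
  have h2 := abs_le.1 (h (Function.update x i false))
  rw [abs_le]; constructor <;> linarith

theorem dd_tanh (i : Fin n) (f : Cfg n → ℝ) (x : Cfg n) :
    |dd i (fun z => Real.tanh (f z)) x - (1 - Real.tanh (f x) ^ 2) * dd i f x|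
      ≤ 2 * dd i f x ^ 2 := by
  rw [dd_eq_flip i (fun z => Real.tanh (f z)), dd_flip i f]
  have h := abs_tanh_taylor (f x) (-(2 * sp (x i) * dd i f x))
  have hs := sp_mul_self (x i)
  rw [← sub_eq_add_neg] at h
  set T := Real.tanh (f x)
  set T' := Real.tanh (f x - 2 * sp (x i) * dd i f x)
  have e : sp (x i) * (T - T') / 2 - (1 - T ^ 2) * dd i f x
      = -(sp (x i)) / 2 * (T' - T - -(2 * sp (x i) * dd i f x) * (1 - T ^ 2)) := by
    linear_combination ((1 - T ^ 2) * dd i f x) * hs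
  rw [e, abs_mul, abs_div, abs_neg, sp_abs]
  have e2 : (-(2 * sp (x i) * dd i f x)) ^ 2 = 4 * dd i f x ^ 2 := by
    linear_combination (4 * dd i f x ^ 2) * hs
  rw [e2] at h
  rw [abs_of_pos (by norm_num : (0:ℝ) < 2)]
  linarith only [h]

/-! ### derivative matrices -/

theorem DD_sv (x : Cfg n) : DD sv x = 1 := by
  ext j i
  show dd i (fun z => sv z j) x = _
  rw [dd_sv, Matrix.one_apply]

theorem DD_add (G H : Cfg n → Vec n) (x : Cfg n) :
    DD (fun z => G z + H z) x = DD G x + DD H x := by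
  ext j i; exact dd_add i (fun z => G z j) (fun z => H z j) x

theorem DD_sub (G H : Cfg n → Vec n) (x : Cfg n) :
    DD (fun z => G z - H z) x = DD G x - DD H x := by
  ext j i; exact dd_sub i (fun z => G z j) (fun z => H z j) x

theorem DD_mulVec (M : Mat n) (G : Cfg n → Vec n) (x : Cfg n) :
    DD (fun z => M.mulVec (G z)) x = M * DD G x := by
  ext j i
  show dd i (fun z => M.mulVec (G z) j) x = _
  unfold Matrix.mulVec dotProduct
  rw [dd_sum, Matrix.mul_apply]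
  exact Finset.sum_congr rfl fun k _ => dd_const_mul i _ _ x

theorem DD_smul (t : Cfg n → ℝ) (G : Cfg n → Vec n) (x : Cfg n) :
    DD (fun z => t z • G z) x = t x • DD G x + Matrix.vecMulVec (G x) (fun i => dd i t x)
      - DD G x * dg (fun i => 2 * sp (x i) * dd i t x) := by
  ext j i
  show dd i (fun z => t z * G z j) x = _
  rw [dd_mul i t (fun z => G z j) x]
  unfold dg
  rw [Matrix.sub_apply, Matrix.add_apply, Matrix.smul_apply, Matrix.mul_diagonal,
    Matrix.vecMulVec_apply, smul_eq_mul]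
  show _ = t x * DD G x j i + G x j * dd i t x - DD G x j i * (2 * sp (x i) * dd i t x)
  have e : DD G x j i = dd i (fun z => G z j) x := rfl
  rw [e]; ring

theorem opLe_DD_smul {t : Cfg n → ℝ} {G : Cfg n → Vec n} {x : Cfg n} {C c g b : ℝ}
    (hC : OpLe (DD G x) C) (hC0 : 0 ≤ C) (ht : |t x| ≤ c) (hg : nv (fun i => dd i t x) ≤ g)
    (hG : nv (G x) ≤ b) (hb : 0 ≤ b) :
    OpLe (DD (fun z => t z • G z) x) (c * C + b * g + C * (2 * g)) := by
  have hg0 : 0 ≤ g := (nv_nonneg _).trans hg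
  have hc0 : 0 ≤ c := (abs_nonneg _).trans ht
  rw [DD_smul]
  have h1 : OpLe (t x • DD G x) (c * C) :=
    (hC.smul hC0 (t x)).monoN (by (clear * - hC0; positivity)) (mul_le_mul_of_nonneg_right ht hC0)
  have h2 : OpLe (Matrix.vecMulVec (G x) (fun i => dd i t x)) (b * g) :=
    (opLe_vecMulVec _ _).monoN (mul_nonneg (nv_nonneg _) (nv_nonneg _))
      (mul_le_mul hG hg (nv_nonneg _) hb)
  have h3 : OpLe (dg (fun i => 2 * sp (x i) * dd i t x)) (2 * g) := by
    refine opLe_dg (by positivity) fun i => ?_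
    rw [abs_mul, abs_mul, sp_abs, abs_of_pos (by norm_num : (0:ℝ) < 2), mul_one]
    exact mul_le_mul_of_nonneg_left ((abs_le_nv (fun i => dd i t x) i).trans hg) (by norm_num)
  exact (h1.add h2 (by positivity) (by positivity)).sub (hC.mulN h3 hC0 (by positivity))
    (by (clear * - hc0 hC0 hb hg0; positivity)) (by (clear * - hC0 hg0; positivity))

theorem opLe_DD_tanh {G : Cfg n → Vec n} {x : Cfg n} {C : ℝ} (hC : OpLe (DD G x) C)
    (hC0 : 0 ≤ C) : OpLe (DD (fun z i => Real.tanh (G z i)) x) (C + 2 * C ^ 2) := by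
  have e : DD (fun z i => Real.tanh (G z i)) x = dg (fun i => 1 - Real.tanh (G x i) ^ 2) * DD G x
      + (DD (fun z i => Real.tanh (G z i)) x
        - dg (fun i => 1 - Real.tanh (G x i) ^ 2) * DD G x) := by abel
  rw [e]
  have h1 : OpLe (dg (fun i => 1 - Real.tanh (G x i) ^ 2) * DD G x) (1 * C) := by
    refine (opLe_dg zero_le_one fun i => ?_).mulN hC zero_le_one hC0
    rw [abs_of_pos (one_sub_tanh_sq_pos _)]; exact one_sub_tanh_sq_le _
  have h2 : OpLe (DD (fun z i => Real.tanh (G z i)) x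
        - dg (fun i => 1 - Real.tanh (G x i) ^ 2) * DD G x) (2 * C ^ 2) := by
    refine opLe_of_abs_le_sq hC hC0 (fun j i => ?_) (by norm_num)
    unfold dg
    rw [Matrix.sub_apply, Matrix.diagonal_mul]
    exact dd_tanh i (fun z => G z j) x
  exact (h1.add h2 (by positivity) (by positivity)).monoN (by positivity) (by linarith)

/-- gradient of `|G|²/n` -/
theorem nv_dd_qq_le {G : Cfg n → Vec n} {x : Cfg n} {C b : ℝ} (hC : OpLe (DD G x) C)
    (hC0 : 0 ≤ C) (hb : 0 ≤ b) (hG : nv (G x) ≤ b * √n) :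
    nv (fun i => dd i (fun z => qq (G z)) x) * √n ≤ 2 * C * b + 2 * C ^ 2 := by
  rcases Nat.eq_zero_or_pos n with hn | hn
  · subst hn
    simp; positivity
  have hn' : (0 : ℝ) < n := by exact_mod_cast hn
  have e : (fun i => dd i (fun z => qq (G z)) x)
      = (1 / (n : ℝ)) • ((2 : ℝ) • (DD G x)ᵀ.mulVec (G x)
        - fun i => 2 * sp (x i) * ∑ j, DD G x j i ^ 2) := by
    funext i
    have e1 : (fun z => qq (G z)) = fun z => (1 / (n : ℝ)) * ∑ j, G z j * G z j := by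
      funext z; unfold qq sq; rw [div_eq_mul_one_div, mul_comm]; congr 1
      exact Finset.sum_congr rfl fun j _ => by ring
    rw [e1, dd_const_mul, dd_sum]
    rw [Pi.smul_apply, smul_eq_mul, Pi.sub_apply, Pi.smul_apply, smul_eq_mul]
    congr 1
    unfold Matrix.mulVec dotProduct
    rw [Finset.mul_sum, Finset.mul_sum, ← Finset.sum_sub_distrib]
    refine Finset.sum_congr rfl fun j _ => ?_
    rw [dd_mul i (fun z => G z j) (fun z => G z j) x]
    show _ = 2 * (dd i (fun z => G z j) x * G x j) - 2 * sp (x i) * dd i (fun z => G z j) x ^ 2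
    ring
  rw [e, nv_smul]
  have h1 : nv ((2 : ℝ) • (DD G x)ᵀ.mulVec (G x)) ≤ 2 * (C * (b * √n)) := by
    rw [nv_smul, abs_of_pos (by norm_num : (0:ℝ) < 2)]
    refine mul_le_mul_of_nonneg_left ?_ (by norm_num)
    exact ((opLe_transpose hC hC0).nv_le hC0 _).trans (mul_le_mul_of_nonneg_left hG hC0)
  have h2 : nv (fun i => 2 * sp (x i) * ∑ j, DD G x j i ^ 2) ≤ (2 * C ^ 2) * √n := by
    refine nv_le_sqrt (by (clear * -; positivity)) fun i => ?_
    rw [abs_mul, abs_mul, sp_abs, abs_of_pos (by norm_num : (0:ℝ) < 2), mul_one,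
      abs_of_nonneg (Finset.sum_nonneg fun _ _ => sq_nonneg _)]
    exact mul_le_mul_of_nonneg_left (col_le hC i) (by norm_num)
  have h3 := (nv_sub_le ((2 : ℝ) • (DD G x)ᵀ.mulVec (G x))
    (fun i => 2 * sp (x i) * ∑ j, DD G x j i ^ 2)).trans (add_le_add h1 h2)
  have hsn : √(n : ℝ) * √(n : ℝ) = n := Real.mul_self_sqrt hn'.le
  have h4 : |1 / (n : ℝ)| = 1 / n := abs_of_pos (by positivity)
  rw [h4]
  calc 1 / (n : ℝ) * nv ((2 : ℝ) • (DD G x)ᵀ.mulVec (G x)
        - fun i => 2 * sp (x i) * ∑ j, DD G x j i ^ 2) * √n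
      ≤ 1 / (n : ℝ) * (2 * (C * (b * √n)) + (2 * C ^ 2) * √n) * √n := by gcongr
    _ = (2 * C * b + 2 * C ^ 2) * (√n * √n) / n := by ring
    _ = _ := by rw [hsn]; field_simp

theorem gsq_eq (φ : Cfg n → ℝ) (x : Cfg n) : gsq φ x = nv (fun i => dd i φ x) ^ 2 := by
  rw [nv_sq]; rfl

/-! ### AMP iterates with a configuration dependent field -/

theorem abs_ampM_le (M : Mat n) (r : ℝ) (y : Vec n) (x : Cfg n) (k : ℕ) (i : Fin n) :
    |ampM M r y x k i| ≤ 1 := by
  match k with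
  | 0 => exact (sp_abs (x i)).le
  | 1 => exact (Real.abs_tanh_lt_one _).le
  | k + 2 => exact (Real.abs_tanh_lt_one _).le

theorem ampM_succ (M : Mat n) (r : ℝ) (y : Vec n) (x : Cfg n) (k : ℕ) :
    ampM M r y x (k + 1) = fun i => Real.tanh (ampA M r y x k i) := by
  match k with
  | 0 => rfl
  | k + 1 => rfl

/-- the constants -/
theorem amp_step {n : ℕ} {M : Mat n} {r : ℝ} {y G H : Cfg n → Vec n} {x : Cfg n}
    {CM Cy CG CH : ℝ} (hM0 : 0 ≤ CM) (hy0 : 0 ≤ Cy) (hG0 : 0 ≤ CG) (hH0 : 0 ≤ CH)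
    (hM : OpLe M CM) (hr0 : 0 ≤ r) (hr1 : r ≤ 1) (hy : OpLe (DD y x) Cy)
    (hG : OpLe (DD G x) CG) (hH : OpLe (DD H x) CH)
    (bG : ∀ z i, |G z i| ≤ 1) (bH : ∀ z i, |H z i| ≤ 1) :
    OpLe (DD (fun z i => M.mulVec (G z) i + y z i - r ^ 2 * (1 - qq (G z)) * H z i) x)
      (CM * CG + Cy + (1 * CH + (2 * CG + 2 * CG ^ 2) + CH * (2 * (2 * CG + 2 * CG ^ 2)))) := by
  rcases Nat.eq_zero_or_pos n with hn | hn
  · subst hn
    intro v
    have e1 : ∀ w : Vec 0, sq w = 0 := fun w => by simp [sq]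
    rw [e1, e1]; simp
  have hn' : (1 : ℝ) ≤ n := by exact_mod_cast hn
  have hsn : (1 : ℝ) ≤ √n := Real.one_le_sqrt.2 hn'
  have e : (fun z i => M.mulVec (G z) i + y z i - r ^ 2 * (1 - qq (G z)) * H z i)
      = fun z => (M.mulVec (G z) + y z) - (r ^ 2 * (1 - qq (G z))) • H z := rfl
  rw [e, DD_sub (fun z => M.mulVec (G z) + y z), DD_add (fun z => M.mulVec (G z)), DD_mulVec]
  have h1 : OpLe (M * DD G x + DD y x) (CM * CG + Cy) :=
    (hM.mulN hG hM0 hG0).add hy (by (clear * - hM0 hG0; positivity)) hy0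
  have hr2 : r ^ 2 ≤ 1 := pow_le_one₀ hr0 hr1
  have hq := qq_le_one (bG x)
  have hq0 := qq_nonneg (G x)
  have hg0 := nv_dd_qq_le hG hG0 zero_le_one (by rw [one_mul]; exact nv_le_sqrt_n (bG x))
  have hgr : (fun i => dd i (fun z => r ^ 2 * (1 - qq (G z))) x)
      = (-(r ^ 2)) • fun i => dd i (fun z => qq (G z)) x := by
    funext i
    have e2 : dd i (fun z => r ^ 2 * (1 - qq (G z))) x
        = -(r ^ 2) * dd i (fun z => qq (G z)) x := by unfold dd; ring
    rw [e2]; rfl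
  have hg1 : nv (fun i => dd i (fun z => r ^ 2 * (1 - qq (G z))) x) * √n
      ≤ 2 * CG + 2 * CG ^ 2 := by
    rw [hgr, nv_smul, abs_neg, abs_of_nonneg (sq_nonneg r)]
    have h3 : 0 ≤ nv (fun i => dd i (fun z => qq (G z)) x) * √n :=
      mul_nonneg (nv_nonneg _) (Real.sqrt_nonneg _)
    calc r ^ 2 * nv (fun i => dd i (fun z => qq (G z)) x) * √n
        = r ^ 2 * (nv (fun i => dd i (fun z => qq (G z)) x) * √n) := by ring
      _ ≤ 1 * (nv (fun i => dd i (fun z => qq (G z)) x) * √n) :=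
          mul_le_mul_of_nonneg_right hr2 h3
      _ ≤ 2 * CG + 2 * CG ^ 2 := by rw [one_mul]; linarith only [hg0]
  have hp : 0 < √(n : ℝ) := by linarith only [hsn]
  have h2 := opLe_DD_smul (t := fun z => r ^ 2 * (1 - qq (G z))) (c := 1)
    (g := (2 * CG + 2 * CG ^ 2) / √n) (b := √n) hH hH0
    (by rw [abs_of_nonneg (mul_nonneg (sq_nonneg r) (by linarith))]
        exact mul_le_one₀ hr2 (by linarith only [hq]) (by linarith only [hq0]))
    (by rw [le_div_iff₀ hp]; exact hg1) (nv_le_sqrt_n (bH x)) (Real.sqrt_nonneg _)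
  refine h1.sub (h2.monoN (by (clear * - hH0 hn hG0; positivity)) ?_) (by (clear * - hM0 hG0 hy0; positivity)) (by (clear * - hH0 hG0; positivity))
  have h4 : √(n : ℝ) * ((2 * CG + 2 * CG ^ 2) / √n) = 2 * CG + 2 * CG ^ 2 := by field_simp
  have h5 : (2 * CG + 2 * CG ^ 2) / √(n : ℝ) ≤ 2 * CG + 2 * CG ^ 2 :=
    div_le_self (by (clear * - hG0; positivity)) hsn
  rw [h4]
  gcongr

/-- bounds for derivatives of AMP iterates -/
theorem amp_bound (CM Cy : ℝ) (hM0 : 0 ≤ CM) (hy0 : 0 ≤ Cy) (k : ℕ) :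
    ∃ C : ℝ, 0 ≤ C ∧ ∀ (n : ℕ) (M : Mat n) (r : ℝ) (y : Cfg n → Vec n), OpLe M CM →
      0 ≤ r → r ≤ 1 → ∀ x : Cfg n, OpLe (DD y x) Cy →
        OpLe (DD (fun z => ampM M r (y z) z k) x) C ∧
        OpLe (DD (fun z => ampM M r (y z) z (k + 1)) x) C ∧
        OpLe (DD (fun z => ampA M r (y z) z k) x) C := by
  induction k with
  | zero =>
    refine ⟨1 + (CM * 1 + Cy) + 2 * (CM * 1 + Cy) ^ 2, by positivity, ?_⟩
    intro n M r y hM hr0 hr1 x hy
    have h1 : OpLe (DD (fun z => ampM M r (y z) z 0) x) 1 := by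
      have : (fun z => ampM M r (y z) z 0) = sv := rfl
      rw [this, DD_sv]; exact opLe_one
    have h2 : OpLe (DD (fun z => ampA M r (y z) z 0) x) (CM * 1 + Cy) := by
      have e : (fun z => ampA M r (y z) z 0) = fun z => M.mulVec (sv z) + y z := rfl
      rw [e, DD_add (fun z => M.mulVec (sv z)), DD_mulVec, DD_sv]
      exact (hM.mulN opLe_one hM0 zero_le_one).add hy (by positivity) hy0
    have h3 := opLe_DD_tanh h2 (by (clear * - hM0 hy0; positivity))
    have hc : 0 ≤ 2 * (CM * 1 + Cy) ^ 2 := by (clear * -; positivity)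
    have hc' : 0 ≤ CM * 1 + Cy := by (clear * - hM0 hy0; positivity)
    exact ⟨h1.monoN zero_le_one (by linarith only [hc', hc]), h3.monoN (by (clear * - hM0 hy0; positivity)) (by linarith),
      h2.monoN hc' (by linarith)⟩
  | succ k ih =>
    obtain ⟨C, hC0, ih⟩ := ih
    set D := CM * C + Cy + (1 * C + (2 * C + 2 * C ^ 2) + C * (2 * (2 * C + 2 * C ^ 2))) with hD
    have hD0 : 0 ≤ D := by (clear * - hM0 hC0 hy0; positivity)
    refine ⟨C + D + 2 * D ^ 2, by (clear * - hC0 hM0 hy0; positivity), ?_⟩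
    intro n M r y hM hr0 hr1 x hy
    obtain ⟨i1, i2, _⟩ := ih n M r y hM hr0 hr1 x hy
    have h2 : OpLe (DD (fun z => ampA M r (y z) z (k + 1)) x) D :=
      amp_step hM0 hy0 hC0 hC0 hM hr0 hr1 hy i2 i1
        (fun z i => abs_ampM_le M r (y z) z (k + 1) i) (fun z i => abs_ampM_le M r (y z) z k i)
    have h3 := opLe_DD_tanh h2 hD0
    have hc : 0 ≤ 2 * D ^ 2 := by (clear * -; positivity)
    refine ⟨i2.monoN hC0 (by linarith [hc, hD0]), ?_, h2.monoN hD0 (by linarith)⟩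
    refine OpLe.monoN (C := D + 2 * D ^ 2) ?_ (by (clear * - hM0 hC0 hy0; positivity)) (by linarith only [hC0])
    have e : (fun z => ampM M r (y z) z (k + 1 + 1))
        = fun z i => Real.tanh (ampA M r (y z) z (k + 1) i) := by
      funext z; exact ampM_succ M r (y z) z (k + 1)
    rw [e]; exact h3

/-- gradient bounds for `q_k` and for `|m^k - m^l|²/n` -/
theorem amp_macro (CM Cy : ℝ) (hM0 : 0 ≤ CM) (hy0 : 0 ≤ Cy) (K : ℕ) :
    ∃ C : ℝ, 0 ≤ C ∧ ∀ k ≤ K, ∀ l ≤ K, ∀ (n : ℕ) (M : Mat n) (r : ℝ) (y : Cfg n → Vec n),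
      OpLe M CM → 0 ≤ r → r ≤ 1 → ∀ x : Cfg n, OpLe (DD y x) Cy →
        OpLe (DD (fun z => ampM M r (y z) z k) x) C ∧
        OpLe (DD (fun z => ampA M r (y z) z k) x) C ∧
        gsq (fun z => qq (ampM M r (y z) z k)) x * n ≤ C ∧
        gsq (fun z => qq (ampM M r (y z) z k - ampM M r (y z) z l)) x * n ≤ C := by
  choose c hc0 hc using amp_bound CM Cy hM0 hy0
  set B := ∑ k ∈ Finset.range (K + 1), c k with hB
  have hB0 : 0 ≤ B := Finset.sum_nonneg fun k _ => hc0 k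
  have hle : ∀ k ≤ K, c k ≤ B := fun k hk =>
    Finset.single_le_sum (f := c) (fun k _ => hc0 k) (Finset.mem_range.2 (Nat.lt_succ_of_le hk))
  refine ⟨B + (2 * (2 * B) * 2 + 2 * (2 * B) ^ 2) ^ 2, by (clear * - hB0; positivity), ?_⟩
  intro k hk l hl n M r y hM hr0 hr1 x hy
  obtain ⟨k1, -, k3⟩ := hc k n M r y hM hr0 hr1 x hy
  obtain ⟨l1, -, -⟩ := hc l n M r y hM hr0 hr1 x hy
  have K1 := k1.monoN (hc0 k) (hle k hk)
  have L1 := l1.monoN (hc0 l) (hle l hl)
  have hp : 0 ≤ (2 * (2 * B) * 2 + 2 * (2 * B) ^ 2) ^ 2 := by (clear * -; positivity)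
  have bm := fun z i => abs_ampM_le M r (y z) z k i
  have bl := fun z i => abs_ampM_le M r (y z) z l i
  refine ⟨K1.monoN hB0 (by linarith only [hp]), (k3.monoN (hc0 k) (hle k hk)).monoN hB0 (by linarith only [hp]), ?_, ?_⟩
  · have h := nv_dd_qq_le K1 hB0 zero_le_one (by rw [one_mul]; exact nv_le_sqrt_n (bm x))
    rw [gsq_eq]
    have e : nv (fun i => dd i (fun z => qq (ampM M r (y z) z k)) x) ^ 2 * n
        = (nv (fun i => dd i (fun z => qq (ampM M r (y z) z k)) x) * √n) ^ 2 := by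
      rw [mul_pow, Real.sq_sqrt (Nat.cast_nonneg n)]
    rw [e]
    have h0 : 0 ≤ nv (fun i => dd i (fun z => qq (ampM M r (y z) z k)) x) * √n :=
      mul_nonneg (nv_nonneg _) (Real.sqrt_nonneg _)
    have h2 := pow_le_pow_left₀ h0 h 2
    have h3 : (2 * B * 1 + 2 * B ^ 2) ^ 2 ≤ (2 * (2 * B) * 2 + 2 * (2 * B) ^ 2) ^ 2 := by
      apply pow_le_pow_left₀ (by (clear * - hB0; positivity))
      linarith only [h, h0]
    linarith only [h3, h2, hB0]
  · have hD : OpLe (DD (fun z => ampM M r (y z) z k - ampM M r (y z) z l) x) (2 * B) := by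
      rw [DD_sub (fun z => ampM M r (y z) z k)]
      exact (K1.sub L1 hB0 hB0).monoN (by (clear * - hB0; positivity)) (by linarith only [])
    have hn2 : nv (ampM M r (y x) x k - ampM M r (y x) x l) ≤ 2 * √n := by
      refine (nv_sub_le _ _).trans ?_
      have a1 := nv_le_sqrt_n (bm x)
      have a2 := nv_le_sqrt_n (bl x)
      linarith only [a2, a1]
    have h := nv_dd_qq_le (G := fun z => ampM M r (y z) z k - ampM M r (y z) z l) hD
      (by (clear * - hB0; positivity)) (by norm_num : (0:ℝ) ≤ 2) hn2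
    rw [gsq_eq]
    have e : nv (fun i => dd i (fun z => qq (ampM M r (y z) z k - ampM M r (y z) z l)) x) ^ 2 * n
        = (nv (fun i => dd i (fun z => qq (ampM M r (y z) z k - ampM M r (y z) z l)) x) * √n) ^ 2
        := by rw [mul_pow, Real.sq_sqrt (Nat.cast_nonneg n)]
    rw [e]
    have h0 : 0 ≤ nv (fun i => dd i (fun z => qq (ampM M r (y z) z k - ampM M r (y z) z l)) x)
        * √n := mul_nonneg (nv_nonneg _) (Real.sqrt_nonneg _)
    have h2 := pow_le_pow_left₀ h0 h 2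
    linarith only [hB0, h2]

end Vale.Agent.P150.F.DB
end

section

/-! P150 FULL, module D2x (helper383): exponential versions of (U2) and (U3) under the Gibbs
measure itself, for every field and every steering matrix, by one exponential tilt. -/

open Filter Topology
open scoped Matrix

namespace Vale.Agent.P150.F

open D2 (DD gsq)
open DB

/-- uniform form of (U2) -/
def U2S {I : Type*} (F : Filter I) (n : I → ℕ) (J : ∀ i, Mat (n i)) : Prop :=
  ∀ (CA : ℝ) (k : ℕ), 1 ≤ k → ∀ ε > 0, ∃ η > 0, ∀ᶠ i in F,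
    ∀ (r : ℝ) (A : Mat (n i)) (y : Vec (n i)) (ν : Cfg (n i) → ℝ), 0 ≤ r → r ≤ 1 →
      A.IsSymm → hsq A ≤ CA → IsProb ν → dlr (r • J i - A) y ν ≤ η * n i →
      ∀ v : Vec (n i), sq v ≤ 1 →
        Ex ν (fun x => |ip v (sv x - ampM (r • J i - A) r y x k)|) ≤ ε * √(n i)

/-- uniform form of (U3) -/
def U3S {I : Type*} (F : Filter I) (n : I → ℕ) (J : ∀ i, Mat (n i)) : Prop :=
  ∀ (CA : ℝ) (k : ℕ), 1 ≤ k → ∀ ε > 0, ∃ η > 0, ∀ᶠ i in F,
    ∀ (r : ℝ) (A : Mat (n i)) (y : Vec (n i)) (ν : Cfg (n i) → ℝ), 0 ≤ r → r ≤ 1 →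
      A.IsSymm → hsq A ≤ CA → IsProb ν → dlr (r • J i - A) y ν ≤ η * n i →
        Ex ν (fun x => |qq (ampM (r • J i - A) r y x k - ampM (r • J i - A) r y x (k + 1))
          - (qq (ampM (r • J i - A) r y x k) - qq (ampM (r • J i - A) r y x (k + 1)))|) ≤ ε

/-- exponential form of (U2) -/
def X2S {I : Type*} (F : Filter I) (n : I → ℕ) (J : ∀ i, Mat (n i)) : Prop :=
  ∀ (CA : ℝ) (k : ℕ), 1 ≤ k → ∀ ε > 0, ∃ c > 0, ∀ᶠ i in F,
    ∀ (r : ℝ) (A : Mat (n i)) (y : Vec (n i)), 0 ≤ r → r ≤ 1 → A.IsSymm → hsq A ≤ CA →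
      ∀ v : Vec (n i), sq v ≤ 1 →
        (∑ x, if ε * √(n i) ≤ |ip v (sv x - ampM (r • J i - A) r y x k)|
          then gM (r • J i - A) y x else 0) ≤ Real.exp (-(c * n i))

namespace DX

variable {n : ℕ}

theorem hsq_nn (A : Mat n) : 0 ≤ hsq A :=
  Finset.sum_nonneg fun _ _ => Finset.sum_nonneg fun _ _ => sq_nonneg _

theorem opLe_of_hsq {A : Mat n} {C : ℝ} (h : hsq A ≤ C) : OpLe A (√C) := by
  intro v
  have hC : 0 ≤ C := (hsq_nn A).trans h
  rw [Real.sq_sqrt hC]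
  have hv : 0 ≤ sq v := sqN_nonneg v
  calc sq (A.mulVec v) ≤ ∑ i, (∑ j, A i j ^ 2) * sq v := by
        unfold sq
        refine Finset.sum_le_sum fun i _ => ?_
        exact Finset.sum_mul_sq_le_sq_mul_sq Finset.univ (fun j => A i j) v
    _ = hsq A * sq v := by rw [← Finset.sum_mul]; rfl
    _ ≤ C * sq v := mul_le_mul_of_nonneg_right h hv

theorem dd_abs_abs_le (i : Fin n) (f : Cfg n → ℝ) (x : Cfg n) :
    |dd i (fun z => |f z|) x| ≤ |dd i f x| := by
  unfold dd
  rw [abs_div, abs_div]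
  exact div_le_div_of_nonneg_right (abs_abs_sub_abs_le_abs_sub _ _) (abs_nonneg _)

theorem gsq_abs_le (f : Cfg n → ℝ) (x : Cfg n) : gsq (fun z => |f z|) x ≤ gsq f x := by
  unfold gsq
  refine Finset.sum_le_sum fun i _ => ?_
  exact sq_le_sq.2 (dd_abs_abs_le i f x)

theorem gsq_mul_const (f : Cfg n → ℝ) (c : ℝ) (x : Cfg n) :
    gsq (fun z => c * f z) x = c ^ 2 * gsq f x := by
  unfold gsq
  rw [Finset.mul_sum]
  exact Finset.sum_congr rfl fun i _ => by rw [Vale.Agent.P150.F.DB.dd_const_mul]; ring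

/-- gradient of a linear functional of a field -/
theorem gsq_ip_le {G : Cfg n → Vec n} {x : Cfg n} {C : ℝ} (hC : OpLe (DD G x) C) (hC0 : 0 ≤ C)
    {v : Vec n} (hv : sq v ≤ 1) : gsq (fun z => ip v (G z)) x ≤ C ^ 2 := by
  have e : (fun i => dd i (fun z => ip v (G z)) x) = (DD G x)ᵀ.mulVec v := by
    funext i
    have e1 : dd i (fun z => ip v (G z)) x = ∑ j, v j * dd i (fun z => G z j) x := by
      unfold ip
      rw [Vale.Agent.P150.F.DB.dd_sum]
      exact Finset.sum_congr rfl fun j _ => Vale.Agent.P150.F.DB.dd_const_mul i _ _ x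
    rw [e1]
    unfold Matrix.mulVec dotProduct
    refine Finset.sum_congr rfl fun j _ => ?_
    show _ = dd i (fun z => G z j) x * v j
    ring
  rw [gsq_eq, nv_sq, e]
  calc _ ≤ C ^ 2 * sq v := Vale.Agent.P150.F.DB.opLe_transpose hC hC0 v
    _ ≤ C ^ 2 * 1 := mul_le_mul_of_nonneg_left hv (sq_nonneg C)
    _ = C ^ 2 := mul_one _

/-- the generic step: from a mean bound under laws of small DLR defect to an exponential bound -/
theorem exp_of_mean {M : Mat n} (hM : M.IsSymm) (y : Vec n) (φ : Cfg n → ℝ) {B η e lam : ℝ}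
    (hn : 0 < n) (hlam : 0 < lam) (hB : lam ^ 2 * B ≤ η) (hφ : ∀ x, gsq φ x * n ≤ B)
    (hmean : ∀ ν : Cfg n → ℝ, IsProb ν → dlr M y ν ≤ η * n → Ex ν φ ≤ e / 2) :
    (∑ x, if e ≤ φ x then gM M y x else 0) ≤ Real.exp (-((lam * e / 2) * n)) := by
  have hn' : (0 : ℝ) < n := by exact_mod_cast hn
  have h1 := tilt_bound (tl_gM_pos M y) (tl_gM_isProb M y).2 φ (c := lam * n) (a := e) (by positivity)
  have h2 : dlr M y (tlt (gM M y) fun x => lam * n * φ x) ≤ η * n := by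
    refine (dlr_tlt_le hM y φ (lam * n) (B / n) fun x => ?_).trans ?_
    · rw [le_div_iff₀ hn']; exact hφ x
    · have : (lam * n) ^ 2 * (B / n) = lam ^ 2 * B * n := by field_simp
      rw [this]
      exact mul_le_mul_of_nonneg_right hB hn'.le
  have h3 := hmean _ (tlt_isProb (tl_gM_pos M y) _) h2
  refine h1.trans (Real.exp_le_exp.2 ?_)
  have : lam * n * (e / 2) ≤ lam * n * (e - Ex (tlt (gM M y) fun x => lam * n * φ x) φ) :=
    mul_le_mul_of_nonneg_left (by linarith only [h3]) (by positivity)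
  linarith only [this]

theorem isSymm_M {J A : Mat n} (hJ : ∀ a b, J a b = J b a) (hA : A.IsSymm) (r : ℝ) :
    (r • J - A).IsSymm := by
  have : J.IsSymm := by ext a b; exact (hJ a b).symm
  exact (this.smul r).sub hA

theorem opLe_M {J A : Mat n} {r CA : ℝ} (hJ : OpLe J 3) (hr0 : 0 ≤ r) (hr1 : r ≤ 1)
    (hA : hsq A ≤ CA) : OpLe (r • J - A) (3 + √CA) := by
  have h1 : OpLe (r • J) 3 := (hJ.smul (by norm_num) r).monoN (by positivity) (by
    rw [abs_of_nonneg hr0]; linarith only [hr1])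
  exact h1.sub (opLe_of_hsq hA) (by norm_num) (Real.sqrt_nonneg _)

theorem DD_constField (y : Vec n) (x : Cfg n) : DD (fun _ => y) x = 0 := by
  ext j i; exact Vale.Agent.P150.F.DB.dd_const i _ x

theorem exists_lam {B η : ℝ} (hB : 0 ≤ B) (hη : 0 < η) : ∃ lam > 0, lam ^ 2 * B ≤ η := by
  refine ⟨√(η / (B + 1)), Real.sqrt_pos.2 (by positivity), ?_⟩
  rw [Real.sq_sqrt (by positivity), div_mul_eq_mul_div, div_le_iff₀ (by positivity)]
  linarith only [hη]

end DX

open DX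

variable {β : ℝ} {I : Type*} {F : Filter I} {n : I → ℕ} {J : ∀ i, Mat (n i)}

/-- D2x, part 1 -/
theorem x2_of_u2 (h : Good β F n J) (hU : U2S F n J) : X2S F n J := by
  intro CA k hk ε hε
  obtain ⟨C, hC0, hC⟩ := amp_bound (3 + √CA) 0 (by positivity) le_rfl k
  obtain ⟨η, hη, hU⟩ := hU CA k hk (ε / 2) (by positivity)
  obtain ⟨lam, hlam, hl⟩ := exists_lam (B := (1 + C) ^ 2) (by positivity) hη
  refine ⟨lam * ε / 2, by positivity, ?_⟩
  filter_upwards [hU, h.op 1 one_pos, h.hn.eventually_gt_atTop 0] with i hU hop hn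
  have hop3 : OpLe (J i) 3 := by norm_num at hop; exact hop
  intro r A y hr0 hr1 hA hCA v hv
  set M := r • J i - A with hMdef
  have hM : M.IsSymm := isSymm_M (h.symm i) hA r
  have hn' : (0 : ℝ) < n i := by exact_mod_cast hn
  have hs : 0 < √(n i : ℝ) := Real.sqrt_pos.2 hn'
  have key := exp_of_mean hM y (fun x => (1 / √(n i)) * |ip v (sv x - ampM M r y x k)|)
    (B := (1 + C) ^ 2) (η := η) (e := ε) hn hlam hl (fun x => ?_) (fun ν hν hd => ?_)
  · refine le_trans (le_of_eq ?_) key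
    refine Finset.sum_congr rfl fun x _ => ?_
    have e : (ε ≤ 1 / √(n i : ℝ) * |ip v (sv x - ampM M r y x k)|)
        ↔ (ε * √(n i : ℝ) ≤ |ip v (sv x - ampM M r y x k)|) := by
      rw [one_div_mul_eq_div, le_div_iff₀ hs]
    simp only [e]
  · rw [gsq_mul_const, div_pow, one_pow, Real.sq_sqrt hn'.le]
    have hD : OpLe (DD (fun z => sv z - ampM M r y z k) x) (1 + C) := by
      rw [DD_sub sv, DD_sv]
      refine opLe_one.sub (hC (n i) M r (fun _ => y) (opLe_M hop3 hr0 hr1 hCA) hr0 hr1 x ?_).1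
        zero_le_one hC0
      rw [DD_constField]; exact opLe_zero
    have h1 := gsq_ip_le hD (by (clear * - hC0; positivity)) hv
    have h2 := (gsq_abs_le (fun z => ip v (sv z - ampM M r y z k)) x).trans h1
    calc 1 / (n i : ℝ) * gsq (fun z => |ip v (sv z - ampM M r y z k)|) x * n i
        = gsq (fun z => |ip v (sv z - ampM M r y z k)|) x := by field_simp
      _ ≤ _ := h2
  · have h1 := hU r A y ν hr0 hr1 hA hCA hν hd v hv
    have e : Ex ν (fun x => 1 / √(n i : ℝ) * |ip v (sv x - ampM M r y x k)|)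
        = 1 / √(n i : ℝ) * Ex ν (fun x => |ip v (sv x - ampM M r y x k)|) := by
      unfold Ex; rw [Finset.mul_sum]; exact Finset.sum_congr rfl fun x _ => by ring
    rw [e, one_div_mul_eq_div, div_le_iff₀ hs]
    exact h1

end Vale.Agent.P150.F
end

section

/-! P150 FULL, module D3b: the overlap statement from the law statement (helper84). -/

open MeasureTheory ProbabilityTheory Filter Topology
open scoped Matrix

namespace Vale.Agent.P150.F.D3

theorem mc_NEs_tanh_sq {g : ℝ} (hg : 0 ≤ g) {e : ℝ} (he : e = 1 ∨ e = -1) :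
    NEs (fun _ a => Real.tanh a ^ 2) g e = qRS g := by
  rw [qRS_eq hg]
  unfold NEs NE
  rcases he with rfl | rfl
  · simp only [mul_one]
  · rw [← sg_map_neg]
    refine integral_congr_ae (ae_of_all _ fun z => ?_)
    show Real.tanh (g * -1 + √g * -z) ^ 2 = Real.tanh (g + √g * z) ^ 2
    have : g * -1 + √g * -z = -(g + √g * z) := by ring
    rw [this, Real.tanh_neg, neg_sq]

theorem mc_sv_eq_or {n : ℕ} (x : Cfg n) (j : Fin n) : sv x j = 1 ∨ sv x j = -1 := by
  unfold sv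
  cases x j <;> simp [sp]

theorem D3bQ_of_A {β κ : ℝ} (hκ : 0 ≤ κ) (hA : D3bA β κ) : D3bQ β κ := by
  intro I F n J hG C k e he
  obtain ⟨η, hη, h⟩ := hA F n J hG (fun _ a => Real.tanh a ^ 2) 1
    (fun _ => rs_tanh_cont.pow 2) (fun _ a => by
      have h1 := rs_tanh_sq_abs_le a
      have h2 := abs_nonneg a
      linarith) C k e he
  refine ⟨η, hη, ?_⟩
  filter_upwards [h, hG.hn.eventually_ge_atTop 1] with i hi hn m R s w hs hJ
  have hn' : (0 : ℝ) < n i := by exact_mod_cast hn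
  refine le_trans (le_of_eq ?_) (hi m R s w hs hJ)
  unfold EJ
  refine Finset.sum_congr rfl fun x _ => integral_congr_ae (ae_of_all _ fun ξ => ?_)
  show w x ξ * |_| = w x ξ * |_|
  congr 2
  have hg := gam_nonneg hκ hs k
  have h1 : ∑ j, (Real.tanh (ampA ((β - s) • J i) (β - s) (obs R s x ξ) x k j) ^ 2
      - NEs (fun _ a => Real.tanh a ^ 2) (gam β κ s k) (sv x j))
      = sq (ampM ((β - s) • J i) (β - s) (obs R s x ξ) x (k + 1))
        - n i * qRS (gam β κ s k) := by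
    rw [Finset.sum_sub_distrib]
    congr 1
    · unfold sq
      refine Finset.sum_congr rfl fun j _ => ?_
      rw [DB.ampM_succ]
    · have h2 : ∀ j, NEs (fun _ a => Real.tanh a ^ 2) (gam β κ s k) (sv x j)
          = qRS (gam β κ s k) := fun j => mc_NEs_tanh_sq hg (mc_sv_eq_or x j)
      simp only [h2, Finset.sum_const, Finset.card_univ, Fintype.card_fin, nsmul_eq_mul]
  rw [h1]
  unfold qq
  field_simp

end Vale.Agent.P150.F.D3
end

section

/-! P150 FULL, D6 (O1): probabilities of events of the spins and of the noise path. -/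

open MeasureTheory ProbabilityTheory Filter Topology
open scoped Matrix ENNReal

namespace Vale.Agent.P150.F

variable {n m : ℕ}

/-- probability of an event of spins and noises (spins with weights `μ`, independent noises) -/
noncomputable def PE (μ : Cfg n → ℝ) (E : Cfg n → (ℕ → Vec m) → Prop) : ℝ :=
  ∑ x, μ x * (PN m).real {ω | E x ω}

theorem PE_mono {μ : Cfg n → ℝ} (hμ : ∀ x, 0 ≤ μ x) {E E' : Cfg n → (ℕ → Vec m) → Prop}
    (h : ∀ x ω, E x ω → E' x ω) : PE μ E ≤ PE μ E' :=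
  Finset.sum_le_sum fun x _ => mul_le_mul_of_nonneg_left
    (measureReal_mono fun ω hω => h x ω hω) (hμ x)

theorem PE_congr {μ : Cfg n → ℝ} {E E' : Cfg n → (ℕ → Vec m) → Prop}
    (h : ∀ x ω, E x ω ↔ E' x ω) : PE μ E = PE μ E' := by
  unfold PE
  simp only [h]

theorem PE_or_le {μ : Cfg n → ℝ} (hμ : ∀ x, 0 ≤ μ x) (E E' : Cfg n → (ℕ → Vec m) → Prop) :
    PE μ (fun x ω => E x ω ∨ E' x ω) ≤ PE μ E + PE μ E' := by
  unfold PE
  rw [← Finset.sum_add_distrib]
  refine Finset.sum_le_sum fun x _ => ?_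
  rw [← mul_add]
  exact mul_le_mul_of_nonneg_left (measureReal_union_le {ω | E x ω} {ω | E' x ω}) (hμ x)

theorem PE_false (μ : Cfg n → ℝ) : PE μ (fun _ (_ : ℕ → Vec m) => False) = 0 := by
  unfold PE; simp

theorem PE_exists_le {μ : Cfg n → ℝ} (hμ : ∀ x, 0 ≤ μ x) {ι : Type*} (s : Finset ι)
    (E : ι → Cfg n → (ℕ → Vec m) → Prop) :
    PE μ (fun x ω => ∃ i ∈ s, E i x ω) ≤ ∑ i ∈ s, PE μ (E i) := by
  classical
  induction s using Finset.induction_on with
  | empty => simp [PE_false]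
  | insert a s ha ih =>
    rw [Finset.sum_insert ha]
    refine le_trans ?_ ((PE_or_le hμ (E a) fun x ω => ∃ i ∈ s, E i x ω).trans
      (by gcongr))
    refine PE_mono hμ fun x ω h => ?_
    obtain ⟨i, hi, h⟩ := h
    rcases Finset.mem_insert.1 hi with rfl | hi
    · exact Or.inl h
    · exact Or.inr ⟨i, hi, h⟩

theorem PE_exists_le_card {μ : Cfg n → ℝ} (hμ : ∀ x, 0 ≤ μ x) {ι : Type*} (s : Finset ι)
    (E : ι → Cfg n → (ℕ → Vec m) → Prop) {θ : ℝ} (h : ∀ i ∈ s, PE μ (E i) ≤ θ) :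
    PE μ (fun x ω => ∃ i ∈ s, E i x ω) ≤ s.card * θ := by
  refine (PE_exists_le hμ s E).trans ((Finset.sum_le_sum h).trans ?_)
  rw [Finset.sum_const, nsmul_eq_mul]

/-- an event with conditional probability (given the spins) at most `θ` -/
theorem PE_le_of_forall {μ : Cfg n → ℝ} (hμ : IsProb μ) {E : Cfg n → (ℕ → Vec m) → Prop} {θ : ℝ}
    (h : ∀ x, (PN m).real {ω | E x ω} ≤ θ) : PE μ E ≤ θ := by
  unfold PE
  calc ∑ x, μ x * (PN m).real {ω | E x ω} ≤ ∑ x, μ x * θ :=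
        Finset.sum_le_sum fun x _ => mul_le_mul_of_nonneg_left (h x) (hμ.1 x)
    _ = θ := by rw [← Finset.sum_mul, hμ.2, one_mul]

open Classical in
/-- events of the spins only -/
theorem PE_spin (μ : Cfg n → ℝ) (B : Cfg n → Prop) :
    PE μ (fun x (_ : ℕ → Vec m) => B x) = ∑ x, if B x then μ x else 0 := by
  unfold PE
  refine Finset.sum_congr rfl fun x _ => ?_
  split_ifs with h
  · simp [h]
  · simp [h]

/-- events of the noise only -/
theorem PE_noise {μ : Cfg n → ℝ} (hμ : IsProb μ) (E : (ℕ → Vec m) → Prop) :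
    PE μ (fun _ ω => E ω) = (PN m).real {ω | E ω} := by
  unfold PE
  rw [← Finset.sum_mul, hμ.2, one_mul]

variable {S : Type} [MeasurableSpace S]

namespace Proc

variable (P : Proc n m S)

open Classical in
/-- multi-step Bayes: an event of the state at step `k` and of the spins has at most the maximal
probability under the laws of the states -/
theorem PE_traj_le (h1 : CH1) (hG : CHG) {B : S → Cfg n → Prop}
    (hB : ∀ x, MeasurableSet {s | B s x}) {θ : ℝ}
    (h : ∀ s, (∑ x, if B s x then P.law s x else 0) ≤ θ) (k : ℕ) (s : S) :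
    PE (P.law s) (fun x ω => B (P.traj s x ω k) x) ≤ θ := by
  set Φ : S → Cfg n → ℝ := fun s x => if B s x then 1 else 0 with hΦd
  have hΦ : ∀ x, Measurable fun s => Φ s x := fun x =>
    Measurable.ite (hB x) measurable_const measurable_const
  have hC : ∀ s x, |Φ s x| ≤ 1 := by
    intro s x
    simp only [hΦd]
    split_ifs <;> norm_num
  have e1 : PE (P.law s) (fun x ω => B (P.traj s x ω k) x) = P.avg (P.ET k Φ) s := by
    unfold PE avg ET
    refine Finset.sum_congr rfl fun x _ => ?_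
    congr 1
    have hm : MeasurableSet {ω : ℕ → Vec m | B (P.traj s x ω k) x} :=
      P.meas_traj_right s x k (hB x)
    rw [show (fun ω => Φ (P.traj s x ω k) x)
      = Set.indicator {ω : ℕ → Vec m | B (P.traj s x ω k) x} (fun _ => (1 : ℝ)) from ?_,
      integral_indicator hm]
    · simp
    · funext ω
      simp only [hΦd, Set.indicator_apply, Set.mem_ofPred_eq]
  have hav : ∀ s, P.avg Φ s ≤ θ := by
    intro s
    refine le_trans (le_of_eq ?_) (h s)
    unfold avg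
    refine Finset.sum_congr rfl fun x _ => ?_
    simp only [hΦd]
    split_ifs <;> simp
  have hav0 : ∀ s, |P.avg Φ s| ≤ 1 := by
    intro s
    unfold avg
    refine (Finset.abs_sum_le_sum_abs _ _).trans ?_
    calc ∑ x, |P.law s x * Φ s x| ≤ ∑ x, P.law s x * 1 := by
          refine Finset.sum_le_sum fun x _ => ?_
          rw [abs_mul, abs_of_pos (P.law_pos s x)]
          exact mul_le_mul_of_nonneg_left (hC s x) (P.law_pos s x).le
      _ = 1 := by rw [← Finset.sum_mul, P.law_sum, one_mul]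
  rw [e1, P.avg_ET h1 hG hΦ hC k s]
  have e2 : ∀ x, P.ET k (fun s' _ => P.avg Φ s') s x ≤ θ := by
    intro x
    unfold ET
    have hi := P.integrable_traj (Φ := fun s' (_ : Cfg n) => P.avg Φ s')
      (fun _ => P.meas_avg hΦ) (C := 1) (fun s _ => hav0 s) s x x k
    have := integral_mono hi (integrable_const θ) (fun ω => hav _)
    refine this.trans ?_
    simp
  unfold avg
  calc ∑ x, P.law s x * P.ET k (fun s' _ => ∑ x, P.law s' x * Φ s' x) s x
      ≤ ∑ x, P.law s x * θ := Finset.sum_le_sum fun x _ =>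
        mul_le_mul_of_nonneg_left (e2 x) (P.law_pos s x).le
    _ = θ := by rw [← Finset.sum_mul, P.law_sum, one_mul]

/-- the Markov property for events -/
theorem PN_markov {E : S → (ℕ → Vec m) → Prop}
    (hE : MeasurableSet {p : S × (ℕ → Vec m) | E p.1 p.2}) {θ : ℝ} (hθ : 0 ≤ θ)
    (h : ∀ s, (PN m).real {ω | E s ω} ≤ θ) (x : Cfg n) (k : ℕ) (s : S) :
    (PN m).real {ω | E (P.traj s x ω k) (shS k ω)} ≤ θ := by
  classical
  set F : S → (ℕ → Vec m) → ℝ≥0∞ := fun s ω => if E s ω then 1 else 0 with hF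
  have hFm : Measurable fun p : S × (ℕ → Vec m) => F p.1 p.2 :=
    Measurable.ite hE measurable_const measurable_const
  have hms : ∀ s, MeasurableSet {ω | E s ω} := fun s =>
    (measurable_const.prodMk measurable_id : Measurable fun ω : ℕ → Vec m => (s, ω)) hE
  have hm1 : MeasurableSet {ω : ℕ → Vec m | E (P.traj s x ω k) (shS k ω)} :=
    ((P.meas_traj_right s x k).prodMk (measurable_shS k)) hE
  have e1 : ∀ A : Set (ℕ → Vec m), MeasurableSet A →
      (PN m) A = ∫⁻ ω, (if ω ∈ A then 1 else 0) ∂PN m := by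
    intro A hA
    rw [show (fun ω => (if ω ∈ A then (1 : ℝ≥0∞) else 0)) = A.indicator (fun _ => 1) from by
      funext ω; simp [Set.indicator_apply], lintegral_indicator hA]
    simp
  have key := P.lintegral_markov hFm x k s
  have e2 : (PN m) {ω : ℕ → Vec m | E (P.traj s x ω k) (shS k ω)}
      = ∫⁻ ω, F (P.traj s x ω k) (shS k ω) ∂PN m := e1 _ hm1
  have e3 : ∀ s, ∫⁻ ω', F s ω' ∂PN m = (PN m) {ω | E s ω} := fun s => (e1 _ (hms s)).symm
  have e4 : (PN m) {ω : ℕ → Vec m | E (P.traj s x ω k) (shS k ω)} ≤ ENNReal.ofReal θ := by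
    rw [e2, key]
    calc ∫⁻ ω, ∫⁻ ω', F (P.traj s x ω k) ω' ∂PN m ∂PN m
        ≤ ∫⁻ _, ENNReal.ofReal θ ∂PN m := by
          refine lintegral_mono fun ω => ?_
          rw [e3]
          have := h (P.traj s x ω k)
          rw [Measure.real] at this
          rw [← ENNReal.ofReal_toReal (measure_ne_top (PN m) _)]
          exact ENNReal.ofReal_le_ofReal this
      _ = ENNReal.ofReal θ := by simp
  rw [Measure.real]
  exact ENNReal.toReal_le_of_le_ofReal hθ e4

/-- the Markov property for events, averaged over the spins -/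
theorem PE_markov {E : S → (ℕ → Vec m) → Prop}
    (hE : MeasurableSet {p : S × (ℕ → Vec m) | E p.1 p.2}) {θ : ℝ} (hθ : 0 ≤ θ)
    (h : ∀ s, (PN m).real {ω | E s ω} ≤ θ) {μ : Cfg n → ℝ} (hμ : IsProb μ) (k : ℕ) (s : S) :
    PE μ (fun x ω => E (P.traj s x ω k) (shS k ω)) ≤ θ :=
  PE_le_of_forall hμ fun x => P.PN_markov hE hθ h x k s

/-- the hitting probability as a probability on the path space -/
theorem hitE_eq (B : ℕ → Set S) (hB : ∀ k, MeasurableSet (B k)) (k : ℕ) (s : S) :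
    P.hitE B k s = PE (P.law s) (fun x ω => ∃ j ≤ k, P.traj s x ω j ∈ B (k - j)) := by
  unfold hitE avg PE
  exact Finset.sum_congr rfl fun x _ => by rw [P.hit_eq B hB]

theorem hitE_const_eq {B : Set S} (hB : MeasurableSet B) (k : ℕ) (s : S) :
    P.hitE (fun _ => B) k s = PE (P.law s) (fun x ω => ∃ j ≤ k, P.traj s x ω j ∈ B) :=
  P.hitE_eq (fun _ => B) (fun _ => hB) k s

end Proc

end Vale.Agent.P150.F
end

section

/-! P150 FULL, D6 (O1): union bound for the good events. -/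

open MeasureTheory ProbabilityTheory Filter Topology
open scoped Matrix ENNReal

namespace Vale.Agent.P150.F

variable {n : ℕ}

/-- the finite set of check levels -/
def chkF (p : SPar n) (Pm q' : ℕ) : Finset ℕ :=
  (Finset.range (p.Nw * (p.d + 1) + 1)).image (fun f => f * p.q) ∪
    ((Finset.univ : Finset (Fin p.Nw)) ×ˢ Finset.range (Pm + 1)).image
      (fun il => ((il.1 : ℕ) * (p.d + 1) + p.d) * p.q + il.2 * q')

theorem mem_chkF {p : SPar n} {Pm q' k : ℕ} (h : p.IsChk Pm q' k) : k ∈ chkF p Pm q' := by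
  unfold chkF
  rw [Finset.mem_union]
  rcases h with ⟨f, hf, rfl⟩ | ⟨i, l, hl, rfl⟩
  · exact Or.inl (Finset.mem_image_of_mem _ (Finset.mem_range.2 (by omega)))
  · right
    rw [Finset.mem_image]
    exact ⟨(i, l), Finset.mem_product.2 ⟨Finset.mem_univ _, Finset.mem_range.2 (by omega)⟩, rfl⟩

theorem card_chkF (p : SPar n) (Pm q' : ℕ) :
    (chkF p Pm q').card ≤ p.Nw * (p.d + 1) + 1 + p.Nw * (Pm + 1) := by
  unfold chkF
  refine (Finset.card_union_le _ _).trans (add_le_add ?_ ?_)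
  · exact Finset.card_image_le.trans (by rw [Finset.card_range])
  · refine Finset.card_image_le.trans ?_
    rw [Finset.card_product, Finset.card_range, Finset.card_univ, Fintype.card_fin]

/-- number of elementary bad events -/
def nBad (Nw d Pm K : ℕ) : ℕ :=
  1 + (Nw * (d + 1) + 1 + Nw * (Pm + 1)) * (2 + Nw * d * (K + 3)) + Nw * d + Nw + Nw * Pm

/-- **union bound** -/
theorem PE_not_good {p : SPar n} {μ : Cfg n → ℝ} (hμ : ∀ x, 0 ≤ μ x)
    (P : Cfg n → (ℕ → Vec n) → ℕ → p.Ctr) (y : Cfg n → (ℕ → Vec n) → ℕ → Vec n)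
    {Pm q' K : ℕ} {e ε E E' θ : ℝ} (hθ : 0 ≤ θ)
    (hinit : PE μ (fun x ω => e * √n < nv (p.m0 x ω (K + 2) 0)) ≤ θ)
    (h12 : ∀ k, ∀ j, (j = K ∨ j = K + 1) →
      PE μ (fun x ω => e * √n < nv (p.m0 x ω (j + 1) k - p.m0 x ω j k)) ≤ θ)
    (h3 : ∀ k, ∀ (i : Fin p.Nw) (a : Fin p.d), ∀ j ≤ K + 2,
      PE μ (fun x ω => ε * √n < |ip (p.vd (P x ω k) i a)
        (sv x - ampM (p.rr k • p.J - p.AA k (P x ω k)) (p.rr k) (y x ω k) x j)|) ≤ θ)
    (hS : ∀ (i : Fin p.Nw) (a : Fin p.d), PE μ (fun x ω => ∃ j ≤ p.q, ε * √n <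
      |p.bS (p.vd (P x ω ((i * (p.d + 1) + a) * p.q)) i a) ω i a
        ((i * (p.d + 1) + a) * p.q + j)|) ≤ θ)
    (hJ : ∀ i : Fin p.Nw, PE μ (fun _ ω => ∃ j ≤ p.q, E * √n <
      nv (p.S0.mulVec (p.nJ ω ((i * (p.d + 1) + p.d) * p.q + j)
        - p.nJ ω ((i * (p.d + 1) + p.d) * p.q)))) ≤ θ)
    (hJ' : ∀ i : Fin p.Nw, ∀ l < Pm, PE μ (fun _ ω => E' * √n <
      nv (p.S0.mulVec (p.nJ ω ((i * (p.d + 1) + p.d) * p.q + (l + 1) * q')
        - p.nJ ω ((i * (p.d + 1) + p.d) * p.q + l * q')))) ≤ θ) :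
    PE μ (fun x ω => ¬ GoodEv p x ω (P x ω) (y x ω) Pm q' K e ε E E')
      ≤ nBad p.Nw p.d Pm K * θ := by
  classical
  set B0 : Cfg n → (ℕ → Vec n) → Prop := fun x ω => e * √n < nv (p.m0 x ω (K + 2) 0) with hB0
  set B1 : Cfg n → (ℕ → Vec n) → Prop := fun x ω => ∃ kj ∈ chkF p Pm q' ×ˢ ({K, K + 1} : Finset ℕ),
    e * √n < nv (p.m0 x ω (kj.2 + 1) kj.1 - p.m0 x ω kj.2 kj.1) with hB1
  set B2 : Cfg n → (ℕ → Vec n) → Prop := fun x ω =>
    ∃ t ∈ chkF p Pm q' ×ˢ ((Finset.univ : Finset (Fin p.Nw × Fin p.d)) ×ˢ Finset.range (K + 3)),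
      ε * √n < |ip (p.vd (P x ω t.1) t.2.1.1 t.2.1.2)
        (sv x - ampM (p.rr t.1 • p.J - p.AA t.1 (P x ω t.1)) (p.rr t.1) (y x ω t.1) x t.2.2)|
    with hB2
  set B3 : Cfg n → (ℕ → Vec n) → Prop := fun x ω =>
    ∃ t ∈ (Finset.univ : Finset (Fin p.Nw × Fin p.d)), ∃ j ≤ p.q, ε * √n <
      |p.bS (p.vd (P x ω ((t.1 * (p.d + 1) + t.2) * p.q)) t.1 t.2) ω t.1 t.2
        ((t.1 * (p.d + 1) + t.2) * p.q + j)| with hB3
  set B4 : Cfg n → (ℕ → Vec n) → Prop := fun _ ω =>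
    ∃ i ∈ (Finset.univ : Finset (Fin p.Nw)), ∃ j ≤ p.q, E * √n <
      nv (p.S0.mulVec (p.nJ ω ((i * (p.d + 1) + p.d) * p.q + j)
        - p.nJ ω ((i * (p.d + 1) + p.d) * p.q))) with hB4
  set B5 : Cfg n → (ℕ → Vec n) → Prop := fun _ ω =>
    ∃ t ∈ (Finset.univ : Finset (Fin p.Nw)) ×ˢ Finset.range Pm, E' * √n <
      nv (p.S0.mulVec (p.nJ ω ((t.1 * (p.d + 1) + p.d) * p.q + (t.2 + 1) * q')
        - p.nJ ω ((t.1 * (p.d + 1) + p.d) * p.q + t.2 * q'))) with hB5
  have hsub : ∀ x ω, ¬ GoodEv p x ω (P x ω) (y x ω) Pm q' K e ε E E' →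
      B0 x ω ∨ B1 x ω ∨ B2 x ω ∨ B3 x ω ∨ B4 x ω ∨ B5 x ω := by
    intro x ω hng
    by_contra hcon
    simp only [not_or] at hcon
    obtain ⟨c0, c1, c2, c3, c4, c5⟩ := hcon
    apply hng
    refine ⟨not_lt.1 c0, ?_, ?_, ?_, ?_, ?_⟩
    · intro k hk
      constructor
      · by_contra h
        exact c1 ⟨(k, K), Finset.mem_product.2 ⟨mem_chkF hk, by simp⟩, not_le.1 h⟩
      · by_contra h
        exact c1 ⟨(k, K + 1), Finset.mem_product.2 ⟨mem_chkF hk, by simp⟩, not_le.1 h⟩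
    · intro k hk i a j hj
      by_contra h
      exact c2 ⟨(k, ((i, a), j)), Finset.mem_product.2 ⟨mem_chkF hk, Finset.mem_product.2
        ⟨Finset.mem_univ _, Finset.mem_range.2 (show j < K + 3 by omega)⟩⟩, not_le.1 h⟩
    · intro i a j hj
      by_contra h
      exact c3 ⟨(i, a), Finset.mem_univ _, j, hj, not_le.1 h⟩
    · intro i j hj
      by_contra h
      exact c4 ⟨i, Finset.mem_univ _, j, hj, not_le.1 h⟩
    · intro i l hl
      by_contra h
      exact c5 ⟨(i, l), Finset.mem_product.2 ⟨Finset.mem_univ _, Finset.mem_range.2 hl⟩,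
        not_le.1 h⟩
  have e0 : PE μ B0 ≤ θ := hinit
  have e1 : PE μ B1 ≤ (chkF p Pm q' ×ˢ ({K, K + 1} : Finset ℕ)).card * θ := by
    refine PE_exists_le_card hμ _ _ fun kj hkj => ?_
    have h := (Finset.mem_product.1 hkj).2
    exact h12 kj.1 kj.2 (by simpa using h)
  have e2 : PE μ B2 ≤ (chkF p Pm q' ×ˢ ((Finset.univ : Finset (Fin p.Nw × Fin p.d)) ×ˢ
      Finset.range (K + 3))).card * θ := by
    refine PE_exists_le_card hμ _ _ fun t ht => ?_
    have h := (Finset.mem_product.1 (Finset.mem_product.1 ht).2).2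
    exact h3 t.1 t.2.1.1 t.2.1.2 t.2.2 (by rw [Finset.mem_range] at h; omega)
  have e3 : PE μ B3 ≤ (Finset.univ : Finset (Fin p.Nw × Fin p.d)).card * θ :=
    PE_exists_le_card hμ _ _ fun t _ => hS t.1 t.2
  have e4 : PE μ B4 ≤ (Finset.univ : Finset (Fin p.Nw)).card * θ :=
    PE_exists_le_card hμ _ _ fun i _ => hJ i
  have e5 : PE μ B5 ≤ ((Finset.univ : Finset (Fin p.Nw)) ×ˢ Finset.range Pm).card * θ := by
    refine PE_exists_le_card hμ _ _ fun t ht => ?_
    exact hJ' t.1 t.2 (Finset.mem_range.1 (Finset.mem_product.1 ht).2)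
  have hC := card_chkF p Pm q'
  have c1 : ((chkF p Pm q' ×ˢ ({K, K + 1} : Finset ℕ)).card : ℝ)
      ≤ ((p.Nw * (p.d + 1) + 1 + p.Nw * (Pm + 1)) * 2 : ℕ) := by
    rw [Finset.card_product]
    have : ({K, K + 1} : Finset ℕ).card ≤ 2 := Finset.card_le_two
    exact_mod_cast Nat.mul_le_mul hC this
  have c2 : ((chkF p Pm q' ×ˢ ((Finset.univ : Finset (Fin p.Nw × Fin p.d)) ×ˢ
      Finset.range (K + 3))).card : ℝ)
      ≤ ((p.Nw * (p.d + 1) + 1 + p.Nw * (Pm + 1)) * (p.Nw * p.d * (K + 3)) : ℕ) := by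
    rw [Finset.card_product, Finset.card_product, Finset.card_univ, Fintype.card_prod,
      Fintype.card_fin, Fintype.card_fin, Finset.card_range]
    exact_mod_cast Nat.mul_le_mul_right _ hC
  have c3 : ((Finset.univ : Finset (Fin p.Nw × Fin p.d)).card : ℝ) = (p.Nw * p.d : ℕ) := by
    rw [Finset.card_univ, Fintype.card_prod, Fintype.card_fin, Fintype.card_fin]
  have c4 : ((Finset.univ : Finset (Fin p.Nw)).card : ℝ) = (p.Nw : ℕ) := by
    rw [Finset.card_univ, Fintype.card_fin]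
  have c5 : (((Finset.univ : Finset (Fin p.Nw)) ×ˢ Finset.range Pm).card : ℝ)
      = (p.Nw * Pm : ℕ) := by
    rw [Finset.card_product, Finset.card_univ, Fintype.card_fin, Finset.card_range]
  have t1 := mul_le_mul_of_nonneg_right c1 hθ
  have t2 := mul_le_mul_of_nonneg_right c2 hθ
  rw [c3] at e3
  rw [c4] at e4
  rw [c5] at e5
  have hsum : PE μ (fun x ω => ¬ GoodEv p x ω (P x ω) (y x ω) Pm q' K e ε E E')
      ≤ PE μ B0 + (PE μ B1 + (PE μ B2 + (PE μ B3 + (PE μ B4 + PE μ B5)))) := by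
    refine (PE_mono hμ hsub).trans ?_
    refine (PE_or_le hμ _ _).trans (add_le_add le_rfl ?_)
    refine (PE_or_le hμ _ _).trans (add_le_add le_rfl ?_)
    refine (PE_or_le hμ _ _).trans (add_le_add le_rfl ?_)
    refine (PE_or_le hμ _ _).trans (add_le_add le_rfl ?_)
    exact PE_or_le hμ _ _
  refine hsum.trans ?_
  have hN : (nBad p.Nw p.d Pm K : ℝ) * θ
      = θ + (((p.Nw * (p.d + 1) + 1 + p.Nw * (Pm + 1)) * 2 : ℕ) : ℝ) * θ
        + (((p.Nw * (p.d + 1) + 1 + p.Nw * (Pm + 1)) * (p.Nw * p.d * (K + 3)) : ℕ) : ℝ) * θ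
        + ((p.Nw * p.d : ℕ) : ℝ) * θ + ((p.Nw : ℕ) : ℝ) * θ + ((p.Nw * Pm : ℕ) : ℝ) * θ := by
    unfold nBad
    push_cast
    ring
  rw [hN]
  linarith only [e0, e1, e2, e3, e4, e5, t1, t2]

end Vale.Agent.P150.F
end

section

/-! P150 FULL, D6 (O1): the events (T3) (`D2x` at the actual state) of a process. -/

open MeasureTheory ProbabilityTheory Filter Topology
open scoped Matrix ENNReal

namespace Vale.Agent.P150.F

open Ms

variable {n : ℕ}

/-- the law does not depend on multiples of the identity in the couplings -/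
theorem gM_sub_smul_one (M : Mat n) (c : ℝ) (y : Vec n) :
    gM (M - c • (1 : Mat n)) y = gM M y := by
  have h : ∀ x : Cfg n, qf (M - c • (1 : Mat n)) (sv x) = qf M (sv x) - c * n := by
    intro x
    have h1 : ip (sv x) (sv x) = n := by
      unfold ip
      have : ∀ i : Fin n, sv x i * sv x i = 1 := by
        intro i
        unfold sv sp
        split_ifs <;> norm_num
      simp [this]
    unfold qf
    rw [Matrix.sub_mulVec, Matrix.smul_mulVec, Matrix.one_mulVec]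
    have h2 : ip (sv x) (M.mulVec (sv x) - c • sv x)
        = ip (sv x) (M.mulVec (sv x)) - c * ip (sv x) (sv x) := by
      unfold ip
      rw [Finset.mul_sum, ← Finset.sum_sub_distrib]
      refine Finset.sum_congr rfl fun i _ => ?_
      simp only [Pi.sub_apply, Pi.smul_apply, smul_eq_mul]
      ring
    rw [h2, h1]
  funext x
  unfold gM
  simp only [h]
  have e : ∀ x : Cfg n, Real.exp ((qf M (sv x) - c * n) / 2 + ip y (sv x))
      = Real.exp (-(c * n) / 2) * Real.exp (qf M (sv x) / 2 + ip y (sv x)) := by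
    intro x
    rw [← Real.exp_add]
    congr 1
    ring
  simp only [e]
  rw [← Finset.mul_sum, mul_div_mul_left _ _ (Real.exp_pos _).ne']

/-- (T3) for every process with couplings `r J - A - cc` -/
theorem T3_prob (h1 : CH1) (hG : CHG) {I : Type*} {F : Filter I} {n : I → ℕ}
    {J : ∀ i, Mat (n i)} (hX : X2S F n J) (CA : ℝ) (K : ℕ) {ε : ℝ} (hε : 0 < ε) :
    ∃ c > 0, ∀ᶠ i in F, ∀ (S : Type) [MeasurableSpace S] (P : Proc (n i) (n i) S)
      (r cc : S → ℝ) (A : S → Mat (n i)) (v : S → Vec (n i)),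
      (∀ s, P.M s = r s • J i - A s - cc s • (1 : Mat (n i))) → Measurable r → MMat A → MVec v →
      (∀ s, 0 ≤ r s) → (∀ s, r s ≤ 1) → (∀ s, (A s).IsSymm) → (∀ s, hsq (A s) ≤ CA) →
      (∀ s, sq (v s) ≤ 1) → ∀ (k : ℕ) (s : S), ∀ j ≤ K,
        PE (P.law s) (fun x ω => ε * √(n i) ≤ |ip (v (P.traj s x ω k)) (sv x
          - ampM (r (P.traj s x ω k) • J i - A (P.traj s x ω k)) (r (P.traj s x ω k))
            (P.y (P.traj s x ω k)) x (j + 1))|) ≤ Real.exp (-(c * n i)) := by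
  classical
  have key : ∀ j : ℕ, ∃ c > 0, ∀ᶠ i in F, ∀ (S : Type) [MeasurableSpace S]
      (P : Proc (n i) (n i) S)
      (r cc : S → ℝ) (A : S → Mat (n i)) (v : S → Vec (n i)),
      (∀ s, P.M s = r s • J i - A s - cc s • (1 : Mat (n i))) → Measurable r → MMat A → MVec v →
      (∀ s, 0 ≤ r s) → (∀ s, r s ≤ 1) → (∀ s, (A s).IsSymm) → (∀ s, hsq (A s) ≤ CA) →
      (∀ s, sq (v s) ≤ 1) → ∀ (k : ℕ) (s : S),
        PE (P.law s) (fun x ω => ε * √(n i) ≤ |ip (v (P.traj s x ω k)) (sv x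
          - ampM (r (P.traj s x ω k) • J i - A (P.traj s x ω k)) (r (P.traj s x ω k))
            (P.y (P.traj s x ω k)) x (j + 1))|) ≤ Real.exp (-(c * n i)) := by
    intro j
    obtain ⟨c, hc, hi⟩ := hX CA (j + 1) (by omega) ε hε
    refine ⟨c, hc, ?_⟩
    filter_upwards [hi] with i hi S _ P r cc A v hM hr hA hv hr0 hr1 hAs hAh hv1 k s
    have hyv : MVec P.y := P.measy
    have hMM : MMat fun s => r s • J i - A s := (MMat.smul hr (MMat.const (J i))).sub hA
    refine P.PE_traj_le h1 hG (B := fun s x => ε * √(n i) ≤ |ip (v s) (sv x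
          - ampM (r s • J i - A s) (r s) (P.y s) x (j + 1))|) ?_ ?_ k s
    · intro x
      have hm := MVec.ampM hMM hr hyv x (j + 1)
      have h3 := hv.ip ((MVec.const (S := S) (sv x)).sub hm)
      exact measurableSet_le measurable_const h3.abs
    · intro s
      have h2 := hi (r s) (A s) (P.y s) (hr0 s) (hr1 s) (hAs s) (hAh s) (v s) (hv1 s)
      have e : P.law s = gM (r s • J i - A s) (P.y s) := by
        unfold Proc.law
        rw [hM s, gM_sub_smul_one]
      rw [e]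
      exact h2
  choose c hc hk using key
  obtain ⟨j₀, _, hj₀⟩ := Finset.exists_min_image (Finset.range (K + 1)) c ⟨0, by simp⟩
  refine ⟨c j₀, hc j₀, ?_⟩
  have hall : ∀ᶠ i in F, ∀ j ∈ Finset.range (K + 1), _ :=
    (Filter.eventually_all_finset (Finset.range (K + 1))).2 fun j _ => hk j
  filter_upwards [hall] with i hi S _ P r cc A v hM hr hA hv hr0 hr1 hAs hAh hv1 k s j hj
  have hj' : j ∈ Finset.range (K + 1) := Finset.mem_range.2 (by omega)
  refine (hi j hj' S P r cc A v hM hr hA hv hr0 hr1 hAs hAh hv1 k s).trans ?_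
  refine Real.exp_le_exp.2 (neg_le_neg (mul_le_mul_of_nonneg_right (hj₀ j hj') (Nat.cast_nonneg _)))

end Vale.Agent.P150.F
end

section

/-! P150 FULL, D6a: second-order expansion of the displacement of the TAP solution (helper558). -/

open MeasureTheory ProbabilityTheory Filter Topology
open scoped Matrix

namespace Vale.Agent.P150.F

/-- addition formula for `tanh` -/
theorem tanh_add' (a b : ℝ) :
    Real.tanh (a + b) * (1 + Real.tanh a * Real.tanh b) = Real.tanh a + Real.tanh b := by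
  have ha := (Real.cosh_pos a).ne'
  have hb := (Real.cosh_pos b).ne'
  have hab := (Real.cosh_pos (a + b)).ne'
  rw [Real.tanh_eq_sinh_div_cosh, Real.tanh_eq_sinh_div_cosh a, Real.tanh_eq_sinh_div_cosh b]
  rw [Real.cosh_add] at hab
  rw [Real.sinh_add, Real.cosh_add]
  have e : 1 + Real.sinh a / Real.cosh a * (Real.sinh b / Real.cosh b)
      = (Real.cosh a * Real.cosh b + Real.sinh a * Real.sinh b)
        / (Real.cosh a * Real.cosh b) := by
    field_simp
  rw [e, div_mul_div_comm, mul_comm (Real.cosh a * Real.cosh b + Real.sinh a * Real.sinh b)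
    (Real.cosh a * Real.cosh b), mul_div_mul_right _ _ hab]
  field_simp

theorem abs_tanh_sub_self (x : ℝ) : |Real.tanh x - x| ≤ |x| ^ 3 / 3 := by
  have hg : Monotone (fun x : ℝ => Real.tanh x - x + x ^ 3 / 3) := by
    refine monotone_of_hasDerivAt_nonneg (f' := fun x => (1 - Real.tanh x ^ 2) - 1 + 3 * x ^ 2 / 3)
      (fun x => ?_) (fun x => ?_)
    · have h3 := (hasDerivAt_pow 3 x).div_const 3
      have h : HasDerivAt (fun x : ℝ => Real.tanh x - x + x ^ 3 / 3) _ x :=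
        ((hasDerivAt_tanh x).sub (hasDerivAt_id x)).add h3
      refine h.congr_deriv ?_
      norm_num
    · have h1 := abs_tanh_le x
      have h2 : Real.tanh x ^ 2 ≤ x ^ 2 := sq_le_sq.2 h1
      change 0 ≤ (1 - Real.tanh x ^ 2) - 1 + 3 * x ^ 2 / 3
      linarith only [h2]
  have hh : Monotone (fun x : ℝ => x - Real.tanh x) := by
    refine monotone_of_hasDerivAt_nonneg (f' := fun x => 1 - (1 - Real.tanh x ^ 2))
      (fun x => ?_) (fun x => ?_)
    · exact (hasDerivAt_id x).sub (hasDerivAt_tanh x)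
    · change 0 ≤ 1 - (1 - Real.tanh x ^ 2)
      have := sq_nonneg (Real.tanh x)
      linarith only [this]
  rcases le_total 0 x with hx | hx
  · have h1 := hg hx
    have h2 := hh hx
    simp only [Real.tanh_zero] at h1 h2
    rw [abs_of_nonneg hx, abs_le]
    constructor <;> linarith
  · have h1 := hg hx
    have h2 := hh hx
    simp only [Real.tanh_zero] at h1 h2
    rw [abs_of_nonpos hx, abs_le]
    have e : (-x) ^ 3 = - x ^ 3 := by ring
    rw [e]
    constructor <;> linarith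

theorem abs_tanh_le_of_le_one {x : ℝ} (hx : |x| ≤ 1) : |Real.tanh x| ≤ 77 / 100 := by
  have hm : Monotone Real.tanh := by
    refine monotone_of_hasDerivAt_nonneg (f' := fun x => 1 - Real.tanh x ^ 2)
      (fun x => hasDerivAt_tanh x) (fun x => (one_sub_tanh_sq_pos x).le)
  have h1 : Real.tanh 1 ≤ 77 / 100 := by
    rw [Real.tanh_eq, Real.exp_neg]
    have he := Real.exp_one_lt_d9
    have he0 := Real.exp_pos 1
    set E := Real.exp 1
    rw [div_le_iff₀ (by positivity)]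
    have : E * E⁻¹ = 1 := mul_inv_cancel₀ he0.ne'
    have hi : 0 < E⁻¹ := inv_pos.2 he0
    have h2 : E * E ≤ 769 / 100 := by nlinarith
    have h3 : E = (E * E) * E⁻¹ := by
      rw [mul_assoc, this, mul_one]
    nlinarith
  rcases abs_le.1 hx with ⟨ha, hb⟩
  rw [abs_le]
  constructor
  · have := hm ha
    rw [Real.tanh_neg] at this
    linarith
  · exact (hm hb).trans h1

/-- third order expansion of `tanh` around `artanh m` -/
theorem tanh_taylor {m η : ℝ} (hm : |m| < 1) (hη : |η| ≤ 1) :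
    ∃ ρ : ℝ, |ρ| ≤ 6 * |η| ^ 3 ∧
      Real.tanh (Real.artanh m + η) - m = (1 - m ^ 2) * (η - m * η ^ 2 + ρ) := by
  have hT1 := abs_tanh_le_of_le_one hη
  have hT2 := abs_tanh_le η
  have hT3 := abs_tanh_sub_self η
  have hadd := tanh_add' (Real.artanh m) η
  rw [Real.tanh_artanh ⟨(abs_lt.1 hm).1, (abs_lt.1 hm).2⟩] at hadd
  set T := Real.tanh η with hT
  have hmT : |m * T| ≤ 77 / 100 := by
    rw [abs_mul]
    calc |m| * |T| ≤ 1 * (77 / 100) := mul_le_mul hm.le hT1 (abs_nonneg _) zero_le_one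
      _ = 77 / 100 := one_mul _
  have hpos : 23 / 100 ≤ 1 + m * T := by
    have := (abs_le.1 hmT).1
    linarith only [this]
  have hpos0 : (0 : ℝ) < 1 + m * T := by linarith only [hpos]
  have hadd' : Real.tanh (Real.artanh m + η) = (m + T) / (1 + m * T) := by
    rw [eq_div_iff hpos0.ne', hadd]
  refine ⟨(T - η) - m * (T ^ 2 - η ^ 2) + m ^ 2 * (T ^ 3 / (1 + m * T)), ?_, ?_⟩
  · have h1 : |m * (T ^ 2 - η ^ 2)| ≤ 2 / 3 * |η| ^ 3 := by
      rw [abs_mul]
      have e : T ^ 2 - η ^ 2 = (T - η) * (T + η) := by ring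
      have h2 : |T ^ 2 - η ^ 2| ≤ |η| ^ 3 / 3 * 2 := by
        rw [e, abs_mul]
        refine mul_le_mul hT3 ?_ (abs_nonneg _) (by (clear * -; positivity))
        exact (abs_add_le _ _).trans (by linarith only [hη, hT1])
      calc |m| * |T ^ 2 - η ^ 2| ≤ 1 * (|η| ^ 3 / 3 * 2) :=
            mul_le_mul hm.le h2 (abs_nonneg _) zero_le_one
        _ = 2 / 3 * |η| ^ 3 := by ring
    have h2 : |m ^ 2 * (T ^ 3 / (1 + m * T))| ≤ 100 / 23 * |η| ^ 3 := by
      rw [abs_mul, abs_div, abs_of_pos hpos0, abs_pow, abs_pow]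
      have h3 : |m| ^ 2 ≤ 1 := pow_le_one₀ (abs_nonneg _) hm.le
      have h4 : |T| ^ 3 ≤ |η| ^ 3 := pow_le_pow_left₀ (abs_nonneg _) hT2 3
      have h5 : |T| ^ 3 / (1 + m * T) ≤ 100 / 23 * |η| ^ 3 := by
        rw [div_le_iff₀ hpos0]
        have h6 : 0 ≤ |η| ^ 3 := by positivity
        linarith only [mul_nonneg (mul_self_nonneg (1 : ℝ)) (sub_nonneg.2 h4), mul_nonneg (sub_nonneg.2 hpos) (sub_nonneg.2 h6)]
      calc |m| ^ 2 * (|T| ^ 3 / (1 + m * T)) ≤ 1 * (100 / 23 * |η| ^ 3) :=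
            mul_le_mul h3 h5 (by (clear * - hpos; positivity)) zero_le_one
        _ = _ := one_mul _
    have h6 : 0 ≤ |η| ^ 3 := by (clear * -; positivity)
    have h7 := abs_add_le ((T - η) - m * (T ^ 2 - η ^ 2)) (m ^ 2 * (T ^ 3 / (1 + m * T)))
    have h8 := abs_sub (T - η) (m * (T ^ 2 - η ^ 2))
    linarith only [h8, h7, h6, h2, h1, hT3]
  · rw [hadd']
    field_simp
    ring

variable {n : ℕ}

theorem coef1_le (hn : 0 < n) {r : ℝ} (hr : r ∈ Set.Icc (0 : ℝ) 1) {m : Vec n}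
    (hm : ∀ i, |m i| ≤ 1) (k : Vec n) : |2 * r ^ 2 / n * ip m k| ≤ 2 * nv k := by
  have hn' : (1 : ℝ) ≤ n := by exact_mod_cast hn
  have hn0 : (0 : ℝ) < n := by linarith only [hn']
  have h1 := abs_ip_le m k
  have h2 := nv_le_sqrt_n hm
  have h3 : √(n : ℝ) ≤ n := by
    rw [Real.sqrt_le_left hn0.le]
    (by_contra nlg; linarith only [mul_nonneg (sq_nonneg (↑n : ℝ)) (sub_nonneg.2 hn'), mul_pos (sub_pos.2 (not_le.1 nlg)) (sub_pos.2 hn0)])
  have hk := nv_nonneg k
  have hr2 : r ^ 2 ≤ 1 := pow_le_one₀ hr.1 hr.2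
  have h4 : |ip m k| ≤ n * nv k :=
    h1.trans (mul_le_mul_of_nonneg_right (h2.trans h3) hk)
  rw [abs_mul, abs_div, abs_of_nonneg (by (clear * -; positivity) : (0 : ℝ) ≤ 2 * r ^ 2), abs_of_pos hn0,
    div_mul_eq_mul_div, div_le_iff₀ hn0]
  calc 2 * r ^ 2 * |ip m k| ≤ 2 * 1 * (n * nv k) := by
        refine mul_le_mul (by linarith only [hr2]) h4 (abs_nonneg _) (by norm_num)
    _ = 2 * nv k * n := by ring

theorem coef2_le (hn : 0 < n) {r : ℝ} (hr : r ∈ Set.Icc (0 : ℝ) 1) {m : Vec n}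
    (hm : ∀ i, |m i| ≤ 1) {t : ℝ} : |r ^ 2 / n * t| * nv m ≤ |t| := by
  have hn' : (1 : ℝ) ≤ n := by exact_mod_cast hn
  have hn0 : (0 : ℝ) < n := by linarith only [hn']
  have h2 := nv_le_sqrt_n hm
  have h3 : √(n : ℝ) ≤ n := by
    rw [Real.sqrt_le_left hn0.le]
    (by_contra nlg; linarith only [mul_nonneg (sq_nonneg (↑n : ℝ)) (sub_nonneg.2 hn'), mul_pos (sub_pos.2 (not_le.1 nlg)) (sub_pos.2 hn0)])
  have hr2 : r ^ 2 ≤ 1 := pow_le_one₀ hr.1 hr.2
  have hmn := nv_nonneg m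
  rw [abs_mul, abs_div, abs_of_nonneg (by positivity : (0 : ℝ) ≤ r ^ 2), abs_of_pos hn0,
    div_mul_eq_mul_div, div_mul_eq_mul_div, div_le_iff₀ hn0]
  calc r ^ 2 * |t| * nv m ≤ 1 * |t| * n := by
        refine mul_le_mul (mul_le_mul_of_nonneg_right hr2 (abs_nonneg _)) (h2.trans h3) hmn
          (by positivity)
    _ = |t| * n := by ring

theorem coef3_le (hn : 0 < n) {r : ℝ} (hr : r ∈ Set.Icc (0 : ℝ) 1) (t : ℝ) :
    |r ^ 2 / n * t| ≤ |t| := by
  have hn' : (1 : ℝ) ≤ n := by exact_mod_cast hn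
  have hn0 : (0 : ℝ) < n := by linarith only [hn']
  have hr2 : r ^ 2 ≤ 1 := pow_le_one₀ hr.1 hr.2
  rw [abs_mul, abs_div, abs_of_nonneg (by positivity : (0 : ℝ) ≤ r ^ 2), abs_of_pos hn0,
    div_mul_eq_mul_div, div_le_iff₀ hn0]
  refine mul_le_mul_of_nonneg_right hr2 (abs_nonneg _) |>.trans ?_
  linarith only [mul_nonneg (sub_nonneg.2 hn') (sub_nonneg.2 (abs_nonneg t))]

theorem q1_diff_le (hn : 0 < n) {r : ℝ} (hr : r ∈ Set.Icc (0 : ℝ) 1) {m : Vec n}
    (hm : ∀ i, |m i| ≤ 1) (k k0 : Vec n) :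
    nv ((2 * r ^ 2 / n * ip m k) • k - (2 * r ^ 2 / n * ip m k0) • k0)
      ≤ (2 * nv (k - k0)) * nv k + (2 * nv k0) * nv (k - k0) := by
  have h1 : (2 * r ^ 2 / n * ip m k) • k - (2 * r ^ 2 / n * ip m k0) • k0
      = (2 * r ^ 2 / n * ip m (k - k0)) • k + (2 * r ^ 2 / n * ip m k0) • (k - k0) := by
    have : 2 * r ^ 2 / n * ip m (k - k0)
        = 2 * r ^ 2 / n * ip m k - 2 * r ^ 2 / n * ip m k0 := by
      rw [ip_sub_right]
      ring
    rw [this, sub_smul, smul_sub]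
    abel
  rw [h1]
  refine (nv_add_le _ _).trans ?_
  rw [nv_smul, nv_smul]
  have h2 := coef1_le hn hr hm (k - k0)
  have h3 := coef1_le hn hr hm k0
  exact add_le_add (mul_le_mul_of_nonneg_right h2 (nv_nonneg _))
    (mul_le_mul_of_nonneg_right h3 (nv_nonneg _))

theorem q2_diff_le (hn : 0 < n) {r : ℝ} (hr : r ∈ Set.Icc (0 : ℝ) 1) {m : Vec n}
    (hm : ∀ i, |m i| ≤ 1) (k k0 : Vec n) :
    nv ((r ^ 2 / n * sq k) • (m + k) - (r ^ 2 / n * sq k0) • m)
      ≤ nv (k - k0) * (nv k + nv k0) + nv k ^ 2 * nv k := by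
  have h1 : (r ^ 2 / n * sq k) • (m + k) - (r ^ 2 / n * sq k0) • m
      = (r ^ 2 / n * (sq k - sq k0)) • m + (r ^ 2 / n * sq k) • k := by
    have : r ^ 2 / n * (sq k - sq k0) = r ^ 2 / n * sq k - r ^ 2 / n * sq k0 := by ring
    rw [this, sub_smul, smul_add]
    abel
  rw [h1]
  refine (nv_add_le _ _).trans ?_
  rw [nv_smul, nv_smul]
  have h2 : |r ^ 2 / n * (sq k - sq k0)| * nv m ≤ |sq k - sq k0| := coef2_le hn hr hm
  have h3 : |r ^ 2 / n * sq k| ≤ |sq k| := coef3_le hn hr _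
  have h4 : |sq k - sq k0| ≤ nv (k - k0) * (nv k + nv k0) := by
    rw [← nv_sq, ← nv_sq]
    have e1 : nv k ^ 2 - nv k0 ^ 2 = (nv k - nv k0) * (nv k + nv k0) := by ring
    rw [e1, abs_mul]
    have h5 : |nv k - nv k0| ≤ nv (k - k0) := by
      rw [abs_le]
      constructor
      · have := nv_sub_triangle k0 k 0
        rw [sub_zero, sub_zero, nv_sub_comm k0 k] at this
        linarith only [this]
      · have := nv_sub_triangle k k0 0
        rw [sub_zero, sub_zero] at this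
        linarith only [this]
    have h6 : |nv k + nv k0| = nv k + nv k0 :=
      abs_of_nonneg (add_nonneg (nv_nonneg _) (nv_nonneg _))
    rw [h6]
    exact mul_le_mul_of_nonneg_right h5 (add_nonneg (nv_nonneg _) (nv_nonneg _))
  have h5 : |sq k| = nv k ^ 2 := by rw [← nv_sq, abs_of_nonneg (by positivity)]
  rw [h5] at h3
  exact add_le_add (h2.trans h4) (mul_le_mul_of_nonneg_right h3 (nv_nonneg _))

/-- the implicit equation for the displacement -/
theorem tap_disp2_aux (hn : 0 < n) {C : ℝ} (hC : 1 ≤ C) {J A' G : Mat n} {r' : ℝ}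
    (hr : r' ∈ Set.Icc (0 : ℝ) 1) {m m' ε k : Vec n} (hk : k = m' - m) (hm : ∀ i, |m i| < 1)
    (hm' : ∀ i, |m' i| < 1)
    (h : ∀ i, Real.artanh (m' i) - Real.artanh (m i)
      = ε i - (tapB r' J A' m' i - tapB r' J A' m i))
    (hHG : Hess r' J A' m * G = 1) (hB : OpLe (Bm r' J A' m) C)
    (hloc : nv k ≤ C * nv ε) (hε : nv ε ≤ 1 / (5 * C ^ 2)) :
    nv ((2 * r' ^ 2 / n * ip m k) • k) ≤ 2 * C ^ 2 * nv ε ^ 2 ∧
    nv ((r' ^ 2 / n * sq k) • m') ≤ C ^ 2 * nv ε ^ 2 ∧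
    ∃ η ρ : Vec n, η = ε - (Bm r' J A' m).mulVec k + (2 * r' ^ 2 / n * ip m k) • k
        + (r' ^ 2 / n * sq k) • m' ∧
      nv η ≤ 5 * C ^ 2 * nv ε ∧ nv ρ ≤ 750 * C ^ 6 * nv ε ^ 3 ∧
      k = G.mulVec (ε + (2 * r' ^ 2 / n * ip m k) • k + (r' ^ 2 / n * sq k) • m'
        - (fun i => m i * η i ^ 2) + ρ) := by
  have hC0 : (0 : ℝ) < C := by linarith only [hC]
  set B := Bm r' J A' m with hBdef
  set e := nv ε with he
  have he0 : 0 ≤ e := nv_nonneg ε
  have hGH : G * Hess r' J A' m = 1 := mul_eq_one_comm.1 hHG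
  have hm1 : ∀ i, |m i| ≤ 1 := fun i => (hm i).le
  have hm1' : ∀ i, |m' i| ≤ 1 := fun i => (hm' i).le
  -- scalars
  have hX : C ^ 2 * e ≤ 1 / 5 := by
    have : C ^ 2 * e ≤ C ^ 2 * (1 / (5 * C ^ 2)) := mul_le_mul_of_nonneg_left hε (by positivity)
    refine this.trans (le_of_eq ?_)
    field_simp
  have hC2 : 1 ≤ C ^ 2 := one_le_pow₀ hC
  have he1 : e ≤ 1 / 5 := by linarith only [mul_nonneg (sub_nonneg.2 he0) (sub_nonneg.2 hC2), mul_nonneg (mul_self_nonneg (1 : ℝ)) (sub_nonneg.2 hX)]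
  set c1 : ℝ := 2 * r' ^ 2 / n * ip m k with hc1
  set c2 : ℝ := r' ^ 2 / n * sq k with hc2
  set q1 : Vec n := c1 • k with hq1
  set q2 : Vec n := c2 • m' with hq2
  set η : Vec n := ε - B.mulVec k + q1 + q2 with hη
  have hm'k : m' = m + k := by rw [hk]; abel
  have hηart : ∀ i, Real.artanh (m' i) = Real.artanh (m i) + η i := by
    intro i
    have h1 := h i
    have h2 := tapB_add r' J A' m k i
    rw [← hm'k] at h2
    have h3 : m i + k i = m' i := by
      have := congrFun hm'k i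
      rw [Pi.add_apply] at this
      exact this.symm
    rw [h3] at h2
    have h4 : η i = ε i - B.mulVec k i + c1 * k i + c2 * m' i := by
      simp only [hη, hq1, hq2, Pi.add_apply, Pi.sub_apply, Pi.smul_apply, smul_eq_mul]
    rw [h4]
    linarith
  have hkn : nv k ≤ C * e := hloc
  have hkn0 := nv_nonneg k
  have hq1n : nv q1 ≤ 2 * C ^ 2 * e ^ 2 := by
    rw [hq1, nv_smul]
    calc |c1| * nv k ≤ (2 * nv k) * nv k :=
          mul_le_mul_of_nonneg_right (coef1_le hn hr hm1 k) hkn0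
      _ ≤ (2 * (C * e)) * (C * e) := by gcongr
      _ = _ := by ring
  have hsqk : |sq k| ≤ C ^ 2 * e ^ 2 := by
    rw [← nv_sq, abs_of_nonneg (by (clear * -; positivity))]
    calc nv k ^ 2 ≤ (C * e) ^ 2 := pow_le_pow_left₀ hkn0 hkn 2
      _ = _ := by ring
  have hq2n : nv q2 ≤ C ^ 2 * e ^ 2 := by
    rw [hq2, nv_smul]
    exact (coef2_le hn hr hm1').trans hsqk
  have hηn : nv η ≤ 5 * C ^ 2 * e := by
    have h1 : nv η ≤ nv ε + nv (B.mulVec k) + nv q1 + nv q2 := by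
      rw [hη]
      refine (nv_add_le _ _).trans (add_le_add ((nv_add_le _ _).trans (add_le_add ?_ le_rfl)) le_rfl)
      exact nv_sub_le _ _
    have h2 : nv (B.mulVec k) ≤ C * (C * e) :=
      (hB.nv_le hC0.le k).trans (mul_le_mul_of_nonneg_left hkn hC0.le)
    have h3 : e ≤ C ^ 2 * e := by (by_contra nlg; linarith only [mul_pos (sub_pos.2 (not_le.1 nlg)) (sub_pos.2 hC0), mul_nonneg (sub_nonneg.2 hC2) (sub_nonneg.2 hkn), mul_nonneg (sub_nonneg.2 hC2) (sub_nonneg.2 hkn0)])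
    have h4 : C ^ 2 * e ^ 2 ≤ C ^ 2 * e := by
      have : e ^ 2 ≤ e := by (by_contra nlg; linarith only [nlg, mul_nonneg (sub_nonneg.2 he1) (sub_nonneg.2 hkn0), mul_nonneg (sub_nonneg.2 he1) (sub_nonneg.2 hkn), mul_nonneg (sub_nonneg.2 he0) (sub_nonneg.2 hkn0), mul_nonneg (sub_nonneg.2 he0) (sub_nonneg.2 hkn), mul_pos (sub_pos.2 (not_le.1 nlg)) (sub_pos.2 hC0)])
      exact mul_le_mul_of_nonneg_left this (by positivity)
    have h5 : C * (C * e) = C ^ 2 * e := by ring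
    rw [h5] at h2
    linarith only [hq1n, hq2n, h1, h2, h3, h4]
  have hη1 : nv η ≤ 1 := by
    have : 5 * C ^ 2 * e = 5 * (C ^ 2 * e) := by ring
    rw [this] at hηn
    linarith only [hX, hηn]
  have hρex : ∀ i, ∃ ρ : ℝ, |ρ| ≤ 6 * |η i| ^ 3 ∧
      k i = (1 - m i ^ 2) * (η i - m i * η i ^ 2 + ρ) := by
    intro i
    obtain ⟨ρ, h1, h2⟩ := tanh_taylor (hm i) ((abs_le_nv η i).trans hη1)
    refine ⟨ρ, h1, ?_⟩
    rw [← hηart i, Real.tanh_artanh ⟨(abs_lt.1 (hm' i)).1, (abs_lt.1 (hm' i)).2⟩] at h2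
    rw [← h2, hk, Pi.sub_apply]
  choose ρ hρ1 hρ2 using hρex
  have hρn : nv ρ ≤ 750 * C ^ 6 * e ^ 3 := by
    have h1 : nv ρ ≤ (6 * nv η ^ 2) * nv η := by
      refine nv_le_mul (by (clear * -; positivity)) fun i => (hρ1 i).trans ?_
      have h2 := abs_le_nv η i
      have h3 : |η i| ^ 2 ≤ nv η ^ 2 := pow_le_pow_left₀ (abs_nonneg _) h2 2
      have h4 : |η i| ^ 3 = |η i| ^ 2 * |η i| := by ring
      rw [h4]
      linarith only [mul_le_mul_of_nonneg_right h3 (abs_nonneg (η i))]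
    calc nv ρ ≤ (6 * nv η ^ 2) * nv η := h1
      _ = 6 * nv η ^ 3 := by ring
      _ ≤ 6 * (5 * C ^ 2 * e) ^ 3 := by
          have := nv_nonneg η
          gcongr
      _ = 750 * C ^ 6 * e ^ 3 := by ring
  refine ⟨hq1n, hq2n, η, ρ, rfl, hηn, hρn, ?_⟩
  set w : Vec n := ε + q1 + q2 - (fun i => m i * η i ^ 2) + ρ with hw
  have hHk : (Hess r' J A' m).mulVec k = w := by
    funext i
    have h1 : 0 < 1 - m i ^ 2 := by
      have := (abs_lt.1 (hm i))
      (by_contra nlg; linarith only [nlg, mul_pos (sub_pos.2 this.1) (sub_pos.2 this.2), mul_nonneg (sub_nonneg.2 (not_lt.1 nlg)) (le_of_lt (sub_pos.2 this.2)), mul_nonneg (sub_nonneg.2 (not_lt.1 nlg)) (le_of_lt (sub_pos.2 this.1))])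
    rw [Hess_mulVec, ← hBdef]
    have h2 : k i / (1 - m i ^ 2) = η i - m i * η i ^ 2 + ρ i := by
      rw [hρ2 i]
      field_simp
    rw [h2]
    simp only [hw, hη, Pi.add_apply, Pi.sub_apply]
    ring
  rw [← hHk, Matrix.mulVec_mulVec, hGH, Matrix.one_mulVec]

/-- deterministic second-order expansion of the displacement of a TAP solution -/
theorem tap_disp2 {C : ℝ} (hC : 1 ≤ C) {J A' G : Mat n} {r' : ℝ}
    (hr : r' ∈ Set.Icc (0 : ℝ) 1) {m m' ε : Vec n} (hm : ∀ i, |m i| < 1)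
    (hm' : ∀ i, |m' i| < 1)
    (h : ∀ i, Real.artanh (m' i) - Real.artanh (m i)
      = ε i - (tapB r' J A' m' i - tapB r' J A' m i))
    (hHG : Hess r' J A' m * G = 1) (hG : OpLe G C) (hB : OpLe (Bm r' J A' m) C)
    (hloc : nv (m' - m) ≤ C * nv ε) (hε : nv ε ≤ 1 / (5 * C ^ 2)) :
    nv (m' - m - disp2 r' (Bm r' J A' m) G m ε) ≤ 3200 * C ^ 9 * nv ε ^ 3 := by
  have hC0 : (0 : ℝ) < C := by linarith only [hC]
  rcases Nat.eq_zero_or_pos n with hn | hn
  · subst hn
    have e1 : m' - m - disp2 r' (Bm r' J A' m) G m ε = 0 := Subsingleton.elim _ _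
    rw [e1, nv_zero]
    have := nv_nonneg ε
    (clear * - hC this; positivity)
  set B := Bm r' J A' m with hBdef
  set k : Vec n := m' - m with hk
  set e := nv ε with he
  have he0 : 0 ≤ e := nv_nonneg ε
  set k0 : Vec n := G.mulVec ε with hk0
  have hk0n : nv k0 ≤ C * e := hG.nv_le hC0.le ε
  have hm1 : ∀ i, |m i| ≤ 1 := fun i => (hm i).le
  -- scalars
  have hX : C ^ 2 * e ≤ 1 / 5 := by
    have : C ^ 2 * e ≤ C ^ 2 * (1 / (5 * C ^ 2)) := mul_le_mul_of_nonneg_left hε (by positivity)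
    refine this.trans (le_of_eq ?_)
    field_simp
  have hC2 : 1 ≤ C ^ 2 := one_le_pow₀ hC
  have hm'k : m' = m + k := by rw [hk]; abel
  have hkn : nv k ≤ C * e := hloc
  have hkn0 := nv_nonneg k
  obtain ⟨hq1n, hq2n, η, ρ, hη, hηn, hρn, hkw⟩ := tap_disp2_aux hn hC hr hk hm hm' h hHG hB hloc hε
  rw [← hBdef] at hη
  rw [← he] at hηn hρn hq1n hq2n
  clear_value B
  clear h hHG hm' hm hloc hε
  set q1 : Vec n := (2 * r' ^ 2 / n * ip m k) • k with hq1
  set q2 : Vec n := (r' ^ 2 / n * sq k) • m' with hq2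
  set mη : Vec n := fun i => m i * η i ^ 2 with hmη
  set w : Vec n := ε + q1 + q2 - mη + ρ with hw
  have hmηn : nv mη ≤ 25 * C ^ 4 * e ^ 2 := by
    have h1 : nv mη ≤ nv η * nv η := by
      have h2 : nv (fun i => η i * η i) ≤ nv η * nv η := nv_mul_le η η
      refine (nv_mono fun i => ?_).trans h2
      rw [hmη]
      change |m i * η i ^ 2| ≤ |η i * η i|
      rw [abs_mul, ← pow_two]
      calc |m i| * |η i ^ 2| ≤ 1 * |η i ^ 2| :=
            mul_le_mul_of_nonneg_right (hm1 i) (abs_nonneg _)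
        _ = _ := one_mul _
    have h3 := nv_nonneg η
    calc nv mη ≤ nv η * nv η := h1
      _ ≤ (5 * C ^ 2 * e) * (5 * C ^ 2 * e) := by gcongr
      _ = _ := by ring
  -- first order
  have hkk0 : nv (k - k0) ≤ 178 * C ^ 5 * e ^ 2 := by
    have h1 : k - k0 = G.mulVec (q1 + q2 - mη + ρ) := by
      rw [hk0]
      nth_rewrite 1 [hkw]
      rw [← Matrix.mulVec_sub]
      congr 1
      rw [hw]
      abel
    rw [h1]
    refine (hG.nv_le hC0.le _).trans ?_
    have h2 : nv (q1 + q2 - mη + ρ) ≤ nv q1 + nv q2 + nv mη + nv ρ := by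
      refine (nv_add_le _ _).trans (add_le_add ((nv_sub_le _ _).trans (add_le_add ?_ le_rfl)) le_rfl)
      exact nv_add_le _ _
    have h3 : 750 * C ^ 6 * e ^ 3 ≤ 150 * C ^ 4 * e ^ 2 := by
      have : 750 * C ^ 6 * e ^ 3 = 750 * (C ^ 4 * e ^ 2) * (C ^ 2 * e) := by ring
      rw [this]
      have h4 : 0 ≤ 750 * (C ^ 4 * e ^ 2) := by (clear * - hC; positivity)
      linarith only [mul_le_mul_of_nonneg_left hX h4]
    have h4 : C ^ 2 * e ^ 2 ≤ C ^ 4 * e ^ 2 := by
      have : C ^ 2 ≤ C ^ 4 := pow_le_pow_right₀ hC (by norm_num)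
      exact mul_le_mul_of_nonneg_right this (by (clear * -; positivity))
    calc C * nv (q1 + q2 - mη + ρ) ≤ C * (178 * (C ^ 4 * e ^ 2)) := by
          refine mul_le_mul_of_nonneg_left ?_ hC0.le
          linarith only [h4, h3, h2, hmηn, hq2n, hq1n, hρn]
      _ = _ := by ring
  set η0 : Vec n := ε - B.mulVec k0 with hη0
  have hη0n : nv η0 ≤ 2 * C ^ 2 * e := by
    have h2 : nv (B.mulVec k0) ≤ C * (C * e) :=
      (hB.nv_le hC0.le k0).trans (mul_le_mul_of_nonneg_left hk0n hC0.le)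
    have h3 : e ≤ C ^ 2 * e := by (by_contra nlg; linarith only [mul_pos (sub_pos.2 (not_le.1 nlg)) (sub_pos.2 hC0), mul_nonneg (sub_nonneg.2 hC2) (sub_nonneg.2 hkn), mul_nonneg (sub_nonneg.2 hC2) (sub_nonneg.2 hkn0)])
    have h1 := nv_sub_le ε (B.mulVec k0)
    have h5 : C * (C * e) = C ^ 2 * e := by ring
    rw [h5] at h2
    rw [hη0]
    linarith only [h2, h3, h1]
  have hηη0 : nv (η - η0) ≤ 181 * C ^ 6 * e ^ 2 := by
    have h1 : η - η0 = -(B.mulVec (k - k0)) + q1 + q2 := by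
      rw [hη, hη0, Matrix.mulVec_sub B k k0]
      abel
    have h2 : nv (-(B.mulVec (k - k0))) ≤ C * (178 * C ^ 5 * e ^ 2) := by
      rw [nv_neg]
      exact (hB.nv_le hC0.le _).trans (mul_le_mul_of_nonneg_left hkk0 hC0.le)
    have h3 : nv (-(B.mulVec (k - k0)) + q1 + q2)
        ≤ nv (-(B.mulVec (k - k0))) + nv q1 + nv q2 := by
      refine (nv_add_le _ _).trans (add_le_add (nv_add_le _ _) le_rfl)
    have h4 : C ^ 2 * e ^ 2 ≤ C ^ 6 * e ^ 2 := by
      have : C ^ 2 ≤ C ^ 6 := pow_le_pow_right₀ hC (by norm_num)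
      exact mul_le_mul_of_nonneg_right this (by positivity)
    rw [h1]
    have h5 : C * (178 * C ^ 5 * e ^ 2) = 178 * (C ^ 6 * e ^ 2) := by ring
    rw [h5] at h2
    linarith only [h4, h3, h2, hq2n, hq1n]
  set mη0 : Vec n := fun i => m i * (η0 i) ^ 2 with hmη0
  have hd1 : nv (mη - mη0) ≤ 1267 * C ^ 8 * e ^ 3 := by
    have h1 : nv (mη - mη0) ≤ nv (η - η0) * nv (η + η0) := by
      refine (nv_mono fun i => ?_).trans (nv_mul_le (η - η0) (η + η0))
      rw [Pi.sub_apply, hmη, hmη0]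
      change |m i * η i ^ 2 - m i * η0 i ^ 2| ≤ |(η i - η0 i) * (η i + η0 i)|
      have : m i * η i ^ 2 - m i * η0 i ^ 2 = m i * ((η i - η0 i) * (η i + η0 i)) := by ring
      rw [this, abs_mul]
      calc |m i| * |(η i - η0 i) * (η i + η0 i)| ≤ 1 * |(η i - η0 i) * (η i + η0 i)| :=
            mul_le_mul_of_nonneg_right (hm1 i) (abs_nonneg _)
        _ = _ := one_mul _
    have h2 : nv (η + η0) ≤ 7 * C ^ 2 * e := by
      refine (nv_add_le _ _).trans ?_
      linarith only [hη0n, hηn]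
    calc nv (mη - mη0) ≤ nv (η - η0) * nv (η + η0) := h1
      _ ≤ (181 * C ^ 6 * e ^ 2) * (7 * C ^ 2 * e) :=
          mul_le_mul hηη0 h2 (nv_nonneg _) (by (clear * - hC; positivity))
      _ = _ := by ring
  set c1' : ℝ := 2 * r' ^ 2 / n * ip m k0 with hc1'
  set c2' : ℝ := r' ^ 2 / n * sq k0 with hc2'
  have hk0nn := nv_nonneg k0
  have hkk0n := nv_nonneg (k - k0)
  have hd2 : nv (q1 - c1' • k0) ≤ 712 * C ^ 6 * e ^ 3 := by
    refine (q1_diff_le hn hr hm1 k k0).trans ?_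
    calc (2 * nv (k - k0)) * nv k + (2 * nv k0) * nv (k - k0)
        ≤ (2 * (178 * C ^ 5 * e ^ 2)) * (C * e) + (2 * (C * e)) * (178 * C ^ 5 * e ^ 2) := by
          gcongr
      _ = _ := by ring
  have hd3 : nv (q2 - c2' • m) ≤ 357 * C ^ 6 * e ^ 3 := by
    have h0 := q2_diff_le hn hr hm1 k k0
    rw [← hm'k] at h0
    refine h0.trans ?_
    have h5 : C ^ 3 * e ^ 3 ≤ C ^ 6 * e ^ 3 := by
      have : C ^ 3 ≤ C ^ 6 := pow_le_pow_right₀ hC (by norm_num)
      exact mul_le_mul_of_nonneg_right this (by (clear * - he0; positivity))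
    calc nv (k - k0) * (nv k + nv k0) + nv k ^ 2 * nv k
        ≤ (178 * C ^ 5 * e ^ 2) * (C * e + C * e) + (C * e) ^ 2 * (C * e) := by
          gcongr
      _ = 356 * C ^ 6 * e ^ 3 + C ^ 3 * e ^ 3 := by ring
      _ ≤ _ := by linarith only [h5]
  have hfin : k - disp2 r' B G m ε
      = G.mulVec ((q1 - c1' • k0) + (q2 - c2' • m) - (mη - mη0) + ρ) := by
    unfold disp2
    rw [← hk0, ← hη0, ← hmη0, ← hc1', ← hc2']
    nth_rewrite 1 [hkw]
    rw [← Matrix.mulVec_sub]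
    congr 1
    rw [hw]
    abel
  rw [hfin]
  refine (hG.nv_le hC0.le _).trans ?_
  have h1 : nv ((q1 - c1' • k0) + (q2 - c2' • m) - (mη - mη0) + ρ)
      ≤ nv (q1 - c1' • k0) + nv (q2 - c2' • m) + nv (mη - mη0) + nv ρ := by
    refine (nv_add_le _ _).trans (add_le_add ((nv_sub_le _ _).trans (add_le_add ?_ le_rfl)) le_rfl)
    exact nv_add_le _ _
  have h2 : C ^ 6 * e ^ 3 ≤ C ^ 8 * e ^ 3 := by
    have : C ^ 6 ≤ C ^ 8 := pow_le_pow_right₀ hC (by norm_num)
    exact mul_le_mul_of_nonneg_right this (by (clear * - he0; positivity))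
  have h3 : 0 ≤ C ^ 8 * e ^ 3 := by (clear * - hC he0; positivity)
  calc C * nv ((q1 - c1' • k0) + (q2 - c2' • m) - (mη - mη0) + ρ)
      ≤ C * (3200 * (C ^ 8 * e ^ 3)) := by
        refine mul_le_mul_of_nonneg_left ?_ hC0.le
        linarith only [h3, h2, h1, hd3, hd2, hd1, hρn]
    _ = _ := by ring

end Vale.Agent.P150.F
end
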