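import Mathlib
import Vale.Agent.P150.Bdl.B4
import Vale.Agent.P150.Bdl.B15
import Vale.Agent.P150.Bdl.B1
import Vale.Agent.P150.Bdl.B6
import Vale.Agent.P150.MathlibUsed

set_option linter.all false

section

open MeasureTheory ProbabilityTheory Filter Topology

namespace Vale.Agent.P150.Cav

variable {n : ℕ}

instance instProbDisorder : IsProbabilityMeasure (disorder n) := by
  unfold disorder; infer_instance

lemma integrable_of_bdd {f : (Pairs n → ℝ) → ℂ} (hm : Measurable f) (C : ℝ)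
    (hC : ∀ g, ‖f g‖ ≤ C) : Integrable f (disorder n) :=
  Integrable.of_bound hm.aestronglyMeasurable C (Eventually.of_forall hC)

lemma ibp_pair (i j : Fin n) (h : i ≠ j) (F F' : (Pairs n → ℝ) → ℂ) (hm : Measurable F)
    (hm' : Measurable F') (C : ℝ) (hC : ∀ g, ‖F g‖ ≤ C) (hC' : ∀ g, ‖F' g‖ ≤ C)
    (hd : ∀ g, HasDerivAt (fun s => F (Function.update g (pr i j h) s)) (F' g)
      (g (pr i j h))) :
    ∫ g, (gsym g i j : ℂ) * F g ∂(disorder n) = ∫ g, F' g ∂(disorder n) := by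
  simp only [gsym_eq_pr _ i j h]
  exact ibp (pr i j h) F F' hm hm' C hC hC' hd

lemma integrable_gsym_mul (i j : Fin n) (h : i ≠ j) (F : (Pairs n → ℝ) → ℂ) (hm : Measurable F)
    (C : ℝ) (hC : ∀ g, ‖F g‖ ≤ C) :
    Integrable (fun g => (gsym g i j : ℂ) * F g) (disorder n) := by
  simp only [gsym_eq_pr _ i j h]
  have h1 : Integrable (fun g : Pairs n → ℝ => g (pr i j h)) (disorder n) := by
    have hmp : MeasurePreserving (Function.eval (pr i j h)) (disorder n) (gaussianReal 0 1) :=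
      measurePreserving_eval (μ := fun _ : Pairs n => gaussianReal 0 1) (pr i j h)
    exact hmp.integrable_comp_of_integrable (IsGaussian.integrable_id (μ := gaussianReal 0 1))
  have h2 : Integrable (fun g : Pairs n → ℝ => ((g (pr i j h) : ℝ) : ℂ)) (disorder n) := h1.ofReal
  refine (h2.bdd_mul (c := C) hm.aestronglyMeasurable (Eventually.of_forall hC)).congr ?_
  exact Eventually.of_forall fun g => by simp only; ring

theorem main_ibp (z : ℂ) (hz : 0 < z.im) (β : ℝ) (hn : 0 < n) (Ψ : (Pairs n → ℝ) → ℂ)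
    (DΨ : Fin n → Fin n → (Pairs n → ℝ) → ℂ) (hΨm : Measurable Ψ)
    (hDm : ∀ i j, Measurable (DΨ i j)) (C : ℝ) (hΨ : ∀ g, ‖Ψ g‖ ≤ C)
    (hD : ∀ i j g, ‖DΨ i j g‖ ≤ C)
    (hder : ∀ i j (h : i ≠ j) g, HasDerivAt (fun s => Ψ (Function.update g (pr i j h) s))
      (DΨ i j g) (g (pr i j h))) :
    ∫ g, Ψ g * (z * aa z β g - 1) ∂(disorder n) =
      ∫ g, (Ψ g * (mm z g * aa z β g + β * aa z β g - β * bb z β g + ee z β g) +
        (((n : ℝ) * Real.sqrt n)⁻¹ : ℝ) *
          ∑ i, ∑ j, (if i = j then 0 else DΨ i j g * hh z β g i j)) ∂(disorder n) := by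
  have hC0 : 0 ≤ C := (norm_nonneg _).trans (hΨ 0)
  have hηn : 0 ≤ (z.im)⁻¹ * n := by positivity
  have hnC : (n : ℂ) ≠ 0 := by exact_mod_cast hn.ne'
  have hsq : ((Real.sqrt n : ℝ) : ℂ) * ((Real.sqrt n : ℝ) : ℂ) = n := by
    rw [← Complex.ofReal_mul, Real.mul_self_sqrt (by positivity)]; simp
  have hsq0 : ((Real.sqrt n : ℝ) : ℂ) ≠ 0 := by
    intro h0; rw [h0] at hsq; simp at hsq; exact hn.ne' (by exact_mod_cast hsq.symm)
  -- the right hand side for a pair
  set R : Fin n → Fin n → (Pairs n → ℝ) → ℂ := fun i j g =>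
    DΨ i j g * hh z β g i j +
      Ψ g * (((Real.sqrt n)⁻¹ : ℝ) * (β * TT z β g i j + UU z β g i j)) with hR
  have hRm : ∀ i j, Measurable (R i j) := by
    intro i j
    refine ((hDm i j).mul (continuous_hh z hz β i j).measurable).add
      (hΨm.mul (measurable_const.mul ?_))
    exact (measurable_const.mul (continuous_TT z hz β i j).measurable).add
      (continuous_UU z hz β i j).measurable
  set CR : ℝ := C * ((z.im)⁻¹ * n) + C * ((Real.sqrt n)⁻¹ * (|β| * (2 * ((z.im)⁻¹ * n)) +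
    2 * ((z.im)⁻¹ * ((z.im)⁻¹ * n)))) with hCR
  have hRb : ∀ i j g, ‖R i j g‖ ≤ CR := by
    intro i j g
    refine (norm_add_le _ _).trans (add_le_add ?_ ?_)
    · rw [norm_mul]
      exact mul_le_mul (hD i j g) (norm_hh_le z hz β g i j) (norm_nonneg _) hC0
    · rw [norm_mul]
      refine mul_le_mul (hΨ g) ?_ (norm_nonneg _) hC0
      rw [norm_mul]
      have : ‖(((Real.sqrt n)⁻¹ : ℝ) : ℂ)‖ = (Real.sqrt n)⁻¹ := by
        rw [Complex.norm_real, Real.norm_eq_abs, abs_of_nonneg (by positivity)]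
      rw [this]
      refine mul_le_mul_of_nonneg_left ?_ (by positivity)
      refine (norm_add_le _ _).trans (add_le_add ?_ (norm_UU_le z hz β g i j))
      rw [norm_mul, Complex.norm_real, Real.norm_eq_abs]
      exact mul_le_mul_of_nonneg_left (norm_TT_le z hz β g i j) (abs_nonneg _)
  have hmul : ∀ i j g, ‖Ψ g * hh z β g i j‖ ≤ C * ((z.im)⁻¹ * n) := by
    intro i j g
    rw [norm_mul]
    exact mul_le_mul (hΨ g) (norm_hh_le z hz β g i j) (norm_nonneg _) hC0
  have hmulm : ∀ i j, Measurable (fun g => Ψ g * hh z β g i j) := fun i j =>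
    hΨm.mul (continuous_hh z hz β i j).measurable
  have hCle : C * ((z.im)⁻¹ * n) ≤ CR := by
    rw [hCR]
    have : 0 ≤ C * ((Real.sqrt n)⁻¹ * (|β| * (2 * ((z.im)⁻¹ * n)) +
      2 * ((z.im)⁻¹ * ((z.im)⁻¹ * n)))) := by (clear * - hC0 hn hz; positivity)
    linarith only [this]
  -- pairwise identity
  have hpair : ∀ i j : Fin n, ∫ g, Ψ g * ((Wm g i j : ℂ) * hh z β g i j) ∂(disorder n) =
      ∫ g, (if i = j then 0 else ((Real.sqrt n)⁻¹ : ℝ) * R i j g) ∂(disorder n) := by
    intro i j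
    by_cases hij : i = j
    · subst hij
      simp [Wm, gsym_self]
    · simp only [hij, if_false]
      have e1 : ∀ g : Pairs n → ℝ, Ψ g * ((Wm g i j : ℂ) * hh z β g i j) =
          (((Real.sqrt n)⁻¹ : ℝ) : ℂ) * ((gsym g i j : ℂ) * (Ψ g * hh z β g i j)) := by
        intro g
        unfold Wm
        push_cast
        ring
      simp only [e1]
      rw [integral_const_mul, integral_const_mul]
      congr 1
      refine ibp_pair i j hij (fun g => Ψ g * hh z β g i j) (R i j) (hmulm i j) (hRm i j) CR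
        (fun g => (hmul i j g).trans hCle) (hRb i j) ?_
      intro g
      have h1 := (hder i j hij g).fun_mul (hasDerivAt_hh z hz β g i j hij)
      refine h1.congr_deriv ?_
      simp only [Function.update_eq_self]
      rfl
  have hint1 : ∀ i j : Fin n, Integrable (fun g => Ψ g * ((Wm g i j : ℂ) * hh z β g i j))
      (disorder n) := by
    intro i j
    by_cases hij : i = j
    · subst hij
      simp [Wm, gsym_self]
    · have := (integrable_gsym_mul i j hij _ (hmulm i j) _ (hmul i j)).const_mul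
        ((((Real.sqrt n)⁻¹ : ℝ) : ℂ))
      refine this.congr (Eventually.of_forall fun g => ?_)
      simp only [Wm]
      push_cast
      ring
  have hint2 : ∀ i j : Fin n, Integrable (fun g : Pairs n → ℝ =>
      (if i = j then 0 else (((Real.sqrt n)⁻¹ : ℝ) : ℂ) * R i j g)) (disorder n) := by
    intro i j
    by_cases hij : i = j
    · simp [hij]
    · simp only [hij, if_false]
      exact (integrable_of_bdd (hRm i j) CR (hRb i j)).const_mul _
  have hsum1 : ∫ g, Ψ g * ((n : ℂ) * (z * aa z β g - 1)) ∂(disorder n) =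
      ∑ i, ∑ j, ∫ g, Ψ g * ((Wm g i j : ℂ) * hh z β g i j) ∂(disorder n) := by
    have : ∀ i : Fin n, ∑ j, ∫ g, Ψ g * ((Wm g i j : ℂ) * hh z β g i j) ∂(disorder n) =
        ∫ g, ∑ j, Ψ g * ((Wm g i j : ℂ) * hh z β g i j) ∂(disorder n) := by
      intro i
      rw [integral_finsetSum]
      exact fun j _ => hint1 i j
    simp only [this]
    rw [← integral_finsetSum]
    · congr 1
      ext g
      rw [← sum_W_hh z hz β hn g]
      simp only [Finset.mul_sum]
    · intro i _
      exact integrable_finsetSum _ fun j _ => hint1 i j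
  have hsum2 : ∑ i, ∑ j, ∫ g, (if i = j then 0 else (((Real.sqrt n)⁻¹ : ℝ) : ℂ) * R i j g)
      ∂(disorder n) = ∫ g, ∑ i, ∑ j, (if i = j then 0 else (((Real.sqrt n)⁻¹ : ℝ) : ℂ) * R i j g)
      ∂(disorder n) := by
    have : ∀ i : Fin n, ∑ j, ∫ g, (if i = j then 0 else (((Real.sqrt n)⁻¹ : ℝ) : ℂ) * R i j g)
        ∂(disorder n) = ∫ g, ∑ j, (if i = j then 0 else (((Real.sqrt n)⁻¹ : ℝ) : ℂ) * R i j g)
        ∂(disorder n) := by
      intro i
      rw [integral_finsetSum]
      exact fun j _ => hint2 i j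
    simp only [this]
    rw [← integral_finsetSum]
    intro i _
    exact integrable_finsetSum _ fun j _ => hint2 i j
  have hpt : ∀ g : Pairs n → ℝ, ∑ i, ∑ j, (if i = j then 0 else
      (((Real.sqrt n)⁻¹ : ℝ) : ℂ) * R i j g) =
      (n : ℂ) * (Ψ g * (mm z g * aa z β g + β * aa z β g - β * bb z β g + ee z β g) +
        (((n : ℝ) * Real.sqrt n)⁻¹ : ℝ) *
          ∑ i, ∑ j, (if i = j then 0 else DΨ i j g * hh z β g i j)) := by
    intro g
    have e1 : ∀ i j : Fin n, (if i = j then 0 else (((Real.sqrt n)⁻¹ : ℝ) : ℂ) * R i j g) =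
        (((Real.sqrt n)⁻¹ : ℝ) : ℂ) * (if i = j then 0 else DΨ i j g * hh z β g i j) +
        (n : ℂ)⁻¹ * Ψ g * (β * TT z β g i j + UU z β g i j -
          (if i = j then UU z β g i i else 0)) := by
      intro i j
      by_cases hij : i = j
      · subst hij
        simp [TT_self]
      · simp only [hij, if_false, hR]
        have : (n : ℂ)⁻¹ = (((Real.sqrt n)⁻¹ : ℝ) : ℂ) * (((Real.sqrt n)⁻¹ : ℝ) : ℂ) := by
          rw [← hsq]; push_cast; field_simp
        rw [this]
        ring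
    simp only [e1, Finset.sum_add_distrib, ← Finset.mul_sum, Finset.sum_sub_distrib,
      Finset.sum_ite_eq, Finset.mem_univ, if_true]
    have e2 : (β : ℂ) * ∑ i, ∑ j, TT z β g i j + ∑ i, ∑ j, UU z β g i j - ∑ i, UU z β g i i =
        (n : ℂ) ^ 2 * (β * (aa z β g - bb z β g) + (mm z g * aa z β g + ee z β g)) := by
      have := sum_UU z β hn g
      rw [sum_TT z β hn g]
      linear_combination this
    rw [e2]
    have e3 : (((Real.sqrt n)⁻¹ : ℝ) : ℂ) = (n : ℂ) * (((n : ℝ) * Real.sqrt n)⁻¹ : ℝ) := by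
      push_cast
      field_simp
    rw [e3]
    field_simp
    ring
  have hfin : ∫ g, Ψ g * ((n : ℂ) * (z * aa z β g - 1)) ∂(disorder n) =
      ∫ g, (n : ℂ) * (Ψ g * (mm z g * aa z β g + β * aa z β g - β * bb z β g + ee z β g) +
        (((n : ℝ) * Real.sqrt n)⁻¹ : ℝ) *
          ∑ i, ∑ j, (if i = j then 0 else DΨ i j g * hh z β g i j)) ∂(disorder n) := by
    rw [hsum1]
    simp only [hpair]
    rw [hsum2]
    simp only [hpt]
  rw [integral_const_mul] at hfin
  have hL : ∫ g, Ψ g * ((n : ℂ) * (z * aa z β g - 1)) ∂(disorder n) =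
      (n : ℂ) * ∫ g, Ψ g * (z * aa z β g - 1) ∂(disorder n) := by
    rw [← integral_const_mul]
    congr 1; ext g; ring
  rw [hL] at hfin
  exact mul_left_cancel₀ hnC hfin

end Vale.Agent.P150.Cav
end

section

/-! Scalar inequality for the star-shapedness of the TAP free energy: the Stein certificate. -/

open MeasureTheory ProbabilityTheory Filter Topology Set

namespace Vale.Agent.P150.F.SSI

/-- pointwise certificate -/
def PT : Prop := ∀ t m : ℝ, 0 < t → t ≤ 24/25 → 0 < m → m < 1 → 0 ≤ X t m →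
  (2*m^2 - 1 - 2*t) * X' t m + 1 ≤ cf t m * X t m * X' t m - t * cf' t m

/-- boundary condition -/
def BD : Prop := ∀ t m : ℝ, t ≤ 24/25 → 0 < m → m < 1 → X t m = 0 → t * cf t m + m ≤ 0

/-- the Gaussian weight in the variable `m` -/
noncomputable def ew (σ m : ℝ) : ℝ := Real.exp (-(X (σ^2) m / σ)^2 / 2)

/-- primitive -/
noncomputable def FF (σ m : ℝ) : ℝ := -(σ^2 * cf (σ^2) m + m) * ew σ m

/-- its derivative -/
noncomputable def FF' (σ m : ℝ) : ℝ :=
  ew σ m * (-(σ^2) * cf' (σ^2) m - 1) +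
    (cf (σ^2) m + m / σ^2) * (X (σ^2) m * X' (σ^2) m * ew σ m)

lemma hasDerivAt_cf (t m : ℝ) : HasDerivAt (cf t) (cf' t m) m := by
  have := ((hasDerivAt_id m).const_mul (-(21/5)*t)).add
    ((hasDerivAt_pow 3 m).const_mul (6/5 + 33/10*t))
  refine this.congr_deriv ?_
  rw [cf']
  simp
  ring

lemma hasDerivAt_ew {σ m : ℝ} (hσ : 0 < σ) (hm : |m| < 1) :
    HasDerivAt (ew σ) (-(X (σ^2) m * X' (σ^2) m / σ^2) * ew σ m) m := by
  have := ((((hasDerivAt_X (t := σ^2) hm).div_const σ).pow 2).neg.div_const 2).exp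
  refine this.congr_deriv ?_
  have e : Real.exp ((-(fun x => X (σ ^ 2) x / σ) ^ 2) m / 2) = ew σ m := rfl
  rw [e]
  norm_num
  field_simp

lemma hasDerivAt_FF {σ m : ℝ} (hσ : 0 < σ) (hm : |m| < 1) :
    HasDerivAt (FF σ) (FF' σ m) m := by
  have := ((((hasDerivAt_cf (σ^2) m).const_mul (σ^2)).add (hasDerivAt_id m)).neg).mul
    (hasDerivAt_ew hσ hm)
  refine this.congr_deriv ?_
  simp only [FF', Pi.neg_apply, Pi.add_apply, id]
  field_simp
  ring

lemma ew_le_one (σ m : ℝ) : ew σ m ≤ 1 := by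
  rw [ew, Real.exp_le_one_iff]
  linarith only [sq_nonneg (X (σ^2) m / σ)]

lemma ew_nonneg (σ m : ℝ) : 0 ≤ ew σ m := (Real.exp_pos _).le

lemma cf_bound {t m : ℝ} (ht0 : 0 ≤ t) (ht : t ≤ 1) (h0 : 0 ≤ m) (h1 : m ≤ 1) : |cf t m| ≤ 10 := by
  have h3 : 0 ≤ m ^ 3 := by positivity
  have h3' : m ^ 3 ≤ 1 := pow_le_one₀ h0 h1
  rw [cf, abs_le]
  constructor <;> nlinarith [mul_nonneg ht0 h0, mul_nonneg ht0 h3, mul_le_mul ht h1 h0 zero_le_one]

lemma cf'_bound {t m : ℝ} (ht0 : 0 ≤ t) (ht : t ≤ 1) (h0 : 0 ≤ m) (h1 : m ≤ 1) : |cf' t m| ≤ 20 := by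
  have h3 : 0 ≤ m ^ 2 := by positivity
  have h3' : m ^ 2 ≤ 1 := pow_le_one₀ h0 h1
  rw [cf', abs_le]
  constructor <;> nlinarith [mul_nonneg ht0 h3, mul_nonneg ht0 (sub_nonneg.2 h3')]

lemma integrableOn_mul_exp : IntegrableOn (fun x : ℝ => x * Real.exp (-x^2/2)) (Ioi 0) := by
  have h := integrable_mul_exp_neg_mul_sq (b := 1/2) (by norm_num)
  refine (h.congr ?_).integrableOn
  filter_upwards with x
  congr 2; ring

lemma integrable_exp : Integrable (fun x : ℝ => Real.exp (-x^2/2)) := by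
  have h := integrable_exp_neg_mul_sq (b := 1/2) (by norm_num)
  refine h.congr ?_
  filter_upwards with x
  congr 1; ring

theorem main_int (hPT : PT) (hBD : BD) {σ : ℝ} (hσ : 0 < σ) (ht : σ^2 ≤ 24/25) :
    ∫ g in Ioi (0:ℝ), (2 * M (σ^2) (σ*g)^2 - 1 - 2*σ^2 + g * M (σ^2) (σ*g)/σ)
      * Real.exp (-g^2/2) ≤ 0 := by
  set t := σ^2 with htdef
  have ht0 : 0 < t := by positivity
  obtain ⟨m1, hm0, hm1, hX1, hpos, hneg⟩ := exists_m1 t ht0.le
  set s := Ioo m1 1 with hs
  have habs : ∀ m ∈ s, |m| < 1 := fun m hm => abs_lt.2 ⟨by linarith only [hm.1, hm0, ht0, ht], hm.2⟩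
  have hder : ∀ m ∈ s, HasDerivWithinAt (fun m => X t m / σ) (X' t m / σ) s m := fun m hm =>
    ((hasDerivAt_X (habs m hm)).div_const σ).hasDerivWithinAt
  have hX'pos : ∀ m ∈ s, 0 < X' t m := fun m hm =>
    X'_pos (by linarith only [hm.1, hm0]) hm.2 (hpos m hm.1 hm.2).le
  have hinj : InjOn (fun m => X t m / σ) s := by
    intro a ha b hb hab
    have hab' : X t a = X t b := by
      have := congrArg (fun z => z * σ) hab
      simpa [div_mul_cancel₀ _ hσ.ne'] using this
    rcases lt_trichotomy a b with h | h | h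
    · have := X_lt (t := t) (by linarith only [ha.1, hm0]) h hb.2 (hpos a ha.1 ha.2).le
      linarith
    · exact h
    · have := X_lt (t := t) (by linarith only [hb.1, hm0]) h ha.2 (hpos b hb.1 hb.2).le
      linarith
  have himg : (fun m => X t m / σ) '' s = Ioi 0 := by
    ext x
    simp only [mem_image, mem_Ioi]
    constructor
    · rintro ⟨m, hm, rfl⟩
      exact div_pos (hpos m hm.1 hm.2) hσ
    · intro hx
      obtain ⟨m, ha, hb, hc⟩ := exists_X_eq (t := t) (x := x * σ) ht0.le (by (clear * - hx hσ; positivity))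
      refine ⟨m, ⟨?_, hb⟩, ?_⟩
      · by_contra hcon
        push Not at hcon
        have := hneg m ha.le hcon
        rw [hc] at this
        have : 0 < x * σ := by positivity
        linarith
      · simp only [hc]
        field_simp
  have hsm : MeasurableSet s := measurableSet_Ioo
  have hcv := integral_image_eq_integral_abs_deriv_smul hsm hder hinj
    (fun g => (2 * M t (σ*g)^2 - 1 - 2*t + g * M t (σ*g)/σ) * Real.exp (-g^2/2))
  rw [himg] at hcv
  rw [hcv]
  -- integrability of the weight times the derivative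
  have hi1 : IntegrableOn (fun m => X t m * X' t m * ew σ m) s := by
    have h := (integrableOn_image_iff_integrableOn_abs_deriv_smul hsm hder hinj
      (fun x : ℝ => x * Real.exp (-x^2/2))).1 (by rw [himg]; exact integrableOn_mul_exp)
    have h2 := h.const_mul (σ^2)
    refine (integrableOn_congr_fun ?_ hsm).1 h2
    intro m hm
    have h3 : 0 < X' t m / σ := div_pos (hX'pos m hm) hσ
    simp only [smul_eq_mul, abs_of_pos h3, ew, ← htdef]
    field_simp
    rw [htdef]; ring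
  have hc1 : ContinuousOn (fun m => cf t m + m / t) s := by
    unfold cf; fun_prop
  have hi2 : IntegrableOn (fun m => (cf t m + m / t) * (X t m * X' t m * ew σ m)) s := by
    refine Integrable.bdd_mul (c := 10 + 1 / t) hi1 (hc1.aestronglyMeasurable hsm) ?_
    refine (ae_restrict_iff' hsm).2 (Eventually.of_forall fun m hm => ?_)
    have a := cf_bound ht0.le (by linarith only [ht0, ht]) (by linarith only [hm.1, hm0]) hm.2.le
    have b : |m / t| ≤ 1 / t := by
      rw [abs_div, abs_of_pos ht0]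
      exact div_le_div_of_nonneg_right (habs m hm).le ht0.le
    calc ‖cf t m + m / t‖ ≤ |cf t m| + |m / t| := abs_add_le _ _
      _ ≤ _ := by linarith only [b, a]
  have hcontew : ContinuousOn (ew σ) s := fun m hm =>
    (hasDerivAt_ew hσ (habs m hm)).continuousAt.continuousWithinAt
  have hi3 : IntegrableOn (fun m => ew σ m * (-t * cf' t m - 1)) s := by
    have hc : ContinuousOn (fun m => ew σ m * (-t * cf' t m - 1)) s := by
      refine hcontew.mul ?_
      unfold cf'; fun_prop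
    refine IntegrableOn.of_bound ?_ (hc.aestronglyMeasurable hsm) 21 ?_
    · rw [hs]; exact measure_Ioo_lt_top
    · refine (ae_restrict_iff' hsm).2 (Eventually.of_forall fun m hm => ?_)
      have a := cf'_bound ht0.le (by linarith only [ht0, ht]) (by linarith only [hm.1, hm0]) hm.2.le
      rw [Real.norm_eq_abs, abs_mul, abs_of_nonneg (ew_nonneg _ _)]
      have b : |(-t * cf' t m - 1)| ≤ 21 := by
        have h1 : |t * cf' t m| ≤ 20 := by
          rw [abs_mul, abs_of_pos ht0]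
          (by_contra nlg; linarith only [mul_nonneg (le_of_lt (sub_pos.2 (not_le.1 nlg))) (sub_nonneg.2 a), mul_nonneg (le_of_lt (sub_pos.2 (not_le.1 nlg))) (sub_nonneg.2 (abs_nonneg (cf' t m))), mul_nonneg (sub_nonneg.2 ht) (sub_nonneg.2 (abs_nonneg (cf' t m))), mul_nonneg (sub_nonneg.2 a) (sub_nonneg.2 a), mul_nonneg (sub_nonneg.2 a) (sub_nonneg.2 (abs_nonneg (cf' t m)))])
        rw [abs_le] at h1 ⊢
        constructor <;> linarith [h1.1, h1.2]
      calc ew σ m * |(-t * cf' t m - 1)| ≤ 1 * 21 :=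
            mul_le_mul (ew_le_one _ _) b (abs_nonneg _) zero_le_one
        _ = 21 := one_mul _
  have hiF : IntegrableOn (FF' σ) s := hi3.add hi2
  have hFTC : ∫ m in s, FF' σ m = 0 - FF σ m1 := by
    rw [hs, ← integral_Ioc_eq_integral_Ioo, ← intervalIntegral.integral_of_le hm1.le]
    refine intervalIntegral.integral_eq_sub_of_hasDerivAt_of_tendsto (f := FF σ) hm1 ?_ ?_ ?_ ?_
    · intro m hm
      exact hasDerivAt_FF hσ (habs m hm)
    · rw [intervalIntegrable_iff_integrableOn_Ioo_of_le hm1.le]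
      exact hiF
    · exact (hasDerivAt_FF hσ (abs_lt.2 ⟨by linarith only [hm0, ht0, ht], hm1⟩)).continuousAt.tendsto.mono_left
        nhdsWithin_le_nhds
    · have hew : Tendsto (ew σ) (𝓝[<] 1) (𝓝 0) := by
        have h1 : Tendsto (fun m => X t m / σ) (𝓝[<] 1) atTop :=
          (tendsto_X t ht0.le).atTop_div_const hσ
        have h2 : Tendsto (fun x : ℝ => Real.exp (-x^2/2)) atTop (𝓝 0) := by
          refine Real.tendsto_exp_atBot.comp ?_
          have : Tendsto (fun x : ℝ => x^2) atTop atTop := tendsto_pow_atTop (by norm_num)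
          have h4 := (tendsto_neg_atTop_atBot.comp this).atBot_div_const (r := 2) (by norm_num)
          exact h4
        exact h2.comp h1
      have hcf : Tendsto (fun m => -(σ^2 * cf (σ^2) m + m)) (𝓝[<] 1)
          (𝓝 (-(σ^2 * cf (σ^2) 1 + 1))) := by
        refine Tendsto.mono_left ?_ nhdsWithin_le_nhds
        apply Continuous.tendsto
        unfold cf; fun_prop
      have := hcf.mul hew
      rw [mul_zero] at this
      exact this
  have hFm1 : 0 ≤ FF σ m1 := by
    have h1 : t * cf t m1 + m1 ≤ 0 := by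
      rcases hm0.eq_or_lt with h | h
      · rw [← h]; simp [cf]
      · exact hBD t m1 ht h hm1 hX1
    rw [FF]
    have := ew_nonneg σ m1
    exact mul_nonneg (by linarith only [h1]) this
  -- pointwise inequality
  have hpt : ∀ m ∈ s, |X' t m / σ| • ((2 * M t (σ*(X t m / σ))^2 - 1 - 2*t
      + (X t m / σ) * M t (σ*(X t m / σ))/σ) * Real.exp (-(X t m / σ)^2/2)) ≤ (1/σ) * FF' σ m := by
    intro m hm
    have e1 : σ * (X t m / σ) = X t m := by field_simp
    have e2 := M_X (t := t) (by linarith only [hm.1, hm0]) hm.2 (hpos m hm.1 hm.2)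
    rw [e1, e2, abs_of_pos (div_pos (hX'pos m hm) hσ), smul_eq_mul]
    have h4 := hPT t m ht0 ht (by linarith only [hm.1, hm0]) hm.2 (hpos m hm.1 hm.2).le
    have h5 := mul_le_mul_of_nonneg_left h4 (ew_nonneg σ m)
    have e3 : X' t m / σ * ((2 * m ^ 2 - 1 - 2 * t + X t m / σ * m / σ) *
        Real.exp (-(X t m / σ) ^ 2 / 2)) =
        (1/σ) * (ew σ m * ((2*m^2 - 1 - 2*t) * X' t m) + (m / σ^2) * (X t m * X' t m * ew σ m)) := by
      rw [ew, ← htdef]
      have hts : t ≠ 0 := ht0.ne'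
      field_simp
      rw [htdef]
    rw [e3, FF']
    refine mul_le_mul_of_nonneg_left ?_ (by positivity)
    linarith only [h5]
  by_cases hint : IntegrableOn (fun m => |X' t m / σ| • ((2 * M t (σ*(X t m / σ))^2 - 1 - 2*t
      + (X t m / σ) * M t (σ*(X t m / σ))/σ) * Real.exp (-(X t m / σ)^2/2))) s
  · calc _ ≤ ∫ m in s, (1/σ) * FF' σ m := setIntegral_mono_on hint (hiF.const_mul _) hsm hpt
      _ = (1/σ) * (0 - FF σ m1) := by rw [integral_const_mul, hFTC]
      _ ≤ 0 := by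
        have : 0 ≤ 1/σ := by positivity
        (by_contra nlg; linarith only [mul_nonneg (le_of_lt (sub_pos.2 (not_le.1 nlg))) (sub_nonneg.2 hm0), mul_pos (sub_pos.2 (not_le.1 nlg)) (sub_pos.2 hm1), mul_nonneg (sub_nonneg.2 hFm1) (sub_nonneg.2 this)])
  · exact (integral_undef hint).le

end Vale.Agent.P150.F.SSI
end

section

/-! Scalar inequality for the star-shapedness of the TAP free energy: telescoping. -/

open MeasureTheory ProbabilityTheory Filter Topology Set

namespace Vale.Agent.P150.F.SSI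

/-- `sup_m (2xm + 2qm² - m artanh m)` -/
noncomputable def Psi (q x : ℝ) : ℝ := ⨆ m : Ioo (-1:ℝ) 1, ph q x m

lemma mul_artanh_nonneg {m : ℝ} (_hm : |m| < 1) : 0 ≤ m * Real.artanh m := by
  rcases le_total 0 m with h | h
  · exact mul_nonneg h (Real.artanh_nonneg h)
  · exact mul_nonneg_of_nonpos_of_nonpos h (Real.artanh_nonpos h)

lemma ph_le_bound {q x m : ℝ} (hq : 0 ≤ q) (hm : |m| < 1) : ph q x m ≤ 2 * |x| + 2 * q := by
  have h1 := mul_artanh_nonneg hm
  have h2 : x * m ≤ |x| := by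
    calc x * m ≤ |x * m| := le_abs_self _
      _ = |x| * |m| := abs_mul _ _
      _ ≤ |x| * 1 := mul_le_mul_of_nonneg_left hm.le (abs_nonneg _)
      _ = |x| := mul_one _
  have h3 : m ^ 2 ≤ 1 := by nlinarith [abs_lt.1 hm]
  rw [ph]
  linarith [mul_nonneg (sq_nonneg (m : ℝ)) (sub_nonneg.2 h1), mul_nonneg (sq_nonneg (m : ℝ)) (sub_nonneg.2 h2), mul_nonneg (sub_nonneg.2 hq) (sub_nonneg.2 h3), mul_nonneg (sub_nonneg.2 h1) (sub_nonneg.2 h3), mul_nonneg (sub_nonneg.2 h2) (sub_nonneg.2 h3)]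

lemma bddAbove_ph {q : ℝ} (hq : 0 ≤ q) (x : ℝ) :
    BddAbove (range fun m : Ioo (-1:ℝ) 1 => ph q x m) := by
  refine ⟨2 * |x| + 2 * q, ?_⟩
  rintro _ ⟨m, rfl⟩
  exact ph_le_bound hq (abs_lt.2 m.2)

instance : Nonempty (Ioo (-1:ℝ) 1) := ⟨⟨0, by norm_num, by norm_num⟩⟩

lemma le_Psi {q x m : ℝ} (hq : 0 ≤ q) (hm : |m| < 1) : ph q x m ≤ Psi q x :=
  le_ciSup (bddAbove_ph hq x) (⟨m, abs_lt.1 hm⟩ : Ioo (-1:ℝ) 1)

lemma Psi_le {q : ℝ} (hq : 0 ≤ q) (x : ℝ) : Psi q x ≤ 2 * |x| + 2 * q :=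
  ciSup_le fun m => ph_le_bound hq (abs_lt.2 m.2)

lemma Psi_nonneg {q : ℝ} (hq : 0 ≤ q) (x : ℝ) : 0 ≤ Psi q x := by
  have := le_Psi (x := x) (m := 0) hq (by simp)
  simpa [ph] using this

lemma Psi_sub_le {q : ℝ} (hq : 0 ≤ q) (x y : ℝ) : Psi q x ≤ Psi q y + 2 * |x - y| := by
  refine ciSup_le fun m => ?_
  have h1 := le_Psi (x := y) hq (abs_lt.2 m.2)
  have h2 : (x - y) * m ≤ |x - y| := by
    calc (x - y) * m ≤ |(x - y) * m| := le_abs_self _
      _ = |x - y| * |(m : ℝ)| := abs_mul _ _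
      _ ≤ |x - y| * 1 := mul_le_mul_of_nonneg_left (abs_lt.2 m.2).le (abs_nonneg _)
      _ = |x - y| := mul_one _
  rw [ph] at h1 ⊢
  linarith only [h1, h2]

lemma Psi_continuous {q : ℝ} (hq : 0 ≤ q) : Continuous (Psi q) := by
  have : LipschitzWith 2 (Psi q) := by
    refine LipschitzWith.of_dist_le_mul fun x y => ?_
    rw [Real.dist_eq, Real.dist_eq, abs_le]
    have h1 := Psi_sub_le hq x y
    have h2 := Psi_sub_le hq y x
    rw [abs_sub_comm y x] at h2
    constructor
    · simp; linarith only [h2]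
    · simp; linarith only [h1]
  exact this.continuous

lemma Psi_eq {q x : ℝ} (hq : 0 ≤ q) (hx : 0 < x) : Psi q x = ph q x (M q x) := by
  obtain ⟨h0, h1, h2⟩ := M_mem hq hx
  refine le_antisymm (ciSup_le fun m => ph_le h0 h1 hx h2 (abs_lt.2 m.2)) ?_
  exact le_Psi hq (abs_lt.2 ⟨by linarith only [h1, h0], h1⟩)

lemma ph_neg_neg {q x m : ℝ} (hm : |m| < 1) : ph q (-x) (-m) = ph q x m := by
  rw [ph, ph, artanh_neg' hm]; ring

lemma Psi_neg {q : ℝ} (hq : 0 ≤ q) (x : ℝ) : Psi q (-x) = Psi q x := by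
  have key : ∀ x, Psi q (-x) ≤ Psi q x := by
    intro x
    refine ciSup_le fun m => ?_
    have hm := abs_lt.2 m.2
    have hm' : |(-(m:ℝ))| < 1 := by rwa [abs_neg]
    have := ph_neg_neg (q := q) (x := x) hm'
    rw [neg_neg] at this
    rw [this]
    exact le_Psi hq hm'
  refine le_antisymm (key x) ?_
  have := key (-x)
  rwa [neg_neg] at this

lemma Psi_abs {q : ℝ} (hq : 0 ≤ q) (x : ℝ) : Psi q |x| = Psi q x := by
  rcases abs_choice x with h | h
  · rw [h]
  · rw [h, Psi_neg hq]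

/-- the integrated bound on the derivative, as a function of the Gaussian variable -/
noncomputable def KK (σ g : ℝ) : ℝ := |g| * M (σ^2) (σ * |g|) + 2 * σ * M (σ^2) (σ * |g|) ^ 2

lemma measurable_M_abs (t σ : ℝ) (hσ : 0 ≤ σ) : Measurable fun g : ℝ => M t (σ * |g|) := by
  have h1 : Monotone fun x : ℝ => M t (max x 0) := by
    intro x y hxy
    exact M_mono t (mem_Ici.2 (le_max_right _ _)) (mem_Ici.2 (le_max_right _ _))
      (max_le_max_right _ hxy)
  have h2 : (fun g : ℝ => M t (σ * |g|)) = (fun x : ℝ => M t (max x 0)) ∘ fun g => σ * |g| := by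
    funext g
    simp only [Function.comp]
    rw [max_eq_left (by (clear * - hσ; positivity))]
  rw [h2]
  exact h1.measurable.comp (by fun_prop)

lemma M_bounds {t x : ℝ} (_ht : 0 ≤ t) (hx : 0 ≤ x) : 0 ≤ M t x ∧ M t x ≤ 1 := by
  have hne : {m | 0 ≤ m ∧ m < 1 ∧ X t m ≤ x}.Nonempty := ⟨0, le_rfl, one_pos, by rw [X_zero]; exact hx⟩
  constructor
  · exact le_csSup_of_le ⟨1, fun m hm => hm.2.1.le⟩ (b := 0) ⟨le_rfl, one_pos, by rw [X_zero]; exact hx⟩ le_rfl
  · exact csSup_le hne fun m hm => hm.2.1.le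

lemma measurable_KK {σ : ℝ} (hσ : 0 ≤ σ) : Measurable (KK σ) := by
  have h := measurable_M_abs (σ^2) σ hσ
  unfold KK
  exact ((continuous_abs.measurable).mul h).add ((h.pow_const 2).const_mul _)

lemma KK_bounds {σ : ℝ} (hσ : 0 ≤ σ) (g : ℝ) : |KK σ g| ≤ |g| + 2 * σ := by
  obtain ⟨h0, h1⟩ := M_bounds (t := σ^2) (x := σ * |g|) (by positivity) (by positivity)
  have h2 : M (σ^2) (σ * |g|) ^ 2 ≤ 1 := pow_le_one₀ h0 h1
  have h3 : 0 ≤ KK σ g := by rw [KK]; positivity
  rw [abs_of_nonneg h3, KK]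
  linarith only [mul_nonneg (sub_nonneg.2 h1) (sub_nonneg.2 (abs_nonneg g)), mul_nonneg (sub_nonneg.2 hσ) (sub_nonneg.2 h2)]

lemma integrable_abs_gauss : Integrable (fun g : ℝ => |g|) (gaussianReal 0 1) := by
  have := (memLp_id_gaussianReal (μ := 0) (v := 1) 1).integrable (by simp)
  exact this.norm

lemma integrable_KK {σ : ℝ} (hσ : 0 ≤ σ) : Integrable (KK σ) (gaussianReal 0 1) := by
  refine (integrable_abs_gauss.add (integrable_const (2 * σ))).mono'
    (measurable_KK hσ).aestronglyMeasurable (Eventually.of_forall fun g => ?_)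
  exact KK_bounds hσ g

lemma integral_KK (hPT : PT) (hBD : BD) {σ : ℝ} (hσ : 0 < σ) (ht : σ^2 ≤ 24/25) :
    ∫ g, KK σ g ∂(gaussianReal 0 1) ≤ σ * (1 + 2 * σ^2) := by
  have h1 := main_int hPT hBD hσ ht
  rw [integral_gaussianReal_eq_integral_smul (by norm_num)]
  have e1 : (fun x => gaussianPDFReal 0 1 x • KK σ x) = fun x =>
      (fun y => (√(2 * Real.pi))⁻¹ * (σ * ((2 * M (σ^2) (σ*y)^2 + y * M (σ^2) (σ*y)/σ)
        * Real.exp (-y^2/2)))) |x| := by
    funext x
    simp only [gaussianPDFReal, KK, smul_eq_mul, sq_abs, NNReal.coe_one, mul_one, sub_zero]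
    field_simp
    ring
  rw [e1, integral_comp_abs (f := fun y => (√(2 * Real.pi))⁻¹ * (σ * ((2 * M (σ^2) (σ*y)^2
    + y * M (σ^2) (σ*y)/σ) * Real.exp (-y^2/2)))), integral_const_mul, integral_const_mul]
  have hint1 : IntegrableOn (fun y : ℝ => (2 * M (σ^2) (σ*y)^2 + y * M (σ^2) (σ*y)/σ)
        * Real.exp (-y^2/2)) (Ioi 0) := by
    have hdom : IntegrableOn (fun y : ℝ => 2 * Real.exp (-y^2/2) + (1/σ) * (y * Real.exp (-y^2/2))) (Ioi 0) :=
      (integrable_exp.integrableOn.const_mul 2).add (integrableOn_mul_exp.const_mul _)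
    refine hdom.mono' ?_ ?_
    · have hm := measurable_M_abs (σ^2) σ hσ.le
      have hm2 : Measurable (fun y : ℝ => (2 * M (σ^2) (σ*|y|)^2 + y * M (σ^2) (σ*|y|)/σ)
        * Real.exp (-y^2/2)) := by
        refine (((hm.pow_const 2).const_mul 2).add ((measurable_id.mul hm).div_const σ)).mul ?_
        fun_prop
      refine hm2.aestronglyMeasurable.congr ?_
      refine (ae_restrict_iff' measurableSet_Ioi).2 (Eventually.of_forall fun y hy => ?_)
      simp only [mem_Ioi] at hy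
      simp only [abs_of_pos hy]
    · refine (ae_restrict_iff' measurableSet_Ioi).2 (Eventually.of_forall fun y hy => ?_)
      simp only [mem_Ioi] at hy
      obtain ⟨h0, h1⟩ := M_bounds (t := σ^2) (x := σ * y) (by positivity) (by positivity)
      have h2 : M (σ^2) (σ * y) ^ 2 ≤ 1 := pow_le_one₀ h0 h1
      rw [Real.norm_eq_abs, abs_of_nonneg (by (clear * - hy h0 hσ; positivity))]
      have h3 : y * M (σ^2) (σ*y)/σ ≤ (1/σ) * y := by
        rw [div_le_iff₀ hσ]
        have : 1 / σ * y * σ = y := by field_simp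
        rw [this]
        (by_contra nlg; linarith only [mul_nonneg (le_of_lt (sub_pos.2 (not_le.1 nlg))) (sub_nonneg.2 h0), mul_nonneg (le_of_lt (sub_pos.2 hy)) (sub_nonneg.2 h2), nlg])
      calc (2 * M (σ^2) (σ*y)^2 + y * M (σ^2) (σ*y)/σ) * Real.exp (-y^2/2)
          ≤ (2 + (1/σ) * y) * Real.exp (-y^2/2) :=
            mul_le_mul_of_nonneg_right (by linarith only [h2, h3]) (Real.exp_pos _).le
        _ = _ := by ring
  have hint2 : IntegrableOn (fun y : ℝ => (1 + 2 * σ^2) * Real.exp (-y^2/2)) (Ioi 0) :=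
    integrable_exp.integrableOn.const_mul _
  have hsub : ∫ g in Ioi (0:ℝ), (2 * M (σ^2) (σ*g)^2 - 1 - 2*σ^2 + g * M (σ^2) (σ*g)/σ)
      * Real.exp (-g^2/2) = (∫ y in Ioi (0:ℝ), (2 * M (σ^2) (σ*y)^2 + y * M (σ^2) (σ*y)/σ)
        * Real.exp (-y^2/2)) - ∫ y in Ioi (0:ℝ), (1 + 2 * σ^2) * Real.exp (-y^2/2) := by
    rw [← integral_sub hint1 hint2]
    congr 1
    funext y
    ring
  have hG : ∫ y in Ioi (0:ℝ), Real.exp (-y^2/2) = √(2 * Real.pi) / 2 := by
    have := integral_gaussian_Ioi (1/2)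
    have e : (fun x : ℝ => Real.exp (-(1/2) * x^2)) = fun x : ℝ => Real.exp (-x^2/2) := by
      funext x; congr 1; ring
    rw [e] at this
    rw [this]
    congr 2
    ring
  rw [hsub, integral_const_mul, hG] at h1
  have hpi : 0 < √(2 * Real.pi) := by positivity
  have h5 : ∫ y in Ioi (0:ℝ), (2 * M (σ^2) (σ*y)^2 + y * M (σ^2) (σ*y)/σ)
        * Real.exp (-y^2/2) ≤ (1 + 2 * σ^2) * (√(2 * Real.pi) / 2) := by linarith only [h1]
  calc 2 * ((√(2 * Real.pi))⁻¹ * (σ * ∫ y in Ioi (0:ℝ), (2 * M (σ^2) (σ*y)^2 + y * M (σ^2) (σ*y)/σ)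
        * Real.exp (-y^2/2)))
      ≤ 2 * ((√(2 * Real.pi))⁻¹ * (σ * ((1 + 2 * σ^2) * (√(2 * Real.pi) / 2)))) := by gcongr
    _ = σ * (1 + 2 * σ^2) := by field_simp

/-- the expected value -/
noncomputable def WW (σ : ℝ) : ℝ := ∫ g, Psi (σ^2) (σ * g) ∂(gaussianReal 0 1)

lemma integrable_Psi {q : ℝ} (hq : 0 ≤ q) (σ : ℝ) :
    Integrable (fun g => Psi q (σ * g)) (gaussianReal 0 1) := by
  refine ((integrable_abs_gauss.const_mul (2 * |σ|)).add (integrable_const (2 * q))).mono'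
    ((Psi_continuous hq).comp (continuous_const.mul continuous_id)).aestronglyMeasurable
    (Eventually.of_forall fun g => ?_)
  rw [Real.norm_eq_abs, abs_of_nonneg (Psi_nonneg hq _)]
  refine (Psi_le hq _).trans ?_
  simp only [Pi.add_apply]
  rw [abs_mul]
  linarith only []

lemma WW_step (hPT : PT) (hBD : BD) {s s' : ℝ} (hs : 0 ≤ s) (hss : s < s') (ht : s'^2 ≤ 24/25) :
    WW s' - WW s ≤ (s' - s) * (2 * s' + 4 * s'^3) := by
  have hs' : 0 < s' := by linarith only [hss, hs]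
  have h1 : WW s' - WW s = ∫ g, (Psi (s'^2) (s' * g) - Psi (s^2) (s * g)) ∂(gaussianReal 0 1) := by
    rw [WW, WW, integral_sub (integrable_Psi (by positivity) _) (integrable_Psi (by positivity) _)]
  rw [h1]
  have h2 : ∫ g, (Psi (s'^2) (s' * g) - Psi (s^2) (s * g)) ∂(gaussianReal 0 1) ≤
      ∫ g, (2 * (s' - s)) * KK s' g ∂(gaussianReal 0 1) := by
    refine integral_mono_ae ((integrable_Psi (by positivity) _).sub (integrable_Psi (by positivity) _))
      ((integrable_KK hs'.le).const_mul _) ?_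
    have hae : ∀ᵐ g ∂(gaussianReal 0 1), g ≠ 0 := by
      have : NullSingletonClass (gaussianReal 0 1) := nullSingletonClass_gaussianReal (by norm_num)
      rw [ae_iff]
      simp only [ne_eq, not_not]
      exact measure_singleton (0:ℝ)
    filter_upwards [hae] with g hg
    have hg' : 0 < |g| := abs_pos.2 hg
    have e1 : Psi (s'^2) (s' * g) = Psi (s'^2) (s' * |g|) := by
      rw [← Psi_abs (by positivity) (s' * g), abs_mul, abs_of_pos hs']
    have e2 : Psi (s^2) (s * g) = Psi (s^2) (s * |g|) := by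
      rw [← Psi_abs (by (clear * -; positivity)) (s * g), abs_mul, abs_of_nonneg hs]
    obtain ⟨m0, m1, -⟩ := M_mem (t := s'^2) (x := s' * |g|) (by positivity) (by positivity)
    rw [e1, e2, Psi_eq (by positivity) (by positivity)]
    have h3 := le_Psi (q := s^2) (x := s * |g|) (m := M (s'^2) (s' * |g|)) (by (clear * -; positivity))
      (abs_lt.2 ⟨by linarith only [m1, m0], m1⟩)
    rw [KK]
    rw [ph] at h3 ⊢
    set m := M (s'^2) (s' * |g|)
    have h4 : 0 ≤ (s' - s) * (s' - s) * m^2 := by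
      have : 0 ≤ s' - s := by linarith only [hss]
      (clear * - hss m0; positivity)
    linarith only [h4, h3]
  refine h2.trans ?_
  rw [integral_const_mul]
  have h3 := integral_KK hPT hBD hs' ht
  calc 2 * (s' - s) * ∫ g, KK s' g ∂(gaussianReal 0 1) ≤ 2 * (s' - s) * (s' * (1 + 2 * s'^2)) :=
        mul_le_mul_of_nonneg_left h3 (by linarith only [hss])
    _ = _ := by ring

lemma WW_zero : WW 0 ≤ 0 := by
  rw [WW]
  have : ∀ g : ℝ, Psi (0^2) (0 * g) ≤ 0 := by
    intro g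
    have := Psi_le (q := 0^2) (by norm_num) (0 * g)
    simpa using this
  exact integral_nonpos this

lemma WW_le (hPT : PT) (hBD : BD) {σ : ℝ} (hσ : 0 < σ) (ht : σ^2 ≤ 24/25) :
    WW σ ≤ σ^2 + σ^4 := by
  have hσ1 : σ ≤ 1 := by nlinarith
  -- one step for `A s = W s - s² - s⁴`
  have step : ∀ s s' : ℝ, 0 ≤ s → s < s' → s' ≤ σ →
      WW s' - s'^2 - s'^4 ≤ WW s - s^2 - s^4 + 7 * (s' - s)^2 := by
    intro s s' h0 h1 h2
    have h3 := WW_step hPT hBD h0 h1 (le_trans (pow_le_pow_left₀ (by linarith only [h1, h0]) h2 2) ht)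
    have h4 : 0 ≤ s' - s := by linarith
    have h5 : s' ≤ 1 := by linarith only [h2, hσ1]
    have h6 : s ≤ 1 := by linarith only [h5, h1]
    have k1 : (s' - s) * (2 * s' + 4 * s'^3) - (s'^2 - s^2) - (s'^4 - s^4) =
      (s' - s)^2 * (1 + s'^2 + s' * (s' + s) + (s'^2 + s' * s + s^2)) := by ring
    have k2 : 1 + s'^2 + s' * (s' + s) + (s'^2 + s' * s + s^2) ≤ 7 := by
      have : 0 ≤ s' := by linarith only [h1, h0]
      linarith only [mul_le_mul h6 h6 h0 zero_le_one, mul_le_mul h5 h5 this zero_le_one, mul_le_mul h5 h6 h0 zero_le_one]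
    linarith only [mul_le_mul_of_nonneg_left k2 (sq_nonneg (s' - s)), h3]
  have ind : ∀ N : ℕ, 0 < N → ∀ j : ℕ, j ≤ N →
      WW (j * (σ / N)) - (j * (σ / N))^2 - (j * (σ / N))^4 ≤ 7 * j * (σ / N)^2 := by
    intro N hN j
    have hNr : (0:ℝ) < N := by exact_mod_cast hN
    have hpos : 0 < σ / N := by positivity
    induction j with
    | zero =>
      intro _
      simp
      exact WW_zero
    | succ j ih =>
      intro hj
      have h1 := ih (by omega)
      have hjr : ((j + 1 : ℕ) : ℝ) ≤ N := by exact_mod_cast hj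
      have h2 := step (j * (σ / N)) ((j + 1 : ℕ) * (σ / N)) (by (clear * - hσ hN; positivity))
        (by push_cast; linarith only [hpos])
        (by calc ((j + 1 : ℕ) : ℝ) * (σ / N) ≤ N * (σ / N) := mul_le_mul_of_nonneg_right hjr hpos.le
              _ = σ := by field_simp)
      push_cast at h2 ⊢
      linarith only [h2, h1]
  have hlim : ∀ N : ℕ, 0 < N → WW σ - σ^2 - σ^4 ≤ 7 / N := by
    intro N hN
    have hNr : (0:ℝ) < N := by exact_mod_cast hN
    have := ind N hN N le_rfl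
    have e : (N : ℝ) * (σ / N) = σ := by field_simp
    rw [e] at this
    refine this.trans ?_
    have e2 : 7 * (N:ℝ) * (σ / N)^2 = 7 * σ^2 / N := by field_simp
    rw [e2]
    apply div_le_div_of_nonneg_right _ hNr.le
    linarith only [ht]
  have hfin : WW σ - σ^2 - σ^4 ≤ 0 := by
    refine ge_of_tendsto (x := atTop) (f := fun N : ℕ => (7:ℝ) / N) ?_ ?_
    · exact tendsto_const_div_atTop_nhds_zero_nat 7
    · filter_upwards [eventually_gt_atTop 0] with N hN
      exact hlim N hN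
  linarith only [hfin]

/-- **The scalar inequality.** -/
theorem ss_scalar (hPT : PT) (hBD : BD) {q : ℝ} (hq0 : 0 < q) (hq : q ≤ 24/25) :
    ∫ g, Psi q (√q * g) ∂(gaussianReal 0 1) ≤ q + q^2 := by
  have h1 := WW_le hPT hBD (σ := √q) (Real.sqrt_pos.2 hq0) (by rw [Real.sq_sqrt hq0.le]; exact hq)
  rw [WW, Real.sq_sqrt hq0.le] at h1
  have e : √q ^ 4 = q^2 := by
    have : √q ^ 4 = (√q ^ 2)^2 := by ring
    rw [this, Real.sq_sqrt hq0.le]
  rw [e] at h1
  exact h1

end Vale.Agent.P150.F.SSI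
end

section

/-! P150-FULL, module D2, Step 0: the base Stein identity on the cube.

For a law `ν` on the cube with DLR defect `dlr M y ν`, and a vector field `G`,
`E ⟨σ - m¹, G⟩ ≈ E ∑ (1 - (m¹_i)²) dd_i G_i`, `m¹ = tanh (M σ + y)`. -/

open Finset

namespace Vale.Agent.P150.F.St

variable {n : ℕ}

/-- pairing of the configurations in direction `i` -/
lemma st_sum_pair (i : Fin n) (g : Cfg n → ℝ) :
    ∑ x, g x = ∑ x, (g (Function.update x i true) + g (Function.update x i false)) / 2 := by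
  have h1 : ∑ x, g (flip x i) = ∑ x, g x :=
    Fintype.sum_bijective (fun x => flip x i)
      (Function.Involutive.bijective fun x => flip_flip x i) _ _ fun x => rfl
  have h2 : ∀ x : Cfg n, g (Function.update x i true) + g (Function.update x i false) =
      g x + g (flip x i) := by
    intro x
    unfold flip
    rcases hx : x i with _ | _
    · have e1 : Function.update x i false = x := by
        rw [← hx]; exact Function.update_eq_self i x
      rw [e1]; simp only [Bool.not_false]; ring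
    · have e1 : Function.update x i true = x := by
        rw [← hx]; exact Function.update_eq_self i x
      rw [e1]; simp only [Bool.not_true]
  simp only [h2]
  rw [← Finset.sum_div, Finset.sum_add_distrib, h1]
  ring

/-- `f` does not depend on the spin `i` -/
def Indep (i : Fin n) (f : Cfg n → ℝ) : Prop := ∀ x b, f (Function.update x i b) = f x

/-- average over the spin `i` -/
noncomputable def av (i : Fin n) (f : Cfg n → ℝ) (x : Cfg n) : ℝ :=
  (f (Function.update x i true) + f (Function.update x i false)) / 2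

lemma indep_av (i : Fin n) (f : Cfg n → ℝ) : Indep i (av i f) := by
  intro x b; simp [av, Function.update_idem]

lemma indep_dd (i : Fin n) (f : Cfg n → ℝ) : Indep i (dd i f) := by
  intro x b; simp [dd, Function.update_idem]

lemma indep_condMean (i : Fin n) (ν : Cfg n → ℝ) : Indep i (condMean ν i) := by
  intro x b; simp [condMean, Function.update_idem]

lemma Indep.mul {i : Fin n} {f g : Cfg n → ℝ} (hf : Indep i f) (hg : Indep i g) :
    Indep i (fun x => f x * g x) := by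
  intro x b; simp only [hf x b, hg x b]

lemma eq_av_add (i : Fin n) (f : Cfg n → ℝ) (x : Cfg n) :
    f x = av i f x + sv x i * dd i f x := by
  unfold av dd sv
  rcases hx : x i with _ | _
  · have e1 : Function.update x i false = x := by
      rw [← hx]; exact Function.update_eq_self i x
    rw [e1]; simp only [sp]; norm_num; ring
  · have e1 : Function.update x i true = x := by
      rw [← hx]; exact Function.update_eq_self i x
    rw [e1]; simp only [sp]; norm_num; ring

lemma sv_sq (x : Cfg n) (i : Fin n) : sv x i * sv x i = 1 := sp_sq (x i)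

lemma abs_sv (x : Cfg n) (i : Fin n) : |sv x i| = 1 := by
  unfold sv; cases x i <;> simp [sp]

/-- conditional expectation of a spin -/
lemma Ex_spin {ν : Cfg n → ℝ} (hν : ∀ x, 0 ≤ ν x) (i : Fin n) {h : Cfg n → ℝ} (hh : Indep i h) :
    Ex ν (fun x => sv x i * h x) = Ex ν (fun x => condMean ν i x * h x) := by
  unfold Ex
  rw [st_sum_pair i, st_sum_pair i (fun x => ν x * (condMean ν i x * h x))]
  refine Finset.sum_congr rfl fun x _ => ?_
  have e1 : sv (Function.update x i true) i = 1 := by simp [sv, sp]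
  have e2 : sv (Function.update x i false) i = -1 := by simp [sv, sp]
  beta_reduce
  rw [e1, e2, hh, hh, indep_condMean i ν x true, indep_condMean i ν x false]
  have h1 := hν (Function.update x i true)
  have h2 := hν (Function.update x i false)
  have key : ν (Function.update x i true) - ν (Function.update x i false) =
      (ν (Function.update x i true) + ν (Function.update x i false)) * condMean ν i x := by
    unfold condMean
    rcases eq_or_ne (ν (Function.update x i true) + ν (Function.update x i false)) 0 with h0 | h0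
    · have a1 : ν (Function.update x i true) = 0 := by linarith
      have a2 : ν (Function.update x i false) = 0 := by linarith
      rw [a1, a2]; simp
    · rw [mul_div_cancel₀ _ h0]
  linear_combination (h x / 2) * key

lemma Ex_add (ν f g : Cfg n → ℝ) : Ex ν (fun x => f x + g x) = Ex ν f + Ex ν g := by
  unfold Ex; rw [← Finset.sum_add_distrib]; exact Finset.sum_congr rfl fun x _ => by ring

lemma Ex_sub (ν f g : Cfg n → ℝ) : Ex ν (fun x => f x - g x) = Ex ν f - Ex ν g := by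
  unfold Ex; rw [← Finset.sum_sub_distrib]; exact Finset.sum_congr rfl fun x _ => by ring

lemma Ex_sum {ι : Type*} (s : Finset ι) (ν : Cfg n → ℝ) (f : ι → Cfg n → ℝ) :
    Ex ν (fun x => ∑ j ∈ s, f j x) = ∑ j ∈ s, Ex ν (f j) := by
  unfold Ex
  rw [Finset.sum_comm]
  exact Finset.sum_congr rfl fun x _ => by rw [Finset.mul_sum]

lemma Ex_mono {ν : Cfg n → ℝ} (hν : ∀ x, 0 ≤ ν x) {f g : Cfg n → ℝ} (h : ∀ x, f x ≤ g x) :
    Ex ν f ≤ Ex ν g := Finset.sum_le_sum fun x _ => mul_le_mul_of_nonneg_left (h x) (hν x)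

lemma Ex_abs_le {ν : Cfg n → ℝ} (hν : ∀ x, 0 ≤ ν x) {f g : Cfg n → ℝ} (h : ∀ x, |f x| ≤ g x) :
    |Ex ν f| ≤ Ex ν g := by
  unfold Ex
  refine (Finset.abs_sum_le_sum_abs _ _).trans (Finset.sum_le_sum fun x _ => ?_)
  rw [abs_mul, abs_of_nonneg (hν x)]
  exact mul_le_mul_of_nonneg_left (h x) (hν x)

lemma Ex_const {ν : Cfg n → ℝ} (hν : IsProb ν) (c : ℝ) : Ex ν (fun _ => c) = c := by
  unfold Ex; rw [← Finset.sum_mul, hν.2, one_mul]

/-- Cauchy-Schwarz for sums over sites and expectations -/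
lemma Ex_cs {ν : Cfg n → ℝ} (hν : ∀ x, 0 ≤ ν x) (a b : Fin n → Cfg n → ℝ) :
    Ex ν (fun x => ∑ i, a i x * b i x) ≤
      Real.sqrt (Ex ν (fun x => ∑ i, a i x ^ 2)) * Real.sqrt (Ex ν (fun x => ∑ i, b i x ^ 2)) := by
  have h0 : ∀ c : Fin n → Cfg n → ℝ, Ex ν (fun x => ∑ i, c i x) =
      ∑ p : Cfg n × Fin n, ν p.1 * c p.2 p.1 := by
    intro c
    unfold Ex
    rw [Fintype.sum_prod_type]
    exact Finset.sum_congr rfl fun x _ => by rw [Finset.mul_sum]
  have h1 : Ex ν (fun x => ∑ i, a i x * b i x) =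
      ∑ p : Cfg n × Fin n, (Real.sqrt (ν p.1) * a p.2 p.1) * (Real.sqrt (ν p.1) * b p.2 p.1) := by
    rw [h0 (fun i x => a i x * b i x)]
    refine Finset.sum_congr rfl fun p _ => ?_
    have := Real.mul_self_sqrt (hν p.1)
    linear_combination (-(a p.2 p.1 * b p.2 p.1)) * this
  have h2 : ∀ c : Fin n → Cfg n → ℝ, Ex ν (fun x => ∑ i, c i x ^ 2) =
      ∑ p : Cfg n × Fin n, (Real.sqrt (ν p.1) * c p.2 p.1) ^ 2 := by
    intro c
    rw [h0 (fun i x => c i x ^ 2)]
    refine Finset.sum_congr rfl fun p _ => ?_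
    rw [mul_pow, Real.sq_sqrt (hν p.1)]
  rw [h1, h2, h2, ← Real.sqrt_mul (Finset.sum_nonneg fun p _ => sq_nonneg _)]
  exact Real.le_sqrt_of_sq_le (Finset.sum_mul_sq_le_sq_mul_sq _ _ _)

/-- the local field without the self-interaction -/
noncomputable def h0f (M : Mat n) (y : Vec n) (i : Fin n) (x : Cfg n) : ℝ :=
  M.mulVec (sv x) i - M i i * sv x i + y i

lemma indep_h0f (M : Mat n) (y : Vec n) (i : Fin n) : Indep i (h0f M y i) := by
  intro x b
  have h : ∀ z : Cfg n, M.mulVec (sv z) i - M i i * sv z i =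
      ∑ j ∈ Finset.univ.erase i, M i j * sv z j := by
    intro z
    rw [Matrix.mulVec, dotProduct, ← Finset.add_sum_erase _ _ (Finset.mem_univ i)]
    ring
  unfold h0f
  rw [h, h]
  congr 1
  refine Finset.sum_congr rfl fun j hj => ?_
  rw [sv, sv, Function.update_of_ne (Finset.ne_of_mem_erase hj)]

lemma hasDerivAt_tanh' (x : ℝ) : HasDerivAt Real.tanh (1 - Real.tanh x ^ 2) x := by
  have hc : Real.cosh x ≠ 0 := (Real.cosh_pos x).ne'
  have h := (Real.hasDerivAt_sinh x).div (Real.hasDerivAt_cosh x) hc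
  have e : (fun y => Real.sinh y / Real.cosh y) = Real.tanh := by
    funext y; rw [Real.tanh_eq_sinh_div_cosh]
  have e2 : (Real.cosh x * Real.cosh x - Real.sinh x * Real.sinh x) / Real.cosh x ^ 2 =
      1 - Real.tanh x ^ 2 := by
    rw [Real.tanh_eq_sinh_div_cosh]; field_simp
  have h' : HasDerivAt (fun y => Real.sinh y / Real.cosh y)
      ((Real.cosh x * Real.cosh x - Real.sinh x * Real.sinh x) / Real.cosh x ^ 2) x := h
  rwa [e, e2] at h'

lemma tanh_lip' (a b : ℝ) : |Real.tanh a - Real.tanh b| ≤ |a - b| := by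
  have h : LipschitzWith 1 Real.tanh := by
    refine lipschitzWith_of_nnnorm_deriv_le
      (fun x => (hasDerivAt_tanh' x).differentiableAt) fun x => ?_
    rw [← NNReal.coe_le_coe, coe_nnnorm, NNReal.coe_one, (hasDerivAt_tanh' x).deriv,
      Real.norm_eq_abs, abs_le]
    have h1 := Real.tanh_sq_lt_one x
    constructor <;> nlinarith [sq_nonneg (Real.tanh x)]
  have := h.dist_le_mul a b
  simpa [Real.dist_eq] using this

/-- the pointwise Stein identity in direction `i` -/
lemma stein_i {ν : Cfg n → ℝ} (hν : ∀ x, 0 ≤ ν x) (i : Fin n) {T m : Cfg n → ℝ}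
    (hT : Indep i T) (g : Cfg n → ℝ) :
    Ex ν (fun x => (sv x i - m x) * g x - (1 - m x ^ 2) * dd i g x) =
      Ex ν (fun x => (condMean ν i x - T x) * (g x - sv x i * dd i g x - T x * dd i g x) +
        ((m x ^ 2 - T x ^ 2) * dd i g x - (m x - T x) * g x)) := by
  have hk1 := Ex_spin hν i (indep_av i g)
  have hk2 := Ex_spin hν i (hT.mul (indep_dd i g))
  rw [← sub_eq_zero, ← Ex_sub]
  have e : (fun x => ((sv x i - m x) * g x - (1 - m x ^ 2) * dd i g x) -
      ((condMean ν i x - T x) * (g x - sv x i * dd i g x - T x * dd i g x) +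
        ((m x ^ 2 - T x ^ 2) * dd i g x - (m x - T x) * g x))) =
      fun x => (sv x i * av i g x - condMean ν i x * av i g x) -
        (sv x i * (T x * dd i g x) - condMean ν i x * (T x * dd i g x)) := by
    funext x
    have h1 := eq_av_add i g x
    have h2 := sv_sq x i
    have h3 : av i g x = g x - sv x i * dd i g x := by linarith
    rw [h3]
    linear_combination (dd i g x) * h2
  rw [e, Ex_sub, Ex_sub, Ex_sub, hk1, hk2]
  ring

/-- the base Stein identity (non-asymptotic form) -/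
theorem base_stein {M : Mat n} {y : Vec n} {ν : Cfg n → ℝ} (hν : IsProb ν) {G : Cfg n → Vec n}
    {C : ℝ} (hC : 0 ≤ C) (hG : ∀ x, sq (G x) ≤ C ^ 2 * n)
    (hD : ∀ x, ∑ i, dd i (fun z => G z i) x ^ 2 ≤ C ^ 2 * n) :
    |Ex ν (fun x => ∑ i, ((sv x i - Real.tanh (M.mulVec (sv x) i + y i)) * G x i -
      (1 - Real.tanh (M.mulVec (sv x) i + y i) ^ 2) * dd i (fun z => G z i) x))| ≤
      4 * C * Real.sqrt n * (Real.sqrt (dlr M y ν) + Real.sqrt (∑ i, M i i ^ 2)) := by
  set m : Fin n → Cfg n → ℝ := fun i x => Real.tanh (M.mulVec (sv x) i + y i) with hm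
  set T : Fin n → Cfg n → ℝ := fun i x => Real.tanh (h0f M y i x) with hT
  have hTi : ∀ i, Indep i (T i) := fun i x b => by
    simp only [hT]; rw [indep_h0f M y i x b]
  have hmT : ∀ i x, |m i x - T i x| ≤ |M i i| := by
    intro i x
    refine (tanh_lip' _ _).trans ?_
    have e : M.mulVec (sv x) i + y i - h0f M y i x = M i i * sv x i := by unfold h0f; ring
    rw [e, abs_mul, abs_sv, mul_one]
  have hm1 : ∀ i x, |m i x| ≤ 1 := fun i x => (Real.abs_tanh_lt_one _).le
  have hT1 : ∀ i x, |T i x| ≤ 1 := fun i x => (Real.abs_tanh_lt_one _).le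
  set D : Fin n → Cfg n → ℝ := fun i x => dd i (fun z => G z i) x with hDD
  set W : Fin n → Cfg n → ℝ := fun i x => |G x i| + 2 * |D i x| with hW
  have hWn : ∀ i x, 0 ≤ W i x := fun i x => by simp only [hW]; (clear * -; positivity)
  have e1 : Ex ν (fun x => ∑ i, ((sv x i - m i x) * G x i - (1 - m i x ^ 2) * D i x)) =
      Ex ν (fun x => ∑ i, ((condMean ν i x - T i x) * (G x i - sv x i * D i x - T i x * D i x) +
        ((m i x ^ 2 - T i x ^ 2) * D i x - (m i x - T i x) * G x i))) := by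
    rw [Ex_sum, Ex_sum]
    exact Finset.sum_congr rfl fun i _ => stein_i hν.1 i (hTi i) (fun x => G x i)
  have e2 : ∀ x, |∑ i, ((condMean ν i x - T i x) * (G x i - sv x i * D i x - T i x * D i x) +
        ((m i x ^ 2 - T i x ^ 2) * D i x - (m i x - T i x) * G x i))| ≤
      ∑ i, |condMean ν i x - T i x| * W i x + ∑ i, |M i i| * W i x := by
    intro x
    rw [← Finset.sum_add_distrib]
    refine (Finset.abs_sum_le_sum_abs _ _).trans (Finset.sum_le_sum fun i _ => ?_)
    refine (abs_add_le _ _).trans (add_le_add ?_ ?_)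
    · rw [abs_mul]
      refine mul_le_mul_of_nonneg_left ?_ (abs_nonneg _)
      have a1 : |sv x i * D i x| = |D i x| := by rw [abs_mul, abs_sv, one_mul]
      have a2 : |T i x * D i x| ≤ |D i x| := by
        rw [abs_mul]; exact mul_le_of_le_one_left (abs_nonneg _) (hT1 i x)
      calc |G x i - sv x i * D i x - T i x * D i x|
          ≤ |G x i| + |sv x i * D i x| + |T i x * D i x| := by
            refine (abs_sub _ _).trans (add_le_add_left (abs_sub _ _) _)
        _ ≤ W i x := by simp only [hW]; linarith only [a2, a1]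
    · have a3 : |(m i x ^ 2 - T i x ^ 2) * D i x| ≤ |M i i| * (2 * |D i x|) := by
        have : m i x ^ 2 - T i x ^ 2 = (m i x - T i x) * (m i x + T i x) := by ring
        rw [this, abs_mul, abs_mul]
        have b1 : |m i x + T i x| ≤ 2 := (abs_add_le _ _).trans (by linarith only [hT1 i x, hm1 i x])
        calc |m i x - T i x| * |m i x + T i x| * |D i x| ≤ |M i i| * 2 * |D i x| := by
              refine mul_le_mul_of_nonneg_right ?_ (abs_nonneg _)
              exact mul_le_mul (hmT i x) b1 (abs_nonneg _) (abs_nonneg _)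
          _ = _ := by ring
      have a4 : |(m i x - T i x) * G x i| ≤ |M i i| * |G x i| := by
        rw [abs_mul]; exact mul_le_mul_of_nonneg_right (hmT i x) (abs_nonneg _)
      calc _ ≤ |(m i x ^ 2 - T i x ^ 2) * D i x| + |(m i x - T i x) * G x i| := abs_sub _ _
        _ ≤ |M i i| * (2 * |D i x|) + |M i i| * |G x i| := add_le_add a3 a4
        _ = |M i i| * W i x := by simp only [hW]; ring
  have hW2 : ∀ x, ∑ i, W i x ^ 2 ≤ (4 * C) ^ 2 * n := by
    intro x
    have b1 : ∀ i, W i x ^ 2 ≤ 2 * G x i ^ 2 + 8 * D i x ^ 2 := by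
      intro i
      have c1 := sq_abs (G x i)
      have c2 := sq_abs (D i x)
      simp only [hW]
      linarith only [c1, c2, sq_nonneg (|G x i| - 2 * |D i x|)]
    have b2 : ∑ i, W i x ^ 2 ≤ 2 * sq (G x) + 8 * ∑ i, D i x ^ 2 := by
      rw [sq, Finset.mul_sum, Finset.mul_sum, ← Finset.sum_add_distrib]
      exact Finset.sum_le_sum fun i _ => b1 i
    have b3 := hG x
    have b4 := hD x
    have b5 : 0 ≤ C ^ 2 * n := by (clear * -; positivity)
    simp only [hDD] at b2
    linarith only [b3, b4, b5, b2]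
  have hsW : Real.sqrt (Ex ν (fun x => ∑ i, W i x ^ 2)) ≤ 4 * C * Real.sqrt n := by
    have h1 : Ex ν (fun x => ∑ i, W i x ^ 2) ≤ (4 * C) ^ 2 * n :=
      (Ex_mono hν.1 hW2).trans_eq (Ex_const hν _)
    refine (Real.sqrt_le_sqrt h1).trans_eq ?_
    rw [Real.sqrt_mul (by (clear * -; positivity)), Real.sqrt_sq (by (clear * - hC; positivity))]
  have hp1 : Ex ν (fun x => ∑ i, |condMean ν i x - T i x| * W i x) ≤
      Real.sqrt (dlr M y ν) * (4 * C * Real.sqrt n) := by
    refine (Ex_cs hν.1 (fun i x => |condMean ν i x - T i x|) W).trans ?_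
    refine mul_le_mul ?_ hsW (Real.sqrt_nonneg _) (Real.sqrt_nonneg _)
    refine Real.sqrt_le_sqrt (le_of_eq ?_)
    unfold Ex dlr
    refine Finset.sum_congr rfl fun x _ => ?_
    congr 1
    refine Finset.sum_congr rfl fun i _ => ?_
    rw [sq_abs]
    rfl
  have hp2 : Ex ν (fun x => ∑ i, |M i i| * W i x) ≤
      Real.sqrt (∑ i, M i i ^ 2) * (4 * C * Real.sqrt n) := by
    refine (Ex_cs hν.1 (fun i _ => |M i i|) W).trans ?_
    refine mul_le_mul ?_ hsW (Real.sqrt_nonneg _) (Real.sqrt_nonneg _)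
    refine Real.sqrt_le_sqrt (le_of_eq ?_)
    rw [Ex_const hν]
    exact Finset.sum_congr rfl fun i _ => sq_abs _
  calc |Ex ν (fun x => ∑ i, ((sv x i - m i x) * G x i - (1 - m i x ^ 2) * D i x))|
      ≤ Ex ν (fun x => ∑ i, |condMean ν i x - T i x| * W i x + ∑ i, |M i i| * W i x) := by
        rw [e1]; exact Ex_abs_le hν.1 e2
    _ ≤ Real.sqrt (dlr M y ν) * (4 * C * Real.sqrt n) +
        Real.sqrt (∑ i, M i i ^ 2) * (4 * C * Real.sqrt n) := by
        rw [Ex_add]; exact add_le_add hp1 hp2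
    _ = _ := by ring

end Vale.Agent.P150.F.St

namespace Vale.Agent.P150.F.D2

open Filter Topology St

/-- `H'_1`: the base Stein identity in filter form -/
theorem HH_one {ι : Type} {F : Filter ι} {d : ι → Dat} (h : Hyp F d) : HH F d 1 := by
  intro G hG
  obtain ⟨⟨C1, hC1⟩, ⟨C2, hC2⟩⟩ := hG
  obtain ⟨CA, hCA⟩ := h.hsA
  set C : ℝ := |C1| + |C2| + 1 with hCdef
  have hC : 0 ≤ C := by (clear * -; positivity)
  -- the bound
  set B : ι → ℝ := fun i => 4 * C * (Real.sqrt (dlr (d i).M (d i).y (d i).ν / (d i).n) +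
    Real.sqrt (CA / (d i).n)) with hB
  have hBt : Tendsto B F (𝓝 0) := by
    have h1 : Tendsto (fun i => Real.sqrt (dlr (d i).M (d i).y (d i).ν / (d i).n)) F (𝓝 0) := by
      have := h.dlr.sqrt
      rwa [Real.sqrt_zero] at this
    have h2 : Tendsto (fun i => Real.sqrt (CA / (d i).n)) F (𝓝 0) := by
      have hn : Tendsto (fun i => ((d i).n : ℝ)) F atTop :=
        tendsto_natCast_atTop_atTop.comp h.n_top
      have := (hn.const_div_atTop CA).sqrt
      rwa [Real.sqrt_zero] at this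
    have := (h1.add h2).const_mul (4 * C)
    rwa [add_zero, mul_zero] at this
  refine squeeze_zero_norm' ?_ hBt
  filter_upwards [hC1, hC2, h.n_top.eventually_ge_atTop 1] with i h1 h2 hn
  have hn0 : (0 : ℝ) < (d i).n := by exact_mod_cast hn
  have hC1' : |C1| ≤ C := by have := abs_nonneg C2; linarith only [this]
  have hCC : C ≤ C ^ 2 := by
    have : 1 ≤ C := by have := abs_nonneg C1; have := abs_nonneg C2; linarith
    (by_contra nlg; linarith only [nlg, mul_pos (sub_pos.2 (not_le.1 nlg)) (sub_pos.2 (not_le.1 nlg)), mul_nonneg (sq_nonneg (C : ℝ)) (sub_nonneg.2 this), mul_nonneg (sq_nonneg (C : ℝ)) (le_of_lt (sub_pos.2 (not_le.1 nlg)))])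
  have hG2 : ∀ x, sq (G i x) ≤ C ^ 2 * (d i).n := by
    intro x
    calc sq (G i x) ≤ ∑ _j : Fin (d i).n, C ^ 2 := by
          refine Finset.sum_le_sum fun j _ => ?_
          have := (h1 x j).trans ((le_abs_self C1).trans hC1')
          exact sq_le_sq' (by linarith only [neg_abs_le (G i x j), this]) ((le_abs_self _).trans this)
      _ = _ := by rw [Finset.sum_const, Finset.card_univ, Fintype.card_fin, nsmul_eq_mul]; ring
  have hD2 : ∀ x, ∑ j, dd j (fun z => G i z j) x ^ 2 ≤ C ^ 2 * (d i).n := by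
    intro x
    calc ∑ j, dd j (fun z => G i z j) x ^ 2 ≤ hsq (DD (G i) x) := by
          refine Finset.sum_le_sum fun j _ => ?_
          exact Finset.single_le_sum (f := fun l => DD (G i) x j l ^ 2)
            (fun l _ => sq_nonneg _) (Finset.mem_univ j)
      _ ≤ C2 * (d i).n := h2 x
      _ ≤ C ^ 2 * (d i).n := by
          refine mul_le_mul_of_nonneg_right ?_ hn0.le
          have := le_abs_self C2; have := abs_nonneg C1; linarith
  have key := base_stein (M := (d i).M) (y := (d i).y) (h.prob i) hC hG2 hD2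
  have hM : ∑ j, (d i).M j j ^ 2 ≤ CA := by
    refine le_trans ?_ (hCA i)
    refine Finset.sum_le_sum fun j _ => ?_
    have e : (d i).M j j = -(d i).A j j := by
      simp [Dat.M, h.diag i j]
    rw [e, neg_sq]
    exact Finset.single_le_sum (f := fun l => (d i).A j l ^ 2)
      (fun l _ => sq_nonneg _) (Finset.mem_univ j)
  have e : EE d (fun i x => ip ((d i).m x (1 - 1) - (d i).m x 1) (G i x) / (d i).n -
      trN ((d i).DK x 1 * DD (G i) x)) i =
      Ex (d i).ν (fun x => ∑ j, ((sv x j - Real.tanh ((d i).M.mulVec (sv x) j + (d i).y j)) *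
        G i x j - (1 - Real.tanh ((d i).M.mulVec (sv x) j + (d i).y j) ^ 2) *
        dd j (fun z => G i z j) x)) / (d i).n := by
    unfold EE Ex
    rw [Finset.sum_div]
    refine Finset.sum_congr rfl fun x _ => ?_
    rw [mul_div_assoc]
    congr 1
    beta_reduce
    rw [Finset.sum_sub_distrib, sub_div]
    congr 1
    rw [trN]
    congr 1
    refine Finset.sum_congr rfl fun j _ => ?_
    rw [Dat.DK, DK_one, dg, Matrix.diagonal_mul]
    rfl
  rw [e, Real.norm_eq_abs, abs_div, abs_of_pos hn0, div_le_iff₀ hn0]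
  refine key.trans ?_
  simp only [hB]
  have hs : Real.sqrt (d i).n * Real.sqrt (d i).n = (d i).n := Real.mul_self_sqrt hn0.le
  have r1 : Real.sqrt (dlr (d i).M (d i).y (d i).ν) =
      Real.sqrt (dlr (d i).M (d i).y (d i).ν / (d i).n) * Real.sqrt (d i).n := by
    rw [← Real.sqrt_mul' _ hn0.le, div_mul_cancel₀ _ hn0.ne']
  have r2 : Real.sqrt (∑ j, (d i).M j j ^ 2) ≤
      Real.sqrt (CA / (d i).n) * Real.sqrt (d i).n := by
    rw [← Real.sqrt_mul' _ hn0.le, div_mul_cancel₀ _ hn0.ne']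
    exact Real.sqrt_le_sqrt hM
  rw [r1]
  calc 4 * C * Real.sqrt (d i).n *
        (Real.sqrt (dlr (d i).M (d i).y (d i).ν / (d i).n) * Real.sqrt (d i).n +
          Real.sqrt (∑ j, (d i).M j j ^ 2))
      ≤ 4 * C * Real.sqrt (d i).n *
        (Real.sqrt (dlr (d i).M (d i).y (d i).ν / (d i).n) * Real.sqrt (d i).n +
          Real.sqrt (CA / (d i).n) * Real.sqrt (d i).n) := by gcongr
    _ = 4 * C * (Real.sqrt (dlr (d i).M (d i).y (d i).ν / (d i).n) +
          Real.sqrt (CA / (d i).n)) * (Real.sqrt (d i).n * Real.sqrt (d i).n) := by ring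
    _ = _ := by rw [hs]

end Vale.Agent.P150.F.D2
end

section

/-! P150 FULL, D6 (O1): choice of the constants and the exit probability. -/

open MeasureTheory ProbabilityTheory Filter Topology
open scoped Matrix ENNReal

namespace Vale.Agent.P150.F

theorem num_tau {a : ℝ} (ha : 0 < a) : ∃ τ₀ : ℝ, 0 < τ₀ ∧ τ₀ ≤ 1 ∧ 12 * τ₀ + √(56 * τ₀) ≤ a := by
  have h : Tendsto (fun t : ℝ => 12 * t + √(56 * t)) (𝓝[>] 0) (𝓝 0) := by
    have h1 : Continuous fun t : ℝ => 12 * t + √(56 * t) := by fun_prop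
    have h2 := (h1.tendsto 0).mono_left (nhdsWithin_le_nhds (s := Set.Ioi 0))
    simpa using h2
  have h2 := (h.eventually (ge_mem_nhds ha)).and (Ioc_mem_nhdsGT (zero_lt_one' ℝ))
  obtain ⟨t, ht⟩ := h2.exists
  exact ⟨t, ht.2.1, ht.2.2, ht.1⟩

theorem num_pm {a b τ₀ : ℝ} (ha : 0 < a) :
    ∃ Pm : ℕ, 0 < Pm ∧ b * (√(56 * (τ₀ / Pm)) + 12 * (τ₀ / Pm)) ≤ a := by
  have h0 : Tendsto (fun P : ℕ => τ₀ / (P : ℝ)) atTop (𝓝 0) :=
    tendsto_const_div_atTop_nhds_zero_nat τ₀
  have h1 : Continuous fun t : ℝ => b * (√(56 * t) + 12 * t) := by fun_prop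
  have h2 := (h1.tendsto 0).comp h0
  simp only [mul_zero, Real.sqrt_zero, add_zero] at h2
  obtain ⟨P, hP⟩ := ((h2.eventually (ge_mem_nhds ha)).and (eventually_gt_atTop 0)).exists
  exact ⟨P, hP.2, hP.1⟩

/-- the conditions on the constants in the no-exit theorem (same list as `Trk.Cst`) -/
structure ExC (c ρ κ₀ τ Ks E E' e ε : ℝ) (Nw d Pm K ℓ : ℕ) (ρ1 ρ2 ρb ρc : ℝ) : Prop where
  h0 : (7 * e + Nw * d * (Ks + 1) * ε * (1 + Nw * d * Ks * 7 ^ (K + 2)))
    + (Ks * (ε + 7 ^ (K + 2) * (Nw * d * (Ks + 1) * ε)) + ε) ≤ c * ρ2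
  h1 : ρ1 + ρ2 ≤ ρ / 2
  h2 : 2 * ρ2 + 1 / ℓ + ρc ≤ ρ / 2
  h3 : 2 * ρ2 + 1 / ℓ + ρc + ρ2 ≤ ρ1
  h4 : 2 * ρ2 + 1 / ℓ + ρc + ρ2 + ρb ≤ ρ
  h5 : 5 * τ + (τ * (3 + κ₀) + E) ≤ c * ρc
  h6 : 7 ^ (K + 2) * (τ / Pm * (3 + κ₀) + E' + 5 * (τ / Pm)) ≤ ρb
  h7 : e ≤ ρ1
  p2 : 0 ≤ ρ2
  pb : 0 ≤ ρb
  pc : 0 ≤ ρc
  pE : 0 ≤ E'

/-- the choice of the tolerance `ε` -/
noncomputable def exEps (c ρ Ks : ℝ) (Nw d K : ℕ) : ℝ :=
  c * ρ / 64 / (Nw * d * (Ks + 1) * (1 + Nw * d * Ks * 7 ^ (K + 2))
    + (Ks * (1 + 7 ^ (K + 2) * (Nw * d * (Ks + 1))) + 1))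

theorem exEps_pos {c ρ Ks : ℝ} (hc : 0 < c) (hρ : 0 < ρ) (hKs : 0 ≤ Ks) (Nw d K : ℕ) :
    0 < exEps c ρ Ks Nw d K := by
  unfold exEps
  positivity

theorem exC_of {c ρ Ks τ τ₀ : ℝ} {Nw d Pm K ℓ : ℕ} (hc : 0 < c) (hc1 : c ≤ 1) (hρ : 0 < ρ)
    (hKs : 0 ≤ Ks) (hτ : τ ≤ τ₀) (hℓ : 16 ≤ ρ * ℓ)
    (h1 : 12 * τ₀ + √(56 * τ₀) ≤ c * ρ / 8) (hPm : 0 < Pm)
    (h2 : (7 : ℝ) ^ (K + 2) * (√(56 * (τ₀ / Pm)) + 12 * (τ₀ / Pm)) ≤ ρ / 8) :
    ExC c ρ 4 τ Ks (√(56 * τ₀)) (√(56 * (τ₀ / Pm))) (c * ρ / 448) (exEps c ρ Ks Nw d K)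
      Nw d Pm K ℓ (3 * ρ / 8) (ρ / 32) (ρ / 8) (ρ / 8) := by
  have hℓ' : (1 : ℝ) / ℓ ≤ ρ / 16 := by
    have h0 : (0 : ℝ) < ℓ := by
      by_contra hcon
      have : (ℓ : ℝ) = 0 := le_antisymm (not_lt.1 hcon) (Nat.cast_nonneg _)
      rw [this] at hℓ
      linarith only [hℓ]
    rw [div_le_iff₀ h0]
    linarith only [hℓ]
  have hB : 0 < (Nw * d * (Ks + 1) * (1 + Nw * d * Ks * 7 ^ (K + 2))
    + (Ks * (1 + 7 ^ (K + 2) * (Nw * d * (Ks + 1))) + 1) : ℝ) := by (clear * - hKs; positivity)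
  refine ⟨?_, by linarith only [hρ], by linarith only [hℓ', hρ], by linarith only [hρ, hℓ'], by linarith only [hρ, hℓ'], ?_, ?_, by nlinarith,
    by positivity, by positivity, by positivity, Real.sqrt_nonneg _⟩
  · have e1 : exEps c ρ Ks Nw d K * (Nw * d * (Ks + 1) * (1 + Nw * d * Ks * 7 ^ (K + 2))
        + (Ks * (1 + 7 ^ (K + 2) * (Nw * d * (Ks + 1))) + 1)) = c * ρ / 64 := by
      unfold exEps
      field_simp
    calc (7 * (c * ρ / 448) + Nw * d * (Ks + 1) * exEps c ρ Ks Nw d K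
          * (1 + Nw * d * Ks * 7 ^ (K + 2)))
        + (Ks * (exEps c ρ Ks Nw d K + 7 ^ (K + 2) * (Nw * d * (Ks + 1) * exEps c ρ Ks Nw d K))
          + exEps c ρ Ks Nw d K)
        = c * ρ / 64 + exEps c ρ Ks Nw d K * (Nw * d * (Ks + 1) * (1 + Nw * d * Ks * 7 ^ (K + 2))
        + (Ks * (1 + 7 ^ (K + 2) * (Nw * d * (Ks + 1))) + 1)) := by ring
      _ = c * ρ / 64 + c * ρ / 64 := by rw [e1]
      _ = c * (ρ / 32) := by ring
      _ ≤ _ := le_rfl
  · linarith only [h1, hτ]
  · have hPmR : (0 : ℝ) < Pm := by exact_mod_cast hPm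
    have h3 : τ / Pm ≤ τ₀ / Pm := by gcongr
    calc (7 : ℝ) ^ (K + 2) * (τ / Pm * (3 + 4) + √(56 * (τ₀ / Pm)) + 5 * (τ / Pm))
        ≤ 7 ^ (K + 2) * (√(56 * (τ₀ / Pm)) + 12 * (τ₀ / Pm)) := by
          refine mul_le_mul_of_nonneg_left ?_ (by positivity)
          linarith only [h3]
      _ ≤ ρ / 8 := h2

end Vale.Agent.P150.F
end
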