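import Mathlib
import Vale.Agent.P150.Bdl.B11
import Vale.Agent.P150.Bdl.B9
import Vale.Agent.P150.Bdl.B7

set_option linter.all false

section

/-! Lemma B of the blueprint: for fixed `m`, the TAP Hessian (with the rank-one term) is bounded
below with probability `1 - e^{-an}`, uniformly in `r ≤ β` and `m`. -/

open MeasureTheory ProbabilityTheory Real Set Filter Topology

namespace Vale.Agent.P150.F.L6b

variable {n : ℕ}

/-! ### quadratic forms -/

lemma qf_add (A B : Mat n) (v : Vec n) : qf (A + B) v = qf A v + qf B v := by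
  unfold qf ip
  rw [Matrix.add_mulVec, ← Finset.sum_add_distrib]
  refine Finset.sum_congr rfl fun i _ => ?_
  simp only [Pi.add_apply]; ring

lemma qf_sub (A B : Mat n) (v : Vec n) : qf (A - B) v = qf A v - qf B v := by
  unfold qf ip
  rw [Matrix.sub_mulVec, ← Finset.sum_sub_distrib]
  refine Finset.sum_congr rfl fun i _ => ?_
  simp only [Pi.sub_apply]; ring

lemma qf_smul (c : ℝ) (A : Mat n) (v : Vec n) : qf (c • A) v = c * qf A v := by
  unfold qf ip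
  rw [Matrix.smul_mulVec, Finset.mul_sum]
  refine Finset.sum_congr rfl fun i _ => ?_
  simp only [Pi.smul_apply, smul_eq_mul]; ring

lemma qf_one (v : Vec n) : qf (1 : Mat n) v = sq v := by
  unfold qf ip sq
  rw [Matrix.one_mulVec]
  exact Finset.sum_congr rfl fun i _ => (pow_two _).symm

lemma qf_dg (a v : Vec n) : qf (dg a) v = ∑ i, a i * v i ^ 2 := by
  unfold qf ip dg
  refine Finset.sum_congr rfl fun i _ => ?_
  rw [Matrix.mulVec_diagonal]; ring

lemma qf_vecMulVec (m v : Vec n) : qf (Matrix.vecMulVec m m) v = ip m v ^ 2 := by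
  unfold qf
  have h : (Matrix.vecMulVec m m).mulVec v = fun i => m i * ip m v := by
    funext i
    simp only [Matrix.mulVec, dotProduct, Matrix.vecMulVec_apply, ip]
    rw [Finset.mul_sum]
    exact Finset.sum_congr rfl fun j _ => by ring
  rw [h]
  have h2 : ip v (fun i => m i * ip m v) = ip m v * ip m v := by
    have h3 : ∀ X : ℝ, ip v (fun i => m i * X) = ip m v * X := by
      intro X
      unfold ip
      rw [Finset.sum_mul]
      exact Finset.sum_congr rfl fun j _ => by ring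
    exact h3 _
  rw [h2]; ring

/-- the Hessian as a quadratic form -/
lemma qf_Hess (r : ℝ) (J A : Mat n) (m v : Vec n) :
    qf (Hess r J A m) v = (∑ i, 1 / (1 - m i ^ 2) * v i ^ 2) + r ^ 2 * (1 - qq m) * sq v
      - r * qf J v + qf A v - 2 * r ^ 2 / n * ip m v ^ 2 := by
  unfold Hess
  rw [qf_sub, qf_add, qf_sub, qf_add, qf_smul, qf_smul, qf_smul, qf_one, qf_dg, qf_vecMulVec]

/-! ### the comparison -/

/-- coefficients of `r · vᵀJv` as a linear form of the disorder -/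
noncomputable def cX (r : ℝ) (v : Vec n) (p : Pairs n) : ℝ := 2 * r / √n * (v p.1.1 * v p.1.2)

/-- coefficients of the comparison process -/
noncomputable def cY (r : ℝ) (v : Vec n) (i : Fin n) : ℝ := 2 * r / √n * v i

lemma qf_skM_lin (r : ℝ) (g : Pairs n → ℝ) (v : Vec n) :
    r * qf (skM g) v = ∑ p, cX r v p * g p := by
  have h1 : qf (skM g) v = ∑ i, ∑ j, gsym g i j / √n * (v i * v j) := by
    unfold qf ip
    refine Finset.sum_congr rfl fun i _ => ?_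
    simp only [Matrix.mulVec, dotProduct, skM]
    rw [Finset.mul_sum]
    exact Finset.sum_congr rfl fun j _ => by ring
  rw [h1, sum_pairs]
  simp only [gsym_self, zero_div, zero_mul, Finset.sum_const_zero, add_zero, gsym_pair,
    gsym_pair']
  rw [Finset.mul_sum]
  refine Finset.sum_congr rfl fun p _ => ?_
  unfold cX
  ring

lemma two_mul_sum_pairs (x : Fin n → Fin n → ℝ) (hx : ∀ i j, x i j = x j i)
    (h0 : ∀ i, 0 ≤ x i i) : 2 * ∑ p : Pairs n, x p.1.1 p.1.2 ≤ ∑ i, ∑ j, x i j := by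
  rw [sum_pairs, Finset.mul_sum]
  have h1 : ∑ p : Pairs n, 2 * x p.1.1 p.1.2 = ∑ p : Pairs n, (x p.1.1 p.1.2 + x p.1.2 p.1.1) := by
    refine Finset.sum_congr rfl fun p _ => ?_
    rw [hx p.1.2 p.1.1]; ring
  rw [h1]
  have h2 : 0 ≤ ∑ i, x i i := Finset.sum_nonneg fun i _ => h0 i
  linarith only [h2]

/-- the increment comparison on the unit sphere -/
lemma inc_le (hn : 0 < n) (r : ℝ) (v u : Vec n) (hv : sq v = 1) (hu : sq u = 1) :
    ∑ p, (cX r v p - cX r u p) ^ 2 ≤ ∑ i, (cY r v i - cY r u i) ^ 2 := by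
  have hn' : (0 : ℝ) < n := by exact_mod_cast hn
  have hsn : √(n : ℝ) ^ 2 = n := Real.sq_sqrt hn'.le
  have hk : (2 * r / √n) ^ 2 = 4 * r ^ 2 / n := by
    rw [div_pow, hsn]; ring
  have hP := two_mul_sum_pairs (fun i j => (v i * v j - u i * u j) ^ 2)
    (fun i j => by ring) (fun i => sq_nonneg _)
  have h1 : ∑ i, ∑ j, (v i * v j - u i * u j) ^ 2 = 2 - 2 * ip v u ^ 2 := by
    have e1 : ∑ i, ∑ j, (v i * v j - u i * u j) ^ 2
        = sq v * sq v + sq u * sq u - 2 * (ip v u * ip v u) := by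
      unfold sq ip
      simp only [Finset.sum_mul_sum]
      rw [Finset.mul_sum, ← Finset.sum_add_distrib, ← Finset.sum_sub_distrib]
      refine Finset.sum_congr rfl fun i _ => ?_
      rw [Finset.mul_sum, ← Finset.sum_add_distrib, ← Finset.sum_sub_distrib]
      exact Finset.sum_congr rfl fun j _ => by ring
    rw [e1, hv, hu]; ring
  have h2 : ∑ i, (v i - u i) ^ 2 = 2 - 2 * ip v u := by
    have e1 : ∑ i, (v i - u i) ^ 2 = sq v + sq u - 2 * ip v u := by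
      unfold sq ip
      rw [Finset.mul_sum, ← Finset.sum_add_distrib, ← Finset.sum_sub_distrib]
      exact Finset.sum_congr rfl fun j _ => by ring
    rw [e1, hv, hu]; ring
  have hX : ∑ p, (cX r v p - cX r u p) ^ 2
      = 4 * r ^ 2 / n * ∑ p : Pairs n, (v p.1.1 * v p.1.2 - u p.1.1 * u p.1.2) ^ 2 := by
    rw [Finset.mul_sum]
    refine Finset.sum_congr rfl fun p _ => ?_
    rw [← hk]; unfold cX; ring
  have hY : ∑ i, (cY r v i - cY r u i) ^ 2 = 4 * r ^ 2 / n * ∑ i, (v i - u i) ^ 2 := by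
    rw [Finset.mul_sum]
    refine Finset.sum_congr rfl fun i _ => ?_
    rw [← hk]; unfold cY; ring
  rw [hX, hY, h2]
  refine mul_le_mul_of_nonneg_left ?_ (by (clear * - hn; positivity))
  rw [h1] at hP

  have h3 : 0 ≤ (ip v u - 1) ^ 2 := sq_nonneg _
  linarith only [hP, h3]

lemma cX_sq_le (hn : 0 < n) (r : ℝ) (v : Vec n) (hv : sq v = 1) :
    ∑ p, cX r v p ^ 2 ≤ 2 * r ^ 2 / n := by
  have hn' : (0 : ℝ) < n := by exact_mod_cast hn
  have hsn : √(n : ℝ) ^ 2 = n := Real.sq_sqrt hn'.le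
  have hk : (2 * r / √n) ^ 2 = 4 * r ^ 2 / n := by
    rw [div_pow, hsn]; ring
  have hP := two_mul_sum_pairs (fun i j => (v i * v j) ^ 2)
    (fun i j => by ring) (fun i => sq_nonneg _)
  have h1 : ∑ i, ∑ j, (v i * v j) ^ 2 = 1 := by
    have e1 : ∑ i, ∑ j, (v i * v j) ^ 2 = sq v * sq v := by
      unfold sq
      rw [Finset.sum_mul_sum]
      exact Finset.sum_congr rfl fun i _ => Finset.sum_congr rfl fun j _ => by ring
    rw [e1, hv]; ring
  have hX : ∑ p, cX r v p ^ 2 = 4 * r ^ 2 / n * ∑ p : Pairs n, (v p.1.1 * v p.1.2) ^ 2 := by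
    rw [Finset.mul_sum]
    refine Finset.sum_congr rfl fun p _ => ?_
    rw [← hk]; unfold cX; ring
  rw [hX]

  rw [h1] at hP
  have h4 : 4 * r ^ 2 / n = 2 * (2 * r ^ 2 / n) := by ring
  have h5 : 0 ≤ 2 * r ^ 2 / n := by (clear * - hn; positivity)
  rw [h4]
  linarith only [mul_le_mul_of_nonneg_left hP h5]

/-- completing the square with a rank-one term -/
lemma sq_complete (e h v m : Vec n) (κ : ℝ) (he : ∀ i, 0 < e i) (hκ : 0 ≤ κ)
    (hσ : κ * ∑ i, m i ^ 2 / e i ≤ 1 / 2) :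
    2 * ip h v - (∑ i, e i * v i ^ 2) + κ * ip m v ^ 2
      ≤ (∑ i, h i ^ 2 / e i) + 2 * κ * (∑ i, m i * h i / e i) ^ 2 := by
  set w : Vec n := fun i => v i - h i / e i with hw
  have h1 : 2 * ip h v - (∑ i, e i * v i ^ 2) = (∑ i, h i ^ 2 / e i) - ∑ i, e i * w i ^ 2 := by
    unfold ip
    rw [Finset.mul_sum, ← Finset.sum_sub_distrib, ← Finset.sum_sub_distrib]
    refine Finset.sum_congr rfl fun i _ => ?_
    have := (he i).ne'
    simp only [hw]
    field_simp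
    ring
  have h2 : ip m v = (∑ i, m i * h i / e i) + ip m w := by
    unfold ip
    rw [← Finset.sum_add_distrib]
    refine Finset.sum_congr rfl fun i _ => ?_
    simp only [hw]
    ring
  have h3 : ip m w ^ 2 ≤ (∑ i, m i ^ 2 / e i) * ∑ i, e i * w i ^ 2 := by
    have hcs := Finset.sum_mul_sq_le_sq_mul_sq Finset.univ (fun i => m i / √(e i))
      (fun i => √(e i) * w i)
    have e1 : ∑ i, m i / √(e i) * (√(e i) * w i) = ip m w := by
      unfold ip
      refine Finset.sum_congr rfl fun i _ => ?_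
      have : √(e i) ≠ 0 := (Real.sqrt_pos.2 (he i)).ne'
      field_simp
    have e2 : ∑ i, (m i / √(e i)) ^ 2 = ∑ i, m i ^ 2 / e i := by
      refine Finset.sum_congr rfl fun i _ => ?_
      rw [div_pow, Real.sq_sqrt (he i).le]
    have e3 : ∑ i, (√(e i) * w i) ^ 2 = ∑ i, e i * w i ^ 2 := by
      refine Finset.sum_congr rfl fun i _ => ?_
      rw [mul_pow, Real.sq_sqrt (he i).le]
    rw [e1, e2, e3] at hcs
    exact hcs
  have hW : 0 ≤ ∑ i, e i * w i ^ 2 :=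
    Finset.sum_nonneg fun i _ => mul_nonneg (he i).le (sq_nonneg _)
  set a := ∑ i, m i * h i / e i with ha
  set W := ∑ i, e i * w i ^ 2 with hWd
  set σ := ∑ i, m i ^ 2 / e i with hσd
  have h4 : κ * ip m w ^ 2 ≤ 1 / 2 * W := by
    calc κ * ip m w ^ 2 ≤ κ * (σ * W) := mul_le_mul_of_nonneg_left h3 hκ
      _ = κ * σ * W := by ring
      _ ≤ 1 / 2 * W := mul_le_mul_of_nonneg_right hσ hW
  have h5 : ip m v ^ 2 ≤ 2 * a ^ 2 + 2 * ip m w ^ 2 := by
    rw [h2]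
    linarith only [sq_nonneg (a - ip m w)]
  have h6 := mul_le_mul_of_nonneg_left h5 hκ
  have h7 : κ * (2 * a ^ 2 + 2 * ip m w ^ 2) = 2 * κ * a ^ 2 + 2 * (κ * ip m w ^ 2) := by ring
  linarith only [h6, h4, h1]

/-! ### Gaussian second moments -/

section moments
variable {ι : Type*} [Fintype ι]

lemma memLp_lin_gauss (c : ι → ℝ) : MemLp (fun g : ι → ℝ => ∑ i, c i * g i) 2 (gpi ι) := by
  refine memLp_finsetSum _ fun i _ => ?_
  have h1 : MemLp (fun x : ℝ => x) 2 (gaussianReal 0 1) := memLp_id_gaussianReal 2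
  exact (h1.comp_measurePreserving (measurePreserving_eval _ i)).const_mul (c i)

lemma integral_lin_sq (c : ι → ℝ) : ∫ g : ι → ℝ, (∑ i, c i * g i) ^ 2 ∂gpi ι = ∑ i, c i ^ 2 := by
  have h1 : ∀ i, MemLp (fun x : ℝ => c i * x) 2 (gaussianReal 0 1) := fun i =>
    (memLp_id_gaussianReal 2).const_mul (c i)
  have h2 := variance_sum_pi (μ := fun _ : ι => gaussianReal 0 1) h1
  have h3 : ∀ i, Var[fun x : ℝ => c i * x; gaussianReal 0 1] = c i ^ 2 := by
    intro i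
    rw [variance_const_mul, variance_fun_id_gaussianReal]
    simp
  simp only [h3] at h2
  rw [← h2]
  have h4 : (∑ i, fun g : ι → ℝ => c i * g i) = fun g : ι → ℝ => ∑ i, c i * g i := by
    funext g; simp
  rw [h4]
  have h5 : ∫ g : ι → ℝ, ∑ i, c i * g i ∂gpi ι = 0 := by
    rw [integral_finsetSum _ fun i _ => (Vale.Agent.P367.GT.integrable_coord i).const_mul (c i)]
    refine Finset.sum_eq_zero fun i _ => ?_
    have h6 : ∫ g : ι → ℝ, c i * g i ∂gpi ι = c i * ∫ g : ι → ℝ, g i ∂gpi ι := integral_const_mul _ _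
    rw [h6]
    have h7 : ∫ g : ι → ℝ, g i ∂gpi ι = ∫ x, x ∂gaussianReal 0 1 := by
      have hmp := measurePreserving_eval (fun _ : ι => gaussianReal 0 1) i
      rw [← hmp.map_eq, integral_map hmp.measurable.aemeasurable (Continuous.aestronglyMeasurable (by fun_prop))]
    rw [h7, integral_id_gaussianReal, mul_zero]
  rw [variance_of_integral_eq_zero _ h5]
  exact (memLp_lin_gauss c).aestronglyMeasurable.aemeasurable

lemma integrable_lin_sq (c : ι → ℝ) : Integrable (fun g : ι → ℝ => (∑ i, c i * g i) ^ 2) (gpi ι) :=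
  (memLp_lin_gauss c).integrable_sq

lemma integral_coord_sq (i : ι) : ∫ g : ι → ℝ, g i ^ 2 ∂gpi ι = 1 := by
  classical
  have h := integral_lin_sq (fun j : ι => if j = i then (1 : ℝ) else 0)
  simpa using h

lemma integrable_coord_sq (i : ι) : Integrable (fun g : ι → ℝ => g i ^ 2) (gpi ι) := by
  classical
  have h := integrable_lin_sq (fun j : ι => if j = i then (1 : ℝ) else 0)
  simpa using h

/-- a penalised supremum of linear forms is Lipschitz -/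
lemma lip_pen {S : Type*} [Fintype S] [Nonempty S] (a : S → ι → ℝ) (Λ : S → ℝ) {L : ℝ}
    (hL : 0 ≤ L) (ha : ∀ s, ∑ e, a s e ^ 2 ≤ L ^ 2) :
    Lip L (fun g : ι → ℝ => ⨆ s, ((∑ e, a s e * g e) - Λ s)) := by
  have key : ∀ g g' : ι → ℝ, (⨆ s, ((∑ e, a s e * g e) - Λ s))
      ≤ (⨆ s, ((∑ e, a s e * g' e) - Λ s)) + L * ed g g' := by
    intro g g'
    refine ciSup_le fun s => ?_
    have h1 : (∑ e, a s e * g' e) - Λ s ≤ ⨆ s, ((∑ e, a s e * g' e) - Λ s) :=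
      le_ciSup (f := fun s => (∑ e, a s e * g' e) - Λ s) (pen_bdd _) s
    have h2 : (∑ e, a s e * (g e - g' e)) ≤ L * ed g g' := by
      have hcs := Finset.sum_mul_sq_le_sq_mul_sq Finset.univ (fun e => a s e)
        (fun e => g e - g' e)
      rw [← ed_sq] at hcs
      have h3 : (∑ e, a s e * (g e - g' e)) ^ 2 ≤ (L * ed g g') ^ 2 := by
        rw [mul_pow]
        exact hcs.trans (mul_le_mul_of_nonneg_right (ha s) (sq_nonneg _))
      exact (abs_le_of_sq_le_sq' h3 (mul_nonneg hL (ed_nonneg _ _))).2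
    have h4 : (∑ e, a s e * (g e - g' e)) = (∑ e, a s e * g e) - ∑ e, a s e * g' e := by
      rw [← Finset.sum_sub_distrib]
      exact Finset.sum_congr rfl fun e _ => by ring
    linarith
  intro g g'
  have hs : ed g' g = ed g g' := by
    unfold ed
    congr 1
    exact Finset.sum_congr rfl fun e _ => by ring
  have h1 := key g g'
  have h2 := key g' g
  rw [hs] at h2
  rw [abs_le]
  constructor <;> linarith

end moments

/-! ### the deterministic bound for the comparison process -/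

/-- the penalty -/
noncomputable def Lam (r : ℝ) (m v : Vec n) : ℝ :=
  (∑ i, 1 / (1 - m i ^ 2) * v i ^ 2) - 2 * r ^ 2 / n * ip m v ^ 2

/-- the shifted diagonal -/
noncomputable def eD (β x : ℝ) : ℝ := 1 / (1 - x ^ 2) - (1 - β ^ 2) / 2

lemma eD_facts {β x : ℝ} (hβ0 : 0 ≤ β) (hβ1 : β < 1) (hx : |x| < 1) :
    0 < eD β x ∧ 1 / eD β x ≤ (1 - x ^ 2) + (1 - β ^ 2) / (1 + β ^ 2) ∧ 1 / eD β x ≤ 2 ∧
      x ^ 2 / eD β x ≤ 1 / (2 * (1 + β ^ 2)) := by
  have hx2 : x ^ 2 < 1 := by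
    rw [← sq_abs]
    have := abs_nonneg x
    nlinarith
  set b := β ^ 2 with hb
  have hb0 : 0 ≤ b := sq_nonneg _
  have hb1 : b < 1 := by rw [hb]; nlinarith
  set D := 1 - x ^ 2 with hD
  have hD0 : 0 < D := by rw [hD]; linarith
  have hD1 : D ≤ 1 := by rw [hD]; linarith only [sq_nonneg x]
  have hden : 0 < 1 - (1 - b) / 2 * D := by (by_contra nlg; linarith [mul_nonneg (sub_nonneg.2 hD1) (sub_nonneg.2 hD1), mul_nonneg (le_of_lt (sub_pos.2 hD0)) (sub_nonneg.2 hD1), mul_nonneg (sub_nonneg.2 hb0) (le_of_lt (sub_pos.2 hD0)), mul_nonneg (sub_nonneg.2 (not_lt.1 nlg)) (sub_nonneg.2 hD1), mul_nonneg (sub_nonneg.2 (not_lt.1 nlg)) (le_of_lt (sub_pos.2 hD0))])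
  have hE : eD β x = (1 - (1 - b) / 2 * D) / D := by
    unfold eD
    rw [← hb, ← hD]
    field_simp
  have hinv : 1 / eD β x = D / (1 - (1 - b) / 2 * D) := by
    rw [hE, one_div, inv_div]
  have hxD : x ^ 2 = 1 - D := by rw [hD]; ring
  have hden2 : (1 + b) / 2 ≤ 1 - (1 - b) / 2 * D := by (by_contra nlg; linarith only [mul_pos (sub_pos.2 (not_le.1 nlg)) (sub_pos.2 hD0), mul_nonneg (le_of_lt (sub_pos.2 (not_le.1 nlg))) (sub_nonneg.2 hD1), mul_nonneg (le_of_lt (sub_pos.2 hb1)) (sub_nonneg.2 hD1)])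
  refine ⟨?_, ?_, ?_, ?_⟩
  · rw [hE]; exact div_pos hden hD0
  · rw [hinv, div_le_iff₀ hden, ← sub_nonneg]
    have hb2 : (0 : ℝ) < 1 + b := by linarith only [hb0]
    have h1 : (D + (1 - b) / (1 + b)) * (1 - (1 - b) / 2 * D) - D
        = (1 - b) * (1 - D) * ((2 : ℝ) + (1 + b) * D) / (2 * (1 + b)) := by
      field_simp
      ring
    rw [h1]
    have h2 : 0 ≤ 1 - D := by linarith only [hD1]
    have h3 : 0 ≤ 1 - b := by linarith only [hb1]
    (clear * - hb1 hD1 hx2; positivity)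
  · rw [hinv, div_le_iff₀ hden]
    linarith only [hden2, hD1, hb0]
  · have h1 : x ^ 2 / eD β x = (1 - D) * (1 / eD β x) := by rw [hxD]; ring
    rw [h1, hinv]
    have hb2 : (0 : ℝ) < 2 * (1 + b) := by linarith only [hb0]
    rw [← mul_div_assoc, div_le_div_iff₀ hden hb2]
    have h4 : (1 - D) * D ≤ 1 / 4 := by linarith only [sq_nonneg (D - 1 / 2)]
    have h5 := mul_le_mul_of_nonneg_right h4 hb2.le
    linarith only [h5, hden2]

/-- coefficient of the rank-one correction -/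
noncomputable def cm (β r : ℝ) (m : Vec n) (i : Fin n) : ℝ := m i * (r / √n) / eD β (m i)

/-- upper bound of the comparison process, as a function of the Gaussian vector -/
noncomputable def UB (β r : ℝ) (m : Vec n) (g : Fin n → ℝ) : ℝ :=
  (∑ i, r ^ 2 / n * (1 / eD β (m i)) * g i ^ 2) + 2 * (2 * r ^ 2 / n) * (∑ i, cm β r m i * g i) ^ 2
    - (1 - β ^ 2) / 2

lemma det_bound (hn : 0 < n) {β r : ℝ} (hβ0 : 0 ≤ β) (hβ1 : β < 1) (hr0 : 0 ≤ r) (hr : r ≤ β)
    (m : Vec n) (hm : ∀ i, |m i| < 1) (v : Vec n) (hv : sq v = 1) (g : Fin n → ℝ) :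
    (∑ i, cY r v i * g i) - Lam r m v ≤ UB β r m g := by
  have hn' : (0 : ℝ) < n := by exact_mod_cast hn
  have hsn : √(n : ℝ) ^ 2 = n := Real.sq_sqrt hn'.le
  have he : ∀ i, 0 < eD β (m i) := fun i => (eD_facts hβ0 hβ1 (hm i)).1
  have hr2 : r ^ 2 ≤ β ^ 2 := by (by_contra nlg; linarith only [mul_pos (sub_pos.2 (not_le.1 nlg)) (sub_pos.2 hβ1), mul_nonneg (le_of_lt (sub_pos.2 (not_le.1 nlg))) (sub_nonneg.2 hr0), mul_nonneg (le_of_lt (sub_pos.2 (not_le.1 nlg))) (sub_nonneg.2 hr), mul_nonneg (sub_nonneg.2 hr0) (sub_nonneg.2 hr), mul_nonneg (sub_nonneg.2 hr) (sub_nonneg.2 hr)])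
  have hb1 : β ^ 2 < 1 := by (by_contra nlg; linarith only [mul_nonneg (sub_nonneg.2 (not_lt.1 nlg)) (le_of_lt (sub_pos.2 hβ1)), mul_nonneg (sub_nonneg.2 (not_lt.1 nlg)) (sub_nonneg.2 hr0), mul_nonneg (sub_nonneg.2 (not_lt.1 nlg)) (sub_nonneg.2 hr), mul_pos (sub_pos.2 hβ1) (sub_pos.2 hβ1), mul_nonneg (le_of_lt (sub_pos.2 hβ1)) (sub_nonneg.2 hr0), mul_nonneg (le_of_lt (sub_pos.2 hβ1)) (sub_nonneg.2 hr)])
  have hσ : 2 * r ^ 2 / n * ∑ i, m i ^ 2 / eD β (m i) ≤ 1 / 2 := by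
    have h1 : ∑ i, m i ^ 2 / eD β (m i) ≤ n * (1 / (2 * (1 + β ^ 2))) := by
      have := Finset.sum_le_sum (s := Finset.univ) fun i _ => (eD_facts hβ0 hβ1 (hm i)).2.2.2
      simpa using this
    have h2 : 2 * r ^ 2 / n * ∑ i, m i ^ 2 / eD β (m i)
        ≤ 2 * r ^ 2 / n * (n * (1 / (2 * (1 + β ^ 2)))) :=
      mul_le_mul_of_nonneg_left h1 (by (clear * - hn; positivity))
    refine h2.trans ?_
    have h3 : 2 * r ^ 2 / n * (n * (1 / (2 * (1 + β ^ 2)))) = r ^ 2 / (1 + β ^ 2) := by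
      field_simp
    rw [h3, div_le_iff₀ (by (clear * -; positivity))]
    linarith only [hr2, hb1]
  have key := sq_complete (fun i => eD β (m i)) (fun i => r / √n * g i) v m (2 * r ^ 2 / n) he
    (by (clear * - hn; positivity)) hσ
  have e1 : ∑ i, cY r v i * g i = 2 * ip (fun i => r / √n * g i) v := by
    unfold ip cY
    rw [Finset.mul_sum]
    exact Finset.sum_congr rfl fun i _ => by ring
  have e2 : Lam r m v = (∑ i, eD β (m i) * v i ^ 2) + (1 - β ^ 2) / 2 * sq v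
      - 2 * r ^ 2 / n * ip m v ^ 2 := by
    unfold Lam sq eD
    congr 1
    rw [Finset.mul_sum, ← Finset.sum_add_distrib]
    exact Finset.sum_congr rfl fun i _ => by ring
  have e3 : ∑ i, (r / √n * g i) ^ 2 / eD β (m i)
      = ∑ i, r ^ 2 / n * (1 / eD β (m i)) * g i ^ 2 := by
    refine Finset.sum_congr rfl fun i _ => ?_
    rw [mul_pow, div_pow, hsn]; ring
  have e4 : ∑ i, m i * (r / √n * g i) / eD β (m i) = ∑ i, cm β r m i * g i := by
    refine Finset.sum_congr rfl fun i _ => ?_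
    unfold cm; ring
  rw [e3, e4] at key
  rw [e1, e2, hv]
  unfold UB
  linarith only [key]

lemma integrable_UB (β r : ℝ) (m : Vec n) : Integrable (UB β r m) (gpi (Fin n)) := by
  unfold UB
  refine (Integrable.add (integrable_finsetSum _ fun i _ => ?_) ?_).sub (integrable_const _)
  · exact (integrable_coord_sq i).const_mul _
  · exact (integrable_lin_sq _).const_mul _

lemma integral_UB (hn : 0 < n) {β r : ℝ} (hβ0 : 0 ≤ β) (hβ1 : β < 1) (hr0 : 0 ≤ r) (hr : r ≤ β)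
    (m : Vec n) (hm : ∀ i, |m i| < 1) :
    ∫ g, UB β r m g ∂gpi (Fin n)
      ≤ r ^ 2 * (1 - qq m) - (1 - β ^ 2) ^ 2 / (2 * (1 + β ^ 2)) + 4 / n := by
  have hn' : (0 : ℝ) < n := by exact_mod_cast hn
  have hsn : √(n : ℝ) ^ 2 = n := Real.sq_sqrt hn'.le
  have hr2 : r ^ 2 ≤ β ^ 2 := by (by_contra nlg; linarith only [mul_pos (sub_pos.2 (not_le.1 nlg)) (sub_pos.2 hβ1), mul_nonneg (le_of_lt (sub_pos.2 (not_le.1 nlg))) (sub_nonneg.2 hr0), mul_nonneg (le_of_lt (sub_pos.2 (not_le.1 nlg))) (sub_nonneg.2 hr), mul_nonneg (sub_nonneg.2 hr0) (sub_nonneg.2 hr), mul_nonneg (sub_nonneg.2 hr) (sub_nonneg.2 hr)])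
  have hb1 : β ^ 2 < 1 := by (by_contra nlg; linarith only [mul_nonneg (sub_nonneg.2 (not_lt.1 nlg)) (le_of_lt (sub_pos.2 hβ1)), mul_nonneg (sub_nonneg.2 (not_lt.1 nlg)) (sub_nonneg.2 hr0), mul_nonneg (sub_nonneg.2 (not_lt.1 nlg)) (sub_nonneg.2 hr), mul_pos (sub_pos.2 hβ1) (sub_pos.2 hβ1), mul_nonneg (le_of_lt (sub_pos.2 hβ1)) (sub_nonneg.2 hr0), mul_nonneg (le_of_lt (sub_pos.2 hβ1)) (sub_nonneg.2 hr)])
  have e1 : ∫ g, UB β r m g ∂gpi (Fin n) = (∑ i, r ^ 2 / n * (1 / eD β (m i)))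
      + 2 * (2 * r ^ 2 / n) * (∑ i, cm β r m i ^ 2) - (1 - β ^ 2) / 2 := by
    unfold UB
    have hA : Integrable (fun g : Fin n → ℝ => ∑ i, r ^ 2 / n * (1 / eD β (m i)) * g i ^ 2)
        (gpi (Fin n)) := integrable_finsetSum _ fun i _ => (integrable_coord_sq i).const_mul _
    have hB : Integrable (fun g : Fin n → ℝ =>
        2 * (2 * r ^ 2 / n) * (∑ i, cm β r m i * g i) ^ 2) (gpi (Fin n)) :=
      (integrable_lin_sq _).const_mul _
    have hAB : Integrable (fun g : Fin n → ℝ => (∑ i, r ^ 2 / n * (1 / eD β (m i)) * g i ^ 2)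
        + 2 * (2 * r ^ 2 / n) * (∑ i, cm β r m i * g i) ^ 2) (gpi (Fin n)) := hA.add hB
    rw [integral_sub hAB (integrable_const _), integral_add hA hB,
      integral_finsetSum _ fun i _ => (integrable_coord_sq i).const_mul _]
    simp only [integral_const_mul, integral_coord_sq, integral_lin_sq, mul_one]
    simp
  rw [e1]
  have hdiv : 0 ≤ r ^ 2 / (n : ℝ) := by positivity
  have h1 : ∑ i, r ^ 2 / n * (1 / eD β (m i))
      ≤ r ^ 2 * (1 - qq m) + r ^ 2 * ((1 - β ^ 2) / (1 + β ^ 2)) := by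
    have h2 : ∑ i, r ^ 2 / n * (1 / eD β (m i))
        ≤ ∑ i, r ^ 2 / n * ((1 - m i ^ 2) + (1 - β ^ 2) / (1 + β ^ 2)) :=
      Finset.sum_le_sum fun i _ =>
        mul_le_mul_of_nonneg_left (eD_facts hβ0 hβ1 (hm i)).2.1 hdiv
    refine h2.trans (le_of_eq ?_)
    rw [← Finset.mul_sum, Finset.sum_add_distrib, Finset.sum_sub_distrib]
    simp only [Finset.sum_const, Finset.card_univ, Fintype.card_fin, nsmul_eq_mul, mul_one]
    unfold qq sq
    field_simp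
  have h3 : ∑ i, cm β r m i ^ 2 ≤ 1 := by
    have h4 : ∀ i, cm β r m i ^ 2 ≤ r ^ 2 / n * 1 := by
      intro i
      obtain ⟨f1, f2, f3, f4⟩ := eD_facts hβ0 hβ1 (hm i)
      have h5 : cm β r m i ^ 2 = r ^ 2 / n * ((m i ^ 2 / eD β (m i)) * (1 / eD β (m i))) := by
        unfold cm
        rw [div_pow, mul_pow, div_pow, hsn]; ring
      rw [h5]
      refine mul_le_mul_of_nonneg_left ?_ hdiv
      have h6 : 1 / (2 * (1 + β ^ 2)) ≤ 1 / 2 := by
        apply one_div_le_one_div_of_le (by norm_num)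
        linarith only [sq_nonneg β]
      have h7 : 0 ≤ m i ^ 2 / eD β (m i) := by (clear * - f1; positivity)
      have h8 : 0 ≤ 1 / eD β (m i) := by positivity
      (by_contra nlg; linarith only [nlg, mul_nonneg (sub_nonneg.2 h6) (sub_nonneg.2 h7), mul_nonneg (sub_nonneg.2 h6) (sub_nonneg.2 h6), mul_nonneg (sub_nonneg.2 f4) (sub_nonneg.2 h7), mul_nonneg (sub_nonneg.2 f4) (sub_nonneg.2 h6), mul_nonneg (sub_nonneg.2 f4) (sub_nonneg.2 f4), mul_nonneg (sub_nonneg.2 f3) (sub_nonneg.2 h7), mul_nonneg (le_of_lt (sub_pos.2 (not_le.1 nlg))) (sub_nonneg.2 hr), mul_nonneg (le_of_lt (sub_pos.2 (not_le.1 nlg))) (sub_nonneg.2 hr0), mul_pos (sub_pos.2 (not_le.1 nlg)) (sub_pos.2 hβ1)])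
    have h5 := Finset.sum_le_sum (s := Finset.univ) fun i _ => h4 i
    simp only [Finset.sum_const, Finset.card_univ, Fintype.card_fin, nsmul_eq_mul, mul_one] at h5
    have h6 : (n : ℝ) * (r ^ 2 / n) = r ^ 2 := by field_simp
    rw [h6] at h5
    linarith only [h5, hb1, hr2]
  have h4 : 2 * (2 * r ^ 2 / n) * (∑ i, cm β r m i ^ 2) ≤ 4 / n := by
    have h5 : 2 * (2 * r ^ 2 / n) * (∑ i, cm β r m i ^ 2) ≤ 2 * (2 * r ^ 2 / n) * 1 :=
      mul_le_mul_of_nonneg_left h3 (by (clear * - hn; positivity))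
    refine h5.trans ?_
    have h6 : 2 * (2 * r ^ 2 / n) * 1 = 4 * r ^ 2 / (n : ℝ) := by ring
    rw [h6]
    apply div_le_div_of_nonneg_right _ hn'.le
    linarith only [hr2, hb1]
  have h5 : r ^ 2 * ((1 - β ^ 2) / (1 + β ^ 2)) ≤ β ^ 2 * ((1 - β ^ 2) / (1 + β ^ 2)) := by
    refine mul_le_mul_of_nonneg_right hr2 (div_nonneg (by linarith only [hb1]) (by positivity))
  have h6 : β ^ 2 * ((1 - β ^ 2) / (1 + β ^ 2)) - (1 - β ^ 2) / 2
      = -((1 - β ^ 2) ^ 2 / (2 * (1 + β ^ 2))) := by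
    have : (1 : ℝ) + β ^ 2 ≠ 0 := by (clear * -; positivity)
    field_simp
    ring
  linarith only [h6, h5, h4, h1]

/-- expected penalised supremum over a finite set of unit vectors -/
lemma expected_sup (hn : 0 < n) {β r : ℝ} (hβ0 : 0 ≤ β) (hβ1 : β < 1) (hr0 : 0 ≤ r) (hr : r ≤ β)
    (m : Vec n) (hm : ∀ i, |m i| < 1) {S : Type*} [Fintype S] [Nonempty S] (u : S → Vec n)
    (hu : ∀ s, sq (u s) = 1) :
    ∫ g, ⨆ s, ((∑ p, cX r (u s) p * g p) - Lam r m (u s)) ∂gpi (Pairs n)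
      ≤ r ^ 2 * (1 - qq m) - (1 - β ^ 2) ^ 2 / (2 * (1 + β ^ 2)) + 4 / n := by
  have h1 := sup_le_pen (fun s => cX r (u s)) (fun s => cY r (u s)) (fun s => Lam r m (u s))
    (fun s t => inc_le hn r (u s) (u t) (hu s) (hu t))
  refine h1.trans (le_trans ?_ (integral_UB hn hβ0 hβ1 hr0 hr m hm))
  refine integral_mono (integrable_pen _ _) (integrable_UB β r m) fun g => ?_
  exact ciSup_le fun s => det_bound hn hβ0 hβ1 hr0 hr m hm (u s) (hu s) g

/-! ### nets of the sphere -/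

lemma continuous_Lam (r : ℝ) (m : Vec n) : Continuous (Lam r m) := by
  unfold Lam ip; fun_prop

lemma isCompact_sphere_sq : IsCompact {v : Vec n | sq v = 1} := by
  have hcont : Continuous (sq : Vec n → ℝ) := by unfold sq; fun_prop
  refine Metric.isCompact_of_isClosed_isBounded (isClosed_eq hcont continuous_const) ?_
  refine (Metric.isBounded_closedBall (x := (0 : Vec n)) (r := 1)).subset fun v hv => ?_
  rw [mem_closedBall_zero_iff, pi_norm_le_iff_of_nonneg zero_le_one]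
  intro i
  have h1 : v i ^ 2 ≤ sq v :=
    Finset.single_le_sum (f := fun i => v i ^ 2) (fun i _ => sq_nonneg _) (Finset.mem_univ i)
  rw [mem_ofPred_eq] at hv
  rw [hv] at h1
  rw [Real.norm_eq_abs]
  exact (sq_le_one_iff_abs_le_one _).1 h1

/-- a finite net of the sphere, adapted to the penalty -/
lemma exists_net (r : ℝ) (m : Vec n) {ε : ℝ} (hε : 0 < ε) :
    ∃ T : Finset (Vec n), (∀ x ∈ T, sq x = 1) ∧ ∀ v : Vec n, sq v = 1 →
      ∃ x ∈ T, |Lam r m v - Lam r m x| < ε ∧ sq (v - x) < ε ^ 2 := by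
  have hc := isCompact_sphere_sq (n := n)
  have hsq : Continuous (sq : Vec n → ℝ) := by unfold sq; fun_prop
  obtain ⟨T, hT1, hT2⟩ := hc.elim_nhds_subcover
    (fun x => {v : Vec n | |Lam r m v - Lam r m x| < ε ∧ sq (v - x) < ε ^ 2}) (by
      intro x _
      have h1 : IsOpen {v : Vec n | |Lam r m v - Lam r m x| < ε} :=
        isOpen_lt ((continuous_Lam r m).sub continuous_const).abs continuous_const
      have h2 : IsOpen {v : Vec n | sq (v - x) < ε ^ 2} :=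
        isOpen_lt (hsq.comp (continuous_id.sub continuous_const)) continuous_const
      have h3 : sq (x - x) = 0 := by simp [sq]
      exact (h1.inter h2).mem_nhds ⟨by simp [hε], by
        show sq (x - x) < ε ^ 2
        rw [h3]; positivity⟩)
  refine ⟨T, fun x hx => hT1 x hx, fun v hv => ?_⟩
  have := hT2 hv
  rw [mem_iUnion₂] at this
  obtain ⟨x, hx, h⟩ := this
  exact ⟨x, hx, h.1, h.2⟩

lemma qf_diff_le {J : Mat n} (hJ : ∀ i j, J i j = J j i) (hJ3 : OpLe J 3) {v x : Vec n} {ε : ℝ}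
    (hε : 0 < ε) (hv : sq v = 1) (hx : sq x = 1) (hvx : sq (v - x) < ε ^ 2) :
    qf J v - qf J x ≤ 6 * ε := by
  have e1 : qf J v - qf J x = ip (v - x) (J.mulVec (v + x)) := by
    have e2 : ip v (J.mulVec x) = ip x (J.mulVec v) := ip_mulVec_symm hJ v x
    have e3 : ip (v - x) (J.mulVec (v + x))
        = ip v (J.mulVec v) + ip v (J.mulVec x) - ip x (J.mulVec v) - ip x (J.mulVec x) := by
      rw [Matrix.mulVec_add]
      unfold ip
      rw [← Finset.sum_add_distrib, ← Finset.sum_sub_distrib, ← Finset.sum_sub_distrib]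
      refine Finset.sum_congr rfl fun i _ => ?_
      simp only [Pi.add_apply, Pi.sub_apply]; ring
    rw [e3, e2]
    unfold qf
    ring
  rw [e1]
  have h1 : ip (v - x) (J.mulVec (v + x)) ^ 2 ≤ sq (v - x) * sq (J.mulVec (v + x)) :=
    Finset.sum_mul_sq_le_sq_mul_sq _ _ _
  have h2 := hJ3 (v + x)
  have h3 : sq (v + x) ≤ 4 := by
    have h4 : sq (v + x) + sq (v - x) = 2 * sq v + 2 * sq x := by
      unfold sq
      rw [← Finset.sum_add_distrib, Finset.mul_sum, Finset.mul_sum, ← Finset.sum_add_distrib]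
      refine Finset.sum_congr rfl fun i _ => ?_
      simp only [Pi.add_apply, Pi.sub_apply]; ring
    have h5 : 0 ≤ sq (v - x) := Finset.sum_nonneg fun _ _ => sq_nonneg _
    rw [hv, hx] at h4
    linarith only [h5, h4]
  have h6 : ip (v - x) (J.mulVec (v + x)) ^ 2 ≤ (6 * ε) ^ 2 := by
    have h7 : 0 ≤ sq (v - x) := Finset.sum_nonneg fun _ _ => sq_nonneg _
    have h8 : 0 ≤ sq (J.mulVec (v + x)) := Finset.sum_nonneg fun _ _ => sq_nonneg _
    have h9 : sq (J.mulVec (v + x)) ≤ 36 := by linarith only [h3, h2]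
    calc ip (v - x) (J.mulVec (v + x)) ^ 2 ≤ sq (v - x) * sq (J.mulVec (v + x)) := h1
      _ ≤ ε ^ 2 * 36 := mul_le_mul hvx.le h9 h8 (sq_nonneg _)
      _ = (6 * ε) ^ 2 := by ring
  exact (abs_le_of_sq_le_sq' h6 (by positivity)).2

/-- The failure event is contained in two bad events. -/
lemma fixed_bound {β : ℝ} (hβ0 : 0 ≤ β) (hβ1 : β < 1) :
    ∀ n : ℕ, 0 < n → 32 * (2 * (1 + β ^ 2)) / (1 - β ^ 2) ^ 2 ≤ n → ∀ r ∈ Set.Icc 0 β,
      ∀ m : Vec n, (∀ i, |m i| < 1) →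
      (disorder n).real {g | OpLe (skM g) 3 ∧ ¬ ∀ v,
        (1 - β ^ 2) ^ 2 / (4 * (1 + β ^ 2)) * sq v ≤ qf (Hess r (skM g) 0 m) v}
      ≤ Real.exp (-(((1 - β ^ 2) ^ 2 / (2 * (1 + β ^ 2))) ^ 2 / 128 * n)) := by
  intro n hn hnN r hr m hm
  have hn' : (0 : ℝ) < n := by exact_mod_cast hn
  have hb1 : β ^ 2 < 1 := by (by_contra nlg; linarith only [nlg, mul_pos (sub_pos.2 hβ1) (sub_pos.2 hβ1), mul_nonneg (sub_nonneg.2 hβ0) (le_of_lt (sub_pos.2 hβ1)), mul_nonneg (sub_nonneg.2 (not_lt.1 nlg)) (le_of_lt (sub_pos.2 hβ1)), mul_nonneg (sub_nonneg.2 (not_lt.1 nlg)) (sub_nonneg.2 hβ0)])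
  set c0 : ℝ := (1 - β ^ 2) ^ 2 / (2 * (1 + β ^ 2)) with hc0
  have h1b : 0 < 1 - β ^ 2 := by linarith only [hb1]
  have hc0p : 0 < c0 := by positivity
  have hcc : (1 - β ^ 2) ^ 2 / (4 * (1 + β ^ 2)) = c0 / 2 := by
    rw [hc0]; field_simp; ring
  have h4n : 4 / (n : ℝ) ≤ c0 / 8 := by
    rw [div_le_div_iff₀ hn' (by norm_num)]
    have h1 : 32 * (2 * (1 + β ^ 2)) / (1 - β ^ 2) ^ 2 = 32 / c0 := by
      rw [hc0]; field_simp
    rw [h1, div_le_iff₀ hc0p] at hnN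
    linarith only [hnN]
  rw [hcc]
  obtain ⟨T, hT1, hT2⟩ := exists_net r m (ε := c0 / 56) (by (clear * - hb1; positivity))
  -- the net is nonempty
  have hne : T.Nonempty := by
    have i0 : Fin n := ⟨0, hn⟩
    obtain ⟨x, hx, _⟩ := hT2 (Pi.single i0 1) (by
      unfold sq
      rw [Finset.sum_eq_single i0]
      · simp
      · intro j _ hj; simp [Pi.single_eq_of_ne hj]
      · simp)
    exact ⟨x, hx⟩
  have : Nonempty T := hne.to_subtype
  set F : (Pairs n → ℝ) → ℝ := fun g =>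
    ⨆ s : T, ((∑ p, cX r (s : Vec n) p * g p) - Lam r m (s : Vec n)) with hF
  have hE : ∫ g, F g ∂gpi (Pairs n) ≤ r ^ 2 * (1 - qq m) - c0 + c0 / 8 := by
    have := expected_sup hn hβ0 hβ1 hr.1 hr.2 m hm (fun s : T => (s : Vec n))
      (fun s => hT1 s s.2)
    linarith only [this, h4n]
  have hr1 : r ^ 2 ≤ 1 := by (by_contra nlg; linarith only [mul_pos (sub_pos.2 (not_le.1 nlg)) (sub_pos.2 hβ1), mul_nonneg (le_of_lt (sub_pos.2 (not_le.1 nlg))) (sub_nonneg.2 hr.1), mul_nonneg (le_of_lt (sub_pos.2 (not_le.1 nlg))) (sub_nonneg.2 hr.2), mul_pos (sub_pos.2 hβ1) (sub_pos.2 h1b), mul_nonneg (le_of_lt (sub_pos.2 h1b)) (sub_nonneg.2 hr.1), mul_nonneg (le_of_lt (sub_pos.2 h1b)) (sub_nonneg.2 hr.2), mul_nonneg (sub_nonneg.2 hr.1) (sub_nonneg.2 hr.2), mul_nonneg (sub_nonneg.2 hr.2) (sub_nonneg.2 hr.2)])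
  have hL : Lip (√(2 / n)) F := by
    refine lip_pen (fun s : T => cX r (s : Vec n)) (fun s => Lam r m (s : Vec n))
      (Real.sqrt_nonneg _) fun s => ?_
    rw [Real.sq_sqrt (by positivity)]
    refine (cX_sq_le hn r s (hT1 s s.2)).trans ?_
    apply div_le_div_of_nonneg_right _ hn'.le
    linarith only [hr1]
  have htail := hL.tail (Real.sqrt_pos.2 (by positivity)) (t := c0 / 4) (by (clear * - hb1; positivity))
  rw [Real.sq_sqrt (by positivity)] at htail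
  have hexp : -((c0 / 4) ^ 2 / (4 * (2 / (n : ℝ)))) = -(c0 ^ 2 / 128 * n) := by
    field_simp; ring
  rw [hexp] at htail
  refine le_trans (measureReal_mono ?_) htail
  intro g hg
  obtain ⟨hg3, hg⟩ := hg
  push Not at hg
  obtain ⟨v, hv⟩ := hg
  rw [mem_ofPred_eq]
  -- normalise `v`
  have hsv : 0 < sq v := by
    have hnn : (0 : ℝ) ≤ sq v := Finset.sum_nonneg fun i _ => sq_nonneg (v i)
    rcases hnn.lt_or_eq with h | h
    · exact h
    · exfalso
      have h0 : v = 0 := by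
        funext i
        have h1 : v i ^ 2 ≤ sq v :=
          Finset.single_le_sum (f := fun i => v i ^ 2) (fun i _ => sq_nonneg _)
            (Finset.mem_univ i)
        rw [← h] at h1
        have h2 : v i ^ 2 = 0 := le_antisymm h1 (sq_nonneg _)
        simpa using h2
      rw [h0] at hv
      simp [qf, ip, sq] at hv
  set u : Vec n := fun i => v i / √(sq v) with hu
  have hss : √(sq v) ^ 2 = sq v := Real.sq_sqrt hsv.le
  have hs0 : 0 < √(sq v) := Real.sqrt_pos.2 hsv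
  have hvu : v = √(sq v) • u := by
    funext i
    simp only [hu, Pi.smul_apply, smul_eq_mul]
    field_simp
  have hsu : sq u = 1 := by
    have h1 : sq u = sq v / √(sq v) ^ 2 := by
      unfold sq
      rw [Finset.sum_div]
      exact Finset.sum_congr rfl fun i _ => by simp only [hu]; rw [div_pow]; rfl
    rw [h1, hss, div_self hsv.ne']
  have hqu : qf (Hess r (skM g) 0 m) u < c0 / 2 := by
    have h1 : ∀ (A : Mat n) (c : ℝ) (w : Vec n), qf A (c • w) = c ^ 2 * qf A w := by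
      intro A c w
      unfold qf ip
      rw [Matrix.mulVec_smul, Finset.mul_sum]
      refine Finset.sum_congr rfl fun i _ => ?_
      simp only [Pi.smul_apply, smul_eq_mul]; ring
    rw [hvu, h1, hss] at hv
    have h2 : sq (√(sq v) • u) = sq v := by rw [← hvu]
    rw [h2] at hv
    by_contra hcon
    rw [not_lt] at hcon
    have := mul_le_mul_of_nonneg_left hcon hsv.le
    linarith only [hv, this]
  obtain ⟨x, hx, hx1, hx2⟩ := hT2 u hsu
  have hform : ∀ w : Vec n, sq w = 1 → qf (Hess r (skM g) 0 m) w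
      = Lam r m w + r ^ 2 * (1 - qq m) - r * qf (skM g) w := by
    intro w hw
    rw [qf_Hess]
    have h0 : qf (0 : Mat n) w = 0 := by simp [qf, ip]
    rw [h0, hw]
    unfold Lam
    ring
  rw [hform u hsu] at hqu
  have hd := qf_diff_le (fun i j => by unfold skM; rw [gsym_comm]) hg3 (ε := c0 / 56)
    (by (clear * - hb1; positivity)) hsu (hT1 x hx) hx2
  have hd2 : r * (qf (skM g) u - qf (skM g) x) ≤ 1 * (6 * (c0 / 56)) := by
    have hr01 : r ≤ 1 := by linarith only [hr.2, hβ1]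
    calc r * (qf (skM g) u - qf (skM g) x) ≤ r * (6 * (c0 / 56)) :=
          mul_le_mul_of_nonneg_left hd hr.1
      _ ≤ 1 * (6 * (c0 / 56)) := mul_le_mul_of_nonneg_right hr01 (by (clear * - hb1; positivity))
  have hlx : (∑ p, cX r x p * g p) - Lam r m x ≤ F g :=
    le_ciSup (f := fun s : T => (∑ p, cX r (s : Vec n) p * g p) - Lam r m (s : Vec n))
      (pen_bdd _) ⟨x, hx⟩
  rw [← qf_skM_lin] at hlx
  have hab := (abs_lt.1 hx1).1
  linarith only [hab, hlx, hd2, hqu, hE]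

lemma qf_steer_nonneg {d : ℕ} (w : Fin d → Vec n) (v : Vec n) :
    0 ≤ qf (∑ a, Matrix.vecMulVec (w a) (w a)) v := by
  have h : ∀ S : Finset (Fin d), 0 ≤ qf (∑ a ∈ S, Matrix.vecMulVec (w a) (w a)) v := by
    intro S
    induction S using Finset.induction_on with
    | empty => simp [qf, ip]
    | insert a S ha ih =>
      rw [Finset.sum_insert ha, qf_add, qf_vecMulVec]
      exact add_nonneg (sq_nonneg _) ih
  exact h _

/-- **Lemma B** in the form: lower bound for the Hessian without steering. -/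
theorem lemmaB {β : ℝ} (hβ0 : 0 ≤ β) (hβ1 : β < 1) : ∃ a : ℝ, 0 < a ∧ ∃ N : ℕ, ∀ n ≥ N,
    ∀ r ∈ Set.Icc 0 β, ∀ m : Vec n, (∀ i, |m i| < 1) →
      (disorder n).real {g | ¬ (OpLe (skM g) 3 ∧ ∀ v,
        (1 - β ^ 2) ^ 2 / (4 * (1 + β ^ 2)) * sq v ≤ qf (Hess r (skM g) 0 m) v)}
      ≤ Real.exp (-(a * n)) := by
  obtain ⟨a1, ha1, N1, hN1⟩ := opLe_exp (δ := 1) one_pos
  set a2 : ℝ := ((1 - β ^ 2) ^ 2 / (2 * (1 + β ^ 2))) ^ 2 / 128 with ha2
  have hb1 : β ^ 2 < 1 := by (by_contra nlg; linarith only [mul_nonneg (sub_nonneg.2 (not_lt.1 nlg)) (sub_nonneg.2 hβ0), mul_nonneg (sub_nonneg.2 (not_lt.1 nlg)) (le_of_lt (sub_pos.2 hβ1)), mul_nonneg (sub_nonneg.2 hβ0) (le_of_lt (sub_pos.2 hβ1)), mul_pos (sub_pos.2 hβ1) (sub_pos.2 hβ1)])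
  have h1b : 0 < 1 - β ^ 2 := by linarith only [hb1]
  have ha2p : 0 < a2 := by positivity
  set a := min a1 a2 / 2 with ha
  have hm0 : 0 < min a1 a2 := lt_min ha1 ha2p
  have ha0 : 0 < a := by positivity
  obtain ⟨N2, hN2⟩ := exists_nat_ge (32 * (2 * (1 + β ^ 2)) / (1 - β ^ 2) ^ 2)
  obtain ⟨N3, hN3⟩ := exists_nat_ge (Real.log 2 / a)
  refine ⟨a, ha0, max (max N1 N2) (max N3 1), fun n hn r hr m hm => ?_⟩
  have hn1 : N1 ≤ n := le_trans (le_trans (le_max_left _ _) (le_max_left _ _)) hn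
  have hn2 : N2 ≤ n := le_trans (le_trans (le_max_right _ _) (le_max_left _ _)) hn
  have hn3 : N3 ≤ n := le_trans (le_trans (le_max_left _ _) (le_max_right _ _)) hn
  have hn0 : 0 < n := lt_of_lt_of_le one_pos (le_trans (le_trans (le_max_right _ _)
    (le_max_right _ _)) hn)
  have hsub : {g : Pairs n → ℝ | ¬ (OpLe (skM g) 3 ∧ ∀ v,
        (1 - β ^ 2) ^ 2 / (4 * (1 + β ^ 2)) * sq v ≤ qf (Hess r (skM g) 0 m) v)}
      ⊆ {g | ¬ OpLe (skM g) (2 + 1)} ∪ {g | OpLe (skM g) 3 ∧ ¬ ∀ v,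
        (1 - β ^ 2) ^ 2 / (4 * (1 + β ^ 2)) * sq v ≤ qf (Hess r (skM g) 0 m) v} := by
    intro g hg
    by_cases h : OpLe (skM g) 3
    · right
      exact ⟨h, fun h2 => hg ⟨h, h2⟩⟩
    · left
      have h3 : (2 : ℝ) + 1 = 3 := by norm_num
      rw [mem_ofPred_eq, h3]
      exact h
  have hnN2 : 32 * (2 * (1 + β ^ 2)) / (1 - β ^ 2) ^ 2 ≤ (n : ℝ) :=
    hN2.trans (by exact_mod_cast hn2)
  refine (measureReal_mono hsub).trans ((measureReal_union_le _ _).trans ?_)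
  refine (add_le_add (hN1 n hn1) (fixed_bound hβ0 hβ1 n hn0 hnN2 r hr m hm)).trans ?_
  rw [← ha2]
  have hnr : (0 : ℝ) ≤ n := Nat.cast_nonneg n
  have e1 : Real.exp (-(a1 * n)) ≤ Real.exp (-(min a1 a2 * n)) :=
    Real.exp_le_exp.2 (neg_le_neg (mul_le_mul_of_nonneg_right (min_le_left _ _) hnr))
  have e2 : Real.exp (-(a2 * n)) ≤ Real.exp (-(min a1 a2 * n)) :=
    Real.exp_le_exp.2 (neg_le_neg (mul_le_mul_of_nonneg_right (min_le_right _ _) hnr))
  have e3 : Real.exp (-(min a1 a2 * n)) = Real.exp (-(a * n)) * Real.exp (-(a * n)) := by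
    rw [← Real.exp_add]
    congr 1
    rw [ha]; ring
  have e4 : 2 * Real.exp (-(a * n)) ≤ 1 := by
    have h1 : Real.log 2 ≤ a * n := by
      have h2 : Real.log 2 / a ≤ n := hN3.trans (by exact_mod_cast hn3)
      rw [div_le_iff₀ ha0] at h2
      linarith only [h2]
    have h2 : (2 : ℝ) ≤ Real.exp (a * n) := by
      rw [← Real.log_le_iff_le_exp two_pos]
      exact h1
    rw [Real.exp_neg, ← div_eq_mul_inv, div_le_one (Real.exp_pos _)]
    exact h2
  have e5 := Real.exp_pos (-(a * (n : ℝ)))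
  nlinarith

end Vale.Agent.P150.F.L6b

namespace Vale.Agent.P150.F

open L6b in
/-- **G6b (Lemma B)** -/
theorem G6b (β : ℝ) (hβ0 : 0 ≤ β) (hβ : β < 1) :
    ∃ c₀ a : ℝ, 0 < c₀ ∧ 0 < a ∧ ∀ (d : ℕ) (K : ℝ), ∃ n₀ : ℕ, ∀ n : ℕ, n₀ ≤ n →
      ∀ p : Par n d, p.Ok β K →
        (disorder n {g | ¬ p.Reg c₀ (skM g)}).toReal ≤ Real.exp (-(a * n)) := by
  obtain ⟨a, ha, N, hN⟩ := lemmaB hβ0 hβ
  have hb1 : β ^ 2 < 1 := by nlinarith
  have h1b : 0 < 1 - β ^ 2 := by linarith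
  refine ⟨(1 - β ^ 2) ^ 2 / (4 * (1 + β ^ 2)), a, by positivity, ha, fun d K =>
    ⟨N, fun n hn p hp => ?_⟩⟩
  refine le_trans ?_ (hN n hn p.r ⟨hp.2.1.1, hp.2.1.2⟩ p.m hp.1)
  refine measureReal_mono fun g hg h => hg ⟨?_, h.1, fun v => ?_⟩
  · ext i j
    simp only [Matrix.transpose_apply, skM]
    rw [gsym_comm]
  · refine (h.2 v).trans ?_
    have h1 : qf (p.H (skM g)) v = qf (Hess p.r (skM g) 0 p.m) v + qf p.A v := by
      unfold Par.H
      rw [qf_Hess, qf_Hess]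
      have h0 : qf (0 : Mat n) v = 0 := by simp [qf, ip]
      rw [h0]; ring
    rw [h1]
    have h2 : 0 ≤ qf p.A v := qf_steer_nonneg p.w v
    linarith only [h2]

end Vale.Agent.P150.F
end

section

/-! P150 FULL, module D3b: the Lévy step (helper460). `Levy.unif`, `Levy.lin`: uniform Lévy
continuity lemma for laws with bounded second moment and test functions of linear growth;
`Levy.emp`: empirical form; `D3.L3`, `D3.L3A`, `D3.L3B`: the form used in D3b; `D3.d3bB`. -/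

open MeasureTheory ProbabilityTheory Filter Topology BoundedContinuousFunction
open scoped ENNReal

namespace Vale.Agent.P150.F.Levy

/-- second moment at most `C` -/
def M2 (C : ℝ) (μ : ProbabilityMeasure ℝ) : Prop :=
  Integrable (fun a : ℝ => a ^ 2) (μ : Measure ℝ) ∧ ∫ a, a ^ 2 ∂(μ : Measure ℝ) ≤ C

theorem M2.mono {C C' : ℝ} (h : C ≤ C') {μ : ProbabilityMeasure ℝ} (hμ : M2 C μ) : M2 C' μ :=
  ⟨hμ.1, hμ.2.trans h⟩

theorem tight (C : ℝ) :
    IsTightMeasureSet {((μ : ProbabilityMeasure ℝ) : Measure ℝ) | μ ∈ {μ | M2 C μ}} := by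
  apply isTightMeasureSet_of_tendsto_measure_norm_gt
  have h1 : Tendsto (fun r : ℝ => ENNReal.ofReal (C / r ^ 2)) atTop (𝓝 0) := by
    have h2 : Tendsto (fun r : ℝ => C / r ^ 2) atTop (𝓝 0) :=
      Tendsto.div_atTop tendsto_const_nhds (tendsto_pow_atTop (by norm_num))
    have := (ENNReal.continuous_ofReal.tendsto 0).comp h2
    simpa [Function.comp_def] using this
  refine tendsto_of_tendsto_of_tendsto_of_le_of_le' tendsto_const_nhds h1
    (Eventually.of_forall fun _ => zero_le) ?_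
  filter_upwards [eventually_gt_atTop (0 : ℝ)] with r hr
  apply iSup₂_le
  rintro _ ⟨μ, hμ, rfl⟩
  have h3 := mul_meas_ge_le_integral_of_nonneg (μ := (μ : Measure ℝ))
    (Eventually.of_forall fun a : ℝ => sq_nonneg a) hμ.1 (r ^ 2)
  have h4 : (μ : Measure ℝ).real {x : ℝ | r ^ 2 ≤ x ^ 2} ≤ C / r ^ 2 := by
    rw [le_div_iff₀ (by positivity), mul_comm]
    exact h3.trans hμ.2
  calc (μ : Measure ℝ) {x : ℝ | r < ‖x‖} ≤ (μ : Measure ℝ) {x : ℝ | r ^ 2 ≤ x ^ 2} := by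
        apply measure_mono
        intro x hx
        have hx' : r < |x| := hx
        change r ^ 2 ≤ x ^ 2
        rw [← sq_abs x]
        exact pow_le_pow_left₀ hr.le hx'.le 2
    _ = ENNReal.ofReal ((μ : Measure ℝ).real {x : ℝ | r ^ 2 ≤ x ^ 2}) := by
        rw [Measure.real, ENNReal.ofReal_toReal (measure_ne_top _ _)]
    _ ≤ ENNReal.ofReal (C / r ^ 2) := ENNReal.ofReal_le_ofReal h4

theorem exists_lim {ι : Type*} (U : Ultrafilter ι) (μ : ι → ProbabilityMeasure ℝ) (C : ℝ)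
    (hμ : ∀ i, M2 C (μ i)) : ∃ μ' : ProbabilityMeasure ℝ, Tendsto μ U (𝓝 μ') := by
  have hc : IsCompact (closure {μ | M2 C μ}) := isCompact_closure_of_isTightMeasureSet (tight C)
  obtain ⟨μ', -, h⟩ := hc.ultrafilter_le_nhds (U.map μ) (by
    rw [le_principal_iff]
    change μ ⁻¹' _ ∈ U
    exact Filter.univ_mem' fun i => subset_closure (hμ i))
  exact ⟨μ', h⟩

theorem charFun_lim {ι : Type*} {F : Filter ι} {μ : ι → ProbabilityMeasure ℝ}
    {μ' : ProbabilityMeasure ℝ} (h : Tendsto μ F (𝓝 μ')) (θ : ℝ) :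
    Tendsto (fun i => charFun (μ i : Measure ℝ) θ) F (𝓝 (charFun (μ' : Measure ℝ) θ)) := by
  rw [ProbabilityMeasure.tendsto_iff_forall_integral_rclike_tendsto ℂ] at h
  simp_rw [charFun_eq_integral_innerProbChar]
  exact h (innerProbChar θ)

theorem bdd_conv {ι : Type*} (F : Filter ι) (μ γ : ι → ProbabilityMeasure ℝ) (C : ℝ)
    (hμ : ∀ i, M2 C (μ i)) (hγ : ∀ i, M2 C (γ i))
    (h : ∀ θ : ℝ, Tendsto (fun i => charFun (μ i : Measure ℝ) θ - charFun (γ i : Measure ℝ) θ)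
      F (𝓝 0)) (f : ℝ →ᵇ ℝ) :
    Tendsto (fun i => ∫ a, f a ∂(μ i : Measure ℝ) - ∫ a, f a ∂(γ i : Measure ℝ)) F (𝓝 0) := by
  refine (Filter.tendsto_iff_ultrafilter _ _ _).2 fun U hU => ?_
  obtain ⟨μ', hμ'⟩ := exists_lim U μ C hμ
  obtain ⟨γ', hγ'⟩ := exists_lim U γ C hγ
  have heq : μ' = γ' := by
    have h1 : (μ' : Measure ℝ) = (γ' : Measure ℝ) := by
      apply Measure.ext_of_charFun
      funext θ
      have h2 := (charFun_lim hμ' θ).sub (charFun_lim hγ' θ)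
      have h3 := tendsto_nhds_unique h2 ((h θ).mono_left hU)
      exact sub_eq_zero.1 h3
    exact Subtype.ext h1
  subst heq
  have h4 := (ProbabilityMeasure.tendsto_iff_forall_integral_tendsto.1 hμ') f
  have h5 := (ProbabilityMeasure.tendsto_iff_forall_integral_tendsto.1 hγ') f
  simpa using h4.sub h5

/-- clipping -/
theorem clip_le (R x : ℝ) (hR : 0 < R) : |x - max (-R) (min R x)| ≤ x ^ 2 / R := by
  rw [le_div_iff₀ hR]
  rcases le_total x R with h1 | h1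
  · rw [min_eq_right h1]
    rcases le_total (-R) x with h2 | h2
    · rw [max_eq_right h2, sub_self, abs_zero, zero_mul]
      positivity
    · rw [max_eq_left h2, abs_of_nonpos (by linarith only [h2])]
      linarith only [mul_pos (sub_pos.2 hR) (sub_pos.2 hR), mul_nonneg (sub_nonneg.2 h1) (sub_nonneg.2 h2), mul_nonneg (sub_nonneg.2 h2) (sub_nonneg.2 h2)]
  · rw [min_eq_left h1, max_eq_right (by linarith), abs_of_nonneg (by linarith)]
    linarith only [mul_nonneg (sub_nonneg.2 h1) (sub_nonneg.2 h1), mul_nonneg (le_of_lt (sub_pos.2 hR)) (sub_nonneg.2 h1), mul_pos (sub_pos.2 hR) (sub_pos.2 hR)]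

/-- clipped function -/
noncomputable def clipB (f : ℝ → ℝ) (hf : Continuous f) (R : ℝ) : ℝ →ᵇ ℝ :=
  BoundedContinuousFunction.ofNormedAddCommGroup (fun a => max (-R) (min R (f a)))
    (by fun_prop) |R| (by
      intro a
      rw [Real.norm_eq_abs, abs_le]
      constructor
      · exact (neg_abs_le_neg R).trans (le_max_left _ _)
      · exact max_le (neg_le_abs R) ((min_le_left _ _).trans (le_abs_self R)))

section growth

variable {f : ℝ → ℝ} {C₁ : ℝ}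

theorem growth_sq (hC : ∀ a, |f a| ≤ C₁ * (1 + |a|)) (a : ℝ) :
    f a ^ 2 ≤ 2 * C₁ ^ 2 * (1 + a ^ 2) := by
  have h1 := hC a
  have h2 : 0 ≤ C₁ * (1 + |a|) := (abs_nonneg _).trans h1
  have h3 : f a ^ 2 ≤ (C₁ * (1 + |a|)) ^ 2 := by
    rw [← sq_abs (f a)]
    exact pow_le_pow_left₀ (abs_nonneg _) h1 2
  have h4 : (1 + |a|) ^ 2 ≤ 2 * (1 + a ^ 2) := by
    rw [← sq_abs a]
    linarith only [sq_nonneg (1 - |a|)]
  calc f a ^ 2 ≤ (C₁ * (1 + |a|)) ^ 2 := h3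
    _ = C₁ ^ 2 * (1 + |a|) ^ 2 := by ring
    _ ≤ C₁ ^ 2 * (2 * (1 + a ^ 2)) := mul_le_mul_of_nonneg_left h4 (sq_nonneg _)
    _ = _ := by ring

theorem int_sq (hf : Continuous f) (hC : ∀ a, |f a| ≤ C₁ * (1 + |a|)) {μ : Measure ℝ}
    [IsProbabilityMeasure μ] (hμ : Integrable (fun a : ℝ => a ^ 2) μ) :
    Integrable (fun a => f a ^ 2) μ := by
  refine Integrable.mono' (g := fun a => 2 * C₁ ^ 2 * (1 + a ^ 2))
    (((integrable_const 1).add hμ).const_mul _) (hf.pow 2).aestronglyMeasurable ?_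
  refine Eventually.of_forall fun a => ?_
  rw [Real.norm_eq_abs, abs_of_nonneg (sq_nonneg _)]
  exact growth_sq hC a

theorem int_f (hf : Continuous f) (hC : ∀ a, |f a| ≤ C₁ * (1 + |a|)) {μ : Measure ℝ}
    [IsProbabilityMeasure μ] (hμ : Integrable (fun a : ℝ => a ^ 2) μ) :
    Integrable f μ := by
  refine Integrable.mono' (g := fun a => 1 + f a ^ 2)
    ((integrable_const 1).add (int_sq hf hC hμ)) hf.aestronglyMeasurable ?_
  refine Eventually.of_forall fun a => ?_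
  rw [Real.norm_eq_abs, ← sq_abs (f a)]
  linarith only [sq_nonneg (|f a| - 1), abs_nonneg (f a)]

theorem clip_int (hf : Continuous f) (hC : ∀ a, |f a| ≤ C₁ * (1 + |a|)) {μ : Measure ℝ}
    [IsProbabilityMeasure μ] (hμ : Integrable (fun a : ℝ => a ^ 2) μ) {R : ℝ} (hR : 0 < R) :
    |∫ a, f a ∂μ - ∫ a, clipB f hf R a ∂μ| ≤ 2 * C₁ ^ 2 * (1 + ∫ a, a ^ 2 ∂μ) / R := by
  have h1 : Integrable (fun a => clipB f hf R a) μ := (clipB f hf R).integrable μ
  rw [← integral_sub (int_f hf hC hμ) h1]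
  have h0 := norm_integral_le_integral_norm (μ := μ) (fun a => f a - clipB f hf R a)
  rw [Real.norm_eq_abs] at h0
  refine h0.trans ?_
  have h2 : ∫ a, ‖f a - clipB f hf R a‖ ∂μ ≤ ∫ a, 2 * C₁ ^ 2 * (1 + a ^ 2) / R ∂μ := by
    apply integral_mono ((int_f hf hC hμ).sub h1).norm
    · exact (((integrable_const 1).add hμ).const_mul _).div_const _
    · intro a
      change |f a - max (-R) (min R (f a))| ≤ _
      refine (clip_le R (f a) hR).trans ?_
      exact div_le_div_of_nonneg_right (growth_sq hC a) hR.le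
  refine h2.trans (le_of_eq ?_)
  rw [integral_div, integral_const_mul, integral_add (integrable_const 1) hμ]
  simp

theorem lin_conv (hf : Continuous f) (hC : ∀ a, |f a| ≤ C₁ * (1 + |a|)) {ι : Type*}
    (F : Filter ι) (μ γ : ι → ProbabilityMeasure ℝ) (C : ℝ)
    (hμ : ∀ i, M2 C (μ i)) (hγ : ∀ i, M2 C (γ i))
    (h : ∀ θ : ℝ, Tendsto (fun i => charFun (μ i : Measure ℝ) θ - charFun (γ i : Measure ℝ) θ)
      F (𝓝 0)) :
    Tendsto (fun i => ∫ a, f a ∂(μ i : Measure ℝ) - ∫ a, f a ∂(γ i : Measure ℝ)) F (𝓝 0) := by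
  rw [Metric.tendsto_nhds]
  intro ε hε
  obtain ⟨R, hR⟩ : ∃ R : ℝ, 0 < R ∧ 2 * C₁ ^ 2 * (1 + |C|) / R < ε / 4 := by
    refine ⟨(2 * C₁ ^ 2 * (1 + |C|) + 1) / (ε / 4), by positivity, ?_⟩
    rw [div_div_eq_mul_div, div_lt_iff₀ (by (clear * -; positivity))]
    linarith only [hε]
  have hb := bdd_conv F μ γ C hμ hγ h (clipB f hf R)
  rw [Metric.tendsto_nhds] at hb
  filter_upwards [hb (ε / 2) (by positivity)] with i hi
  rw [Real.dist_eq, sub_zero] at hi ⊢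
  have key : ∀ m : ProbabilityMeasure ℝ, M2 C m →
      |∫ a, f a ∂(m : Measure ℝ) - ∫ a, clipB f hf R a ∂(m : Measure ℝ)| < ε / 4 := by
    intro m hm
    refine (clip_int hf hC hm.1 hR.1).trans_lt (lt_of_le_of_lt ?_ hR.2)
    apply div_le_div_of_nonneg_right _ hR.1.le
    apply mul_le_mul_of_nonneg_left _ (by positivity)
    linarith only [le_abs_self C, hm.2]
  have h1 := abs_lt.1 (key (μ i) (hμ i))
  have h2 := abs_lt.1 (key (γ i) (hγ i))
  have h3 := abs_lt.1 hi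
  rw [abs_lt]
  constructor <;> linarith [h1.1, h1.2, h2.1, h2.2, h3.1, h3.2]

/-- uniform Lévy lemma -/
theorem unif (hf : Continuous f) (hC : ∀ a, |f a| ≤ C₁ * (1 + |a|)) (C e : ℝ) (he : 0 < e) :
    ∃ (Θ : Finset ℝ) (η : ℝ), 0 < η ∧ ∀ μ γ : ProbabilityMeasure ℝ, M2 C μ → M2 C γ →
      (∀ θ ∈ Θ, ‖charFun (μ : Measure ℝ) θ - charFun (γ : Measure ℝ) θ‖ < η) →
      |∫ a, f a ∂(μ : Measure ℝ) - ∫ a, f a ∂(γ : Measure ℝ)| < e := by
  set ι := {p : ProbabilityMeasure ℝ × ProbabilityMeasure ℝ // M2 C p.1 ∧ M2 C p.2}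
  set Φ : ι → ℝ → ℂ := fun p θ => charFun (p.1.1 : Measure ℝ) θ - charFun (p.1.2 : Measure ℝ) θ
  have h1 := lin_conv hf hC (Filter.comap Φ (𝓝 0)) (fun p : ι => p.1.1) (fun p : ι => p.1.2) C
    (fun p => p.2.1) (fun p => p.2.2) (by
      intro θ
      have h2 : Tendsto Φ (Filter.comap Φ (𝓝 0)) (𝓝 0) := tendsto_comap
      exact (tendsto_pi_nhds.1 h2) θ)
  rw [Metric.tendsto_nhds] at h1
  have h3 := h1 e he
  rw [Filter.eventually_comap] at h3
  rw [eventually_nhds_iff] at h3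
  obtain ⟨t, ht, hto, h0⟩ := h3
  rw [isOpen_pi_iff] at hto
  obtain ⟨I, u, hu, hsub⟩ := hto 0 h0
  have h4 : ∀ θ : ℝ, ∃ r : ℝ, 0 < r ∧ (θ ∈ I → Metric.ball (0 : ℂ) r ⊆ u θ) := by
    intro θ
    by_cases hθ : θ ∈ I
    · obtain ⟨r, hr, hr'⟩ := Metric.isOpen_iff.1 (hu θ hθ).1 0 (hu θ hθ).2
      exact ⟨r, hr, fun _ => hr'⟩
    · exact ⟨1, one_pos, fun h => absurd h hθ⟩
  choose r hr hr' using h4
  obtain ⟨η, hη, hηI⟩ : ∃ η : ℝ, 0 < η ∧ ∀ θ ∈ I, η ≤ r θ := by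
    clear hu hsub
    induction I using Finset.induction_on with
    | empty => exact ⟨1, one_pos, by simp⟩
    | insert a s ha ih =>
      obtain ⟨η, h5, h6⟩ := ih (fun θ hθ => hr' θ (Finset.mem_insert_of_mem hθ))
      refine ⟨min η (r a), lt_min h5 (hr a), ?_⟩
      intro θ hθ
      rw [Finset.mem_insert] at hθ
      rcases hθ with rfl | hθ
      · exact min_le_right _ _
      · exact (min_le_left _ _).trans (h6 θ hθ)
  refine ⟨I, η, hη, ?_⟩
  intro μ γ hμ hγ hθ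
  have h7 : Φ ⟨(μ, γ), hμ, hγ⟩ ∈ t := by
    apply hsub
    intro θ hθI
    apply hr' θ hθI
    rw [Metric.mem_ball, dist_zero_right]
    exact (hθ θ hθI).trans_le (hηI θ hθI)
  have h8 := ht _ h7 ⟨(μ, γ), hμ, hγ⟩ rfl
  rw [Real.dist_eq, sub_zero] at h8
  exact h8

theorem int_bd (hf : Continuous f) (hC : ∀ a, |f a| ≤ C₁ * (1 + |a|)) {μ : Measure ℝ}
    [IsProbabilityMeasure μ] (hμ : Integrable (fun a : ℝ => a ^ 2) μ) {δ : ℝ} (hδ : 0 < δ) :
    |∫ a, f a ∂μ| ≤ C₁ * (1 + 1 / (4 * δ) + δ * ∫ a, a ^ 2 ∂μ) := by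
  have hC0 : 0 ≤ C₁ := by
    have := (abs_nonneg (f 0)).trans (hC 0)
    rw [abs_zero, add_zero, mul_one] at this
    exact this
  have h0 := norm_integral_le_integral_norm (μ := μ) f
  rw [Real.norm_eq_abs] at h0
  refine h0.trans ?_
  have h1 : ∫ a, ‖f a‖ ∂μ ≤ ∫ a, C₁ * ((1 + 1 / (4 * δ)) + δ * a ^ 2) ∂μ := by
    apply integral_mono (int_f hf hC hμ).norm
    · exact ((integrable_const _).add (hμ.const_mul _)).const_mul _
    · intro a
      refine (hC a).trans ?_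
      apply mul_le_mul_of_nonneg_left _ hC0
      have h2 : |a| ≤ 1 / (4 * δ) + δ * a ^ 2 := by
        rw [← sub_nonneg]
        have : 1 / (4 * δ) + δ * a ^ 2 - |a| = δ * (|a| - 1 / (2 * δ)) ^ 2 := by
          rw [← sq_abs a]
          field_simp
          ring
        rw [this]
        (clear * - hδ; positivity)
      linarith only [h2]
  refine h1.trans (le_of_eq ?_)
  rw [integral_const_mul, integral_add (integrable_const _) (hμ.const_mul _), integral_const_mul]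
  simp

/-- the uniform Lévy lemma in linear form -/
theorem lin (hf : Continuous f) (hC : ∀ a, |f a| ≤ C₁ * (1 + |a|)) (C e : ℝ) (he : 0 < e) :
    ∃ (Θ : Finset ℝ) (K : ℝ), 0 ≤ K ∧ ∀ μ γ : ProbabilityMeasure ℝ,
      Integrable (fun a : ℝ => a ^ 2) (μ : Measure ℝ) → M2 C γ →
      |∫ a, f a ∂(μ : Measure ℝ) - ∫ a, f a ∂(γ : Measure ℝ)| ≤
        e * (1 + ∫ a, a ^ 2 ∂(μ : Measure ℝ)) +
        K * ∑ θ ∈ Θ, ‖charFun (μ : Measure ℝ) θ - charFun (γ : Measure ℝ) θ‖ := by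
  have hC0 : 0 ≤ C₁ := by
    have := (abs_nonneg (f 0)).trans (hC 0)
    rw [abs_zero, add_zero, mul_one] at this
    exact this
  set δ : ℝ := e / (2 * (C₁ + 1)) with hδ
  have hδ0 : 0 < δ := by positivity
  have hCδ : C₁ * δ ≤ e / 2 := by
    rw [hδ, ← mul_div_assoc, div_le_div_iff₀ (by positivity) (by norm_num)]
    linarith only [he]
  set A : ℝ := C₁ * (1 + 1 / (4 * δ)) + C₁ * (1 + 1 / (4 * δ) + δ * |C|) with hA
  have hA0 : 0 ≤ A := by (clear * - hC0 he; positivity)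
  set R : ℝ := 2 * A / e with hR
  have hR0 : 0 ≤ R := by (clear * - hC0 he; positivity)
  obtain ⟨Θ, η, hη, h⟩ := unif hf hC (max C R) e he
  set B : ℝ := C₁ * (1 + 1 / (4 * δ) + δ * R) + C₁ * (1 + 1 / (4 * δ) + δ * |C|) with hB
  have hB0 : 0 ≤ B := by (clear * - hC0 he; positivity)
  refine ⟨Θ, B / η, by (clear * - hC0 he hη; positivity), ?_⟩
  intro μ γ hμ hγ
  have hM0 : 0 ≤ ∫ a, a ^ 2 ∂(μ : Measure ℝ) := integral_nonneg fun a => sq_nonneg a
  have hS0 : 0 ≤ ∑ θ ∈ Θ, ‖charFun (μ : Measure ℝ) θ - charFun (γ : Measure ℝ) θ‖ :=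
    Finset.sum_nonneg fun _ _ => norm_nonneg _
  have hKS : 0 ≤ B / η * ∑ θ ∈ Θ, ‖charFun (μ : Measure ℝ) θ - charFun (γ : Measure ℝ) θ‖ :=
    mul_nonneg (by (clear * - hC0 he hη; positivity)) hS0
  have h1 := int_bd hf hC hμ hδ0
  have h2 := int_bd hf hC hγ.1 hδ0
  have h3 : δ * ∫ a, a ^ 2 ∂(γ : Measure ℝ) ≤ δ * |C| :=
    mul_le_mul_of_nonneg_left (hγ.2.trans (le_abs_self C)) hδ0.le
  have h4 : C₁ * (1 + 1 / (4 * δ) + δ * ∫ a, a ^ 2 ∂(γ : Measure ℝ)) ≤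
      C₁ * (1 + 1 / (4 * δ) + δ * |C|) := mul_le_mul_of_nonneg_left (by linarith only [h3]) hC0
  have h5 : |∫ a, f a ∂(μ : Measure ℝ) - ∫ a, f a ∂(γ : Measure ℝ)| ≤
      |∫ a, f a ∂(μ : Measure ℝ)| + |∫ a, f a ∂(γ : Measure ℝ)| := abs_sub _ _
  rcases lt_or_ge R (∫ a, a ^ 2 ∂(μ : Measure ℝ)) with h6 | h6
  · have h7 : A ≤ e / 2 * ∫ a, a ^ 2 ∂(μ : Measure ℝ) := by
      have : A = e / 2 * R := by
        rw [hR]
        field_simp
      rw [this]
      exact mul_le_mul_of_nonneg_left h6.le (by positivity)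
    have h8 : C₁ * (1 + 1 / (4 * δ) + δ * ∫ a, a ^ 2 ∂(μ : Measure ℝ)) =
        C₁ * (1 + 1 / (4 * δ)) + C₁ * δ * ∫ a, a ^ 2 ∂(μ : Measure ℝ) := by ring
    have h9 : C₁ * δ * ∫ a, a ^ 2 ∂(μ : Measure ℝ) ≤ e / 2 * ∫ a, a ^ 2 ∂(μ : Measure ℝ) :=
      mul_le_mul_of_nonneg_right hCδ hM0
    linarith only [h9, h7, h5, h4, h2, h1, hKS, he]
  · by_cases h7 : ∀ θ ∈ Θ, ‖charFun (μ : Measure ℝ) θ - charFun (γ : Measure ℝ) θ‖ < η
    · have h8 := h μ γ ⟨hμ, h6.trans (le_max_right _ _)⟩ (hγ.mono (le_max_left _ _)) h7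
      (by_contra nlg; linarith only [h8, mul_nonneg (mul_self_nonneg (1 : ℝ)) (le_of_lt (sub_pos.2 (not_le.1 nlg))), mul_nonneg (mul_self_nonneg (1 : ℝ)) (sub_nonneg.2 hKS), mul_nonneg (le_of_lt (sub_pos.2 he)) (sub_nonneg.2 hM0)])
    · push Not at h7
      obtain ⟨θ, hθ, h8⟩ := h7
      have h9 : η ≤ ∑ θ ∈ Θ, ‖charFun (μ : Measure ℝ) θ - charFun (γ : Measure ℝ) θ‖ :=
        h8.trans (Finset.single_le_sum
          (f := fun θ => ‖charFun (μ : Measure ℝ) θ - charFun (γ : Measure ℝ) θ‖)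
          (fun _ _ => norm_nonneg _) hθ)
      have h10 : B ≤ B / η * ∑ θ ∈ Θ, ‖charFun (μ : Measure ℝ) θ - charFun (γ : Measure ℝ) θ‖ := by
        calc B = B / η * η := by field_simp
          _ ≤ _ := mul_le_mul_of_nonneg_left h9 (by (clear * - hC0 he hη; positivity))
      have h11 : C₁ * (1 + 1 / (4 * δ) + δ * ∫ a, a ^ 2 ∂(μ : Measure ℝ)) ≤
          C₁ * (1 + 1 / (4 * δ) + δ * R) := by
        apply mul_le_mul_of_nonneg_left _ hC0
        have := mul_le_mul_of_nonneg_left h6 hδ0.le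
        linarith only [this]
      (by_contra nlg; linarith only [he, mul_nonneg (mul_self_nonneg (1 : ℝ)) (le_of_lt (sub_pos.2 (not_le.1 nlg))), mul_nonneg (mul_self_nonneg (1 : ℝ)) (sub_nonneg.2 h1), mul_nonneg (mul_self_nonneg (1 : ℝ)) (sub_nonneg.2 h2), mul_nonneg (mul_self_nonneg (1 : ℝ)) (sub_nonneg.2 h5), mul_nonneg (mul_self_nonneg (1 : ℝ)) (sub_nonneg.2 h10), mul_nonneg (mul_self_nonneg (1 : ℝ)) (sub_nonneg.2 h11), mul_nonneg (le_of_lt (sub_pos.2 he)) (sub_nonneg.2 hM0), mul_nonneg (sub_nonneg.2 hC0) (sub_nonneg.2 h3)])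

end growth


/-! ### empirical measures -/

section emp

variable {n : ℕ}

/-- the mixture `(1/n) ∑ (p_j ν_j + (1 - p_j) δ_0)` -/
noncomputable def mix (p : Fin n → ℝ) (ν : Fin n → Measure ℝ) : Measure ℝ :=
  ENNReal.ofReal (1 / n) • ∑ j, (ENNReal.ofReal (p j) • ν j +
    ENNReal.ofReal (1 - p j) • Measure.dirac 0)

theorem mix_integrable {E : Type*} [NormedAddCommGroup E] (p : Fin n → ℝ)
    (ν : Fin n → Measure ℝ) {h : ℝ → E} (hm : StronglyMeasurable h)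
    (hh : ∀ j, Integrable h (ν j)) : Integrable h (mix p ν) := by
  apply Integrable.smul_measure _ ENNReal.ofReal_ne_top
  rw [integrable_finsetSum_measure]
  intro j _
  apply Integrable.add_measure
  · exact (hh j).smul_measure ENNReal.ofReal_ne_top
  · apply Integrable.smul_measure _ ENNReal.ofReal_ne_top
    exact integrable_dirac' hm enorm_lt_top

theorem mix_integral {E : Type*} [NormedAddCommGroup E] [NormedSpace ℝ E] [CompleteSpace E]
    (p : Fin n → ℝ) (hp0 : ∀ j, 0 ≤ p j) (hp1 : ∀ j, p j ≤ 1)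
    (ν : Fin n → Measure ℝ) {h : ℝ → E} (hm : StronglyMeasurable h)
    (hh : ∀ j, Integrable h (ν j)) :
    ∫ a, h a ∂(mix p ν) = (1 / n : ℝ) • ∑ j, (p j • ∫ a, h a ∂(ν j) + (1 - p j) • h 0) := by
  have hd : Integrable h (Measure.dirac (0 : ℝ)) := integrable_dirac' hm enorm_lt_top
  unfold mix
  rw [integral_smul_measure, integral_finsetSum_measure]
  · rw [ENNReal.toReal_ofReal (by positivity)]
    congr 1
    apply Finset.sum_congr rfl
    intro j _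
    rw [integral_add_measure ((hh j).smul_measure ENNReal.ofReal_ne_top)
      (hd.smul_measure ENNReal.ofReal_ne_top), integral_smul_measure, integral_smul_measure,
      ENNReal.toReal_ofReal (hp0 j), ENNReal.toReal_ofReal (by linarith [hp1 j]),
      integral_dirac' _ _ hm]
  · intro j _
    exact ((hh j).smul_measure ENNReal.ofReal_ne_top).add_measure
      (hd.smul_measure ENNReal.ofReal_ne_top)

theorem mix_prob (hn : 0 < n) (p : Fin n → ℝ) (hp0 : ∀ j, 0 ≤ p j) (hp1 : ∀ j, p j ≤ 1)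
    (ν : Fin n → Measure ℝ) [∀ j, IsProbabilityMeasure (ν j)] :
    IsProbabilityMeasure (mix p ν) := by
  constructor
  unfold mix
  have hn' : (0 : ℝ) < n := by exact_mod_cast hn
  rw [Measure.smul_apply, Measure.finsetSum_apply]
  have h1 : ∀ j, (ENNReal.ofReal (p j) • ν j + ENNReal.ofReal (1 - p j) •
      Measure.dirac (0 : ℝ)) Set.univ = 1 := by
    intro j
    rw [Measure.add_apply, Measure.smul_apply, Measure.smul_apply, measure_univ, measure_univ,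
      smul_eq_mul, smul_eq_mul, mul_one, mul_one, ← ENNReal.ofReal_add (hp0 j)
      (by linarith only [hp1 j])]
    simp
  simp only [h1, Finset.sum_const, Finset.card_univ, Fintype.card_fin, nsmul_eq_mul, mul_one,
    smul_eq_mul]
  rw [← ENNReal.ofReal_natCast, ← ENNReal.ofReal_mul (by positivity)]
  rw [one_div, inv_mul_cancel₀ hn'.ne', ENNReal.ofReal_one]

/-- the law of `b + √g z` -/
noncomputable def gl (b g : ℝ) : Measure ℝ := (gaussianReal 0 1).map fun z => b + √g * z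

instance (b g : ℝ) : IsProbabilityMeasure (gl b g) :=
  Measure.isProbabilityMeasure_map (by fun_prop)

theorem gl_eq (b g : ℝ) (hg : 0 ≤ g) : gl b g = gaussianReal b g.toNNReal := by
  unfold gl
  have h1 : (fun z : ℝ => b + √g * z) = (fun z => b + z) ∘ (fun z => √g * z) := rfl
  rw [h1, ← Measure.map_map (by fun_prop) (by fun_prop), gaussianReal_map_const_mul,
    gaussianReal_map_const_add]
  congr 1
  · ring
  · ext
    simp [Real.sq_sqrt hg, Real.coe_toNNReal g hg]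

theorem gl_integral {E : Type*} [NormedAddCommGroup E] [NormedSpace ℝ E] (b g : ℝ)
    {h : ℝ → E} (hm : StronglyMeasurable h) :
    ∫ a, h a ∂(gl b g) = ∫ z, h (b + √g * z) ∂(gaussianReal 0 1) := by
  unfold gl
  rw [integral_map (by fun_prop) hm.aestronglyMeasurable]

theorem gl_sq_int (b g : ℝ) : Integrable (fun a : ℝ => a ^ 2) (gl b g) := by
  unfold gl
  rw [integrable_map_measure (by fun_prop) (by fun_prop)]
  have h1 : Integrable (fun z : ℝ => z ^ 2) (gaussianReal 0 1) := by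
    have := (memLp_id_gaussianReal (μ := 0) (v := 1) 2).integrable_sq
    exact this
  have h2 : Integrable (fun z : ℝ => z) (gaussianReal 0 1) := by
    have := (memLp_id_gaussianReal (μ := 0) (v := 1) 1).integrable le_rfl
    exact this
  have h3 : ((fun a : ℝ => a ^ 2) ∘ fun z : ℝ => b + √g * z) =
      fun z => b ^ 2 + (2 * b * √g) * z + (√g ^ 2) * z ^ 2 := by
    funext z
    simp only [Function.comp]
    ring
  rw [h3]
  exact ((integrable_const _).add (h2.const_mul _)).add (h1.const_mul _)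

theorem gl_sq (b g : ℝ) (hg : 0 ≤ g) : ∫ a, a ^ 2 ∂(gl b g) = b ^ 2 + g := by
  have h1 := variance_eq_sub (μ := gl b g) (X := id)
    ((memLp_two_iff_integrable_sq (by fun_prop)).2 (by simpa using gl_sq_int b g))
  rw [gl_eq b g hg] at h1 ⊢
  rw [variance_id_gaussianReal] at h1
  have h2 : ∫ x, id x ∂(gaussianReal b g.toNNReal) = b := by
    simp [integral_id_gaussianReal]
  have h3 : ∫ x, (id ^ 2 : ℝ → ℝ) x ∂(gaussianReal b g.toNNReal) =
      ∫ x, x ^ 2 ∂(gaussianReal b g.toNNReal) := rfl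
  rw [h2, h3, Real.coe_toNNReal g hg] at h1
  linarith

theorem charFun_gl (b g θ : ℝ) (hg : 0 ≤ g) : charFun (gl b g) θ =
    Complex.exp (θ * b * Complex.I) * (Real.exp (-(θ ^ 2 * g / 2)) : ℂ) := by
  rw [gl_eq b g hg, charFun_gaussianReal, Complex.ofReal_exp, ← Complex.exp_add,
    Real.coe_toNNReal g hg]
  congr 1
  push_cast
  ring

/-- difference of characteristic functions of the two mixtures -/
theorem charFun_diff (p : Fin n → ℝ) (hp0 : ∀ j, 0 ≤ p j) (hp1 : ∀ j, p j ≤ 1)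
    (a : Fin n → ℝ) (b g θ : ℝ) (hg : 0 ≤ g) :
    ‖charFun (mix p fun j => Measure.dirac (a j)) θ - charFun (mix p fun _ => gl b g) θ‖ ≤
      |(∑ j, p j * (Real.cos (θ * a j) - Real.exp (-(θ ^ 2 * g / 2)) * Real.cos (θ * b))) / n| +
      |(∑ j, p j * (Real.sin (θ * a j) - Real.exp (-(θ ^ 2 * g / 2)) * Real.sin (θ * b))) / n| := by
  have hb : ∀ (μ : Measure ℝ) [IsProbabilityMeasure μ],
      Integrable (fun x : ℝ => Complex.exp (θ * x * Complex.I)) μ := by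
    intro μ _
    refine (integrable_const (1 : ℝ)).mono' (Continuous.aestronglyMeasurable (by fun_prop)) (Eventually.of_forall fun x => ?_)
    have : (θ * x * Complex.I : ℂ) = ((θ * x : ℝ) : ℂ) * Complex.I := by push_cast; ring
    rw [this, Complex.norm_exp_ofReal_mul_I]
  have hsm : StronglyMeasurable (fun x : ℝ => Complex.exp (θ * x * Complex.I)) :=
    Continuous.stronglyMeasurable (by fun_prop)
  have h1 : charFun (mix p fun j => Measure.dirac (a j)) θ - charFun (mix p fun _ => gl b g) θ =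
      (1 / n : ℝ) • ∑ j, (p j : ℂ) * (Complex.exp (θ * a j * Complex.I) -
        Complex.exp (θ * b * Complex.I) * (Real.exp (-(θ ^ 2 * g / 2)) : ℂ)) := by
    rw [charFun_apply_real, charFun_apply_real,
      mix_integral p hp0 hp1 _ hsm (fun j => hb _), mix_integral p hp0 hp1 _ hsm (fun j => hb _),
      ← smul_sub, ← Finset.sum_sub_distrib]
    congr 1
    apply Finset.sum_congr rfl
    intro j _
    have hgl : ∫ x : ℝ, Complex.exp (θ * x * Complex.I) ∂(gl b g) =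
        Complex.exp (θ * b * Complex.I) * (Real.exp (-(θ ^ 2 * g / 2)) : ℂ) := by
      rw [← charFun_apply_real]
      exact charFun_gl b g θ hg
    rw [hgl, integral_dirac' _ _ hsm]
    rw [add_sub_add_right_eq_sub, ← smul_sub, Complex.real_smul]
  rw [h1]
  have h2 : ∀ z : ℂ, ‖z‖ ≤ |z.re| + |z.im| := Complex.norm_le_abs_re_add_abs_im
  refine (h2 _).trans (le_of_eq ?_)
  have h3 : ∀ j, ((p j : ℂ) * (Complex.exp (θ * a j * Complex.I) -
        Complex.exp (θ * b * Complex.I) * (Real.exp (-(θ ^ 2 * g / 2)) : ℂ))).re =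
      p j * (Real.cos (θ * a j) - Real.exp (-(θ ^ 2 * g / 2)) * Real.cos (θ * b)) := by
    intro j
    have e1 : (θ * a j * Complex.I : ℂ) = ((θ * a j : ℝ) : ℂ) * Complex.I := by push_cast; ring
    have e2 : (θ * b * Complex.I : ℂ) = ((θ * b : ℝ) : ℂ) * Complex.I := by push_cast; ring
    rw [e1, e2, Complex.re_ofReal_mul, Complex.sub_re, Complex.re_mul_ofReal,
      Complex.exp_ofReal_mul_I_re, Complex.exp_ofReal_mul_I_re]
    ring
  have h4 : ∀ j, ((p j : ℂ) * (Complex.exp (θ * a j * Complex.I) -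
        Complex.exp (θ * b * Complex.I) * (Real.exp (-(θ ^ 2 * g / 2)) : ℂ))).im =
      p j * (Real.sin (θ * a j) - Real.exp (-(θ ^ 2 * g / 2)) * Real.sin (θ * b)) := by
    intro j
    have e1 : (θ * a j * Complex.I : ℂ) = ((θ * a j : ℝ) : ℂ) * Complex.I := by push_cast; ring
    have e2 : (θ * b * Complex.I : ℂ) = ((θ * b : ℝ) : ℂ) * Complex.I := by push_cast; ring
    rw [e1, e2, Complex.im_ofReal_mul, Complex.sub_im, Complex.im_mul_ofReal,
      Complex.exp_ofReal_mul_I_im, Complex.exp_ofReal_mul_I_im]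
    ring
  congr 1
  · rw [Complex.smul_re, Complex.re_sum, Finset.sum_congr rfl fun j _ => h3 j, smul_eq_mul,
      one_div, inv_mul_eq_div]
  · rw [Complex.smul_im, Complex.im_sum, Finset.sum_congr rfl fun j _ => h4 j, smul_eq_mul,
      one_div, inv_mul_eq_div]

/-- L2: the empirical form -/
theorem emp {f : ℝ → ℝ} {C₁ : ℝ} (hf : Continuous f) (hC : ∀ a, |f a| ≤ C₁ * (1 + |a|))
    (G e : ℝ) (he : 0 < e) : ∃ (Θ : Finset ℝ) (K : ℝ), 0 ≤ K ∧ ∀ (n : ℕ), 0 < n →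
      ∀ (p : Fin n → ℝ), (∀ j, 0 ≤ p j) → (∀ j, p j ≤ 1) → ∀ (a : Fin n → ℝ) (b g : ℝ),
      |b| ≤ G → 0 ≤ g → g ≤ G →
      |(∑ j, p j * (f (a j) - ∫ z, f (b + √g * z) ∂(gaussianReal 0 1))) / n| ≤
        e * (1 + (∑ j, a j ^ 2) / n) + K * ∑ θ ∈ Θ,
        (|(∑ j, p j * (Real.cos (θ * a j) - Real.exp (-(θ ^ 2 * g / 2)) * Real.cos (θ * b))) / n| +
        |(∑ j, p j * (Real.sin (θ * a j) - Real.exp (-(θ ^ 2 * g / 2)) * Real.sin (θ * b))) / n|) := by
  obtain ⟨Θ, K, hK, h⟩ := lin hf hC (G ^ 2 + G) e he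
  refine ⟨Θ, K, hK, ?_⟩
  intro n hn p hp0 hp1 a b g hb hg hgG
  have hn' : (0 : ℝ) < n := by exact_mod_cast hn
  have i1 := mix_prob hn p hp0 hp1 (fun j => Measure.dirac (a j))
  have i2 := mix_prob hn p hp0 hp1 (fun _ => gl b g)
  have hsq : StronglyMeasurable (fun a : ℝ => a ^ 2) := by fun_prop
  have hfm : StronglyMeasurable f := hf.stronglyMeasurable
  have hd : ∀ (u : ℝ → ℝ), StronglyMeasurable u → ∀ j, Integrable u (Measure.dirac (a j)) :=
    fun u hu j => integrable_dirac' hu enorm_lt_top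
  have hgf : Integrable f (gl b g) := int_f hf hC (gl_sq_int b g)
  set μ : ProbabilityMeasure ℝ := ⟨mix p fun j => Measure.dirac (a j), i1⟩ with hμ
  set γ : ProbabilityMeasure ℝ := ⟨mix p fun _ => gl b g, i2⟩ with hγ
  have h1 := h μ γ (mix_integrable p _ hsq (hd _ hsq)) ⟨mix_integrable p _ hsq
    (fun _ => gl_sq_int b g), by
      change ∫ a, a ^ 2 ∂(mix p fun _ => gl b g) ≤ _
      rw [mix_integral p hp0 hp1 _ hsq (fun _ => gl_sq_int b g)]
      rw [gl_sq b g hg, smul_eq_mul, one_div, ← div_eq_inv_mul, div_le_iff₀ hn']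
      have h2 : ∀ j ∈ (Finset.univ : Finset (Fin n)), p j • (b ^ 2 + g) + (1 - p j) • (0 : ℝ) ^ 2 ≤
          G ^ 2 + G := by
        intro j _
        have h3 : b ^ 2 ≤ G ^ 2 := by
          rw [← sq_abs b]
          exact pow_le_pow_left₀ (abs_nonneg _) hb 2
        have h4 : 0 ≤ b ^ 2 + g := by (clear * - hg; positivity)
        simp only [smul_eq_mul]
        linarith only [mul_nonneg (sub_nonneg.2 h4) (sub_nonneg.2 (hp1 j)), mul_nonneg (sub_nonneg.2 h3) (sub_nonneg.2 (hp1 j)), mul_nonneg (sub_nonneg.2 h3) (sub_nonneg.2 (hp0 j)), mul_nonneg (sub_nonneg.2 hgG) (sub_nonneg.2 (hp1 j)), mul_nonneg (sub_nonneg.2 hgG) (sub_nonneg.2 (hp0 j))]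
      refine (Finset.sum_le_sum h2).trans (le_of_eq ?_)
      rw [Finset.sum_const, Finset.card_univ, Fintype.card_fin, nsmul_eq_mul]
      ring⟩
  have h5 : ∫ x, f x ∂(μ : Measure ℝ) - ∫ x, f x ∂(γ : Measure ℝ) =
      (∑ j, p j * (f (a j) - ∫ z, f (b + √g * z) ∂(gaussianReal 0 1))) / n := by
    change ∫ x, f x ∂(mix p fun j => Measure.dirac (a j)) - ∫ x, f x ∂(mix p fun _ => gl b g) = _
    rw [mix_integral p hp0 hp1 _ hfm (hd _ hfm), mix_integral p hp0 hp1 _ hfm (fun _ => hgf),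
      ← smul_sub, ← Finset.sum_sub_distrib, smul_eq_mul, one_div, ← div_eq_inv_mul]
    congr 1
    apply Finset.sum_congr rfl
    intro j _
    rw [integral_dirac' _ _ hfm, gl_integral b g hfm]
    simp only [smul_eq_mul]
    ring
  have h6 : ∫ x, x ^ 2 ∂(μ : Measure ℝ) ≤ (∑ j, a j ^ 2) / n := by
    change ∫ x, x ^ 2 ∂(mix p fun j => Measure.dirac (a j)) ≤ _
    rw [mix_integral p hp0 hp1 _ hsq (hd _ hsq), smul_eq_mul, one_div, ← div_eq_inv_mul]
    apply div_le_div_of_nonneg_right _ hn'.le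
    apply Finset.sum_le_sum
    intro j _
    rw [integral_dirac' _ _ hsq]
    simp only [smul_eq_mul]
    linarith only [mul_nonneg (sub_nonneg.2 (hp1 j)) (sq_nonneg (a j))]
  rw [h5] at h1
  refine h1.trans (add_le_add ?_ ?_)
  · apply mul_le_mul_of_nonneg_left _ he.le
    linarith only [h6]
  · apply mul_le_mul_of_nonneg_left _ hK
    exact Finset.sum_le_sum fun θ _ => charFun_diff p hp0 hp1 a b g θ hg

end emp

end Vale.Agent.P150.F.Levy

namespace Vale.Agent.P150.F.Levy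

open D3

variable {n m : ℕ}

theorem sv_or (x : Cfg n) (j : Fin n) : sv x j = 1 ∨ sv x j = -1 := by
  unfold sv sp
  cases x j <;> simp

theorem ind_nonneg {ε σ : ℝ} (hε : ε = 1 ∨ ε = -1) (hσ : σ = 1 ∨ σ = -1) : 0 ≤ ind ε σ := by
  unfold ind
  rcases hε with rfl | rfl <;> rcases hσ with rfl | rfl <;> norm_num

theorem ind_le_one {ε σ : ℝ} (hε : ε = 1 ∨ ε = -1) (hσ : σ = 1 ∨ σ = -1) : ind ε σ ≤ 1 := by
  unfold ind
  rcases hε with rfl | rfl <;> rcases hσ with rfl | rfl <;> norm_num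

theorem ind_split (f : ℝ → ℝ) {σ : ℝ} (hσ : σ = 1 ∨ σ = -1) :
    f σ = ind 1 σ * f 1 + ind (-1) σ * f (-1) := by
  unfold ind
  rcases hσ with rfl | rfl <;> norm_num

theorem int_bdd {w : Cfg n → (Fin m → ℝ) → ℝ} (hw : JL w) (x : Cfg n) {φ : (Fin m → ℝ) → ℝ}
    (hφ : Measurable φ) {B : ℝ} (hB : ∀ ξ, |φ ξ| ≤ B) :
    Integrable (fun ξ => w x ξ * φ ξ) (gpi (Fin m)) :=
  (hw.int x).mul_bdd (c := B) hφ.aestronglyMeasurable (Eventually.of_forall fun ξ => hB ξ)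

theorem EJ_mono {w : Cfg n → (Fin m → ℝ) → ℝ} (hw : JL w) {Φ Ψ : Cfg n → (Fin m → ℝ) → ℝ}
    (h0 : ∀ x ξ, 0 ≤ Φ x ξ) (hΨ : ∀ x, Integrable (fun ξ => w x ξ * Ψ x ξ) (gpi (Fin m)))
    (h : ∀ x ξ, Φ x ξ ≤ Ψ x ξ) : EJ w Φ ≤ EJ w Ψ := by
  unfold EJ
  apply Finset.sum_le_sum
  intro x _
  apply integral_mono_of_nonneg
  · exact Eventually.of_forall fun ξ => mul_nonneg (hw.nonneg x ξ) (h0 x ξ)
  · exact hΨ x
  · exact Eventually.of_forall fun ξ => mul_le_mul_of_nonneg_left (h x ξ) (hw.nonneg x ξ)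

theorem EJ_const {w : Cfg n → (Fin m → ℝ) → ℝ} (hw : JL w) (c : ℝ) :
    EJ w (fun _ _ => c) = c := by
  unfold EJ
  simp_rw [integral_mul_const]
  rw [← Finset.sum_mul, hw.one, one_mul]

theorem EJ_add {w : Cfg n → (Fin m → ℝ) → ℝ} {Φ Ψ : Cfg n → (Fin m → ℝ) → ℝ}
    (hΦ : ∀ x, Integrable (fun ξ => w x ξ * Φ x ξ) (gpi (Fin m)))
    (hΨ : ∀ x, Integrable (fun ξ => w x ξ * Ψ x ξ) (gpi (Fin m))) :
    EJ w (fun x ξ => Φ x ξ + Ψ x ξ) = EJ w Φ + EJ w Ψ := by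
  unfold EJ
  rw [← Finset.sum_add_distrib]
  apply Finset.sum_congr rfl
  intro x _
  rw [← integral_add (hΦ x) (hΨ x)]
  simp_rw [mul_add]

theorem EJ_mul {w : Cfg n → (Fin m → ℝ) → ℝ} {Φ : Cfg n → (Fin m → ℝ) → ℝ} (c : ℝ) :
    EJ w (fun x ξ => c * Φ x ξ) = c * EJ w Φ := by
  unfold EJ
  rw [Finset.mul_sum]
  apply Finset.sum_congr rfl
  intro x _
  rw [← integral_const_mul]
  congr 1
  funext ξ
  ring

theorem int_sum {w : Cfg n → (Fin m → ℝ) → ℝ} {ι : Type*} (s : Finset ι)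
    {Φ : ι → Cfg n → (Fin m → ℝ) → ℝ}
    (hΦ : ∀ i ∈ s, ∀ x, Integrable (fun ξ => w x ξ * Φ i x ξ) (gpi (Fin m))) (x : Cfg n) :
    Integrable (fun ξ => w x ξ * ∑ i ∈ s, Φ i x ξ) (gpi (Fin m)) := by
  simp_rw [Finset.mul_sum]
  exact integrable_finsetSum _ fun i hi => hΦ i hi x

theorem EJ_sum {w : Cfg n → (Fin m → ℝ) → ℝ} {ι : Type*} (s : Finset ι)
    {Φ : ι → Cfg n → (Fin m → ℝ) → ℝ}
    (hΦ : ∀ i ∈ s, ∀ x, Integrable (fun ξ => w x ξ * Φ i x ξ) (gpi (Fin m))) :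
    EJ w (fun x ξ => ∑ i ∈ s, Φ i x ξ) = ∑ i ∈ s, EJ w (Φ i) := by
  unfold EJ
  rw [Finset.sum_comm]
  apply Finset.sum_congr rfl
  intro x _
  rw [← integral_finsetSum _ fun i hi => hΦ i hi x]
  simp_rw [Finset.mul_sum]

/-- the cosine statistic -/
noncomputable def Zc (θ ε c g : ℝ) (σ a : Fin n → ℝ) : ℝ :=
  |(∑ j, ind ε (σ j) * (Real.cos (θ * a j) -
    Real.exp (-(θ ^ 2 * g / 2)) * Real.cos (θ * (c * ε)))) / n|

/-- the sine statistic -/
noncomputable def Zs (θ ε c g : ℝ) (σ a : Fin n → ℝ) : ℝ :=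
  |(∑ j, ind ε (σ j) * (Real.sin (θ * a j) -
    Real.exp (-(θ ^ 2 * g / 2)) * Real.sin (θ * (c * ε)))) / n|

theorem Zc_nonneg {θ ε c g : ℝ} {σ a : Fin n → ℝ} : 0 ≤ Zc θ ε c g σ a := abs_nonneg _

theorem Zs_nonneg {θ ε c g : ℝ} {σ a : Fin n → ℝ} : 0 ≤ Zs θ ε c g σ a := abs_nonneg _

theorem avg_bd {u : Fin n → ℝ} (h : ∀ j, |u j| ≤ 2) : |(∑ j, u j) / n| ≤ 2 := by
  rcases Nat.eq_zero_or_pos n with rfl | hn
  · simp
  · have hn' : (0 : ℝ) < n := by exact_mod_cast hn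
    rw [abs_div, abs_of_pos hn', div_le_iff₀ hn']
    refine (Finset.abs_sum_le_sum_abs _ _).trans ?_
    refine (Finset.sum_le_sum fun j _ => h j).trans ?_
    rw [Finset.sum_const, Finset.card_univ, Fintype.card_fin, nsmul_eq_mul, mul_comm]

theorem term_bd {p u v E : ℝ} (hp0 : 0 ≤ p) (hp1 : p ≤ 1) (hu : |u| ≤ 1) (hv : |v| ≤ 1)
    (hE0 : 0 ≤ E) (hE1 : E ≤ 1) : |p * (u - E * v)| ≤ 2 := by
  rw [abs_mul, abs_of_nonneg hp0]
  have h1 : |u - E * v| ≤ 2 := by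
    refine (abs_sub _ _).trans ?_
    rw [abs_mul, abs_of_nonneg hE0]
    have : E * |v| ≤ 1 * 1 := mul_le_mul hE1 hv (abs_nonneg _) (by norm_num)
    linarith
  calc p * |u - E * v| ≤ 1 * 2 := mul_le_mul hp1 h1 (abs_nonneg _) (by norm_num)
    _ = 2 := by norm_num

theorem exp_le_one' {θ g : ℝ} (hg : 0 ≤ g) : Real.exp (-(θ ^ 2 * g / 2)) ≤ 1 := by
  rw [Real.exp_le_one_iff]
  have : 0 ≤ θ ^ 2 * g / 2 := by positivity
  linarith only [this]

theorem Zc_bd {θ ε c g : ℝ} {σ : Fin n → ℝ} (a : Fin n → ℝ) (hg : 0 ≤ g)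
    (hε : ε = 1 ∨ ε = -1) (hσ : ∀ j, σ j = 1 ∨ σ j = -1) : Zc θ ε c g σ a ≤ 2 :=
  avg_bd fun j => term_bd (ind_nonneg hε (hσ j)) (ind_le_one hε (hσ j)) (Real.abs_cos_le_one _)
    (Real.abs_cos_le_one _) (Real.exp_nonneg _) (exp_le_one' hg)

theorem Zs_bd {θ ε c g : ℝ} {σ : Fin n → ℝ} (a : Fin n → ℝ) (hg : 0 ≤ g)
    (hε : ε = 1 ∨ ε = -1) (hσ : ∀ j, σ j = 1 ∨ σ j = -1) : Zs θ ε c g σ a ≤ 2 :=
  avg_bd fun j => term_bd (ind_nonneg hε (hσ j)) (ind_le_one hε (hσ j)) (Real.abs_sin_le_one _)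
    (Real.abs_sin_le_one _) (Real.exp_nonneg _) (exp_le_one' hg)

theorem Zc_meas (θ ε c g : ℝ) (σ : Fin n → ℝ) {a : (Fin m → ℝ) → Fin n → ℝ}
    (ha : ∀ j, Measurable fun ξ => a ξ j) : Measurable fun ξ => Zc θ ε c g σ (a ξ) := by
  unfold Zc
  have h1 : Measurable fun ξ => (∑ j, ind ε (σ j) * (Real.cos (θ * a ξ j) -
      Real.exp (-(θ ^ 2 * g / 2)) * Real.cos (θ * (c * ε)))) / n := by
    apply Measurable.div_const
    apply Finset.measurable_sum
    intro j _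
    have := ha j
    fun_prop
  exact h1.abs

theorem Zs_meas (θ ε c g : ℝ) (σ : Fin n → ℝ) {a : (Fin m → ℝ) → Fin n → ℝ}
    (ha : ∀ j, Measurable fun ξ => a ξ j) : Measurable fun ξ => Zs θ ε c g σ (a ξ) := by
  unfold Zs
  have h1 : Measurable fun ξ => (∑ j, ind ε (σ j) * (Real.sin (θ * a ξ j) -
      Real.exp (-(θ ^ 2 * g / 2)) * Real.sin (θ * (c * ε)))) / n := by
    apply Measurable.div_const
    apply Finset.measurable_sum
    intro j _
    have := ha j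
    fun_prop
  exact h1.abs

end Vale.Agent.P150.F.Levy

namespace Vale.Agent.P150.F.D3

open Levy

/-- L3: the Lévy step. If the cosine and sine statistics of the laws of `a_j` given `σ_j` are
close to those of `N (c σ, g)`, then so are the averages of test functions of linear growth. -/
theorem L3 (f : ℝ → ℝ → ℝ) (C₁ : ℝ) (hf : ∀ ε, Continuous (f ε))
    (hC : ∀ ε a, |f ε a| ≤ C₁ * (1 + |a|)) (C G e : ℝ) (he : 0 < e) :
    ∃ (Θ : Finset ℝ) (η : ℝ), 0 < η ∧ ∀ (n m : ℕ), 0 < n →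
      ∀ w : Cfg n → (Fin m → ℝ) → ℝ, JL w → ∀ a : Cfg n → (Fin m → ℝ) → Vec n,
      (∀ x j, Measurable fun ξ => a x ξ j) →
      (∀ x, Integrable (fun ξ => w x ξ * sq (a x ξ)) (gpi (Fin m))) →
      EJ w (fun x ξ => sq (a x ξ)) ≤ C * n →
      ∀ c g : ℝ, |c| ≤ G → 0 ≤ g → g ≤ G →
      (∀ θ ∈ Θ, ∀ ε : ℝ, (ε = 1 ∨ ε = -1) →
        EJ w (fun x ξ => |(∑ j, ind ε (sv x j) * (Real.cos (θ * a x ξ j) -
          Real.exp (-(θ ^ 2 * g / 2)) * Real.cos (θ * (c * ε)))) / n|) ≤ η ∧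
        EJ w (fun x ξ => |(∑ j, ind ε (sv x j) * (Real.sin (θ * a x ξ j) -
          Real.exp (-(θ ^ 2 * g / 2)) * Real.sin (θ * (c * ε)))) / n|) ≤ η) →
      EJ w (fun x ξ => |(∑ j, (f (sv x j) (a x ξ j) -
        ∫ z, f (sv x j) (c * sv x j + √g * z) ∂gm1)) / n|) ≤ e := by
  set e' : ℝ := e / (4 * (1 + |C|)) with he'
  have he'0 : 0 < e' := by positivity
  obtain ⟨Θ₁, K₁, hK₁, h₁⟩ := emp (hf 1) (hC 1) G e' he'0
  obtain ⟨Θ₂, K₂, hK₂, h₂⟩ := emp (hf (-1)) (hC (-1)) G e' he'0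
  set D : ℝ := K₁ * Θ₁.card + K₂ * Θ₂.card with hD
  have hD0 : 0 ≤ D := by (clear * - hK₁ hK₂; positivity)
  refine ⟨Θ₁ ∪ Θ₂, e / (4 * (D + 1)), by (clear * - he hK₁ hK₂; positivity), ?_⟩
  intro n m hn w hw a ha hsq hsqC c g hc hg hgG hθ
  have hn' : (0 : ℝ) < n := by exact_mod_cast hn
  set η : ℝ := e / (4 * (D + 1)) with hη
  set Ψ : Cfg n → (Fin m → ℝ) → ℝ := fun x ξ => (2 * e') * 1 + ((2 * e' / n) * sq (a x ξ) +
    ((K₁ * ∑ θ ∈ Θ₁, (Zc θ 1 c g (sv x) (a x ξ) + Zs θ 1 c g (sv x) (a x ξ))) +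
      (K₂ * ∑ θ ∈ Θ₂, (Zc θ (-1) c g (sv x) (a x ξ) + Zs θ (-1) c g (sv x) (a x ξ))))) with hΨ
  have hpt : ∀ x ξ, |(∑ j, (f (sv x j) (a x ξ j) -
        ∫ z, f (sv x j) (c * sv x j + √g * z) ∂gm1)) / n| ≤ Ψ x ξ := by
    intro x ξ
    have hs := sv_or x
    have e1 := h₁ n hn (fun j => ind 1 (sv x j)) (fun j => Vale.Agent.P150.F.Levy.ind_nonneg (Or.inl rfl) (hs j))
      (fun j => Vale.Agent.P150.F.Levy.ind_le_one (Or.inl rfl) (hs j)) (a x ξ) (c * 1) g (by rwa [mul_one]) hg hgG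
    have e2 := h₂ n hn (fun j => ind (-1) (sv x j)) (fun j => Vale.Agent.P150.F.Levy.ind_nonneg (Or.inr rfl) (hs j))
      (fun j => Vale.Agent.P150.F.Levy.ind_le_one (Or.inr rfl) (hs j)) (a x ξ) (c * (-1)) g
      (by rwa [mul_neg, mul_one, abs_neg]) hg hgG
    have e3 : (∑ j, (f (sv x j) (a x ξ j) -
        ∫ z, f (sv x j) (c * sv x j + √g * z) ∂gm1)) / n =
        (∑ j, ind 1 (sv x j) * (f 1 (a x ξ j) - ∫ z, f 1 (c * 1 + √g * z) ∂gm1)) / n +
        (∑ j, ind (-1) (sv x j) * (f (-1) (a x ξ j) -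
          ∫ z, f (-1) (c * (-1) + √g * z) ∂gm1)) / n := by
      rw [← add_div, ← Finset.sum_add_distrib]
      congr 1
      apply Finset.sum_congr rfl
      intro j _
      exact ind_split (fun s => f s (a x ξ j) - ∫ z, f s (c * s + √g * z) ∂gm1) (hs j)
    rw [e3]
    refine (abs_add_le _ _).trans ((add_le_add e1 e2).trans (le_of_eq ?_))
    rw [hΨ]
    unfold Zc Zs sq
    ring
  have iC : ∀ (θ ε : ℝ), (ε = 1 ∨ ε = -1) → ∀ x, Integrable (fun ξ =>
      w x ξ * Zc θ ε c g (sv x) (a x ξ)) (gpi (Fin m)) := by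
    intro θ ε hε x
    apply int_bdd hw x (Zc_meas θ ε c g (sv x) (ha x)) (B := 2)
    intro ξ
    rw [abs_of_nonneg Zc_nonneg]
    exact Zc_bd _ hg hε (sv_or x)
  have iS : ∀ (θ ε : ℝ), (ε = 1 ∨ ε = -1) → ∀ x, Integrable (fun ξ =>
      w x ξ * Zs θ ε c g (sv x) (a x ξ)) (gpi (Fin m)) := by
    intro θ ε hε x
    apply int_bdd hw x (Zs_meas θ ε c g (sv x) (ha x)) (B := 2)
    intro ξ
    rw [abs_of_nonneg Zs_nonneg]
    exact Zs_bd _ hg hε (sv_or x)
  have iCS : ∀ (ε : ℝ), (ε = 1 ∨ ε = -1) → ∀ θ x, Integrable (fun ξ =>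
      w x ξ * (Zc θ ε c g (sv x) (a x ξ) + Zs θ ε c g (sv x) (a x ξ))) (gpi (Fin m)) := by
    intro ε hε θ x
    simp_rw [mul_add]
    exact (iC θ ε hε x).add (iS θ ε hε x)
  have iK : ∀ (ε : ℝ), (ε = 1 ∨ ε = -1) → ∀ (K : ℝ) (Θ : Finset ℝ) x, Integrable (fun ξ =>
      w x ξ * (K * ∑ θ ∈ Θ, (Zc θ ε c g (sv x) (a x ξ) + Zs θ ε c g (sv x) (a x ξ))))
      (gpi (Fin m)) := by
    intro ε hε K Θ x
    have h3 := (int_sum Θ (fun θ _ => iCS ε hε θ) x).const_mul K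
    refine h3.congr (Eventually.of_forall fun ξ => ?_)
    simp only
    ring
  have i1 : ∀ x : Cfg n, Integrable (fun ξ => w x ξ * ((2 * e') * 1)) (gpi (Fin m)) :=
    fun x => (hw.int x).mul_const _
  have i2 : ∀ x, Integrable (fun ξ => w x ξ * ((2 * e' / n) * sq (a x ξ))) (gpi (Fin m)) := by
    intro x
    refine ((hsq x).const_mul (2 * e' / n)).congr (Eventually.of_forall fun ξ => ?_)
    simp only
    ring
  have i34 : ∀ x, Integrable (fun ξ => w x ξ * (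
      (K₁ * ∑ θ ∈ Θ₁, (Zc θ 1 c g (sv x) (a x ξ) + Zs θ 1 c g (sv x) (a x ξ))) +
      (K₂ * ∑ θ ∈ Θ₂, (Zc θ (-1) c g (sv x) (a x ξ) + Zs θ (-1) c g (sv x) (a x ξ)))))
      (gpi (Fin m)) := by
    intro x
    simp_rw [mul_add (w x _)]
    exact (iK 1 (Or.inl rfl) K₁ Θ₁ x).add (iK (-1) (Or.inr rfl) K₂ Θ₂ x)
  have i234 : ∀ x, Integrable (fun ξ => w x ξ * ((2 * e' / n) * sq (a x ξ) + (
      (K₁ * ∑ θ ∈ Θ₁, (Zc θ 1 c g (sv x) (a x ξ) + Zs θ 1 c g (sv x) (a x ξ))) +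
      (K₂ * ∑ θ ∈ Θ₂, (Zc θ (-1) c g (sv x) (a x ξ) + Zs θ (-1) c g (sv x) (a x ξ))))))
      (gpi (Fin m)) := by
    intro x
    refine ((i2 x).add (i34 x)).congr (Eventually.of_forall fun ξ => ?_)
    simp only [Pi.add_apply]
    ring
  have iΨ : ∀ x, Integrable (fun ξ => w x ξ * Ψ x ξ) (gpi (Fin m)) := by
    intro x
    refine ((i1 x).add (i234 x)).congr (Eventually.of_forall fun ξ => ?_)
    simp only [Pi.add_apply, hΨ]
    ring
  have hE : ∀ (ε : ℝ) (hε : ε = 1 ∨ ε = -1) (K : ℝ) (hK : 0 ≤ K) (Θ : Finset ℝ)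
      (hsub : Θ ⊆ Θ₁ ∪ Θ₂), EJ w (fun x ξ => K * ∑ θ ∈ Θ, (Zc θ ε c g (sv x) (a x ξ) +
        Zs θ ε c g (sv x) (a x ξ))) ≤ K * Θ.card * (2 * η) := by
    intro ε hε K hK Θ hsub
    rw [EJ_mul, EJ_sum Θ (fun θ _ => iCS ε hε θ), mul_assoc]
    apply mul_le_mul_of_nonneg_left _ hK
    have h5 : ∀ θ ∈ Θ, EJ w (fun x ξ => Zc θ ε c g (sv x) (a x ξ) +
        Zs θ ε c g (sv x) (a x ξ)) ≤ 2 * η := by
      intro θ hθ'
      rw [Vale.Agent.P150.F.Levy.EJ_add (iC θ ε hε) (iS θ ε hε)]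
      have h6 := hθ θ (hsub hθ') ε hε
      have h7 : EJ w (fun x ξ => Zc θ ε c g (sv x) (a x ξ)) ≤ η := h6.1
      have h8 : EJ w (fun x ξ => Zs θ ε c g (sv x) (a x ξ)) ≤ η := h6.2
      linarith only [h8, h7]
    refine (Finset.sum_le_sum h5).trans (le_of_eq ?_)
    rw [Finset.sum_const, nsmul_eq_mul]
  have hfin := Vale.Agent.P150.F.Levy.EJ_mono hw (fun x ξ => abs_nonneg _) iΨ hpt
  refine hfin.trans ?_
  rw [hΨ, Vale.Agent.P150.F.Levy.EJ_add i1 i234, Vale.Agent.P150.F.Levy.EJ_add i2 i34, Vale.Agent.P150.F.Levy.EJ_add (iK 1 (Or.inl rfl) K₁ Θ₁)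
    (iK (-1) (Or.inr rfl) K₂ Θ₂), Vale.Agent.P150.F.Levy.EJ_const hw, EJ_mul]
  have g1 := hE 1 (Or.inl rfl) K₁ hK₁ Θ₁ Finset.subset_union_left
  have g2 := hE (-1) (Or.inr rfl) K₂ hK₂ Θ₂ Finset.subset_union_right
  have g3 : 2 * e' / n * EJ w (fun x ξ => sq (a x ξ)) ≤ 2 * e' * |C| := by
    calc 2 * e' / n * EJ w (fun x ξ => sq (a x ξ)) ≤ 2 * e' / n * (C * n) :=
          mul_le_mul_of_nonneg_left hsqC (by (clear * - he hn; positivity))
      _ = 2 * e' * C := by field_simp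
      _ ≤ 2 * e' * |C| := mul_le_mul_of_nonneg_left (le_abs_self C) (by (clear * - he; positivity))
  have g4 : 2 * e' * 1 + 2 * e' * |C| = e / 2 := by
    rw [he']
    have : (1 + |C|) ≠ 0 := by (clear * -; positivity)
    field_simp
    ring
  have g5 : K₁ * Θ₁.card * (2 * η) + K₂ * Θ₂.card * (2 * η) ≤ e / 2 := by
    have : K₁ * Θ₁.card * (2 * η) + K₂ * Θ₂.card * (2 * η) = D * (2 * η) := by
      rw [hD]; ring
    rw [this, hη]
    have h9 : D * (2 * (e / (4 * (D + 1)))) = (e / 2) * (D / (D + 1)) := by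
      have : D + 1 ≠ 0 := by (clear * - hK₁ hK₂; positivity)
      field_simp
      ring
    rw [h9]
    have h10 : D / (D + 1) ≤ 1 := by
      rw [div_le_one (by (clear * - hK₁ hK₂; positivity))]
      linarith only []
    calc e / 2 * (D / (D + 1)) ≤ e / 2 * 1 := mul_le_mul_of_nonneg_left h10 (by positivity)
      _ = e / 2 := by ring
  linarith only [g5, g4, g3, g2, g1]

/-- L3 for the laws `N (g σ, g)` (the form of `D3bA`, `D3bH`) -/
theorem L3A (f : ℝ → ℝ → ℝ) (C₁ : ℝ) (hf : ∀ ε, Continuous (f ε))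
    (hC : ∀ ε a, |f ε a| ≤ C₁ * (1 + |a|)) (C G e : ℝ) (he : 0 < e) :
    ∃ (Θ : Finset ℝ) (η : ℝ), 0 < η ∧ ∀ (n m : ℕ), 0 < n →
      ∀ w : Cfg n → (Fin m → ℝ) → ℝ, JL w → ∀ a : Cfg n → (Fin m → ℝ) → Vec n,
      (∀ x j, Measurable fun ξ => a x ξ j) →
      (∀ x, Integrable (fun ξ => w x ξ * sq (a x ξ)) (gpi (Fin m))) →
      EJ w (fun x ξ => sq (a x ξ)) ≤ C * n →
      ∀ g : ℝ, 0 ≤ g → g ≤ G →
      (∀ θ ∈ Θ, ∀ ε : ℝ, (ε = 1 ∨ ε = -1) →
        EJ w (fun x ξ => |(∑ j, ind ε (sv x j) * (Real.cos (θ * a x ξ j) -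
          Real.exp (-(θ ^ 2 * g / 2)) * Real.cos (θ * (g * ε)))) / n|) ≤ η ∧
        EJ w (fun x ξ => |(∑ j, ind ε (sv x j) * (Real.sin (θ * a x ξ j) -
          Real.exp (-(θ ^ 2 * g / 2)) * Real.sin (θ * (g * ε)))) / n|) ≤ η) →
      EJ w (fun x ξ => |(∑ j, (f (sv x j) (a x ξ j) - NEs f g (sv x j))) / n|) ≤ e := by
  obtain ⟨Θ, η, hη, h⟩ := L3 f C₁ hf hC C G e he
  refine ⟨Θ, η, hη, ?_⟩
  intro n m hn w hw a ha hsq hsqC g hg hgG hθ
  exact h n m hn w hw a ha hsq hsqC g g (by rwa [abs_of_nonneg hg]) hg hgG hθ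

/-- L3 for centred laws `N (0, g)` (the form of `D3bB`) -/
theorem L3B (f : ℝ → ℝ → ℝ) (C₁ : ℝ) (hf : ∀ ε, Continuous (f ε))
    (hC : ∀ ε a, |f ε a| ≤ C₁ * (1 + |a|)) (C G e : ℝ) (he : 0 < e) :
    ∃ (Θ : Finset ℝ) (η : ℝ), 0 < η ∧ ∀ (n m : ℕ), 0 < n →
      ∀ w : Cfg n → (Fin m → ℝ) → ℝ, JL w → ∀ a : Cfg n → (Fin m → ℝ) → Vec n,
      (∀ x j, Measurable fun ξ => a x ξ j) →
      (∀ x, Integrable (fun ξ => w x ξ * sq (a x ξ)) (gpi (Fin m))) →
      EJ w (fun x ξ => sq (a x ξ)) ≤ C * n →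
      ∀ g : ℝ, 0 ≤ g → g ≤ G →
      (∀ θ ∈ Θ, ∀ ε : ℝ, (ε = 1 ∨ ε = -1) →
        EJ w (fun x ξ => |(∑ j, ind ε (sv x j) * (Real.cos (θ * a x ξ j) -
          Real.exp (-(θ ^ 2 * g / 2)))) / n|) ≤ η ∧
        EJ w (fun x ξ => |(∑ j, ind ε (sv x j) * Real.sin (θ * a x ξ j)) / n|) ≤ η) →
      EJ w (fun x ξ => |(∑ j, (f (sv x j) (a x ξ j) - ∫ z, f (sv x j) (√g * z) ∂gm1)) / n|)
        ≤ e := by
  obtain ⟨Θ, η, hη, h⟩ := L3 f C₁ hf hC C G e he
  refine ⟨Θ, η, hη, ?_⟩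
  intro n m hn w hw a ha hsq hsqC g hg hgG hθ
  have h1 := h n m hn w hw a ha hsq hsqC 0 g (by rw [abs_zero]; exact hg.trans hgG) hg hgG (by
    intro θ hθ' ε hε
    have := hθ θ hθ' ε hε
    simpa using this)
  simpa using h1

theorem exists_eta (Θ : Finset ℝ) {η : ℝ} (hη : 0 < η) :
    ∃ η' : ℝ, 0 < η' ∧ η' ≤ η ∧ ∀ θ ∈ Θ, |θ| ≤ 1 / η' := by
  have h0 : 0 ≤ ∑ θ ∈ Θ, |θ| := Finset.sum_nonneg fun _ _ => abs_nonneg _
  refine ⟨min η (1 / (1 + ∑ θ ∈ Θ, |θ|)), lt_min hη (by positivity), min_le_left _ _, ?_⟩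
  intro θ hθ
  have h1 : |θ| ≤ ∑ θ ∈ Θ, |θ| :=
    Finset.single_le_sum (f := fun θ : ℝ => |θ|) (fun _ _ => abs_nonneg _) hθ
  have h2 : 1 + ∑ θ ∈ Θ, |θ| ≤ 1 / min η (1 / (1 + ∑ θ ∈ Θ, |θ|)) := by
    rw [le_one_div (by positivity) (lt_min hη (by positivity))]
    exact min_le_right _ _
  linarith

theorem meas_mulVec {n m : ℕ} (R : Matrix (Fin n) (Fin m) ℝ) (j : Fin n) :
    Measurable fun ξ : Fin m → ℝ => R.mulVec ξ j := by
  unfold Matrix.mulVec dotProduct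
  fun_prop

/-- `D3bB`: the laws of the noise `B = R ξ` given `σ` -/
theorem d3bB (β κ : ℝ) (hκ : 0 ≤ κ) : D3bB β κ := by
  intro I F n J hG f C₁ hf hC C e he
  obtain ⟨Θ, η, hη, h⟩ := L3B f C₁ hf hC C κ e he
  obtain ⟨η', hη', hle, hΘ⟩ := exists_eta Θ hη
  refine ⟨η', hη', ?_⟩
  filter_upwards [hG.hn.eventually_gt_atTop 0] with i hi m R s w _ hw
  refine h (n i) m hi w hw.law (fun _ ξ => R.mulVec ξ) (fun _ j => meas_mulVec R j) hw.J4i hw.J4
    κ hκ le_rfl fun θ hθ ε hε => ⟨(hw.J3c θ ε (hΘ θ hθ) hε).trans hle,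
      (hw.J3s θ ε (hΘ θ hθ) hε).trans hle⟩

end Vale.Agent.P150.F.D3
end
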