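import Mathlib
import Vale.Agent.P150.Bdl.B12
import Vale.Agent.P150.Bdl.B14
import Vale.Agent.P150.Bdl.B15
import Vale.Agent.P150.Bdl.B7
import Vale.Agent.P150.Bdl.B1

set_option linter.all false

section

/-! P150 FULL, module D8 (B): the entropy recursion (helper686). -/

open MeasureTheory ProbabilityTheory Filter Topology Real
open scoped Matrix

namespace Vale.Agent.P150.F

/-- end lemma (c1) -/
def D8End1 : Prop :=
  ∀ (n : ℕ) (y : Vec n) (f : Cfg n → ℝ), (∀ x, 0 < f x) →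
    EntX (gM 0 y) f ≤ DirW (gM 0 y) f (fun x => Real.log (f x))

/-- end lemma (c2) -/
def D8End2 : Prop :=
  ∀ (n : ℕ) (y : Vec n) (f : Cfg n → ℝ), (∀ x, 0 < f x) →
    Ex (gM 0 y) f * sq (fun i => mean (fun x => gM 0 y x * f x / Ex (gM 0 y) f) i
      - mean (gM 0 y) i) ≤ DirW (gM 0 y) f (fun x => Real.log (f x))

variable {n m : ℕ} {S : Type} [MeasurableSpace S]

namespace Proc

variable (P : Proc n m S) {f : Cfg n → ℝ}

/-- weighted squared tracking error -/
noncomputable def err (f : Cfg n → ℝ) (mh : S → Vec n) (s : S) : ℝ :=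
  P.wt f s * sq (fun i => mean (P.nuf f s) i - mh s i)

lemma bm_mean (hf : ∀ x, 0 < f x) (i : Fin n) : BM (fun s => mean (P.nuf f s) i) := by
  unfold mean
  exact BM.sum _ fun x _ => (P.bm_nuf hf x).mul (BM.const _)

lemma bm_err (hf : ∀ x, 0 < f x) {mh : S → Vec n} (hm : ∀ i, Measurable fun s => mh s i)
    (hm1 : ∀ s i, |mh s i| ≤ 1) : BM (P.err f mh) := by
  unfold err sq
  exact (P.bm_wt f).mul (BM.sum _ fun i _ => ((P.bm_mean hf i).sub ⟨hm i, 1, fun s => hm1 s i⟩).pow_two)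

lemma abs_mean_le (ν : Cfg n → ℝ) (hν : IsProb ν) (i : Fin n) : |mean ν i| ≤ 1 := by
  unfold mean
  refine (Finset.abs_sum_le_sum_abs _ _).trans ?_
  rw [← hν.2]
  refine Finset.sum_le_sum fun x _ => ?_
  rw [abs_mul, abs_of_nonneg (hν.1 x)]
  have : |sv x i| = 1 := by
    unfold sv sp
    split_ifs <;> simp
  rw [this, mul_one]

lemma err_le (hf : ∀ x, 0 < f x) {mh : S → Vec n} (hm1 : ∀ s i, |mh s i| ≤ 1) (s : S) :
    P.err f mh s ≤ 4 * n * P.wt f s := by
  unfold err sq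
  have h : ∑ i, (mean (P.nuf f s) i - mh s i) ^ 2 ≤ ∑ _i : Fin n, (4 : ℝ) := by
    refine Finset.sum_le_sum fun i _ => ?_
    have h1 := abs_le.1 (abs_mean_le _ (P.nuf_isProb hf s) i)
    have h2 := abs_le.1 (hm1 s i)
    nlinarith
  rw [Finset.sum_const, Finset.card_univ, Fintype.card_fin, nsmul_eq_mul] at h
  have h2 := mul_le_mul_of_nonneg_left h (P.wt_pos hf s).le
  linarith

/-- one step of the tracking error -/
lemma err_step (h1 : CH1) (hG : CHG) (h6 : CH6a) (hf : ∀ x, 0 < f x) {mh : S → Vec n}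
    (hm : ∀ i, Measurable fun s => mh s i) (hm1 : ∀ s i, |mh s i| ≤ 1) {s : S} {t : ℝ}
    (ht0 : 0 ≤ t) (ht1 : t ≤ 1 / 4)
    (hd : nv (fun i => EC (P.nuf f s) (P.R s) (P.δ s) (fun _ z => mh (P.nxt s z) i) - mh s i)
      ≤ t * (nv (fun i => mean (P.nuf f s) i - mh s i) + 1)) :
    P.err f mh s ≤ (1 + 6 * t) * P.U (P.err f mh) s + 3 * t * P.wt f s := by
  have hA := P.wt_pos hf s
  set ν := P.nuf f s with hν
  -- the averaged new error
  have hbm : ∀ i, BM fun s' => mean (P.nuf f s') i - mh s' i :=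
    fun i => (P.bm_mean hf i).sub ⟨hm i, 1, fun s => hm1 s i⟩
  set w : Vec n := fun i => (P.wt f s)⁻¹ *
    P.U (fun s' => P.wt f s' * (mean (P.nuf f s') i - mh s' i)) s with hw
  have hwi : ∀ i, w i = EC ν (P.R s) (P.δ s)
      (fun _ z => mean (P.nuf f (P.nxt s z)) i - mh (P.nxt s z) i) := by
    intro i
    have := P.wt_mul_EC h1 hG hf (hbm i) s
    rw [hw]
    simp only
    rw [← this]
    field_simp
    rfl
  have hEC : ∀ i, w i = mean ν i - EC ν (P.R s) (P.δ s) (fun _ z => mh (P.nxt s z) i) := by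
    intro i
    rw [hwi i]
    have h6' := (h6 n m (P.R s) (P.δ s) (P.hδ s).le ν (P.nuf_isProb hf s)).2.1 i
    rw [← h6']
    unfold EC
    rw [← Finset.sum_sub_distrib]
    refine Finset.sum_congr rfl fun x _ => ?_
    rw [← mul_sub, ← integral_sub]
    · congr 1
      refine integral_congr_ae (Eventually.of_forall fun ξ => ?_)
      beta_reduce
      rw [hν, P.pst_nuf hG hf]
    · have h := P.integ (P.bm_mean hf i) s x
      refine h.congr (Eventually.of_forall fun ξ => ?_)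
      beta_reduce
      rw [hν, P.pst_nuf hG hf]
      rfl
    · exact P.integ (Φ := fun s' => mh s' i) ⟨hm i, 1, fun s => hm1 s i⟩ s x
  -- Jensen
  have hJ : P.wt f s * sq w ≤ P.U (P.err f mh) s := by
    have e1 : P.U (P.err f mh) s = ∑ i, P.U (fun s' => P.wt f s' *
        (mean (P.nuf f s') i - mh s' i) ^ 2) s := by
      have e2 : P.err f mh = fun s' => ∑ i, P.wt f s' * (mean (P.nuf f s') i - mh s' i) ^ 2 := by
        funext s'
        unfold err sq
        rw [Finset.mul_sum]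
      rw [e2]
      have key : ∀ t : Finset (Fin n), P.U (fun s' => ∑ i ∈ t, P.wt f s' *
          (mean (P.nuf f s') i - mh s' i) ^ 2) s = ∑ i ∈ t, P.U (fun s' => P.wt f s' *
          (mean (P.nuf f s') i - mh s' i) ^ 2) s := by
        intro t
        induction t using Finset.induction_on with
        | empty => simp [U_const]
        | insert a t ha ih =>
          simp only [Finset.sum_insert ha]
          rw [P.U_add ((P.bm_wt f).mul (hbm a).pow_two)
            (BM.sum _ fun i _ => (P.bm_wt f).mul (hbm i).pow_two), ih]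
      exact key Finset.univ
    rw [e1]
    unfold sq
    rw [Finset.mul_sum]
    refine Finset.sum_le_sum fun i _ => ?_
    -- scalar Jensen
    have h0 : 0 ≤ P.U (fun s' => P.wt f s' * ((mean (P.nuf f s') i - mh s' i) - w i) ^ 2) s := by
      have h := P.U_mono (Φ := fun _ => 0) (Ψ := fun s' => P.wt f s' *
        ((mean (P.nuf f s') i - mh s' i) - w i) ^ 2) (BM.const 0)
        ((P.bm_wt f).mul ((hbm i).sub (BM.const _)).pow_two) (s := s)
        (fun z => mul_nonneg (P.wt_pos hf _).le (sq_nonneg _))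
      rwa [U_const] at h
    have e3 : (fun s' => P.wt f s' * ((mean (P.nuf f s') i - mh s' i) - w i) ^ 2) =
        fun s' => (P.wt f s' * (mean (P.nuf f s') i - mh s' i) ^ 2 +
          (-(2 * w i)) * (P.wt f s' * (mean (P.nuf f s') i - mh s' i))) +
          w i ^ 2 * P.wt f s' := by
      funext s'
      ring
    have b1 : BM fun s' => P.wt f s' * (mean (P.nuf f s') i - mh s' i) ^ 2 :=
      (P.bm_wt f).mul (hbm i).pow_two
    have b2 : BM fun s' => (-(2 * w i)) * (P.wt f s' * (mean (P.nuf f s') i - mh s' i)) :=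
      BM.const_mul _ ((P.bm_wt f).mul (hbm i))
    rw [e3, P.U_add (b1.add b2) ((P.bm_wt f).const_mul _), P.U_add b1 b2, P.U_const_mul,
      P.U_const_mul] at h0
    have e4 : P.U (fun s' => P.wt f s' * (mean (P.nuf f s') i - mh s' i)) s = P.wt f s * w i := by
      rw [hw]
      field_simp
    have e5 : P.U (fun s' => P.wt f s') s = P.wt f s := P.U_wt h1 hG f s
    rw [e4, e5] at h0
    linarith only [h0]
  -- the drift inequality
  set a := nv (fun i => mean ν i - mh s i) with ha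
  have ha0 : 0 ≤ a := nv_nonneg _
  have hb0 : 0 ≤ nv w := nv_nonneg _
  have hab : a ≤ nv w + t * (a + 1) := by
    have e : (fun i => mean ν i - mh s i) = w +
        fun i => EC ν (P.R s) (P.δ s) (fun _ z => mh (P.nxt s z) i) - mh s i := by
      funext i
      rw [Pi.add_apply, hEC i]
      ring
    have h2 := nv_add_le w (fun i => EC ν (P.R s) (P.δ s) (fun _ z => mh (P.nxt s z) i) - mh s i)
    rw [← e] at h2
    exact h2.trans (by linarith only [hd])
  have hsq : a ^ 2 ≤ (1 + 6 * t) * sq w + 3 * t := by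
    rw [← nv_sq w]
    set b := nv w
    have h3 : (1 - t) * a ≤ b + t := by linarith only [hab]
    have h4 : ((1 - t) * a) ^ 2 ≤ (b + t) ^ 2 := by
      apply pow_le_pow_left₀ (mul_nonneg (by linarith only [ht1]) ha0) h3
    have h5 : (b + t) ^ 2 ≤ (1 + t) * (b ^ 2 + t) := by linarith only [mul_nonneg ht0 (sq_nonneg (b - 1))]
    have h6' : 1 ≤ (1 + 4 * t) * (1 - t) ^ 2 := by (by_contra nlg; linarith only [mul_pos (sub_pos.2 (not_le.1 nlg)) (sub_pos.2 (not_le.1 nlg)), mul_nonneg (le_of_lt (sub_pos.2 (not_le.1 nlg))) (sub_nonneg.2 ht0), mul_nonneg (le_of_lt (sub_pos.2 (not_le.1 nlg))) (sub_nonneg.2 (mul_nonneg ht0 (sq_nonneg t))), mul_nonneg (sub_nonneg.2 ht1) (sub_nonneg.2 (mul_nonneg ht0 (sq_nonneg t))), mul_nonneg (sq_nonneg t) (sq_nonneg t), mul_nonneg (sq_nonneg t) (sub_nonneg.2 (mul_nonneg ht0 (sq_nonneg t)))])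
    have h7 : a ^ 2 ≤ (1 + 4 * t) * ((1 - t) * a) ^ 2 := by
      have := mul_le_mul_of_nonneg_right h6' (sq_nonneg a)
      linarith only [this]
    have h8 : (1 + 4 * t) * ((1 - t) * a) ^ 2 ≤ (1 + 4 * t) * ((1 + t) * (b ^ 2 + t)) :=
      mul_le_mul_of_nonneg_left (h4.trans h5) (by linarith only [ht0])
    have h9 : (1 + 4 * t) * ((1 + t) * (b ^ 2 + t)) ≤ (1 + 6 * t) * b ^ 2 + 3 * t := by
      have h10 : (1 + 4 * t) * (1 + t) ≤ 1 + 6 * t := by (by_contra nlg; linarith only [nlg, mul_nonneg (sub_nonneg.2 ht1) (sub_nonneg.2 h6'), mul_nonneg (le_of_lt (sub_pos.2 (not_le.1 nlg))) (sub_nonneg.2 ht1), mul_nonneg (le_of_lt (sub_pos.2 (not_le.1 nlg))) (sub_nonneg.2 ht0), mul_pos (sub_pos.2 (not_le.1 nlg)) (sub_pos.2 (not_le.1 nlg))])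
      have h11 : (1 + 6 * t) * t ≤ 3 * t := by linarith only [ht0, h10]
      have h12 := mul_le_mul_of_nonneg_right h10 (by (clear * - ht0; positivity) : 0 ≤ b ^ 2 + t)
      linarith only [h11, h12]
    linarith only [h9, h8, h7]
  have hfin : P.err f mh s = P.wt f s * a ^ 2 := by
    unfold err
    rw [ha, nv_sq]
  rw [hfin]
  have h10 := mul_le_mul_of_nonneg_left hsq hA.le
  have h11 := mul_le_mul_of_nonneg_left hJ (by linarith only [ht0] : 0 ≤ 1 + 6 * t)
  linarith only [h11, h10]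

end Proc


/-- end lemma (c0) -/
def D8End0 : Prop :=
  ∀ (n : ℕ) (M : Mat n) (y : Vec n), (∀ i j, i ≠ j → M i j = 0) →
    gM M y = gM 0 y ∧ ∀ i, mean (gM 0 y) i = Real.tanh (y i)

theorem sq_add_le' {n : ℕ} (a b c : Vec n) :
    sq (fun i => a i - c i) ≤ 2 * sq (fun i => a i - b i) + 2 * sq (fun i => b i - c i) := by
  unfold sq
  rw [Finset.mul_sum, Finset.mul_sum, ← Finset.sum_add_distrib]
  refine Finset.sum_le_sum fun i _ => ?_
  linarith only [sq_nonneg ((a i - b i) - (b i - c i))]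

theorem qf_le_of_opLe {n : ℕ} {Q : Mat n} {C : ℝ} (hC : 0 ≤ C) (h : OpLe Q C) (v : Vec n) :
    qf Q v ≤ C * sq v := by
  unfold qf
  refine (ip_le v (Q.mulVec v)).trans ?_
  have h1 : nv (Q.mulVec v) ≤ C * nv v := by
    have h2 := h v
    rw [← nv_sq, ← nv_sq] at h2
    have h3 : nv (Q.mulVec v) ^ 2 ≤ (C * nv v) ^ 2 := by linarith only [h2]
    exact (abs_le_of_sq_le_sq' h3 (mul_nonneg hC (nv_nonneg v))).2
  have h4 := mul_le_mul_of_nonneg_left h1 (nv_nonneg v)
  rw [← nv_sq]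
  linarith

namespace D6Out

variable {β C T c δ₀ : ℝ} {n : ℕ} {J : Mat n} (D : D6Out β C T c J δ₀)

/-- remaining time -/
noncomputable def clk (k : ℕ) : ℝ := ∑ j ∈ Finset.range k, D.dur j

lemma clk_nonneg (k : ℕ) : 0 ≤ D.clk k := Finset.sum_nonneg fun j _ => (D.dur_pos j).le

lemma clk_succ (k : ℕ) : D.clk (k + 1) = D.clk k + D.dur k := Finset.sum_range_succ _ _

lemma clk_le {k : ℕ} (hk : k ≤ D.N) : D.clk k ≤ T := by
  refine le_trans ?_ D.dur_sum
  exact Finset.sum_le_sum_of_subset_of_nonneg (Finset.range_mono hk) fun j _ _ => (D.dur_pos j).le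

/-- the right-hand side of the recursions -/
noncomputable def Psi (f : Cfg n → ℝ) (B : ℕ → Set D.S) (k : ℕ) (s : D.S) : ℝ :=
  2 * D.P.ep f s + 2 * D.P.wt f s + 4 * n * D.P.wh f B k s

variable {f : Cfg n → ℝ}

lemma Psi_nonneg (hf : ∀ x, 0 < f x) (B : ℕ → Set D.S) (k : ℕ) (s : D.S) : 0 ≤ D.Psi f B k s := by
  unfold Psi
  have h1 := D.P.ep_nonneg hf s
  have h2 := (D.P.wt_pos hf s).le
  have h3 := D.P.wh_nonneg hf B k s
  positivity

lemma wt_le_Psi (hf : ∀ x, 0 < f x) (B : ℕ → Set D.S) (k : ℕ) (s : D.S) :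
    D.P.wt f s ≤ D.Psi f B k s := by
  unfold Psi
  have h1 := D.P.ep_nonneg hf s
  have h2 := (D.P.wt_pos hf s).le
  have h3 := mul_nonneg (by (clear * -; positivity) : (0 : ℝ) ≤ 4 * n) (D.P.wh_nonneg hf B k s)
  linarith

lemma bm_Psi {B : ℕ → Set D.S} (hB : ∀ k, MeasurableSet (B k)) (k : ℕ) : BM (D.Psi f B k) := by
  unfold Psi
  exact ((BM.const_mul _ (D.P.bm_ep f)).add (BM.const_mul _ (D.P.bm_wt f))).add
    (BM.const_mul _ (D.P.bm_wh hB k))

lemma U_Psi_le (h1 : CH1) (hG : CHG) (h5 : CH5) (hf : ∀ x, 0 < f x) {B : ℕ → Set D.S}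
    (hB : ∀ k, MeasurableSet (B k)) {k : ℕ} {s : D.S} (h : s ∉ B (k + 1)) :
    D.P.U (D.Psi f B k) s ≤ D.Psi f B (k + 1) s := by
  unfold Psi
  rw [D.P.U_add ((BM.const_mul _ (D.P.bm_ep f)).add (BM.const_mul _ (D.P.bm_wt f)))
    (BM.const_mul _ (D.P.bm_wh hB k)), D.P.U_add (BM.const_mul _ (D.P.bm_ep f))
    (BM.const_mul _ (D.P.bm_wt f)), D.P.U_const_mul, D.P.U_const_mul, D.P.U_const_mul,
    D.P.U_wh h1 hG hB h]
  have e : D.P.U (fun s => D.P.wt f s) s = D.P.wt f s := D.P.U_wt h1 hG f s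
  have e2 : D.P.U (fun s => D.P.ep f s) s ≤ D.P.ep f s := D.P.U_ep_le h5 hG hf s
  have e3 : D.P.U (fun s => D.P.wh f B k s) s = D.P.wh f B (k + 1) s := D.P.U_wh h1 hG hB h
  rw [e]
  linarith only [e2]

/-- **L2 recursion** -/
theorem err_rec (h1 : CH1) (hG : CHG) (h5 : CH5) (h6 : CH6a) (he0 : D8End0) (he2 : D8End2)
    (hC : 0 ≤ C) (hCδ : C * δ₀ ≤ 1 / 4) (hf : ∀ x, 0 < f x) {B : ℕ → Set D.S}
    (hB : ∀ k, MeasurableSet (B k)) (hE : ∀ k, D.Exit ⊆ B k) :
    ∀ k s, D.Inv k s → D.P.err f D.mh s ≤ Real.exp (9 * C * D.clk k) * D.Psi f B k s := by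
  have hbad : ∀ k s, s ∈ B k → D.P.err f D.mh s ≤ Real.exp (9 * C * D.clk k) * D.Psi f B k s := by
    intro k s hs
    have h2 := D.P.err_le hf D.mh_le s
    have h3 : 4 * n * D.P.wt f s ≤ D.Psi f B k s := by
      unfold Psi
      rw [D.P.wh_of_mem f B hs]
      have h1 := D.P.ep_nonneg hf s
      have h2 := (D.P.wt_pos hf s).le
      linarith only [h1, h2]
    have h4 : 1 ≤ Real.exp (9 * C * D.clk k) :=
      Real.one_le_exp (mul_nonneg (by (clear * - hC; positivity)) (D.clk_nonneg k))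
    have h5 := mul_le_mul_of_nonneg_right h4 (D.Psi_nonneg hf B k s)
    linarith only [h2, h3, h5]
  intro k
  induction k with
  | zero =>
    intro s hs
    by_cases hsB : s ∈ B 0
    · exact hbad 0 s hsB
    have hsE : s ∉ D.Exit := fun h => hsB (hE 0 h)
    have hfin := D.fin_mh s hs hsE
    obtain ⟨hd1, hd2⟩ := he0 n (D.P.M s) (D.P.y s) (D.fin_M s hs)
    have hlaw : D.P.law s = gM 0 (D.P.y s) := hd1
    have hA := D.P.wt_pos hf s
    have h2 := he2 n (D.P.y s) f hf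
    rw [← hlaw] at h2
    have h3 : D.P.wt f s * sq (fun i => mean (D.P.nuf f s) i - mean (D.P.law s) i)
        ≤ D.P.ep f s := h2
    have h4 : sq (fun i => mean (D.P.law s) i - D.mh s i) ≤ 1 := by
      rw [← nv_sq]
      have e : (fun i => mean (D.P.law s) i - D.mh s i)
          = (fun i => Real.tanh (D.P.y s i)) - D.mh s := by
        funext i
        rw [hlaw, hd2 i]
        rfl
      rw [e, nv_sub_comm]
      have h0 := nv_nonneg (D.mh s - fun i => Real.tanh (D.P.y s i))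
      linarith only [mul_nonneg (sub_nonneg.2 hfin) (sub_nonneg.2 hfin), mul_nonneg (sub_nonneg.2 hfin) (sub_nonneg.2 h0)]
    have h5' := sq_add_le' (mean (D.P.nuf f s)) (mean (D.P.law s)) (D.mh s)
    have h6' := mul_le_mul_of_nonneg_left h5' hA.le
    have h7 := mul_le_mul_of_nonneg_left h4 hA.le
    have h8 : D.P.err f D.mh s ≤ D.Psi f B 0 s := by
      unfold Proc.err Psi
      have h9 := mul_nonneg (by (clear * -; positivity) : (0 : ℝ) ≤ 4 * n) (D.P.wh_nonneg hf B 0 s)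
      linarith only [h3, h6', h7, h9]
    have h4 : 1 ≤ Real.exp (9 * C * D.clk 0) :=
      Real.one_le_exp (mul_nonneg (by (clear * - hC; positivity)) (D.clk_nonneg 0))
    have h5 := mul_le_mul_of_nonneg_right h4 (D.Psi_nonneg hf B 0 s)
    linarith only [h5, h8]
  | succ k ih =>
    intro s hs
    by_cases hsB : s ∈ B (k + 1)
    · exact hbad _ s hsB
    have hsE : s ∉ D.Exit := fun h => hsB (hE _ h)
    have hδ := D.δ_eq k s hs
    have hδ0 : 0 < D.P.δ s := D.P.hδ s
    have hδ1 : D.P.δ s ≤ δ₀ := hδ ▸ D.dur_le k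
    set t := C * D.P.δ s with ht
    have ht0 : 0 ≤ t := mul_nonneg hC hδ0.le
    have ht1 : t ≤ 1 / 4 := (mul_le_mul_of_nonneg_left hδ1 hC).trans hCδ
    have hstep := D.P.err_step h1 hG h6 hf D.measmh D.mh_le ht0 ht1
      (D.drift k s hs hsE (D.P.nuf f s) (D.P.nuf_isProb hf s))
    have hU : D.P.U (D.P.err f D.mh) s
        ≤ Real.exp (9 * C * D.clk k) * D.Psi f B (k + 1) s := by
      have h2 : D.P.U (D.P.err f D.mh) s
          ≤ D.P.U (fun s' => Real.exp (9 * C * D.clk k) * D.Psi f B k s') s :=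
        D.P.U_mono (D.P.bm_err hf D.measmh D.mh_le) (BM.const_mul _ (D.bm_Psi hB k))
          fun z => ih _ (D.invS k s z hs)
      rw [D.P.U_const_mul] at h2
      exact h2.trans (mul_le_mul_of_nonneg_left (D.U_Psi_le h1 hG h5 hf hB hsB)
        (Real.exp_pos _).le)
    have hPsi := D.Psi_nonneg hf B (k + 1) s
    have hwt := D.wt_le_Psi hf B (k + 1) s
    have hexp1 : 1 ≤ Real.exp (9 * C * D.clk k) :=
      Real.one_le_exp (mul_nonneg (by (clear * - hC; positivity)) (D.clk_nonneg k))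
    have hexp : Real.exp (9 * C * D.clk (k + 1)) = Real.exp (9 * t) * Real.exp (9 * C * D.clk k) := by
      rw [← Real.exp_add, D.clk_succ, ← hδ]
      congr 1
      rw [ht]
      ring
    have h9 : 1 + 9 * t ≤ Real.exp (9 * t) := by linarith only [Real.add_one_le_exp (9 * t)]
    set X := Real.exp (9 * C * D.clk k) * D.Psi f B (k + 1) s with hX
    have hX0 : 0 ≤ X := mul_nonneg (Real.exp_pos _).le hPsi
    have hwX : D.P.wt f s ≤ X := by
      have := mul_le_mul_of_nonneg_right hexp1 hPsi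
      linarith only [this, hwt]
    have h10 : D.P.err f D.mh s ≤ (1 + 9 * t) * X := by
      have h11 := mul_le_mul_of_nonneg_left hU (by linarith only [ht0] : 0 ≤ 1 + 6 * t)
      have h12 := mul_le_mul_of_nonneg_left hwX (by linarith only [ht0] : 0 ≤ 3 * t)
      linarith only [h12, h11, hstep]
    rw [hexp]
    have h13 := mul_le_mul_of_nonneg_right h9 hX0
    calc _ ≤ (1 + 9 * t) * X := h10
      _ ≤ Real.exp (9 * t) * X := h13
      _ = _ := by rw [hX]; ring

/-- the tracked mean is close to the mean at non-bad states -/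
theorem good_mean (h1 : CH1) (hG : CHG) (h5 : CH5) (h6 : CH6a) (he0 : D8End0) (he2 : D8End2)
    (hC : 0 ≤ C) (hCδ : C * δ₀ ≤ 1 / 4) {θ : ℝ} (hθ : 4 * n * θ ≤ 1) {k : ℕ} (hk : k ≤ D.N)
    {s : D.S} (hs : D.Inv k s) (hsB : s ∉ D.P.badSet (fun _ => D.Exit) θ k) :
    sq (fun i => mean (D.P.law s) i - D.mh s i) ≤ 3 * Real.exp (9 * C * T) := by
  have hf : ∀ x : Cfg n, 0 < (fun _ => (1 : ℝ)) x := fun _ => one_pos
  have h := D.err_rec h1 hG h5 h6 he0 he2 hC hCδ hf (B := fun _ => D.Exit)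
    (fun _ => D.measExit) (fun _ => subset_rfl) k s hs
  have hw : D.P.wt (fun _ => 1) s = 1 := by
    unfold Proc.wt Ex
    simp [D.P.law_sum]
  have hnu : D.P.nuf (fun _ => 1) s = D.P.law s := by
    funext x
    unfold Proc.nuf
    rw [hw]
    ring
  have hep : D.P.ep (fun _ => 1) s = 0 := by
    unfold Proc.ep DirW
    simp
  have hwh : D.P.wh (fun _ => 1) (fun _ => D.Exit) k s = D.P.hitE (fun _ => D.Exit) k s := by
    unfold Proc.wh Proc.hitE
    congr 1
    funext s x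
    simp
  have hθ' : D.P.hitE (fun _ => D.Exit) k s ≤ θ := by
    by_contra hcon
    exact hsB (Or.inr (not_le.1 hcon))
  unfold Proc.err Psi at h
  rw [hw, hnu, hep, hwh] at h
  have h2 : Real.exp (9 * C * D.clk k) ≤ Real.exp (9 * C * T) := by
    apply Real.exp_le_exp.2
    exact mul_le_mul_of_nonneg_left (D.clk_le hk) (by (clear * - hC; positivity))
  have h3 : (2 * 0 + 2 * 1 + 4 * n * D.P.hitE (fun _ => D.Exit) k s : ℝ) ≤ 3 := by
    have := mul_le_mul_of_nonneg_left hθ' (by (clear * -; positivity) : (0 : ℝ) ≤ 4 * n)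
    linarith only [hθ, this]
  have h4 : (0 : ℝ) ≤ 2 * 0 + 2 * 1 + 4 * n * D.P.hitE (fun _ => D.Exit) k s := by
    have := D.P.hitE_nonneg (fun _ => D.Exit) k s
    (clear * - this; positivity)
  calc _ = 1 * sq (fun i => mean (D.P.law s) i - D.mh s i) := (one_mul _).symm
    _ ≤ _ := h
    _ ≤ Real.exp (9 * C * T) * 3 := mul_le_mul h2 h3 h4 (Real.exp_pos _).le
    _ = _ := by ring

/-- **entropy recursion** -/
theorem ent_rec (h1 : CH1) (hG : CHG) (h4 : CH4') (h5 : CH5) (h6 : CH6a) (he0 : D8End0)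
    (he1 : D8End1) (he2 : D8End2) (hC : 0 ≤ C) (hCδ : C * δ₀ ≤ 1 / 4) {K : ℝ} (hK0 : 0 ≤ K)
    (hKδ : K * √δ₀ ≤ 1)
    (hK : ∀ (R : Matrix (Fin n) (Fin n) ℝ), (∀ i j, |R i j| ≤ C) →
      ∀ δ, 0 ≤ δ → δ ≤ 1 → ∀ ν μ : Cfg n → ℝ, IsProb ν → IsProb μ →
      EC ν R δ (fun _ z => Real.log (evd ν (R * Rᵀ) δ z) - Real.log (evd μ (R * Rᵀ) δ z))
        ≤ δ / 2 * qf (R * Rᵀ) (fun i => mean ν i - mean μ i) + K * (δ * √δ))
    {θ : ℝ} (hθ : 4 * n * θ ≤ 1) (hf : ∀ x, 0 < f x) {Lf : ℝ} (hL0 : 0 ≤ Lf)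
    (hL : ∀ x, Real.log (f x) ≤ Lf) :
    ∀ k s, k ≤ D.N → D.Inv k s → D.P.ent f s ≤ D.P.ep f s
      + (C * Real.exp (9 * C * T) + C * (3 * Real.exp (9 * C * T)) + 1) * D.clk k *
        D.Psi f (D.P.badSet (fun _ => D.Exit) θ) k s
      + Lf * D.P.wh f (D.P.badSet (fun _ => D.Exit) θ) k s
      + D.P.hitE (D.P.badSet (fun _ => D.Exit) θ) k s := by
  set B := D.P.badSet (fun _ => D.Exit) θ with hBdef
  have hB : ∀ k, MeasurableSet (B k) := D.P.meas_badSet _ (fun _ => D.measExit) θ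
  have hE : ∀ k, D.Exit ⊆ B k := fun k s hs => Or.inl hs
  set A := C * Real.exp (9 * C * T) + C * (3 * Real.exp (9 * C * T)) + 1 with hA
  have hA0 : 0 ≤ A := by (clear * - hC; positivity)
  have hpos : ∀ k s, 0 ≤ D.P.ep f s + A * D.clk k * D.Psi f B k s := by
    intro k s
    have h2 := D.P.ep_nonneg hf s
    have h3 := mul_nonneg (mul_nonneg hA0 (D.clk_nonneg k)) (D.Psi_nonneg hf B k s)
    linarith only [h3, h2]
  have hbad : ∀ k s, s ∈ B k → D.P.ent f s ≤ D.P.ep f s + A * D.clk k * D.Psi f B k s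
      + Lf * D.P.wh f B k s + D.P.hitE B k s := by
    intro k s hs
    rw [D.P.wh_of_mem f B hs, D.P.hitE_of_mem B hs]
    have h2 := D.P.ent_le hf hL s
    have h3 := hpos k s
    linarith only [h3, h2]
  intro k
  induction k with
  | zero =>
    intro s _ hs
    by_cases hsB : s ∈ B 0
    · exact hbad 0 s hsB
    obtain ⟨hd1, hd2⟩ := he0 n (D.P.M s) (D.P.y s) (D.fin_M s hs)
    have hlaw : D.P.law s = gM 0 (D.P.y s) := hd1
    have h2 := he1 n (D.P.y s) f hf
    rw [← hlaw] at h2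
    have h3 : D.P.ent f s ≤ D.P.ep f s := h2
    have h4 := mul_nonneg (mul_nonneg hA0 (D.clk_nonneg 0)) (D.Psi_nonneg hf B 0 s)
    have h5 := mul_nonneg hL0 (D.P.wh_nonneg hf B 0 s)
    have h6 := D.P.hitE_nonneg B 0 s
    linarith only [h3, h4, h5, h6]
  | succ k ih =>
    intro s hkN hs
    by_cases hsB : s ∈ B (k + 1)
    · exact hbad _ s hsB
    have hδ := D.δ_eq k s hs
    have hδ0 : 0 < D.P.δ s := D.P.hδ s
    have hδ1 : D.P.δ s ≤ δ₀ := hδ ▸ D.dur_le k
    have hwt := D.P.wt_pos hf s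
    set E := D.P.δ s / 2 * qf (D.P.R s * (D.P.R s)ᵀ)
      (fun i => mean (D.P.nuf f s) i - mean (D.P.law s) i) + K * (D.P.δ s * √(D.P.δ s)) with hEdef
    have hstep := D.P.ent_step h1 hG h4 hf
      (hK (D.P.R s) (D.R_le k s hs) (D.P.δ s) hδ0.le (D.P.hδ1 s) (D.P.nuf f s) (D.P.law s)
        (D.P.nuf_isProb hf s) (D.P.law_isProb s))
    rw [← hEdef] at hstep
    have hgood := D.good_mean h1 hG h5 h6 he0 he2 hC hCδ hθ hkN hs hsB
    have herr := D.err_rec h1 hG h5 h6 he0 he2 hC hCδ hf hB hE (k + 1) s hs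
    have hexp : Real.exp (9 * C * D.clk (k + 1)) ≤ Real.exp (9 * C * T) := by
      apply Real.exp_le_exp.2
      exact mul_le_mul_of_nonneg_left (D.clk_le hkN) (by (clear * - hC; positivity))
    have hPsi := D.Psi_nonneg hf B (k + 1) s
    have herr2 : D.P.err f D.mh s ≤ Real.exp (9 * C * T) * D.Psi f B (k + 1) s :=
      herr.trans (mul_le_mul_of_nonneg_right hexp hPsi)
    have hE1 : D.P.wt f s * E ≤ D.P.δ s * A * D.Psi f B (k + 1) s := by
      have h2 := qf_le_of_opLe hC (D.Q_le k s hs)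
        (fun i => mean (D.P.nuf f s) i - mean (D.P.law s) i)
      have h3 := sq_add_le' (mean (D.P.nuf f s)) (D.mh s) (mean (D.P.law s))
      have h4 : sq (fun i => D.mh s i - mean (D.P.law s) i) ≤ 3 * Real.exp (9 * C * T) := by
        refine le_trans (le_of_eq ?_) hgood
        unfold sq
        exact Finset.sum_congr rfl fun i _ => by ring
      have h5 : √(D.P.δ s) ≤ √δ₀ := Real.sqrt_le_sqrt hδ1
      have h6 : K * (D.P.δ s * √(D.P.δ s)) ≤ D.P.δ s := by
        have h7 : K * √(D.P.δ s) ≤ 1 := (mul_le_mul_of_nonneg_left h5 hK0).trans hKδ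
        have h8 := mul_le_mul_of_nonneg_left h7 hδ0.le
        linarith only [h8]
      have h7 : E ≤ D.P.δ s * (C * sq (fun i => mean (D.P.nuf f s) i - D.mh s i)
          + C * (3 * Real.exp (9 * C * T)) + 1) := by
        have h8 : qf (D.P.R s * (D.P.R s)ᵀ) (fun i => mean (D.P.nuf f s) i - mean (D.P.law s) i)
            ≤ C * (2 * sq (fun i => mean (D.P.nuf f s) i - D.mh s i)
              + 2 * (3 * Real.exp (9 * C * T))) := by
          refine le_trans h2 (mul_le_mul_of_nonneg_left ?_ hC)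
          linarith only [h4, h3]
        have h9 := mul_le_mul_of_nonneg_left h8 (by linarith only [hδ0] : 0 ≤ D.P.δ s / 2)
        rw [hEdef]
        linarith only [h9, h6]
      have h8 := mul_le_mul_of_nonneg_left h7 hwt.le
      have h9 : D.P.wt f s * (D.P.δ s * (C * sq (fun i => mean (D.P.nuf f s) i - D.mh s i)
          + C * (3 * Real.exp (9 * C * T)) + 1)) = D.P.δ s * (C * D.P.err f D.mh s
          + (C * (3 * Real.exp (9 * C * T)) + 1) * D.P.wt f s) := by
        unfold Proc.err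
        ring
      rw [h9] at h8
      refine h8.trans ?_
      rw [mul_assoc (D.P.δ s) A]
      refine mul_le_mul_of_nonneg_left ?_ hδ0.le
      have h10 := mul_le_mul_of_nonneg_left herr2 hC
      have h11 := mul_le_mul_of_nonneg_left (D.wt_le_Psi hf B (k + 1) s)
        (by (clear * - hC; positivity) : 0 ≤ C * (3 * Real.exp (9 * C * T)) + 1)
      rw [hA]
      linarith only [h10, h11]
    have hU : D.P.U (D.P.ent f) s ≤ D.P.ep f s + A * D.clk k * D.Psi f B (k + 1) s
        + Lf * D.P.wh f B (k + 1) s + D.P.hitE B (k + 1) s := by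
      have b1 : BM (D.P.ep f) := D.P.bm_ep f
      have b2 : BM (fun s' => A * D.clk k * D.Psi f B k s') := BM.const_mul _ (D.bm_Psi hB k)
      have b3 : BM (fun s' => Lf * D.P.wh f B k s') := BM.const_mul _ (D.P.bm_wh hB k)
      have b4 : BM (D.P.hitE B k) := D.P.bm_hitE hB k
      have h2 : D.P.U (D.P.ent f) s ≤ D.P.U (fun s' => D.P.ep f s' + A * D.clk k * D.Psi f B k s'
          + Lf * D.P.wh f B k s' + D.P.hitE B k s') s :=
        D.P.U_mono (D.P.bm_ent hf) (((b1.add b2).add b3).add b4)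
          fun z => ih _ (by omega) (D.invS k s z hs)
      rw [D.P.U_add ((b1.add b2).add b3) b4, D.P.U_add (b1.add b2) b3, D.P.U_add b1 b2,
        D.P.U_const_mul, D.P.U_const_mul] at h2
      have e1 : D.P.U (fun s' => D.P.ep f s') s ≤ D.P.ep f s := D.P.U_ep_le h5 hG hf s
      have e2 := mul_le_mul_of_nonneg_left (D.U_Psi_le h1 hG h5 hf hB hsB)
        (mul_nonneg hA0 (D.clk_nonneg k))
      have e3 : D.P.U (fun s' => D.P.wh f B k s') s = D.P.wh f B (k + 1) s :=
        D.P.U_wh h1 hG hB hsB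
      have e4 : D.P.U (fun s' => D.P.hitE B k s') s = D.P.hitE B (k + 1) s :=
        D.P.U_hitE h1 hG hB hsB
      have e5 : D.P.U (fun s' => D.Psi f B k s') s = D.P.U (D.Psi f B k) s := rfl
      rw [e3, e4, e5] at h2
      linarith only [e2, e1, h2]
    have hclk : A * D.clk (k + 1) * D.Psi f B (k + 1) s = A * D.clk k * D.Psi f B (k + 1) s
        + D.P.δ s * A * D.Psi f B (k + 1) s := by
      rw [D.clk_succ, ← hδ]
      ring
    rw [hclk]
    linarith only [hU, hE1, hstep]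

end D6Out

end Vale.Agent.P150.F
end

section

/-! P150 FULL, module D8: the three end lemmas (product measures). -/

open MeasureTheory ProbabilityTheory Filter Topology Real

namespace Vale.Agent.P150.F

namespace D8E

variable {n : ℕ}

lemma qf_zero (x : Cfg n) : qf (0 : Mat n) (sv x) = 0 := by
  unfold qf ip
  simp

/-- sharp comparison of the square root and logarithmic forms -/
lemma sqrt_log_sharp_aux {s t : ℝ} (ht : 0 < t) (hst : t ≤ s) :
    (s - t) ^ 2 ≤ 1 / 4 * ((s ^ 2 - t ^ 2) * (Real.log (s ^ 2) - Real.log (t ^ 2))) := by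
  have hs : 0 < s := ht.trans_le hst
  have hx : 0 ≤ s / t - 1 := by
    rw [sub_nonneg, one_le_div ht]
    exact hst
  have h := Real.le_log_one_add_of_nonneg hx
  rw [show 1 + (s / t - 1) = s / t by ring, Real.log_div hs.ne' ht.ne'] at h
  have e : 2 * (s / t - 1) / (s / t - 1 + 2) = 2 * (s - t) / (s + t) := by
    rw [div_eq_div_iff (by linarith only [hx]) (by positivity)]
    field_simp
    ring
  rw [e, div_le_iff₀ (by positivity)] at h
  rw [Real.log_pow, Real.log_pow]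
  have h2 := mul_le_mul_of_nonneg_left h (sub_nonneg.2 hst)
  push_cast
  linarith only [h2]

lemma sqrt_log_sharp {a b : ℝ} (ha : 0 < a) (hb : 0 < b) :
    (√a - √b) ^ 2 ≤ 1 / 4 * ((a - b) * (Real.log a - Real.log b)) := by
  have ea := Real.sq_sqrt ha.le
  have eb := Real.sq_sqrt hb.le
  rcases le_total (√b) (√a) with h | h
  · have h1 := sqrt_log_sharp_aux (Real.sqrt_pos.2 hb) h
    rwa [ea, eb] at h1
  · have h1 := sqrt_log_sharp_aux (Real.sqrt_pos.2 ha) h
    rw [ea, eb] at h1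
    calc (√a - √b) ^ 2 = (√b - √a) ^ 2 := by ring
      _ ≤ _ := h1
      _ = _ := by ring

lemma par_sqrt_le {p q a b : ℝ} (hp : 0 < p) (hq : 0 < q) (ha : 0 < a) (hb : 0 < b) :
    p * q / (p + q) * (√a + √b) ^ 2 ≤ p * a + q * b := by
  have ea := Real.sq_sqrt ha.le
  have eb := Real.sq_sqrt hb.le
  rw [div_mul_eq_mul_div, div_le_iff₀ (by positivity)]
  have h := sq_nonneg (p * √a - q * √b)
  have e : (p * a + q * b) * (p + q) - p * q * (√a + √b) ^ 2 = (p * √a - q * √b) ^ 2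
      + p * (p + q) * (a - √a ^ 2) + q * (p + q) * (b - √b ^ 2) := by ring
  rw [ea, eb, sub_self, sub_self, mul_zero, mul_zero, add_zero, add_zero] at e
  linarith only [e, h]

end D8E

open D8E D7T

theorem d8end0 : D8End0 := by
  intro n M y hM
  constructor
  · funext x
    have hc : (0 : ℝ) < Real.exp ((∑ i, M i i) / 2) := Real.exp_pos _
    unfold gM
    simp only [qf_diag hM, qf_zero, zero_div, zero_add, Real.exp_add]
    rw [← Finset.mul_sum, mul_div_mul_left _ _ hc.ne']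
  · intro i
    exact mean_diag (fun _ _ _ => rfl) y i

theorem d8end1 : D8End1 := by
  intro n y f hf
  have hg : gM (0 : Mat n) y = gibbs (fun _ _ => 0) y := by
    funext x
    unfold gM gibbs energy
    simp only [qf_zero, zero_div, zero_add]
    simp [ip, sv]
  have h := Vale.Agent.P150.Prod.prod_mlsi y f hf
  rw [Vale.Agent.P150.dir_eq (fun _ _ => rfl)] at h
  unfold EntX DirW Ex
  rw [hg]
  exact h

theorem d8end2 : D8End2 := by
  intro n y f hf
  set μ : Cfg n → ℝ := gM 0 y with hμ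
  have hpos : ∀ x, 0 < μ x := fun x => by
    rw [hμ]
    exact gM_pos _ _ x
  have hsum : ∑ x, μ x = 1 := by
    rw [hμ]
    exact gM_sum _ _
  set A := Ex μ f with hA
  have hApos : 0 < A := by
    rw [hA]
    unfold Ex
    exact Finset.sum_pos (fun x _ => mul_pos (hpos x) (hf x)) Finset.univ_nonempty
  set w : Fin n → Cfg n → ℝ := fun i x => μ x * μ (flip x i) / (μ x + μ (flip x i)) with hw
  have hwpos : ∀ i x, 0 < w i x := fun i x => by
    have h1 := hpos x
    have h2 := hpos (flip x i)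
    rw [hw]
    (clear * - h1 h2; positivity)
  have hwsym : ∀ i x, w i (flip x i) = w i x := fun i x => by
    simp only [hw]
    rw [flip_flip, mul_comm, add_comm]
  have hflip : ∀ i x, μ (flip x i) = μ x * Real.exp (-2 * (y i * sv x i)) := by
    intro i x
    rw [hμ]
    unfold gM
    rw [qf_zero, qf_zero, ip_flip, zero_div, zero_add, zero_add, sub_eq_add_neg, Real.exp_add]
    rw [show -2 * (y i * sv x i) = -(2 * (y i * sv x i)) by ring]
    ring
  have hkey : ∀ i x, μ x * (sv x i - Real.tanh (y i)) = 2 * (sv x i * w i x) := by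
    intro i x
    have h1 := hpos x
    simp only [hw]
    rw [hflip]
    set E := Real.exp (-2 * (y i * sv x i)) with hE
    have hEpos : 0 < E := Real.exp_pos _
    have e1 : μ x * (μ x * E) / (μ x + μ x * E) = μ x * (E / (1 + E)) := by
      field_simp
    rw [e1]
    have e2 : sv x i - Real.tanh (y i) = 2 * (sv x i * (E / (1 + E))) := by
      rw [eq_comm, ← mul_div_assoc, ← mul_div_assoc, div_eq_iff (by positivity)]
      rcases sv_cases x i with h | h
      · have := tanh_refl (y i)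
        rw [h, mul_one] at hE
        rw [← hE] at this
        rw [h]
        linarith
      · have := tanh_refl (-(y i))
        rw [Real.tanh_neg] at this
        rw [h] at hE
        rw [show -2 * -(y i) = -2 * (y i * -1) by ring, ← hE] at this
        rw [h]
        linarith
    rw [e2]
    ring
  have hmean : ∀ i, mean μ i = Real.tanh (y i) := fun i => by
    rw [hμ]
    exact mean_diag (fun _ _ _ => rfl) y i
  -- the difference of the means
  set S : Fin n → ℝ := fun i => ∑ x, sv x i * w i x * (f x - f (flip x i)) with hS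
  have hdiff : ∀ i, mean (fun x => μ x * f x / A) i - mean μ i = S i / A := by
    intro i
    rw [hmean]
    have e1 : mean (fun x => μ x * f x / A) i - Real.tanh (y i)
        = (∑ x, μ x * (sv x i - Real.tanh (y i)) * f x) / A := by
      unfold mean
      rw [eq_div_iff hApos.ne', sub_mul, Finset.sum_mul]
      have e3 : Real.tanh (y i) * A = ∑ x, Real.tanh (y i) * (μ x * f x) := by
        rw [hA]
        unfold Ex
        rw [Finset.mul_sum]
      rw [e3, ← Finset.sum_sub_distrib]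
      refine Finset.sum_congr rfl fun x _ => ?_
      field_simp
    rw [e1]
    congr 1
    have e2 : ∑ x, μ x * (sv x i - Real.tanh (y i)) * f x = ∑ x, 2 * (sv x i * w i x * f x) := by
      refine Finset.sum_congr rfl fun x _ => ?_
      rw [hkey]
      ring
    have e4 : ∑ x, sv x i * w i x * f x = ∑ x, -(sv x i * w i x * f (flip x i)) := by
      rw [← sum_flip i (fun x => sv x i * w i x * f x)]
      refine Finset.sum_congr rfl fun x _ => ?_
      rw [hwsym, sv_flip_self]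
      ring
    rw [e2, ← Finset.mul_sum]
    simp only [hS, mul_sub, Finset.sum_sub_distrib]
    rw [Finset.sum_neg_distrib] at e4
    linarith
  -- Cauchy-Schwarz
  have hCS : ∀ i, S i ^ 2 ≤ A * ((1 / 2) * ∑ x, w i x *
      ((f (flip x i) - f x) * (Real.log (f (flip x i)) - Real.log (f x)))) := by
    intro i
    have h1 : S i ^ 2 ≤ (∑ x, w i x * (√(f x) - √(f (flip x i))) ^ 2) *
        ∑ x, w i x * (√(f x) + √(f (flip x i))) ^ 2 := by
      refine Finset.sum_sq_le_sum_mul_sum_of_sq_le_mul _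
        (fun x _ => mul_nonneg (hwpos i x).le (sq_nonneg _))
        (fun x _ => mul_nonneg (hwpos i x).le (sq_nonneg _)) fun x _ => ?_
      have ea := Real.sq_sqrt (hf x).le
      have eb := Real.sq_sqrt (hf (flip x i)).le
      have es : sv x i ^ 2 = 1 := by
        rw [pow_two]
        exact sv_mul_self x i
      have e5 : f x - f (flip x i) = (√(f x) - √(f (flip x i))) * (√(f x) + √(f (flip x i))) := by
        rw [← sub_eq_zero]
        nlinarith
      rw [e5]
      calc (sv x i * w i x * ((√(f x) - √(f (flip x i))) * (√(f x) + √(f (flip x i))))) ^ 2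
          = sv x i ^ 2 * (w i x ^ 2 * (√(f x) - √(f (flip x i))) ^ 2 *
            (√(f x) + √(f (flip x i))) ^ 2) := by ring
        _ ≤ _ := le_of_eq (by rw [es]; ring)
    have h2 : ∑ x, w i x * (√(f x) + √(f (flip x i))) ^ 2 ≤ 2 * A := by
      have h3 : ∑ x, w i x * (√(f x) + √(f (flip x i))) ^ 2
          ≤ ∑ x, (μ x * f x + μ (flip x i) * f (flip x i)) :=
        Finset.sum_le_sum fun x _ => par_sqrt_le (hpos x) (hpos _) (hf x) (hf _)
      rw [Finset.sum_add_distrib, sum_flip i (fun x => μ x * f x)] at h3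
      have h4 : A = ∑ x, μ x * f x := rfl
      linarith only [h4, h3]
    have h5 : ∑ x, w i x * (√(f x) - √(f (flip x i))) ^ 2 ≤ 1 / 4 * ∑ x, w i x *
        ((f (flip x i) - f x) * (Real.log (f (flip x i)) - Real.log (f x))) := by
      rw [Finset.mul_sum]
      refine Finset.sum_le_sum fun x _ => ?_
      have h6 := mul_le_mul_of_nonneg_left (sqrt_log_sharp (hf x) (hf (flip x i))) (hwpos i x).le
      refine h6.trans (le_of_eq ?_)
      ring
    have h7 : 0 ≤ ∑ x, w i x * (√(f x) - √(f (flip x i))) ^ 2 :=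
      Finset.sum_nonneg fun x _ => mul_nonneg (hwpos i x).le (sq_nonneg _)
    calc S i ^ 2 ≤ _ := h1
      _ ≤ (∑ x, w i x * (√(f x) - √(f (flip x i))) ^ 2) * (2 * A) :=
          mul_le_mul_of_nonneg_left h2 h7
      _ ≤ (1 / 4 * ∑ x, w i x *
        ((f (flip x i) - f x) * (Real.log (f (flip x i)) - Real.log (f x)))) * (2 * A) :=
          mul_le_mul_of_nonneg_right h5 (by (clear * - hApos; positivity))
      _ = _ := by ring
  unfold sq
  simp only [hdiff]
  unfold DirW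
  rw [Finset.mul_sum, Finset.mul_sum]
  refine Finset.sum_le_sum fun i _ => ?_
  calc A * (S i / A) ^ 2 = S i ^ 2 / A := by
        field_simp
    _ ≤ _ := by
        rw [div_le_iff₀ hApos]
        refine (hCS i).trans (le_of_eq ?_)
        ring

end Vale.Agent.P150.F
end

section

/-!
The scalar Gaussian channel `a = γ σ + √γ N`: overlap `qS`, mutual information `iS`.
-/

open MeasureTheory ProbabilityTheory Filter Topology

namespace Vale.Agent.P150.F

/-! ### log cosh -/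

lemma sc_logcosh_deriv (x : ℝ) : HasDerivAt (fun a => Real.log (Real.cosh a)) (Real.tanh x) x := by
  have h := (Real.hasDerivAt_cosh x).log (Real.cosh_pos x).ne'
  rwa [← Real.tanh_eq_sinh_div_cosh] at h

/-! ### integrability -/

lemma sc_abs_affine (t x : ℝ) : |t ^ 2 + t * x| ≤ t ^ 2 + |t| * |x| := by
  refine (abs_add_le _ _).trans ?_
  rw [abs_mul, abs_of_nonneg (sq_nonneg t)]

/-- integrability of functions of at most linear growth -/
lemma sc_int_lin {f : ℝ → ℝ} (hf : Continuous f) {A B : ℝ} (hB : 0 ≤ B)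
    (h : ∀ x, |f x| ≤ A + B * |x|) (t : ℝ) :
    Integrable (fun x => f (t ^ 2 + t * x)) (gaussianReal 0 1) :=
  sc_int_of_le (hf.comp (by fun_prop)) (A := A + B * t ^ 2) (B := B * |t|) fun x => by
    refine (h _).trans ?_
    have := mul_le_mul_of_nonneg_left (sc_abs_affine t x) hB
    linarith only [this]

/-- `gT` form of integrability of a bounded continuous function -/
lemma sc_int_bd {f : ℝ → ℝ} (hf : Continuous f) {A : ℝ}
    (h : ∀ x, |f x| ≤ A) (t : ℝ) :
    Integrable (fun x => f (t ^ 2 + t * x)) (gaussianReal 0 1) :=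
  sc_int_lin hf (A := A) (B := 0) le_rfl (fun x => by simpa using h x) t

lemma gT_add {f g : ℝ → ℝ} {t : ℝ} (hf : Integrable (fun x => f (t ^ 2 + t * x)) (gaussianReal 0 1))
    (hg : Integrable (fun x => g (t ^ 2 + t * x)) (gaussianReal 0 1)) :
    gT t (fun a => f a + g a) = gT t f + gT t g := integral_add hf hg

lemma gT_sub {f g : ℝ → ℝ} {t : ℝ} (hf : Integrable (fun x => f (t ^ 2 + t * x)) (gaussianReal 0 1))
    (hg : Integrable (fun x => g (t ^ 2 + t * x)) (gaussianReal 0 1)) :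
    gT t (fun a => f a - g a) = gT t f - gT t g := integral_sub hf hg

lemma gT_smul (c : ℝ) (f : ℝ → ℝ) (t : ℝ) : gT t (fun a => c * f a) = c * gT t f :=
  integral_const_mul c _

lemma gT_const (c : ℝ) (t : ℝ) : gT t (fun _ => c) = c := by
  unfold gT
  simp

lemma gT_zero (f : ℝ → ℝ) : gT 0 f = f 0 := by
  unfold gT
  simp

lemma gT_nonneg {f : ℝ → ℝ} (h : ∀ x, 0 ≤ f x) (t : ℝ) : 0 ≤ gT t f :=
  integral_nonneg fun _ => h _

lemma gT_mono {f g : ℝ → ℝ} {t : ℝ}
    (hf : Integrable (fun x => f (t ^ 2 + t * x)) (gaussianReal 0 1))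
    (hg : Integrable (fun x => g (t ^ 2 + t * x)) (gaussianReal 0 1)) (h : ∀ x, f x ≤ g x) :
    gT t f ≤ gT t g := integral_mono hf hg fun _ => h _

lemma gT_abs_le {f : ℝ → ℝ} (hf : Continuous f) {A : ℝ} (h : ∀ x, |f x| ≤ A) (t : ℝ) :
    |gT t f| ≤ A := by
  have i1 := sc_int_bd hf h t
  have i2 : Integrable (fun _ : ℝ => A) (gaussianReal 0 1) := integrable_const A
  have h1 : gT t f ≤ A := by
    have := gT_mono (f := f) (g := fun _ => A) i1 i2 fun x => (abs_le.1 (h x)).2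
    rwa [gT_const] at this
  have h2 : -A ≤ gT t f := by
    have := gT_mono (f := fun _ => -A) (g := f) i2.neg i1 fun x => (abs_le.1 (h x)).1
    rwa [gT_const] at this
  exact abs_le.2 ⟨h2, h1⟩

lemma sc_tanh_pow_abs (k : ℕ) (x : ℝ) : |Real.tanh x ^ k| ≤ 1 := by
  rw [abs_pow]
  exact pow_le_one₀ (abs_nonneg _) (sc_abs_tanh x)

lemma sc_tanh_pow_cont (k : ℕ) : Continuous (fun x => Real.tanh x ^ k) := sc_tanh_cont.pow k

lemma sc_int_tanh_pow (k : ℕ) (t : ℝ) :
    Integrable (fun x => Real.tanh (t ^ 2 + t * x) ^ k) (gaussianReal 0 1) :=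
  sc_int_bd (sc_tanh_pow_cont k) (sc_tanh_pow_abs k) t

/-! ### the overlap -/

lemma gT_tanh (t : ℝ) : gT t Real.tanh = gT t (fun a => Real.tanh a ^ 2) := by
  rw [nishiT Real.tanh_neg t (sc_int_bd sc_tanh_cont sc_abs_tanh t)
    (sc_int_bd (f := fun a => Real.tanh a * Real.tanh a) (sc_tanh_cont.mul sc_tanh_cont)
      (A := 1) (fun x => by rw [← pow_two]; exact sc_tanh_pow_abs 2 x) t)]
  congr 1
  funext a
  ring

lemma gT_tanh3 (t : ℝ) : gT t (fun a => Real.tanh a ^ 3) = gT t (fun a => Real.tanh a ^ 4) := by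
  rw [nishiT (f := fun a => Real.tanh a ^ 3) (fun x => by rw [Real.tanh_neg]; ring) t
    (sc_int_tanh_pow 3 t)
    (sc_int_bd (f := fun a => Real.tanh a ^ 3 * Real.tanh a)
      ((sc_tanh_pow_cont 3).mul sc_tanh_cont)
      (A := 1) (fun x => by rw [← pow_succ]; exact sc_tanh_pow_abs 4 x) t)]
  congr 1

/-- derivative of the overlap in the standard deviation parameter -/
lemma gT_q_deriv (t : ℝ) : HasDerivAt (fun t => gT t (fun a => Real.tanh a ^ 2))
    (2 * t * gT t (fun a => (1 - Real.tanh a ^ 2) ^ 2)) t := by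
  have e : (fun t => gT t (fun a => Real.tanh a ^ 2)) = fun t => gT t Real.tanh :=
    funext fun t => (gT_tanh t).symm
  have hd2 : ∀ x, HasDerivAt (fun x => 1 - Real.tanh x ^ 2)
      (-(2 * Real.tanh x * (1 - Real.tanh x ^ 2))) x := fun x => by
    have := ((sc_tanh_deriv x).pow 2).const_sub 1
    refine this.congr_deriv ?_
    simp
  have h := gT_deriv (f := Real.tanh) (f' := fun x => 1 - Real.tanh x ^ 2)
    (f'' := fun x => -(2 * Real.tanh x * (1 - Real.tanh x ^ 2))) sc_tanh_deriv hd2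
    (by
      have := sc_tanh_cont
      fun_prop) (C := 2)
    (fun x => by
      have h1 := sc_tanh_sq x
      have h2 := sq_nonneg (Real.tanh x)
      rw [abs_of_nonneg (by linarith)]
      linarith)
    (fun x => by
      have h1 := sc_tanh_sq x
      have h2 := sq_nonneg (Real.tanh x)
      rw [abs_neg, abs_mul, abs_mul, abs_two, abs_of_nonneg (a := 1 - Real.tanh x ^ 2) (by linarith)]
      have h3 := sc_abs_tanh x
      have h4 := abs_nonneg (Real.tanh x)
      linarith only [mul_nonneg (sub_nonneg.2 h2) (sub_nonneg.2 h4), mul_nonneg (sub_nonneg.2 h3) (sub_nonneg.2 h3), mul_nonneg (sub_nonneg.2 h3) (sub_nonneg.2 h4)]) t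
  rw [e]
  refine h.congr_deriv ?_
  congr 1
  have i1 := sc_int_tanh_pow 1 t
  have i2 := sc_int_tanh_pow 2 t
  have i3 := sc_int_tanh_pow 3 t
  have i4 := sc_int_tanh_pow 4 t
  have i0 : Integrable (fun _ : ℝ => (1 : ℝ)) (gaussianReal 0 1) := integrable_const 1
  have e1 : gT t (fun a => 1 - Real.tanh a ^ 2 + -(2 * Real.tanh a * (1 - Real.tanh a ^ 2)) / 2) =
      1 - gT t (fun a => Real.tanh a ^ 2) - gT t (fun a => Real.tanh a ^ 1) +
        gT t (fun a => Real.tanh a ^ 3) := by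
    have e2 : (fun a => 1 - Real.tanh a ^ 2 + -(2 * Real.tanh a * (1 - Real.tanh a ^ 2)) / 2) =
        fun a => (1 - Real.tanh a ^ 2 - Real.tanh a ^ 1) + Real.tanh a ^ 3 := by
      funext a; ring
    rw [e2, gT_add (f := fun a => 1 - Real.tanh a ^ 2 - Real.tanh a ^ 1) ((i0.sub i2).sub i1) i3,
      gT_sub (f := fun a => 1 - Real.tanh a ^ 2) (i0.sub i2) i1,
      gT_sub (f := fun _ => 1) i0 i2, gT_const]
  have e3 : gT t (fun a => (1 - Real.tanh a ^ 2) ^ 2) =
      1 - gT t (fun a => Real.tanh a ^ 2) - gT t (fun a => Real.tanh a ^ 2) +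
        gT t (fun a => Real.tanh a ^ 4) := by
    have e2 : (fun a => (1 - Real.tanh a ^ 2) ^ 2) =
        fun a => (1 - Real.tanh a ^ 2 - Real.tanh a ^ 2) + Real.tanh a ^ 4 := by
      funext a; ring
    rw [e2, gT_add (f := fun a => 1 - Real.tanh a ^ 2 - Real.tanh a ^ 2) ((i0.sub i2).sub i2) i4,
      gT_sub (f := fun a => 1 - Real.tanh a ^ 2) (i0.sub i2) i2,
      gT_sub (f := fun _ => 1) i0 i2, gT_const]
  rw [e1, e3, ← gT_tanh3]
  have e4 : gT t (fun a => Real.tanh a ^ 1) = gT t (fun a => Real.tanh a ^ 2) := by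
    rw [← gT_tanh]; congr 1; funext a; ring
  rw [e4]

lemma gT_q' (t : ℝ) : 0 ≤ gT t (fun a => (1 - Real.tanh a ^ 2) ^ 2) ∧
    gT t (fun a => (1 - Real.tanh a ^ 2) ^ 2) ≤ 1 := by
  refine ⟨gT_nonneg (fun x => sq_nonneg _) t, ?_⟩
  refine (abs_le.1 (gT_abs_le (f := fun a => (1 - Real.tanh a ^ 2) ^ 2) (A := 1) ?_ ?_ t)).2
  · have := sc_tanh_cont
    fun_prop
  · intro x
    have h1 := sc_tanh_sq x
    have h2 := sq_nonneg (Real.tanh x)
    rw [abs_of_nonneg (sq_nonneg _)]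
    nlinarith

/-- monotonicity from the derivative on the half-line -/
lemma sc_mono_of {F F' : ℝ → ℝ} (h : ∀ t, HasDerivAt F (F' t) t) (h0 : ∀ t, 0 ≤ t → 0 ≤ F' t)
    {a b : ℝ} (ha : 0 ≤ a) (hab : a ≤ b) : F a ≤ F b := by
  have : MonotoneOn F (Set.Ici 0) := by
    refine monotoneOn_of_hasDerivWithinAt_nonneg (convex_Ici 0)
      (fun x _ => (h x).continuousAt.continuousWithinAt) (f' := F')
      (fun x _ => (h x).hasDerivWithinAt) ?_
    intro x hx
    rw [interior_Ici] at hx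
    exact h0 x (le_of_lt hx)
  exact this ha (ha.trans hab) hab

/-- monotonicity from the derivative on an interval -/
lemma sc_mono_on {F F' : ℝ → ℝ} {a b : ℝ} (h : ∀ t, HasDerivAt F (F' t) t)
    (h0 : ∀ t, a < t → t < b → 0 ≤ F' t) (hab : a ≤ b) : F a ≤ F b := by
  have : MonotoneOn F (Set.Icc a b) := by
    refine monotoneOn_of_hasDerivWithinAt_nonneg (convex_Icc a b)
      (fun x _ => (h x).continuousAt.continuousWithinAt) (f' := F')
      (fun x _ => (h x).hasDerivWithinAt) ?_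
    intro x hx
    rw [interior_Icc] at hx
    exact h0 x hx.1 hx.2
  exact this (Set.left_mem_Icc.2 hab) (Set.right_mem_Icc.2 hab) hab

/-- the overlap of the scalar channel -/
noncomputable def qS (γ : ℝ) : ℝ := gE γ (fun a => Real.tanh a ^ 2)

/-- the mutual information of the scalar channel -/
noncomputable def iS (γ : ℝ) : ℝ := γ - gE γ (fun a => Real.log (Real.cosh a))

lemma qS_eq {γ : ℝ} (h : 0 ≤ γ) : qS γ = gT (Real.sqrt γ) (fun a => Real.tanh a ^ 2) := gE_eq h _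

theorem qS_zero : qS 0 = 0 := by
  rw [qS_eq le_rfl, Real.sqrt_zero, gT_zero]
  simp

theorem qS_nonneg (γ : ℝ) : 0 ≤ qS γ := integral_nonneg fun _ => sq_nonneg _

theorem qS_mono_lip {γ γ' : ℝ} (h0 : 0 ≤ γ) (h : γ ≤ γ') :
    0 ≤ qS γ' - qS γ ∧ qS γ' - qS γ ≤ γ' - γ := by
  have h0' : 0 ≤ γ' := h0.trans h
  have hs := Real.sqrt_le_sqrt h
  have h1 := sc_mono_of gT_q_deriv (fun t ht => mul_nonneg (by linarith only [ht]) (gT_q' t).1)
    (Real.sqrt_nonneg γ) hs
  have h2 := sc_mono_of (F := fun t => t ^ 2 - gT t (fun a => Real.tanh a ^ 2))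
    (fun t => ((hasDerivAt_pow 2 t).sub (gT_q_deriv t))) (fun t ht => by
      have := (gT_q' t).2
      simp only [Nat.cast_ofNat, Nat.add_one_sub_one, pow_one]
      linarith only [mul_nonneg (sub_nonneg.2 ht) (sub_nonneg.2 this)]) (Real.sqrt_nonneg γ) hs
  simp only [Real.sq_sqrt h0, Real.sq_sqrt h0'] at h2
  rw [qS_eq h0, qS_eq h0']
  constructor <;> linarith

theorem qS_lt_one (γ : ℝ) : qS γ < 1 := by
  have hc : Continuous (fun x => 1 - Real.tanh (γ + Real.sqrt γ * x) ^ 2) := by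
    have := sc_tanh_cont
    fun_prop
  have i1 : Integrable (fun x => Real.tanh (γ + Real.sqrt γ * x) ^ 2) (gaussianReal 0 1) :=
    sc_int_bdd ((sc_tanh_pow_cont 2).comp (by fun_prop)) fun x => sc_tanh_pow_abs 2 _
  have i2 : Integrable (fun x => 1 - Real.tanh (γ + Real.sqrt γ * x) ^ 2) (gaussianReal 0 1) :=
    (integrable_const 1).sub i1
  have hpos : 0 < ∫ x, (1 - Real.tanh (γ + Real.sqrt γ * x) ^ 2) ∂(gaussianReal 0 1) := by
    rw [integral_pos_iff_support_of_nonneg (fun x => by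
      have := sc_tanh_sq (γ + Real.sqrt γ * x); simp only [Pi.zero_apply]; linarith) i2]
    have : Function.support (fun x => 1 - Real.tanh (γ + Real.sqrt γ * x) ^ 2) = Set.univ := by
      ext x
      simp only [Function.mem_support, Set.mem_univ, iff_true]
      have := Real.tanh_sq_lt_one (γ + Real.sqrt γ * x)
      linarith
    rw [this]
    simp
  rw [integral_sub (integrable_const 1) i1] at hpos
  simp only [integral_const, probReal_univ, smul_eq_mul, mul_one] at hpos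
  unfold qS gE
  linarith

/-! ### the mutual information -/

lemma gT_lc_deriv (t : ℝ) : HasDerivAt (fun t => gT t (fun a => Real.log (Real.cosh a)))
    (t * (1 + gT t (fun a => Real.tanh a ^ 2))) t := by
  have h := gT_deriv (f := fun a => Real.log (Real.cosh a)) (f' := Real.tanh)
    (f'' := fun x => 1 - Real.tanh x ^ 2) sc_logcosh_deriv sc_tanh_deriv
    (by
      have := sc_tanh_cont
      fun_prop) (C := 1) sc_abs_tanh
    (fun x => by
      have h1 := sc_tanh_sq x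
      have h2 := sq_nonneg (Real.tanh x)
      rw [abs_of_nonneg (by linarith)]
      linarith) t
  refine h.congr_deriv ?_
  have i1 := sc_int_tanh_pow 1 t
  have i2 := sc_int_tanh_pow 2 t
  have i0 : Integrable (fun _ : ℝ => (1 : ℝ)) (gaussianReal 0 1) := integrable_const 1
  have e1 : gT t (fun a => Real.tanh a + (1 - Real.tanh a ^ 2) / 2) =
      gT t (fun a => Real.tanh a ^ 1) + (1 / 2 : ℝ) * (1 - gT t (fun a => Real.tanh a ^ 2)) := by
    have e2 : (fun a => Real.tanh a + (1 - Real.tanh a ^ 2) / 2) =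
        fun a => Real.tanh a ^ 1 + (1 / 2 : ℝ) * (1 - Real.tanh a ^ 2) := by
      funext a; ring
    rw [e2, gT_add (g := fun a => (1 / 2 : ℝ) * (1 - Real.tanh a ^ 2)) i1
      ((i0.sub i2).const_mul _), gT_smul (1 / 2) (fun a => 1 - Real.tanh a ^ 2),
      gT_sub (f := fun _ => 1) i0 i2, gT_const]
  have e4 : gT t (fun a => Real.tanh a ^ 1) = gT t (fun a => Real.tanh a ^ 2) := by
    rw [← gT_tanh]; congr 1; funext a; ring
  rw [e1, e4]
  ring

/-- the mutual information in terms of the standard deviation -/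
noncomputable def iT (t : ℝ) : ℝ := t ^ 2 - gT t (fun a => Real.log (Real.cosh a))

lemma iT_deriv (t : ℝ) :
    HasDerivAt iT (t * (1 - gT t (fun a => Real.tanh a ^ 2))) t := by
  have h := (hasDerivAt_pow 2 t).sub (gT_lc_deriv t)
  refine h.congr_deriv ?_
  simp only [Nat.cast_ofNat, Nat.add_one_sub_one, pow_one]
  ring

lemma iS_eq {γ : ℝ} (h : 0 ≤ γ) : iS γ = iT (Real.sqrt γ) := by
  unfold iS iT
  rw [gE_eq h, Real.sq_sqrt h]

theorem iS_zero : iS 0 = 0 := by
  rw [iS_eq le_rfl, Real.sqrt_zero, iT, gT_zero]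
  simp

theorem iS_deriv {γ : ℝ} (h : 0 < γ) : HasDerivAt iS ((1 - qS γ) / 2) γ := by
  have h1 := (iT_deriv (Real.sqrt γ)).comp γ (Real.hasDerivAt_sqrt h.ne')
  have hs : 0 < Real.sqrt γ := Real.sqrt_pos.2 h
  refine (h1.congr_of_eventuallyEq ?_).congr_deriv ?_
  · filter_upwards [lt_mem_nhds h] with x hx
    exact iS_eq (le_of_lt hx)
  · rw [qS_eq h.le]
    field_simp

/-- the concavity estimate for the mutual information -/
theorem iS_sub {γ γ' : ℝ} (h0 : 0 ≤ γ) (h : γ ≤ γ') :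
    (1 - qS γ') / 2 * (γ' - γ) ≤ iS γ' - iS γ ∧ iS γ' - iS γ ≤ (1 - qS γ) / 2 * (γ' - γ) := by
  have h0' : 0 ≤ γ' := h0.trans h
  have hs := Real.sqrt_le_sqrt h
  have hm : ∀ a b : ℝ, 0 ≤ a → a ≤ b → gT a (fun a => Real.tanh a ^ 2) ≤
      gT b (fun a => Real.tanh a ^ 2) := fun a b ha hab =>
    sc_mono_of gT_q_deriv (fun t ht => mul_nonneg (by linarith only [ht]) (gT_q' t).1) ha hab
  have h1 := sc_mono_on (F := fun t => iT t - (1 - qS γ') / 2 * t ^ 2)
    (F' := fun t => t * (1 - gT t (fun a => Real.tanh a ^ 2)) - (1 - qS γ') / 2 * (2 * t))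
    (a := Real.sqrt γ) (b := Real.sqrt γ')
    (fun t => (iT_deriv t).sub (by
      have := (hasDerivAt_pow 2 t).const_mul ((1 - qS γ') / 2)
      simpa using this)) (fun t ht1 ht2 => by
        have hp : 0 ≤ t := (Real.sqrt_nonneg γ).trans ht1.le
        have := hm t (Real.sqrt γ') hp ht2.le
        rw [← qS_eq h0'] at this
        have h3 := mul_nonneg hp (sub_nonneg.2 this)
        linarith only [h3]) hs
  have h2 := sc_mono_on (F := fun t => (1 - qS γ) / 2 * t ^ 2 - iT t)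
    (F' := fun t => (1 - qS γ) / 2 * (2 * t) - t * (1 - gT t (fun a => Real.tanh a ^ 2)))
    (a := Real.sqrt γ) (b := Real.sqrt γ')
    (fun t => (by
      have := (hasDerivAt_pow 2 t).const_mul ((1 - qS γ) / 2)
      simpa using this : HasDerivAt (fun t => (1 - qS γ) / 2 * t ^ 2)
        ((1 - qS γ) / 2 * (2 * t)) t).sub (iT_deriv t)) (fun t ht1 ht2 => by
        have hp : 0 ≤ t := (Real.sqrt_nonneg γ).trans ht1.le
        have := hm (Real.sqrt γ) t (Real.sqrt_nonneg γ) ht1.le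
        rw [← qS_eq h0] at this
        have h3 := mul_nonneg hp (sub_nonneg.2 this)
        linarith only [h3]) hs
  simp only [Real.sq_sqrt h0, Real.sq_sqrt h0', ← iS_eq h0, ← iS_eq h0'] at h1 h2
  constructor <;> linarith

end Vale.Agent.P150.F
end

section

/-!
The replica symmetric fixed point and the calculus of the entropy along the path.
-/

open MeasureTheory ProbabilityTheory Filter Topology

namespace Vale.Agent.P150.F

/-- effective signal-to-noise ratio at time `s` with overlap `q` -/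
noncomputable def gS (β κ s q : ℝ) : ℝ := β ^ 2 + s * κ - (β - s) ^ 2 * (1 - q)

section

variable {β κ s : ℝ}

lemma gS_nonneg (hs0 : 0 ≤ s) (hsβ : s ≤ β) (hκ : 0 ≤ κ) {q : ℝ} (hq : 0 ≤ q) :
    0 ≤ gS β κ s q := by
  unfold gS
  have h1 : 0 ≤ s * κ := mul_nonneg hs0 hκ
  have h2 : 0 ≤ (β - s) ^ 2 * q := mul_nonneg (sq_nonneg _) hq
  have h3 : 0 ≤ s * (2 * β - s) := mul_nonneg hs0 (by linarith only [hsβ, hs0])
  linarith only [h1, h2, h3]

lemma gS_sub (q q' : ℝ) : gS β κ s q' - gS β κ s q = (β - s) ^ 2 * (q' - q) := by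
  unfold gS; ring

lemma gS_mono {q q' : ℝ} (h : q ≤ q') : gS β κ s q ≤ gS β κ s q' := by
  have := gS_sub (β := β) (κ := κ) (s := s) q q'
  have h2 : 0 ≤ (β - s) ^ 2 * (q' - q) := mul_nonneg (sq_nonneg _) (by linarith)
  linarith only [h2, this]

lemma gS_r2 (hs0 : 0 ≤ s) (hsβ : s ≤ β) : (β - s) ^ 2 ≤ β ^ 2 := by linarith only [mul_nonneg (sub_nonneg.2 hs0) (sub_nonneg.2 hsβ), mul_nonneg (sub_nonneg.2 hs0) (sub_nonneg.2 hs0)]

/-- the recursion map is monotone and a contraction -/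
lemma gS_contr (hs0 : 0 ≤ s) (hsβ : s ≤ β) (hκ : 0 ≤ κ) {q q' : ℝ} (hq : 0 ≤ q) (h : q ≤ q') :
    0 ≤ qS (gS β κ s q') - qS (gS β κ s q) ∧
      qS (gS β κ s q') - qS (gS β κ s q) ≤ (β - s) ^ 2 * (q' - q) := by
  have h1 := qS_mono_lip (gS_nonneg hs0 hsβ hκ hq) (gS_mono (β := β) (κ := κ) (s := s) h)
  rw [gS_sub] at h1
  exact h1

lemma gS_contr' (hs0 : 0 ≤ s) (hsβ : s ≤ β) (hκ : 0 ≤ κ) {q q' : ℝ} (hq : 0 ≤ q) (h : q ≤ q') :
    qS (gS β κ s q') - qS (gS β κ s q) ≤ β ^ 2 * (q' - q) :=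
  (gS_contr hs0 hsβ hκ hq h).2.trans (mul_le_mul_of_nonneg_right (gS_r2 hs0 hsβ) (by linarith))

lemma qF_exists (hs0 : 0 ≤ s) (hsβ : s ≤ β) (hκ : 0 ≤ κ) :
    ∃ q ∈ Set.Icc (0 : ℝ) 1, qS (gS β κ s q) = q := by
  have hc : ContinuousOn (fun q => qS (gS β κ s q)) (Set.Icc 0 1) := by
    have : LipschitzOnWith (Real.toNNReal (β ^ 2)) (fun q => qS (gS β κ s q)) (Set.Icc 0 1) := by
      refine LipschitzOnWith.of_dist_le_mul fun x hx y hy => ?_
      rw [Real.coe_toNNReal _ (sq_nonneg β), Real.dist_eq, Real.dist_eq]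
      rcases le_total x y with h | h
      · have h1 := gS_contr hs0 hsβ hκ hx.1 h
        have h2 := gS_contr' hs0 hsβ hκ hx.1 h
        rw [abs_sub_comm, abs_of_nonneg h1.1, abs_sub_comm x y, abs_of_nonneg (by linarith)]
        exact h2
      · have h1 := gS_contr hs0 hsβ hκ hy.1 h
        have h2 := gS_contr' hs0 hsβ hκ hy.1 h
        rw [abs_of_nonneg h1.1, abs_of_nonneg (by linarith)]
        exact h2
    exact this.continuousOn
  exact exists_mem_Icc_isFixedPt_of_mapsTo hc zero_le_one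
    (fun x _ => ⟨qS_nonneg _, (qS_lt_one _).le⟩)

open Classical in
/-- the replica symmetric overlap at time `s` -/
noncomputable def qF (β κ s : ℝ) : ℝ :=
  if h : ∃ q ∈ Set.Icc (0 : ℝ) 1, qS (gS β κ s q) = q then h.choose else 0

lemma qF_spec (hs0 : 0 ≤ s) (hsβ : s ≤ β) (hκ : 0 ≤ κ) :
    0 ≤ qF β κ s ∧ qF β κ s ≤ 1 ∧ qS (gS β κ s (qF β κ s)) = qF β κ s := by
  have h := qF_exists hs0 hsβ hκ
  have e : qF β κ s = h.choose := by
    unfold qF
    rw [dif_pos h]
  rw [e]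
  exact ⟨h.choose_spec.1.1, h.choose_spec.1.2, h.choose_spec.2⟩

/-- comparison with the fixed point -/
lemma qF_cmp (hs0 : 0 ≤ s) (hsβ : s ≤ β) (hβ : β < 1) (hκ : 0 ≤ κ) {q : ℝ} (hq : 0 ≤ q) :
    (q ≤ qF β κ s → q ≤ qS (gS β κ s q)) ∧ (qF β κ s ≤ q → qS (gS β κ s q) ≤ q) := by
  obtain ⟨h0, h1, h2⟩ := qF_spec hs0 hsβ hκ
  have hb : (β - s) ^ 2 ≤ 1 := by nlinarith
  constructor
  · intro h
    have h3 := (gS_contr hs0 hsβ hκ hq h).2
    rw [h2] at h3
    have h4 := mul_le_mul_of_nonneg_right hb (sub_nonneg.2 h)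
    linarith only [h4, h3]
  · intro h
    have h3 := (gS_contr hs0 hsβ hκ h0 h).2
    rw [h2] at h3
    have h4 := mul_le_mul_of_nonneg_right hb (sub_nonneg.2 h)
    linarith only [h4, h3]

/-- stability of the fixed point -/
lemma qF_stab (hs0 : 0 ≤ s) (hsβ : s ≤ β) (hκ : 0 ≤ κ) {q : ℝ} (hq : 0 ≤ q) :
    (1 - β ^ 2) * |q - qF β κ s| ≤ |q - qS (gS β κ s q)| := by
  obtain ⟨h0, h1, h2⟩ := qF_spec hs0 hsβ hκ
  rcases le_total q (qF β κ s) with h | h
  · have h3 := gS_contr' hs0 hsβ hκ hq h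
    have h4 := (gS_contr hs0 hsβ hκ hq h).1
    rw [h2] at h3 h4
    rw [abs_sub_comm, abs_of_nonneg (sub_nonneg.2 h)]
    have := neg_abs_le (q - qS (gS β κ s q))
    linarith only [this, h3]
  · have h3 := gS_contr' hs0 hsβ hκ h0 h
    rw [h2] at h3
    rw [abs_of_nonneg (sub_nonneg.2 h)]
    have := le_abs_self (q - qS (gS β κ s q))
    linarith only [this, h3]

theorem qF_unique (hs0 : 0 ≤ s) (hsβ : s ≤ β) (hβ : β < 1) (hκ : 0 ≤ κ) {q : ℝ}
    (hq : 0 ≤ q) (h : qS (gS β κ s q) = q) : q = qF β κ s := by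
  have h1 := qF_stab hs0 hsβ hκ hq
  rw [h, sub_self, abs_zero] at h1
  have h2 : 0 < 1 - β ^ 2 := by (by_contra nlg; linarith only [mul_nonneg (sub_nonneg.2 (not_lt.1 nlg)) (sub_nonneg.2 hs0), mul_nonneg (sub_nonneg.2 (not_lt.1 nlg)) (sub_nonneg.2 hsβ), mul_nonneg (sub_nonneg.2 (not_lt.1 nlg)) (le_of_lt (sub_pos.2 hβ)), mul_nonneg (sub_nonneg.2 hs0) (le_of_lt (sub_pos.2 hβ)), mul_nonneg (sub_nonneg.2 hsβ) (le_of_lt (sub_pos.2 hβ)), mul_pos (sub_pos.2 hβ) (sub_pos.2 hβ)])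
  have h3 : |q - qF β κ s| ≤ 0 := by
    by_contra hne
    push Not at hne
    linarith only [h1, mul_pos h2 hne]
  have := abs_nonpos_iff.1 h3
  linarith

theorem qF_zero (hβ0 : 0 ≤ β) (hβ : β < 1) (hκ : 0 ≤ κ) : qF β κ 0 = 0 := by
  symm
  refine qF_unique le_rfl hβ0 hβ hκ le_rfl ?_
  have : gS β κ 0 0 = 0 := by unfold gS; ring
  rw [this, qS_zero]

end

/-! ### the RS functional -/

/-- the RS functional -/
noncomputable def phiRS (β κ s q : ℝ) : ℝ := iS (gS β κ s q) + (β - s) ^ 2 / 4 * (1 - q) ^ 2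

lemma iT_cont : Continuous iT :=
  continuous_iff_continuousAt.2 fun x => (iT_deriv x).continuousAt

lemma iS_contOn : ContinuousOn iS (Set.Ici 0) :=
  (iT_cont.comp Real.continuous_sqrt).continuousOn.congr fun _ hx => iS_eq hx

lemma sc_mono_in {F F' : ℝ → ℝ} {a b : ℝ} (hc : ContinuousOn F (Set.Icc a b))
    (h : ∀ t, a < t → t < b → HasDerivAt F (F' t) t)
    (h0 : ∀ t, a < t → t < b → 0 ≤ F' t) (hab : a ≤ b) : F a ≤ F b := by
  have : MonotoneOn F (Set.Icc a b) := by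
    refine monotoneOn_of_hasDerivWithinAt_nonneg (convex_Icc a b) hc (f' := F')
      (fun x hx => ?_) ?_
    · rw [interior_Icc] at hx
      exact (h x hx.1 hx.2).hasDerivWithinAt
    · intro x hx
      rw [interior_Icc] at hx
      exact h0 x hx.1 hx.2
  exact this (Set.left_mem_Icc.2 hab) (Set.right_mem_Icc.2 hab) hab

lemma phiRS_deriv {β κ s : ℝ} (hs0 : 0 ≤ s) (hsβ : s < β) (hκ : 0 ≤ κ) {q : ℝ} (hq : 0 < q) :
    HasDerivAt (phiRS β κ s) ((β - s) ^ 2 / 2 * (q - qS (gS β κ s q))) q := by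
  have hg : 0 < gS β κ s q := by
    have h1 := gS_nonneg (β := β) (κ := κ) hs0 hsβ.le hκ (le_refl (0 : ℝ))
    have h2 := gS_sub (β := β) (κ := κ) (s := s) 0 q
    have h3 : 0 < (β - s) ^ 2 * (q - 0) := mul_pos (by linarith only [mul_pos (sub_pos.2 hsβ) (sub_pos.2 hsβ)]) (by linarith)
    linarith only [h3, h2, h1]
  have h1 : HasDerivAt (gS β κ s) ((β - s) ^ 2) q := by
    have := (((hasDerivAt_id q).const_sub 1).const_mul ((β - s) ^ 2)).const_sub (β ^ 2 + s * κ)
    refine this.congr_deriv ?_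
    simp
  have h2 := (iS_deriv hg).comp q h1
  have h3 : HasDerivAt (fun q : ℝ => (β - s) ^ 2 / 4 * (1 - q) ^ 2)
      ((β - s) ^ 2 / 4 * (2 * (1 - q) * -1)) q := by
    have := (((hasDerivAt_id q).const_sub 1).pow 2).const_mul ((β - s) ^ 2 / 4)
    refine this.congr_deriv ?_
    simp
  refine (h2.add h3).congr_deriv ?_
  ring

lemma phiRS_contOn {β κ s : ℝ} (hs0 : 0 ≤ s) (hsβ : s ≤ β) (hκ : 0 ≤ κ) :
    ContinuousOn (phiRS β κ s) (Set.Ici 0) := by
  have h1 : Continuous (gS β κ s) := by unfold gS; fun_prop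
  have h2 : Continuous (fun q : ℝ => (β - s) ^ 2 / 4 * (1 - q) ^ 2) := by fun_prop
  exact (iS_contOn.comp h1.continuousOn fun q hq => gS_nonneg hs0 hsβ hκ hq).add h2.continuousOn

/-- the fixed point minimises the RS functional -/
lemma phiRS_min {β κ s : ℝ} (hs0 : 0 ≤ s) (hsβ : s ≤ β) (hβ : β < 1) (hκ : 0 ≤ κ) {q : ℝ}
    (hq : 0 ≤ q) : phiRS β κ s (qF β κ s) ≤ phiRS β κ s q := by
  obtain ⟨h0, h1, h2⟩ := qF_spec hs0 hsβ hκ
  have hr : 0 ≤ (β - s) ^ 2 / 2 := by (clear * -; positivity)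
  rcases hsβ.eq_or_lt with rfl | hlt
  · unfold phiRS gS
    simp
  have hc := phiRS_contOn hs0 hsβ hκ
  rcases le_total q (qF β κ s) with h | h
  · have := sc_mono_in (F := fun x => - phiRS β κ s x)
      (F' := fun x => -((β - s) ^ 2 / 2 * (x - qS (gS β κ s x)))) (a := q) (b := qF β κ s)
      (hc.neg.mono fun x hx => hq.trans hx.1)
      (fun x hx _ => (phiRS_deriv hs0 hlt hκ (lt_of_le_of_lt hq hx)).neg)
      (fun x hx hx' => by
        have h5 := (qF_cmp hs0 hsβ hβ hκ (hq.trans hx.le)).1 hx'.le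
        have := mul_nonneg hr (sub_nonneg.2 h5)
        linarith only [this]) h
    linarith only [this]
  · exact sc_mono_in (F := phiRS β κ s)
      (F' := fun x => (β - s) ^ 2 / 2 * (x - qS (gS β κ s x))) (a := qF β κ s) (b := q)
      (hc.mono fun x hx => h0.trans hx.1)
      (fun x hx _ => phiRS_deriv hs0 hlt hκ (lt_of_le_of_lt h0 hx))
      (fun x hx _ => by
        have h5 := (qF_cmp hs0 hsβ hβ hκ (h0.trans hx.le)).2 hx.le
        exact mul_nonneg hr (sub_nonneg.2 h5)) h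

/-- the increment of the RS value -/
lemma phiRS_step {β κ s s' : ℝ} (hs0 : 0 ≤ s) (hss : s ≤ s') (hsβ : s' ≤ β) (hβ : β < 1)
    (hκ : 0 ≤ κ) :
    phiRS β κ s' (qF β κ s') ≤ phiRS β κ s (qF β κ s) +
      (s' - s) / 2 * (κ * (1 - qF β κ s) + (β - s) * (1 - qF β κ s) ^ 2) := by
  obtain ⟨h0, h1, h2⟩ := qF_spec hs0 (hss.trans hsβ) hκ
  refine (phiRS_min (hs0.trans hss) hsβ hβ hκ h0).trans ?_
  set q := qF β κ s with hqdef
  have hd : gS β κ s' q - gS β κ s q =
      (s' - s) * κ + (s' - s) * (2 * (β - s) - (s' - s)) * (1 - q) := by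
    unfold gS; ring
  have hle : gS β κ s q ≤ gS β κ s' q := by
    have h3 : 0 ≤ (s' - s) * κ := mul_nonneg (by linarith only [hss]) hκ
    have h4 : 0 ≤ (s' - s) * (2 * (β - s) - (s' - s)) * (1 - q) :=
      mul_nonneg (mul_nonneg (by linarith) (by linarith only [hsβ, hss])) (by linarith only [h1])
    linarith only [h4, h3, hd]
  have h3 := (iS_sub (gS_nonneg hs0 (hss.trans hsβ) hκ h0) hle).2
  rw [h2, hd] at h3
  unfold phiRS
  have h4 : 0 ≤ (s' - s) ^ 2 * (1 - q) ^ 2 := by (clear * -; positivity)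
  linarith only [h3, h4]

lemma phiRS_zero {β κ : ℝ} (hβ0 : 0 ≤ β) (hβ : β < 1) (hκ : 0 ≤ κ) :
    phiRS β κ 0 (qF β κ 0) = β ^ 2 / 4 := by
  rw [qF_zero hβ0 hβ hκ]
  have : gS β κ 0 0 = 0 := by unfold gS; ring
  rw [phiRS, this, iS_zero]
  ring

lemma phiRS_end {β κ q : ℝ} : phiRS β κ β q = iS (β ^ 2 + β * κ) := by
  have : gS β κ β q = β ^ 2 + β * κ := by unfold gS; ring
  rw [phiRS, this]
  ring

/-- the discretised RS calculus (no error term), for a general partition -/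
theorem rs_calc_part {β κ : ℝ} (hβ : β < 1) (hκ : 0 ≤ κ) (N : ℕ)
    (s : ℕ → ℝ) (hs0 : s 0 = 0) (hsN : s N = β) (hs : Monotone s) :
    iS (β ^ 2 + β * κ) - β ^ 2 / 4 ≤ ∑ j ∈ Finset.range N, (s (j + 1) - s j) / 2 *
      (κ * (1 - qF β κ (s j)) + (β - s j) * (1 - qF β κ (s j)) ^ 2) := by
  have hβ0 : 0 ≤ β := by rw [← hs0, ← hsN]; exact hs (Nat.zero_le N)
  have key : ∀ k ≤ N, phiRS β κ (s k) (qF β κ (s k)) - β ^ 2 / 4 ≤
      ∑ j ∈ Finset.range k, (s (j + 1) - s j) / 2 *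
        (κ * (1 - qF β κ (s j)) + (β - s j) * (1 - qF β κ (s j)) ^ 2) := by
    intro k
    induction k with
    | zero =>
      intro _
      rw [hs0, phiRS_zero hβ0 hβ hκ]
      simp
    | succ k ih =>
      intro hk
      have h1 := ih (by omega)
      have h2 : 0 ≤ s k := by rw [← hs0]; exact hs (Nat.zero_le k)
      have h3 : s (k + 1) ≤ β := by rw [← hsN]; exact hs hk
      have h4 := phiRS_step h2 (hs (Nat.le_succ k)) h3 hβ hκ
      rw [Finset.sum_range_succ]
      linarith only [h4, h1]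
  have h := key N le_rfl
  rw [hsN, phiRS_end] at h
  exact h

/-- the discretised RS calculus, uniform partition -/
theorem rs_calc {β κ : ℝ} (hβ0 : 0 ≤ β) (hβ : β < 1) (hκ : 0 ≤ κ) {N : ℕ} (hN : 1 ≤ N) :
    iS (β ^ 2 + β * κ) - β ^ 2 / 4 ≤ ∑ j ∈ Finset.range N, β / N / 2 *
      (κ * (1 - qF β κ (j * (β / N))) +
        (β - j * (β / N)) * (1 - qF β κ (j * (β / N))) ^ 2) := by
  have hN' : (N : ℝ) ≠ 0 := by positivity
  have h := rs_calc_part (β := β) (κ := κ) hβ hκ N (fun j => j * (β / N)) (by simp)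
    (by field_simp) (fun a b hab => by
      have : (a : ℝ) ≤ b := by exact_mod_cast hab
      exact mul_le_mul_of_nonneg_right this (by (clear * - hβ0 hN; positivity)))
  refine h.trans (le_of_eq (Finset.sum_congr rfl fun j _ => ?_))
  push_cast
  ring

end Vale.Agent.P150.F
end

section

/-! Interface statements of module D3M (entropy along the `J`-killing path), helper555. -/

open MeasureTheory ProbabilityTheory Filter Topology Real
open scoped Matrix

namespace Vale.Agent.P150.F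

/-- `tr (Q Cov ν)` -/
noncomputable def trQ {n : ℕ} (Q : Mat n) (ν : Cfg n → ℝ) : ℝ := ∑ i, (Q * covM ν) i i

/-- D3M-1: entropy along the path `y_s = s Q σ + √s R g` (CH3 and composition of channels) -/
def D3M1 : Prop :=
  ∀ (n m : ℕ) (R : Matrix (Fin n) (Fin m) ℝ) (s : ℝ), 0 ≤ s → ∀ ν : Cfg n → ℝ, IsProb ν →
    ∀ ε > 0, ∃ N₀ : ℕ, ∀ N ≥ N₀, 1 ≤ N →
      (∑ j ∈ Finset.range N, s / N / 2 *
          EC ν R (j * (s / N)) (fun _ y => trQ (R * Rᵀ) (pst ν (R * Rᵀ) (j * (s / N)) y)))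
        + EC ν R s (fun _ y => HS (pst ν (R * Rᵀ) s y)) ≤ HS ν + ε

/-- D3M-2,3: lower bound on the MMSE at time `s ≤ β - r₀` -/
def D3M23 : Prop := ∀ (β : ℝ), 0 ≤ β → β < 1 → ∀ (κ : ℝ), 4 ≤ κ →
  ∀ {I : Type} (F : Filter I) (n : I → ℕ) (J : ∀ i, Mat (n i)), Good β F n J →
    ∀ r₀ > 0, ∀ ε > 0, ∃ η > 0, ∀ᶠ i in F, ∀ s : ℝ, 0 ≤ s → s ≤ β - r₀ →
      ∀ R : Mat (n i), R * Rᵀ = J i + κ • (1 : Mat (n i)) →
      ∀ ν : Cfg (n i) → ℝ, IsProb ν → (∀ x, 0 < ν x) →
      IP' ν (gM (β • J i) 0) ≤ η * n i →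
        n i * (κ * (1 - qF β κ s) + (β - s) * (1 - qF β κ s) ^ 2 - ε)
          ≤ EC ν R s (fun _ y => trQ (R * Rᵀ) (pst ν (R * Rᵀ) s y))

/-- D3M-4: lower bound on the entropy at the end of the path -/
def D3M4 : Prop := ∀ (β : ℝ), 0 ≤ β → β < 1 → ∀ (κ : ℝ), 4 ≤ κ →
  ∀ {I : Type} (F : Filter I) (n : I → ℕ) (J : ∀ i, Mat (n i)), Good β F n J →
    ∀ ε > 0, ∃ η > 0, ∀ᶠ i in F,
      ∀ R : Mat (n i), R * Rᵀ = J i + κ • (1 : Mat (n i)) →
      ∀ ν : Cfg (n i) → ℝ, IsProb ν → (∀ x, 0 < ν x) →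
      IP' ν (gM (β • J i) 0) ≤ η * n i →
        n i * (Real.log 2 - iS (β ^ 2 + β * κ) - ε)
          ≤ EC ν R β (fun _ y => HS (pst ν (R * Rᵀ) β y))

/-- D3M-5: the energy of near-DLR laws in zero field -/
def D3M5 : Prop := ∀ (β : ℝ), 0 ≤ β → β < 1 →
  ∀ {I : Type} (F : Filter I) (n : I → ℕ) (J : ∀ i, Mat (n i)), Good β F n J →
    ∀ ε > 0, ∃ η > 0, ∀ᶠ i in F, ∀ ν : Cfg (n i) → ℝ, IsProb ν →
      dlr (β • J i) 0 ν ≤ η * n i →
        |β * Ex ν (fun x => qf (J i) (sv x)) - β ^ 2 * n i| ≤ ε * n i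

end Vale.Agent.P150.F
end

section

/-!
Dictionary between `Scal` (`qS`, `iS`, `gk`, `qF`) and `ScalarRS` (`qRS`, `iRS`, `gam`, `qst`).
-/

open MeasureTheory ProbabilityTheory Filter Topology

namespace Vale.Agent.P150.F

theorem iS_eq_iRS (γ : ℝ) : iS γ = iRS γ := rfl

theorem qS_eq_qRS {γ : ℝ} (h : 0 ≤ γ) : qS γ = qRS γ := by
  rw [qRS_eq h]
  rfl

theorem qF_eq_qst {β κ s : ℝ} (hβ0 : 0 ≤ β) (hβ : β < 1) (hκ : 0 ≤ κ) (hs0 : 0 ≤ s)
    (hsβ : s ≤ β) : qF β κ s = qst β κ s := by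
  symm
  refine qF_unique hs0 hsβ hβ hκ (qst_nonneg hκ ⟨hs0, hsβ⟩) ?_
  have h1 := gst_eq hκ (show s ∈ Set.Icc 0 β from ⟨hs0, hsβ⟩)
  have h2 : gS β κ s (qst β κ s) = gst β κ s := by
    unfold gS qst
    exact h1.symm
  rw [h2, qS_eq_qRS (gst_nonneg hκ ⟨hs0, hsβ⟩)]
  rfl

end Vale.Agent.P150.F
end
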