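import Mathlib
import Vale.Agent.P150.Bdl.B11
import Vale.Agent.P150.Bdl.B9
import Vale.Agent.P150.Bdl.B13
import Vale.Agent.P150.Bdl.B1
import Vale.Agent.P150.Bdl.B6

set_option linter.all false

section

/-! G5 (uniform count in windows): Sudakov-Fernique for frames, concentration. -/

open MeasureTheory ProbabilityTheory Filter Topology Set
open scoped Matrix

namespace Vale.Agent.P150.F

variable {n k : ℕ}

/-! ### the linear forms -/

/-- entries of the projection to a frame -/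
def PV (V : Fin k → Vec n) (i j : Fin n) : ℝ := ∑ a, V a i * V a j

/-- coefficients of the quadratic form of a frame -/
noncomputable def cV (r : ℝ) (V : Fin k → Vec n) (e : Pairs n) : ℝ :=
  2 * r / √n * PV V e.1.1 e.1.2

/-- coefficients of the comparison process -/
noncomputable def bV (r : ℝ) (V : Fin k → Vec n) (e : Fin k × Fin n) : ℝ :=
  2 * r / √n * V e.1 e.2

lemma PV_comm (V : Fin k → Vec n) (i j : Fin n) : PV V i j = PV V j i :=
  Finset.sum_congr rfl fun _ _ => mul_comm _ _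

lemma qf_skM_pairs (g : Pairs n → ℝ) (v : Vec n) :
    qf (skM g) v = ∑ e : Pairs n, 2 / √n * (v e.1.1 * v e.1.2) * g e := by
  rw [qf_eq_sum, sum_pairs]
  simp only [skM_self, zero_mul, Finset.sum_const_zero, add_zero]
  refine Finset.sum_congr rfl fun e _ => ?_
  unfold skM
  rw [gsym_pair, gsym_pair']
  ring

lemma sum_qf (r : ℝ) (V : Fin k → Vec n) (g : Pairs n → ℝ) :
    ∑ a, r * qf (skM g) (V a) = ∑ e, cV r V e * g e := by
  simp_rw [qf_skM_pairs, Finset.mul_sum]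
  rw [Finset.sum_comm]
  refine Finset.sum_congr rfl fun e _ => ?_
  rw [cV, PV, Finset.mul_sum, Finset.sum_mul]
  exact Finset.sum_congr rfl fun a _ => by ring

lemma Exc_eq {r L ρ : ℝ} (g : Pairs n → ℝ) (p : Vec n) (V : Fin k → Vec n) :
    Exc r L ρ (skM g) p V = (∑ e, cV r V e * g e) - ∑ a, Lam L ρ p (V a) := by
  rw [Exc, Finset.sum_sub_distrib, sum_qf]

/-! ### increments -/

lemma sum_PV_mul (V V' : Fin k → Vec n) :
    ∑ i, ∑ j, PV V i j * PV V' i j = ∑ a, ∑ b, ip (V a) (V' b) ^ 2 := by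
  have h1 : ∀ i j, PV V i j * PV V' i j = ∑ a, ∑ b, (V a i * V' b i) * (V a j * V' b j) := by
    intro i j
    rw [PV, PV, Finset.sum_mul_sum]
    exact Finset.sum_congr rfl fun a _ => Finset.sum_congr rfl fun b _ => by ring
  simp_rw [h1]
  have h2 : ∀ a b, ip (V a) (V' b) ^ 2 = ∑ i, ∑ j, (V a i * V' b i) * (V a j * V' b j) := by
    intro a b
    rw [ip, pow_two, Finset.sum_mul_sum]
  simp_rw [h2]
  calc ∑ i, ∑ j, ∑ a, ∑ b, (V a i * V' b i) * (V a j * V' b j)
      = ∑ i, ∑ a, ∑ j, ∑ b, (V a i * V' b i) * (V a j * V' b j) :=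
        Finset.sum_congr rfl fun i _ => Finset.sum_comm
    _ = ∑ a, ∑ i, ∑ j, ∑ b, (V a i * V' b i) * (V a j * V' b j) := Finset.sum_comm
    _ = ∑ a, ∑ i, ∑ b, ∑ j, (V a i * V' b i) * (V a j * V' b j) :=
        Finset.sum_congr rfl fun a _ => Finset.sum_congr rfl fun i _ => Finset.sum_comm
    _ = ∑ a, ∑ b, ∑ i, ∑ j, (V a i * V' b i) * (V a j * V' b j) :=
        Finset.sum_congr rfl fun a _ => Finset.sum_comm

lemma two_sum_pairs_le {F : Fin n → Fin n → ℝ} (hs : ∀ i j, F i j = F j i)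
    (h0 : ∀ i j, 0 ≤ F i j) : 2 * ∑ e : Pairs n, F e.1.1 e.1.2 ≤ ∑ i, ∑ j, F i j := by
  rw [sum_pairs, Finset.mul_sum]
  have h1 : ∑ e : Pairs n, 2 * F e.1.1 e.1.2 = ∑ e : Pairs n, (F e.1.1 e.1.2 + F e.1.2 e.1.1) :=
    Finset.sum_congr rfl fun e _ => by rw [hs e.1.2 e.1.1]; ring
  rw [h1]
  exact le_add_of_nonneg_right (Finset.sum_nonneg fun i _ => h0 i i)

lemma Frame.sum_sq {V : Fin k → Vec n} (h : Frame V) :
    ∑ a, ∑ b, ip (V a) (V b) ^ 2 = k := by
  have : ∀ a b, ip (V a) (V b) ^ 2 = if a = b then 1 else 0 := by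
    intro a b
    rw [h a b]
    split_ifs <;> norm_num
  simp_rw [this]
  simp

lemma cV_norm {r : ℝ} {V : Fin k → Vec n} (h : Frame V) :
    ∑ e, cV r V e ^ 2 ≤ 2 * r ^ 2 / n * k := by
  have h1 : ∑ e, cV r V e ^ 2 = (2 * r / √n) ^ 2 * ∑ e : Pairs n, PV V e.1.1 e.1.2 ^ 2 := by
    rw [Finset.mul_sum]
    exact Finset.sum_congr rfl fun e _ => by rw [cV, mul_pow]
  have h2 := two_sum_pairs_le (F := fun i j => PV V i j ^ 2) (fun i j => by rw [PV_comm])
    (fun i j => sq_nonneg _)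
  have h3 : ∑ i, ∑ j, PV V i j ^ 2 = k := by
    rw [← h.sum_sq, ← sum_PV_mul]
    exact Finset.sum_congr rfl fun i _ => Finset.sum_congr rfl fun j _ => pow_two _
  rw [h1, div_pow, Real.sq_sqrt (Nat.cast_nonneg n)]
  rw [h3] at h2
  calc (2 * r) ^ 2 / (n : ℝ) * ∑ e : Pairs n, PV V e.1.1 e.1.2 ^ 2
      = 2 * r ^ 2 / n * (2 * ∑ e : Pairs n, PV V e.1.1 e.1.2 ^ 2) := by ring
    _ ≤ 2 * r ^ 2 / n * k := mul_le_mul_of_nonneg_left h2 (by (clear * -; positivity))

lemma inc_le {r : ℝ} {V V' : Fin k → Vec n} (h : Frame V) (h' : Frame V') :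
    ∑ e, (cV r V e - cV r V' e) ^ 2 ≤ ∑ e, (bV r V e - bV r V' e) ^ 2 := by
  have h1 : ∑ e, (cV r V e - cV r V' e) ^ 2
      = (2 * r / √n) ^ 2 * ∑ e : Pairs n, (PV V e.1.1 e.1.2 - PV V' e.1.1 e.1.2) ^ 2 := by
    rw [Finset.mul_sum]
    exact Finset.sum_congr rfl fun e _ => by rw [cV, cV, ← mul_sub, mul_pow]
  have h2 := two_sum_pairs_le (F := fun i j => (PV V i j - PV V' i j) ^ 2)
    (fun i j => by rw [PV_comm V, PV_comm V']) (fun i j => sq_nonneg _)
  have h3 : ∑ i, ∑ j, (PV V i j - PV V' i j) ^ 2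
      = 2 * k - 2 * ∑ a, ∑ b, ip (V a) (V' b) ^ 2 := by
    have e1 := h.sum_sq
    have e2 := h'.sum_sq
    rw [← sum_PV_mul] at e1 e2
    rw [← sum_PV_mul]
    have : ∑ i, ∑ j, (PV V i j - PV V' i j) ^ 2 = ∑ i, ∑ j, PV V i j * PV V i j
        + ∑ i, ∑ j, PV V' i j * PV V' i j - 2 * ∑ i, ∑ j, PV V i j * PV V' i j := by
      rw [Finset.mul_sum, ← Finset.sum_add_distrib, ← Finset.sum_sub_distrib]
      refine Finset.sum_congr rfl fun i _ => ?_
      rw [Finset.mul_sum, ← Finset.sum_add_distrib, ← Finset.sum_sub_distrib]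
      exact Finset.sum_congr rfl fun j _ => by ring
    rw [this, e1, e2]; ring
  have h4 : ∑ a, ip (V a) (V' a) ^ 2 ≤ ∑ a, ∑ b, ip (V a) (V' b) ^ 2 :=
    Finset.sum_le_sum fun a _ => Finset.single_le_sum (f := fun b => ip (V a) (V' b) ^ 2)
      (fun b _ => sq_nonneg _) (Finset.mem_univ a)
  have h5 : ∑ e, (bV r V e - bV r V' e) ^ 2
      = (2 * r / √n) ^ 2 * ∑ a, (2 - 2 * ip (V a) (V' a)) := by
    rw [Fintype.sum_prod_type, Finset.mul_sum]
    refine Finset.sum_congr rfl fun a _ => ?_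
    have e1 : ∑ i, (bV r V (a, i) - bV r V' (a, i)) ^ 2 = (2 * r / √n) ^ 2 * sq (V a - V' a) := by
      rw [sq, Finset.mul_sum]
      refine Finset.sum_congr rfl fun i _ => ?_
      rw [bV, bV, ← mul_sub, mul_pow, Pi.sub_apply]
    rw [e1]
    congr 1
    rw [← ipN_self, ip_sub_right, ip_sub_left, ip_sub_left, ipN_self, ipN_self, h.sq_eq, h'.sq_eq,
      ipN_comm (V' a) (V a)]
    ring
  have h6 : (k : ℝ) - ∑ a, ip (V a) (V' a) ^ 2 ≤ ∑ a, (2 - 2 * ip (V a) (V' a)) := by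
    have : (k : ℝ) - ∑ a, ip (V a) (V' a) ^ 2 = ∑ a, (1 - ip (V a) (V' a) ^ 2) := by
      rw [Finset.sum_sub_distrib]; simp
    rw [this]
    refine Finset.sum_le_sum fun a _ => ?_
    linarith only [sq_nonneg (1 - ip (V a) (V' a))]
  rw [h3] at h2
  rw [h1, h5]
  refine mul_le_mul_of_nonneg_left ?_ (by (clear * -; positivity))
  linarith only [h6, h4, h2]

/-! ### expectation of the supremum -/

/-- Sudakov-Fernique for a finite family of frames. -/
theorem sf_frames {S : Type*} [Fintype S] [Nonempty S] {r L ρ : ℝ} {p : Vec n} {U : Vec n → ℝ}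
    (hUi : Integrable U (Measure.pi fun _ : Fin n => gaussianReal 0 1))
    (hU : ∀ g v : Vec n, sq v = 1 → 2 * r / √n * ip g v - Lam L ρ p v ≤ U g)
    (V : S → Fin k → Vec n) (hV : ∀ s, Frame (V s)) :
    ∫ g, ⨆ s, Exc r L ρ (skM g) p (V s) ∂(disorder n)
      ≤ k * ∫ g, U g ∂(Measure.pi fun _ : Fin n => gaussianReal 0 1) := by
  have h1 := sup_le_pen (fun s => cV r (V s)) (fun s => bV r (V s))
    (fun s => ∑ a, Lam L ρ p (V s a)) (fun s t => inc_le (hV s) (hV t))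
  have h2 : ∫ g, ⨆ s, Exc r L ρ (skM g) p (V s) ∂(disorder n) =
      ∫ g, ⨆ s, ((∑ e, cV r (V s) e * g e) - ∑ a, Lam L ρ p (V s a))
        ∂(Measure.pi fun _ : Pairs n => gaussianReal 0 1) := by
    unfold disorder
    simp_rw [Exc_eq]
  rw [h2]
  refine h1.trans ?_
  have hinj : ∀ a : Fin k, Function.Injective fun i : Fin n => (a, i) := fun a i j h => by
    simpa using h
  have hint : ∀ a : Fin k, Integrable (fun g : Fin k × Fin n → ℝ => U (g ∘ fun i => (a, i)))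
      (Measure.pi fun _ : Fin k × Fin n => gaussianReal 0 1) := by
    intro a
    have hm : Measurable (fun g : Fin k × Fin n → ℝ => g ∘ fun i : Fin n => (a, i)) :=
      measurable_pi_iff.mpr fun i => measurable_pi_apply (a, i)
    have h3 := gaussian_comp_inj (fun i : Fin n => (a, i)) (hinj a)
    have h4 : Integrable U (Measure.map (fun g : Fin k × Fin n → ℝ => g ∘ fun i : Fin n => (a, i))
        (Measure.pi fun _ : Fin k × Fin n => gaussianReal 0 1)) := by rw [h3]; exact hUi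
    exact h4.comp_measurable hm
  have h3 : ∫ g : Fin k × Fin n → ℝ, ∑ a, U (g ∘ fun i => (a, i))
      ∂(Measure.pi fun _ : Fin k × Fin n => gaussianReal 0 1)
      = k * ∫ g, U g ∂(Measure.pi fun _ : Fin n => gaussianReal 0 1) := by
    rw [integral_finsetSum _ fun a _ => hint a]
    have : ∀ a ∈ (Finset.univ : Finset (Fin k)), ∫ g : Fin k × Fin n → ℝ, U (g ∘ fun i => (a, i))
        ∂(Measure.pi fun _ : Fin k × Fin n => gaussianReal 0 1)
        = ∫ g, U g ∂(Measure.pi fun _ : Fin n => gaussianReal 0 1) := fun a _ =>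
      integral_gaussian_comp_inj (fun i : Fin n => (a, i)) (hinj a) U hUi.aestronglyMeasurable
    rw [Finset.sum_congr rfl this]
    simp
  rw [← h3]
  refine integral_mono (integrable_pen _ _) (integrable_finsetSum _ fun a _ => hint a) ?_
  intro g
  refine ciSup_le fun s => ?_
  have e1 : (∑ e, bV r (V s) e * g e) - ∑ a, Lam L ρ p (V s a)
      = ∑ a, (2 * r / √n * ip (g ∘ fun i => (a, i)) (V s a) - Lam L ρ p (V s a)) := by
    rw [Finset.sum_sub_distrib, Fintype.sum_prod_type]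
    congr 1
    refine Finset.sum_congr rfl fun a _ => ?_
    rw [ip, Finset.mul_sum]
    exact Finset.sum_congr rfl fun i _ => by rw [bV, Function.comp]; ring
  simp only
  rw [e1]
  exact Finset.sum_le_sum fun a _ => hU _ _ ((hV s).sq_eq a)

/-! ### the tail for a finite family -/

theorem fin_tail {S : Type*} [Fintype S] [Nonempty S] {r L ρ θ δ : ℝ} {p : Vec n} {U : Vec n → ℝ}
    (hn : 0 < n) (hk : 0 < k) (hr : 0 ≤ r) (hr1 : r ≤ 1) (hδ : 0 ≤ δ)
    (hUi : Integrable U (Measure.pi fun _ : Fin n => gaussianReal 0 1))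
    (hU : ∀ g v : Vec n, sq v = 1 → 2 * r / √n * ip g v - Lam L ρ p v ≤ U g)
    (hθ : (∫ g, U g ∂(Measure.pi fun _ : Fin n => gaussianReal 0 1)) + δ ≤ θ)
    (V : S → Fin k → Vec n) (hV : ∀ s, Frame (V s)) :
    (disorder n).real {g | ∃ s, k * θ < Exc r L ρ (skM g) p (V s)}
      ≤ Real.exp (-(k * δ ^ 2 / 8 * n)) := by
  have hn' : (0 : ℝ) < n := by exact_mod_cast hn
  have hk' : (0 : ℝ) < k := by exact_mod_cast hk
  set Lf : ℝ := √(2 * k / n) with hLf
  have hLf0 : 0 < Lf := Real.sqrt_pos.2 (by positivity)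
  have hLip : Lip Lf (fun g : Pairs n → ℝ => ⨆ s, Exc r L ρ (skM g) p (V s)) := by
    refine Lip.iSup_fin fun s => ?_
    have h1 : Lip (√(∑ e, cV r (V s) e ^ 2)) (fun g : Pairs n → ℝ => ∑ e, cV r (V s) e * g e) :=
      Lip.lin _
    have h2 : √(∑ e, cV r (V s) e ^ 2) ≤ Lf := by
      refine Real.sqrt_le_sqrt ((cV_norm (hV s)).trans ?_)
      have : r ^ 2 ≤ 1 := pow_le_one₀ hr hr1
      rw [div_mul_eq_mul_div]
      refine div_le_div_of_nonneg_right ?_ hn'.le
      linarith only [mul_nonneg (le_of_lt (sub_pos.2 hk')) (sub_nonneg.2 this)]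
    exact ((h1.mono h2).add_const (-∑ a, Lam L ρ p (V s a))).congr fun g => by
      rw [Exc_eq]; ring
  have ht := hLip.tail hLf0 (t := k * δ) (by positivity)
  have hexp : (k * δ) ^ 2 / (4 * Lf ^ 2) = k * δ ^ 2 / 8 * n := by
    rw [hLf, Real.sq_sqrt (by positivity)]
    field_simp
    ring
  rw [hexp] at ht
  refine le_trans ?_ ht
  have hsf := sf_frames (k := k) hUi hU V hV
  have : IsProbabilityMeasure (disorder n) := by unfold disorder; infer_instance
  show (disorder n).real _ ≤ (disorder n).real _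
  refine measureReal_mono ?_
  rintro g ⟨s, hs⟩
  have h1 : Exc r L ρ (skM g) p (V s) ≤ ⨆ s, Exc r L ρ (skM g) p (V s) :=
    le_ciSup (f := fun s => Exc r L ρ (skM g) p (V s)) (Set.finite_range _).bddAbove s
  have h2 : k * ((∫ g, U g ∂(Measure.pi fun _ : Fin n => gaussianReal 0 1)) + δ) ≤ k * θ :=
    mul_le_mul_of_nonneg_left hθ hk'.le
  show (∫ g, ⨆ s, Exc r L ρ (skM g) p (V s) ∂(disorder n)) + k * δ ≤ _
  linarith

/-! ### the tail for all frames -/

lemma lsc_Exc {r L ρ : ℝ} (hL : 0 ≤ L) (J : Mat n) (p : Vec n) :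
    LowerSemicontinuous (fun V : Fin k → Vec n => Exc r L ρ J p V) := by
  refine lowerSemicontinuous_sum fun a _ => ?_
  have h1 : Continuous (fun V : Fin k → Vec n => r * qf J (V a)) := by
    unfold qf ip Matrix.mulVec dotProduct
    fun_prop
  have h2 : UpperSemicontinuous (fun V : Fin k → Vec n => Lam L ρ p (V a)) := by
    refine upperSemicontinuous_ciInf (fun V => Lam_bdd hL p (V a)) fun m => ?_
    refine Continuous.upperSemicontinuous ?_
    unfold dform
    fun_prop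
  have h3 : LowerSemicontinuous (fun V : Fin k → Vec n => -Lam L ρ p (V a)) :=
    continuous_neg.comp_upperSemicontinuous_antitone h2 fun x y h => neg_le_neg h
  have h4 := h1.lowerSemicontinuous.add h3
  simpa [sub_eq_add_neg] using h4

theorem frame_tail {r L ρ θ δ : ℝ} {p : Vec n} {U : Vec n → ℝ} (hL : 0 ≤ L)
    (hn : 0 < n) (hk : 0 < k) (hr : 0 ≤ r) (hr1 : r ≤ 1) (hδ : 0 ≤ δ)
    (hUi : Integrable U (Measure.pi fun _ : Fin n => gaussianReal 0 1))
    (hU : ∀ g v : Vec n, sq v = 1 → 2 * r / √n * ip g v - Lam L ρ p v ≤ U g)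
    (hθ : (∫ g, U g ∂(Measure.pi fun _ : Fin n => gaussianReal 0 1)) + δ ≤ θ) :
    (disorder n).real {g | ∃ V : Fin k → Vec n, Frame V ∧ k * θ < Exc r L ρ (skM g) p V}
      ≤ Real.exp (-(k * δ ^ 2 / 8 * n)) := by
  have : IsProbabilityMeasure (disorder n) := by unfold disorder; infer_instance
  by_cases hT : Nonempty {V : Fin k → Vec n // Frame V}
  · set D : ℕ → {V : Fin k → Vec n // Frame V} := TopologicalSpace.denseSeq _ with hD
    set B : ℕ → Set (Pairs n → ℝ) := fun N =>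
      {g | ∃ s : Fin (N + 1), k * θ < Exc r L ρ (skM g) p (D s).1} with hB
    have hmono : Monotone B := by
      intro N N' hNN g hg
      obtain ⟨s, hs⟩ := hg
      exact ⟨⟨s, s.2.trans_le (by omega)⟩, hs⟩
    have hsub : {g : Pairs n → ℝ | ∃ V : Fin k → Vec n, Frame V ∧
        k * θ < Exc r L ρ (skM g) p V} ⊆ ⋃ N, B N := by
      rintro g ⟨V, hV, hex⟩
      have hopen : IsOpen {W : {V : Fin k → Vec n // Frame V} |
          k * θ < Exc r L ρ (skM g) p W.1} :=
        ((lsc_Exc hL (skM g) p).isOpen_preimage (k * θ)).preimage continuous_subtype_val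
      obtain ⟨W, hW1, ⟨N, hN⟩⟩ := (TopologicalSpace.denseRange_denseSeq
        {V : Fin k → Vec n // Frame V}).inter_open_nonempty _ hopen ⟨⟨V, hV⟩, hex⟩
      refine mem_iUnion.2 ⟨N, ⟨⟨N, Nat.lt_succ_self N⟩, ?_⟩⟩
      have : (D N) = W := hN
      simp only [this]
      exact hW1
    have hle : ∀ N, disorder n (B N) ≤ ENNReal.ofReal (Real.exp (-(k * δ ^ 2 / 8 * n))) := by
      intro N
      have h1 := fin_tail (S := Fin (N + 1)) hn hk hr hr1 hδ hUi hU hθ (fun s => (D s).1)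
        (fun s => (D s).2)
      exact (ENNReal.le_ofReal_iff_toReal_le (measure_ne_top _ _) (Real.exp_pos _).le).2 h1
    have h2 : disorder n (⋃ N, B N) ≤ ENNReal.ofReal (Real.exp (-(k * δ ^ 2 / 8 * n))) := by
      rw [hmono.measure_iUnion]
      exact iSup_le hle
    refine (measureReal_mono hsub).trans ?_
    exact ENNReal.toReal_le_of_le_ofReal (Real.exp_pos _).le h2
  · have : {g : Pairs n → ℝ | ∃ V : Fin k → Vec n, Frame V ∧ k * θ < Exc r L ρ (skM g) p V}
        = ∅ := by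
      rw [Set.eq_empty_iff_forall_notMem]
      rintro g ⟨V, hV, -⟩
      exact hT ⟨⟨V, hV⟩⟩
    rw [this, measureReal_empty]
    exact (Real.exp_pos _).le

end Vale.Agent.P150.F
end

section

/-! Module G5Maj: an explicit polynomial majorant of the penalised linear functional
`(2r/√n) ⟨g,v⟩ - Λ_p(v)` on the unit sphere, and its Gaussian mean. -/

open MeasureTheory ProbabilityTheory Filter Topology
open scoped Matrix

namespace Vale.Agent.P150.F

variable {n : ℕ}

/-- the majorant -/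
noncomputable def Umaj (r L ρ lam : ℝ) (p g : Vec n) : ℝ :=
  r ^ 2 / n * ∑ i, g i ^ 2 * (1 - p i ^ 2 + lam / (1 - lam) + 1 / L)
    + r ^ 2 / n * (ρ * ∑ i, g i ^ 4 + 4 * ρ * n) - lam

lemma win_nonempty {ρ : ℝ} (_h : 0 < ρ) {p : Vec n} (hp : ∀ i, |p i| < 1) : p ∈ Win ρ p := by
  refine ⟨hp, ?_⟩
  have : sq (p - p) = 0 := by simp [sq]
  rw [this]
  positivity

lemma win_nonempty' {ρ : ℝ} (h : 0 < ρ) {p : Vec n} (hp : ∀ i, |p i| < 1) :
    Nonempty (Win ρ p) := ⟨⟨p, win_nonempty h hp⟩⟩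

/-- pointwise inequality for one coordinate -/
lemma maj_coord {r L ρ lam g v m p s : ℝ} (hL : 1 ≤ L) (h0 : 0 ≤ lam)
    (h1 : lam < 1) (hρ : 0 < ρ) (hm : |m| < 1) (hp : |p| < 1) (hs : 0 < s) :
    2 * r / s * (g * v) - (min (1 / (1 - m ^ 2)) L - lam) * v ^ 2
      ≤ r ^ 2 / s ^ 2 * (g ^ 2 * (1 - p ^ 2 + lam / (1 - lam) + 1 / L))
        + r ^ 2 / s ^ 2 * (ρ * g ^ 4 + (m - p) ^ 2 / ρ) := by
  have hm2 : m ^ 2 < 1 := by rw [← sq_abs]; (by_contra nlg; linarith only [nlg, mul_nonneg (le_of_lt (sub_pos.2 hm)) (sub_nonneg.2 (abs_nonneg m)), mul_pos (sub_pos.2 hm) (sub_pos.2 hm), mul_nonneg (sub_nonneg.2 (not_lt.1 nlg)) (sub_nonneg.2 (abs_nonneg m)), mul_nonneg (sub_nonneg.2 (not_lt.1 nlg)) (le_of_lt (sub_pos.2 hm))])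
  have hx0 : 0 < 1 - m ^ 2 := by linarith
  have hL0 : 0 < L := by linarith
  set d : ℝ := min (1 / (1 - m ^ 2)) L with hd
  have hd1 : 1 ≤ d := by
    refine le_min ?_ hL
    rw [le_div_iff₀ hx0]
    linarith only [sq_nonneg m]
  have hdl : 0 < d - lam := by linarith only [hd1, h1]
  -- completing the square
  have hA : 2 * r / s * (g * v) - (d - lam) * v ^ 2 ≤ r ^ 2 / s ^ 2 * (g ^ 2 / (d - lam)) := by
    have h2 : r ^ 2 / s ^ 2 * (g ^ 2 / (d - lam)) - (2 * r / s * (g * v) - (d - lam) * v ^ 2)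
        = (r * g / s - (d - lam) * v) ^ 2 / (d - lam) := by
      field_simp
      ring
    have h3 : 0 ≤ (r * g / s - (d - lam) * v) ^ 2 / (d - lam) := by positivity
    linarith
  -- bound of the inverse
  have hB : 1 / (d - lam) ≤ 1 - m ^ 2 + 1 / L + lam / (1 - lam) := by
    have h2 : 1 / d ≤ 1 - m ^ 2 + 1 / L := by
      rcases le_total (1 / (1 - m ^ 2)) L with h | h
      · rw [hd, min_eq_left h, one_div_one_div]
        have : 0 < 1 / L := by positivity
        linarith only [this]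
      · rw [hd, min_eq_right h]
        linarith only [hx0]
    have h3 : 1 / (d - lam) ≤ 1 / d + lam / (1 - lam) := by
      have hd0 : 0 < d := by linarith only [hd1]
      have h1l : 0 < 1 - lam := by linarith only [h1]
      rw [div_add_div _ _ hd0.ne' h1l.ne', div_le_div_iff₀ hdl (by positivity)]
      nlinarith [mul_nonneg h0 (by linarith only [hd1] : 0 ≤ d - 1), mul_nonneg (mul_nonneg h0 (by linarith only [hd1] : 0 ≤ d - 1)) hd0.le]
    linarith only [h3, h2]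
  have hC : g ^ 2 / (d - lam) ≤ g ^ 2 * (1 - p ^ 2 + lam / (1 - lam) + 1 / L)
      + (ρ * g ^ 4 + (m - p) ^ 2 / ρ) := by
    have h2 : g ^ 2 / (d - lam) = g ^ 2 * (1 / (d - lam)) := by ring
    rw [h2]
    have h3 : g ^ 2 * (1 / (d - lam)) ≤ g ^ 2 * (1 - m ^ 2 + 1 / L + lam / (1 - lam)) :=
      mul_le_mul_of_nonneg_left hB (sq_nonneg g)
    have h4 : p ^ 2 - m ^ 2 ≤ 2 * |m - p| := by
      have h5 : p ^ 2 - m ^ 2 = (p - m) * (p + m) := by ring
      have h6 : |(p - m) * (p + m)| ≤ |m - p| * 2 := by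
        rw [abs_mul, abs_sub_comm]
        refine mul_le_mul_of_nonneg_left ?_ (abs_nonneg _)
        exact (abs_add_le _ _).trans (by linarith only [hp, hm])
      have h7 := le_abs_self ((p - m) * (p + m))
      rw [h5]
      linarith only [h7, h6]
    have h5 : 2 * (g ^ 2 * |m - p|) ≤ ρ * g ^ 4 + (m - p) ^ 2 / ρ := by
      have h6 : ρ * g ^ 4 + (m - p) ^ 2 / ρ - 2 * (g ^ 2 * |m - p|)
          = (ρ * g ^ 2 - |m - p|) ^ 2 / ρ := by
        rw [← sq_abs (m - p)]
        field_simp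
        ring
      have h7 : 0 ≤ (ρ * g ^ 2 - |m - p|) ^ 2 / ρ := by (clear * - hρ; positivity)
      linarith only [h7, h6]
    have h6 := mul_le_mul_of_nonneg_left h4 (sq_nonneg g)
    linarith only [h6, h5, h3]
  have hD := mul_le_mul_of_nonneg_left hC (by (clear * - hs; positivity) : 0 ≤ r ^ 2 / s ^ 2)
  linarith only [hD, hA]

theorem pen_le_Umaj {r L ρ lam : ℝ} (hn : 0 < n) (_hr : 0 ≤ r) (hL : 1 ≤ L) (h0 : 0 ≤ lam)
    (h1 : lam < 1) (hρ : 0 < ρ) {p : Vec n} (hp : ∀ i, |p i| < 1) {v : Vec n} (hv : sq v = 1)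
    (g : Vec n) :
    2 * r / Real.sqrt n * ip g v - Lam L ρ p v ≤ Umaj r L ρ lam p g := by
  have hn' : (0 : ℝ) < n := by exact_mod_cast hn
  have hs : 0 < Real.sqrt n := Real.sqrt_pos.2 hn'
  have hs2 : Real.sqrt n ^ 2 = n := Real.sq_sqrt hn'.le
  have := win_nonempty' hρ hp
  have key : 2 * r / Real.sqrt n * ip g v - Umaj r L ρ lam p g ≤ Lam L ρ p v := by
    refine le_ciInf fun m => ?_
    obtain ⟨m, hm1, hm2⟩ := m
    show 2 * r / Real.sqrt n * ip g v - Umaj r L ρ lam p g ≤ dform L m v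
    have h2 : ∀ i ∈ Finset.univ, 2 * r / Real.sqrt n * (g i * v i)
        - (min (1 / (1 - m i ^ 2)) L - lam) * v i ^ 2
      ≤ r ^ 2 / n * (g i ^ 2 * (1 - p i ^ 2 + lam / (1 - lam) + 1 / L))
        + r ^ 2 / n * (ρ * g i ^ 4 + (m i - p i) ^ 2 / ρ) := by
      intro i _
      have := maj_coord (r := r) (g := g i) (v := v i) hL h0 h1 hρ (hm1 i) (hp i) hs
      rwa [hs2] at this
    have h3 := Finset.sum_le_sum h2
    rw [Finset.sum_sub_distrib, Finset.sum_add_distrib, ← Finset.mul_sum, ← Finset.mul_sum,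
      ← Finset.mul_sum, Finset.sum_add_distrib, ← Finset.mul_sum] at h3
    have h4 : ∑ i, (min (1 / (1 - m i ^ 2)) L - lam) * v i ^ 2 = dform L m v - lam := by
      have h5 : ∀ i, (min (1 / (1 - m i ^ 2)) L - lam) * v i ^ 2
          = min (1 / (1 - m i ^ 2)) L * v i ^ 2 - lam * v i ^ 2 := fun i => by ring
      rw [Finset.sum_congr rfl fun i _ => h5 i, Finset.sum_sub_distrib, ← Finset.mul_sum]
      have h6 : ∑ i, v i ^ 2 = 1 := hv
      rw [h6, mul_one]
      rfl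
    rw [h4] at h3
    have h5 : ∑ i, (m i - p i) ^ 2 / ρ ≤ 4 * ρ * n := by
      rw [← Finset.sum_div, div_le_iff₀ hρ]
      have h6 : ∑ i, (m i - p i) ^ 2 = sq (m - p) := rfl
      rw [h6]
      calc sq (m - p) ≤ (2 * ρ) ^ 2 * n := hm2
        _ = 4 * ρ * n * ρ := by ring
    have h6 := mul_le_mul_of_nonneg_left h5 (by (clear * - hn; positivity) : 0 ≤ r ^ 2 / (n : ℝ))
    have h7 : ip g v = ∑ i, g i * v i := rfl
    unfold Umaj
    rw [h7]
    rw [mul_add] at h3 ⊢
    linarith only [h6, h3]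
  linarith only [key]

/-! ### Gaussian moments -/

lemma g5_integrable_pow_gauss (k : ℕ) : Integrable (fun x : ℝ => x ^ k) (gaussianReal 0 1) := by
  have h := (memLp_id_gaussianReal (μ := 0) (v := 1) (k : NNReal))
  rcases Nat.eq_zero_or_pos k with rfl | hk
  · simp
  · have h2 := h.integrable_norm_rpow (by
      simpa using hk.ne') (by simp)
    refine h2.mono' (by fun_prop) (Filter.Eventually.of_forall fun x => ?_)
    simp

lemma g5_integral_four_gauss : ∫ x, x ^ 4 ∂(gaussianReal 0 1) = 3 := by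
  set φ : ℝ → ℝ := gaussianPDFReal 0 1 with hφ
  have hφd : ∀ x, HasDerivAt φ (-(x * φ x)) x := by
    intro x
    have h1 : HasDerivAt (fun y : ℝ => -(y - 0) ^ 2 / (2 * ((1 : NNReal) : ℝ))) (-x) x := by
      have h2 : HasDerivAt (fun y : ℝ => -(y ^ 2) / 2) (-(2 * x) / 2) x := by
        have h0 := ((hasDerivAt_pow 2 x).neg).div_const (2 : ℝ)
        simpa using h0
      have h2' : (fun y : ℝ => -(y - 0) ^ 2 / (2 * ((1 : NNReal) : ℝ))) = fun y => -(y ^ 2) / 2 := by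
        funext y
        simp
      rw [h2']
      have h2'' : -x = -(2 * x) / 2 := by ring
      rw [h2'']
      exact h2
    have h3 := (h1.exp).const_mul ((Real.sqrt (2 * Real.pi * ((1 : NNReal) : ℝ)))⁻¹)
    have h4 : φ = fun y => (Real.sqrt (2 * Real.pi * ((1 : NNReal) : ℝ)))⁻¹
        * Real.exp (-(y - 0) ^ 2 / (2 * ((1 : NNReal) : ℝ))) := by
      funext y
      rw [hφ, gaussianPDFReal_def]
    have h5 : -(x * φ x) = (Real.sqrt (2 * Real.pi * ((1 : NNReal) : ℝ)))⁻¹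
        * (Real.exp (-(x - 0) ^ 2 / (2 * ((1 : NNReal) : ℝ))) * -x) := by
      rw [h4]
      ring
    rw [h5, h4]
    exact h3
  have hkφ : ∀ k : ℕ, Integrable (fun x => x ^ k * φ x) := by
    intro k
    have h1 := g5_integrable_pow_gauss k
    rw [gaussianReal_of_var_ne_zero _ one_ne_zero] at h1
    have h2 := (integrable_withDensity_iff_integrable_smul'
      (measurable_gaussianPDF 0 1) (by
        refine Filter.Eventually.of_forall fun x => ?_
        exact gaussianPDF_lt_top)).mp h1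
    refine h2.congr (Filter.Eventually.of_forall fun x => ?_)
    simp only [smul_eq_mul, gaussianPDF, ENNReal.toReal_ofReal (gaussianPDFReal_nonneg 0 1 x)]
    ring
  have key := integral_mul_deriv_eq_deriv_mul_of_integrable (u := fun x => x ^ 3) (v := φ)
    (u' := fun x => 3 * x ^ 2) (v' := fun x => -(x * φ x))
    (fun x _ => by simpa using hasDerivAt_pow 3 x) (fun x _ => hφd x)
    (by
      refine (hkφ 4).neg.congr (Filter.Eventually.of_forall fun x => ?_)
      show -(x ^ 4 * φ x) = x ^ 3 * -(x * φ x)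
      ring)
    (by
      refine ((hkφ 2).const_mul 3).congr (Filter.Eventually.of_forall fun x => ?_)
      show 3 * (x ^ 2 * φ x) = 3 * x ^ 2 * φ x
      ring)
    (hkφ 3)
  have e1 : ∫ x, x ^ 4 ∂(gaussianReal 0 1) = ∫ x, x ^ 4 * φ x := by
    rw [integral_gaussianReal_eq_integral_smul one_ne_zero]
    refine integral_congr_ae (Filter.Eventually.of_forall fun x => ?_)
    show φ x * x ^ 4 = x ^ 4 * φ x
    ring
  have e2 : ∫ x, x ^ 2 ∂(gaussianReal 0 1) = ∫ x, x ^ 2 * φ x := by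
    rw [integral_gaussianReal_eq_integral_smul one_ne_zero]
    refine integral_congr_ae (Filter.Eventually.of_forall fun x => ?_)
    show φ x * x ^ 2 = x ^ 2 * φ x
    ring
  have e3 : ∫ x, x ^ 2 ∂(gaussianReal 0 1) = 1 := by
    have h := variance_id_gaussianReal (μ := 0) (v := 1)
    rw [variance_eq_integral (by fun_prop)] at h
    simpa using h
  have e4 : ∫ x, x ^ 3 * -(x * φ x) = - ∫ x, x ^ 4 * φ x := by
    rw [← integral_neg]
    refine integral_congr_ae (Filter.Eventually.of_forall fun x => ?_)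
    show x ^ 3 * -(x * φ x) = -(x ^ 4 * φ x)
    ring
  have e5 : ∫ x, 3 * x ^ 2 * φ x = 3 * ∫ x, x ^ 2 * φ x := by
    rw [← integral_const_mul]
    refine integral_congr_ae (Filter.Eventually.of_forall fun x => ?_)
    show 3 * x ^ 2 * φ x = 3 * (x ^ 2 * φ x)
    ring
  rw [e4, e5, ← e1, ← e2, e3] at key
  linarith

theorem g5_integrable_four_coord {ι : Type} [Fintype ι] (i : ι) :
    Integrable (fun w : ι → ℝ => w i ^ 4) (gpi ι) := by
  have hmp : MeasurePreserving (Function.eval i) (gpi ι) (gaussianReal 0 1) :=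
    measurePreserving_eval (fun _ : ι => gaussianReal 0 1) i
  exact hmp.integrable_comp_of_integrable (g5_integrable_pow_gauss 4)

theorem g5_integral_four_coord {ι : Type} [Fintype ι] (i : ι) :
    ∫ w : ι → ℝ, w i ^ 4 ∂gpi ι = 3 := by
  have hmp : MeasurePreserving (Function.eval i) (gpi ι) (gaussianReal 0 1) :=
    measurePreserving_eval (fun _ : ι => gaussianReal 0 1) i
  have h1 : ∫ w : ι → ℝ, w i ^ 4 ∂gpi ι = ∫ x, x ^ 4 ∂gaussianReal 0 1 := by
    rw [← hmp.map_eq, integral_map hmp.measurable.aemeasurable (by fun_prop)]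
  rw [h1, g5_integral_four_gauss]

theorem integrable_Umaj (r L ρ lam : ℝ) (p : Vec n) :
    Integrable (Umaj r L ρ lam p) (Measure.pi fun _ : Fin n => gaussianReal 0 1) := by
  have h2 : ∀ i : Fin n, Integrable (fun w : Fin n → ℝ => w i ^ 2)
      (Measure.pi fun _ : Fin n => gaussianReal 0 1) := fun i => integrable_sq_coord i
  have h4 : ∀ i : Fin n, Integrable (fun w : Fin n → ℝ => w i ^ 4)
      (Measure.pi fun _ : Fin n => gaussianReal 0 1) := fun i => g5_integrable_four_coord i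
  unfold Umaj
  refine Integrable.sub (Integrable.add ?_ ?_) (integrable_const _)
  · exact (integrable_finsetSum _ fun i _ => (h2 i).mul_const _).const_mul _
  · exact (((integrable_finsetSum _ fun i _ => h4 i).const_mul _).add
      (integrable_const _)).const_mul _

theorem integral_Umaj {r L ρ lam : ℝ} (hn : 0 < n) (p : Vec n) :
    ∫ g, Umaj r L ρ lam p g ∂(Measure.pi fun _ : Fin n => gaussianReal 0 1)
      = r ^ 2 * (1 - qq p + lam / (1 - lam) + 1 / L) + r ^ 2 * (7 * ρ) - lam := by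
  have hn' : (n : ℝ) ≠ 0 := by exact_mod_cast hn.ne'
  have h2 : ∀ i : Fin n, Integrable (fun w : Fin n → ℝ => w i ^ 2)
      (Measure.pi fun _ : Fin n => gaussianReal 0 1) := fun i => integrable_sq_coord i
  have h4 : ∀ i : Fin n, Integrable (fun w : Fin n → ℝ => w i ^ 4)
      (Measure.pi fun _ : Fin n => gaussianReal 0 1) := fun i => g5_integrable_four_coord i
  have e2 : ∀ i : Fin n, ∫ w : Fin n → ℝ, w i ^ 2
      ∂(Measure.pi fun _ : Fin n => gaussianReal 0 1) = 1 := fun i => integral_sq_coord i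
  have e4 : ∀ i : Fin n, ∫ w : Fin n → ℝ, w i ^ 4
      ∂(Measure.pi fun _ : Fin n => gaussianReal 0 1) = 3 := fun i => g5_integral_four_coord i
  have i1 : Integrable (fun g : Fin n → ℝ => r ^ 2 / n * ∑ i, g i ^ 2 *
      (1 - p i ^ 2 + lam / (1 - lam) + 1 / L))
      (Measure.pi fun _ : Fin n => gaussianReal 0 1) :=
    (integrable_finsetSum _ fun i _ => (h2 i).mul_const _).const_mul _
  have i3 : Integrable (fun g : Fin n → ℝ => ρ * ∑ i, g i ^ 4)
      (Measure.pi fun _ : Fin n => gaussianReal 0 1) :=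
    (integrable_finsetSum _ fun i _ => h4 i).const_mul _
  have i2 : Integrable (fun g : Fin n → ℝ => r ^ 2 / n * (ρ * ∑ i, g i ^ 4 + 4 * ρ * n))
      (Measure.pi fun _ : Fin n => gaussianReal 0 1) :=
    (i3.add (integrable_const _)).const_mul _
  have i12 : Integrable (fun g : Fin n → ℝ => r ^ 2 / n * ∑ i, g i ^ 2 *
      (1 - p i ^ 2 + lam / (1 - lam) + 1 / L) + r ^ 2 / n * (ρ * ∑ i, g i ^ 4 + 4 * ρ * n))
      (Measure.pi fun _ : Fin n => gaussianReal 0 1) := i1.add i2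
  unfold Umaj
  rw [integral_sub i12 (integrable_const _), integral_add i1 i2, integral_const_mul,
    integral_const_mul, integral_finsetSum _ fun i _ => (h2 i).mul_const _,
    integral_add i3 (integrable_const _), integral_const_mul,
    integral_finsetSum _ fun i _ => h4 i]
  simp only [integral_mul_const, e2, e4, integral_const, probReal_univ, smul_eq_mul, one_mul]
  rw [Finset.sum_const, Finset.card_univ, Fintype.card_fin, nsmul_eq_mul]
  have h5 : ∑ i, (1 - p i ^ 2 + lam / (1 - lam) + 1 / L)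
      = n * (1 - qq p + lam / (1 - lam) + 1 / L) := by
    have h6 : ∀ i, (1 - p i ^ 2 + lam / (1 - lam) + 1 / L)
        = (1 + lam / (1 - lam) + 1 / L) - p i ^ 2 := fun i => by ring
    rw [Finset.sum_congr rfl fun i _ => h6 i, Finset.sum_sub_distrib, Finset.sum_const,
      Finset.card_univ, Fintype.card_fin, nsmul_eq_mul]
    have h7 : ∑ i, p i ^ 2 = n * qq p := by
      unfold qq sq
      field_simp
    rw [h7]
    ring
  rw [h5]
  field_simp
  ring

end Vale.Agent.P150.F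
end

section

/-! G5 (uniform count in windows), final theorem. -/

open MeasureTheory ProbabilityTheory Filter Topology Set
open scoped Matrix

namespace Vale.Agent.P150.F

variable {n k : ℕ}

/-- the exponential bound at one grid point -/
theorem grid_tail {β c₀ ρ : ℝ} (h0 : 0 ≤ β) (h1 : β < 1)
    (hc : c₀ = (1 - β ^ 2) ^ 2 / (2 * (1 + β ^ 2))) (hρ : 0 < ρ) (hρc : 7 * ρ ≤ c₀ / 16)
    (hn : 0 < n) (hk : 0 < k) {r : ℝ} (hr : 0 ≤ r) (hrβ : r ≤ β) {p : Vec n}
    (hp : ∀ i, |p i| < 1) :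
    (disorder n).real {g | ∃ V : Fin k → Vec n, Frame V ∧
      k * (r ^ 2 * (1 - qq p) - c₀ / 2) < Exc r (16 / c₀) ρ (skM g) p V}
      ≤ Real.exp (-(k * (3 * c₀ / 8) ^ 2 / 8 * n)) := by
  have hb0 : 0 ≤ β ^ 2 := sq_nonneg _
  have hb1 : β ^ 2 < 1 := by (by_contra nlg; linarith only [mul_nonneg (sub_nonneg.2 (not_lt.1 nlg)) (le_of_lt (sub_pos.2 h1)), mul_nonneg (sub_nonneg.2 (not_lt.1 nlg)) (sub_nonneg.2 hr), mul_nonneg (sub_nonneg.2 (not_lt.1 nlg)) (sub_nonneg.2 hrβ), mul_pos (sub_pos.2 h1) (sub_pos.2 h1), mul_nonneg (le_of_lt (sub_pos.2 h1)) (sub_nonneg.2 hr), mul_nonneg (le_of_lt (sub_pos.2 h1)) (sub_nonneg.2 hrβ)])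
  have hc0 : 0 < c₀ := by
    rw [hc]
    have : 0 < 1 - β ^ 2 := by linarith only [hb1]
    (clear * - hb1; positivity)
  have hc1 : c₀ ≤ 1 := by
    rw [hc, div_le_one (by (clear * -; positivity))]
    (by_contra nlg; linarith only [mul_nonneg (le_of_lt (sub_pos.2 (not_le.1 nlg))) (sub_nonneg.2 hb0), mul_pos (sub_pos.2 (not_le.1 nlg)) (sub_pos.2 hb1), mul_nonneg (sub_nonneg.2 hb0) (sub_nonneg.2 hb0), mul_nonneg (sub_nonneg.2 hb0) (le_of_lt (sub_pos.2 hb1))])
  set b := β ^ 2 with hb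
  set lam : ℝ := (1 - b) / 2 with hlam
  have hl0 : 0 ≤ lam := by rw [hlam]; linarith only [hb1]
  have hl1 : lam < 1 := by rw [hlam]; linarith only [hb0, hc1, hρc, hρ]
  have hL : (1 : ℝ) ≤ 16 / c₀ := by
    rw [le_div_iff₀ hc0]; linarith only [hc1, hρc, hρ]
  have hr1 : r ≤ 1 := hrβ.trans h1.le
  have hrb : r ^ 2 ≤ b := by rw [hb]; exact pow_le_pow_left₀ hr hrβ 2
  refine frame_tail (by linarith only [hL, hc1, hρc, hρ]) hn hk hr hr1 (by positivity) (integrable_Umaj r (16 / c₀) ρ lam p)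
    (fun g v hv => pen_le_Umaj hn hr hL hl0 hl1 hρ hp hv g) ?_
  rw [integral_Umaj hn]
  have e1 : lam / (1 - lam) = (1 - b) / (1 + b) := by
    have h3 : 1 - lam = (1 + b) / 2 := by rw [hlam]; ring
    rw [h3, hlam, div_div_div_cancel_right₀ (by norm_num)]
  have e2 : lam - b * ((1 - b) / (1 + b)) = c₀ := by
    rw [hlam, hc]
    have : (1 : ℝ) + b ≠ 0 := by (clear * -; positivity)
    field_simp
    ring
  have e3 : (1 : ℝ) / (16 / c₀) = c₀ / 16 := by
    rw [one_div, inv_div]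
  rw [e1, e3]
  have h3 : r ^ 2 * ((1 - b) / (1 + b)) ≤ b * ((1 - b) / (1 + b)) := by
    refine mul_le_mul_of_nonneg_right hrb ?_
    have : 0 ≤ 1 - b := by linarith only [hb1]
    (clear * - hb1; positivity)
  have hr2 : r ^ 2 ≤ 1 := hrb.trans hb1.le
  have h4 : r ^ 2 * (c₀ / 16) ≤ c₀ / 16 := mul_le_of_le_one_left (by positivity) hr2
  have h5 : r ^ 2 * (7 * ρ) ≤ c₀ / 16 :=
    (mul_le_of_le_one_left (by positivity) hr2).trans hρc
  linarith only [h5, h4, h3, e2]

/-- **G5** -/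
theorem uc_whp {β : ℝ} (h0 : 0 ≤ β) (h1 : β < 1) :
    ∃ c₁ > 0, ∃ L > 0, ∃ ρ₀ > 0, ∀ ρ, 0 < ρ → ρ ≤ ρ₀ → ∃ d : ℕ,
      ∀ᶠ i in whpF, UC β c₁ L ρ d (skM i.2) := by
  have hb0 : 0 ≤ β ^ 2 := sq_nonneg _
  have hb1 : β ^ 2 < 1 := by nlinarith
  obtain ⟨c₀, hc⟩ : ∃ c₀ : ℝ, c₀ = (1 - β ^ 2) ^ 2 / (2 * (1 + β ^ 2)) := ⟨_, rfl⟩
  have hc0 : 0 < c₀ := by
    rw [hc]
    have : 0 < 1 - β ^ 2 := by linarith only [hb1]
    positivity
  have hc1 : c₀ ≤ 1 := by
    rw [hc, div_le_one (by (clear * -; positivity))]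
    (by_contra nlg; linarith [mul_nonneg (sub_nonneg.2 hb0) (le_of_lt (sub_pos.2 hb1)), mul_nonneg (sub_nonneg.2 hb0) (sub_nonneg.2 hb0), mul_pos (sub_pos.2 (not_le.1 nlg)) (sub_pos.2 hb1), mul_nonneg (le_of_lt (sub_pos.2 (not_le.1 nlg))) (sub_nonneg.2 hb0)])
  refine ⟨c₀ / 8, by positivity, 16 / c₀, by positivity, c₀ / 112, by positivity, ?_⟩
  intro ρ hρ hρ0
  set N : ℕ := ⌈1 / ρ⌉₊ with hN
  set M : ℕ := ⌈28 / c₀⌉₊ with hM
  have hN0 : 0 < N := Nat.ceil_pos.2 (by positivity)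
  have hM0 : 0 < M := Nat.ceil_pos.2 (by positivity)
  have hN' : (0 : ℝ) < N := by exact_mod_cast hN0
  have hM' : (0 : ℝ) < M := by exact_mod_cast hM0
  have hN1 : 1 / (N : ℝ) ≤ ρ := by
    rw [div_le_iff₀ hN', ← div_le_iff₀' hρ]
    exact Nat.le_ceil _
  have hM1 : 1 / (M : ℝ) ≤ c₀ / 28 := by
    have : 28 / c₀ ≤ M := Nat.le_ceil _
    rw [div_le_iff₀ hc0] at this
    rw [div_le_div_iff₀ hM' (by norm_num)]
    linarith only [this]
  set a : ℝ := (3 * c₀ / 8) ^ 2 / 8 with ha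
  have ha0 : 0 < a := by positivity
  set k : ℕ := ⌈(Real.log N + 1) / a⌉₊ + 1 with hk
  have hk0 : 0 < k := Nat.succ_pos _
  have hka : Real.log N + 1 ≤ k * a := by
    have h2 : (Real.log N + 1) / a ≤ (⌈(Real.log N + 1) / a⌉₊ : ℝ) := Nat.le_ceil _
    rw [div_le_iff₀ ha0] at h2
    have h3 : ((⌈(Real.log N + 1) / a⌉₊ : ℕ) : ℝ) * a ≤ k * a := by
      refine mul_le_mul_of_nonneg_right ?_ ha0.le
      rw [hk]; push_cast; linarith only [hρ0, hρ, hc1]
    linarith only [h3, h2]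
  refine ⟨k, ?_⟩
  obtain ⟨a₁, ha₁, N₁, hN₁⟩ := opLe_three
  refine eventually_whpF_of_real
    (fun n : ℕ => Real.exp (-(a₁ * n)) + (M + 1) * Real.exp (-(n : ℝ))) ?_ ?_
  · have t0 : Tendsto (fun n : ℕ => (n : ℝ)) atTop atTop := tendsto_natCast_atTop_atTop
    have t1 : Tendsto (fun n : ℕ => Real.exp (-(a₁ * n))) atTop (𝓝 0) :=
      Real.tendsto_exp_neg_atTop_nhds_zero.comp (t0.const_mul_atTop ha₁)
    have t2 : Tendsto (fun n : ℕ => Real.exp (-(n : ℝ))) atTop (𝓝 0) :=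
      Real.tendsto_exp_neg_atTop_nhds_zero.comp t0
    have := t1.add (t2.const_mul ((M : ℝ) + 1))
    simpa using this
  · filter_upwards [eventually_ge_atTop N₁, eventually_gt_atTop 0] with n hnN hn
    have : IsProbabilityMeasure (disorder n) := by unfold disorder; infer_instance
    set Bad : Fin (M + 1) → (Fin n → Fin N) → Set (Pairs n → ℝ) := fun s t =>
      {g | ∃ V : Fin k → Vec n, Frame V ∧
        k * ((β * (s : ℝ) / M) ^ 2 * (1 - qq (gp N t)) - c₀ / 2)
          < Exc (β * (s : ℝ) / M) (16 / c₀) ρ (skM g) (gp N t) V} with hBad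
    have hsub : {g : Pairs n → ℝ | ¬ UC β (c₀ / 8) (16 / c₀) ρ k (skM g)} ⊆
        {g | ¬ OpLe (skM g) 3} ∪ ⋃ s, ⋃ t, Bad s t := by
      intro g hg
      by_contra hcon
      rw [mem_union, not_or] at hcon
      obtain ⟨hop, hbad⟩ := hcon
      refine hg (uc_of_grid (not_not.1 hop) h0 h1.le (by positivity) (by linarith only [hρ, hρ0]) hc1 hk0 hN0
        hN1 hM0 hM1 fun s t => ?_)
      intro hV
      exact hbad (mem_iUnion.2 ⟨s, mem_iUnion.2 ⟨t, hV⟩⟩)
    have hone : ∀ s t, (disorder n).real (Bad s t) ≤ Real.exp (-(k * a * n)) := by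
      intro s t
      have hs0 : 0 ≤ β * (s : ℝ) / M := by (clear * - h0 hc0; positivity)
      have hs1 : β * (s : ℝ) / M ≤ β := by
        rw [div_le_iff₀ hM']
        refine mul_le_mul_of_nonneg_left ?_ h0
        exact_mod_cast Nat.lt_succ_iff.1 s.2
      have := grid_tail (k := k) h0 h1 hc hρ (by linarith only [hρ0]) hn hk0 hs0 hs1 (gp_lt N t)
      refine this.trans (le_of_eq ?_)
      rw [ha]; congr 1; ring
    have hU : (disorder n).real (⋃ s, ⋃ t, Bad s t)
        ≤ (M + 1) * ((N : ℝ) ^ n * Real.exp (-(k * a * n))) := by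
      refine (measureReal_iUnion_fintype_le _).trans ?_
      calc ∑ s, (disorder n).real (⋃ t, Bad s t)
          ≤ ∑ _s : Fin (M + 1), (N : ℝ) ^ n * Real.exp (-(k * a * n)) := by
            refine Finset.sum_le_sum fun s _ => ?_
            refine (measureReal_iUnion_fintype_le _).trans ?_
            calc ∑ t, (disorder n).real (Bad s t)
                ≤ ∑ _t : Fin n → Fin N, Real.exp (-(k * a * n)) :=
                  Finset.sum_le_sum fun t _ => hone s t
              _ = _ := by simp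
        _ = _ := by simp
    have hfin : (N : ℝ) ^ n * Real.exp (-(k * a * n)) ≤ Real.exp (-(n : ℝ)) := by
      have e1 : (N : ℝ) ^ n = Real.exp (n * Real.log N) := by
        rw [mul_comm, Real.exp_mul, Real.exp_log hN', Real.rpow_natCast]
      rw [e1, ← Real.exp_add]
      refine Real.exp_le_exp.2 ?_
      have hn' : (0 : ℝ) ≤ n := Nat.cast_nonneg n
      (by_contra nlg; linarith only [nlg, mul_nonneg (sub_nonneg.2 hka) (sub_nonneg.2 hn'), mul_nonneg (le_of_lt (sub_pos.2 (not_le.1 nlg))) (sub_nonneg.2 hρ0), mul_pos (sub_pos.2 (not_le.1 nlg)) (sub_pos.2 hρ), mul_nonneg (le_of_lt (sub_pos.2 (not_le.1 nlg))) (sub_nonneg.2 hc1)])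
    calc (disorder n).real {g : Pairs n → ℝ | ¬ UC β (c₀ / 8) (16 / c₀) ρ k (skM g)}
        ≤ (disorder n).real ({g | ¬ OpLe (skM g) 3} ∪ ⋃ s, ⋃ t, Bad s t) := measureReal_mono hsub
      _ ≤ _ := measureReal_union_le _ _
      _ ≤ Real.exp (-(a₁ * n)) + (M + 1) * Real.exp (-(n : ℝ)) := by
        refine add_le_add (hN₁ n hnN) (hU.trans ?_)
        exact mul_le_mul_of_nonneg_left hfin (by positivity)

end Vale.Agent.P150.F
end

section

/-! P150 FULL, D2 Step 2: norm bounds for derivative matrices. -/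

open Finset
open scoped Matrix

namespace Vale.Agent.P150.F.D2.Der

variable {n : ℕ}

/-- sum of the fourth powers of the entries -/
def l4 (A : Mat n) : ℝ := ∑ i, ∑ j, A i j ^ 4

lemma l4_nn (A : Mat n) : 0 ≤ l4 A :=
  Finset.sum_nonneg fun _ _ => Finset.sum_nonneg fun _ _ => by positivity

lemma l4_add_le (A B : Mat n) : l4 (A + B) ≤ 8 * (l4 A + l4 B) := by
  unfold l4
  rw [← Finset.sum_add_distrib, Finset.mul_sum]
  refine Finset.sum_le_sum fun i _ => ?_
  rw [← Finset.sum_add_distrib, Finset.mul_sum]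
  refine Finset.sum_le_sum fun j _ => ?_
  rw [Matrix.add_apply]
  have h1 : (A i j + B i j) ^ 2 ≤ 2 * (A i j ^ 2 + B i j ^ 2) := by
    linarith only [sq_nonneg (A i j - B i j)]
  have h2 : ((A i j + B i j) ^ 2) ^ 2 ≤ (2 * (A i j ^ 2 + B i j ^ 2)) ^ 2 :=
    pow_le_pow_left₀ (sq_nonneg _) h1 2
  linarith only [sq_nonneg (A i j ^ 2 - B i j ^ 2), h2]

lemma l4_le_hsq {A : Mat n} {C : ℝ} (h : ∀ i j, A i j ^ 2 ≤ C) : l4 A ≤ C * hsq A := by
  unfold l4 hsq
  rw [Finset.mul_sum]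
  refine Finset.sum_le_sum fun i _ => ?_
  rw [Finset.mul_sum]
  refine Finset.sum_le_sum fun j _ => ?_
  linarith only [mul_nonneg (sub_nonneg.2 (h i j)) (sq_nonneg (A i j))]

lemma d2_col {A : Mat n} {C : ℝ} (h : OpLe A C) (j : Fin n) : ∑ i, A i j ^ 2 ≤ C ^ 2 := by
  have h1 := h (Pi.single j 1)
  have h2 : A.mulVec (Pi.single j 1) = fun i => A i j := by
    funext i
    simp
  have h3 : sq (Pi.single j 1 : Vec n) = 1 := by
    unfold sq
    rw [Finset.sum_eq_single j]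
    · simp
    · intro i _ hi
      simp [hi]
    · simp
  rw [h2, h3, mul_one] at h1
  exact h1

lemma d2_row {A : Mat n} {C : ℝ} (h : OpLe A C) (i : Fin n) : ∑ j, A i j ^ 2 ≤ C ^ 2 := by
  have h1 := d2_col h.transpose i
  simpa using h1

lemma d2_entry {A : Mat n} {C : ℝ} (h : OpLe A C) (i j : Fin n) : A i j ^ 2 ≤ C ^ 2 :=
  (Finset.single_le_sum (f := fun j => A i j ^ 2) (fun _ _ => sq_nonneg _)
    (Finset.mem_univ j)).trans (d2_row h i)

lemma d2_add {A B : Mat n} {a b : ℝ} (ha : 0 ≤ a) (hb : 0 ≤ b) (hA : OpLe A a) (hB : OpLe B b) :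
    OpLe (A + B) (a + b) := by
  intro v
  have e : sq ((A + B).mulVec v) = sq (A.mulVec v) + 2 * ip (A.mulVec v) (B.mulVec v) +
      sq (B.mulVec v) := by
    rw [Matrix.add_mulVec]
    unfold sq ip
    rw [Finset.mul_sum, ← Finset.sum_add_distrib, ← Finset.sum_add_distrib]
    refine Finset.sum_congr rfl fun i _ => ?_
    rw [Pi.add_apply]
    ring
  have h1 := hA v
  have h2 := hB v
  have h3 : ip (A.mulVec v) (B.mulVec v) ≤ a * b * sq v := by
    refine le_of_sq_le_sq' ?_ (mul_nonneg (mul_nonneg ha hb) (sq_nn v))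
    refine (Vale.Agent.P150.F.ip_sq_le _ _).trans ?_
    calc sq (A.mulVec v) * sq (B.mulVec v) ≤ (a ^ 2 * sq v) * (b ^ 2 * sq v) :=
          mul_le_mul h1 h2 (sq_nn _) (mul_nonneg (sq_nonneg a) (sq_nn v))
      _ = (a * b * sq v) ^ 2 := by ring
  rw [e]
  linarith only [h1, h2, h3]
where
  le_of_sq_le_sq' {x y : ℝ} (h : x ^ 2 ≤ y ^ 2) (hy : 0 ≤ y) : x ≤ y := by
    by_contra hc
    push Not at hc
    linarith only [h, mul_nonneg (sub_nonneg.2 hy) (le_of_lt (sub_pos.2 hc)), mul_pos (sub_pos.2 hc) (sub_pos.2 hc)]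

lemma d2_smul {A : Mat n} {a : ℝ} (hA : OpLe A a) (c : ℝ) : OpLe (c • A) (|c| * a) := by
  intro v
  rw [Matrix.smul_mulVec]
  have e : sq (c • A.mulVec v) = c ^ 2 * sq (A.mulVec v) := by
    unfold sq
    rw [Finset.mul_sum]
    refine Finset.sum_congr rfl fun i _ => ?_
    rw [Pi.smul_apply, smul_eq_mul]
    ring
  rw [e, mul_pow, sq_abs, mul_assoc]
  exact mul_le_mul_of_nonneg_left (hA v) (sq_nonneg c)

lemma d2_neg {A : Mat n} {a : ℝ} (hA : OpLe A a) : OpLe (-A) a := by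
  have h := d2_smul hA (-1)
  simpa using h

lemma d2_sub {A B : Mat n} {a b : ℝ} (ha : 0 ≤ a) (hb : 0 ≤ b) (hA : OpLe A a) (hB : OpLe B b) :
    OpLe (A - B) (a + b) := by
  rw [sub_eq_add_neg]
  exact d2_add ha hb hA (d2_neg hB)

lemma d2_smul_le {A : Mat n} {a c : ℝ} (ha : 0 ≤ a) (hA : OpLe A a) (hc : |c| ≤ 1) :
    OpLe (c • A) a :=
  (d2_smul hA c).mono (mul_nonneg (abs_nonneg _) ha) (mul_le_of_le_one_left ha hc)

lemma hsq_vecMulVec (u v : Vec n) : hsq (Matrix.vecMulVec u v) = sq u * sq v := by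
  unfold hsq sq
  rw [Finset.sum_mul_sum]
  refine Finset.sum_congr rfl fun i _ => Finset.sum_congr rfl fun j _ => ?_
  rw [Matrix.vecMulVec_apply]
  ring

/-- operator norm at most Hilbert-Schmidt norm -/
lemma d2_opLe_of_hsq {A : Mat n} {K : ℝ} (h : hsq A ≤ K ^ 2) : OpLe A K := by
  intro v
  have h1 := opLe_hs A v
  rw [hs_sq] at h1
  exact h1.trans (mul_le_mul_of_nonneg_right h (sq_nn v))

/-- Schur test for matrices dominated by entrywise squares -/
lemma d2_schur {R B : Mat n} {c C : ℝ} (hc : 0 ≤ c) (hB : OpLe B C)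
    (h : ∀ i j, |R i j| ≤ c * B i j ^ 2) : OpLe R (c * C ^ 2) := by
  intro v
  have h1 : ∀ i, (R.mulVec v i) ^ 2 ≤ c ^ 2 * C ^ 2 * ∑ j, B i j ^ 2 * v j ^ 2 := by
    intro i
    have h2 : |R.mulVec v i| ≤ c * ∑ j, |B i j| * (|B i j| * |v j|) := by
      rw [Matrix.mulVec, dotProduct]
      refine (Finset.abs_sum_le_sum_abs _ _).trans ?_
      rw [Finset.mul_sum]
      refine Finset.sum_le_sum fun j _ => ?_
      rw [abs_mul]
      calc |R i j| * |v j| ≤ (c * B i j ^ 2) * |v j| :=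
            mul_le_mul_of_nonneg_right (h i j) (abs_nonneg _)
        _ = c * (|B i j| * (|B i j| * |v j|)) := by rw [← sq_abs (B i j)]; ring
    have h3 : (∑ j, |B i j| * (|B i j| * |v j|)) ^ 2 ≤ (∑ j, B i j ^ 2) *
        ∑ j, B i j ^ 2 * v j ^ 2 := by
      have := Finset.sum_mul_sq_le_sq_mul_sq Finset.univ (fun j => |B i j|)
        (fun j => |B i j| * |v j|)
      simpa [sq_abs, mul_pow] using this
    have h4 : (R.mulVec v i) ^ 2 ≤ (c * ∑ j, |B i j| * (|B i j| * |v j|)) ^ 2 := by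
      rw [← sq_abs (R.mulVec v i)]
      exact pow_le_pow_left₀ (abs_nonneg _) h2 2
    refine h4.trans ?_
    rw [mul_pow, mul_assoc]
    refine mul_le_mul_of_nonneg_left (h3.trans ?_) (sq_nonneg c)
    exact mul_le_mul_of_nonneg_right (d2_row hB i)
      (Finset.sum_nonneg fun j _ => mul_nonneg (sq_nonneg _) (sq_nonneg _))
  calc sq (R.mulVec v) ≤ ∑ i, c ^ 2 * C ^ 2 * ∑ j, B i j ^ 2 * v j ^ 2 :=
        Finset.sum_le_sum fun i _ => h1 i
    _ = c ^ 2 * C ^ 2 * ∑ j, (∑ i, B i j ^ 2) * v j ^ 2 := by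
        rw [← Finset.mul_sum, Finset.sum_comm]
        simp only [Finset.sum_mul]
    _ ≤ c ^ 2 * C ^ 2 * ∑ j, C ^ 2 * v j ^ 2 := by
        refine mul_le_mul_of_nonneg_left (Finset.sum_le_sum fun j _ => ?_) (by positivity)
        exact mul_le_mul_of_nonneg_right (d2_col hB j) (sq_nonneg _)
    _ = (c * C ^ 2) ^ 2 * sq v := by
        rw [← Finset.mul_sum]
        unfold sq
        ring

lemma d2_schur_hsq {R B : Mat n} {c : ℝ} (h : ∀ i j, |R i j| ≤ c * B i j ^ 2) :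
    hsq R ≤ c ^ 2 * l4 B := by
  unfold hsq l4
  rw [Finset.mul_sum]
  refine Finset.sum_le_sum fun i _ => ?_
  rw [Finset.mul_sum]
  refine Finset.sum_le_sum fun j _ => ?_
  calc R i j ^ 2 = |R i j| ^ 2 := (sq_abs _).symm
    _ ≤ (c * B i j ^ 2) ^ 2 := pow_le_pow_left₀ (abs_nonneg _) (h i j) 2
    _ = c ^ 2 * B i j ^ 4 := by ring

/-- gradient of the overlap -/
lemma d2_gr_qq {G : Cfg n → Vec n} {x : Cfg n} {C : ℝ} (hG : OpLe (DD G x) C)
    (h1 : ∀ j, |G x j| ≤ 1) : sq (gr (fun z => qq (G z)) x) * n ≤ 8 * (C ^ 2 + C ^ 4) := by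
  rcases Nat.eq_zero_or_pos n with h0 | h0
  · subst h0
    simp only [Nat.cast_zero, mul_zero]
    positivity
  have hn : (0 : ℝ) < n := by exact_mod_cast h0
  have e : ∀ i, gr (fun z => qq (G z)) x i =
      (2 / n) * ((DD G x)ᵀ.mulVec (G x) i - sp (x i) * ∑ j, DD G x j i ^ 2) := by
    intro i
    have e1 : (fun z => qq (G z)) = fun z => (1 / (n : ℝ)) * ∑ j, G z j * G z j := by
      funext z
      unfold qq sq
      rw [div_eq_mul_one_div, mul_comm]
      congr 1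
      exact Finset.sum_congr rfl fun j _ => by ring
    show dd i (fun z => qq (G z)) x = _
    rw [e1, dd_const_mul, dd_sum]
    have e2 : ∀ j, dd i (fun z => G z j * G z j) x =
        2 * (DD G x j i * G x j) - 2 * (sp (x i) * DD G x j i ^ 2) := by
      intro j
      rw [dd_mul, DD_apply]
      ring
    simp only [e2]
    rw [Finset.sum_sub_distrib, ← Finset.mul_sum, ← Finset.mul_sum, ← Finset.mul_sum]
    have e3 : (DD G x)ᵀ.mulVec (G x) i = ∑ j, DD G x j i * G x j := rfl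
    rw [e3]
    ring
  have h2 : ∀ i, gr (fun z => qq (G z)) x i ^ 2 ≤ (8 / n ^ 2) *
      ((DD G x)ᵀ.mulVec (G x) i ^ 2 + C ^ 2 * ∑ j, DD G x j i ^ 2) := by
    intro i
    rw [e i]
    have h3 : (∑ j, DD G x j i ^ 2) ^ 2 ≤ C ^ 2 * ∑ j, DD G x j i ^ 2 := by
      have := d2_col hG i
      have h4 : 0 ≤ ∑ j, DD G x j i ^ 2 := Finset.sum_nonneg fun _ _ => sq_nonneg _
      linarith only [mul_nonneg (sub_nonneg.2 this) (sub_nonneg.2 h4)]
    have h5 : (sp (x i) * ∑ j, DD G x j i ^ 2) ^ 2 = (∑ j, DD G x j i ^ 2) ^ 2 := by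
      rw [mul_pow, pow_two (sp (x i)), sp_sq, one_mul]
    have h6 : ((DD G x)ᵀ.mulVec (G x) i - sp (x i) * ∑ j, DD G x j i ^ 2) ^ 2 ≤
        2 * ((DD G x)ᵀ.mulVec (G x) i ^ 2 + (sp (x i) * ∑ j, DD G x j i ^ 2) ^ 2) := by
      linarith only [sq_nonneg ((DD G x)ᵀ.mulVec (G x) i + sp (x i) * ∑ j, DD G x j i ^ 2)]
    rw [mul_pow, div_pow]
    calc 2 ^ 2 / (n : ℝ) ^ 2 * ((DD G x)ᵀ.mulVec (G x) i - sp (x i) * ∑ j, DD G x j i ^ 2) ^ 2
        ≤ 2 ^ 2 / (n : ℝ) ^ 2 * (2 * ((DD G x)ᵀ.mulVec (G x) i ^ 2 +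
            C ^ 2 * ∑ j, DD G x j i ^ 2)) := by
          refine mul_le_mul_of_nonneg_left (h6.trans ?_) (by positivity)
          rw [h5]
          linarith only [h3]
      _ = _ := by ring
  have h7 : sq ((DD G x)ᵀ.mulVec (G x)) ≤ C ^ 2 * n := by
    refine (hG.transpose (G x)).trans (mul_le_mul_of_nonneg_left ?_ (sq_nonneg C))
    unfold sq
    calc ∑ i, G x i ^ 2 ≤ ∑ _i : Fin n, (1 : ℝ) := Finset.sum_le_sum fun i _ => by
          rw [← sq_abs]
          exact pow_le_one₀ (abs_nonneg _) (h1 i)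
      _ = n := by simp
  have h8 : ∑ i, ∑ j, DD G x j i ^ 2 ≤ C ^ 2 * n := by
    refine (Finset.sum_le_sum fun i _ => d2_col hG i).trans ?_
    simp [mul_comm]
  calc sq (gr (fun z => qq (G z)) x) * n
      ≤ (∑ i, (8 / (n : ℝ) ^ 2) *
          ((DD G x)ᵀ.mulVec (G x) i ^ 2 + C ^ 2 * ∑ j, DD G x j i ^ 2)) * n :=
        mul_le_mul_of_nonneg_right (Finset.sum_le_sum fun i _ => h2 i) hn.le
    _ = (8 / (n : ℝ) ^ 2) * (sq ((DD G x)ᵀ.mulVec (G x)) +
          C ^ 2 * ∑ i, ∑ j, DD G x j i ^ 2) * n := by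
        rw [← Finset.mul_sum, Finset.sum_add_distrib, ← Finset.mul_sum]
        rfl
    _ ≤ (8 / (n : ℝ) ^ 2) * (C ^ 2 * n + C ^ 2 * (C ^ 2 * n)) * n := by
        gcongr
    _ = 8 * (C ^ 2 + C ^ 4) := by
        field_simp

end Vale.Agent.P150.F.D2.Der
end

section

/-! P150 FULL, D2 Step 2: the derivatives of the AMP fields. -/

open Finset Filter Topology
open scoped Matrix

namespace Vale.Agent.P150.F.D2.Der

variable {n : ℕ}

/-! ### The AMP iterates at fixed size -/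

lemma ampM_succ (M : Mat n) (r : ℝ) (y : Vec n) (x : Cfg n) (k : ℕ) :
    ampM M r y x (k + 1) = fun i => Real.tanh (ampA M r y x k i) := by
  cases k <;> rfl

lemma ampM_abs_le (M : Mat n) (r : ℝ) (y : Vec n) (x : Cfg n) (k : ℕ) (j : Fin n) :
    |ampM M r y x k j| ≤ 1 := by
  cases k with
  | zero => exact (sp_abs _).le
  | succ k =>
    rw [ampM_succ]
    exact tanh_abs_le _

lemma qq_bounds {m : Vec n} (h : ∀ i, |m i| ≤ 1) : 0 ≤ qq m ∧ qq m ≤ 1 := by
  unfold qq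
  refine ⟨div_nonneg (sq_nn m) (Nat.cast_nonneg n), ?_⟩
  rcases Nat.eq_zero_or_pos n with rfl | hn
  · simp
  have hn' : (0 : ℝ) < n := by exact_mod_cast hn
  rw [div_le_one hn']
  calc sq m ≤ ∑ _i : Fin n, (1 : ℝ) := Finset.sum_le_sum fun i _ => by
        rw [← sq_abs]
        exact pow_le_one₀ (abs_nonneg _) (h i)
    _ = n := by simp

/-- derivative of `m^0` -/
lemma DD_m0 (M : Mat n) (r : ℝ) (y : Vec n) (x : Cfg n) :
    DD (fun z => ampM M r y z 0) x = 1 := DD_sv x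

/-- derivative of `a^1` -/
lemma DD_a0 (M : Mat n) (r : ℝ) (y : Vec n) (x : Cfg n) :
    DD (fun z => ampA M r y z 0) x = M := by
  have e : (fun z => ampA M r y z 0) = fun z j => M.mulVec (ampM M r y z 0) j + y j := rfl
  rw [e, DD_add (fun z => M.mulVec (ampM M r y z 0)) (fun _ => y), DD_const, DD_mulVec, DD_m0,
    add_zero, mul_one]

/-- derivative of `m^{k+1}` -/
lemma DD_m_succ (M : Mat n) (r : ℝ) (y : Vec n) (x : Cfg n) (k : ℕ) : ∃ R : Mat n,
    DD (fun z => ampM M r y z (k + 1)) x =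
      dg (fun j => 1 - ampM M r y x (k + 1) j ^ 2) * DD (fun z => ampA M r y z k) x + R ∧
    ∀ j i, |R j i| ≤ 4 * DD (fun z => ampA M r y z k) x j i ^ 2 := by
  obtain ⟨R, h1, h2⟩ := DD_tanh (fun z => ampA M r y z k) x
  refine ⟨R, ?_, h2⟩
  have e : (fun z => ampM M r y z (k + 1)) = fun z j => Real.tanh (ampA M r y z k j) := by
    funext z
    rw [ampM_succ]
  rw [e, h1, ampM_succ]

/-- the error matrix in the derivative of `a^{k+2}` -/
noncomputable def ErrT (M : Mat n) (r : ℝ) (y : Vec n) (x : Cfg n) (k : ℕ) : Mat n :=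
  Matrix.vecMulVec (ampM M r y x k) (gr (fun z => qq (ampM M r y z (k + 1))) x)
    - (2 : ℝ) • (DD (fun z => ampM M r y z k) x *
        dg (fun i => sp (x i) * gr (fun z => qq (ampM M r y z (k + 1))) x i))

/-- derivative of `a^{k+2}` -/
lemma DD_a_succ (M : Mat n) (r : ℝ) (y : Vec n) (x : Cfg n) (k : ℕ) :
    DD (fun z => ampA M r y z (k + 1)) x = M * DD (fun z => ampM M r y z (k + 1)) x
      - (r ^ 2 * (1 - qq (ampM M r y x (k + 1)))) • DD (fun z => ampM M r y z k) x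
      + r ^ 2 • ErrT M r y x k := by
  have e : (fun z => ampA M r y z (k + 1)) = fun z j =>
      (M.mulVec (ampM M r y z (k + 1)) j + y j)
      - (r ^ 2 * (1 - qq (ampM M r y z (k + 1)))) * ampM M r y z k j := rfl
  rw [e, DD_sub (fun z j => M.mulVec (ampM M r y z (k + 1)) j + y j)
    (fun z j => (r ^ 2 * (1 - qq (ampM M r y z (k + 1)))) * ampM M r y z k j),
    DD_add (fun z => M.mulVec (ampM M r y z (k + 1))) (fun _ => y), DD_const, add_zero,
    DD_mulVec, DD_smul (fun z => r ^ 2 * (1 - qq (ampM M r y z (k + 1))))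
      (fun z => ampM M r y z k)]
  have e1 : gr (fun z => r ^ 2 * (1 - qq (ampM M r y z (k + 1)))) x =
      fun i => -(r ^ 2) * gr (fun z => qq (ampM M r y z (k + 1))) x i := by
    funext i
    show dd i (fun z => r ^ 2 * (1 - qq (ampM M r y z (k + 1)))) x = _
    rw [dd_const_mul, dd_sub i (fun _ => (1 : ℝ)), dd_const]
    show r ^ 2 * (0 - dd i (fun z => qq (ampM M r y z (k + 1))) x) =
      -(r ^ 2) * dd i (fun z => qq (ampM M r y z (k + 1))) x
    ring
  rw [e1]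
  unfold ErrT
  ext j i
  simp only [Matrix.sub_apply, Matrix.add_apply, Matrix.smul_apply, smul_eq_mul,
    Matrix.vecMulVec_apply, dg, Matrix.mul_diagonal]
  ring

/-- bound of the error matrix -/
lemma hsq_ErrT (M : Mat n) (r : ℝ) (y : Vec n) (x : Cfg n) (k : ℕ) {C : ℝ}
    (h1 : OpLe (DD (fun z => ampM M r y z k) x) C)
    (h2 : OpLe (DD (fun z => ampM M r y z (k + 1)) x) C) :
    hsq (ErrT M r y x k) ≤ 16 * (C ^ 2 + C ^ 4) * (1 + 4 * C ^ 2) := by
  rcases Nat.eq_zero_or_pos n with h0 | h0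
  · subst h0
    have : hsq (ErrT M r y x k) = 0 := by simp [hsq]
    rw [this]
    (clear * -; positivity)
  have hn : (1 : ℝ) ≤ n := by exact_mod_cast h0
  have hg := d2_gr_qq h2 (fun j => ampM_abs_le M r y x (k + 1) j)
  set g := gr (fun z => qq (ampM M r y z (k + 1))) x with hgd
  have hg' : sq g ≤ 8 * (C ^ 2 + C ^ 4) := by
    refine le_trans ?_ hg
    exact le_mul_of_one_le_right (sq_nn g) hn
  have hm : sq (ampM M r y x k) ≤ n := by
    have := (qq_bounds (fun j => ampM_abs_le M r y x k j)).2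
    unfold qq at this
    rwa [div_le_one (by linarith only [hn])] at this
  have e1 : hsq (Matrix.vecMulVec (ampM M r y x k) g) ≤ 8 * (C ^ 2 + C ^ 4) := by
    rw [hsq_vecMulVec]
    calc sq (ampM M r y x k) * sq g ≤ n * sq g := mul_le_mul_of_nonneg_right hm (sq_nn g)
      _ = sq g * n := mul_comm _ _
      _ ≤ _ := hg
  have e2 : hsq ((2 : ℝ) • (DD (fun z => ampM M r y z k) x *
        dg (fun i => sp (x i) * g i))) ≤ 4 * C ^ 2 * (8 * (C ^ 2 + C ^ 4)) := by
    rw [hsq_smul]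
    have e3 : hsq (dg (fun i => sp (x i) * g i)) = sq g := by
      unfold hsq sq dg
      refine Finset.sum_congr rfl fun i _ => ?_
      rw [Finset.sum_eq_single i]
      · rw [Matrix.diagonal_apply_eq, mul_pow, pow_two (sp (x i)), sp_sq, one_mul]
      · intro j _ hj
        rw [Matrix.diagonal_apply_ne _ hj.symm]
        simp
      · intro h
        exact absurd (Finset.mem_univ i) h
    have e4 := hsq_mul_le h1 (dg (fun i => sp (x i) * g i))
    rw [e3] at e4
    calc (2 : ℝ) ^ 2 * hsq (DD (fun z => ampM M r y z k) x * dg (fun i => sp (x i) * g i))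
        ≤ 2 ^ 2 * (C ^ 2 * sq g) := mul_le_mul_of_nonneg_left e4 (by norm_num)
      _ ≤ 2 ^ 2 * (C ^ 2 * (8 * (C ^ 2 + C ^ 4))) := by gcongr
      _ = _ := by ring
  unfold ErrT
  rw [← hgd]
  refine (hsq_sub_le _ _).trans ?_
  linarith only [e1, e2]

end Vale.Agent.P150.F.D2.Der
end

section

/-! P150 FULL, D2 Step 2: `DerA` and `MacT`. -/

open Finset Filter Topology
open scoped Matrix

namespace Vale.Agent.P150.F.D2.Der

/-! ### Fixed data -/

section Fixed

variable (d : Dat) (x : Cfg d.n)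

lemma m_abs_le (k : ℕ) (j : Fin d.n) : |d.m x k j| ≤ 1 := ampM_abs_le _ _ _ _ _ _

lemma S_bounds (k : ℕ) (j : Fin d.n) : 0 ≤ d.S x k j ∧ d.S x k j ≤ 1 := by
  have h := m_abs_le d x k j
  have h1 : d.m x k j ^ 2 ≤ 1 := by
    rw [← sq_abs]
    exact pow_le_one₀ (abs_nonneg _) h
  have h2 := sq_nonneg (d.m x k j)
  unfold Dat.S
  constructor <;> linarith

lemma S_abs_le (k : ℕ) (j : Fin d.n) : |d.S x k j| ≤ 1 := by
  have h := S_bounds d x k j
  rw [abs_of_nonneg h.1]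
  exact h.2

lemma trN_S (hn : 0 < d.n) (k : ℕ) : trN (dg (d.S x k)) = 1 - qq (d.m x k) := by
  have hn' : (d.n : ℝ) ≠ 0 := by exact_mod_cast hn.ne'
  unfold trN qq sq dg Dat.S
  simp only [Matrix.diagonal_apply_eq]
  rw [Finset.sum_sub_distrib, sub_div]
  simp [hn']

lemma t_succ (hn : 0 < d.n) (k : ℕ) : tS (d.S x) (k + 1) = 1 - qq (d.m x (k + 1)) := by
  unfold tS
  rw [if_neg (Nat.succ_ne_zero k), trN_S d x hn]

lemma opLe_M {K : ℝ} (hK : 0 ≤ K) (hJ : OpLe d.J 3) (h0 : 0 ≤ d.r) (h1 : d.r ≤ 1)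
    (hA : hsq d.A ≤ K ^ 2) : OpLe d.M (3 + K) := by
  unfold Dat.M
  refine d2_sub (by norm_num) hK (d2_smul_le (by norm_num) hJ ?_) (d2_opLe_of_hsq hA)
  rw [abs_of_nonneg h0]
  exact h1

/-- the constant for the error matrix -/
noncomputable def cE (C : ℝ) : ℝ := 16 * (C ^ 2 + C ^ 4) * (1 + 4 * C ^ 2)

lemma cE_nonneg (C : ℝ) : 0 ≤ cE C := by unfold cE; positivity

lemma opLe_m_succ {C : ℝ} (hC : 0 ≤ C) (k : ℕ)
    (h : OpLe (DD (fun z => d.a z (k + 1)) x) C) :
    OpLe (DD (fun z => d.m z (k + 1)) x) (C + 4 * C ^ 2) := by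
  obtain ⟨R, h1, h2⟩ := DD_m_succ d.M d.r d.y x k
  show OpLe (DD (fun z => ampM d.M d.r d.y z (k + 1)) x) (C + 4 * C ^ 2)
  rw [h1]
  refine d2_add hC (by positivity) ?_ (d2_schur (by norm_num) h h2)
  have h3 := (OpLe.dg (a := fun j => 1 - ampM d.M d.r d.y x (k + 1) j ^ 2)
    (fun j => S_abs_le d x (k + 1) j)).mul h
  rwa [one_mul] at h3

lemma opLe_a_succ {C K : ℝ} (hC : 0 ≤ C) (hK : 0 ≤ K) (hJ : OpLe d.J 3) (h0 : 0 ≤ d.r)
    (h1 : d.r ≤ 1) (hA : hsq d.A ≤ K ^ 2) (k : ℕ)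
    (h2 : OpLe (DD (fun z => d.m z k) x) C) (h3 : OpLe (DD (fun z => d.m z (k + 1)) x) C) :
    OpLe (DD (fun z => d.a z (k + 2)) x) ((3 + K) * C + C + (1 + cE C)) := by
  show OpLe (DD (fun z => ampA d.M d.r d.y z (k + 1)) x) _
  rw [DD_a_succ]
  have hr2 : |d.r ^ 2| ≤ 1 := by
    rw [abs_of_nonneg (sq_nonneg _)]
    exact pow_le_one₀ h0 h1
  have hq := qq_bounds (m_abs_le d x (k + 1))
  have ht : |d.r ^ 2 * (1 - qq (ampM d.M d.r d.y x (k + 1)))| ≤ 1 := by
    rw [abs_mul]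
    refine mul_le_one₀ hr2 (abs_nonneg _) ?_
    rw [abs_le]
    have hq1 : 0 ≤ qq (ampM d.M d.r d.y x (k + 1)) := hq.1
    have hq2 : qq (ampM d.M d.r d.y x (k + 1)) ≤ 1 := hq.2
    constructor <;> linarith
  have hE : OpLe (ErrT d.M d.r d.y x k) (1 + cE C) := by
    refine d2_opLe_of_hsq ((hsq_ErrT d.M d.r d.y x k h2 h3).trans ?_)
    have := cE_nonneg C
    show cE C ≤ (1 + cE C) ^ 2
    (by_contra nlg; linarith only [mul_nonneg (le_of_lt (sub_pos.2 (not_le.1 nlg))) (sub_nonneg.2 h0), mul_nonneg (le_of_lt (sub_pos.2 (not_le.1 nlg))) (sub_nonneg.2 h1), mul_nonneg (sub_nonneg.2 h0) (sub_nonneg.2 this), mul_nonneg (sub_nonneg.2 h1) (sub_nonneg.2 this), mul_nonneg (sub_nonneg.2 this) (sub_nonneg.2 this)])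
  have hE0 : (0 : ℝ) ≤ 1 + cE C := by linarith [cE_nonneg C]
  refine d2_add (by (clear * - hK hC; positivity)) hE0 (d2_sub (by (clear * - hK hC; positivity)) hC
    ((opLe_M d hK hJ h0 h1 hA).mul h3) (d2_smul_le hC h2 ht)) (d2_smul_le hE0 hE hr2)

/-- recursion for `a`: Hilbert-Schmidt error -/
lemma err_a {C : ℝ} (hn : 0 < d.n) (hJ : OpLe d.J 3) (h0 : 0 ≤ d.r) (h1 : d.r ≤ 1) (k : ℕ)
    (h2 : OpLe (DD (fun z => d.m z k) x) C) (h3 : OpLe (DD (fun z => d.m z (k + 1)) x) C) :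
    hsq (DD (fun z => d.a z (k + 2)) x - d.MM x (k + 2)) ≤
      72 * hsq (DD (fun z => d.m z (k + 1)) x - Qm d.J d.r (d.S x) (k + 1))
      + 4 * hsq (DD (fun z => d.m z k) x - Qm d.J d.r (d.S x) k)
      + (8 * (C ^ 2 * hsq d.A) + 2 * cE C) := by
  have hr2 : d.r ^ 2 ≤ 1 := pow_le_one₀ h0 h1
  have hr20 : 0 ≤ d.r ^ 2 := sq_nonneg _
  have hq := qq_bounds (m_abs_le d x (k + 1))
  have e : DD (fun z => d.a z (k + 2)) x - d.MM x (k + 2) =
      d.r • (d.J * (DD (fun z => d.m z (k + 1)) x - Qm d.J d.r (d.S x) (k + 1)))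
      - d.A * DD (fun z => d.m z (k + 1)) x
      - (d.r ^ 2 * (1 - qq (d.m x (k + 1)))) • (DD (fun z => d.m z k) x - Qm d.J d.r (d.S x) k)
      + d.r ^ 2 • ErrT d.M d.r d.y x k := by
    have e1 : DD (fun z => d.a z (k + 2)) x = d.M * DD (fun z => d.m z (k + 1)) x
      - (d.r ^ 2 * (1 - qq (d.m x (k + 1)))) • DD (fun z => d.m z k) x
      + d.r ^ 2 • ErrT d.M d.r d.y x k := DD_a_succ d.M d.r d.y x k
    have e2 : d.MM x (k + 2) = d.r • (d.J * Qm d.J d.r (d.S x) (k + 1)) -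
        (d.r ^ 2 * (1 - qq (d.m x (k + 1)))) • Qm d.J d.r (d.S x) k := by
      unfold Dat.MM
      rw [Mm_two, t_succ d x hn]
    rw [e1, e2]
    unfold Dat.M
    rw [Matrix.sub_mul, Matrix.smul_mul, Matrix.mul_sub, smul_sub, smul_sub]
    abel
  rw [e]
  set X1 := DD (fun z => d.m z (k + 1)) x - Qm d.J d.r (d.S x) (k + 1)
  set X2 := DD (fun z => d.m z k) x - Qm d.J d.r (d.S x) k
  have b1 : hsq (d.r • (d.J * X1)) ≤ 9 * hsq X1 := by
    rw [hsq_smul]
    have := hsq_mul_le hJ X1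
    have h4 := hsq_nn (d.J * X1)
    linarith only [mul_nonneg (sub_nonneg.2 hr2) (sub_nonneg.2 this), mul_nonneg (sub_nonneg.2 hr2) (sub_nonneg.2 h4), mul_nonneg (sub_nonneg.2 hr20) (sub_nonneg.2 this)]
  have b2 : hsq (d.A * DD (fun z => d.m z (k + 1)) x) ≤ C ^ 2 * hsq d.A := hsq_mul_le' h3 d.A
  have b3 : hsq ((d.r ^ 2 * (1 - qq (d.m x (k + 1)))) • X2) ≤ hsq X2 := by
    rw [hsq_smul]
    have h5 : 0 ≤ d.r ^ 2 * (1 - qq (d.m x (k + 1))) := mul_nonneg hr20 (by linarith only [hq.2])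
    have h6 : d.r ^ 2 * (1 - qq (d.m x (k + 1))) ≤ 1 :=
      mul_le_one₀ hr2 (by linarith only [hq.2]) (by linarith [hq.1])
    have h7 : (d.r ^ 2 * (1 - qq (d.m x (k + 1)))) ^ 2 ≤ 1 := pow_le_one₀ h5 h6
    exact mul_le_of_le_one_left (hsq_nn X2) h7
  have b4 : hsq (d.r ^ 2 • ErrT d.M d.r d.y x k) ≤ cE C := by
    rw [hsq_smul]
    have h8 := hsq_ErrT d.M d.r d.y x k h2 h3
    have h9 : (d.r ^ 2) ^ 2 ≤ 1 := pow_le_one₀ hr20 hr2
    exact (mul_le_of_le_one_left (hsq_nn _) h9).trans h8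
  have c1 := hsq_add_le (d.r • (d.J * X1) - d.A * DD (fun z => d.m z (k + 1)) x
      - (d.r ^ 2 * (1 - qq (d.m x (k + 1)))) • X2) (d.r ^ 2 • ErrT d.M d.r d.y x k)
  have c2 := hsq_sub_le (d.r • (d.J * X1) - d.A * DD (fun z => d.m z (k + 1)) x)
    ((d.r ^ 2 * (1 - qq (d.m x (k + 1)))) • X2)
  have c3 := hsq_sub_le (d.r • (d.J * X1)) (d.A * DD (fun z => d.m z (k + 1)) x)
  linarith only [b1, b2, b3, b4, c1, c2, c3]

/-- recursion for `m`: Hilbert-Schmidt error -/
lemma err_m (k : ℕ) :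
    hsq (DD (fun z => d.m z (k + 1)) x - Qm d.J d.r (d.S x) (k + 1)) ≤
      2 * hsq (DD (fun z => d.a z (k + 1)) x - d.MM x (k + 1))
      + 32 * l4 (DD (fun z => d.a z (k + 1)) x) := by
  obtain ⟨R, h1, h2⟩ := DD_m_succ d.M d.r d.y x k
  have e : DD (fun z => d.m z (k + 1)) x - Qm d.J d.r (d.S x) (k + 1) =
      dg (d.S x (k + 1)) * (DD (fun z => d.a z (k + 1)) x - d.MM x (k + 1)) + R := by
    have e1 : DD (fun z => d.m z (k + 1)) x = dg (d.S x (k + 1)) *
        DD (fun z => d.a z (k + 1)) x + R := h1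
    rw [e1, Qm_succ, Matrix.mul_sub]
    show _ = dg (d.S x (k + 1)) * DD (fun z => d.a z (k + 1)) x -
      dg (d.S x (k + 1)) * Mm d.J d.r (d.S x) (k + 1) + R
    abel
  rw [e]
  have b1 := hsq_dg_mul_le (a := d.S x (k + 1)) (C := 1) (S_abs_le d x (k + 1))
    (DD (fun z => d.a z (k + 1)) x - d.MM x (k + 1))
  have b2 : hsq R ≤ 4 ^ 2 * l4 (DD (fun z => d.a z (k + 1)) x) := d2_schur_hsq h2
  have b3 := hsq_add_le (dg (d.S x (k + 1)) * (DD (fun z => d.a z (k + 1)) x - d.MM x (k + 1))) R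
  linarith only [b3, b2, b1]

/-- `ℓ⁴` bound -/
lemma err_l4 {C C' : ℝ} (hC : 0 ≤ C) (hC' : 0 ≤ C') (k : ℕ)
    (h1 : OpLe (DD (fun z => d.a z k) x) C) (h2 : OpLe (d.MM x k) C') :
    l4 (DD (fun z => d.a z k) x) ≤
      8 * ((C + C') ^ 2 * hsq (DD (fun z => d.a z k) x - d.MM x k) + l4 (d.MM x k)) := by
  have e : DD (fun z => d.a z k) x = (DD (fun z => d.a z k) x - d.MM x k) + d.MM x k := by abel
  have h3 := l4_add_le (DD (fun z => d.a z k) x - d.MM x k) (d.MM x k)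
  rw [← e] at h3
  have h4 : l4 (DD (fun z => d.a z k) x - d.MM x k) ≤
      (C + C') ^ 2 * hsq (DD (fun z => d.a z k) x - d.MM x k) :=
    l4_le_hsq (d2_entry (d2_sub hC hC' h1 h2))
  linarith

end Fixed

/-! ### Families -/

section Fam

variable {ι : Type} {F : Filter ι} {d : ι → Dat}

lemma ev_pos (h : HypJ F d) : ∀ᶠ i in F, 0 < (d i).n :=
  h.n_top.eventually_gt_atTop 0

/-- the operator norms of the derivatives -/
theorem opDer (h : HypJ F d) (k : ℕ) : ∃ C : ℝ, 0 ≤ C ∧ ∀ i x,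
    OpLe (DD (fun z => (d i).m z k) x) C ∧ OpLe (DD (fun z => (d i).m z (k + 1)) x) C ∧
      OpLe (DD (fun z => (d i).a z (k + 1)) x) C := by
  obtain ⟨CA, hCA⟩ := h.hsA
  obtain ⟨K, hK, hA⟩ : ∃ K : ℝ, 0 ≤ K ∧ ∀ i, hsq (d i).A ≤ K ^ 2 := by
    refine ⟨1 + |CA|, by positivity, fun i => (hCA i).trans ?_⟩
    (by_contra nlg; linarith only [nlg, mul_nonneg (sub_nonneg.2 (le_abs_self CA)) (sub_nonneg.2 (abs_nonneg CA)), mul_nonneg (le_of_lt (sub_pos.2 (not_le.1 nlg))) (sub_nonneg.2 (le_abs_self CA)), mul_pos (sub_pos.2 (not_le.1 nlg)) (sub_pos.2 (not_le.1 nlg)), mul_nonneg (sq_nonneg (1 + |CA| : ℝ)) (sub_nonneg.2 (abs_nonneg CA)), mul_nonneg (sq_nonneg (1 + |CA| : ℝ)) (le_of_lt (sub_pos.2 (not_le.1 nlg))), abs_nonneg CA, le_abs_self CA])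
  induction k with
  | zero =>
    refine ⟨1 + (3 + K) + ((3 + K) + 4 * (3 + K) ^ 2), by positivity, fun i x => ?_⟩
    have h1 : OpLe (DD (fun z => (d i).m z 0) x) 1 := by
      have : DD (fun z => (d i).m z 0) x = 1 := DD_m0 _ _ _ x
      rw [this]
      exact OpLe.one
    have h2 : OpLe (DD (fun z => (d i).a z (0 + 1)) x) (3 + K) := by
      have : DD (fun z => (d i).a z (0 + 1)) x = (d i).M := DD_a0 _ _ _ x
      rw [this]
      exact opLe_M (d i) hK (h.op i) (h.r0 i) (h.r1 i) (hA i)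
    have h3 := opLe_m_succ (d i) x (by positivity) 0 h2
    refine ⟨h1.mono (by norm_num) ?_, h3.mono (by positivity) ?_, h2.mono (by positivity) ?_⟩
    · linarith only [hK, sq_nonneg (3 + K)]
    · linarith
    · linarith [hK, sq_nonneg (3 + K)]
  | succ k ih =>
    obtain ⟨C, hC, h1⟩ := ih
    have hE := cE_nonneg C
    refine ⟨C + ((3 + K) * C + C + (1 + cE C)) + (((3 + K) * C + C + (1 + cE C)) +
      4 * ((3 + K) * C + C + (1 + cE C)) ^ 2), by positivity, fun i x => ?_⟩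
    obtain ⟨a1, a2, a3⟩ := h1 i x
    have h2 := opLe_a_succ (d i) x hC hK (h.op i) (h.r0 i) (h.r1 i) (hA i) k a1 a2
    have h20 : 0 ≤ (3 + K) * C + C + (1 + cE C) := by (clear * - hK hC hE; positivity)
    have h3 := opLe_m_succ (d i) x h20 (k + 1) h2
    refine ⟨a2.mono hC ?_, h3.mono (by (clear * - hK hC hE; positivity)) ?_, h2.mono h20 ?_⟩
    · linarith only [h20, sq_nonneg ((3 + K) * C + C + (1 + cE C))]
    · linarith only [h20, hC]
    · linarith only [hC, h20, sq_nonneg ((3 + K) * C + C + (1 + cE C))]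

/-- the induction behind `DerA` -/
theorem derInd (h : HypJ F d) (hL : L4 F d) (hO : OpB F d) (k : ℕ) :
    UZ F d (fun i x => hsq (DD (fun z => (d i).m z k) x - Qm (d i).J (d i).r ((d i).S x) k)
      / (d i).n) ∧
    UZ F d (fun i x => hsq (DD (fun z => (d i).a z (k + 1)) x - (d i).MM x (k + 1))
      / (d i).n) ∧
    UZ F d (fun i x => l4 (DD (fun z => (d i).a z (k + 1)) x) / (d i).n) ∧
    UZ F d (fun i x => hsq (DD (fun z => (d i).m z (k + 1)) x -
      Qm (d i).J (d i).r ((d i).S x) (k + 1)) / (d i).n) := by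
  obtain ⟨CA, hCA⟩ := h.hsA
  have nn : ∀ i, (0 : ℝ) ≤ (d i).n := fun i => Nat.cast_nonneg _
  -- the last two statements follow from the second one
  have aux : ∀ k, UZ F d (fun i x => hsq (DD (fun z => (d i).a z (k + 1)) x -
      (d i).MM x (k + 1)) / (d i).n) →
      UZ F d (fun i x => l4 (DD (fun z => (d i).a z (k + 1)) x) / (d i).n) ∧
      UZ F d (fun i x => hsq (DD (fun z => (d i).m z (k + 1)) x -
        Qm (d i).J (d i).r ((d i).S x) (k + 1)) / (d i).n) := by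
    intro k hk
    obtain ⟨C, hC, hop⟩ := opDer h k
    obtain ⟨C1, hop1⟩ := hO (k + 1)
    have h4 : UZ F d (fun i x => l4 (DD (fun z => (d i).a z (k + 1)) x) / (d i).n) := by
      have h5 := (hk.const_mul (8 * (C + |C1|) ^ 2)).add ((hL (k + 1) (by omega)).const_mul 8)
      refine h5.mono ?_
      filter_upwards [hop1] with i hi x
      have h6 : OpLe ((d i).MM x (k + 1)) |C1| := by
        intro v
        rw [sq_abs]
        exact (hi x).1 v
      have h7 := err_l4 (d i) x hC (abs_nonneg C1) (k + 1) (hop i x).2.2 h6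
      rw [abs_of_nonneg (div_nonneg (l4_nn _) (nn i)), abs_of_nonneg]
      · calc l4 (DD (fun z => (d i).a z (k + 1)) x) / (d i).n ≤
            (8 * ((C + |C1|) ^ 2 * hsq (DD (fun z => (d i).a z (k + 1)) x - (d i).MM x (k + 1))
              + l4 ((d i).MM x (k + 1)))) / (d i).n := div_le_div_of_nonneg_right h7 (nn i)
          _ = _ := by unfold l4; ring
      · have := hsq_nn (DD (fun z => (d i).a z (k + 1)) x - (d i).MM x (k + 1))
        have := l4_nn ((d i).MM x (k + 1))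
        unfold l4 at this
        positivity
    refine ⟨h4, ?_⟩
    have h5 := (hk.const_mul 2).add (h4.const_mul 32)
    refine h5.mono (Eventually.of_forall fun i x => ?_)
    have h6 := err_m (d i) x k
    have h7 := hsq_nn (DD (fun z => (d i).a z (k + 1)) x - (d i).MM x (k + 1))
    have h8 := l4_nn (DD (fun z => (d i).a z (k + 1)) x)
    have h9 := nn i
    rw [abs_of_nonneg (div_nonneg (hsq_nn _) (nn i)), abs_of_nonneg (by (clear * - h7 h8; positivity))]
    calc hsq (DD (fun z => (d i).m z (k + 1)) x - Qm (d i).J (d i).r ((d i).S x) (k + 1)) / (d i).n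
        ≤ (2 * hsq (DD (fun z => (d i).a z (k + 1)) x - (d i).MM x (k + 1))
      + 32 * l4 (DD (fun z => (d i).a z (k + 1)) x)) / (d i).n :=
          div_le_div_of_nonneg_right h6 (nn i)
      _ = _ := by ring
  induction k with
  | zero =>
    have h1 : UZ F d (fun i x => hsq (DD (fun z => (d i).m z 0) x -
        Qm (d i).J (d i).r ((d i).S x) 0) / (d i).n) := by
      refine UZ.zero.congr fun i x => ?_
      have e : DD (fun z => (d i).m z 0) x - Qm (d i).J (d i).r ((d i).S x) 0 = 0 := by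
        have e1 : DD (fun z => (d i).m z 0) x = 1 := DD_m0 _ _ _ x
        have e2 : Qm (d i).J (d i).r ((d i).S x) 0 = 1 := rfl
        rw [e1, e2, sub_self]
      rw [e]
      simp [hsq]
    have h2 : UZ F d (fun i x => hsq (DD (fun z => (d i).a z (0 + 1)) x -
        (d i).MM x (0 + 1)) / (d i).n) := by
      refine (UZ.inv_n h.n_top CA).mono (Eventually.of_forall fun i x => ?_)
      have e : DD (fun z => (d i).a z (0 + 1)) x - (d i).MM x (0 + 1) = (-1 : ℝ) • (d i).A := by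
        have e1 : DD (fun z => (d i).a z (0 + 1)) x = (d i).M := DD_a0 _ _ _ x
        have e2 : (d i).MM x (0 + 1) = (d i).r • (d i).J := Mm_one _ _ _
        rw [e1, e2]
        unfold Dat.M
        rw [neg_one_smul]
        abel
      rw [e, hsq_smul]
      have h3 := hsq_nn (d i).A
      have h4 := hCA i
      rw [abs_of_nonneg (by (clear * - h3; positivity)), abs_of_nonneg (div_nonneg (h3.trans h4) (nn i))]
      refine div_le_div_of_nonneg_right ?_ (nn i)
      linarith only [h4]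
    exact ⟨h1, h2, aux 0 h2⟩
  | succ k ih =>
    obtain ⟨i1, i2, i3, i4⟩ := ih
    obtain ⟨C, hC, hop⟩ := opDer h k
    have h2 : UZ F d (fun i x => hsq (DD (fun z => (d i).a z (k + 1 + 1)) x -
        (d i).MM x (k + 1 + 1)) / (d i).n) := by
      have h5 := ((i4.const_mul 72).add (i1.const_mul 4)).add
        (UZ.inv_n h.n_top (8 * (C ^ 2 * |CA|) + 2 * cE C))
      refine h5.mono ?_
      filter_upwards [ev_pos h] with i hi x
      have h6 := err_a (d i) x hi (h.op i) (h.r0 i) (h.r1 i) k (hop i x).1 (hop i x).2.1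
      have h7 := hsq_nn (DD (fun z => (d i).m z (k + 1)) x -
        Qm (d i).J (d i).r ((d i).S x) (k + 1))
      have h8 := hsq_nn (DD (fun z => (d i).m z k) x - Qm (d i).J (d i).r ((d i).S x) k)
      have h9 := nn i
      have h10 := cE_nonneg C
      have h11 : hsq (d i).A ≤ |CA| := (hCA i).trans (le_abs_self _)
      rw [abs_of_nonneg (div_nonneg (hsq_nn _) (nn i)), abs_of_nonneg (by (clear * - h7 hi h8 h10; positivity))]
      have h12 : hsq (DD (fun z => (d i).a z (k + 2)) x - (d i).MM x (k + 2)) ≤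
          72 * hsq (DD (fun z => (d i).m z (k + 1)) x - Qm (d i).J (d i).r ((d i).S x) (k + 1))
          + 4 * hsq (DD (fun z => (d i).m z k) x - Qm (d i).J (d i).r ((d i).S x) k)
          + (8 * (C ^ 2 * |CA|) + 2 * cE C) := by
        refine h6.trans ?_
        gcongr
      calc _ ≤ (72 * hsq (DD (fun z => (d i).m z (k + 1)) x -
            Qm (d i).J (d i).r ((d i).S x) (k + 1))
          + 4 * hsq (DD (fun z => (d i).m z k) x - Qm (d i).J (d i).r ((d i).S x) k)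
          + (8 * (C ^ 2 * |CA|) + 2 * cE C)) / (d i).n := div_le_div_of_nonneg_right h12 (nn i)
        _ = _ := by ring
    exact ⟨i4, h2, aux (k + 1) h2⟩

/-- STEP 2: the derivatives of the AMP fields -/
theorem derA (h : HypJ F d) (hL : L4 F d) (hO : OpB F d) : DerA F d := by
  intro k hk
  obtain ⟨k, rfl⟩ : ∃ l, k = l + 1 := ⟨k - 1, by omega⟩
  obtain ⟨C, hC, hop⟩ := opDer h k
  obtain ⟨_, i2, i3, _⟩ := derInd h hL hO k
  exact ⟨i2, ⟨C, Eventually.of_forall fun i x => (hop i x).2.2⟩, i3⟩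

/-- the derivatives of the iterates `m^k` -/
theorem derM (h : HypJ F d) (hL : L4 F d) (hO : OpB F d) (k : ℕ) :
    UZ F d (fun i x => hsq (DD (fun z => (d i).m z k) x - Qm (d i).J (d i).r ((d i).S x) k)
      / (d i).n) ∧
    ∃ C : ℝ, 0 ≤ C ∧ ∀ i x, OpLe (DD (fun z => (d i).m z k) x) C := by
  obtain ⟨C, hC, hop⟩ := opDer h k
  exact ⟨(derInd h hL hO k).1, C, hC, fun i x => (hop i x).1⟩

/-- the overlaps are macroscopic, uniformly for all `i` -/
theorem macQ (h : HypJ F d) (k : ℕ) : ∃ C : ℝ, 0 ≤ C ∧ ∀ i x,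
    |(d i).q x k| ≤ C ∧ gsq (fun z => (d i).q z k) x * (d i).n ≤ C := by
  obtain ⟨C, hC, hop⟩ := opDer h k
  refine ⟨1 + 8 * (C ^ 2 + C ^ 4), by positivity, fun i x => ⟨?_, ?_⟩⟩
  · have hq := qq_bounds (m_abs_le (d i) x k)
    unfold Dat.q
    rw [abs_of_nonneg hq.1]
    have : 0 ≤ 8 * (C ^ 2 + C ^ 4) := by (clear * -; positivity)
    linarith [hq.2]
  · have h1 := d2_gr_qq (G := fun z => (d i).m z k) (hop i x).1 (m_abs_le (d i) x k)
    have e : gsq (fun z => (d i).q z k) x = sq (gr (fun z => qq ((d i).m z k)) x) := rfl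
    rw [e]
    linarith [h1]

/-- STEP 2: the scalars `t_k` are macroscopic -/
theorem macT (h : HypJ F d) : MacT F d := by
  intro k
  rcases Nat.eq_zero_or_pos k with rfl | hk
  · refine ⟨0, Eventually.of_forall fun i x => ?_⟩
    have e : ∀ z, (d i).t z 0 = 0 := fun z => by simp [Dat.t, tS]
    constructor
    · show |(d i).t x 0| ≤ 0
      rw [e x, abs_zero]
    · have : gsq (fun z => (d i).t z 0) x = 0 := by
        unfold gsq
        simp only [e]
        simp [dd]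
      rw [this, zero_mul]
  · obtain ⟨k, rfl⟩ : ∃ l, k = l + 1 := ⟨k - 1, by omega⟩
    obtain ⟨C, hC, hq⟩ := macQ h (k + 1)
    refine ⟨1 + C, ?_⟩
    filter_upwards [ev_pos h] with i hi x
    have e : ∀ z, (d i).t z (k + 1) = 1 - (d i).q z (k + 1) := fun z => t_succ (d i) z hi k
    have hq' := qq_bounds (m_abs_le (d i) x (k + 1))
    constructor
    · show |(d i).t x (k + 1)| ≤ 1 + C
      rw [e x]
      unfold Dat.q
      rw [abs_le]
      constructor <;> linarith [hq'.1, hq'.2]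
    · have e1 : gsq (fun z => (d i).t z (k + 1)) x = gsq (fun z => (d i).q z (k + 1)) x := by
        unfold gsq
        refine Finset.sum_congr rfl fun j _ => ?_
        simp only [e]
        rw [dd_sub j (fun _ => (1 : ℝ)), dd_const]
        ring
      rw [e1]
      linarith only [(hq i x).2]

end Fam

end Vale.Agent.P150.F.D2.Der
end
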