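import Mathlib
import Vale.Agent.P150.Bdl.B1
import Vale.Agent.P150.Bdl.B6

set_option linter.all false

section

/-! Module G6c (local law): the scalar part. -/

open Finset

namespace Vale.Agent.P150.F.G6c

/-- the constant of the scalar part -/
noncomputable def cS (β K : ℝ) : ℝ :=
  4 * (38 * K ^ 5) ^ 2 * (2 * ((2 * K + K ^ 3) / (1 - β)) ^ 2 + 1)

lemma avg_sq {n : ℕ} (hn : 0 < n) (f : Fin n → ℝ) :
    ((∑ j, |f j|) / n) ^ 2 * n ≤ ∑ j, f j ^ 2 := by
  have hn' : (0 : ℝ) < n := by exact_mod_cast hn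
  have h := sq_sum_le_card_mul_sum_sq (s := (Finset.univ : Finset (Fin n))) (f := fun j => |f j|)
  simp only [sq_abs, Finset.card_univ, Fintype.card_fin] at h
  rw [div_pow, div_mul_eq_mul_div, div_le_iff₀ (by positivity)]
  (by_contra nlg; linarith only [mul_nonneg (sq_nonneg (↑n : ℝ)) (sub_nonneg.2 h), mul_pos (sub_pos.2 (not_le.1 nlg)) (sub_pos.2 hn')])

lemma real_y {y b w A : ℝ} (hb : 0 ≤ b) (hA : 0 ≤ A) (h : y * (1 + b) = b - w) (hw : |w| ≤ A) :
    y ≤ 1 + A := by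
  have h1 := (abs_le.1 hw).1
  by_contra hc
  push Not at hc
  have h2 : (1 + A) * (1 + b) < y * (1 + b) := mul_lt_mul_of_pos_right hc (by linarith)
  have h3 := mul_nonneg hA hb
  linarith only [h3, h2, h1, h]

lemma real_fin {β K T t z w a a' : ℝ} (hβ : β < 1) (hK : 1 ≤ K) (ha : 0 ≤ a) (ha' : 0 ≤ a')
    (hz : z ≤ β + K ^ 2 * a' / 2) (hw : |w| ≤ K * a) (hT : T - t = z * (T - t) + w)
    (h1 : |T - t| ≤ K) :
    |T - t| ≤ (2 * K + K ^ 3) / (1 - β) * (a + a') := by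
  have hK0 : 0 ≤ K := by linarith only [hK]
  have hb : 0 < 1 - β := by linarith only [hβ]
  have hK3 : 0 ≤ K ^ 3 := by positivity
  rw [div_mul_eq_mul_div, le_div_iff₀ hb]
  have p1 := mul_nonneg hK0 ha
  have p2 := mul_nonneg hK0 ha'
  have p3 := mul_nonneg hK3 ha
  have p4 := mul_nonneg hK3 ha'
  rcases le_or_gt (K ^ 2 * a') (1 - β) with hc | hc
  · have e1 : (1 - β) / 2 ≤ 1 - z := by linarith only [hc, hz]
    have e3 : (T - t) * (1 - z) = w := by linear_combination hT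
    have e4 : |T - t| * (1 - z) = |w| := by
      rw [← e3, abs_mul, abs_of_nonneg (a := 1 - z) (by linarith only [hb, e1])]
    have e6 : |T - t| * ((1 - β) / 2) ≤ K * a :=
      (mul_le_mul_of_nonneg_left e1 (abs_nonneg _)).trans (e4 ▸ hw)
    linarith only [p2, p3, p4, e6]
  · have e2 : |T - t| * (1 - β) ≤ K * (K ^ 2 * a') :=
      mul_le_mul h1 hc.le hb.le hK0
    have e3 : K * (K ^ 2 * a') = K ^ 3 * a' := by ring
    linarith only [p1, p2, p3, e2]

lemma avg_mul {n : ℕ} (hn : 0 < n) (f η : Fin n → ℝ) {K : ℝ} (hf : ∀ j, |f j| ≤ K) :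
    |(∑ j, f j * η j) / n| ≤ K * ((∑ j, |η j|) / n) := by
  have hn' : (0 : ℝ) < n := by exact_mod_cast hn
  rw [abs_div, abs_of_pos hn', ← mul_div_assoc]
  refine div_le_div_of_nonneg_right ?_ hn'.le
  refine (Finset.abs_sum_le_sum_abs _ _).trans ?_
  rw [Finset.mul_sum]
  refine Finset.sum_le_sum fun j _ => ?_
  rw [abs_mul]
  exact mul_le_mul_of_nonneg_right (hf j) (abs_nonneg _)

theorem avg_y {n : ℕ} (hn : 0 < n) {K r τ : ℝ} (hr1 : r ^ 2 ≤ 1) (G η' : Fin n → ℝ)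
    (hG0 : ∀ j, 0 ≤ G j) (hGK : ∀ j, G j ≤ K) (hτ0 : 0 ≤ τ)
    (h2 : (∑ j, G j ^ 2 * (1 + r ^ 2 * (τ + η' j))) / n = τ) :
    r ^ 2 * ((∑ j, G j ^ 2) / n) ≤ 1 + K ^ 2 * ((∑ j, |η' j|) / n) := by
  have hn' : (0 : ℝ) < n := by exact_mod_cast hn
  have hxa : |(∑ j, G j ^ 2 * η' j) / n| ≤ K ^ 2 * ((∑ j, |η' j|) / n) := by
    refine avg_mul hn _ _ fun j => ?_
    rw [abs_of_nonneg (sq_nonneg _)]
    exact pow_le_pow_left₀ (hG0 j) (hGK j) 2
  have e0 : ∑ j, G j ^ 2 * (1 + r ^ 2 * (τ + η' j))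
      = (∑ j, G j ^ 2) * (1 + r ^ 2 * τ) + r ^ 2 * ∑ j, G j ^ 2 * η' j := by
    rw [Finset.sum_mul, Finset.mul_sum, ← Finset.sum_add_distrib]
    exact Finset.sum_congr rfl fun j _ => by ring
  rw [e0] at h2
  have ha0' : 0 ≤ (∑ j, |η' j|) / n := by (clear * - hn; positivity)
  refine real_y (b := r ^ 2 * τ) (w := r ^ 2 * (r ^ 2 * ((∑ j, G j ^ 2 * η' j) / n)))
    (by positivity) (by (clear * - hn; positivity)) ?_ ?_
  · field_simp at h2 ⊢
    linear_combination r ^ 2 * h2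
  · rw [abs_mul, abs_mul, abs_of_nonneg (sq_nonneg r)]
    refine le_trans ?_ hxa
    have h0 := abs_nonneg ((∑ j, G j ^ 2 * η' j) / n)
    have h3 := mul_le_mul_of_nonneg_right hr1 h0
    have h4 := mul_le_mul_of_nonneg_right hr1 (mul_nonneg (sq_nonneg r) h0)
    linarith only [h4, h3]

theorem avg_z {n : ℕ} (hn : 0 < n) {β r : ℝ} (hr : 0 ≤ r) (hrβ : r ≤ β) (G D : Fin n → ℝ)
    (hG0 : ∀ j, 0 ≤ G j) (hD0 : ∀ j, 0 < D j) (hD1 : ∀ j, D j ≤ 1) :
    r ^ 2 * ((∑ j, G j * D j) / n) ≤ β * (r ^ 2 * ((∑ j, G j ^ 2) / n) + 1) / 2 := by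
  have hn' : (0 : ℝ) < n := by exact_mod_cast hn
  have hβ0 : 0 ≤ β := hr.trans hrβ
  have h3 : ∀ j, r ^ 2 * (G j * D j) ≤ β * (r ^ 2 * G j ^ 2 + 1) / 2 := by
    intro j
    have e1 : D j ^ 2 ≤ 1 := by (by_contra nlg; linarith only [mul_pos (sub_pos.2 (not_le.1 nlg)) (sub_pos.2 (hD0 j)), mul_nonneg (le_of_lt (sub_pos.2 (not_le.1 nlg))) (sub_nonneg.2 (hD1 j)), mul_nonneg (le_of_lt (sub_pos.2 (hD0 j))) (sub_nonneg.2 (hD1 j)), mul_nonneg (sub_nonneg.2 (hD1 j)) (sub_nonneg.2 (hD1 j))])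
    have e2 : 0 ≤ (r * G j) * D j := mul_nonneg (mul_nonneg hr (hG0 j)) (hD0 j).le
    have e3 : r * ((r * G j) * D j) ≤ β * ((r * G j) * D j) := mul_le_mul_of_nonneg_right hrβ e2
    have e4 : (r * G j) * D j ≤ (r ^ 2 * G j ^ 2 + 1) / 2 := by
      linarith only [e1, sq_nonneg (r * G j - D j)]
    have e5 := mul_le_mul_of_nonneg_left e4 hβ0
    linarith only [e3, e5]
  have h4 := Finset.sum_le_sum fun j (_ : j ∈ Finset.univ) => h3 j
  have h5 : ∑ j : Fin n, β * (r ^ 2 * G j ^ 2 + 1) / 2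
      = β * (r ^ 2 * (∑ j, G j ^ 2) + n) / 2 := by
    rw [← Finset.sum_div, ← Finset.mul_sum, Finset.sum_add_distrib, ← Finset.mul_sum]
    simp
  rw [h5, ← Finset.mul_sum] at h4
  have h6 : r ^ 2 * ((∑ j, G j * D j) / n) = (r ^ 2 * ∑ j, G j * D j) / n := by ring
  have h7 : β * (r ^ 2 * ((∑ j, G j ^ 2) / n) + 1) / 2
      = (β * (r ^ 2 * (∑ j, G j ^ 2) + n) / 2) / n := by
    field_simp
  rw [h6, h7]
  exact div_le_div_of_nonneg_right h4 hn'.le

theorem scalar_T {n : ℕ} (hn : 0 < n) {β K r t T τ : ℝ} (hβ : β < 1)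
    (hK : 1 ≤ K) (hr : 0 ≤ r) (hrβ : r ≤ β) (G D η η' : Fin n → ℝ)
    (hG0 : ∀ j, 0 ≤ G j) (hGK : ∀ j, G j ≤ K) (hD0 : ∀ j, 0 < D j) (hD1 : ∀ j, D j ≤ 1)
    (ht : t = (∑ j, D j) / n) (hT : T = (∑ j, G j) / n) (hτ0 : 0 ≤ τ)
    (h1 : ∀ j, G j - D j = r ^ 2 * (G j * D j) * (T - t + η j))
    (h2 : (∑ j, G j ^ 2 * (1 + r ^ 2 * (τ + η' j))) / n = τ) :
    |T - t| ≤ (2 * K + K ^ 3) / (1 - β) * ((∑ j, |η j|) / n + (∑ j, |η' j|) / n) := by
  have hn' : (0 : ℝ) < n := by exact_mod_cast hn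
  have hr1 : r ≤ 1 := hrβ.trans hβ.le
  have hr2 : r ^ 2 ≤ 1 := pow_le_one₀ hr hr1
  have hβ0 : 0 ≤ β := hr.trans hrβ
  have hK0 : 0 ≤ K := by linarith only [hK]
  have ha0 : 0 ≤ (∑ j, |η j|) / n := by (clear * - hn; positivity)
  have ha0' : 0 ≤ (∑ j, |η' j|) / n := by (clear * - hn; positivity)
  have hy := avg_y hn hr2 G η' hG0 hGK hτ0 h2
  have hz := avg_z hn hr hrβ G D hG0 hD0 hD1
  have hKa : 0 ≤ K ^ 2 * ((∑ j, |η' j|) / n) := by (clear * - hK hn; positivity)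
  have ht01 : 0 ≤ t ∧ t ≤ 1 := by
    constructor
    · rw [ht]; exact div_nonneg (Finset.sum_nonneg fun j _ => (hD0 j).le) hn'.le
    · rw [ht, div_le_one hn']
      calc ∑ j, D j ≤ ∑ _j : Fin n, (1 : ℝ) := Finset.sum_le_sum fun j _ => hD1 j
        _ = n := by simp
  have hT0K : 0 ≤ T ∧ T ≤ K := by
    constructor
    · rw [hT]; exact div_nonneg (Finset.sum_nonneg fun j _ => hG0 j) hn'.le
    · rw [hT, div_le_iff₀ hn']
      calc ∑ j, G j ≤ ∑ _j : Fin n, K := Finset.sum_le_sum fun j _ => hGK j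
        _ = K * n := by simp [mul_comm]
  refine real_fin (z := r ^ 2 * ((∑ j, G j * D j) / n))
    (w := (∑ j, r ^ 2 * (G j * D j) * η j) / n) hβ hK ha0 ha0' ?_ ?_ ?_ ?_
  · have h3 := mul_le_mul_of_nonneg_left hy hβ0
    have h4 := mul_le_mul_of_nonneg_right hβ.le hKa
    linarith only [h4, h3, hz]
  · refine avg_mul hn _ _ fun j => ?_
    have e1 : 0 ≤ G j * D j := mul_nonneg (hG0 j) (hD0 j).le
    have e2 : G j * D j ≤ K := by
      calc G j * D j ≤ G j * 1 := mul_le_mul_of_nonneg_left (hD1 j) (hG0 j)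
        _ ≤ K := by rw [mul_one]; exact hGK j
    rw [abs_of_nonneg (mul_nonneg (sq_nonneg r) e1)]
    have e3 := mul_le_mul_of_nonneg_right hr2 e1
    linarith only [e3, e2]
  · have e1 : T - t = (∑ j, (G j - D j)) / n := by
      rw [hT, ht, Finset.sum_sub_distrib]; ring
    rw [Finset.sum_congr rfl fun j _ => h1 j] at e1
    have e2 : ∑ j, r ^ 2 * (G j * D j) * (T - t + η j)
        = (r ^ 2 * ∑ j, G j * D j) * (T - t) + ∑ j, r ^ 2 * (G j * D j) * η j := by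
      rw [Finset.mul_sum, Finset.sum_mul, ← Finset.sum_add_distrib]
      exact Finset.sum_congr rfl fun j _ => by ring
    rw [e2] at e1
    linear_combination e1
  · rw [abs_le]; constructor <;> linarith [ht01.1, ht01.2, hT0K.1, hT0K.2]

lemma four_sq (a b c d : ℝ) : (a + b + c + d) ^ 2 ≤ 4 * (a ^ 2 + b ^ 2 + c ^ 2 + d ^ 2) := by
  linarith only [sq_nonneg (a - b), sq_nonneg (a - c), sq_nonneg (a - d), sq_nonneg (b - c), sq_nonneg (b - d), sq_nonneg (c - d)]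

lemma pt_rho {K r s η G : ℝ} (hK : 1 ≤ K) (hr2 : r ^ 2 ≤ 1) (hG0 : 0 ≤ G) (hGK : G ≤ K)
    (hsη : |s + η| ≤ 2 * K) :
    |1 - (1 + r ^ 2 * G * (s + η))| ≤ K * (|s| + |η|) ∧
      |1 + r ^ 2 * G * (s + η)| ≤ 3 * K ^ 2 := by
  have hK0 : 0 ≤ K := by linarith
  have hrG : 0 ≤ r ^ 2 * G := mul_nonneg (sq_nonneg r) hG0
  have hrGK : r ^ 2 * G ≤ K := (mul_le_mul_of_nonneg_right hr2 hG0).trans (by rwa [one_mul])
  constructor
  · have : 1 - (1 + r ^ 2 * G * (s + η)) = -(r ^ 2 * G * (s + η)) := by ring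
    rw [this, abs_neg, abs_mul, abs_of_nonneg hrG]
    exact mul_le_mul hrGK (abs_add_le _ _) (abs_nonneg _) hK0
  · have e1 := mul_le_mul hrGK hsη (abs_nonneg _) hK0
    have e2 : |r ^ 2 * G * (s + η)| ≤ K * (2 * K) := by
      rw [abs_mul, abs_of_nonneg hrG]; exact e1
    have e3 := abs_add_le 1 (r ^ 2 * G * (s + η))
    rw [abs_one] at e3
    (by_contra nlg; linarith [mul_nonneg (sub_nonneg.2 hrGK) (sub_nonneg.2 e3), mul_nonneg (sub_nonneg.2 hrGK) (sub_nonneg.2 e2), mul_nonneg (sub_nonneg.2 hrG) (sub_nonneg.2 e3), mul_nonneg (sub_nonneg.2 hrG) (sub_nonneg.2 e2), mul_nonneg (sub_nonneg.2 hK) (sub_nonneg.2 hrGK), mul_nonneg (sub_nonneg.2 hK) (sub_nonneg.2 hrG), mul_nonneg (le_of_lt (sub_pos.2 (not_le.1 nlg))) (sub_nonneg.2 e3), mul_nonneg (le_of_lt (sub_pos.2 (not_le.1 nlg))) (sub_nonneg.2 e2), mul_nonneg (le_of_lt (sub_pos.2 (not_le.1 nlg))) (sub_nonneg.2 hK), mul_pos (sub_pos.2 (not_le.1 nlg)) (sub_pos.2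 (not_le.1 nlg)), mul_nonneg (sq_nonneg (K : ℝ)) (sub_nonneg.2 hK), mul_nonneg (sq_nonneg (K : ℝ)) (le_of_lt (sub_pos.2 (not_le.1 nlg)))])

lemma pt_L {K κ r t τ N : ℝ} (hK : 1 ≤ K) (hr : 0 ≤ r) (hr1 : r ≤ 1) (hr2 : r ^ 2 ≤ 1)
    (hκ : |κ| ≤ K) (ht0 : 0 ≤ t) (ht1 : t ≤ 1) (hτ0 : 0 ≤ τ) (hτK : τ ≤ K) (hN : |N| ≤ K) :
    |κ * (1 + r ^ 2 * τ) + 2 * r * t + r ^ 2 * N| ≤ 5 * K ^ 2 := by
  have hK0 : 0 ≤ K := by linarith
  have hr20 : 0 ≤ r ^ 2 := sq_nonneg r
  have e1 : |κ * (1 + r ^ 2 * τ)| ≤ K * (1 + K) := by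
    rw [abs_mul]
    refine mul_le_mul hκ ?_ (abs_nonneg _) hK0
    have : 0 ≤ r ^ 2 * τ := mul_nonneg hr20 hτ0
    have h2 : r ^ 2 * τ ≤ 1 * K := mul_le_mul hr2 hτK hτ0 zero_le_one
    rw [abs_of_nonneg (by linarith)]
    linarith
  have e2 : |2 * r * t| ≤ 2 := by
    rw [abs_of_nonneg (by positivity)]
    have : r * t ≤ 1 * 1 := mul_le_mul hr1 ht1 ht0 zero_le_one
    linarith only [this]
  have e3 : |r ^ 2 * N| ≤ K := by
    rw [abs_mul, abs_of_nonneg hr20]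
    have := mul_le_mul hr2 hN (abs_nonneg _) zero_le_one
    linarith only [this]
  have e4 := abs_add_le (κ * (1 + r ^ 2 * τ) + 2 * r * t) (r ^ 2 * N)
  have e5 := abs_add_le (κ * (1 + r ^ 2 * τ)) (2 * r * t)
  (by_contra nlg; linarith only [nlg, mul_nonneg (sub_nonneg.2 hK0) (sub_nonneg.2 e5), mul_nonneg (sub_nonneg.2 hK0) (sub_nonneg.2 e4), mul_nonneg (sub_nonneg.2 hK0) (sub_nonneg.2 e3), mul_nonneg (sub_nonneg.2 hK0) (sub_nonneg.2 e2), mul_nonneg (sub_nonneg.2 hK0) (sub_nonneg.2 e1), mul_nonneg (sub_nonneg.2 ht1) (sub_nonneg.2 e5), mul_nonneg (sub_nonneg.2 ht1) (sub_nonneg.2 e4), mul_nonneg (sub_nonneg.2 ht1) (sub_nonneg.2 e3), mul_nonneg (sub_nonneg.2 ht1) (sub_nonneg.2 e2), mul_nonneg (sub_nonneg.2 ht1) (sub_nonneg.2 e1), mul_nonneg (sub_nonneg.2 ht0) (sub_nonneg.2 e5), mul_nonneg (sub_nonneg.2 ht0) (sub_nonneg.2 e4), mul_nonneg (sub_nonneg.2 ht0) (sub_nonneg.2 e3), mul_nonneg (sub_nonneg.2 ht0) (sub_nonneg.2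 e2), mul_nonneg (sub_nonneg.2 ht0) (sub_nonneg.2 e1), mul_nonneg (sub_nonneg.2 hK) (sub_nonneg.2 hK0), mul_nonneg (sub_nonneg.2 hK) (sub_nonneg.2 ht1), mul_nonneg (sub_nonneg.2 hK) (sub_nonneg.2 ht0), mul_nonneg (le_of_lt (sub_pos.2 (not_le.1 nlg))) (sub_nonneg.2 e5), mul_nonneg (le_of_lt (sub_pos.2 (not_le.1 nlg))) (sub_nonneg.2 e4), mul_nonneg (le_of_lt (sub_pos.2 (not_le.1 nlg))) (sub_nonneg.2 e3), mul_nonneg (le_of_lt (sub_pos.2 (not_le.1 nlg))) (sub_nonneg.2 e2), mul_nonneg (le_of_lt (sub_pos.2 (not_le.1 nlg))) (sub_nonneg.2 e1), mul_pos (sub_pos.2 (not_le.1 nlg)) (sub_pos.2 (not_le.1 nlg)), mul_nonneg (sq_nonneg (K : ℝ)) (sub_nonneg.2 hK), mul_nonneg (sq_nonneg (K : ℝ)) (le_of_lt (sub_pos.2 (not_le.1 nlg)))])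

lemma pt_e {K κ r s η η' η'' : ℝ} (hK : 1 ≤ K) (hr : 0 ≤ r) (hr1 : r ≤ 1) (hr2 : r ^ 2 ≤ 1)
    (hκ : |κ| ≤ K) :
    |κ * r ^ 2 * η' + 2 * r * (s + η) + r ^ 2 * η''|
      ≤ 2 * K * (|s| + |η| + |η'| + |η''|) := by
  have hK0 : 0 ≤ K := by linarith
  have hr20 : 0 ≤ r ^ 2 := sq_nonneg r
  have ha1 := abs_nonneg s
  have ha2 := abs_nonneg η
  have ha3 := abs_nonneg η'
  have ha4 := abs_nonneg η''
  have e1 : |κ * r ^ 2 * η'| ≤ K * |η'| := by
    rw [abs_mul, abs_mul, abs_of_nonneg hr20]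
    refine mul_le_mul_of_nonneg_right ?_ ha3
    have := mul_le_mul hκ hr2 hr20 hK0
    linarith only [this]
  have e2 : |2 * r * (s + η)| ≤ 2 * (|s| + |η|) := by
    rw [abs_mul, abs_of_nonneg (by positivity : (0:ℝ) ≤ 2 * r)]
    exact mul_le_mul (by linarith) (abs_add_le _ _) (abs_nonneg _) (by norm_num)
  have e3 : |r ^ 2 * η''| ≤ |η''| := by
    rw [abs_mul, abs_of_nonneg hr20]
    have := mul_le_mul_of_nonneg_right hr2 ha4
    linarith
  have e4 := abs_add_le (κ * r ^ 2 * η' + 2 * r * (s + η)) (r ^ 2 * η'')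
  have e5 := abs_add_le (κ * r ^ 2 * η') (2 * r * (s + η))
  have e6 : K * |η'| ≤ 2 * K * |η'| := by linarith only [mul_nonneg (sub_nonneg.2 hK0) (sub_nonneg.2 ha3)]
  have e7 : 2 * (|s| + |η|) ≤ 2 * K * (|s| + |η|) := by linarith only [mul_nonneg (sub_nonneg.2 hK) (sub_nonneg.2 ha2), mul_nonneg (sub_nonneg.2 hK) (sub_nonneg.2 ha1)]
  have e8 : |η''| ≤ 2 * K * |η''| := by linarith only [mul_nonneg (sub_nonneg.2 hK0) (sub_nonneg.2 ha4), mul_nonneg (sub_nonneg.2 hK) (sub_nonneg.2 ha4)]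
  linarith only [e8, e7, e6, e5, e4, e3, e2, e1]

lemma pt_comb {K L ρ e S σ : ℝ} (hK : 1 ≤ K) (hσ : 0 ≤ σ) (hσS : σ ≤ S) (hL : |L| ≤ 5 * K ^ 2)
    (h1 : |1 - ρ| ≤ K * σ) (h2 : |ρ| ≤ 3 * K ^ 2) (he : |e| ≤ 2 * K * S) :
    |L * ((1 - ρ) * (1 + ρ)) - ρ ^ 2 * e| ≤ 38 * K ^ 5 * S := by
  have hK0 : 0 ≤ K := by linarith
  have hS0 : 0 ≤ S := hσ.trans hσS
  have hK2 : 1 ≤ K ^ 2 := one_le_pow₀ hK
  have h3 : |1 + ρ| ≤ 4 * K ^ 2 := by
    have := abs_add_le 1 ρ
    rw [abs_one] at this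
    linarith only [this, hK2, h2]
  have h4 : |1 - ρ| * |1 + ρ| ≤ (K * S) * (4 * K ^ 2) :=
    mul_le_mul (h1.trans (mul_le_mul_of_nonneg_left hσS hK0)) h3 (abs_nonneg _) (by positivity)
  have h5 : |L| * (|1 - ρ| * |1 + ρ|) ≤ (5 * K ^ 2) * ((K * S) * (4 * K ^ 2)) :=
    mul_le_mul hL h4 (by positivity) (by positivity)
  have h6 : |ρ| ^ 2 * |e| ≤ (3 * K ^ 2) ^ 2 * (2 * K * S) :=
    mul_le_mul (pow_le_pow_left₀ (abs_nonneg _) h2 2) he (abs_nonneg _) (by positivity)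
  calc |L * ((1 - ρ) * (1 + ρ)) - ρ ^ 2 * e|
      ≤ |L * ((1 - ρ) * (1 + ρ))| + |ρ ^ 2 * e| := abs_sub _ _
    _ = |L| * (|1 - ρ| * |1 + ρ|) + |ρ| ^ 2 * |e| := by
        rw [abs_mul, abs_mul, abs_mul, abs_pow]
    _ ≤ (5 * K ^ 2) * ((K * S) * (4 * K ^ 2)) + (3 * K ^ 2) ^ 2 * (2 * K * S) :=
        add_le_add h5 h6
    _ = 38 * K ^ 5 * S := by ring

lemma pt_bound {K κ r t T τ N G D η η' η'' X : ℝ} (hK : 1 ≤ K) (hr : 0 ≤ r) (hr1 : r ≤ 1)
    (hκ : |κ| ≤ K) (hG0 : 0 ≤ G) (hGK : G ≤ K) (hD0 : 0 < D) (ht0 : 0 ≤ t) (ht1 : t ≤ 1)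
    (hτ0 : 0 ≤ τ) (hτK : τ ≤ K) (hN : |N| ≤ K) (hQ : |T + η| ≤ K)
    (h1 : G - D = r ^ 2 * (G * D) * (T - t + η))
    (h3 : X * D ^ 2 = G ^ 2 * (κ * (1 + r ^ 2 * (τ + η')) + 2 * r * (T + η)
      + r ^ 2 * (N + η''))) :
    |κ + 2 * r * t - X + r ^ 2 * (κ * τ + N)|
      ≤ 38 * K ^ 5 * (|T - t| + |η| + |η'| + |η''|) := by
  have hr2 : r ^ 2 ≤ 1 := pow_le_one₀ hr hr1
  have hG : G = D * (1 + r ^ 2 * G * (T - t + η)) := by linear_combination h1
  have hX : X = (1 + r ^ 2 * G * (T - t + η)) ^ 2 * ((κ * (1 + r ^ 2 * τ) + 2 * r * t + r ^ 2 * N)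
      + (κ * r ^ 2 * η' + 2 * r * (T - t + η) + r ^ 2 * η'')) := by
    refine mul_right_cancel₀ (pow_ne_zero 2 hD0.ne') ?_
    rw [h3]
    have h4 : G ^ 2 = D ^ 2 * (1 + r ^ 2 * G * (T - t + η)) ^ 2 := by
      rw [← mul_pow, ← hG]
    rw [h4]; ring
  have hsη : |T - t + η| ≤ 2 * K := by
    have e1 : T - t + η = (T + η) - t := by ring
    rw [e1]
    have e2 := abs_sub (T + η) t
    rw [abs_of_nonneg ht0] at e2
    linarith only [e2, hQ, ht1, hK]
  obtain ⟨hρ1, hρ2⟩ := pt_rho hK hr2 hG0 hGK hsη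
  have hL := pt_L hK hr hr1 hr2 hκ ht0 ht1 hτ0 hτK hN
  have he := pt_e (s := T - t) (η := η) (η' := η') (η'' := η'') hK hr hr1 hr2 hκ
  have h := pt_comb hK (by (clear * -; positivity) : 0 ≤ |T - t| + |η|)
    (by linarith only [abs_nonneg η', abs_nonneg η''] :
      |T - t| + |η| ≤ |T - t| + |η| + |η'| + |η''|) hL hρ1 hρ2 he
  refine le_trans (le_of_eq ?_) h
  congr 1
  rw [hX]; ring

theorem scalar_local {n : ℕ} (hn : 0 < n) {β K κ r t T τ N : ℝ} (hβ : β < 1)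
    (hK : 1 ≤ K) (hr : 0 ≤ r) (hrβ : r ≤ β) (hκ : |κ| ≤ K) (G D η η' η'' X : Fin n → ℝ)
    (hG0 : ∀ j, 0 ≤ G j) (hGK : ∀ j, G j ≤ K) (hD0 : ∀ j, 0 < D j) (hD1 : ∀ j, D j ≤ 1)
    (ht : t = (∑ j, D j) / n) (hT : T = (∑ j, G j) / n) (hτ0 : 0 ≤ τ) (hτK : τ ≤ K)
    (hN : |N| ≤ K) (hQ : ∀ j, |T + η j| ≤ K)
    (h1 : ∀ j, G j - D j = r ^ 2 * (G j * D j) * (T - t + η j))
    (h2 : (∑ j, G j ^ 2 * (1 + r ^ 2 * (τ + η' j))) / n = τ)
    (h3 : ∀ j, X j * D j ^ 2 = G j ^ 2 * (κ * (1 + r ^ 2 * (τ + η' j)) + 2 * r * (T + η j)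
      + r ^ 2 * (N + η'' j))) :
    ∑ j, (κ + 2 * r * t - X j + r ^ 2 * (κ * τ + N)) ^ 2
      ≤ cS β K * ∑ j, (η j ^ 2 + η' j ^ 2 + η'' j ^ 2) := by
  have hn' : (0 : ℝ) < n := by exact_mod_cast hn
  have hK0 : 0 ≤ K := by linarith only [hK]
  have hb : 0 < 1 - β := by linarith only [hβ]
  have hr1 : r ≤ 1 := hrβ.trans hβ.le
  have ht01 : 0 ≤ t ∧ t ≤ 1 := by
    constructor
    · rw [ht]; exact div_nonneg (Finset.sum_nonneg fun j _ => (hD0 j).le) hn'.le
    · rw [ht, div_le_one hn']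
      calc ∑ j, D j ≤ ∑ _j : Fin n, (1 : ℝ) := Finset.sum_le_sum fun j _ => hD1 j
        _ = n := by simp
  have hTt := scalar_T hn hβ hK hr hrβ G D η η' hG0 hGK hD0 hD1 ht hT hτ0 h1 h2
  set C1 := (2 * K + K ^ 3) / (1 - β) with hC1
  have hC10 : 0 ≤ C1 := by positivity
  set a := (∑ j, |η j|) / n with ha
  set a' := (∑ j, |η' j|) / n with ha'
  have ha0 : 0 ≤ a := by (clear * - hn; positivity)
  have ha0' : 0 ≤ a' := by (clear * - hn; positivity)
  have hq1 : a ^ 2 * n ≤ ∑ j, η j ^ 2 := avg_sq hn η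
  have hq2 : a' ^ 2 * n ≤ ∑ j, η' j ^ 2 := avg_sq hn η'
  have hs : (T - t) ^ 2 * n ≤ 2 * C1 ^ 2 * (∑ j, η j ^ 2 + ∑ j, η' j ^ 2) := by
    have e1 : (T - t) ^ 2 ≤ (C1 * (a + a')) ^ 2 := by
      rw [← sq_abs (T - t)]
      exact pow_le_pow_left₀ (abs_nonneg _) hTt 2
    have e2 : (C1 * (a + a')) ^ 2 ≤ 2 * C1 ^ 2 * (a ^ 2 + a' ^ 2) := by
      linarith only [mul_nonneg (sq_nonneg C1) (sq_nonneg (a - a'))]
    calc (T - t) ^ 2 * n ≤ 2 * C1 ^ 2 * (a ^ 2 + a' ^ 2) * n :=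
          mul_le_mul_of_nonneg_right (e1.trans e2) hn'.le
      _ = 2 * C1 ^ 2 * (a ^ 2 * n + a' ^ 2 * n) := by ring
      _ ≤ _ := mul_le_mul_of_nonneg_left (add_le_add hq1 hq2) (by positivity)
  set M := 38 * K ^ 5 with hM
  have hpt : ∀ j, (κ + 2 * r * t - X j + r ^ 2 * (κ * τ + N)) ^ 2
      ≤ 4 * M ^ 2 * ((T - t) ^ 2 + (η j ^ 2 + η' j ^ 2 + η'' j ^ 2)) := by
    intro j
    have e1 := pt_bound hK hr hr1 hκ (hG0 j) (hGK j) (hD0 j) ht01.1 ht01.2 hτ0 hτK hN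
      (hQ j) (h1 j) (h3 j)
    have e2 := pow_le_pow_left₀ (abs_nonneg _) e1 2
    rw [sq_abs] at e2
    refine e2.trans ?_
    rw [← hM, mul_pow]
    have e3 : (|T - t| + |η j| + |η' j| + |η'' j|) ^ 2
        ≤ 4 * ((T - t) ^ 2 + (η j ^ 2 + η' j ^ 2 + η'' j ^ 2)) := by
      rw [← sq_abs (T - t), ← sq_abs (η j), ← sq_abs (η' j), ← sq_abs (η'' j)]
      refine (four_sq _ _ _ _).trans (le_of_eq ?_)
      ring
    calc M ^ 2 * (|T - t| + |η j| + |η' j| + |η'' j|) ^ 2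
        ≤ M ^ 2 * (4 * ((T - t) ^ 2 + (η j ^ 2 + η' j ^ 2 + η'' j ^ 2))) :=
          mul_le_mul_of_nonneg_left e3 (sq_nonneg _)
      _ = _ := by ring
  refine (Finset.sum_le_sum fun j _ => hpt j).trans ?_
  rw [← Finset.mul_sum, Finset.sum_add_distrib]
  have e4 : ∑ _j : Fin n, (T - t) ^ 2 = (T - t) ^ 2 * n := by simp [mul_comm]
  rw [e4]
  have e5 : ∑ j, (η j ^ 2 + η' j ^ 2 + η'' j ^ 2)
      = ∑ j, η j ^ 2 + ∑ j, η' j ^ 2 + ∑ j, η'' j ^ 2 := by
    rw [Finset.sum_add_distrib, Finset.sum_add_distrib]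
  have e6 : 0 ≤ ∑ j, η'' j ^ 2 := Finset.sum_nonneg fun _ _ => sq_nonneg _
  have e7 : (T - t) ^ 2 * n + ∑ j, (η j ^ 2 + η' j ^ 2 + η'' j ^ 2)
      ≤ (2 * C1 ^ 2 + 1) * ∑ j, (η j ^ 2 + η' j ^ 2 + η'' j ^ 2) := by
    rw [e5]
    linarith only [hs, mul_nonneg (sq_nonneg C1) e6]
  calc 4 * M ^ 2 * ((T - t) ^ 2 * n + ∑ j, (η j ^ 2 + η' j ^ 2 + η'' j ^ 2))
      ≤ 4 * M ^ 2 * ((2 * C1 ^ 2 + 1) * ∑ j, (η j ^ 2 + η' j ^ 2 + η'' j ^ 2)) :=
        mul_le_mul_of_nonneg_left e7 (by positivity)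
    _ = cS β K * ∑ j, (η j ^ 2 + η' j ^ 2 + η'' j ^ 2) := by
        rw [cS, ← hM, ← hC1]; ring

end Vale.Agent.P150.F.G6c
end

section

/-!
# D2: the induction step

clip lemma, `HH (k-1), HH k ⇒ PP k`, `PP k ⇒ HH (k+1)`.
-/

open Filter Topology
open scoped Matrix

namespace Vale.Agent.P150.F.D2.Ind

/-! ### Fixed size -/

section Fixed

variable {n : ℕ}

/-- hard clipping -/
def clp (L u : ℝ) : ℝ := max (-L) (min L u)

theorem abs_clp_le {L : ℝ} (hL : 0 ≤ L) (u : ℝ) : |clp L u| ≤ L := by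
  unfold clp
  rw [abs_le]
  exact ⟨le_max_left _ _, max_le (by linarith [hL]) (min_le_left _ _)⟩

theorem clp_of_abs_le {L u : ℝ} (h : |u| ≤ L) : clp L u = u := by
  unfold clp
  rw [abs_le] at h
  rw [min_eq_right h.2, max_eq_right h.1]

theorem clp_mono (L : ℝ) {u v : ℝ} (h : u ≤ v) : clp L u ≤ clp L v :=
  max_le_max le_rfl (min_le_min le_rfl h)

theorem clp_sub_le (L : ℝ) {u v : ℝ} (h : u ≤ v) : clp L v - clp L u ≤ v - u := by
  unfold clp
  rcases le_total (-L) (min L u) with h1 | h1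
  · rw [max_eq_right h1, max_eq_right (h1.trans (min_le_min le_rfl h))]
    rcases le_total L u with h2 | h2
    · rw [min_eq_left h2, min_eq_left (h2.trans h)]; linarith
    · rw [min_eq_right h2]; linarith [min_le_right L v]
  · rw [max_eq_left h1]
    have h3 : max (-L) (min L v) - -L = max 0 (min L v + L) := by
      rw [← max_sub_sub_right]; congr 1 <;> ring
    rw [h3]
    refine max_le (by linarith) ?_
    rcases le_total L u with h2 | h2
    · rw [min_eq_left h2] at h1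
      have := min_le_left L v
      linarith
    · rw [min_eq_right h2] at h1
      have := min_le_right L v
      linarith

theorem abs_clp_sub_le (L u v : ℝ) : |clp L u - clp L v| ≤ |u - v| := by
  rcases le_total u v with h | h
  · rw [abs_sub_comm, abs_sub_comm u, abs_of_nonneg (sub_nonneg.2 h),
      abs_of_nonneg (sub_nonneg.2 (clp_mono L h))]
    exact clp_sub_le L h
  · rw [abs_of_nonneg (sub_nonneg.2 h), abs_of_nonneg (sub_nonneg.2 (clp_mono L h))]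
    exact clp_sub_le L h

/-- the increment of `u - clp u` -/
theorem abs_sub_clp_sub_le (L u v : ℝ) : |(u - v) - (clp L u - clp L v)| ≤ |u - v| := by
  rcases le_total u v with h | h
  · have h1 := clp_mono L h
    have h2 := clp_sub_le L h
    rw [abs_sub_comm u, abs_of_nonneg (sub_nonneg.2 h), abs_le]
    constructor <;> linarith
  · have h1 := clp_mono L h
    have h2 := clp_sub_le L h
    rw [abs_of_nonneg (sub_nonneg.2 h), abs_le]
    constructor <;> linarith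

theorem abs_sub_clp_le {L : ℝ} (hL : 0 < L) (u : ℝ) : |u - clp L u| ≤ u ^ 2 / L := by
  rcases le_total |u| L with h | h
  · rw [clp_of_abs_le h, sub_self, abs_zero]; positivity
  · have h1 : |u - clp L u| ≤ |u| := by
      have := abs_sub_clp_sub_le L u 0
      rwa [clp_of_abs_le (u := 0) (by simpa using hL.le), sub_zero, sub_zero] at this
    refine h1.trans ?_
    rw [le_div_iff₀ hL, ← sq_abs, pow_two]
    exact mul_le_mul_of_nonneg_left h (abs_nonneg u)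

/-- one of the two neighbours in direction `i` is the point itself -/
theorem dd_cases (i : Fin n) (x : Cfg n) :
    ∃ (x' : Cfg n) (s : ℝ), |s| = 1 ∧ ∀ f : Cfg n → ℝ, dd i f x = s * (f x - f x') / 2 := by
  rcases h : x i with _ | _
  · refine ⟨Function.update x i true, -1, by simp, fun f => ?_⟩
    have e : Function.update x i false = x := by rw [← h]; exact Function.update_eq_self i x
    unfold dd
    rw [e]; ring
  · refine ⟨Function.update x i false, 1, by simp, fun f => ?_⟩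
    have e : Function.update x i true = x := by rw [← h]; exact Function.update_eq_self i x
    unfold dd
    rw [e]; ring

/-- the clip is a contraction for the discrete derivative -/
theorem abs_dd_clp_le (L : ℝ) (i : Fin n) (f : Cfg n → ℝ) (x : Cfg n) :
    |dd i (fun z => clp L (f z)) x| ≤ |dd i f x| := by
  unfold dd
  rw [abs_div, abs_div]
  exact div_le_div_of_nonneg_right (abs_clp_sub_le _ _ _) (abs_nonneg _)

theorem abs_dd_sub_clp_le (L : ℝ) (i : Fin n) (f : Cfg n → ℝ) (x : Cfg n) :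
    |dd i f x - dd i (fun z => clp L (f z)) x| ≤ |dd i f x| := by
  unfold dd
  rw [← sub_div, abs_div, abs_div]
  exact div_le_div_of_nonneg_right (abs_sub_clp_sub_le _ _ _) (abs_nonneg _)

/-- no error if `f x` and the jump are small compared to `L` -/
theorem dd_sub_clp_eq {L : ℝ} {i : Fin n} {f : Cfg n → ℝ} {x : Cfg n}
    (hB : |dd i f x| ≤ L / 4) (hx : |f x| ≤ L / 2) :
    dd i f x - dd i (fun z => clp L (f z)) x = 0 := by
  obtain ⟨x', s, hs, h⟩ := dd_cases i x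
  rw [h f] at hB
  rw [abs_div, abs_mul, hs, one_mul, abs_two] at hB
  have h1 : |f x'| ≤ L := by
    have h2 : |f x'| ≤ |f x| + |f x - f x'| := by
      have := abs_sub_abs_le_abs_sub (f x') (f x)
      rw [abs_sub_comm (f x') (f x)] at this
      linarith only [this]
    linarith only [h2, hB, hx]
  have h3 : |f x| ≤ L := by
    have := abs_nonneg (f x)
    linarith only [this, hx]
  rw [h f, h fun z => clp L (f z), clp_of_abs_le h1, clp_of_abs_le h3, sub_self]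

theorem trN_neg' (A : Mat n) : trN (-A) = -trN A := by
  have := trN_sub 0 A
  rw [zero_sub] at this
  rw [this]
  simp [trN]

theorem abs_ip_le_mul {u v : Vec n} {C : ℝ} (h : ∀ i, |u i| ≤ C) :
    |ip u v| ≤ C * ∑ i, |v i| := by
  unfold ip
  refine (Finset.abs_sum_le_sum_abs _ _).trans ?_
  rw [Finset.mul_sum]
  refine Finset.sum_le_sum fun i _ => ?_
  rw [abs_mul]
  exact mul_le_mul_of_nonneg_right (h i) (abs_nonneg _)

theorem hsq_dg (a : Vec n) : hsq (dg a) = sq a := by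
  unfold hsq sq dg
  refine Finset.sum_congr rfl fun i _ => ?_
  rw [Finset.sum_eq_single i]
  · rw [Matrix.diagonal_apply_eq]
  · intro j _ hj
    rw [Matrix.diagonal_apply_ne _ (Ne.symm hj)]; ring
  · intro h; exact absurd (Finset.mem_univ i) h

/-- the trace error of the hard clip, for one configuration -/
theorem trN_clip_le {K : Mat n} {CK B C L : ℝ} (hCK : 0 ≤ CK) (hK : OpLe K CK)
    (G : Cfg n → Vec n) (x : Cfg n) (hG : sq (G x) ≤ C * n) (hC : 0 ≤ C)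
    (hD : hsq (DD G x) ≤ B * n) (hB : 0 ≤ B) (hL0 : 0 < L) :
    |trN (K * (DD G x - DD (fun z j => clp L (G z j)) x))|
      ≤ (2 * CK * √C * √B + 4 * CK * B) / L := by
  rcases Nat.eq_zero_or_pos n with hn | hn
  · subst hn
    have : trN (K * (DD G x - DD (fun z j => clp L (G z j)) x)) = 0 := by simp [trN]
    rw [this, abs_zero]; (clear * - hCK hB hL0; positivity)
  have hn' : (0 : ℝ) < n := by exact_mod_cast hn
  set X : Mat n := DD G x - DD (fun z j => clp L (G z j)) x with hX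
  set w : Vec n := fun j => if |G x j| ≤ L / 2 then 0 else 1 with hw
  have hXe : ∀ j l, |X j l| ≤ |DD G x j l| := fun j l =>
    abs_dd_sub_clp_le L l (fun z => G z j) x
  have hX2 : X = dg w * X + (X - dg w * X) := by abel
  have hXh : hsq X ≤ B * n := by
    refine le_trans ?_ hD
    exact Finset.sum_le_sum fun j _ => Finset.sum_le_sum fun l _ => sq_le_sq.2 (hXe j l)
  have hw2 : sq w ≤ 4 * C * n / L ^ 2 := by
    rw [le_div_iff₀ (by positivity)]
    calc sq w * L ^ 2 = ∑ j, w j ^ 2 * L ^ 2 := by unfold sq; rw [Finset.sum_mul]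
      _ ≤ ∑ j, 4 * G x j ^ 2 := by
        refine Finset.sum_le_sum fun j _ => ?_
        by_cases hj : |G x j| ≤ L / 2
        · have e1 : w j = 0 := by rw [hw]; simp [hj]
          rw [e1]; linarith only [sq_nonneg (G x j)]
        · have e1 : w j = 1 := by rw [hw]; simp [hj]
          rw [e1, ← sq_abs (G x j)]
          push Not at hj
          (by_contra nlg; linarith only [mul_nonneg (sq_nonneg (1 : ℝ)) (le_of_lt (sub_pos.2 (not_le.1 nlg))), mul_pos (sub_pos.2 hL0) (sub_pos.2 hj), mul_pos (sub_pos.2 hj) (sub_pos.2 hj)])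
      _ = 4 * sq (G x) := by unfold sq; rw [Finset.mul_sum]
      _ ≤ 4 * C * n := by linarith only [hG]
  have part1 : |trN (K * (dg w * X))| ≤ 2 * CK * √C * √B / L := by
    rw [← mul_assoc]
    refine (abs_trN_mul_le _ _).trans ?_
    have h1 : hsq (K * dg w) ≤ CK ^ 2 * (4 * C * n / L ^ 2) := by
      refine (opLe_hsq_mul_le hK _).trans ?_
      rw [hsq_dg]
      exact mul_le_mul_of_nonneg_left hw2 (sq_nonneg _)
    have h2 : √(hsq (K * dg w)) ≤ 2 * CK * √C * √n / L := by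
      refine Real.sqrt_le_iff.2 ⟨by (clear * - hCK hn hL0; positivity), h1.trans (le_of_eq ?_)⟩
      have e1 := Real.sq_sqrt hC
      have e2 := Real.sq_sqrt hn'.le
      rw [div_pow, mul_pow, mul_pow, mul_pow, e1, e2]; ring
    have h3 : √(hsq X) ≤ √B * √n := by
      rw [← Real.sqrt_mul hB]
      exact Real.sqrt_le_sqrt hXh
    rw [div_le_iff₀ hn']
    calc √(hsq (K * dg w)) * √(hsq X) ≤ (2 * CK * √C * √n / L) * (√B * √n) :=
          mul_le_mul h2 h3 (Real.sqrt_nonneg _) (by (clear * - hCK hn hL0; positivity))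
      _ = 2 * CK * √C * √B / L * (√n * √n) := by ring
      _ = 2 * CK * √C * √B / L * n := by rw [Real.mul_self_sqrt hn'.le]
  have part2 : |trN (K * (X - dg w * X))| ≤ 4 * CK * B / L := by
    rw [trN_mul, abs_div, abs_of_pos hn', div_le_iff₀ hn']
    have hent : ∀ l j, |K l j * (X - dg w * X) j l| ≤ 4 * CK / L * DD G x j l ^ 2 := by
      intro l j
      rw [abs_mul, Matrix.sub_apply, dg_mul_apply]
      by_cases hj : |G x j| ≤ L / 2
      · have e1 : w j = 0 := by rw [hw]; simp [hj]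
        rw [e1, zero_mul, sub_zero]
        by_cases hd : |DD G x j l| ≤ L / 4
        · have e2 : X j l = 0 := dd_sub_clp_eq hd hj
          rw [e2, abs_zero, mul_zero]; (clear * - hCK hL0; positivity)
        · push Not at hd
          have h4 : |X j l| ≤ 4 / L * DD G x j l ^ 2 := by
            refine (hXe j l).trans ?_
            rw [← sq_abs, div_mul_eq_mul_div, le_div_iff₀ hL0]
            (by_contra nlg; linarith only [mul_nonneg (sq_nonneg (|DD G x j l| : ℝ)) (le_of_lt (sub_pos.2 hd)), mul_pos (sub_pos.2 (not_le.1 nlg)) (sub_pos.2 hL0), mul_pos (sub_pos.2 (not_le.1 nlg)) (sub_pos.2 hd)])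
          calc |K l j| * |X j l| ≤ CK * (4 / L * DD G x j l ^ 2) :=
                mul_le_mul (opLe_abs_entry_le hCK hK l j) h4 (abs_nonneg _) hCK
            _ = 4 * CK / L * DD G x j l ^ 2 := by ring
      · have e1 : w j = 1 := by rw [hw]; simp [hj]
        rw [e1, one_mul, sub_self, abs_zero, mul_zero]; (clear * - hCK hL0; positivity)
    calc |∑ l, ∑ j, K l j * (X - dg w * X) j l|
        ≤ ∑ l, ∑ j, 4 * CK / L * DD G x j l ^ 2 := by
          refine (Finset.abs_sum_le_sum_abs _ _).trans (Finset.sum_le_sum fun l _ => ?_)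
          exact (Finset.abs_sum_le_sum_abs _ _).trans (Finset.sum_le_sum fun j _ => hent l j)
      _ = 4 * CK / L * hsq (DD G x) := by
          unfold hsq
          rw [Finset.sum_comm, Finset.mul_sum]
          exact Finset.sum_congr rfl fun _ _ => by rw [Finset.mul_sum]
      _ ≤ 4 * CK / L * (B * n) := mul_le_mul_of_nonneg_left hD (by (clear * - hCK hL0; positivity))
      _ = 4 * CK * B / L * n := by ring
  rw [hX2, Matrix.mul_add, trN_add, add_div]
  exact (abs_add_le _ _).trans (add_le_add part1 part2)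

end Fixed

/-! ### Families -/

section Fam

variable {ι : Type} {F : Filter ι} {d : ι → Dat}

theorem opLe_abs {n : ℕ} {A : Mat n} {C : ℝ} (h : OpLe A C) : OpLe A |C| := by
  intro v; rw [sq_abs]; exact h v

theorem abs_m_le (d : Dat) (x : Cfg d.n) (k : ℕ) (j : Fin d.n) : |d.m x k j| ≤ 1 := by
  unfold Dat.m
  match k with
  | 0 =>
    show |sv x j| ≤ 1
    unfold sv
    rw [abs_sp]
  | 1 =>
    show |Real.tanh _| ≤ 1
    exact (Real.abs_tanh_lt_one _).le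
  | k + 2 =>
    show |Real.tanh _| ≤ 1
    exact (Real.abs_tanh_lt_one _).le

theorem m_succ (d : Dat) (x : Cfg d.n) (k : ℕ) (j : Fin d.n) :
    d.m x (k + 1) j = Real.tanh (d.a x (k + 1) j) := by
  unfold Dat.m Dat.a
  match k with
  | 0 => rfl
  | k + 1 => rfl

/-- unbounded test fields -/
def TU (F : Filter ι) (d : ι → Dat) (G : Fld d) : Prop :=
  (∃ C : ℝ, ∀ᶠ i in F, ∀ x, sq (G i x) ≤ C * (d i).n) ∧
    ∃ C : ℝ, ∀ᶠ i in F, ∀ x, hsq (DD (G i) x) ≤ C * (d i).n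

/-- the expression in `HH` -/
noncomputable def hhE (d : ι → Dat) (k : ℕ) (G : Fld d) : Scl d := fun i x =>
  ip ((d i).m x (k - 1) - (d i).m x k) (G i x) / (d i).n - trN ((d i).DK x k * DD (G i) x)

/-- `HH` extends to the unbounded class -/
theorem hh_clip (hp : ∀ i, IsProb (d i).ν) (hop : OpB F d) {k : ℕ} (h : HH F d k) {G : Fld d}
    (hG : TU F d G) : Tendsto (EE d (hhE d k G)) F (𝓝 0) := by
  obtain ⟨⟨C0, hC0⟩, ⟨B0, hB0⟩⟩ := hG
  obtain ⟨CK0, hCK0⟩ := hop k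
  set C := |C0| with hC
  set B := |B0| with hB
  set CK := |CK0| with hCK
  rw [Metric.tendsto_nhds]
  intro ε hε
  set E : ℝ := 2 * C + (2 * CK * √C * √B + 4 * CK * B) with hE
  have hE0 : 0 ≤ E := by (clear * -; positivity)
  set L : ℝ := 1 + 4 * E / ε with hL
  have hL0 : 0 < L := by (clear * - hε; positivity)
  have hEL : E / L < ε / 2 := by
    rw [div_lt_iff₀ hL0]
    have h1 : ε / 2 * (4 * E / ε) = 2 * E := by field_simp; ring
    have h2 : ε / 2 * L = ε / 2 + 2 * E := by rw [hL, mul_add, h1]; ring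
    rw [h2]
    linarith only [hε, hE0]
  set Gc : Fld d := fun i x j => clp L (G i x j) with hGc
  have hTF : TF F d Gc := by
    refine ⟨⟨L, Filter.Eventually.of_forall fun i x j => abs_clp_le hL0.le _⟩, ⟨B0, ?_⟩⟩
    filter_upwards [hB0] with i hi x
    refine le_trans (Finset.sum_le_sum fun j _ => Finset.sum_le_sum fun l _ => ?_) (hi x)
    exact sq_le_sq.2 (abs_dd_clp_le L l (fun z => G i z j) x)
  have h1 := (Metric.tendsto_nhds.1 (h Gc hTF)) (ε / 2) (by positivity)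
  filter_upwards [h1, hC0, hB0, hCK0] with i hi hci hbi hki
  rw [dist_zero_right, Real.norm_eq_abs] at hi ⊢
  have key : ∀ x, |hhE d k G i x - hhE d k Gc i x| ≤ E / L := by
    intro x
    have e1 : hhE d k G i x - hhE d k Gc i x
        = ip ((d i).m x (k - 1) - (d i).m x k) (G i x - Gc i x) / (d i).n
          - trN ((d i).DK x k * (DD (G i) x - DD (Gc i) x)) := by
      unfold hhE
      rw [Matrix.mul_sub, trN_sub]
      have : ip ((d i).m x (k - 1) - (d i).m x k) (G i x - Gc i x)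
          = ip ((d i).m x (k - 1) - (d i).m x k) (G i x)
            - ip ((d i).m x (k - 1) - (d i).m x k) (Gc i x) := by
        unfold ip
        rw [← Finset.sum_sub_distrib]
        exact Finset.sum_congr rfl fun j _ => by rw [Pi.sub_apply (G i x)]; ring
      rw [this, sub_div]; ring
    rw [e1]
    have hCn : sq (G i x) ≤ C * (d i).n := (hci x).trans
      (mul_le_mul_of_nonneg_right (le_abs_self _) (Nat.cast_nonneg _))
    have h2 : |ip ((d i).m x (k - 1) - (d i).m x k) (G i x - Gc i x) / (d i).n| ≤ 2 * C / L := by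
      rcases Nat.eq_zero_or_pos (d i).n with hn | hn
      · have e0 : (((d i).n : ℕ) : ℝ) = 0 := by exact_mod_cast hn
        simp only [e0, div_zero, abs_zero]; (clear * - hε; positivity)
      have hn' : (0 : ℝ) < (d i).n := by exact_mod_cast hn
      rw [abs_div, abs_of_pos hn', div_le_div_iff₀ hn' hL0]
      have h3 : |ip ((d i).m x (k - 1) - (d i).m x k) (G i x - Gc i x)|
          ≤ 2 * ∑ j, |(G i x - Gc i x) j| := by
        refine abs_ip_le_mul fun j => ?_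
        rw [Pi.sub_apply]
        refine (abs_sub _ _).trans ?_
        have := abs_m_le (d i) x (k - 1) j
        have := abs_m_le (d i) x k j
        linarith
      have h4 : ∑ j, |(G i x - Gc i x) j| ≤ sq (G i x) / L := by
        unfold sq
        rw [Finset.sum_div]
        exact Finset.sum_le_sum fun j _ => abs_sub_clp_le hL0 _
      have h5 : |ip ((d i).m x (k - 1) - (d i).m x k) (G i x - Gc i x)| * L ≤ 2 * sq (G i x) := by
        calc _ ≤ 2 * (sq (G i x) / L) * L := by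
              refine mul_le_mul_of_nonneg_right (h3.trans ?_) hL0.le
              linarith only [h4]
          _ = 2 * sq (G i x) := by field_simp
      linarith only [hCn, h5]
    have h3 : |trN ((d i).DK x k * (DD (G i) x - DD (Gc i) x))|
        ≤ (2 * CK * √C * √B + 4 * CK * B) / L := by
      refine trN_clip_le (abs_nonneg _) (opLe_abs (hki x).2.1) (G i) x hCn (abs_nonneg _) ?_
        (abs_nonneg _) hL0
      exact (hbi x).trans (mul_le_mul_of_nonneg_right (le_abs_self _) (Nat.cast_nonneg _))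
    refine (abs_sub _ _).trans ?_
    rw [hE, add_div]
    exact add_le_add h2 h3
  have h2 : |EE d (hhE d k G) i - EE d (hhE d k Gc) i| ≤ E / L := by
    have := abs_Ex_le_of (hp i) key
    rwa [Ex_sub] at this
  have h3 := abs_sub_abs_le_abs_sub (EE d (hhE d k G) i) (EE d (hhE d k Gc) i)
  have hi' : |EE d (hhE d k Gc) i| < ε / 2 := hi
  linarith only [hEL, h2, h3, hi']

/-! ### the pre-identity -/

theorem t_succ (d : Dat) (x : Cfg d.n) (k : ℕ) (hn : 0 < d.n) :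
    d.t x (k + 1) = 1 - qq (d.m x (k + 1)) := by
  unfold Dat.t tS
  rw [if_neg (Nat.succ_ne_zero k)]
  unfold trN dg qq sq Dat.S
  simp only [Matrix.diagonal_apply_eq]
  rw [Finset.sum_sub_distrib]
  have hn' : (d.n : ℝ) ≠ 0 := by exact_mod_cast hn.ne'
  rw [sub_div]
  simp [hn']

theorem t_zero (d : Dat) (x : Cfg d.n) : d.t x 0 = 0 := by
  unfold Dat.t tS
  rw [if_pos rfl]

theorem a_one (d : Dat) (x : Cfg d.n) (j : Fin d.n) :
    d.a x 1 j = d.M.mulVec (d.m x 0) j + d.y j := rfl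

theorem a_add_two (d : Dat) (x : Cfg d.n) (k : ℕ) (j : Fin d.n) :
    d.a x (k + 2) j = d.M.mulVec (d.m x (k + 1)) j + d.y j - d.r ^ 2 * d.t x (k + 1) * d.m x k j := by
  rw [t_succ d x k (Fin.pos j)]
  rfl

theorem a_diff_one (d : Dat) (x : Cfg d.n) :
    d.a x 1 - d.a x 2 - d.c x 1 • d.m x 1
      = d.M.mulVec (d.m x 0 - d.m x 1) + d.c x 1 • (d.m x 0 - d.m x 1) := by
  ext j
  have e : d.c x 1 = d.r ^ 2 * d.t x 1 := by
    unfold Dat.c
    rw [show (1 - 1 : ℕ) = 0 from rfl, t_zero, sub_zero]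
  rw [Matrix.mulVec_sub]
  simp only [Pi.sub_apply, Pi.add_apply, Pi.smul_apply, smul_eq_mul]
  rw [a_one, a_add_two d x 0 j, e]
  ring

theorem a_diff (d : Dat) (x : Cfg d.n) (k : ℕ) :
    d.a x (k + 2) - d.a x (k + 3) - d.c x (k + 2) • d.m x (k + 2)
      = d.M.mulVec (d.m x (k + 1) - d.m x (k + 2)) + d.c x (k + 2) • (d.m x (k + 1) - d.m x (k + 2))
        - (d.r ^ 2 * d.t x (k + 1)) • (d.m x k - d.m x (k + 1)) := by
  ext j
  have e : d.c x (k + 2) = d.r ^ 2 * (d.t x (k + 2) - d.t x (k + 1)) := rfl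
  rw [Matrix.mulVec_sub]
  simp only [Pi.sub_apply, Pi.add_apply, Pi.smul_apply, smul_eq_mul]
  rw [a_add_two d x k j, show k + 3 = (k + 1) + 2 from rfl, a_add_two d x (k + 1) j, e]
  ring

/-! ### the unbounded class -/

theorem hsq_smul_err {n : ℕ} (s : Cfg n → ℝ) (G : Cfg n → Vec n) (x : Cfg n) :
    hsq (DD (fun z => s z • G z) x - s x • DD G x)
      ≤ gsq s x * (2 * sq (G x) + 8 * hsq (DD G x)) := by
  have hent : ∀ j l, (DD (fun z => s z • G z) x - s x • DD G x) j l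
      = dd l s x * (G x j - 2 * sp (x l) * DD G x j l) := by
    intro j l
    have e1 : DD (fun z => s z • G z) x j l
        = av l s x * DD G x j l + dd l s x * av l (fun z => G z j) x := dd_mul l _ _ x
    have h1 := av_add_dd l s x
    have h2 := av_add_dd l (fun z => G z j) x
    have e2 : DD G x j l = dd l (fun z => G z j) x := rfl
    rw [Matrix.sub_apply, Matrix.smul_apply, smul_eq_mul, e1, e2]
    linear_combination (-dd l (fun z => G z j) x) * h1 + (-dd l s x) * h2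
  have hle : ∀ j l, (DD (fun z => s z • G z) x - s x • DD G x) j l ^ 2
      ≤ dd l s x ^ 2 * (2 * G x j ^ 2) + gsq s x * (8 * DD G x j l ^ 2) := by
    intro j l
    rw [hent j l, mul_pow]
    have h1 : dd l s x ^ 2 ≤ gsq s x :=
      Finset.single_le_sum (f := fun l => dd l s x ^ 2) (fun _ _ => sq_nonneg _)
        (Finset.mem_univ l)
    have h3 : sp (x l) ^ 2 = 1 := by cases x l <;> simp [sp]
    have h2 : (G x j - 2 * sp (x l) * DD G x j l) ^ 2 ≤ 2 * G x j ^ 2 + 8 * DD G x j l ^ 2 := by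
      have e : 8 * DD G x j l ^ 2 = 2 * (2 * sp (x l) * DD G x j l) ^ 2 := by
        rw [mul_pow, mul_pow, h3]; ring
      rw [e]
      linarith only [sq_nonneg (G x j + 2 * sp (x l) * DD G x j l)]
    calc dd l s x ^ 2 * (G x j - 2 * sp (x l) * DD G x j l) ^ 2
        ≤ dd l s x ^ 2 * (2 * G x j ^ 2 + 8 * DD G x j l ^ 2) :=
          mul_le_mul_of_nonneg_left h2 (sq_nonneg _)
      _ = dd l s x ^ 2 * (2 * G x j ^ 2) + dd l s x ^ 2 * (8 * DD G x j l ^ 2) := by ring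
      _ ≤ _ := by
        have := mul_le_mul_of_nonneg_right h1 (show 0 ≤ 8 * DD G x j l ^ 2 by (clear * -; positivity))
        linarith only [this]
  have hs : hsq (DD (fun z => s z • G z) x - s x • DD G x)
      ≤ ∑ j, ∑ l, (dd l s x ^ 2 * (2 * G x j ^ 2) + gsq s x * (8 * DD G x j l ^ 2)) :=
    Finset.sum_le_sum fun j _ => Finset.sum_le_sum fun l _ => hle j l
  refine hs.trans (le_of_eq ?_)
  have e1 : ∑ j, ∑ l, dd l s x ^ 2 * (2 * G x j ^ 2) = gsq s x * (2 * sq (G x)) := by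
    unfold gsq sq
    rw [Finset.mul_sum, Finset.mul_sum]
    refine Finset.sum_congr rfl fun j _ => ?_
    rw [Finset.sum_mul]
  have e2 : ∑ j, ∑ l, gsq s x * (8 * DD G x j l ^ 2) = gsq s x * (8 * hsq (DD G x)) := by
    unfold hsq
    rw [Finset.mul_sum, Finset.mul_sum]
    refine Finset.sum_congr rfl fun j _ => ?_
    rw [Finset.mul_sum, Finset.mul_sum]
  rw [mul_add, ← e1, ← e2, ← Finset.sum_add_distrib]
  exact Finset.sum_congr rfl fun j _ => by rw [← Finset.sum_add_distrib]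

theorem div_n_le {a C : ℝ} {n : ℕ} (hC : 0 ≤ C) (h : a ≤ C * n) : a / n ≤ C := by
  rcases Nat.eq_zero_or_pos n with h0 | h0
  · subst h0; simpa using hC
  · exact (div_le_iff₀ (by exact_mod_cast h0)).2 h

theorem hz_smul {s : Scl d} {G : Fld d} (hs : UZ F d fun i x => gsq (s i) x) (hG : TU F d G) :
    HZ F d (fun i x => DD (fun z => s i z • G i z) x - s i x • DD (G i) x) := by
  obtain ⟨⟨C, hC⟩, ⟨B, hB⟩⟩ := hG
  refine hs.of_abs_le (C := 2 * |C| + 8 * |B|) ?_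
  filter_upwards [hC, hB] with i h1 h2 x
  rw [abs_of_nonneg (div_nonneg (hsq_nonneg _) (Nat.cast_nonneg _)),
    abs_of_nonneg (gsq_nonneg _ _)]
  refine div_n_le (mul_nonneg (by (clear * -; positivity)) (gsq_nonneg _ _)) ?_
  refine (hsq_smul_err _ _ _).trans ?_
  have h3 : sq (G i x) ≤ |C| * (d i).n := (h1 x).trans
    (mul_le_mul_of_nonneg_right (le_abs_self _) (Nat.cast_nonneg _))
  have h4 : hsq (DD (G i) x) ≤ |B| * (d i).n := (h2 x).trans
    (mul_le_mul_of_nonneg_right (le_abs_self _) (Nat.cast_nonneg _))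
  have h5 := mul_le_mul_of_nonneg_left
    (show 2 * sq (G i x) + 8 * hsq (DD (G i) x) ≤ (2 * |C| + 8 * |B|) * (d i).n by linarith only [h4, h3])
    (gsq_nonneg (s i) x)
  linarith

theorem TU.of_tf {G : Fld d} (hG : TF F d G) : TU F d G := by
  obtain ⟨⟨C, hC⟩, hB⟩ := hG
  refine ⟨⟨C ^ 2, ?_⟩, hB⟩
  filter_upwards [hC] with i hi x
  unfold sq
  calc ∑ j, G i x j ^ 2 ≤ ∑ _j : Fin (d i).n, C ^ 2 := by
        refine Finset.sum_le_sum fun j _ => ?_
        rw [← sq_abs]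
        exact pow_le_pow_left₀ (abs_nonneg _) (hi x j) 2
    _ = C ^ 2 * (d i).n := by simp [mul_comm]

theorem TU.add {G H : Fld d} (hG : TU F d G) (hH : TU F d H) :
    TU F d (fun i z => G i z + H i z) := by
  obtain ⟨⟨C, hC⟩, ⟨B, hB⟩⟩ := hG
  obtain ⟨⟨C', hC'⟩, ⟨B', hB'⟩⟩ := hH
  refine ⟨⟨2 * C + 2 * C', ?_⟩, ⟨2 * B + 2 * B', ?_⟩⟩
  · filter_upwards [hC, hC'] with i h1 h2 x
    refine (sq_add_le' _ _).trans ?_
    linarith only [h2 x, h1 x]
  · filter_upwards [hB, hB'] with i h1 h2 x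
    have e1 : DD (fun z => G i z + H i z) x = DD (G i) x + DD (H i) x := by
      ext j l
      exact dd_add l _ _ x
    rw [e1]
    refine (hsq_add_le _ _).trans ?_
    linarith [h1 x, h2 x]

theorem sq_smul {n : ℕ} (c : ℝ) (v : Vec n) : sq (c • v) = c ^ 2 * sq v := by
  unfold sq
  rw [Finset.mul_sum]
  exact Finset.sum_congr rfl fun j _ => by rw [Pi.smul_apply, smul_eq_mul]; ring

theorem TU.smul {s : Scl d} {G : Fld d} (hs : MW F d s) (hG : TU F d G) :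
    TU F d (fun i z => s i z • G i z) := by
  have hz := hz_smul hs.2 hG
  obtain ⟨⟨C, hC⟩, ⟨B, hB⟩⟩ := hG
  obtain ⟨S, hS⟩ := hs.1
  refine ⟨⟨S ^ 2 * |C|, ?_⟩, ⟨2 * 1 + 2 * (S ^ 2 * |B|), ?_⟩⟩
  · filter_upwards [hC, hS] with i h1 h2 x
    rw [sq_smul]
    have h3 : s i x ^ 2 ≤ S ^ 2 := by
      rw [← sq_abs]; exact pow_le_pow_left₀ (abs_nonneg _) (h2 x) 2
    have h4 : sq (G i x) ≤ |C| * (d i).n := (h1 x).trans
      (mul_le_mul_of_nonneg_right (le_abs_self _) (Nat.cast_nonneg _))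
    calc s i x ^ 2 * sq (G i x) ≤ S ^ 2 * (|C| * (d i).n) :=
          mul_le_mul h3 h4 (sq_nonneg' _) (sq_nonneg _)
      _ = S ^ 2 * |C| * (d i).n := by ring
  · filter_upwards [hB, hS, hz 1 one_pos] with i h1 h2 h5 x
    have h3 : s i x ^ 2 ≤ S ^ 2 := by
      rw [← sq_abs]; exact pow_le_pow_left₀ (abs_nonneg _) (h2 x) 2
    have h4 : hsq (DD (G i) x) ≤ |B| * (d i).n := (h1 x).trans
      (mul_le_mul_of_nonneg_right (le_abs_self _) (Nat.cast_nonneg _))
    have e1 : DD (fun z => s i z • G i z) x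
        = (DD (fun z => s i z • G i z) x - s i x • DD (G i) x) + s i x • DD (G i) x := by abel
    rw [e1]
    refine (hsq_add_le _ _).trans ?_
    rw [hsq_smul]
    have h6 : hsq (DD (fun z => s i z • G i z) x - s i x • DD (G i) x) ≤ 1 * (d i).n := by
      rcases Nat.eq_zero_or_pos (d i).n with h0 | h0
      · have h0' : ((d i).n : ℝ) = 0 := by exact_mod_cast h0
        have h7 := hsq_smul_err (s i) (G i) x
        have h8 : sq (G i x) = 0 := by
          unfold sq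
          exact Finset.sum_eq_zero fun j _ => absurd j.2 (by omega)
        have h9 : hsq (DD (G i) x) = 0 := by
          unfold hsq
          exact Finset.sum_eq_zero fun j _ => absurd j.2 (by omega)
        rw [h8, h9] at h7
        rw [h0']
        linarith only [h7]
      · have hn' : (0 : ℝ) < (d i).n := by exact_mod_cast h0
        have h7 := (le_abs_self _).trans (h5 x)
        rwa [div_le_iff₀ hn'] at h7
    have h8 : s i x ^ 2 * hsq (DD (G i) x) ≤ S ^ 2 * (|B| * (d i).n) :=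
      mul_le_mul h3 h4 (hsq_nonneg _) (sq_nonneg _)
    linarith only [h8, h6]

theorem DD_mulVec' {n : ℕ} (A : Mat n) (G : Cfg n → Vec n) (x : Cfg n) :
    DD (fun z => A.mulVec (G z)) x = A * DD G x := by
  ext j l
  rw [Matrix.mul_apply]
  show dd l (fun z => ∑ i, A j i * G z i) x = ∑ i, A j i * dd l (fun z => G z i) x
  rw [dd_sum]
  exact Finset.sum_congr rfl fun i _ => dd_const_mul _ _ _ _

theorem TU.mulVec {M : ∀ i, Mat (d i).n} {CM : ℝ} (hM : ∀ i, OpLe (M i) CM) {G : Fld d}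
    (hG : TU F d G) : TU F d (fun i z => (M i).mulVec (G i z)) := by
  obtain ⟨⟨C, hC⟩, ⟨B, hB⟩⟩ := hG
  refine ⟨⟨CM ^ 2 * C, ?_⟩, ⟨CM ^ 2 * B, ?_⟩⟩
  · filter_upwards [hC] with i h1 x
    refine (hM i _).trans ?_
    rw [mul_assoc]
    exact mul_le_mul_of_nonneg_left (h1 x) (sq_nonneg _)
  · filter_upwards [hB] with i h1 x
    rw [DD_mulVec']
    refine (opLe_hsq_mul_le (hM i) _).trans ?_
    rw [mul_assoc]
    exact mul_le_mul_of_nonneg_left (h1 x) (sq_nonneg _)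

/-- the steering matrix is negligible in traces -/
theorem uz_trN_A (hJ : HypJ F d) {K : ∀ i, Cfg (d i).n → Mat (d i).n} (hK : OB F d K) {G : Fld d}
    (hG : TU F d G) : UZ F d (fun i x => trN (K i x * (d i).A * DD (G i) x)) := by
  obtain ⟨CK, hCK0, hCK⟩ := hK
  obtain ⟨CA, hCA⟩ := hJ.hsA
  obtain ⟨_, ⟨B, hB⟩⟩ := hG
  have h0 : UZ F d (fun i _ => √(1 / ((d i).n : ℝ))) := (UZ.inv_n hJ.n_top 1).sqrt
  refine h0.of_abs_le (C := CK * √|CA| * √|B|) ?_
  filter_upwards [hCK, hB, hJ.n_top.eventually_gt_atTop 0] with i h1 h2 h3 x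
  have hn' : (0 : ℝ) < (d i).n := by exact_mod_cast h3
  rw [abs_of_nonneg (Real.sqrt_nonneg _)]
  refine (abs_trN_mul_le _ _).trans ?_
  have h4 : √(hsq (K i x * (d i).A)) ≤ CK * √|CA| := by
    refine Real.sqrt_le_iff.2 ⟨by (clear * - hCK0; positivity), ?_⟩
    rw [mul_pow, Real.sq_sqrt (abs_nonneg _)]
    refine (opLe_hsq_mul_le (h1 x) _).trans ?_
    exact mul_le_mul_of_nonneg_left ((hCA i).trans (le_abs_self _)) (sq_nonneg _)
  have h5 : √(hsq (DD (G i) x)) ≤ √|B| * √(d i).n := by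
    rw [← Real.sqrt_mul (abs_nonneg _)]
    exact Real.sqrt_le_sqrt ((h2 x).trans (mul_le_mul_of_nonneg_right (le_abs_self _) hn'.le))
  rw [div_le_iff₀ hn', Real.sqrt_div zero_le_one, Real.sqrt_one]
  have h6 : √((d i).n : ℝ) ≠ 0 := (Real.sqrt_pos.2 hn').ne'
  have h7 : √((d i).n : ℝ) * √((d i).n : ℝ) = (d i).n := Real.mul_self_sqrt hn'.le
  calc √(hsq (K i x * (d i).A)) * √(hsq (DD (G i) x)) ≤ CK * √|CA| * (√|B| * √(d i).n) :=
        mul_le_mul h4 h5 (Real.sqrt_nonneg _) (by (clear * - hCK0; positivity))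
    _ = CK * √|CA| * √|B| * (1 / √(d i).n) * (√((d i).n : ℝ) * √((d i).n : ℝ)) := by
        field_simp
    _ = _ := by rw [h7]

/-- trace of the derivative of `s G` -/
theorem uz_trN_smul {K : ∀ i, Cfg (d i).n → Mat (d i).n} (hK : OB F d K) {s : Scl d}
    (hs : MW F d s) {G : Fld d} (hG : TU F d G) :
    UZ F d (fun i x => trN (K i x * DD (fun z => s i z • G i z) x)
      - s i x * trN (K i x * DD (G i) x)) := by
  refine (UZ.trN_mul hK (hz_smul hs.2 hG)).congr fun i x => ?_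
  rw [Matrix.mul_sub, trN_sub, Matrix.mul_smul, trN_smul]

/-- trace of the derivative of `M G` -/
theorem uz_trN_M (hJ : HypJ F d) {K : ∀ i, Cfg (d i).n → Mat (d i).n} (hK : OB F d K) {G : Fld d}
    (hG : TU F d G) : UZ F d (fun i x => trN (K i x * DD (fun z => (d i).M.mulVec (G i z)) x)
      - trN (K i x * ((d i).r • (d i).J) * DD (G i) x)) := by
  refine (uz_trN_A hJ hK hG).neg.congr fun i x => ?_
  rw [DD_mulVec', ← trN_neg']
  rw [← trN_sub]
  congr 1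
  unfold Dat.M
  noncomm_ring

theorem M_isSymm (hJ : HypJ F d) (i : ι) : ((d i).M).IsSymm := by
  unfold Dat.M Matrix.IsSymm
  rw [Matrix.transpose_sub, Matrix.transpose_smul, hJ.symm i, hJ.asymm i]

theorem M_op (hJ : HypJ F d) : ∃ CM : ℝ, ∀ i, OpLe ((d i).M) CM := by
  obtain ⟨CA, hCA⟩ := hJ.hsA
  refine ⟨3 + √|CA|, fun i => ?_⟩
  have h1 : OpLe ((d i).r • (d i).J) 3 := by
    refine opLe_mono ((hJ.op i).smul (by norm_num) (d i).r) ?_
    rw [abs_mul, abs_abs, abs_of_nonneg (hJ.r0 i)]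
    have := hJ.r1 i
    rw [abs_of_pos (by norm_num : (0 : ℝ) < 3)]
    linarith only [this]
  have h2 : OpLe (d i).A (√|CA|) := by
    intro v
    rw [Real.sq_sqrt (abs_nonneg _)]
    exact (sq_mulVec_le _ _).trans
      (mul_le_mul_of_nonneg_right ((hCA i).trans (le_abs_self _)) (sq_nonneg' _))
  exact h1.sub h2 (by norm_num) (Real.sqrt_nonneg _)

theorem dk_ob (hop : OpB F d) (k : ℕ) : OB F d (fun i x => (d i).DK x k) := by
  obtain ⟨C, hC⟩ := hop k
  exact OB.of_ex ⟨C, hC.mono fun i hi x => (hi x).2.1⟩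

theorem xi_ob (hop : OpB F d) (k : ℕ) : OB F d (fun i x => (d i).Xi x k) := by
  obtain ⟨C, hC⟩ := hop k
  exact OB.of_ex ⟨C, hC.mono fun i hi x => (hi x).2.2⟩

theorem mw_t (hJ : HypJ F d) (hT : MacT F d) (k : ℕ) : MW F d (fun i x => (d i).t x k) :=
  MW.of_MS hJ.n_top (hT k)

theorem mw_r2 (hJ : HypJ F d) : MW F d (fun i _ => (d i).r ^ 2) :=
  MW.of_index (C := 1) fun i => by
    rw [abs_of_nonneg (sq_nonneg _)]; exact pow_le_one₀ (hJ.r0 i) (hJ.r1 i)

theorem mw_c (hJ : HypJ F d) (hT : MacT F d) (k : ℕ) : MW F d (fun i x => (d i).c x k) :=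
  (mw_r2 hJ).mul ((mw_t hJ hT k).sub (mw_t hJ hT (k - 1)))

/-- the common part of the pre-identity: `tr (DK D((M + c) G)) ≈ tr (DK (rJ + c) DG)` -/
theorem uz_main (hJ : HypJ F d) {K : ∀ i, Cfg (d i).n → Mat (d i).n} (hK : OB F d K) {c : Scl d}
    (hc : MW F d c) {G : Fld d} (hG : TU F d G) :
    UZ F d (fun i x => trN (K i x * DD (fun z => (d i).M.mulVec (G i z) + c i z • G i z) x)
      - trN (K i x * ((d i).r • (d i).J + c i x • (1 : Mat (d i).n)) * DD (G i) x)) := by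
  refine ((uz_trN_M hJ hK hG).add (uz_trN_smul hK hc hG)).congr fun i x => ?_
  have e1 : DD (fun z => (d i).M.mulVec (G i z) + c i z • G i z) x
      = DD (fun z => (d i).M.mulVec (G i z)) x + DD (fun z => c i z • G i z) x := by
    ext j l
    exact dd_add l _ _ x
  have e2 : K i x * ((d i).r • (d i).J + c i x • (1 : Mat (d i).n)) * DD (G i) x
      = K i x * ((d i).r • (d i).J) * DD (G i) x + c i x • (K i x * DD (G i) x) := by
    rw [Matrix.mul_add, Matrix.add_mul, Matrix.mul_smul (K i x) (c i x), Matrix.mul_one,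
      Matrix.smul_mul]
  rw [e1, e2, Matrix.mul_add, trN_add, trN_add, trN_smul]
  ring

theorem ip_M (hJ : HypJ F d) (i : ι) (u v : Vec (d i).n) :
    ip ((d i).M.mulVec u) v = ip u ((d i).M.mulVec v) := by
  rw [ip_mulVec, M_isSymm hJ i]

theorem PP_one (hJ : HypJ F d) (hp : ∀ i, IsProb (d i).ν) (hop : OpB F d) (hT : MacT F d)
    (h1 : HH F d 1) : PP F d 1 := by
  intro G hG
  obtain ⟨CM, hCM⟩ := M_op hJ
  have hGu := TU.of_tf hG
  have hc := mw_c hJ hT 1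
  set G1 : Fld d := fun i z => (d i).M.mulVec (G i z) + (d i).c z 1 • G i z with hG1
  have hG1u : TU F d G1 := (hGu.mulVec hCM).add (TU.smul hc hGu)
  have H1 := hh_clip hp hop h1 hG1u
  refine tendsto_EE_congr hp H1 ?_
  refine (uz_main hJ (dk_ob hop 1) hc hGu).congr fun i x => ?_
  unfold hhE
  rw [a_diff_one]
  have e1 : ip ((d i).M.mulVec ((d i).m x 0 - (d i).m x 1)
      + (d i).c x 1 • ((d i).m x 0 - (d i).m x 1)) (G i x)
      = ip ((d i).m x (1 - 1) - (d i).m x 1) (G1 i x) := by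
    rw [ip_add_left, ip_M hJ i, ip_smul_left, hG1, ip_add_right, ip_smul_right]
  have e2 : (d i).Xi x 1 = (d i).DK x 1 * ((d i).r • (d i).J + (d i).c x 1 • (1 : Mat (d i).n)) :=
    Xi_one _ _ _ _ _
  rw [e1, e2]
  ring

theorem PP_of_HH (hJ : HypJ F d) (hp : ∀ i, IsProb (d i).ν) (hop : OpB F d) (hT : MacT F d)
    (k : ℕ) (h0 : HH F d (k + 1)) (h1 : HH F d (k + 2)) : PP F d (k + 2) := by
  intro G hG
  obtain ⟨CM, hCM⟩ := M_op hJ
  have hGu := TU.of_tf hG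
  have hc := mw_c hJ hT (k + 2)
  have hs : MW F d (fun i x => (d i).r ^ 2 * (d i).t x (k + 1)) := (mw_r2 hJ).mul (mw_t hJ hT _)
  set G1 : Fld d := fun i z => (d i).M.mulVec (G i z) + (d i).c z (k + 2) • G i z with hG1
  set G2 : Fld d := fun i z => ((d i).r ^ 2 * (d i).t z (k + 1)) • G i z with hG2
  have hG1u : TU F d G1 := (hGu.mulVec hCM).add (TU.smul hc hGu)
  have hG2u : TU F d G2 := TU.smul hs hGu
  have H1 := hh_clip hp hop h1 hG1u
  have H2 := hh_clip hp hop h0 hG2u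
  refine tendsto_EE_congr hp (tendsto_EE_sub H1 H2) ?_
  refine ((uz_main hJ (dk_ob hop (k + 2)) hc hGu).sub
    (uz_trN_smul (dk_ob hop (k + 1)) hs hGu)).congr fun i x => ?_
  unfold hhE
  rw [a_diff]
  have e1 : ip ((d i).M.mulVec ((d i).m x (k + 1) - (d i).m x (k + 2))
      + (d i).c x (k + 2) • ((d i).m x (k + 1) - (d i).m x (k + 2))
        - ((d i).r ^ 2 * (d i).t x (k + 1)) • ((d i).m x k - (d i).m x (k + 1))) (G i x)
      = ip ((d i).m x (k + 2 - 1) - (d i).m x (k + 2)) (G1 i x)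
        - ip ((d i).m x (k + 1 - 1) - (d i).m x (k + 1)) (G2 i x) := by
    rw [ip_sub_left, ip_add_left, ip_M hJ i, ip_smul_left, ip_smul_left, hG1, ip_add_right,
      ip_smul_right, hG2, ip_smul_right]
    rfl
  have e2 : (d i).Xi x (k + 2) = (d i).DK x (k + 2) * ((d i).r • (d i).J
      + (d i).c x (k + 2) • (1 : Mat (d i).n))
      - ((d i).r ^ 2 * (d i).t x (k + 1)) • (d i).DK x (k + 1) := Xi_succ _ _ _ _ _ _
  rw [e1, e2, Matrix.sub_mul, trN_sub, Matrix.smul_mul, trN_smul]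
  ring

end Fam

end Vale.Agent.P150.F.D2.Ind
end
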