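import Mathlib
import Vale.Agent.P150.Bdl.B15
import Vale.Agent.P150.Bdl.B3
import Vale.Agent.P150.Bdl.B1
import Vale.Agent.P150.Bdl.B10

set_option linter.all false

section

open Filter Topology Set

namespace Vale.Agent.P150.Chan

variable {X : Type*} {m : ℕ}

lemma entU_le [Fintype X] [Nonempty X] (ξ : X → Fin m → ℝ) (c : X → ℝ) (hc : ∀ x, 0 < c x)
    (f : X → ℝ) (hf : ∀ x, 0 < f x) (s : ℝ) (y : Fin m → ℝ) :
    entU ξ c f s y ≤ ((∑ x, |f x * Real.log (f x)|) + 1) * lin ξ c (fun _ => 1) s y := by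
  have hU := lin_pos ξ c hc f hf s y
  have hZ := lin_pos ξ c hc (fun _ => (1:ℝ)) (fun _ => one_pos) s y
  unfold entU
  have h1 : lin ξ c (fun x => f x * Real.log (f x)) s y
      ≤ (∑ x, |f x * Real.log (f x)|) * lin ξ c (fun _ => 1) s y := by
    unfold lin
    rw [Finset.mul_sum]
    apply Finset.sum_le_sum
    intro x _
    rw [one_mul]
    apply mul_le_mul_of_nonneg_right _ (wt_pos ξ c hc s y x).le
    calc f x * Real.log (f x) ≤ |f x * Real.log (f x)| := le_abs_self _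
      _ ≤ _ := Finset.single_le_sum (f := fun x => |f x * Real.log (f x)|)
        (fun _ _ => abs_nonneg _) (Finset.mem_univ x)
  have h2 : - (lin ξ c f s y * (Real.log (lin ξ c f s y) - Real.log (lin ξ c (fun _ => 1) s y)))
      ≤ lin ξ c (fun _ => 1) s y := by
    rw [← Real.log_div hU.ne' hZ.ne']
    have h3 := Real.one_sub_inv_le_log_of_pos (div_pos hU hZ)
    have h4 := mul_le_mul_of_nonneg_left h3 hU.le
    have h5 : lin ξ c f s y * (1 - (lin ξ c f s y / lin ξ c (fun _ => 1) s y)⁻¹)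
        = lin ξ c f s y - lin ξ c (fun _ => 1) s y := by
      field_simp
    linarith only [hU, h4, h5]
  linarith only [h2, h1]

lemma abs_lin_le [Fintype X] [Nonempty X] (ξ : X → Fin m → ℝ) (c : X → ℝ) (hc : ∀ x, 0 < c x)
    (k : Fin m) (s : ℝ) (y : Fin m → ℝ) :
    |lin ξ c (fun x => 1 * ξ x k) s y| ≤ (∑ x, ∑ k, |ξ x k|) * lin ξ c (fun _ => 1) s y := by
  unfold lin
  rw [Finset.mul_sum]
  refine (Finset.abs_sum_le_sum_abs _ _).trans ?_
  apply Finset.sum_le_sum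
  intro x _
  beta_reduce
  rw [one_mul, one_mul, abs_mul, abs_of_pos (wt_pos ξ c hc s y x)]
  apply mul_le_mul_of_nonneg_right _ (wt_pos ξ c hc s y x).le
  calc |ξ x k| ≤ ∑ k, |ξ x k| := Finset.single_le_sum (f := fun k => |ξ x k|)
        (fun _ _ => abs_nonneg _) (Finset.mem_univ k)
    _ ≤ _ := Finset.single_le_sum (f := fun x => ∑ k, |ξ x k|)
        (fun _ _ => Finset.sum_nonneg (fun _ _ => abs_nonneg _)) (Finset.mem_univ x)

lemma dirU_nonneg [Fintype X] (ξ : X → Fin m → ℝ) (c : X → ℝ) (hc : ∀ x, 0 < c x)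
    (A : X → X → ℝ) (hA : ∀ x x', 0 ≤ A x x') (s : ℝ) (y : Fin m → ℝ) : 0 ≤ dirU ξ c A s y := by
  unfold dirU
  apply Finset.sum_nonneg; intro x _
  apply Finset.sum_nonneg; intro x' _
  have h1 := wt_pos ξ c hc s y x
  have h2 := wt_pos ξ c hc s y x'
  exact mul_nonneg (hA x x') (by (clear * - h1 h2; positivity))

lemma continuous_entU [Fintype X] [Nonempty X] (ξ : X → Fin m → ℝ) (c : X → ℝ)
    (hc : ∀ x, 0 < c x) (f : X → ℝ) (hf : ∀ x, 0 < f x) :
    Continuous (fun p : ℝ × (Fin m → ℝ) => entU ξ c f p.1 p.2) := by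
  unfold entU
  have h1 := continuous_lin ξ c f
  have h2 := continuous_lin ξ c (fun _ => 1)
  have h3 := continuous_lin ξ c (fun x => f x * Real.log (f x))
  exact h3.sub (h1.mul ((h1.log (fun p => (lin_pos ξ c hc f hf p.1 p.2).ne')).sub
    (h2.log (fun p => (lin_pos ξ c hc _ (fun _ => one_pos) p.1 p.2).ne'))))

lemma continuous_dirU [Fintype X] (ξ : X → Fin m → ℝ) (c : X → ℝ)
    (hc : ∀ x, 0 < c x) (A : X → X → ℝ) :
    Continuous (fun p : ℝ × (Fin m → ℝ) => dirU ξ c A p.1 p.2) := by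
  unfold dirU
  apply continuous_finsetSum; intro x _
  apply continuous_finsetSum; intro x' _
  have h1 := continuous_wt ξ c x
  have h2 := continuous_wt ξ c x'
  exact continuous_const.mul ((h1.mul h2).div (h1.add h2) (fun p =>
    (add_pos (wt_pos ξ c hc p.1 p.2 x) (wt_pos ξ c hc p.1 p.2 x')).ne'))

/-- Maximum principle: the Dirichlet form dominates the entropy along the heat flow. -/
theorem super [Fintype X] [Nonempty X] (ξ : X → Fin m → ℝ) (c : X → ℝ) (hc : ∀ x, 0 < c x)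
    (A : X → X → ℝ) (hA : ∀ x x', 0 ≤ A x x') (f : X → ℝ) (hf : ∀ x, 0 < f x)
    (κ : ℝ) (hκ : 0 ≤ κ)
    (h0 : ∀ y, entU ξ c f 0 y ≤ dirU ξ c A 0 y)
    (hstab : ∀ s ∈ Icc (0:ℝ) 1, ∀ y, lin ξ c f s y * ∑ k,
      (lin ξ c (fun x => f x * ξ x k) s y / lin ξ c f s y
        - lin ξ c (fun x => 1 * ξ x k) s y / lin ξ c (fun _ => 1) s y) ^ 2
      ≤ 2 * κ * entU ξ c f s y) :
    ∀ s ∈ Icc (0:ℝ) 1, ∀ y, entU ξ c f s y ≤ Real.exp (κ * s) * dirU ξ c A s y := by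
  intro s₁ hs₁ y₁
  by_contra hcon
  push Not at hcon
  have hUp := fun s y => lin_pos ξ c hc f hf s y
  have hZp := fun s y => lin_pos ξ c hc (fun _ => (1:ℝ)) (fun _ => one_pos) s y
  set b₀ := ∑ x, ∑ k, |ξ x k| with hb₀
  have hb₀0 : 0 ≤ b₀ := Finset.sum_nonneg (fun _ _ => Finset.sum_nonneg (fun _ _ => abs_nonneg _))
  set Λ : ℝ := m / 2 + m * b₀ + 1 with hΛ
  have hΛ0 : 0 ≤ Λ := by (clear * -; positivity)
  -- the normalized function
  let F : ℝ → (Fin m → ℝ) → ℝ := fun s y =>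
    (dirU ξ c A s y - Real.exp (-(κ * s)) * entU ξ c f s y) / lin ξ c (fun _ => 1) s y
  have hFcont : ContinuousOn (fun p : ℝ × (Fin m → ℝ) => F p.1 p.2) (Icc 0 1 ×ˢ univ) := by
    apply Continuous.continuousOn
    have h1 := continuous_dirU ξ c hc A
    have h2 := continuous_entU ξ c hc f hf
    have h3 := continuous_lin ξ c (fun _ => 1)
    have h4 : Continuous (fun p : ℝ × (Fin m → ℝ) => Real.exp (-(κ * p.1))) := by fun_prop
    exact (h1.sub (h4.mul h2)).div h3 (fun p => (hZp p.1 p.2).ne')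
  set M : ℝ := (∑ x, |f x * Real.log (f x)|) + 1 with hM
  have hM0 : 0 ≤ M := by
    have : 0 ≤ ∑ x, |f x * Real.log (f x)| := Finset.sum_nonneg (fun _ _ => abs_nonneg _)
    linarith only [this]
  have hFM : ∀ s ∈ Icc (0:ℝ) 1, ∀ y, -M ≤ F s y := by
    intro s hs y
    have h1 := entU_le ξ c hc f hf s y
    have h2 := dirU_nonneg ξ c hc A hA s y
    have h3 : Real.exp (-(κ * s)) ≤ 1 := Real.exp_le_one_iff.2 (by
      have := mul_nonneg hκ hs.1; linarith only [this])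
    have h4 := Real.exp_pos (-(κ * s))
    change -M ≤ (dirU ξ c A s y - Real.exp (-(κ * s)) * entU ξ c f s y) / lin ξ c (fun _ => 1) s y
    rw [le_div_iff₀ (hZp s y)]
    have h5 : Real.exp (-(κ * s)) * entU ξ c f s y
        ≤ Real.exp (-(κ * s)) * (M * lin ξ c (fun _ => 1) s y) :=
      mul_le_mul_of_nonneg_left h1 h4.le
    have h6 : Real.exp (-(κ * s)) * (M * lin ξ c (fun _ => 1) s y)
        ≤ 1 * (M * lin ξ c (fun _ => 1) s y) :=
      mul_le_mul_of_nonneg_right h3 (mul_nonneg hM0 (hZp s y).le)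
    linarith only [h2, h5, h6]
  have hF0 : ∀ y, 0 ≤ F 0 y := by
    intro y
    change 0 ≤ (dirU ξ c A 0 y - Real.exp (-(κ * 0)) * entU ξ c f 0 y) / lin ξ c (fun _ => 1) 0 y
    apply div_nonneg _ (hZp 0 y).le
    rw [mul_zero, neg_zero, Real.exp_zero, one_mul]
    linarith only [h0 y]
  have hFneg : F s₁ y₁ < 0 := by
    change (dirU ξ c A s₁ y₁ - Real.exp (-(κ * s₁)) * entU ξ c f s₁ y₁)
      / lin ξ c (fun _ => 1) s₁ y₁ < 0
    apply div_neg_of_neg_of_pos _ (hZp s₁ y₁)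
    have h1 : Real.exp (-(κ * s₁)) * (Real.exp (κ * s₁) * dirU ξ c A s₁ y₁)
        < Real.exp (-(κ * s₁)) * entU ξ c f s₁ y₁ :=
      mul_lt_mul_of_pos_left hcon (Real.exp_pos _)
    rw [← mul_assoc, ← Real.exp_add, neg_add_cancel, Real.exp_zero, one_mul] at h1
    linarith only [h1]
  obtain ⟨η, hη, cc, hcc, s₀, hs₀, y₀, hEq, hIneq⟩ :=
    exists_touch F M Λ hΛ0 hFcont hFM hF0 s₁ hs₁ y₁ hFneg
  have hs₀' : s₀ ∈ Icc (0:ℝ) 1 := ⟨hs₀.1.le, hs₀.2⟩
  -- the smooth touching function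
  set δ := tang A (wt ξ c s₀ y₀) with hδ
  let G : ℝ → (Fin m → ℝ) → ℝ := fun s y =>
    lin ξ c δ s y - Real.exp (-(κ * s)) * entU ξ c f s y
      + lin ξ c (fun _ => 1) s y * (η * (rho y + Λ * s) - cc)
  have hGnn : ∀ s ∈ Icc (0:ℝ) 1, ∀ y, 0 ≤ G s y := by
    intro s hs y
    have h1 := hIneq s hs y
    have h2 := dirU_le_lin ξ c hc A hA (wt ξ c s₀ y₀) (wt_pos ξ c hc s₀ y₀) s y
    have h3 : 0 ≤ lin ξ c (fun _ => 1) s y * (F s y + η * (rho y + Λ * s) - cc) :=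
      mul_nonneg (hZp s y).le (by linarith only [h1])
    have h4 : lin ξ c (fun _ => 1) s y * F s y
        = dirU ξ c A s y - Real.exp (-(κ * s)) * entU ξ c f s y :=
      mul_div_cancel₀ _ (hZp s y).ne'
    change 0 ≤ lin ξ c δ s y - Real.exp (-(κ * s)) * entU ξ c f s y
      + lin ξ c (fun _ => 1) s y * (η * (rho y + Λ * s) - cc)
    have h5 : lin ξ c (fun _ => 1) s y * (F s y + η * (rho y + Λ * s) - cc)
      = lin ξ c (fun _ => 1) s y * F s y
        + lin ξ c (fun _ => 1) s y * (η * (rho y + Λ * s) - cc) := by ring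
    rw [h5, h4] at h3
    linarith only [h3, h2]
  have hG0 : G s₀ y₀ = 0 := by
    have h2 := dirU_eq_lin ξ c hc A s₀ y₀
    have h4 : lin ξ c (fun _ => 1) s₀ y₀ * F s₀ y₀
        = dirU ξ c A s₀ y₀ - Real.exp (-(κ * s₀)) * entU ξ c f s₀ y₀ :=
      mul_div_cancel₀ _ (hZp s₀ y₀).ne'
    change lin ξ c δ s₀ y₀ - Real.exp (-(κ * s₀)) * entU ξ c f s₀ y₀
      + lin ξ c (fun _ => 1) s₀ y₀ * (η * (rho y₀ + Λ * s₀) - cc) = 0
    rw [hδ, ← h2, ← h4, ← mul_add]
    have : F s₀ y₀ + (η * (rho y₀ + Λ * s₀) - cc) = 0 := by linarith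
    rw [this, mul_zero]
  -- abbreviations of values at the touching point
  set e := Real.exp (-(κ * s₀)) with he
  have he0 : 0 < e := Real.exp_pos _
  set U := lin ξ c f s₀ y₀ with hU
  set Z := lin ξ c (fun _ => 1) s₀ y₀ with hZ
  set V := lin ξ c (fun x => f x * Real.log (f x)) s₀ y₀ with hV
  have hU0 : 0 < U := hUp s₀ y₀
  have hZ0 : 0 < Z := hZp s₀ y₀
  set P := η * (rho y₀ + Λ * s₀) - cc with hP
  set ℓ := Real.log U - Real.log Z with hℓ
  let q : X → ℝ := fun x => 1 / 2 * ∑ k, ξ x k ^ 2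
  -- time derivative
  have hT : HasDerivAt (fun s => G s y₀)
      (lin ξ c (fun x => δ x * q x) s₀ y₀
        - ((-κ) * e * entU ξ c f s₀ y₀
          + e * (lin ξ c (fun x => f x * Real.log (f x) * q x) s₀ y₀
            - lin ξ c (fun x => f x * q x) s₀ y₀ * ℓ - lin ξ c (fun x => f x * q x) s₀ y₀
            + U * lin ξ c (fun x => 1 * q x) s₀ y₀ / Z))
        + (lin ξ c (fun x => 1 * q x) s₀ y₀ * P + Z * (η * Λ))) s₀ := by
    have hd := hasDerivAt_lin_time ξ c δ s₀ y₀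
    have hu := hasDerivAt_lin_time ξ c f s₀ y₀
    have hz := hasDerivAt_lin_time ξ c (fun _ => 1) s₀ y₀
    have hv := hasDerivAt_lin_time ξ c (fun x => f x * Real.log (f x)) s₀ y₀
    have hent := hasDerivAt_ent1 hu hv hz hU0 hZ0
    have hexp : HasDerivAt (fun s => Real.exp (-(κ * s))) ((-κ) * e) s₀ := by
      have := (((hasDerivAt_id s₀).const_mul κ).neg).exp
      refine this.congr_deriv ?_
      simp [he]; ring
    have hpen : HasDerivAt (fun s => η * (rho y₀ + Λ * s) - cc) (η * Λ) s₀ := by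
      have := ((((hasDerivAt_id s₀).const_mul Λ).const_add (rho y₀)).const_mul η).sub_const cc
      refine this.congr_deriv ?_
      simp
    exact ((hd.sub (hexp.mul hent)).add (hz.mul hpen))
  have hTle := deriv_nonpos_of_left_min hT hs₀.1 (fun s hs => by
    have h1 : G s₀ y₀ = 0 := hG0
    have h2 := hGnn s ⟨hs.1, hs.2.trans hs₀.2⟩ y₀
    change G s₀ y₀ ≤ G s y₀
    rw [h1]; exact h2)
  -- space derivatives
  have hS : ∀ k : Fin m, 0 ≤
      lin ξ c (fun x => δ x * ξ x k * ξ x k) s₀ y₀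
        - e * (lin ξ c (fun x => f x * Real.log (f x) * ξ x k * ξ x k) s₀ y₀
          - lin ξ c (fun x => f x * ξ x k * ξ x k) s₀ y₀ * (1 + ℓ)
          + U / Z * lin ξ c (fun x => 1 * ξ x k * ξ x k) s₀ y₀
          - U * (lin ξ c (fun x => f x * ξ x k) s₀ y₀ / U
            - lin ξ c (fun x => 1 * ξ x k) s₀ y₀ / Z) ^ 2)
        + (lin ξ c (fun x => 1 * ξ x k * ξ x k) s₀ y₀ * P
          + 2 * lin ξ c (fun x => 1 * ξ x k) s₀ y₀ * (η * ((y₀ k) / Real.sqrt (1 + (y₀ k) ^ 2)))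
          + Z * (η * (1 / Real.sqrt (1 + (y₀ k) ^ 2) ^ 3))) := by
    intro k
    have hY : y₀ + Pi.single k (0:ℝ) = y₀ := by simp
    let Dr : ℝ → ℝ := fun r => lin ξ c δ s₀ (y₀ + Pi.single k r)
    let Dr1 : ℝ → ℝ := fun r => lin ξ c (fun x => δ x * ξ x k) s₀ (y₀ + Pi.single k r)
    let Ur : ℝ → ℝ := fun r => lin ξ c f s₀ (y₀ + Pi.single k r)
    let Ur1 : ℝ → ℝ := fun r => lin ξ c (fun x => f x * ξ x k) s₀ (y₀ + Pi.single k r)
    let Zr : ℝ → ℝ := fun r => lin ξ c (fun _ => 1) s₀ (y₀ + Pi.single k r)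
    let Zr1 : ℝ → ℝ := fun r => lin ξ c (fun x => 1 * ξ x k) s₀ (y₀ + Pi.single k r)
    let Vr : ℝ → ℝ := fun r => lin ξ c (fun x => f x * Real.log (f x)) s₀ (y₀ + Pi.single k r)
    let Vr1 : ℝ → ℝ := fun r =>
      lin ξ c (fun x => f x * Real.log (f x) * ξ x k) s₀ (y₀ + Pi.single k r)
    let Sr : ℝ → ℝ := fun r => η * ((rho y₀ - Real.sqrt (1 + y₀ k ^ 2)
      + Real.sqrt (1 + (y₀ k + r) ^ 2)) + Λ * s₀) - cc
    let Sr1 : ℝ → ℝ := fun r => η * ((y₀ k + r) / Real.sqrt (1 + (y₀ k + r) ^ 2))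
    have hDr : ∀ r, HasDerivAt Dr (Dr1 r) r := fun r => hasDerivAt_lin_space ξ c δ s₀ y₀ k r
    have hDr1 : HasDerivAt Dr1 _ 0 :=
      hasDerivAt_lin_space ξ c (fun x => δ x * ξ x k) s₀ y₀ k 0
    have hUr : ∀ r, HasDerivAt Ur (Ur1 r) r := fun r => hasDerivAt_lin_space ξ c f s₀ y₀ k r
    have hUr1 : HasDerivAt Ur1 _ 0 :=
      hasDerivAt_lin_space ξ c (fun x => f x * ξ x k) s₀ y₀ k 0
    have hZr : ∀ r, HasDerivAt Zr (Zr1 r) r :=
      fun r => hasDerivAt_lin_space ξ c (fun _ => 1) s₀ y₀ k r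
    have hZr1 : HasDerivAt Zr1 _ 0 :=
      hasDerivAt_lin_space ξ c (fun x => 1 * ξ x k) s₀ y₀ k 0
    have hVr : ∀ r, HasDerivAt Vr (Vr1 r) r :=
      fun r => hasDerivAt_lin_space ξ c (fun x => f x * Real.log (f x)) s₀ y₀ k r
    have hVr1 : HasDerivAt Vr1 _ 0 :=
      hasDerivAt_lin_space ξ c (fun x => f x * Real.log (f x) * ξ x k) s₀ y₀ k 0
    have hSr : ∀ r, HasDerivAt Sr (Sr1 r) r := fun r =>
      ((((hasDerivAt_sig (y₀ k) r).const_add (rho y₀ - Real.sqrt (1 + y₀ k ^ 2))).add_const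
        (Λ * s₀)).const_mul η).sub_const cc
    have hSr1 : HasDerivAt Sr1 (η * (1 / (Real.sqrt (1 + (y₀ k + 0) ^ 2)) ^ 3)) 0 :=
      (hasDerivAt_sig2 (y₀ k) 0).const_mul η
    have hUpos : ∀ r, 0 < Ur r := fun r => hUp _ _
    have hZpos : ∀ r, 0 < Zr r := fun r => hZp _ _
    have hG1 : ∀ r, HasDerivAt (fun r => G s₀ (y₀ + Pi.single k r))
        (Dr1 r - e * (Vr1 r - Ur1 r * (Real.log (Ur r) - Real.log (Zr r)) - Ur1 r
          + Ur r * Zr1 r / Zr r) + (Zr1 r * Sr r + Zr r * Sr1 r)) r := by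
      intro r
      have hfun : (fun r => G s₀ (y₀ + Pi.single k r)) = fun r =>
          Dr r - e * (Vr r - Ur r * (Real.log (Ur r) - Real.log (Zr r))) + Zr r * Sr r := by
        funext r
        simp only [G, entU, rho_shift, Dr, Vr, Ur, Zr, Sr, he]
      rw [hfun]
      exact ((hDr r).sub ((hasDerivAt_ent1 (hUr r) (hVr r) (hZr r) (hUpos r)
        (hZpos r)).const_mul e)).add ((hZr r).mul (hSr r))
    have hG2 := ((hDr1.sub ((hasDerivAt_ent2 (hUr 0) (hZr 0) hUr1 hVr1 hZr1 (hUpos 0)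
      (hZpos 0)).const_mul e)).add ((hZr1.mul (hSr 0)).add ((hZr 0).mul hSr1)))
    have hfin := second_deriv_nonneg_of_min hG1 hG2 (fun r => by
      rw [hY, hG0]; exact hGnn s₀ hs₀' _)
    refine hfin.trans (le_of_eq ?_)
    simp only [Ur, Zr, Ur1, Zr1, Sr, Sr1, hY, add_zero, sub_add_cancel]
    rw [← hU, ← hZ, ← hℓ, ← hP]
    ring
  -- combine
  have hsum := Finset.sum_nonneg (fun k (_ : k ∈ Finset.univ) => hS k)
  have hheat := fun φ => lin_heat ξ c φ s₀ y₀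
  have hq : ∀ φ : X → ℝ, lin ξ c (fun x => φ x * q x) s₀ y₀
      = 1 / 2 * ∑ k, lin ξ c (fun x => φ x * ξ x k * ξ x k) s₀ y₀ := hheat
  rw [hq δ, hq (fun x => f x * Real.log (f x)), hq f, hq (fun _ => 1)] at hTle
  simp only [Finset.sum_add_distrib, Finset.sum_sub_distrib, ← Finset.mul_sum,
    ← Finset.sum_mul] at hsum
  have hst := hstab s₀ hs₀' y₀
  rw [← hU, ← hZ] at hst
  -- bounds for penalty terms
  have hpen1 : ∀ k : Fin m, 2 * lin ξ c (fun x => 1 * ξ x k) s₀ y₀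
      * (η * ((y₀ k) / Real.sqrt (1 + (y₀ k) ^ 2))) ≤ 2 * (b₀ * Z) * η := by
    intro k
    have h1 := abs_lin_le ξ c hc k s₀ y₀
    have h2 : |y₀ k / Real.sqrt (1 + (y₀ k) ^ 2)| ≤ 1 := by
      have := sig1_abs_le (y₀ k) 0
      simpa using this
    have h3 : lin ξ c (fun x => 1 * ξ x k) s₀ y₀ * (y₀ k / Real.sqrt (1 + (y₀ k) ^ 2))
        ≤ b₀ * Z := by
      refine (le_abs_self _).trans ?_
      rw [abs_mul]
      calc _ ≤ (b₀ * Z) * 1 := mul_le_mul h1 h2 (abs_nonneg _) (mul_nonneg hb₀0 hZ0.le)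
        _ = _ := mul_one _
    linarith only [mul_nonneg (le_of_lt (sub_pos.2 hη)) (sub_nonneg.2 h3)]
  have hpen2 : ∀ k : Fin m, Z * (η * (1 / Real.sqrt (1 + (y₀ k) ^ 2) ^ 3)) ≤ Z * η := by
    intro k
    have h2 := sig2_le (y₀ k) 0
    rw [add_zero] at h2
    have := mul_le_mul_of_nonneg_left h2 hη.le
    have := mul_le_mul_of_nonneg_left this hZ0.le
    linarith only [this]
  have hp1 : ∑ k : Fin m, 2 * lin ξ c (fun x => 1 * ξ x k) s₀ y₀
      * (η * ((y₀ k) / Real.sqrt (1 + (y₀ k) ^ 2))) ≤ m * (2 * (b₀ * Z) * η) := by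
    have := Finset.sum_le_sum (fun k (_ : k ∈ Finset.univ) => hpen1 k)
    simpa using this
  have hp2 : ∑ k : Fin m, Z * (η * (1 / Real.sqrt (1 + (y₀ k) ^ 2) ^ 3)) ≤ m * (Z * η) := by
    have := Finset.sum_le_sum (fun k (_ : k ∈ Finset.univ) => hpen2 k)
    simpa using this
  simp only [← mul_assoc] at hp1 hp2 hsum
  rw [← Finset.mul_sum] at hp2
  have hst' := mul_le_mul_of_nonneg_left hst he0.le
  have hZη : 0 < Z * η := mul_pos hZ0 hη
  clear hS hq hheat hpen1 hpen2 hst hT hGnn hG0 hIneq hEq hFcont hFM hF0 hFneg hstab h0 hcon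
  generalize (∑ x, lin ξ c (fun x_1 => δ x_1 * ξ x_1 x * ξ x_1 x) s₀ y₀) = SD at *
  generalize (∑ x, lin ξ c (fun x_1 => f x_1 * Real.log (f x_1) * ξ x_1 x * ξ x_1 x) s₀ y₀) = SV
    at *
  generalize (∑ i, lin ξ c (fun x => f x * ξ x i * ξ x i) s₀ y₀) = SU at *
  generalize (∑ i, lin ξ c (fun x => 1 * ξ x i * ξ x i) s₀ y₀) = SZ at *
  generalize (∑ i, (lin ξ c (fun x => f x * ξ x i) s₀ y₀ / U
    - lin ξ c (fun x => 1 * ξ x i) s₀ y₀ / Z) ^ 2) = SQ at *
  generalize (∑ x, 2 * lin ξ c (fun x_1 => 1 * ξ x_1 x) s₀ y₀ * η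
    * (y₀ x / Real.sqrt (1 + y₀ x ^ 2))) = SP at *
  generalize (∑ i, 1 / Real.sqrt (1 + y₀ i ^ 2) ^ 3) = SS at *
  generalize entU ξ c f s₀ y₀ = E at *
  rw [hΛ] at hTle
  have hkey : U * (1 / 2 * SZ) / Z = 1 / 2 * (U / Z * SZ) := by ring
  rw [hkey] at hTle
  generalize U / Z * SZ = SR at *
  linarith only [hTle, hsum, hst', hp2, hp1, hZη]

end Vale.Agent.P150.Chan
end

section

/-! From filter form to the uniform eventual form and back (helper555). -/

open MeasureTheory ProbabilityTheory Filter Topology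

namespace Vale.Agent.P150.F

/-- The filter on the data `Σ i, D i` of all families with `i → F` and `H → 0` (for `H ≥ 0`). -/
def dataF {I : Type*} {D : I → Type*} (F : Filter I) (H : (i : I) → D i → ℝ) :
    Filter (Σ i, D i) :=
  F.comap Sigma.fst ⊓ (𝓝 (0 : ℝ)).comap fun p => H p.1 p.2

theorem dataF_fst {I : Type*} {D : I → Type*} (F : Filter I) (H : (i : I) → D i → ℝ) :
    Tendsto (fun p : Σ i, D i => p.1) (dataF F H) F :=
  tendsto_comap.mono_left inf_le_left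

theorem dataF_H {I : Type*} {D : I → Type*} (F : Filter I) (H : (i : I) → D i → ℝ) :
    Tendsto (fun p : Σ i, D i => H p.1 p.2) (dataF F H) (𝓝 0) :=
  tendsto_comap.mono_left inf_le_right

/-- a property holds eventually along `dataF` iff it holds uniformly for all data with small `H` -/
theorem eventually_dataF {I : Type*} {D : I → Type*} (F : Filter I) (H : (i : I) → D i → ℝ)
    (P : (i : I) → D i → Prop) :
    (∀ᶠ p in dataF F H, P p.1 p.2) ↔ ∃ η > 0, ∀ᶠ i in F, ∀ d : D i, |H i d| ≤ η → P i d := by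
  constructor
  · intro h
    unfold dataF at h
    rw [eventually_inf] at h
    obtain ⟨s, hs, t, ht, hst⟩ := h
    rw [mem_comap] at hs ht
    obtain ⟨s', hs', hs⟩ := hs
    obtain ⟨t', ht', ht⟩ := ht
    obtain ⟨η, hη, hb⟩ := Metric.mem_nhds_iff.1 ht'
    refine ⟨η / 2, half_pos hη, ?_⟩
    filter_upwards [hs'] with i hi d hd
    refine hst ⟨i, d⟩ ⟨hs hi, ht (hb ?_)⟩
    rw [Metric.mem_ball, Real.dist_eq, sub_zero]
    linarith only [hd, hη]
  · rintro ⟨η, hη, h⟩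
    have h1 : ∀ᶠ p : Σ i, D i in dataF F H, ∀ d : D p.1, |H p.1 d| ≤ η → P p.1 d :=
      (dataF_fst F H).eventually h
    have h2 : ∀ᶠ p : Σ i, D i in dataF F H, |H p.1 p.2| ≤ η := by
      have := (dataF_H F H).eventually (Metric.ball_mem_nhds 0 hη)
      filter_upwards [this] with p hp
      rw [Real.dist_eq, sub_zero] at hp
      exact hp.le
    filter_upwards [h1, h2] with p hp1 hp2
    exact hp1 p.2 hp2

/-- filter form implies the uniform eventual form -/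
theorem unif_of_filter {I : Type*} {D : I → Type*} {F : Filter I} {H E : (i : I) → D i → ℝ}
    (h : Tendsto (fun p : Σ i, D i => E p.1 p.2) (dataF F H) (𝓝 0)) :
    ∀ ε > 0, ∃ η > 0, ∀ᶠ i in F, ∀ d : D i, |H i d| ≤ η → |E i d| ≤ ε := by
  intro ε hε
  rw [← eventually_dataF]
  have := h.eventually (Metric.ball_mem_nhds 0 hε)
  filter_upwards [this] with p hp
  rw [Real.dist_eq, sub_zero] at hp
  exact hp.le

end Vale.Agent.P150.F
end

section

/-! P150 FULL, D6: deterministic comparison of the steered and the unsteered AMP iterates and the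
residual of the AMP iterate in the TAP equation (helper334). -/

open scoped Matrix

namespace Vale.Agent.P150.F

variable {n : ℕ}

lemma td_hasDerivAt_tanh (x : ℝ) : HasDerivAt Real.tanh (1 / Real.cosh x ^ 2) x := by
  have h := (Real.hasDerivAt_sinh x).div (Real.hasDerivAt_cosh x) (Real.cosh_pos x).ne'
  have h1 : (fun x => Real.sinh x / Real.cosh x) = Real.tanh := by
    funext x; rw [Real.tanh_eq_sinh_div_cosh]
  have h2 : Real.cosh x * Real.cosh x - Real.sinh x * Real.sinh x = 1 := by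
    have := Real.cosh_sq x; nlinarith
  have h3 : Real.sinh / Real.cosh = Real.tanh := by
    funext x; rw [Real.tanh_eq_sinh_div_cosh]; rfl
  rw [h2, h3] at h
  exact h

lemma td_abs_tanh_sub (a b : ℝ) : |Real.tanh a - Real.tanh b| ≤ |a - b| := by
  have h := Convex.norm_image_sub_le_of_norm_hasDerivWithin_le (f := Real.tanh)
    (f' := fun x => 1 / Real.cosh x ^ 2) (s := Set.univ) (C := 1) (x := b) (y := a)
    (fun x _ => (td_hasDerivAt_tanh x).hasDerivWithinAt)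
    (fun x _ => by
      rw [Real.norm_eq_abs, abs_of_nonneg (by positivity), div_le_one (by positivity)]
      exact one_le_pow₀ (Real.one_le_cosh x))
    convex_univ (Set.mem_univ _) (Set.mem_univ _)
  simpa [Real.norm_eq_abs] using h

/-- `tanh` applied entrywise is a contraction. -/
lemma nv_tanh_sub (a b : Vec n) :
    nv (fun i => Real.tanh (a i) - Real.tanh (b i)) ≤ nv (a - b) :=
  nv_mono fun i => by
    rw [Pi.sub_apply]
    exact td_abs_tanh_sub _ _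

lemma ampM_abs_le (M : Mat n) (r : ℝ) (y : Vec n) (x : Cfg n) (k : ℕ) (i : Fin n) :
    |ampM M r y x k i| ≤ 1 := by
  match k with
  | 0 =>
    show |sv x i| ≤ 1
    unfold sv sp
    split_ifs <;> simp
  | 1 => exact (Real.abs_tanh_lt_one _).le
  | (k + 2) => exact (Real.abs_tanh_lt_one _).le

lemma ampM_succ (M : Mat n) (r : ℝ) (y : Vec n) (x : Cfg n) (k : ℕ) :
    ampM M r y x (k + 1) = fun i => Real.tanh (ampA M r y x k i) := by
  match k with
  | 0 => rfl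
  | (k + 1) => rfl

lemma ampM_artanh (M : Mat n) (r : ℝ) (y : Vec n) (x : Cfg n) (k : ℕ) (i : Fin n) :
    Real.artanh (ampM M r y x (k + 1) i) = ampA M r y x k i := by
  rw [ampM_succ, Real.artanh_tanh]

/-- Difference of the overlaps. -/
lemma sqrt_mul_qq_sub {m m' : Vec n} (hm : ∀ i, |m i| ≤ 1) (hm' : ∀ i, |m' i| ≤ 1) :
    √n * |qq m - qq m'| ≤ 2 * nv (m - m') := by
  rcases Nat.eq_zero_or_pos n with rfl | hn
  · simp [nv_nonneg]
  have hn' : (0 : ℝ) < n := by exact_mod_cast hn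
  have h1 : qq m - qq m' = ip (m - m') (m + m') / n := by
    unfold qq
    rw [ip_sub_left, ip_add_right, ip_add_right, ipN_self, ipN_self, ipN_comm m' m]
    ring
  have h2 : nv (m + m') ≤ 2 * √n := by
    have := nv_add_le m m'
    have h3 := nv_le_sqrt_n hm
    have h4 := nv_le_sqrt_n hm'
    linarith only [this, h3, h4]
  have h3 : |ip (m - m') (m + m')| ≤ nv (m - m') * (2 * √n) :=
    (abs_ip_le _ _).trans (mul_le_mul_of_nonneg_left h2 (nv_nonneg _))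
  rw [h1, abs_div, abs_of_pos hn', ← mul_div_assoc, div_le_iff₀ hn']
  have h4 : √n * √n = (n : ℝ) := Real.mul_self_sqrt hn'.le
  calc √n * |ip (m - m') (m + m')| ≤ √n * (nv (m - m') * (2 * √n)) :=
        mul_le_mul_of_nonneg_left h3 (Real.sqrt_nonneg _)
    _ = 2 * nv (m - m') * (√n * √n) := by ring
    _ = _ := by rw [h4]

/-- Difference of the Onsager terms. -/
lemma nv_onsager_sub {p p' m m' : Vec n} (hp : ∀ i, |p i| ≤ 1) (hp' : ∀ i, |p' i| ≤ 1)
    (hm : ∀ i, |m i| ≤ 1) (_hm' : ∀ i, |m' i| ≤ 1) :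
    nv (fun i => (1 - qq p) * m i - (1 - qq p') * m' i) ≤ 2 * nv (p - p') + nv (m - m') := by
  have h1 : (fun i => (1 - qq p) * m i - (1 - qq p') * m' i)
      = (qq p' - qq p) • m + (1 - qq p') • (m - m') := by
    funext i
    simp only [Pi.add_apply, Pi.smul_apply, Pi.sub_apply, smul_eq_mul]
    ring
  rw [h1]
  refine (nv_add_le _ _).trans ?_
  rw [nv_smul, nv_smul]
  have h2 : |qq p' - qq p| * nv m ≤ 2 * nv (p - p') := by
    have h3 := sqrt_mul_qq_sub hp' hp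
    have h4 := nv_le_sqrt_n hm
    calc |qq p' - qq p| * nv m ≤ |qq p' - qq p| * √n :=
          mul_le_mul_of_nonneg_left h4 (abs_nonneg _)
      _ = √n * |qq p' - qq p| := mul_comm _ _
      _ ≤ 2 * nv (p' - p) := h3
      _ = _ := by rw [nv_sub_comm]
  have h5 : |1 - qq p'| ≤ 1 := by
    rw [abs_le]
    have := qq_nonneg p'
    have := qq_le_one hp'
    constructor <;> linarith
  have h6 : |1 - qq p'| * nv (m - m') ≤ 1 * nv (m - m') :=
    mul_le_mul_of_nonneg_right h5 (nv_nonneg _)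
  linarith

/-- Comparison of the steered and the unsteered AMP iterates. -/
theorem amp_compare {J A : Mat n} {r : ℝ} {y₀ yA : Vec n} {x : Cfg n} {ξ : ℝ} {K : ℕ}
    (hJ : OpLe J 3) (hr0 : 0 ≤ r) (hr1 : r ≤ 1) (hξ : 0 ≤ ξ)
    (h : ∀ k < K, nv (yA - A.mulVec (ampM (r • J - A) r (y₀ + yA) x k)) ≤ ξ) :
    ∀ k ≤ K, nv (ampM (r • J - A) r (y₀ + yA) x k - ampM (r • J) r y₀ x k)
      ≤ 7 ^ k * ξ := by
  set mA := ampM (r • J - A) r (y₀ + yA) x with hmA
  set m0 := ampM (r • J) r y₀ x with hm0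
  have hrJ : OpLe (r • J) 3 := by
    have h1 := hJ.smul (by norm_num) r
    refine h1.monoN (by (clear * -; positivity)) ?_
    rw [abs_of_nonneg hr0]
    linarith only [hr1]
  have hr2 : 0 ≤ r ^ 2 := by positivity
  have hr2' : r ^ 2 ≤ 1 := pow_le_one₀ hr0 hr1
  -- one step
  have hstep1 : 1 ≤ K → nv (mA 1 - m0 1) ≤ ξ := by
    intro hK
    have h1 : mA 1 - m0 1 = fun i => Real.tanh (ampA (r • J - A) r (y₀ + yA) x 0 i)
        - Real.tanh (ampA (r • J) r y₀ x 0 i) := rfl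
    rw [h1]
    refine (nv_tanh_sub _ _).trans ?_
    have h2 : ampA (r • J - A) r (y₀ + yA) x 0 - ampA (r • J) r y₀ x 0
        = yA - A.mulVec (mA 0) := by
      funext i
      show (r • J - A).mulVec (sv x) i + (y₀ + yA) i - ((r • J).mulVec (sv x) i + y₀ i)
        = yA i - A.mulVec (sv x) i
      rw [Matrix.sub_mulVec, Pi.sub_apply, Pi.add_apply]
      ring
    rw [h2]
    exact h 0 (by omega)
  have hstep : ∀ k, k + 1 < K → nv (mA (k + 2) - m0 (k + 2))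
      ≤ 5 * nv (mA (k + 1) - m0 (k + 1)) + nv (mA k - m0 k) + ξ := by
    intro k hk
    have h1 : mA (k + 2) - m0 (k + 2) = fun i =>
        Real.tanh (ampA (r • J - A) r (y₀ + yA) x (k + 1) i)
        - Real.tanh (ampA (r • J) r y₀ x (k + 1) i) := rfl
    rw [h1]
    refine (nv_tanh_sub _ _).trans ?_
    have h2 : ampA (r • J - A) r (y₀ + yA) x (k + 1) - ampA (r • J) r y₀ x (k + 1)
        = (r • J).mulVec (mA (k + 1) - m0 (k + 1)) + (yA - A.mulVec (mA (k + 1)))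
          + (-(r ^ 2)) • (fun i => (1 - qq (mA (k + 1))) * mA k i
            - (1 - qq (m0 (k + 1))) * m0 k i) := by
      funext i
      show (r • J - A).mulVec (mA (k + 1)) i + (y₀ + yA) i
          - r ^ 2 * (1 - qq (mA (k + 1))) * mA k i
          - ((r • J).mulVec (m0 (k + 1)) i + y₀ i - r ^ 2 * (1 - qq (m0 (k + 1))) * m0 k i) = _
      simp only [Matrix.sub_mulVec, Matrix.mulVec_sub, Pi.sub_apply, Pi.add_apply,
        Pi.smul_apply, smul_eq_mul]
      ring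
    rw [h2]
    refine (nv_add_le _ _).trans ?_
    have h3 := nv_add_le ((r • J).mulVec (mA (k + 1) - m0 (k + 1))) (yA - A.mulVec (mA (k + 1)))
    have h4 := hrJ.nv_le (by norm_num) (mA (k + 1) - m0 (k + 1))
    have h5 := h (k + 1) hk
    have h6 := nv_onsager_sub (p := mA (k + 1)) (p' := m0 (k + 1)) (m := mA k) (m' := m0 k)
      (ampM_abs_le _ _ _ _ _) (ampM_abs_le _ _ _ _ _) (ampM_abs_le _ _ _ _ _)
      (ampM_abs_le _ _ _ _ _)
    rw [nv_smul, abs_neg, abs_of_nonneg hr2]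
    have h7 : r ^ 2 * nv (fun i => (1 - qq (mA (k + 1))) * mA k i
        - (1 - qq (m0 (k + 1))) * m0 k i)
        ≤ 1 * (2 * nv (mA (k + 1) - m0 (k + 1)) + nv (mA k - m0 k)) :=
      mul_le_mul hr2' h6 (nv_nonneg _) (by norm_num)
    linarith only [h7, h5, h4, h3]
  have hmain : ∀ k, k ≤ K → nv (mA k - m0 k) ≤ 7 ^ k * ξ ∧
      (k + 1 ≤ K → nv (mA (k + 1) - m0 (k + 1)) ≤ 7 ^ (k + 1) * ξ) := by
    intro k
    induction k with
    | zero =>
      intro _
      have h0 : mA 0 - m0 0 = 0 := sub_self _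
      refine ⟨?_, fun h1 => ?_⟩
      · rw [h0, nv_zero]; (clear * - hξ; positivity)
      · have := hstep1 h1
        have h2 : (7 : ℝ) ^ (0 + 1) * ξ = 7 * ξ := by norm_num
        rw [h2]
        linarith only [hξ, this]
    | succ k ih =>
      intro hk
      obtain ⟨h1, h2⟩ := ih (by omega)
      have h3 := h2 hk
      refine ⟨h3, fun h4 => ?_⟩
      have h5 := hstep k (by omega)
      have h6 : (7 : ℝ) ^ (k + 1) * ξ = 7 * (7 ^ k * ξ) := by ring
      have h7 : (7 : ℝ) ^ (k + 1 + 1) * ξ = 49 * (7 ^ k * ξ) := by ring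
      have h8 : ξ ≤ 7 ^ k * ξ := le_mul_of_one_le_left hξ (one_le_pow₀ (by norm_num))
      have h9 : 0 ≤ 7 ^ k * ξ := by (clear * - hξ; positivity)
      rw [h6] at h3
      show nv (mA (k + 2) - m0 (k + 2)) ≤ 7 ^ (k + 1 + 1) * ξ
      rw [h7]
      linarith only [h1, h3, h5, h8, h9]
  exact fun k hk => (hmain k hk).1

/-- The residual of the unsteered AMP iterate in the steered TAP equation. -/
theorem amp_residual {J A : Mat n} {r : ℝ} {y₀ yA : Vec n} {x : Cfg n} {K : ℕ}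
    (hJ : OpLe J 3) (hr0 : 0 ≤ r) (hr1 : r ≤ 1) :
    nv (tapG r J A (y₀ + yA) (ampM (r • J) r y₀ x (K + 2)))
      ≤ 5 * nv (ampM (r • J) r y₀ x (K + 2) - ampM (r • J) r y₀ x (K + 1))
        + nv (ampM (r • J) r y₀ x (K + 2) - ampM (r • J) r y₀ x K)
        + nv (yA - A.mulVec (ampM (r • J) r y₀ x (K + 2))) := by
  set m := ampM (r • J) r y₀ x with hm
  have hrJ : OpLe (r • J) 3 := by
    have h1 := hJ.smul (by norm_num) r
    refine h1.monoN (by (clear * -; positivity)) ?_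
    rw [abs_of_nonneg hr0]
    linarith only [hr1]
  have hr2 : 0 ≤ r ^ 2 := by positivity
  have hr2' : r ^ 2 ≤ 1 := pow_le_one₀ hr0 hr1
  have h1 : tapG r J A (y₀ + yA) (m (K + 2)) = (r • J).mulVec (m (K + 1) - m (K + 2))
      + (r ^ 2) • (fun i => (1 - qq (m (K + 2))) * m (K + 2) i - (1 - qq (m (K + 1))) * m K i)
      + (-1 : ℝ) • (yA - A.mulVec (m (K + 2))) := by
    funext i
    unfold tapG tapB
    have h2 : Real.artanh (m (K + 2) i) = (r • J).mulVec (m (K + 1)) i + y₀ i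
        - r ^ 2 * (1 - qq (m (K + 1))) * m K i := ampM_artanh _ _ _ _ (K + 1) i
    have h3 : (r • J).mulVec (m (K + 2)) i = r * J.mulVec (m (K + 2)) i := by
      rw [Matrix.smul_mulVec, Pi.smul_apply, smul_eq_mul]
    simp only [Matrix.mulVec_sub, Pi.sub_apply, Pi.add_apply, Pi.smul_apply, smul_eq_mul]
    rw [h2, h3]
    ring
  rw [h1]
  refine (nv_add_le _ _).trans ?_
  have h2 := nv_add_le ((r • J).mulVec (m (K + 1) - m (K + 2)))
    ((r ^ 2) • (fun i => (1 - qq (m (K + 2))) * m (K + 2) i - (1 - qq (m (K + 1))) * m K i))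
  have h3 := hrJ.nv_le (by norm_num) (m (K + 1) - m (K + 2))
  have h4 := nv_onsager_sub (p := m (K + 2)) (p' := m (K + 1)) (m := m (K + 2)) (m' := m K)
      (ampM_abs_le _ _ _ _ _) (ampM_abs_le _ _ _ _ _) (ampM_abs_le _ _ _ _ _)
      (ampM_abs_le _ _ _ _ _)
  rw [nv_smul, abs_of_nonneg hr2] at h2
  rw [nv_smul, abs_neg, abs_one, one_mul]
  have h5 : r ^ 2 * nv (fun i => (1 - qq (m (K + 2))) * m (K + 2) i
      - (1 - qq (m (K + 1))) * m K i)
      ≤ 1 * (2 * nv (m (K + 2) - m (K + 1)) + nv (m (K + 2) - m K)) :=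
    mul_le_mul hr2' h4 (nv_nonneg _) (by norm_num)
  have h6 : nv (m (K + 1) - m (K + 2)) = nv (m (K + 2) - m (K + 1)) := nv_sub_comm _ _
  rw [h6] at h3
  linarith only [h5, h3, h2]

end Vale.Agent.P150.F
end

section

/-! P150 FULL, (O1) tracking: stability of the AMP iterates and the residual of the AMP iterate in
the TAP equation (helper739). -/

open MeasureTheory ProbabilityTheory Filter Topology
open scoped Matrix

namespace Vale.Agent.P150.F

variable {n : ℕ}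

theorem ampM_abs_lt (M : Mat n) (r : ℝ) (y : Vec n) (x : Cfg n) (k : ℕ) (i : Fin n) :
    |ampM M r y x (k + 1) i| < 1 := by
  rw [ampM_succ]
  exact Real.abs_tanh_lt_one _

theorem tanh_nv_le {u v : Vec n} :
    nv ((fun i => Real.tanh (u i)) - (fun i => Real.tanh (v i))) ≤ nv (u - v) :=
  nv_tanh_sub u v

/-- `q` is Lipschitz -/
theorem qq_lip {u v : Vec n} (hu : ∀ i, |u i| ≤ 1) (hv : ∀ i, |v i| ≤ 1) :
    |qq u - qq v| * √n ≤ 2 * nv (u - v) := by
  rw [mul_comm]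
  exact sqrt_mul_qq_sub hu hv

/-- the Onsager term is Lipschitz -/
theorem ons_lip {r r' : ℝ} (hr : 0 ≤ r) (hr1 : r ≤ 1) (hr' : 0 ≤ r') (hr1' : r' ≤ 1)
    {u u' v v' : Vec n} (hu : ∀ i, |u i| ≤ 1) (hu' : ∀ i, |u' i| ≤ 1) (hv' : ∀ i, |v' i| ≤ 1) :
    nv ((r ^ 2 * (1 - qq u)) • v - (r' ^ 2 * (1 - qq u')) • v')
      ≤ nv (v - v') + 2 * nv (u - u') + 2 * |r - r'| * √n := by
  have e : (r ^ 2 * (1 - qq u)) • v - (r' ^ 2 * (1 - qq u')) • v'
      = (r ^ 2 * (1 - qq u)) • (v - v') + ((r ^ 2 * (qq u' - qq u)) • v'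
        + ((r ^ 2 - r' ^ 2) * (1 - qq u')) • v') := by
    funext i
    simp only [Pi.sub_apply, Pi.add_apply, Pi.smul_apply, smul_eq_mul]
    ring
  rw [e]
  have hv := nv_le_sqrt_n hv'
  have hq0 := qq_nonneg u
  have hq1 := qq_le_one hu
  have hq0' := qq_nonneg u'
  have hq1' := qq_le_one hu'
  have hr2 : r ^ 2 ≤ 1 := pow_le_one₀ hr hr1
  have h1 : nv ((r ^ 2 * (1 - qq u)) • (v - v')) ≤ nv (v - v') := by
    rw [nv_smul, abs_of_nonneg (mul_nonneg (sq_nonneg r) (by linarith only [hq1]))]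
    refine mul_le_of_le_one_left (nv_nonneg _) ?_
    linarith only [mul_nonneg (sq_nonneg r) hq0, hr2]
  have h2 : nv ((r ^ 2 * (qq u' - qq u)) • v') ≤ 2 * nv (u - u') := by
    rw [nv_smul, abs_mul, abs_of_nonneg (sq_nonneg r)]
    calc r ^ 2 * |qq u' - qq u| * nv v' ≤ 1 * |qq u' - qq u| * √n := by
          have := nv_nonneg v'
          gcongr
      _ = |qq u - qq u'| * √n := by rw [one_mul, abs_sub_comm]
      _ ≤ _ := qq_lip hu hu'
  have h3 : nv (((r ^ 2 - r' ^ 2) * (1 - qq u')) • v') ≤ 2 * |r - r'| * √n := by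
    rw [nv_smul, abs_mul, abs_of_nonneg (by linarith only [hq1'] : (0 : ℝ) ≤ 1 - qq u')]
    have h4 : |r ^ 2 - r' ^ 2| ≤ 2 * |r - r'| := by
      rw [sq_sub_sq, abs_mul, abs_of_nonneg (by (clear * - hr hr'; positivity) : (0 : ℝ) ≤ r + r')]
      exact mul_le_mul_of_nonneg_right (by linarith only [hr1', hr1]) (abs_nonneg _)
    calc |r ^ 2 - r' ^ 2| * (1 - qq u') * nv v' ≤ (2 * |r - r'|) * 1 * √n := by
          have := nv_nonneg v'
          gcongr
          linarith only [hq0']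
      _ = _ := by ring
  have h4 := nv_add_le ((r ^ 2 * (1 - qq u)) • (v - v')) ((r ^ 2 * (qq u' - qq u)) • v'
        + ((r ^ 2 - r' ^ 2) * (1 - qq u')) • v')
  have h5 := nv_add_le ((r ^ 2 * (qq u' - qq u)) • v') (((r ^ 2 - r' ^ 2) * (1 - qq u')) • v')
  linarith only [h5, h4, h3, h2, h1]

/-- **perturbation of the AMP iteration** -/
theorem ampM_pert {M M' : Mat n} {CM : ℝ} (hCM : 0 ≤ CM) (hM : OpLe M CM) {r r' : ℝ}
    (hr : 0 ≤ r) (hr1 : r ≤ 1) (hr' : 0 ≤ r') (hr1' : r' ≤ 1) (y y' : Vec n) (x : Cfg n)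
    (K : ℕ) (η : ℝ)
    (h : ∀ k < K, nv (M.mulVec (ampM M' r' y' x k) - M'.mulVec (ampM M' r' y' x k)
      + (y - y')) ≤ η * √n) (k : ℕ) (hk : k ≤ K) :
    nv (ampM M r y x k - ampM M' r' y' x k) ≤ (CM + 4) ^ k * ((|η| + 2 * |r - r'|) * √n) := by
  have hE : 0 ≤ (|η| + 2 * |r - r'|) * √n := by (clear * -; positivity)
  set E := (|η| + 2 * |r - r'|) * √n with hEdef
  have hη (j : ℕ) (hj : j < K) : nv (M.mulVec (ampM M' r' y' x j)
      - M'.mulVec (ampM M' r' y' x j) + (y - y')) ≤ |η| * √n :=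
    (h j hj).trans (mul_le_mul_of_nonneg_right (le_abs_self η) (Real.sqrt_nonneg _))
  induction k using Nat.strong_induction_on with
  | _ k ih =>
    match k, ih, hk with
    | 0, _, _ =>
      rw [show ampM M r y x 0 - ampM M' r' y' x 0 = 0 from sub_self _, nv_zero, pow_zero, one_mul]
      exact hE
    | 1, _, hk =>
      have h0 := hη 0 hk
      refine (tanh_nv_le (u := fun i => M.mulVec (sv x) i + y i)
        (v := fun i => M'.mulVec (sv x) i + y' i)).trans ?_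
      have e : ((fun i => M.mulVec (sv x) i + y i) - fun i => M'.mulVec (sv x) i + y' i)
          = M.mulVec (sv x) - M'.mulVec (sv x) + (y - y') := by
        funext i
        simp only [Pi.sub_apply, Pi.add_apply]
        ring
      rw [e, pow_one]
      have h1 : nv (M.mulVec (sv x) - M'.mulVec (sv x) + (y - y')) ≤ |η| * √n := h0
      have h2 : |η| * √n ≤ E := by
        rw [hEdef]
        gcongr
        linarith only [abs_nonneg (r - r')]
      linarith only [mul_nonneg (sub_nonneg.2 hr1') (sub_nonneg.2 h2), mul_nonneg (sub_nonneg.2 hr1') (sub_nonneg.2 h1), mul_nonneg (sub_nonneg.2 hr1') (sub_nonneg.2 hE), mul_nonneg (sub_nonneg.2 hr') (sub_nonneg.2 h2), mul_nonneg (sub_nonneg.2 hr') (sub_nonneg.2 h1), mul_nonneg (sub_nonneg.2 hr') (sub_nonneg.2 hE), mul_nonneg (sub_nonneg.2 hCM) (sub_nonneg.2 hE)]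
    | k + 2, ih, hk =>
      have h0 := hη (k + 1) (by omega)
      have i1 := ih (k + 1) (by omega) (by omega)
      have i0 := ih k (by omega) (by omega)
      set m1 := ampM M r y x (k + 1) with hm1
      set m0 := ampM M r y x k with hm0
      set p1 := ampM M' r' y' x (k + 1) with hp1
      set p0 := ampM M' r' y' x k with hp0
      have e1 : ampM M r y x (k + 2) = fun i => Real.tanh (M.mulVec m1 i + y i
        - r ^ 2 * (1 - qq m1) * m0 i) := rfl
      have e2 : ampM M' r' y' x (k + 2) = fun i => Real.tanh (M'.mulVec p1 i + y' i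
        - r' ^ 2 * (1 - qq p1) * p0 i) := rfl
      rw [e1, e2]
      refine (tanh_nv_le (u := fun i => M.mulVec m1 i + y i - r ^ 2 * (1 - qq m1) * m0 i)
        (v := fun i => M'.mulVec p1 i + y' i - r' ^ 2 * (1 - qq p1) * p0 i)).trans ?_
      have e : ((fun i => M.mulVec m1 i + y i - r ^ 2 * (1 - qq m1) * m0 i)
          - fun i => M'.mulVec p1 i + y' i - r' ^ 2 * (1 - qq p1) * p0 i)
          = M.mulVec (m1 - p1) + (M.mulVec p1 - M'.mulVec p1 + (y - y'))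
            - ((r ^ 2 * (1 - qq m1)) • m0 - (r' ^ 2 * (1 - qq p1)) • p0) := by
        rw [Matrix.mulVec_sub]
        funext i
        simp only [Pi.sub_apply, Pi.add_apply, Pi.smul_apply, smul_eq_mul]
        ring
      rw [e]
      have b1 := hM.nv_le hCM (m1 - p1)
      have b2 := ons_lip hr hr1 hr' hr1' (ampM_abs_le M r y x (k + 1))
        (ampM_abs_le M' r' y' x (k + 1)) (v := m0) (ampM_abs_le M' r' y' x k)
      rw [← hm1, ← hp1, ← hp0] at b2
      have b3 := nv_sub_le (M.mulVec (m1 - p1) + (M.mulVec p1 - M'.mulVec p1 + (y - y')))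
        ((r ^ 2 * (1 - qq m1)) • m0 - (r' ^ 2 * (1 - qq p1)) • p0)
      have b4 := nv_add_le (M.mulVec (m1 - p1)) (M.mulVec p1 - M'.mulVec p1 + (y - y'))
      have b5 : CM * nv (m1 - p1) ≤ CM * ((CM + 4) ^ (k + 1) * E) :=
        mul_le_mul_of_nonneg_left i1 hCM
      have b6 : |η| * √n + 2 * |r - r'| * √n = E := by rw [hEdef]; ring
      have p1' : 1 ≤ (CM + 4) ^ k := one_le_pow₀ (by linarith only [hCM])
      have p2 : (CM + 4) ^ (k + 1) = (CM + 4) ^ k * (CM + 4) := pow_succ _ _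
      have p3 : (CM + 4) ^ (k + 2) = (CM + 4) ^ k * (CM + 4) * (CM + 4) := by ring
      rw [p3]
      rw [p2] at b5 i1
      have p4 : E ≤ (CM + 4) ^ k * E := le_mul_of_one_le_left hE p1'
      have p5 : 0 ≤ (CM + 4) ^ k * E := by (clear * - hCM; positivity)
      linarith only [h0, i1, i0, b1, b2, b3, b4, b5, p4, p5, mul_nonneg hCM p5]

/-- the steering matrix applied to a vector near the spins, in the steered directions -/
theorem steer_mulVec_sub {ι : Type*} [Fintype ι] (θ b : ι → ℝ) (w : ι → Vec n) (x : Cfg n) (m : Vec n)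
    {T ε : ℝ} (hw : ∀ a, nv (w a) ≤ 1) (hθ : ∀ a, |θ a| ≤ T)
    (hb : ∀ a, |b a| ≤ ε * √n) (hm : ∀ a, |ip (w a) (sv x - m)| ≤ ε * √n) :
    nv ((∑ a, θ a • Matrix.vecMulVec (w a) (w a)).mulVec m
      - ∑ a, (θ a * ip (w a) (sv x) + b a) • w a) ≤ Fintype.card ι * ((T + 1) * ε * √n) := by
  have e : (∑ a, θ a • Matrix.vecMulVec (w a) (w a)).mulVec m
      - ∑ a, (θ a * ip (w a) (sv x) + b a) • w a
      = ∑ a, (-(θ a * ip (w a) (sv x - m) + b a)) • w a := by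
    rw [Matrix.sum_mulVec, ← Finset.sum_sub_distrib]
    refine Finset.sum_congr rfl fun a _ => ?_
    rw [Matrix.smul_mulVec, vecMulVec_mulVec, smul_smul, ← sub_smul, ip_sub_right]
    congr 1
    ring
  rw [e]
  refine (nv_sum_le _ _).trans ?_
  calc ∑ a, nv ((-(θ a * ip (w a) (sv x - m) + b a)) • w a)
      ≤ ∑ _a : ι, (T + 1) * ε * √n := by
        refine Finset.sum_le_sum fun a _ => ?_
        have hT : 0 ≤ T := (abs_nonneg _).trans (hθ a)
        rw [nv_smul, abs_neg]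
        refine (mul_le_of_le_one_right (abs_nonneg _) (hw a)).trans ?_
        refine (abs_add_le _ _).trans ?_
        rw [abs_mul]
        have h1 : |θ a| * |ip (w a) (sv x - m)| ≤ T * (ε * √n) :=
          mul_le_mul (hθ a) (hm a) (abs_nonneg _) hT
        have h2 := hb a
        linarith only [h1, h2]
    _ = Fintype.card ι * ((T + 1) * ε * √n) := by simp

end Vale.Agent.P150.F
end

section

/-! P150 FULL, (O1) tracking, deterministic part 2: the static events at one time (helper739). -/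

open MeasureTheory ProbabilityTheory Filter Topology
open scoped Matrix

namespace Vale.Agent.P150.F

variable {n : ℕ}

namespace Trk

/-- a steering matrix is bounded -/
theorem steer_opLe {ι : Type*} [Fintype ι] (θ : ι → ℝ) (w : ι → Vec n) {T : ℝ}
    (hw : ∀ a, nv (w a) ≤ 1) (hθ : ∀ a, |θ a| ≤ T) (v : Vec n) :
    nv ((∑ a, θ a • Matrix.vecMulVec (w a) (w a)).mulVec v) ≤ Fintype.card ι * T * nv v := by
  rw [Matrix.sum_mulVec]
  refine (nv_sum_le _ _).trans ?_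
  calc ∑ a, nv ((θ a • Matrix.vecMulVec (w a) (w a)).mulVec v) ≤ ∑ _a : ι, T * nv v := by
        refine Finset.sum_le_sum fun a _ => ?_
        have hT : 0 ≤ T := (abs_nonneg _).trans (hθ a)
        rw [Matrix.smul_mulVec, nv_smul, vecMulVec_mulVec, nv_smul]
        have h1 := abs_ip_le (w a) v
        have h2 : |ip (w a) v| ≤ nv v :=
          h1.trans (mul_le_of_le_one_left (nv_nonneg _) (hw a))
        have h3 : |ip (w a) v| * nv (w a) ≤ nv v :=
          (mul_le_of_le_one_right (abs_nonneg _) (hw a)).trans h2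
        exact mul_le_mul (hθ a) h3 (mul_nonneg (abs_nonneg _) (nv_nonneg _)) hT
    _ = Fintype.card ι * T * nv v := by simp; ring

/-- **static events at one time**: the non-steered AMP iterate nearly solves the steered TAP
equation, and its overlaps with the steering directions are right -/
theorem static {J : Mat n} {r : ℝ} (hr : 0 ≤ r) (hr1 : r ≤ 1) (hJ : OpLe J 3) (x : Cfg n)
    (y0 : Vec n) {ι : Type*} [Fintype ι] (θ b : ι → ℝ) (w : ι → Vec n) {T ε e : ℝ} (K : ℕ)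
    (hT : 0 ≤ T) (hε : 0 ≤ ε) (hw : ∀ a, nv (w a) ≤ 1) (hθ : ∀ a, |θ a| ≤ T)
    (hb : ∀ a, |b a| ≤ ε * √n) {A : Mat n} (hA : A = ∑ a, θ a • Matrix.vecMulVec (w a) (w a))
    {yA : Vec n} (hyA : yA = ∑ a, (θ a * ip (w a) (sv x) + b a) • w a)
    (h3 : ∀ a, ∀ k ≤ K + 2, |ip (w a) (sv x - ampM (r • J - A) r (y0 + yA) x k)| ≤ ε * √n)
    (h1 : nv (ampM (r • J) r y0 x (K + 2) - ampM (r • J) r y0 x (K + 1)) ≤ e * √n)
    (h2 : nv (ampM (r • J) r y0 x (K + 1) - ampM (r • J) r y0 x K) ≤ e * √n) :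
    nv (tapG r J A (y0 + yA) (ampM (r • J) r y0 x (K + 2)))
        ≤ (7 * e + Fintype.card ι * (T + 1) * ε * (1 + Fintype.card ι * T * 7 ^ (K + 2))) * √n ∧
    ∀ a, |ip (w a) (sv x - ampM (r • J) r y0 x (K + 2))|
        ≤ (ε + 7 ^ (K + 2) * (Fintype.card ι * (T + 1) * ε)) * √n := by
  set mA := ampM (r • J - A) r (y0 + yA) x with hmA
  set m0 := ampM (r • J) r y0 x with hm0
  set ξ := Fintype.card ι * ((T + 1) * ε * √n) with hξ
  have hξ0 : 0 ≤ ξ := by (clear * - hT hε; positivity)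
  have hAm (k : ℕ) (hk : k ≤ K + 2) : nv (yA - A.mulVec (mA k)) ≤ ξ := by
    rw [nv_sub_comm, hA, hyA]
    exact steer_mulVec_sub θ b w x (mA k) hw hθ hb fun a => h3 a k hk
  have hcmp := amp_compare (K := K + 2) hJ hr hr1 hξ0 (fun k hk => hAm k hk.le)
  have hc := hcmp (K + 2) le_rfl
  rw [← hmA, ← hm0] at hc
  have hAop (v : Vec n) : nv (A.mulVec v) ≤ Fintype.card ι * T * nv v := by
    rw [hA]
    exact steer_opLe θ w hw hθ v
  have hres := amp_residual (A := A) (y₀ := y0) (yA := yA) (x := x) (K := K) hJ hr hr1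
  rw [← hm0] at hres
  constructor
  · have e1 : nv (m0 (K + 2) - m0 K) ≤ 2 * (e * √n) := by
      have := nv_sub_triangle (m0 (K + 2)) (m0 (K + 1)) (m0 K)
      linarith only [this, h2, h1]
    have e2 : nv (yA - A.mulVec (m0 (K + 2))) ≤ ξ + Fintype.card ι * T * (7 ^ (K + 2) * ξ) := by
      have a1 : yA - A.mulVec (m0 (K + 2)) = (yA - A.mulVec (mA (K + 2)))
          + A.mulVec (mA (K + 2) - m0 (K + 2)) := by
        rw [Matrix.mulVec_sub]
        abel
      rw [a1]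
      refine (nv_add_le _ _).trans (add_le_add (hAm _ le_rfl) ?_)
      refine (hAop _).trans ?_
      exact mul_le_mul_of_nonneg_left hc (by (clear * - hT; positivity))
    calc nv (tapG r J A (y0 + yA) (m0 (K + 2)))
        ≤ 5 * (e * √n) + 2 * (e * √n) + (ξ + Fintype.card ι * T * (7 ^ (K + 2) * ξ)) := by linarith only [e2, e1, hres, h1]
      _ = _ := by rw [hξ]; ring
  · intro a
    have a1 : ip (w a) (sv x - m0 (K + 2)) = ip (w a) (sv x - mA (K + 2))
        + ip (w a) (mA (K + 2) - m0 (K + 2)) := by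
      rw [← ip_add_right]
      congr 1
      abel
    rw [a1]
    refine (abs_add_le _ _).trans ?_
    have a2 : |ip (w a) (mA (K + 2) - m0 (K + 2))| ≤ 7 ^ (K + 2) * ξ :=
      (abs_ip_le _ _).trans ((mul_le_of_le_one_left (nv_nonneg _) (hw a)).trans hc)
    have a3 := h3 a (K + 2) le_rfl
    calc |ip (w a) (sv x - mA (K + 2))| + |ip (w a) (mA (K + 2) - m0 (K + 2))|
        ≤ ε * √n + 7 ^ (K + 2) * ξ := add_le_add a3 a2
      _ = _ := by rw [hξ]; ring

/-- the residual of a fixed vector during the steering in direction `v` -/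
theorem res_steer {J A : Mat n} {r : ℝ} (y0 yA v : Vec n) (x : Cfg n) (m : Vec n) {θ b T e ε : ℝ}
    (hv : nv v ≤ 1) (hθ : |θ| ≤ T) (hT : 0 ≤ T) (hm : |ip v (sv x - m)| ≤ e * √n)
    (hb : |b| ≤ ε * √n) :
    nv (tapG r J (A + θ • Matrix.vecMulVec v v) (y0 + (yA + (θ * ip v (sv x) + b) • v)) m)
      ≤ nv (tapG r J A (y0 + yA) m) + (T * e + ε) * √n := by
  have e1 : tapG r J (A + θ • Matrix.vecMulVec v v) (y0 + (yA + (θ * ip v (sv x) + b) • v)) m
      = tapG r J A (y0 + yA) m + (-(θ * ip v (sv x - m) + b)) • v := by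
    funext i
    unfold tapG tapB
    rw [Matrix.add_mulVec, Matrix.smul_mulVec, vecMulVec_mulVec, ip_sub_right]
    simp only [Pi.add_apply, Pi.smul_apply, smul_eq_mul]
    ring
  rw [e1]
  refine (nv_add_le _ _).trans (add_le_add le_rfl ?_)
  rw [nv_smul, abs_neg]
  refine (mul_le_of_le_one_right (abs_nonneg _) hv).trans ((abs_add_le _ _).trans ?_)
  rw [abs_mul]
  have h1 : |θ| * |ip v (sv x - m)| ≤ T * (e * √n) := mul_le_mul hθ hm (abs_nonneg _) hT
  linarith only [h1, hb]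

/-- existence of the TAP solution near a vector with small residual -/
theorem sol_near {J A : Mat n} {r c ρ ρ1 ρ2 : ℝ} {y p m0 : Vec n} (hn : 0 < n) (hJ : J.IsSymm)
    (hA : A.IsSymm) (hc : 0 < c)
    (hH : ∀ m ∈ Win.window p (ρ * √n), ∀ v, c * sq v ≤ qf (Hess r J A m) v)
    (hm0 : ∀ i, |m0 i| < 1) (h1 : nv (m0 - p) ≤ ρ1 * √n)
    (h2 : nv (tapG r J A y m0) ≤ c * ρ2 * √n) (h3 : ρ1 + ρ2 < ρ) :
    ∃ m ∈ Win.window p ((ρ1 + ρ2) * √n), Tap r J A y m ∧ nv (m - m0) ≤ ρ2 * √n ∧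
      ∀ m' ∈ Win.window p (ρ * √n), Tap r J A y m' → m' = m := by
  have hs : 0 < √(n : ℝ) := Real.sqrt_pos.2 (by exact_mod_cast hn)
  have h4 : nv (tapG r J A y m0) / c ≤ ρ2 * √n := by
    rw [div_le_iff₀ hc]
    linarith only [h2]
  obtain ⟨m, hm, hT, hd, hu⟩ := Win.exists_unique_tap (y := y) hJ hA hc hH hm0
    (lt_of_le_of_lt (add_le_add h1 h4) (by rw [← add_mul]; exact mul_lt_mul_of_pos_right h3 hs))
  have h5 : nv (m - m0) ≤ ρ2 * √n := by
    refine le_of_mul_le_mul_left ?_ hc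
    linarith only [hd, h2]
  refine ⟨m, ⟨hm.1, ?_⟩, hT, h5, hu⟩
  have h6 := nv_sub_triangle m m0 p
  rw [add_mul]
  linarith only [h6, h5, h1]

/-- Lipschitz dependence of the non-steered AMP iterate on time -/
theorem amp_time {J : Mat n} (hJ : OpLe J 3) {r r' : ℝ} (hr : 0 ≤ r) (hr1 : r ≤ 1)
    (hr' : 0 ≤ r') (hr1' : r' ≤ 1) (y y' : Vec n) (x : Cfg n) (k : ℕ) {δ η : ℝ}
    (hδ : |r - r'| ≤ δ) (hη : nv (y - y') ≤ η * √n) (hη0 : 0 ≤ η) :
    nv (ampM (r • J) r y x k - ampM (r' • J) r' y' x k) ≤ 7 ^ k * ((η + 5 * δ) * √n) := by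
  have hrJ : OpLe (r • J) 3 := by
    have h1 := hJ.smul (by norm_num) r
    refine h1.monoN (by (clear * -; positivity)) ?_
    rw [abs_of_nonneg hr]
    linarith only [hr1]
  have hδ0 : 0 ≤ δ := (abs_nonneg _).trans hδ
  have h := ampM_pert (M := r • J) (M' := r' • J) (CM := 3) (by norm_num) hrJ hr hr1 hr' hr1'
    y y' x k (3 * |r - r'| + η) (fun j _ => ?_) k le_rfl
  · refine h.trans ?_
    rw [abs_of_nonneg (by positivity : (0 : ℝ) ≤ 3 * |r - r'| + η)]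
    have e : (3 + 4 : ℝ) = 7 := by norm_num
    rw [e]
    refine mul_le_mul_of_nonneg_left ?_ (by positivity)
    refine mul_le_mul_of_nonneg_right ?_ (Real.sqrt_nonneg _)
    linarith only [hδ]
  · rw [Matrix.smul_mulVec, Matrix.smul_mulVec, ← sub_smul]
    refine (nv_add_le _ _).trans ?_
    rw [nv_smul, add_mul]
    refine add_le_add ?_ hη
    have h1 := hJ.nv_le (by norm_num) (ampM (r' • J) r' y' x j)
    have h2 := nv_le_sqrt_n (ampM_abs_le (r' • J) r' y' x j)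
    calc |r - r'| * nv (J.mulVec (ampM (r' • J) r' y' x j)) ≤ |r - r'| * (3 * √n) := by
          refine mul_le_mul_of_nonneg_left ?_ (abs_nonneg _)
          linarith
      _ = 3 * |r - r'| * √n := by ring

/-- the residual of a fixed vector during the killing of `J` -/
theorem res_kill {J A : Mat n} {r r' : ℝ} (hr : r ∈ Set.Icc (0 : ℝ) 1)
    (hr' : r' ∈ Set.Icc (0 : ℝ) 1) (hJ : OpLe J 3) (y0 y0' yA : Vec n) {m : Vec n}
    (hm : ∀ i, |m i| ≤ 1) {τ E : ℝ} (h1 : |r' - r| ≤ τ) (h2 : nv (y0' - y0) ≤ E * √n) :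
    nv (tapG r' J A (y0' + yA) m) ≤ nv (tapG r J A (y0 + yA) m) + (5 * τ + E) * √n := by
  have h3 := Win.tapG_param hr' hr hJ A A (y0' + yA) (y0 + yA) hm
  rw [sub_self, Matrix.zero_mulVec, nv_zero, add_zero, add_sub_add_right_eq_sub] at h3
  have h4 : tapG r' J A (y0' + yA) m
      = tapG r J A (y0 + yA) m + (tapG r' J A (y0' + yA) m - tapG r J A (y0 + yA) m) := by
    abel
  rw [h4]
  refine (nv_add_le _ _).trans (add_le_add le_rfl (h3.trans ?_))
  have h5 : 5 * |r' - r| * √n ≤ 5 * τ * √n := by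
    have := Real.sqrt_nonneg (n : ℝ)
    gcongr
  linarith

/-- **tracking through one `J`-killing window**. Levels `j ≤ P q'` of the window, mesh levels
`l q'`; `mK l` is the non-steered AMP iterate at the mesh level `l`. -/
theorem kill_track {J A : Mat n} {c ρ ρa ρb ρc ρ2 τ E : ℝ} (hn : 0 < n) (hJs : J.IsSymm)
    (hJ : OpLe J 3) (hA : A.IsSymm) (hc : 0 < c) (yA p : Vec n) {P q' : ℕ}
    (r : ℕ → ℝ) (y0 : ℕ → Vec n) (mK : ℕ → Vec n)
    (hH : ∀ j ≤ P * q', ∀ m ∈ Win.window p (ρ * √n), ∀ v,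
      c * sq v ≤ qf (Hess (r j) J A m) v)
    (hr : ∀ j ≤ P * q', r j ∈ Set.Icc (0 : ℝ) 1) (hr0 : ∀ j ≤ P * q', |r j - r 0| ≤ τ)
    (hy : ∀ j ≤ P * q', nv (y0 j - y0 0) ≤ E * √n)
    (hmK : ∀ l ≤ P, ∀ i, |mK l i| < 1)
    (hres : ∀ l ≤ P, nv (tapG (r (l * q')) J A (y0 (l * q') + yA) (mK l)) ≤ c * ρ2 * √n)
    (hmove : ∀ l < P, nv (mK (l + 1) - mK l) ≤ ρb * √n) {ms : Vec n}
    (hs1 : ∀ i, |ms i| < 1) (hs2 : Tap (r 0) J A (y0 0 + yA) ms)
    (hs3 : nv (ms - p) ≤ ρa * √n) (hs4 : nv (mK 0 - ms) ≤ ρ2 * √n)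
    (hρc : 5 * τ + E ≤ c * ρc) (hρ1 : ρa + ρc < ρ) (hρ2 : ρa + ρc + ρ2 + ρb ≤ ρ) :
    (∀ j ≤ P * q', ∃ m ∈ Win.window p ((ρa + ρc) * √n), Tap (r j) J A (y0 j + yA) m ∧
      ∀ m' ∈ Win.window p (ρ * √n), Tap (r j) J A (y0 j + yA) m' → m' = m) ∧
    nv (mK P - p) ≤ (ρa + ρc + ρ2) * √n := by
  have hsn : 0 ≤ √(n : ℝ) := Real.sqrt_nonneg _
  have key : ∀ j ≤ P * q', ∃ m ∈ Win.window p ((ρa + ρc) * √n), Tap (r j) J A (y0 j + yA) m ∧
      nv (m - ms) ≤ ρc * √n ∧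
      ∀ m' ∈ Win.window p (ρ * √n), Tap (r j) J A (y0 j + yA) m' → m' = m := by
    intro j hj
    refine sol_near hn hJs hA hc (hH j hj) hs1 hs3 ?_ hρ1
    have h1 := res_kill (A := A) (hr 0 (Nat.zero_le _)) (hr j hj) hJ (y0 0) (y0 j) yA
      (fun i => (hs1 i).le) (hr0 j hj) (hy j hj)
    rw [hs2.grad, nv_zero, zero_add] at h1
    exact h1.trans (mul_le_mul_of_nonneg_right hρc hsn)
  choose! sol hsol1 hsol2 hsol3 hsol4 using key
  have hdist : ∀ l ≤ P, nv (mK l - sol (l * q')) ≤ ρ2 * √n := by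
    intro l
    induction l with
    | zero =>
      intro _
      have hρc0 : 0 ≤ ρc := by
        have h1 : 0 ≤ ρc * √n := (nv_nonneg _).trans (hsol3 0 (Nat.zero_le _))
        have h2 : 0 < √(n : ℝ) := Real.sqrt_pos.2 (by exact_mod_cast hn)
        by_contra hcon
        push Not at hcon
        have h3 := mul_neg_of_neg_of_pos hcon h2
        linarith only [h3, h1]
      have h0 : ms = sol 0 := hsol4 0 (Nat.zero_le _) ms ⟨hs1, hs3.trans
        (mul_le_mul_of_nonneg_right (by linarith only [hρc0, hρ1]) hsn)⟩ hs2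
      rw [zero_mul, ← h0]
      exact hs4
    | succ l ih =>
      intro hl
      have hlq : l * q' ≤ P * q' := Nat.mul_le_mul_right _ (by omega)
      have hlq' : (l + 1) * q' ≤ P * q' := Nat.mul_le_mul_right _ hl
      have ih' := ih (by omega)
      have h1 := hmove l (by omega)
      have h2 := (hsol1 _ hlq).2
      have h3 : mK (l + 1) ∈ Win.window p (ρ * √n) := by
        refine ⟨hmK _ hl, ?_⟩
        have a1 := nv_sub_triangle (mK (l + 1)) (mK l) p
        have a2 := nv_sub_triangle (mK l) (sol (l * q')) p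
        have a3 : (ρa + ρc + ρ2 + ρb) * √n ≤ ρ * √n := mul_le_mul_of_nonneg_right hρ2 hsn
        linarith only [ih', h1, h2, a1, a2, a3]
      have h4 : sol ((l + 1) * q') ∈ Win.window p (ρ * √n) :=
        ⟨(hsol1 _ hlq').1, (hsol1 _ hlq').2.trans (mul_le_mul_of_nonneg_right hρ1.le hsn)⟩
      have h5 := Win.dist_approx (y := y0 ((l + 1) * q') + yA) (hH _ hlq') h4 h3
      rw [(hsol2 _ hlq').grad, nv_zero, add_zero] at h5
      refine le_of_mul_le_mul_left ?_ hc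
      have h6 := hres (l + 1) hl
      linarith only [h6, h5]
  refine ⟨fun j hj => ⟨sol j, hsol1 j hj, hsol2 j hj, hsol4 j hj⟩, ?_⟩
  have h1 := hdist P le_rfl
  have h2 := (hsol1 (P * q') le_rfl).2
  have h3 := nv_sub_triangle (mK P) (sol (P * q')) p
  have h4 : (ρa + ρc + ρ2) * √n = (ρa + ρc) * √n + ρ2 * √n := by ring
  linarith only [h3, h2, h1]

end Trk

end Vale.Agent.P150.F
end

section

/-! P150 FULL, (O1) tracking, deterministic part 3: no exit along a path on which the good events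
hold (helper739). -/

open MeasureTheory ProbabilityTheory Filter Topology
open scoped Matrix

namespace Vale.Agent.P150.F

variable {n : ℕ}

namespace Trk

variable (p : SPar n) (x : Cfg n)

/-- the non-steered AMP iterate at level `k`, for the `J`-killing field `yJ` -/
noncomputable def m0 (yJ : ℕ → Vec n) (K k : ℕ) : Vec n := ampM (p.rr k • p.J) (p.rr k) (yJ k) x K

/-- a solution of the TAP equation at level `k` -/
def TapAt (P : ℕ → p.Ctr) (y : ℕ → Vec n) (k : ℕ) (m : Vec n) : Prop :=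
  Tap (p.rr k) p.J (p.AA k (P k)) (y k) m

/-- convexity at level `k` on the ball with centre `z` -/
def Conv (P : ℕ → p.Ctr) (c : ℝ) (k : ℕ) (z : Vec n) : Prop :=
  ∀ m ∈ Win.window z (p.ρ * √n), ∀ v, c * sq v ≤ qf (Hess (p.rr k) p.J (p.AA k (P k)) m) v

/-- the steering phase `(i, a)` along a path -/
structure SteerPh (P : ℕ → p.Ctr) (y yJ : ℕ → Vec n) (b : ℕ → ℝ) (f : ℕ) (i : Fin p.Nw)
    (a : Fin p.d) (ε : ℝ) : Prop where
  hrr : ∀ j ≤ p.q, p.rr (f * p.q + j) = p.rr (f * p.q)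
  hAA : ∀ j ≤ p.q, p.AA (f * p.q + j) (P (f * p.q + j)) = p.AA (f * p.q) (P (f * p.q))
    + ((j : ℝ) / p.q * p.Ks) • Matrix.vecMulVec (p.vd (P (f * p.q)) i a) (p.vd (P (f * p.q)) i a)
  hyJ : ∀ j ≤ p.q, yJ (f * p.q + j) = yJ (f * p.q)
  hy : ∀ j ≤ p.q, y (f * p.q + j) = y (f * p.q)
    + ((j : ℝ) / p.q * p.Ks * ip (p.vd (P (f * p.q)) i a) (sv x) + b j) •
      p.vd (P (f * p.q)) i a
  hb : ∀ j ≤ p.q, |b j| ≤ ε * √n

/-- the killing phase along a path, with `Pm` mesh intervals -/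
structure KillPh (P : ℕ → p.Ctr) (y yJ : ℕ → Vec n) (f Pm q' : ℕ) (τ E δ E' : ℝ) : Prop where
  hq : Pm * q' = p.q
  hAA : ∀ j ≤ p.q, p.AA (f * p.q + j) (P (f * p.q + j)) = p.AA (f * p.q) (P (f * p.q))
  hrr : ∀ j ≤ p.q, |p.rr (f * p.q + j) - p.rr (f * p.q)| ≤ τ
  hy : ∀ j ≤ p.q, y (f * p.q + j) - yJ (f * p.q + j) = y (f * p.q) - yJ (f * p.q)
  hyJ : ∀ j ≤ p.q, nv (yJ (f * p.q + j) - yJ (f * p.q)) ≤ E * √n
  hrr' : ∀ l < Pm, |p.rr (f * p.q + (l + 1) * q') - p.rr (f * p.q + l * q')| ≤ δ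
  hyJ' : ∀ l < Pm, nv (yJ (f * p.q + (l + 1) * q') - yJ (f * p.q + l * q')) ≤ E' * √n

/-- the static good event at a check level (a consequence of `Trk.static`) -/
structure Chk (P : ℕ → p.Ctr) (y yJ : ℕ → Vec n) (K : ℕ) (e1 e2 : ℝ) (k : ℕ) : Prop where
  res : nv (tapG (p.rr k) p.J (p.AA k (P k)) (y k) (m0 p x yJ (K + 2) k)) ≤ e1 * √n
  near : ∀ i a, |ip (p.vd (P k) i a) (sv x - m0 p x yJ (K + 2) k)| ≤ e2 * √n

variable {p x}

/-- solutions during a steering phase -/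
theorem steer_phase {P : ℕ → p.Ctr} {y yJ : ℕ → Vec n} {b : ℕ → ℝ} {f : ℕ} {i : Fin p.Nw}
    {a : Fin p.d} {ε e1 e2 c ρ1 ρ2 : ℝ} {K : ℕ} (hn : 0 < n) (hc : 0 < c)
    (hS : SteerPh p x P y yJ b f i a ε) (hC : Chk p x P y yJ K e1 e2 (f * p.q))
    (hsym : ∀ k, (p.AA k (P k)).IsSymm) (he : e1 + (p.Ks * e2 + ε) ≤ c * ρ2)
    {j : ℕ} (hj : j ≤ p.q) {z : Vec n} (hconv : Conv p P c (f * p.q + j) z)
    (h1 : nv (m0 p x yJ (K + 2) (f * p.q) - z) ≤ ρ1 * √n) (hρ : ρ1 + ρ2 < p.ρ) :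
    ∃ m ∈ Win.window z ((ρ1 + ρ2) * √n), TapAt p P y (f * p.q + j) m ∧
      nv (m - m0 p x yJ (K + 2) (f * p.q)) ≤ ρ2 * √n ∧
      ∀ m' ∈ Win.window z (p.ρ * √n), TapAt p P y (f * p.q + j) m' → m' = m := by
  have hsn : 0 ≤ √(n : ℝ) := Real.sqrt_nonneg _
  set v := p.vd (P (f * p.q)) i a with hv
  have hv1 : nv v ≤ 1 := by
    refine nv_le_of_sq_le zero_le_one ?_
    rcases p.hdirs i (p.ctr (P (f * p.q)) i) a with h | h
    · rw [hv, SPar.vd, h]
      simp [sq]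
    · rw [hv, SPar.vd, h, one_pow]
  have hm0 : ∀ i, |m0 p x yJ (K + 2) (f * p.q) i| < 1 := fun i => ampM_abs_lt _ _ _ _ _ _
  refine sol_near hn p.hJ (hsym _) hc hconv hm0 h1 ?_ hρ
  have hq : (0 : ℝ) < p.q := by exact_mod_cast p.hq
  have hjq : (j : ℝ) / p.q ≤ 1 := by
    rw [div_le_one hq]
    exact_mod_cast hj
  have hθ : |(j : ℝ) / p.q * p.Ks| ≤ p.Ks := by
    rw [abs_of_nonneg (mul_nonneg (by (clear * - hq; positivity)) p.hKs)]
    exact mul_le_of_le_one_left p.hKs hjq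
  have h2 := res_steer (J := p.J) (A := p.AA (f * p.q) (P (f * p.q))) (r := p.rr (f * p.q))
    0 (y (f * p.q)) v x (m0 p x yJ (K + 2) (f * p.q)) hv1 hθ p.hKs (hC.near i a) (hS.hb j hj)
  rw [zero_add, zero_add, ← hS.hy j hj, ← hS.hAA j hj, ← hS.hrr j hj] at h2
  have h3 := hC.res
  have h4 : (e1 + (p.Ks * e2 + ε)) * √n ≤ c * ρ2 * √n := mul_le_mul_of_nonneg_right he hsn
  rw [← hS.hrr j hj] at h3
  refine h2.trans ?_
  rw [hS.hrr j hj] at h3 ⊢
  linarith only [h4, h3]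

/-- rounding -/
theorem round_le {m z : Vec n} {ℓ : ℕ} (hℓ : 0 < ℓ) (h : ∀ j, z j = (⌊(ℓ : ℝ) * m j⌋ : ℝ) / ℓ) :
    nv (m - z) ≤ 1 / ℓ * √n := by
  have hℓ' : (0 : ℝ) < ℓ := by exact_mod_cast hℓ
  refine nv_le_sqrt (by positivity) fun j => ?_
  rw [Pi.sub_apply, h j]
  have h1 := Int.floor_le ((ℓ : ℝ) * m j)
  have h2 := Int.lt_floor_add_one ((ℓ : ℝ) * m j)
  have e : m j - (⌊(ℓ : ℝ) * m j⌋ : ℝ) / ℓ = ((ℓ : ℝ) * m j - ⌊(ℓ : ℝ) * m j⌋) / ℓ := by
    field_simp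
  rw [e, abs_of_nonneg (div_nonneg (by linarith only [h1]) hℓ'.le)]
  exact div_le_div_of_nonneg_right (by linarith only [h2]) hℓ'.le

/-- the constants of the tracking argument -/
structure Cst (ρ : ℝ) (ℓ : ℕ) (Ks : ℝ) (K : ℕ)
    (c ρ1 ρ2 ρb ρc ε e1 e2 τ E δ E' : ℝ) : Prop where
  hc : 0 < c
  hρ : 0 < ρ
  hρ2 : 0 ≤ ρ2
  hρb : 0 ≤ ρb
  hρc : 0 ≤ ρc
  hε : 0 ≤ ε
  he2 : 0 ≤ e2
  hE' : 0 ≤ E'
  c1 : e1 + (Ks * e2 + ε) ≤ c * ρ2
  c2 : ρ1 + ρ2 ≤ ρ / 2
  c3 : 2 * ρ2 + 1 / ℓ + ρc ≤ ρ / 2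
  c4 : 2 * ρ2 + 1 / ℓ + ρc + ρ2 ≤ ρ1
  c5 : 2 * ρ2 + 1 / ℓ + ρc + ρ2 + ρb ≤ ρ
  c6 : 5 * τ + E ≤ c * ρc
  c7 : 7 ^ (K + 2) * (E' + 5 * δ) ≤ ρb

/-- everything that is used about one window -/
structure WinHyp (P : ℕ → p.Ctr) (y yJ : ℕ → Vec n) (b : ℕ → ℕ → ℝ) (i : Fin p.Nw)
    (Pm q' K : ℕ) (c ε e1 e2 τ E δ E' : ℝ) : Prop where
  hd : 0 < p.d
  hP : ∀ k, i * (p.d + 1) * p.q ≤ k →
    p.ctrPrev (P k) i = p.ctrPrev (P (i * (p.d + 1) * p.q)) i ∧
    p.ctr (P k) i = p.ctr (P (i * (p.d + 1) * p.q)) i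
  steer : ∀ a : Fin p.d, SteerPh p x P y yJ (b (i * (p.d + 1) + a)) (i * (p.d + 1) + a) i a ε
  kill : KillPh p P y yJ (i * (p.d + 1) + p.d) Pm q' τ E δ E'
  chkS : ∀ a : Fin p.d, Chk p x P y yJ K e1 e2 ((i * (p.d + 1) + a) * p.q)
  chkK : ∀ l ≤ Pm, Chk p x P y yJ K e1 e2 ((i * (p.d + 1) + p.d) * p.q + l * q')
  convS : ∀ a : Fin p.d, ∀ j < p.q, Conv p P c ((i * (p.d + 1) + a) * p.q + j)
    (p.ctrPrev (P (i * (p.d + 1) * p.q)) i)
  convK : ∀ j ≤ p.q, Conv p P c ((i * (p.d + 1) + p.d) * p.q + j)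
    (p.ctr (P (i * (p.d + 1) * p.q)) i)
  round : ∀ m ∈ Win.window (p.ctrPrev (P (i * (p.d + 1) * p.q)) i) (p.ρ * √n),
    TapAt p P y (i * (p.d + 1) * p.q) m →
    (∀ m' ∈ Win.window (p.ctrPrev (P (i * (p.d + 1) * p.q)) i) (p.ρ * √n),
      TapAt p P y (i * (p.d + 1) * p.q) m' → m' = m) →
    nv (m - p.ctr (P (i * (p.d + 1) * p.q)) i) ≤ 1 / p.ℓ * √n

theorem m0_const {P : ℕ → p.Ctr} {y yJ : ℕ → Vec n} {b : ℕ → ℕ → ℝ} {i : Fin p.Nw}
    {Pm q' K : ℕ} {c ε e1 e2 τ E δ E' : ℝ}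
    (h : WinHyp (x := x) P y yJ b i Pm q' K c ε e1 e2 τ E δ E') (a : ℕ) (ha : a ≤ p.d) (K' : ℕ) :
    m0 p x yJ K' ((i * (p.d + 1) + a) * p.q) = m0 p x yJ K' (i * (p.d + 1) * p.q) := by
  induction a with
  | zero => rw [add_zero]
  | succ a ih =>
    rw [← ih (by omega)]
    have h1 := (h.steer ⟨a, ha⟩).hrr p.q le_rfl
    have h2 := (h.steer ⟨a, ha⟩).hyJ p.q le_rfl
    have e : (i * (p.d + 1) + (a + 1)) * p.q = (i * (p.d + 1) + a) * p.q + p.q := by ring
    unfold m0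
    rw [e]
    simp only [] at h1 h2
    rw [h1, h2]

/-- **one window** -/
theorem win_step {P : ℕ → p.Ctr} {y yJ : ℕ → Vec n} {b : ℕ → ℕ → ℝ} {i : Fin p.Nw}
    {Pm q' K : ℕ} {c ρ1 ρ2 ρb ρc ε e1 e2 τ E δ E' : ℝ} (hn : 0 < n)
    (hsym : ∀ k, (p.AA k (P k)).IsSymm) (hr : ∀ k, p.rr k ∈ Set.Icc (0 : ℝ) 1)
    (C : Cst p.ρ p.ℓ p.Ks K c ρ1 ρ2 ρb ρc ε e1 e2 τ E δ E')
    (h : WinHyp (x := x) P y yJ b i Pm q' K c ε e1 e2 τ E δ E')
    (hIV : nv (m0 p x yJ (K + 2) (i * (p.d + 1) * p.q)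
      - p.ctrPrev (P (i * (p.d + 1) * p.q)) i) ≤ ρ1 * √n) :
    (∀ a : Fin p.d, ∀ j < p.q, ∃ m ∈ Win.window (p.ctrPrev (P (i * (p.d + 1) * p.q)) i)
        (p.ρ / 2 * √n), TapAt p P y ((i * (p.d + 1) + a) * p.q + j) m ∧
        nv (m - p.ctr (P (i * (p.d + 1) * p.q)) i) ≤ p.ρ / 2 * √n ∧
        ∀ m' ∈ Win.window (p.ctrPrev (P (i * (p.d + 1) * p.q)) i) (p.ρ * √n),
          TapAt p P y ((i * (p.d + 1) + a) * p.q + j) m' → m' = m) ∧
    (∀ j ≤ p.q, ∃ m ∈ Win.window (p.ctr (P (i * (p.d + 1) * p.q)) i)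
        (p.ρ / 2 * √n), TapAt p P y ((i * (p.d + 1) + p.d) * p.q + j) m ∧
        ∀ m' ∈ Win.window (p.ctr (P (i * (p.d + 1) * p.q)) i) (p.ρ * √n),
          TapAt p P y ((i * (p.d + 1) + p.d) * p.q + j) m' → m' = m) ∧
    nv (m0 p x yJ (K + 2) ((i * (p.d + 1) + p.d + 1) * p.q)
      - p.ctr (P (i * (p.d + 1) * p.q)) i) ≤ ρ1 * √n := by
  have hsn : 0 ≤ √(n : ℝ) := Real.sqrt_nonneg _
  have hρ := C.hρ
  have hρ2 := C.hρ2
  have hρc := C.hρc
  have hρb := C.hρb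
  have c2 := C.c2
  have c3 := C.c3
  have c4 := C.c4
  have c5 := C.c5
  have hℓ0 : (0 : ℝ) ≤ 1 / p.ℓ := by (clear * -; positivity)
  set zp := p.ctrPrev (P (i * (p.d + 1) * p.q)) i with hzp
  set zc := p.ctr (P (i * (p.d + 1) * p.q)) i with hzc
  set mK := m0 p x yJ (K + 2) (i * (p.d + 1) * p.q) with hmK
  have he1 : e1 ≤ c * ρ2 := by
    have := C.c1
    have := mul_nonneg p.hKs C.he2
    have := C.hε
    linarith
  -- steering
  have hst : ∀ a : Fin p.d, ∀ j < p.q, ∃ m ∈ Win.window zp ((ρ1 + ρ2) * √n),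
      TapAt p P y ((i * (p.d + 1) + a) * p.q + j) m ∧ nv (m - mK) ≤ ρ2 * √n ∧
      ∀ m' ∈ Win.window zp (p.ρ * √n),
        TapAt p P y ((i * (p.d + 1) + a) * p.q + j) m' → m' = m := by
    intro a j hj
    have e := m0_const h a a.2.le (K + 2)
    have := steer_phase hn C.hc (h.steer a) (h.chkS a) hsym C.c1 hj.le (z := zp) (ρ1 := ρ1)
      (h.convS a j hj) (by rw [e]; exact hIV) (by linarith only [c2, hρ])
    rw [e] at this
    exact this
  -- the centre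
  have hq := p.hq
  obtain ⟨mi, hmi1, hmi2, hmi3, hmi4⟩ := hst ⟨0, h.hd⟩ 0 hq
  simp only [add_zero] at hmi2 hmi4
  have hw12 : (ρ1 + ρ2) * √n ≤ p.ρ * √n := mul_le_mul_of_nonneg_right (by linarith only [c2, hρ]) hsn
  have hround : nv (mi - zc) ≤ 1 / p.ℓ * √n :=
    h.round mi ⟨hmi1.1, hmi1.2.trans hw12⟩ hmi2 hmi4
  have hmKc : nv (mK - zc) ≤ (ρ2 + 1 / p.ℓ) * √n := by
    have := nv_sub_triangle mK mi zc
    rw [nv_sub_comm mK mi] at this
    rw [add_mul]
    linarith only [hmi3, hround, this]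
  refine ⟨fun a j hj => ?_, ?_⟩
  · obtain ⟨m, hm1, hm2, hm3, hm4⟩ := hst a j hj
    refine ⟨m, ⟨hm1.1, hm1.2.trans (mul_le_mul_of_nonneg_right c2 hsn)⟩, hm2, ?_, hm4⟩
    have h1 := nv_sub_triangle m mK zc
    have h2 : (2 * ρ2 + 1 / p.ℓ + ρc) * √n ≤ p.ρ / 2 * √n :=
      mul_le_mul_of_nonneg_right c3 hsn
    have h3 : 0 ≤ ρc * √n := mul_nonneg hρc hsn
    linarith only [h3, h2, h1, hm3, hmKc]
  -- killing
  have hK := h.kill
  set L0 := (i * (p.d + 1) + p.d) * p.q with hL0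
  have eK := m0_const h p.d le_rfl (K + 2)
  rw [← hmK, ← hL0] at eK
  have hPq : Pm * q' = p.q := hK.hq
  obtain ⟨ms, hms1, hms2, hms3, hms4⟩ := sol_near (y := y L0) (ρ1 := ρ2 + 1 / p.ℓ) (ρ2 := ρ2)
    (ρ := p.ρ) (c := c) (p := zc) (m0 := mK) (r := p.rr L0) (A := p.AA L0 (P L0)) hn p.hJ
    (hsym L0) C.hc (by have := h.convK 0 (Nat.zero_le _); rw [add_zero] at this; exact this)
    (fun i => ampM_abs_lt _ _ _ _ _ _) hmKc (by
      have h1 := (h.chkK 0 (Nat.zero_le _)).res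
      rw [zero_mul, add_zero, eK] at h1
      exact h1.trans (mul_le_mul_of_nonneg_right he1 hsn)) (by linarith only [c3, hρc, hρ])
  have hkt := kill_track (J := p.J) (A := p.AA L0 (P L0)) (c := c) (ρ := p.ρ)
    (ρa := 2 * ρ2 + 1 / p.ℓ) (ρb := ρb) (ρc := ρc) (ρ2 := ρ2) (τ := τ) (E := E) hn p.hJ p.hJ3
    (hsym L0) C.hc (y L0 - yJ L0) zc (P := Pm) (q' := q') (fun j => p.rr (L0 + j))
    (fun j => yJ (L0 + j)) (fun l => m0 p x yJ (K + 2) (L0 + l * q'))
    (fun j hj => by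
      have := h.convK j (hPq ▸ hj)
      unfold Conv at this
      rw [hK.hAA j (hPq ▸ hj)] at this
      exact this)
    (fun j _ => hr _) (fun j hj => hK.hrr j (hPq ▸ hj)) (fun j hj => hK.hyJ j (hPq ▸ hj))
    (fun l _ i => ampM_abs_lt _ _ _ _ _ _)
    (fun l hl => by
      have h1 := (h.chkK l hl).res
      have h2 : l * q' ≤ p.q := by
        rw [← hPq]
        exact Nat.mul_le_mul_right _ hl
      rw [hK.hAA _ h2] at h1
      have h3 := hK.hy _ h2
      have h4 : yJ (L0 + l * q') + (y L0 - yJ L0) = y (L0 + l * q') := by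
        rw [← h3]
        abel
      rw [h4]
      exact h1.trans (mul_le_mul_of_nonneg_right he1 hsn))
    (fun l hl => by
      have h1 := amp_time p.hJ3 (hr (L0 + (l + 1) * q')).1 (hr (L0 + (l + 1) * q')).2
        (hr (L0 + l * q')).1 (hr (L0 + l * q')).2 (yJ (L0 + (l + 1) * q')) (yJ (L0 + l * q')) x
        (K + 2) (hK.hrr' l hl) (hK.hyJ' l hl) C.hE'
      refine h1.trans ?_
      rw [← mul_assoc]
      exact mul_le_mul_of_nonneg_right C.c7 hsn)
    (ms := ms) hms1.1 (by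
      have e3 : yJ L0 + (y L0 - yJ L0) = y L0 := by abel
      simp only [add_zero]
      rw [e3]
      exact hms2)
    (by
      have e : (ρ2 + 1 / (p.ℓ : ℝ) + ρ2) * √n = (2 * ρ2 + 1 / p.ℓ) * √n := by ring
      rw [← e]
      exact hms1.2)
    (by
      simp only [zero_mul, add_zero]
      rw [eK, nv_sub_comm]
      exact hms3)
    C.c6 (by linarith only [c3, hρ]) (by linarith only [c5])
  obtain ⟨hk1, hk2⟩ := hkt
  refine ⟨fun j hj => ?_, ?_⟩
  · obtain ⟨m, hm1, hm2, hm3⟩ := hk1 j (by rw [hPq]; exact hj)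
    have e1 : yJ (L0 + j) + (y L0 - yJ L0) = y (L0 + j) := by
      rw [← hK.hy j hj]
      abel
    simp only [e1] at hm2 hm3
    have e4 := hK.hAA j hj
    rw [← e4] at hm2 hm3
    exact ⟨m, ⟨hm1.1, hm1.2.trans (mul_le_mul_of_nonneg_right c3 hsn)⟩, hm2, hm3⟩
  · have e2 : (i * (p.d + 1) + p.d + 1) * p.q = L0 + Pm * q' := by
      rw [hL0, hPq]
      ring
    rw [e2]
    exact hk2.trans (mul_le_mul_of_nonneg_right c4 hsn)

end Trk

end Vale.Agent.P150.F
end
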