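import Mathlib
import Vale.Agent.P150.Bdl.B1
import Vale.Agent.P150.Bdl.B11
import Vale.Agent.P150.Bdl.B9
import Vale.Agent.P150.Bdl.B8
import Vale.Agent.P150.Bdl.B15
import Vale.Agent.P150.Bdl.B12
import Vale.Agent.P150.Bdl.B7
import Vale.Agent.P150.Bdl.B6
import Vale.Agent.P150.Bdl.B10

set_option linter.all false

section

/-! Assembly of the probabilistic part. -/

open MeasureTheory ProbabilityTheory Filter Topology
open scoped Matrix

namespace Vale.Agent.P150.F

/-- [G0] -/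
theorem G0_op (ε : ℝ) (hε : 0 < ε) : ∀ᶠ i in whpF, OpLe (skM i.2) (2 + ε) := by
  obtain ⟨a, ha, N, hN⟩ := opLe_exp hε
  refine eventually_whpF_of_real (fun n : ℕ => Real.exp (-(a * n))) ?_ ?_
  · have := tendsto_exp_lin ha 0
    simpa using this
  · filter_upwards [eventually_ge_atTop N] with n hn
    exact hN n hn

/-- [G1] uniform Schwinger-Dyson equations -/
def G1Statement : Prop := ∀ (ℓ : ℕ) (ε : ℝ), 0 < ε → ∀ᶠ i in whpF, SD (skM i.2) ℓ ε

/-- [G2] off-diagonal entries of words -/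
def G2Statement : Prop := ∀ (ℓ : ℕ) (ε : ℝ), 0 < ε → ∀ᶠ i in whpF, OD (skM i.2) ℓ ε

/-- [G3] star-shapedness -/
def G3Statement : Prop := ∀ β : ℝ, 0 ≤ β → β < 1 → ∀ q₀ > 0, ∃ c > 0,
  ∀ᶠ i in whpF, SS β q₀ c (skM i.2)

/-- [G4] partition function -/
def G4Statement : Prop := ∀ β : ℝ, 0 ≤ β → β < 1 → ∀ ε > 0, ∀ᶠ i in whpF,
  Real.log (∑ x : Cfg i.1, Real.exp (β / 2 * qf (skM i.2) (sv x)))
    ≤ i.1 * (Real.log 2 + β ^ 2 / 4 + ε)

/-- [G5] uniform count in windows -/
def G5Statement : Prop := ∀ β : ℝ, 0 ≤ β → β < 1 → ∃ c₁ > 0, ∃ L > 0, ∃ ρ₀ > 0,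
  ∀ ρ, 0 < ρ → ρ ≤ ρ₀ → ∃ d : ℕ, ∀ᶠ i in whpF, UC β c₁ L ρ d (skM i.2)

/-- [G6] drift error -/
def G6Statement : Prop := ∀ β : ℝ, 0 ≤ β → β < 1 → ∀ (κ₀ c K : ℝ) (d : ℕ), 4 ≤ κ₀ → 0 < c →
  ∃ C, ∀ᶠ i in whpF, KB β κ₀ c K d C (skM i.2)

/-- The probabilistic part from its modules. -/
theorem prob_of (h1 : G1Statement) (h2 : G2Statement) (h3 : G3Statement) (h4 : G4Statement)
    (h5 : G5Statement) (h6 : G6Statement) : ProbStatement := fun β hβ0 hβ1 =>
  { hn := tendsto_fst_whpF
    symm := fun i => skM_symm i.2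
    diag := fun i => skM_self i.2
    op := G0_op
    sd := h1
    od := h2
    ss := h3 β hβ0 hβ1
    logZ := h4 β hβ0 hβ1
    uc := h5 β hβ0 hβ1
    kb := h6 β hβ0 hβ1 }

end Vale.Agent.P150.F
end

section

set_option linter.all false

/-!
P150-FULL, module G1, first part: expectation of the Schwinger-Dyson defect by Gaussian integration
by parts.
-/

open MeasureTheory ProbabilityTheory Filter Topology
open scoped Matrix

namespace Vale.Agent.P150.F

variable {n : ℕ}

/-- directional derivative of a word in the matrix -/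
def dW (J H : Mat n) : List (Vec n) → Mat n
  | [] => 0
  | b :: bs => H * dg b * word J bs + J * dg b * dW J H bs

lemma word_cons_apply (J : Mat n) (b : Vec n) (bs : List (Vec n)) (i j : Fin n) :
    word J (b :: bs) i j = ∑ k, J i k * b k * word J bs k j := by
  rw [word_cons, Matrix.mul_apply]
  refine Finset.sum_congr rfl fun k _ => ?_
  rw [dg, Matrix.mul_diagonal]

lemma dW_cons_apply (J H : Mat n) (b : Vec n) (bs : List (Vec n)) (i j : Fin n) :
    dW J H (b :: bs) i j =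
      ∑ k, (H i k * b k * word J bs k j + J i k * b k * dW J H bs k j) := by
  show (H * dg b * word J bs + J * dg b * dW J H bs) i j = _
  rw [Matrix.add_apply, Matrix.mul_apply, Matrix.mul_apply, ← Finset.sum_add_distrib]
  refine Finset.sum_congr rfl fun k _ => ?_
  rw [dg, Matrix.mul_diagonal, Matrix.mul_diagonal]

lemma hasDerivAt_word (A H : Mat n) (as : List (Vec n)) (t : ℝ) : ∀ i j : Fin n,
    HasDerivAt (fun s => word (A + s • H) as i j) (dW (A + t • H) H as i j) t := by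
  induction as with
  | nil =>
    intro i j
    simpa [word, dW] using hasDerivAt_const t ((1 : Mat n) i j)
  | cons b bs ih =>
    intro i j
    simp only [word_cons_apply, dW_cons_apply]
    refine HasDerivAt.fun_sum fun k _ => ?_
    have h1 : HasDerivAt (fun s : ℝ => (A + s • H) i k) (H i k) t := by
      simp only [Matrix.add_apply, Matrix.smul_apply, smul_eq_mul]
      simpa using ((hasDerivAt_id t).mul_const (H i k)).const_add (A i k)
    exact (h1.mul_const (b k)).mul (ih k j)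

/-- expansion of the derivative of a word -/
lemma mul_dW (J H : Mat n) (as : List (Vec n)) : ∀ P : Mat n,
    P * dW J H as = ∑ k ∈ Finset.range as.length,
      (P * word J (as.take k)) * H * (dg (as.getD k 0) * word J (as.drop (k + 1))) := by
  induction as with
  | nil => intro P; simp [dW]
  | cons b bs ih =>
    intro P
    rw [List.length_cons, Finset.sum_range_succ']
    show P * (H * dg b * word J bs + J * dg b * dW J H bs) = _
    have h := ih (P * J * dg b)
    have e1 : P * (H * dg b * word J bs + J * dg b * dW J H bs)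
        = P * H * (dg b * word J bs) + (P * J * dg b) * dW J H bs := by noncomm_ring
    rw [e1, h, add_comm]
    congr 1
    · refine Finset.sum_congr rfl fun k _ => ?_
      simp only [List.take_succ_cons, List.getD_cons_succ, List.drop_succ_cons, word_cons]
      noncomm_ring
    · simp [word]

/-! ### dependence on the disorder -/

lemma skM_apply (g : Pairs n → ℝ) (i j : Fin n) : skM g i j = gsym g i j / Real.sqrt n := rfl

lemma PG_gsym (i j : Fin n) : PG (fun g : Pairs n → ℝ => gsym g i j) := by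
  unfold gsym
  split_ifs
  · exact PG.coord _
  · exact PG.coord _
  · exact PG.const 0

lemma PG_skM (i j : Fin n) : PG (fun g : Pairs n → ℝ => skM g i j) := by
  simp only [skM_apply, div_eq_inv_mul]
  exact (PG_gsym i j).const_mul _

lemma PG_word (as : List (Vec n)) : ∀ i j : Fin n,
    PG (fun g : Pairs n → ℝ => word (skM g) as i j) := by
  induction as with
  | nil => intro i j; exact PG.const _
  | cons b bs ih =>
    intro i j
    simp only [word_cons_apply]
    exact PG.sum _ fun k _ => ((PG_skM i k).mul (PG.const (b k))).mul (ih k j)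

lemma PG_dW (H : Mat n) (as : List (Vec n)) : ∀ i j : Fin n,
    PG (fun g : Pairs n → ℝ => dW (skM g) H as i j) := by
  induction as with
  | nil => intro i j; exact PG.const _
  | cons b bs ih =>
    intro i j
    simp only [dW_cons_apply]
    exact PG.sum _ fun k _ => (((PG.const (H i k)).mul (PG.const (b k))).mul (PG_word bs k j)).add
      (((PG_skM i k).mul (PG.const (b k))).mul (ih k j))

/-- the direction of one coordinate -/
noncomputable def Hp (p : Pairs n) : Mat n := skM (Pi.single p (1 : ℝ))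

lemma gsym_add_smul (g h : Pairs n → ℝ) (t : ℝ) (i j : Fin n) :
    gsym (g + t • h) i j = gsym g i j + t * gsym h i j := by
  unfold gsym
  split_ifs <;> simp

lemma skM_update (g : Pairs n → ℝ) (p : Pairs n) (t : ℝ) :
    skM (Function.update g p t) = skM (Function.update g p 0) + t • Hp p := by
  have e : Function.update g p t = Function.update g p 0 + t • Pi.single p (1 : ℝ) := by
    ext q
    by_cases hq : q = p
    · subst hq; simp
    · simp [Function.update_of_ne hq, Pi.single_eq_of_ne hq]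
  rw [e]
  ext i j
  rw [Matrix.add_apply, Matrix.smul_apply, Hp, skM_apply, skM_apply, skM_apply, gsym_add_smul,
    smul_eq_mul]
  ring

lemma hasDerivAt_word_update (as : List (Vec n)) (i j : Fin n) (p : Pairs n) (g : Pairs n → ℝ) :
    HasDerivAt (fun t => word (skM (Function.update g p t)) as i j)
      (dW (skM g) (Hp p) as i j) (g p) := by
  have h := hasDerivAt_word (skM (Function.update g p 0)) (Hp p) as (g p) i j
  rw [← skM_update, Function.update_eq_self] at h
  simpa only [← skM_update] using h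

/-- Stein for the entries of words -/
lemma stein_word (as : List (Vec n)) (i j : Fin n) (p : Pairs n) :
    ∫ g, g p * word (skM g) as i j ∂(gpi (Pairs n))
      = ∫ g, dW (skM g) (Hp p) as i j ∂(gpi (Pairs n)) :=
  stein_PG p (PG_word as i j) (PG_dW (Hp p) as i j) fun g => hasDerivAt_word_update as i j p g

lemma gsym_single (p : Pairs n) (i j : Fin n) :
    gsym (Pi.single p (1 : ℝ)) i j =
      (if i = p.1.1 ∧ j = p.1.2 then 1 else 0) + (if i = p.1.2 ∧ j = p.1.1 then 1 else 0) := by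
  obtain ⟨⟨a, b⟩, hab⟩ := p
  have hab' : a < b := hab
  unfold gsym
  rcases lt_trichotomy i j with h | h | h
  · rw [dif_pos h]
    have : ¬ (i = b ∧ j = a) := by
      rintro ⟨rfl, rfl⟩; exact absurd h (not_lt.2 hab'.le)
    simp only [if_neg this, add_zero]
    by_cases hq : i = a ∧ j = b
    · obtain ⟨rfl, rfl⟩ := hq
      simp
    · rw [if_neg hq, Pi.single_eq_of_ne]
      intro h2
      apply hq
      have h3 := congrArg Subtype.val h2
      simp only [Prod.mk.injEq] at h3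
      exact h3
  · subst h
    have h1 : ¬ (i = a ∧ i = b) := by rintro ⟨rfl, rfl⟩; exact lt_irrefl _ hab'
    have h2 : ¬ (i = b ∧ i = a) := by rintro ⟨rfl, rfl⟩; exact lt_irrefl _ hab'
    simp [h1, h2]
  · rw [dif_neg h.asymm, dif_pos h]
    have : ¬ (i = a ∧ j = b) := by
      rintro ⟨rfl, rfl⟩; exact absurd h (not_lt.2 hab'.le)
    simp only [if_neg this, zero_add]
    by_cases hq : i = b ∧ j = a
    · obtain ⟨rfl, rfl⟩ := hq
      simp
    · rw [if_neg hq, Pi.single_eq_of_ne]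
      intro h2
      apply hq
      have h3 := congrArg Subtype.val h2
      simp only [Prod.mk.injEq] at h3
      exact ⟨h3.2, h3.1⟩

lemma mul_Hp_mul (A B : Mat n) (p : Pairs n) (i j : Fin n) :
    (A * Hp p * B) i j = (Real.sqrt n)⁻¹ * (A i p.1.1 * B p.1.2 j + A i p.1.2 * B p.1.1 j) := by
  have h1 : ∀ k, (A * Hp p) i k = (Real.sqrt n)⁻¹ *
      ((if k = p.1.2 then A i p.1.1 else 0) + (if k = p.1.1 then A i p.1.2 else 0)) := by
    intro k
    rw [Matrix.mul_apply]
    simp only [Hp, skM_apply, gsym_single, ite_and, add_div, mul_add, Finset.sum_add_distrib,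
      ite_div, zero_div, mul_ite, mul_zero, Finset.sum_ite_eq', Finset.mem_univ, if_true,
      Finset.sum_ite_eq, one_div]
    congr 1
    · split_ifs <;> ring
    · split_ifs <;> ring
  rw [Matrix.mul_apply, Finset.sum_congr rfl fun k _ => by rw [h1 k]]
  simp only [mul_assoc, add_mul, ite_mul, zero_mul]
  rw [← Finset.mul_sum, Finset.sum_add_distrib]
  simp

/-- the trace pairing produced by integration by parts -/
lemma sum_Hp (A B : Mat n) :
    ∑ p : Pairs n, ((A * Hp p * B) p.1.2 p.1.1 + (A * Hp p * B) p.1.1 p.1.2)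
      = (Real.sqrt n)⁻¹ * ((∑ i, A i i) * (∑ j, B j j) + ∑ i, ∑ j, A i j * B i j
        - 2 * ∑ i, A i i * B i i) := by
  have h := sum_pairs fun i j => A i i * B j j + A i j * B i j
  have h1 : ∀ p : Pairs n, (A * Hp p * B) p.1.2 p.1.1 + (A * Hp p * B) p.1.1 p.1.2
      = (Real.sqrt n)⁻¹ * ((A p.1.1 p.1.1 * B p.1.2 p.1.2 + A p.1.1 p.1.2 * B p.1.1 p.1.2)
        + (A p.1.2 p.1.2 * B p.1.1 p.1.1 + A p.1.2 p.1.1 * B p.1.2 p.1.1)) := by
    intro p
    rw [mul_Hp_mul, mul_Hp_mul]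
    ring
  rw [Finset.sum_congr rfl fun p _ => h1 p, ← Finset.mul_sum]
  congr 1
  have h2 : ∑ i, ∑ j, (A i i * B j j + A i j * B i j)
      = (∑ i, A i i) * (∑ j, B j j) + ∑ i, ∑ j, A i j * B i j := by
    simp only [Finset.sum_add_distrib]
    rw [Finset.sum_mul_sum]
  rw [h2] at h
  have h3 : ∑ i, (A i i * B i i + A i i * B i i) = 2 * ∑ i, A i i * B i i := by
    rw [Finset.mul_sum]
    exact Finset.sum_congr rfl fun i _ => by ring
  rw [h3] at h
  linarith

end Vale.Agent.P150.F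
end

section

set_option linter.all false

/-!
P150-FULL, module G1, second part: the expectation of the Schwinger-Dyson defect.
-/

open MeasureTheory ProbabilityTheory Filter Topology
open scoped Matrix

namespace Vale.Agent.P150.F

variable {n : ℕ}

/-- left factor -/
noncomputable def Ak (J : Mat n) (a : Vec n) (as : List (Vec n)) (k : ℕ) : Mat n :=
  dg a * word J (as.take k)

/-- right factor -/
noncomputable def Bk (J : Mat n) (as : List (Vec n)) (k : ℕ) : Mat n :=
  dg (as.getD k 0) * word J (as.drop (k + 1))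

/-- remainder functional -/
noncomputable def remF (A B : Mat n) : ℝ := ∑ i, ∑ j, A i j * B i j - 2 * ∑ i, A i i * B i i

lemma Ak_apply (J : Mat n) (a : Vec n) (as : List (Vec n)) (k : ℕ) (i j : Fin n) :
    Ak J a as k i j = a i * word J (as.take k) i j := by
  rw [Ak, dg, Matrix.diagonal_mul]

lemma Bk_apply (J : Mat n) (as : List (Vec n)) (k : ℕ) (i j : Fin n) :
    Bk J as k i j = as.getD k 0 i * word J (as.drop (k + 1)) i j := by
  rw [Bk, dg, Matrix.diagonal_mul]

lemma PG_Ak (a : Vec n) (as : List (Vec n)) (k : ℕ) (i j : Fin n) :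
    PG (fun g : Pairs n → ℝ => Ak (skM g) a as k i j) := by
  simp only [Ak_apply]
  exact (PG_word _ i j).const_mul _

lemma PG_Bk (as : List (Vec n)) (k : ℕ) (i j : Fin n) :
    PG (fun g : Pairs n → ℝ => Bk (skM g) as k i j) := by
  simp only [Bk_apply]
  exact (PG_word _ i j).const_mul _

lemma PG_remF (a : Vec n) (as : List (Vec n)) (k : ℕ) :
    PG (fun g : Pairs n → ℝ => remF (Ak (skM g) a as k) (Bk (skM g) as k)) := by
  unfold remF
  exact (PG.sum _ fun i _ => PG.sum _ fun j _ => (PG_Ak a as k i j).mul (PG_Bk as k i j)).sub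
    ((PG.sum _ fun i _ => (PG_Ak a as k i i).mul (PG_Bk as k i i)).const_mul 2)

lemma PG_trN {F : (Pairs n → ℝ) → Mat n} (h : ∀ i j, PG fun g => F g i j) :
    PG fun g => trN (F g) := by
  unfold trN
  simp only [div_eq_inv_mul]
  exact (PG.sum _ fun i _ => h i i).const_mul _

lemma PG_sdT (a : Vec n) (as : List (Vec n)) (k : ℕ) :
    PG (fun g : Pairs n → ℝ => sdT (skM g) a as k) :=
  (PG_trN (PG_Ak a as k)).mul (PG_trN (PG_Bk as k))

lemma PG_sdf (as : List (Vec n)) : PG (fun g : Pairs n → ℝ => sdf (skM g) as) := by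
  cases as with
  | nil => exact PG.const 0
  | cons a as =>
    exact (PG_trN (PG_word (a :: as))).sub (PG.sum _ fun k _ => PG_sdT a as k)

lemma trN_word_eq (g : Pairs n → ℝ) (a : Vec n) (as : List (Vec n)) :
    trN (word (skM g) (a :: as)) = (n : ℝ)⁻¹ * (Real.sqrt n)⁻¹ *
      ∑ p : Pairs n, (a p.1.2 * (g p * word (skM g) as p.1.2 p.1.1)
        + a p.1.1 * (g p * word (skM g) as p.1.1 p.1.2)) := by
  have h := sum_pairs fun i j => skM g i j * (a j * word (skM g) as j i)
  have h1 : ∑ i, word (skM g) (a :: as) i i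
      = ∑ i, ∑ j, skM g i j * (a j * word (skM g) as j i) := by
    refine Finset.sum_congr rfl fun i _ => ?_
    rw [word_cons_apply]
    exact Finset.sum_congr rfl fun j _ => by ring
  unfold trN
  rw [h1, h]
  have h2 : ∑ i, skM g i i * (a i * word (skM g) as i i) = 0 :=
    Finset.sum_eq_zero fun i _ => by rw [skM_diag, zero_mul]
  rw [h2, add_zero, div_eq_inv_mul, mul_assoc]
  congr 1
  rw [Finset.mul_sum]
  refine Finset.sum_congr rfl fun p _ => ?_
  rw [skM_apply, skM_apply, gsym_pair, gsym_pair']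
  ring

lemma dW_pair_sum (J : Mat n) (a : Vec n) (as : List (Vec n)) :
    ∑ p : Pairs n, (a p.1.2 * dW J (Hp p) as p.1.2 p.1.1 + a p.1.1 * dW J (Hp p) as p.1.1 p.1.2)
      = (Real.sqrt n)⁻¹ * ∑ k ∈ Finset.range as.length,
        ((∑ i, Ak J a as k i i) * (∑ j, Bk J as k j j) + remF (Ak J a as k) (Bk J as k)) := by
  have h1 : ∀ p : Pairs n, ∀ i j, a i * dW J (Hp p) as i j
      = ∑ k ∈ Finset.range as.length, (Ak J a as k * Hp p * Bk J as k) i j := by
    intro p i j
    have h := congrFun (congrFun (mul_dW J (Hp p) as (dg a)) i) j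
    rw [Matrix.sum_apply] at h
    rw [← Matrix.diagonal_mul]
    exact h
  simp only [h1]
  rw [Finset.mul_sum]
  simp only [← Finset.sum_add_distrib]
  rw [Finset.sum_comm]
  refine Finset.sum_congr rfl fun k _ => ?_
  rw [sum_Hp, remF]
  ring

/-- **expectation of the Schwinger-Dyson defect** -/
theorem integral_sdf (hn : 0 < n) (a : Vec n) (as : List (Vec n)) :
    ∫ g, sdf (skM g) (a :: as) ∂(gpi (Pairs n)) = ((n : ℝ)⁻¹) ^ 2 *
      ∑ k ∈ Finset.range as.length, ∫ g, remF (Ak (skM g) a as k) (Bk (skM g) as k)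
        ∂(gpi (Pairs n)) := by
  have hn' : (0 : ℝ) < n := by exact_mod_cast hn
  have hs : (Real.sqrt n)⁻¹ * (Real.sqrt n)⁻¹ = (n : ℝ)⁻¹ := by
    rw [← mul_inv, Real.mul_self_sqrt hn'.le]
  have i1 : ∀ (p : Pairs n) (i j : Fin n), Integrable
      (fun g : Pairs n → ℝ => a i * (g p * word (skM g) as i j)) (gpi (Pairs n)) := fun p i j =>
    (((PG.coord p).mul (PG_word as i j)).const_mul (a i)).integrable
  have i2 : ∀ (p : Pairs n) (i j : Fin n), Integrable
      (fun g : Pairs n → ℝ => a i * dW (skM g) (Hp p) as i j) (gpi (Pairs n)) := fun p i j =>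
    ((PG_dW (Hp p) as i j).const_mul (a i)).integrable
  have e1 : ∫ g, trN (word (skM g) (a :: as)) ∂(gpi (Pairs n))
      = (n : ℝ)⁻¹ * (Real.sqrt n)⁻¹ * ∫ g, (Real.sqrt n)⁻¹ *
        ∑ k ∈ Finset.range as.length, ((∑ i, Ak (skM g) a as k i i) * (∑ j, Bk (skM g) as k j j)
          + remF (Ak (skM g) a as k) (Bk (skM g) as k)) ∂(gpi (Pairs n)) := by
    simp only [trN_word_eq, ← dW_pair_sum]
    rw [integral_const_mul]
    congr 1
    have i1' : ∀ p ∈ (Finset.univ : Finset (Pairs n)), Integrable (fun g : Pairs n → ℝ =>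
        a p.1.2 * (g p * word (skM g) as p.1.2 p.1.1)
        + a p.1.1 * (g p * word (skM g) as p.1.1 p.1.2)) (gpi (Pairs n)) :=
      fun p _ => (i1 p _ _).add (i1 p _ _)
    have i2' : ∀ p ∈ (Finset.univ : Finset (Pairs n)), Integrable (fun g : Pairs n → ℝ =>
        a p.1.2 * dW (skM g) (Hp p) as p.1.2 p.1.1
        + a p.1.1 * dW (skM g) (Hp p) as p.1.1 p.1.2) (gpi (Pairs n)) :=
      fun p _ => (i2 p _ _).add (i2 p _ _)
    rw [integral_finsetSum _ i1', integral_finsetSum _ i2']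
    refine Finset.sum_congr rfl fun p _ => ?_
    rw [integral_add (i1 p _ _) (i1 p _ _), integral_add (i2 p _ _) (i2 p _ _)]
    simp only [integral_const_mul, stein_word]
  have e2 : ∀ g : Pairs n → ℝ, sdf (skM g) (a :: as) = trN (word (skM g) (a :: as))
      - ∑ k ∈ Finset.range as.length, sdT (skM g) a as k := fun g => rfl
  simp only [e2]
  rw [integral_sub (PG_trN (PG_word (a :: as))).integrable
    (PG.sum _ fun k _ => PG_sdT a as k).integrable, e1, integral_const_mul]
  have i3 : ∀ k ∈ Finset.range as.length, Integrable (fun g : Pairs n → ℝ =>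
      (∑ i, Ak (skM g) a as k i i) * (∑ j, Bk (skM g) as k j j)) (gpi (Pairs n)) := fun k _ =>
    ((PG.sum _ fun i _ => PG_Ak a as k i i).mul (PG.sum _ fun i _ => PG_Bk as k i i)).integrable
  have i4 : ∀ k ∈ Finset.range as.length, Integrable (fun g : Pairs n → ℝ =>
      remF (Ak (skM g) a as k) (Bk (skM g) as k)) (gpi (Pairs n)) := fun k _ =>
    (PG_remF a as k).integrable
  have i5 : ∀ k ∈ Finset.range as.length, Integrable (fun g : Pairs n → ℝ =>
      sdT (skM g) a as k) (gpi (Pairs n)) := fun k _ => (PG_sdT a as k).integrable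
  have i6 : ∀ k ∈ Finset.range as.length, Integrable (fun g : Pairs n → ℝ =>
      (∑ i, Ak (skM g) a as k i i) * (∑ j, Bk (skM g) as k j j)
        + remF (Ak (skM g) a as k) (Bk (skM g) as k)) (gpi (Pairs n)) :=
    fun k hk => (i3 k hk).add (i4 k hk)
  rw [integral_finsetSum _ i6, integral_finsetSum _ i5]
  have e3 : ∀ k ∈ Finset.range as.length, ∫ g, sdT (skM g) a as k ∂(gpi (Pairs n))
      = ((n : ℝ)⁻¹) ^ 2 * ∫ g, (∑ i, Ak (skM g) a as k i i) * (∑ j, Bk (skM g) as k j j)
        ∂(gpi (Pairs n)) := by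
    intro k _
    rw [← integral_const_mul]
    refine integral_congr_ae (Eventually.of_forall fun g => ?_)
    show trN (Ak (skM g) a as k) * trN (Bk (skM g) as k) = _
    unfold trN
    field_simp
  rw [Finset.sum_congr rfl e3, ← Finset.mul_sum]
  have e4 : ∑ k ∈ Finset.range as.length, ∫ g, ((∑ i, Ak (skM g) a as k i i)
      * (∑ j, Bk (skM g) as k j j) + remF (Ak (skM g) a as k) (Bk (skM g) as k)) ∂(gpi (Pairs n))
      = ∑ k ∈ Finset.range as.length, ∫ g, (∑ i, Ak (skM g) a as k i i)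
        * (∑ j, Bk (skM g) as k j j) ∂(gpi (Pairs n))
        + ∑ k ∈ Finset.range as.length, ∫ g, remF (Ak (skM g) a as k) (Bk (skM g) as k)
          ∂(gpi (Pairs n)) := by
    rw [← Finset.sum_add_distrib]
    exact Finset.sum_congr rfl fun k hk => integral_add (i3 k hk) (i4 k hk)
  rw [e4, show ((n : ℝ)⁻¹) ^ 2 = (n : ℝ)⁻¹ * ((Real.sqrt n)⁻¹ * (Real.sqrt n)⁻¹) by rw [hs]; ring]
  ring

/-- Cauchy-Schwarz for the remainder -/
lemma abs_remF_le (A B : Mat n) : |remF A B| ≤ 3 * (hs A * hs B) := by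
  have h1 : |∑ i, ∑ j, A i j * B i j| ≤ hs A * hs B := by
    rw [← Finset.sum_product' (s := Finset.univ) (t := Finset.univ)
      (f := fun i j => A i j * B i j)]
    refine abs_le_of_sq_le_sq ?_ (mul_nonneg (hs_nn A) (hs_nn B))
    rw [mul_pow, hs_sq, hs_sq]
    have := Finset.sum_mul_sq_le_sq_mul_sq (Finset.univ ×ˢ Finset.univ)
      (fun q : Fin n × Fin n => A q.1 q.2) (fun q => B q.1 q.2)
    rw [Finset.sum_product (f := fun q : Fin n × Fin n => A q.1 q.2 ^ 2),
      Finset.sum_product (f := fun q : Fin n × Fin n => B q.1 q.2 ^ 2)] at this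
    exact this
  have h2 : |∑ i, A i i * B i i| ≤ hs A * hs B := by
    refine abs_le_of_sq_le_sq ?_ (mul_nonneg (hs_nn A) (hs_nn B))
    rw [mul_pow, hs_sq, hs_sq]
    refine (Finset.sum_mul_sq_le_sq_mul_sq Finset.univ (fun i => A i i) (fun i => B i i)).trans ?_
    have hd : ∀ A : Mat n, ∑ i, A i i ^ 2 ≤ hsq A := fun A => by
      unfold hsq
      refine Finset.sum_le_sum fun i _ => ?_
      exact Finset.single_le_sum (f := fun j => A i j ^ 2) (fun j _ => sq_nonneg _)
        (Finset.mem_univ i)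
    exact mul_le_mul (hd A) (hd B) (Finset.sum_nonneg fun _ _ => sq_nonneg _) (hsq_nn A)
  unfold remF
  have h3 := abs_le.1 h1
  have h4 := abs_le.1 h2
  rw [abs_le]
  constructor <;> linarith [h3.1, h3.2, h4.1, h4.2]

end Vale.Agent.P150.F
end

section

set_option linter.all false

/-!
P150-FULL, module G1, third part: crude bounds, Lipschitz bounds, tails outside `‖J‖ ≤ 3`.
-/

open MeasureTheory ProbabilityTheory Filter Topology
open scoped Matrix

namespace Vale.Agent.P150.F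

variable {n : ℕ}

lemma hs_pow_le (J : Mat n) {j l : ℕ} (h : j ≤ l) : hs J ^ j ≤ (1 + hsq J) ^ l := by
  have h1 : hs J ≤ 1 + hsq J := by
    rw [← hs_sq]; (by_contra nlg; linarith only [mul_nonneg (sq_nonneg (hs J : ℝ)) (sq_nonneg (hs J : ℝ)), mul_nonneg (sq_nonneg (hs J : ℝ)) (le_of_lt (sub_pos.2 (not_le.1 nlg))), mul_nonneg (sq_nonneg (hs J : ℝ)) (sq_nonneg (hs J - 1)), mul_pos (sub_pos.2 (not_le.1 nlg)) (sub_pos.2 (not_le.1 nlg)), mul_nonneg (le_of_lt (sub_pos.2 (not_le.1 nlg))) (sq_nonneg (hs J - 1)), mul_nonneg (sq_nonneg (hs J - 1)) (sq_nonneg (hs J - 1))])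
  have h2 : 1 ≤ 1 + hsq J := le_add_of_nonneg_right (hsq_nn J)
  exact (pow_le_pow_left₀ (hs_nn J) h1 j).trans (pow_le_pow_right₀ h2 h)

lemma hs_dg_mul_le {a : Vec n} (ha : ∀ i, |a i| ≤ 1) (A : Mat n) : hs (dg a * A) ≤ hs A := by
  simpa using hs_mul_le zero_le_one (OpLe.dg ha) A

lemma getD_bdd {as : List (Vec n)} (h : Bdd as) (k : ℕ) (i : Fin n) : |as.getD k 0 i| ≤ 1 := by
  rcases lt_or_ge k as.length with hk | hk
  · rw [List.getD_eq_getElem _ _ hk]
    exact h _ (List.getElem_mem hk) i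
  · rw [List.getD_eq_default _ _ hk]
    simp

lemma take_len_le (as : List (Vec n)) (k : ℕ) : (as.take k).length ≤ as.length := by
  rw [List.length_take]; exact min_le_right _ _

lemma drop_len_le (as : List (Vec n)) (k : ℕ) : (as.drop k).length ≤ as.length := by
  rw [List.length_drop]; exact Nat.sub_le _ _

/-- bounds of the two factors under an operator bound -/
lemma hs_Ak_le {J : Mat n} {C : ℝ} (hC : 1 ≤ C) (hJ : OpLe J C) {a : Vec n} {as : List (Vec n)}
    (h : Bdd (a :: as)) (k : ℕ) : hs (Ak J a as k) ≤ C ^ as.length * √n := by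
  refine (hs_dg_mul_le h.head _).trans ((hs_word_le (zero_le_one.trans hC) hJ
    (h.of_cons.take k)).trans ?_)
  exact mul_le_mul_of_nonneg_right (pow_le_pow_right₀ hC (take_len_le as k)) (Real.sqrt_nonneg _)

lemma hs_Bk_le {J : Mat n} {C : ℝ} (hC : 1 ≤ C) (hJ : OpLe J C) {as : List (Vec n)}
    (h : Bdd as) (k : ℕ) : hs (Bk J as k) ≤ C ^ as.length * √n := by
  refine (hs_dg_mul_le (getD_bdd h k) _).trans ((hs_word_le (zero_le_one.trans hC) hJ
    (h.drop (k + 1))).trans ?_)
  exact mul_le_mul_of_nonneg_right (pow_le_pow_right₀ hC (drop_len_le as (k + 1)))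
    (Real.sqrt_nonneg _)

lemma hs_Ak_crude (J : Mat n) {a : Vec n} {as : List (Vec n)} (h : Bdd (a :: as)) (k : ℕ) :
    hs (Ak J a as k) ≤ (1 + hsq J) ^ as.length * √n := by
  refine (hs_dg_mul_le h.head _).trans ((hs_word_le_hs (h.of_cons.take k)).trans ?_)
  exact mul_le_mul_of_nonneg_right (hs_pow_le J (take_len_le as k)) (Real.sqrt_nonneg _)

lemma hs_Bk_crude (J : Mat n) {as : List (Vec n)} (h : Bdd as) (k : ℕ) :
    hs (Bk J as k) ≤ (1 + hsq J) ^ as.length * √n := by
  refine (hs_dg_mul_le (getD_bdd h k) _).trans ((hs_word_le_hs (h.drop (k + 1))).trans ?_)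
  exact mul_le_mul_of_nonneg_right (hs_pow_le J (drop_len_le as (k + 1))) (Real.sqrt_nonneg _)

lemma div_sqrt_le {x y : ℝ} (hx : x ≤ y * √n) (hy : 0 ≤ y) : x / √n ≤ y := by
  rcases Nat.eq_zero_or_pos n with h0 | h0
  · subst h0; simpa using hy
  · have : (0 : ℝ) < √n := Real.sqrt_pos.2 (by exact_mod_cast h0)
    rwa [div_le_iff₀ this]

lemma abs_trN_le_of_hs {A : Mat n} {y : ℝ} (hy : 0 ≤ y) (h : hs A ≤ y * √n) : |trN A| ≤ y :=
  (abs_trN_le A).trans (div_sqrt_le h hy)

/-- crude bound of the defect -/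
lemma abs_sdf_crude (J : Mat n) {as : List (Vec n)} (h : Bdd as) :
    |sdf J as| ≤ (as.length + 1) * (1 + hsq J) ^ (2 * as.length) := by
  have h0 : 1 ≤ 1 + hsq J := le_add_of_nonneg_right (hsq_nn J)
  have h00 : 0 ≤ 1 + hsq J := zero_le_one.trans h0
  cases as with
  | nil => simp [sdf]
  | cons a as =>
    have e1 : |trN (word J (a :: as))| ≤ (1 + hsq J) ^ (2 * (as.length + 1)) := by
      refine abs_trN_le_of_hs (by positivity) ((hs_word_le_hs h).trans ?_)
      refine mul_le_mul_of_nonneg_right (hs_pow_le J ?_) (Real.sqrt_nonneg _)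
      simp only [List.length_cons]; omega
    have e2 : ∀ k ∈ Finset.range as.length, |sdT J a as k| ≤ (1 + hsq J) ^ (2 * (as.length + 1)) := by
      intro k _
      show |trN (Ak J a as k) * trN (Bk J as k)| ≤ _
      rw [abs_mul]
      have h1 := abs_trN_le_of_hs (by positivity) (hs_Ak_crude J h k)
      have h2 := abs_trN_le_of_hs (by positivity) (hs_Bk_crude J h.of_cons k)
      calc _ ≤ (1 + hsq J) ^ as.length * (1 + hsq J) ^ as.length :=
            mul_le_mul h1 h2 (abs_nonneg _) (by positivity)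
        _ = (1 + hsq J) ^ (2 * as.length) := by rw [← pow_add, two_mul]
        _ ≤ _ := pow_le_pow_right₀ h0 (by omega)
    have e3 : |∑ k ∈ Finset.range as.length, sdT J a as k|
        ≤ as.length * (1 + hsq J) ^ (2 * (as.length + 1)) := by
      refine (Finset.abs_sum_le_sum_abs _ _).trans ((Finset.sum_le_sum e2).trans ?_)
      simp
    have e4 : 0 ≤ (1 + hsq J) ^ (2 * (as.length + 1)) := by positivity
    calc |sdf J (a :: as)| = |trN (word J (a :: as)) - ∑ k ∈ Finset.range as.length, sdT J a as k| :=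
          rfl
      _ ≤ |trN (word J (a :: as))| + |∑ k ∈ Finset.range as.length, sdT J a as k| := abs_sub _ _
      _ ≤ _ := by
        rw [List.length_cons]; push_cast; linarith only [e4, e3, e1]

/-- the Lipschitz constant -/
def KK (l : ℕ) : ℝ := 1 + l * 3 ^ l + l * (2 * (3 ^ l * (l * 3 ^ l)))

lemma KK_pos (l : ℕ) : 0 < KK l := by unfold KK; positivity

/-- the defect is Lipschitz on `‖J‖ ≤ 3` -/
lemma sdf_lip {J K : Mat n} (hJ : OpLe J 3) (hK : OpLe K 3) {l : ℕ} {as : List (Vec n)}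
    (hl : as.length ≤ l) (h : Bdd as) : |sdf J as - sdf K as| ≤ KK l * (hs (J - K) / √n) := by
  have h13 : (1 : ℝ) ≤ 3 := by norm_num
  have hx : 0 ≤ hs (J - K) / √n := div_nonneg (hs_nn _) (Real.sqrt_nonneg _)
  have hl' : (as.length : ℝ) ≤ l := by exact_mod_cast hl
  have mono : ∀ {x : ℕ}, x ≤ l → (x : ℝ) * 3 ^ x ≤ l * 3 ^ l := by
    intro x hx
    exact mul_le_mul (by exact_mod_cast hx) (pow_le_pow_right₀ h13 hx) (by positivity)
      (by positivity)
  cases as with
  | nil =>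
    simp only [sdf, sub_self, abs_zero]
    exact mul_nonneg (KK_pos l).le hx
  | cons a as =>
    have hl2 : as.length ≤ l := by simp only [List.length_cons] at hl; omega
    have e1 : |trN (word J (a :: as)) - trN (word K (a :: as))| ≤ l * 3 ^ l * (hs (J - K) / √n) := by
      rw [← trN_sub]
      refine (abs_trN_le _).trans ?_
      rw [← mul_div_assoc]
      refine div_le_div_of_nonneg_right ?_ (Real.sqrt_nonneg _)
      exact (hs_word_sub h13 hJ hK h).trans (mul_le_mul_of_nonneg_right (mono hl) (hs_nn _))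
    have eA : ∀ k, |trN (Ak J a as k) - trN (Ak K a as k)| ≤ l * 3 ^ l * (hs (J - K) / √n) := by
      intro k
      rw [← trN_sub]
      refine (abs_trN_le _).trans ?_
      rw [← mul_div_assoc]
      refine div_le_div_of_nonneg_right ?_ (Real.sqrt_nonneg _)
      have : Ak J a as k - Ak K a as k = dg a * (word J (as.take k) - word K (as.take k)) := by
        unfold Ak; rw [Matrix.mul_sub]
      rw [this]
      refine (hs_dg_mul_le h.head _).trans ((hs_word_sub h13 hJ hK (h.of_cons.take k)).trans ?_)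
      exact mul_le_mul_of_nonneg_right (mono ((take_len_le as k).trans hl2)) (hs_nn _)
    have eB : ∀ k, |trN (Bk J as k) - trN (Bk K as k)| ≤ l * 3 ^ l * (hs (J - K) / √n) := by
      intro k
      rw [← trN_sub]
      refine (abs_trN_le _).trans ?_
      rw [← mul_div_assoc]
      refine div_le_div_of_nonneg_right ?_ (Real.sqrt_nonneg _)
      have : Bk J as k - Bk K as k
          = dg (as.getD k 0) * (word J (as.drop (k + 1)) - word K (as.drop (k + 1))) := by
        unfold Bk; rw [Matrix.mul_sub]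
      rw [this]
      refine (hs_dg_mul_le (getD_bdd h.of_cons k) _).trans
        ((hs_word_sub h13 hJ hK (h.of_cons.drop (k + 1))).trans ?_)
      exact mul_le_mul_of_nonneg_right (mono ((drop_len_le as (k + 1)).trans hl2)) (hs_nn _)
    have tA : ∀ k, |trN (Ak K a as k)| ≤ 3 ^ l := fun k =>
      (abs_trN_le_of_hs (by positivity) (hs_Ak_le h13 hK h k)).trans
        (pow_le_pow_right₀ h13 hl2)
    have tB : ∀ k, |trN (Bk J as k)| ≤ 3 ^ l := fun k =>
      (abs_trN_le_of_hs (by positivity) (hs_Bk_le h13 hJ h.of_cons k)).trans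
        (pow_le_pow_right₀ h13 hl2)
    have e2 : ∀ k ∈ Finset.range as.length, |sdT J a as k - sdT K a as k|
        ≤ 2 * (3 ^ l * (l * 3 ^ l)) * (hs (J - K) / √n) := by
      intro k _
      have : sdT J a as k - sdT K a as k
          = (trN (Ak J a as k) - trN (Ak K a as k)) * trN (Bk J as k)
            + trN (Ak K a as k) * (trN (Bk J as k) - trN (Bk K as k)) := by
        show trN (Ak J a as k) * trN (Bk J as k) - trN (Ak K a as k) * trN (Bk K as k) = _
        ring
      rw [this]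
      refine (abs_add_le _ _).trans ?_
      rw [abs_mul, abs_mul]
      have h1 := mul_le_mul (eA k) (tB k) (abs_nonneg _) (by (clear * - hx; positivity))
      have h2 := mul_le_mul (tA k) (eB k) (abs_nonneg _) (by positivity)
      calc _ ≤ l * 3 ^ l * (hs (J - K) / √n) * 3 ^ l + 3 ^ l * (l * 3 ^ l * (hs (J - K) / √n)) :=
            add_le_add h1 h2
        _ = _ := by ring
    have e3 : |∑ k ∈ Finset.range as.length, sdT J a as k
        - ∑ k ∈ Finset.range as.length, sdT K a as k|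
        ≤ l * (2 * (3 ^ l * (l * 3 ^ l)) * (hs (J - K) / √n)) := by
      rw [← Finset.sum_sub_distrib]
      refine (Finset.abs_sum_le_sum_abs _ _).trans ((Finset.sum_le_sum e2).trans ?_)
      rw [Finset.sum_const, Finset.card_range, nsmul_eq_mul]
      exact mul_le_mul_of_nonneg_right (by exact_mod_cast hl2) (by (clear * - hx; positivity))
    have e5 : sdf J (a :: as) - sdf K (a :: as) = (trN (word J (a :: as)) - trN (word K (a :: as)))
        - (∑ k ∈ Finset.range as.length, sdT J a as k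
          - ∑ k ∈ Finset.range as.length, sdT K a as k) := by
      show (trN (word J (a :: as)) - ∑ k ∈ Finset.range as.length, sdT J a as k)
        - (trN (word K (a :: as)) - ∑ k ∈ Finset.range as.length, sdT K a as k) = _
      ring
    rw [e5]
    refine (abs_sub _ _).trans ((add_le_add e1 e3).trans ?_)
    unfold KK
    linarith only [hx]

/-- the event `‖J‖ ≤ 3` -/
def SOp (n : ℕ) : Set (Pairs n → ℝ) := {g | OpLe (skM g) 3}

lemma measurableSet_SOp (n : ℕ) : MeasurableSet (SOp n) := measurableSet_opLe 3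

lemma hsq_skM_le (hn : 0 < n) (g : Pairs n → ℝ) : 1 + hsq (skM g) ≤ 2 * (1 + ∑ p, g p ^ 2) := by
  rw [hsq_skM]
  have h1 : (1 : ℝ) ≤ n := by exact_mod_cast hn
  have h2 : 0 ≤ ∑ p, g p ^ 2 := Finset.sum_nonneg fun _ _ => sq_nonneg _
  have h3 : (2 : ℝ) / n ≤ 2 := by
    rw [div_le_iff₀ (by linarith only [h1])]; linarith only [h1]
  (by_contra nlg; linarith only [nlg, mul_nonneg (sub_nonneg.2 h2) (sub_nonneg.2 h3), mul_nonneg (mul_self_nonneg (1 : ℝ)) (le_of_lt (sub_pos.2 (not_le.1 nlg)))])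

lemma PG_crude (m : ℕ) : PG (fun g : Pairs n → ℝ => (1 + hsq (skM g)) ^ m) := by
  unfold hsq
  exact ((PG.const 1).add (PG.sum _ fun i _ => PG.sum _ fun j _ => (PG_skM i j).pow 2)).pow m

/-- exponential smallness outside `‖J‖ ≤ 3` beats polynomial growth -/
theorem tail_crude (m : ℕ) : ∃ T : ℕ → ℝ, Tendsto T atTop (𝓝 0) ∧ (∀ n, 0 ≤ T n) ∧
    ∀ᶠ n in atTop, ∫ g in (SOp n)ᶜ, (1 + hsq (skM g)) ^ m ∂(gpi (Pairs n)) ≤ T n := by
  obtain ⟨a, ha, N, hN⟩ := opLe_three
  obtain ⟨c, hc, hm⟩ := moment (2 * m)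
  refine ⟨fun n => (Real.exp (-(a / 2 * n)) * (2 ^ (2 * m) * (c * (1 + (n : ℝ) ^ 2) ^ (2 * m)))
    + Real.exp (-(a / 2 * n))) / 2, ?_, fun n => by positivity, ?_⟩
  · have h1 := tendsto_exp_lin (c := a / 2) (by positivity) (4 * m)
    have h2 := tendsto_exp_lin (c := a / 2) (by positivity) 0
    have h3 := (((h1.const_mul (2 ^ (2 * m) * (c * 2 ^ (2 * m)))).add h2).div_const 2)
    simp only [mul_zero, add_zero, zero_div] at h3
    refine squeeze_zero' (Eventually.of_forall fun n => by (clear * - hc; positivity)) ?_ h3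
    filter_upwards [eventually_ge_atTop 1] with n hn
    have hn1 : (1 : ℝ) ≤ n := by exact_mod_cast hn
    have e1 : (1 + (n : ℝ) ^ 2) ^ (2 * m) ≤ 2 ^ (2 * m) * (n : ℝ) ^ (4 * m) := by
      calc (1 + (n : ℝ) ^ 2) ^ (2 * m) ≤ (2 * (n : ℝ) ^ 2) ^ (2 * m) :=
            pow_le_pow_left₀ (by positivity) (by nlinarith) _
        _ = _ := by rw [mul_pow, ← pow_mul]; congr 2; ring
    have e2 : 0 ≤ Real.exp (-(a / 2 * n)) := (Real.exp_pos _).le
    refine div_le_div_of_nonneg_right (add_le_add ?_ ?_) zero_le_two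
    · calc Real.exp (-(a / 2 * n)) * (2 ^ (2 * m) * (c * (1 + (n : ℝ) ^ 2) ^ (2 * m)))
          ≤ Real.exp (-(a / 2 * n)) * (2 ^ (2 * m) * (c * (2 ^ (2 * m) * (n : ℝ) ^ (4 * m)))) := by
            refine mul_le_mul_of_nonneg_left (mul_le_mul_of_nonneg_left
              (mul_le_mul_of_nonneg_left e1 hc.le) (by positivity)) e2
        _ = 2 ^ (2 * m) * (c * 2 ^ (2 * m)) * ((n : ℝ) ^ (4 * m) * Real.exp (-(a / 2 * n))) := by
            ring
    · simp
  · filter_upwards [eventually_ge_atTop (max N 1)] with n hn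
    have hnN : N ≤ n := (le_max_left _ _).trans hn
    have hn1 : 0 < n := (le_max_right _ _).trans hn
    set lam : ℝ := Real.exp (-(a / 2 * n)) with hlam
    have hl0 : 0 < lam := Real.exp_pos _
    have hll : lam * lam = Real.exp (-(a * n)) := by
      rw [hlam, ← Real.exp_add]; congr 1; ring
    have hP : (gpi (Pairs n)).real (SOp n)ᶜ ≤ lam * lam := by
      rw [hll]; exact hN n hnN
    have hS := (measurableSet_SOp n).compl
    have i1 : Integrable (fun g : Pairs n → ℝ => (1 + hsq (skM g)) ^ m) (gpi (Pairs n)) :=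
      (PG_crude m).integrable
    have i2 : Integrable (fun g : Pairs n → ℝ => (1 + hsq (skM g)) ^ (2 * m)) (gpi (Pairs n)) :=
      (PG_crude (2 * m)).integrable
    have h1 : ∫ g in (SOp n)ᶜ, (1 + hsq (skM g)) ^ m ∂(gpi (Pairs n))
        ≤ ∫ g in (SOp n)ᶜ, (lam * (1 + hsq (skM g)) ^ (2 * m) + lam⁻¹) / 2 ∂(gpi (Pairs n)) := by
      refine setIntegral_mono i1.integrableOn
        (((i2.const_mul lam).add (integrable_const _)).div_const 2).integrableOn fun g => ?_
      have hx : (1 + hsq (skM g)) ^ (2 * m) = ((1 + hsq (skM g)) ^ m) ^ 2 := by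
        rw [← pow_mul, mul_comm]
      show (1 + hsq (skM g)) ^ m ≤ (lam * (1 + hsq (skM g)) ^ (2 * m) + lam⁻¹) / 2
      rw [hx]
      set y := (1 + hsq (skM g)) ^ m
      have : 0 ≤ lam * (y - lam⁻¹) ^ 2 := by positivity
      have h2 : lam * (y - lam⁻¹) ^ 2 = lam * y ^ 2 + lam⁻¹ - 2 * y := by
        field_simp
        ring
      linarith only [h2, this]
    refine h1.trans ?_
    have h3 : ∫ g in (SOp n)ᶜ, (lam * (1 + hsq (skM g)) ^ (2 * m) + lam⁻¹) / 2 ∂(gpi (Pairs n))
        = (lam * ∫ g in (SOp n)ᶜ, (1 + hsq (skM g)) ^ (2 * m) ∂(gpi (Pairs n))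
          + lam⁻¹ * (gpi (Pairs n)).real (SOp n)ᶜ) / 2 := by
      rw [integral_div, integral_add (i2.const_mul lam).integrableOn (integrable_const _),
        integral_const_mul, setIntegral_const, smul_eq_mul, mul_comm (lam⁻¹)]
    rw [h3]
    have h4 : ∫ g in (SOp n)ᶜ, (1 + hsq (skM g)) ^ (2 * m) ∂(gpi (Pairs n))
        ≤ 2 ^ (2 * m) * (c * (1 + (n : ℝ) ^ 2) ^ (2 * m)) := by
      have hpos : ∀ g : Pairs n → ℝ, 0 ≤ 1 + hsq (skM g) := fun g =>
        add_nonneg zero_le_one (hsq_nn _)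
      refine (setIntegral_le_integral i2 (Eventually.of_forall fun g =>
        pow_nonneg (hpos g) _)).trans ?_
      have h5 : ∫ g, (1 + hsq (skM g)) ^ (2 * m) ∂(gpi (Pairs n))
          ≤ ∫ g, 2 ^ (2 * m) * (1 + ∑ p, g p ^ 2) ^ (2 * m) ∂(gpi (Pairs n)) := by
        refine integral_mono i2 ((hm (Pairs n)).1.const_mul _) fun g => ?_
        show (1 + hsq (skM g)) ^ (2 * m) ≤ 2 ^ (2 * m) * (1 + ∑ p, g p ^ 2) ^ (2 * m)
        rw [← mul_pow]
        exact pow_le_pow_left₀ (hpos g) (hsq_skM_le hn1 g) _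
      refine h5.trans ?_
      rw [integral_const_mul]
      refine mul_le_mul_of_nonneg_left ((hm (Pairs n)).2.trans ?_) (by positivity)
      refine mul_le_mul_of_nonneg_left (pow_le_pow_left₀ (by (clear * -; positivity)) ?_ _) hc.le
      have := card_pairs n
      have h6 : (Fintype.card (Pairs n) : ℝ) ≤ (n : ℝ) ^ 2 := by exact_mod_cast this
      linarith only [h6]
    have h7 : lam⁻¹ * (gpi (Pairs n)).real (SOp n)ᶜ ≤ lam := by
      calc lam⁻¹ * (gpi (Pairs n)).real (SOp n)ᶜ ≤ lam⁻¹ * (lam * lam) :=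
            mul_le_mul_of_nonneg_left hP (by positivity)
        _ = lam := by field_simp
    have h8 := mul_le_mul_of_nonneg_left h4 hl0.le
    linarith only [h7, h8]

end Vale.Agent.P150.F
end

section

/-! Module G6d: bounded McShane extension and concentration of vector valued functions which are
Lipschitz on a set of large probability. -/

open MeasureTheory ProbabilityTheory Filter Topology
open scoped Matrix

namespace Vale.Agent.P150.F

variable {ι : Type*} [Fintype ι]

/-- bounded McShane extension -/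
theorem exists_ext_bdd {L a b : ℝ} (hL : 0 ≤ L) (hab : a ≤ b) {S : Set (ι → ℝ)}
    {f : (ι → ℝ) → ℝ} (hf : ∀ w ∈ S, ∀ w' ∈ S, |f w - f w'| ≤ L * ed w w')
    (hfb : ∀ w ∈ S, a ≤ f w ∧ f w ≤ b) :
    ∃ fe : (ι → ℝ) → ℝ, Lip L fe ∧ (∀ w ∈ S, fe w = f w) ∧ ∀ w, a ≤ fe w ∧ fe w ≤ b := by
  obtain ⟨g, hg, hgf⟩ := exists_ext hL hf
  refine ⟨fun w => max a (min (g w) b), fun w w' => ?_, fun w hw => ?_, fun w => ?_⟩
  · simp only
    rw [max_comm a, max_comm a]
    exact ((abs_max_sub_max_le_abs _ _ _).trans (abs_inf_sub_inf_le_abs _ _ _)).trans (hg w w')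
  · simp only
    rw [hgf w hw, min_eq_left (hfb w hw).2, max_eq_right (hfb w hw).1]
  · exact ⟨le_max_left _ _, max_le hab (min_le_right _ _)⟩

/-- G6d: vector concentration on a set -/
theorem G6d_conc (n : ℕ) (S : Set (Pairs n → ℝ)) (hS : MeasurableSet S) (δ : ℝ)
    (hδ : (disorder n Sᶜ).toReal ≤ δ) (V : (Pairs n → ℝ) → Vec n) (L M : ℝ) (hL : 0 < L)
    (hM : 0 ≤ M) (hV : ∀ g ∈ S, ∀ g' ∈ S, nv (V g - V g') ≤ L * ed g g')
    (hVM : ∀ g ∈ S, ∀ j, |V g j| ≤ M) (t : ℝ) (ht : 0 ≤ t) :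
    (disorder n {g | g ∈ S ∧ 2 * √n * L + 3 * M * √n * δ + t
      ≤ nv (V g - fun j => ∫ g' in S, V g' j ∂(disorder n))}).toReal
      ≤ Real.exp (-(t ^ 2 / (4 * L ^ 2))) := by
  have hdis : disorder n = gpi (Pairs n) := rfl
  rw [hdis] at hδ ⊢
  have hδ' : (gpi (Pairs n)).real Sᶜ ≤ δ := hδ
  have hδ0 : 0 ≤ δ := le_trans measureReal_nonneg hδ'
  have hSle : (gpi (Pairs n)).real S ≤ 1 := measureReal_le_one
  -- extensions of the coordinates
  have hVj : ∀ j, ∀ g ∈ S, ∀ g' ∈ S, |V g j - V g' j| ≤ L * ed g g' := fun j g hg g' hg' =>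
    (abs_le_nv (V g - V g') j).trans (hV g hg g' hg')
  choose Fe hFe1 hFe2 hFe3 using fun j => exists_ext_bdd (a := -M) (b := M) hL.le (by linarith)
    (hVj j) (fun w hw => abs_le.1 (hVM w hw j))
  set v : Vec n := fun j => ∫ g' in S, V g' j ∂(gpi (Pairs n)) with hv
  have hveq : ∀ j, v j = ∫ g' in S, Fe j g' ∂(gpi (Pairs n)) := fun j => by
    rw [hv]
    exact setIntegral_congr_fun hS fun g hg => (hFe2 j g hg).symm
  have hve : ∀ j, |∫ g, Fe j g ∂(gpi (Pairs n)) - v j| ≤ M * δ := fun j => by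
    rw [hveq]
    have h1 : ∫ g, Fe j g ∂(gpi (Pairs n)) - ∫ g' in S, Fe j g' ∂(gpi (Pairs n)) =
        ∫ g' in Sᶜ, Fe j g' ∂(gpi (Pairs n)) := by
      rw [← integral_add_compl hS (hFe1 j).integrable]
      ring
    rw [h1, ← Real.norm_eq_abs]
    refine (norm_setIntegral_le_of_norm_le_const (C := M) (measure_lt_top _ _) fun g _ => ?_).trans
      (mul_le_mul_of_nonneg_left hδ' hM)
    rw [Real.norm_eq_abs, abs_le]
    exact hFe3 j g
  have hvM : ∀ j, |v j| ≤ M := fun j => by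
    rw [hveq, ← Real.norm_eq_abs]
    refine (norm_setIntegral_le_of_norm_le_const (C := M) (measure_lt_top _ _) fun g _ => ?_).trans
      ?_
    · rw [Real.norm_eq_abs, abs_le]
      exact hFe3 j g
    · exact mul_le_of_le_one_right hM hSle
  -- the norm
  have hNl : ∀ g ∈ S, ∀ g' ∈ S, |nv (V g - v) - nv (V g' - v)| ≤ L * ed g g' := by
    intro g hg g' hg'
    refine le_trans ?_ (hV g hg g' hg')
    have h1 := nv_sub_triangle (V g) (V g') v
    have h2 := nv_sub_triangle (V g') (V g) v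
    rw [nv_sub_comm (V g') (V g)] at h2
    rw [abs_le]
    constructor <;> linarith
  have hNb : ∀ g ∈ S, 0 ≤ nv (V g - v) ∧ nv (V g - v) ≤ 2 * M * √n := by
    intro g hg
    refine ⟨nv_nonneg _, nv_le_sqrt (by linarith) fun j => ?_⟩
    have h1 := hVM g hg j
    have h2 := hvM j
    rw [Pi.sub_apply]
    calc |V g j - v j| ≤ |V g j| + |v j| := abs_sub _ _
      _ ≤ 2 * M := by linarith
  obtain ⟨Ne, hNe1, hNe2, hNe3⟩ := exists_ext_bdd (a := 0) (b := 2 * M * √n) hL.le
    (by (clear * - hM; positivity)) hNl hNb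
  -- mean of the norm
  have hE1 : ∫ g in S, Ne g ∂(gpi (Pairs n)) ≤ 2 * √n * L + √n * M * δ := by
    have hsq : (∫ g in S, Ne g ∂(gpi (Pairs n))) ^ 2 ≤ n * (4 * L ^ 2 + M ^ 2 * δ ^ 2) := by
      have a1 : ∫ g in S, Ne g ∂(gpi (Pairs n)) =
          ∫ g, S.indicator Ne g ∂(gpi (Pairs n)) := (integral_indicator hS).symm
      have hNi : Integrable (S.indicator Ne) (gpi (Pairs n)) := hNe1.integrable.indicator hS
      have hNi2 : Integrable (fun g => (S.indicator Ne g) ^ 2) (gpi (Pairs n)) := by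
        have : (fun g => (S.indicator Ne g) ^ 2) = S.indicator (fun g => Ne g ^ 2) := by
          funext g
          by_cases hg : g ∈ S
          · simp [Set.indicator_of_mem hg]
          · simp [Set.indicator_of_notMem hg]
        rw [this]
        exact hNe1.integrable_sq.indicator hS
      have a2 : (∫ g, S.indicator Ne g ∂(gpi (Pairs n))) ^ 2 ≤
          ∫ g, (S.indicator Ne g) ^ 2 ∂(gpi (Pairs n)) := by
        set I := ∫ g, S.indicator Ne g ∂(gpi (Pairs n)) with hI
        have b1 : 0 ≤ ∫ g, (S.indicator Ne g - I) ^ 2 ∂(gpi (Pairs n)) :=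
          integral_nonneg fun g => sq_nonneg _
        have b2 : ∫ g, (S.indicator Ne g - I) ^ 2 ∂(gpi (Pairs n)) =
            ∫ g, (S.indicator Ne g) ^ 2 ∂(gpi (Pairs n)) - I ^ 2 := by
          have b3 : ∀ g, (S.indicator Ne g - I) ^ 2 =
              (S.indicator Ne g) ^ 2 - 2 * I * S.indicator Ne g + I ^ 2 := fun g => by ring
          simp only [b3]
          have i2 : Integrable (fun g => 2 * I * S.indicator Ne g) (gpi (Pairs n)) :=
            hNi.const_mul _
          have i3 : Integrable (fun g => (S.indicator Ne g) ^ 2 - 2 * I * S.indicator Ne g)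
            (gpi (Pairs n)) := hNi2.sub i2
          rw [integral_add i3 (integrable_const _), integral_sub hNi2 i2, integral_const_mul, ← hI]
          simp
          ring
        linarith
      have hint : ∀ j, Integrable (fun g => (Fe j g - v j) ^ 2) (gpi (Pairs n)) := fun j => by
        have := ((hFe1 j).add_const (-(v j))).integrable_sq
        simpa [sub_eq_add_neg] using this
      have a3 : ∫ g, (S.indicator Ne g) ^ 2 ∂(gpi (Pairs n)) ≤
          ∫ g, ∑ j, (Fe j g - v j) ^ 2 ∂(gpi (Pairs n)) := by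
        refine integral_mono hNi2 (integrable_finsetSum _ fun j _ => hint j) fun g => ?_
        simp only
        by_cases hg : g ∈ S
        · rw [Set.indicator_of_mem hg, hNe2 g hg, nv_sq]
          unfold sq
          refine le_of_eq (Finset.sum_congr rfl fun j _ => ?_)
          rw [Pi.sub_apply, hFe2 j g hg]
        · rw [Set.indicator_of_notMem hg]
          have : 0 ≤ ∑ j, (Fe j g - v j) ^ 2 := Finset.sum_nonneg fun _ _ => sq_nonneg _
          simpa using this
      have a4 : ∀ j, ∫ g, (Fe j g - v j) ^ 2 ∂(gpi (Pairs n)) ≤ 4 * L ^ 2 + M ^ 2 * δ ^ 2 := by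
        intro j
        set E := ∫ g, Fe j g ∂(gpi (Pairs n)) with hE
        have b1 := (hFe1 j).var_le hL
        rw [← hE] at b1
        have b2 : ∀ g, (Fe j g - v j) ^ 2 = (Fe j g - E) ^ 2 + 2 * (E - v j) * (Fe j g - E)
            + (E - v j) ^ 2 := fun g => by ring
        have i1 : Integrable (fun g => (Fe j g - E) ^ 2) (gpi (Pairs n)) := by
          have := ((hFe1 j).add_const (-E)).integrable_sq
          simpa [sub_eq_add_neg] using this
        have i2 : Integrable (fun g => Fe j g - E) (gpi (Pairs n)) :=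
          (hFe1 j).integrable.sub (integrable_const _)
        have b3 : ∫ g, (Fe j g - v j) ^ 2 ∂(gpi (Pairs n)) =
            ∫ g, (Fe j g - E) ^ 2 ∂(gpi (Pairs n)) + (E - v j) ^ 2 := by
          simp only [b2]
          have i4 : Integrable (fun g => 2 * (E - v j) * (Fe j g - E)) (gpi (Pairs n)) :=
            i2.const_mul _
          have i3 : Integrable (fun g => (Fe j g - E) ^ 2 + 2 * (E - v j) * (Fe j g - E))
            (gpi (Pairs n)) := i1.add i4
          rw [integral_add i3 (integrable_const _), integral_add i1 i4, integral_const_mul,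
            integral_sub (hFe1 j).integrable (integrable_const _), ← hE]
          simp
        rw [b3]
        have b4 := hve j
        rw [← hE] at b4
        have b5 : (E - v j) ^ 2 ≤ (M * δ) ^ 2 := by
          rw [← sq_abs]
          exact pow_le_pow_left₀ (abs_nonneg _) b4 2
        rw [mul_pow] at b5
        linarith only [b5, b1]
      rw [a1]
      refine a2.trans (a3.trans ?_)
      rw [integral_finsetSum _ fun j _ => hint j]
      refine (Finset.sum_le_sum fun j _ => a4 j).trans (le_of_eq ?_)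
      rw [Finset.sum_const, Finset.card_univ, Fintype.card_fin, nsmul_eq_mul]
    have hn0 : (0 : ℝ) ≤ √n := Real.sqrt_nonneg _
    have hn1 : √(n : ℝ) ^ 2 = n := Real.sq_sqrt (Nat.cast_nonneg n)
    refine abs_le_of_sq_le_sq' ?_ (by (clear * - hL hM hδ0; positivity)) |>.2
    refine hsq.trans ?_
    have h0 : 0 ≤ √(n : ℝ) * L * (√n * M * δ) := by (clear * - hL hM hδ0; positivity)
    have h1 : (2 * √(n : ℝ) * L + √n * M * δ) ^ 2 =
        √(n : ℝ) ^ 2 * (4 * L ^ 2 + M ^ 2 * δ ^ 2) + 4 * (√(n : ℝ) * L * (√n * M * δ)) := by ring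
    rw [h1, hn1]
    linarith only [h0]
  have hE2 : ∫ g, Ne g ∂(gpi (Pairs n)) ≤ 2 * √n * L + 3 * M * √n * δ := by
    have h1 : ∫ g, Ne g ∂(gpi (Pairs n)) = ∫ g in S, Ne g ∂(gpi (Pairs n)) +
        ∫ g in Sᶜ, Ne g ∂(gpi (Pairs n)) := (integral_add_compl hS hNe1.integrable).symm
    have h2 : ∫ g in Sᶜ, Ne g ∂(gpi (Pairs n)) ≤ 2 * M * √n * δ := by
      refine (le_abs_self _).trans ?_
      rw [← Real.norm_eq_abs]
      refine (norm_setIntegral_le_of_norm_le_const (C := 2 * M * √n) (measure_lt_top _ _)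
        fun g _ => ?_).trans (mul_le_mul_of_nonneg_left hδ' (by (clear * - hM; positivity)))
      rw [Real.norm_eq_abs, abs_of_nonneg (hNe3 g).1]
      exact (hNe3 g).2
    rw [h1]
    linarith only [h2, hE1]
  refine le_trans ?_ (hNe1.tail hL ht)
  refine measureReal_mono fun g hg => ?_
  obtain ⟨hg1, hg2⟩ := hg
  show (∫ w', Ne w' ∂gpi (Pairs n)) + t ≤ Ne g
  rw [hNe2 g hg1]
  linarith only [hg2, hE2]

end Vale.Agent.P150.F
end

section

/-! Module G6c: second moments of the fluctuations of the quadratic forms. -/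

open MeasureTheory ProbabilityTheory Filter Topology
open scoped Matrix

namespace Vale.Agent.P150.F.G6c

variable {n : ℕ}

/-! ### measurability of matrix functions -/

section meas

variable {X : Type*} [MeasurableSpace X]

/-- entrywise measurable matrix functions -/
def MeasM (H : X → Mat n) : Prop := ∀ i j, Measurable fun s => H s i j

lemma MeasM.mul {H K : X → Mat n} (hH : MeasM H) (hK : MeasM K) :
    MeasM fun s => H s * K s := fun i j => by
  simp only [Matrix.mul_apply]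
  exact Finset.measurable_fun_sum _ fun k _ => (hH i k).mul (hK k j)

lemma MeasM.det {H : X → Mat n} (hH : MeasM H) : Measurable fun s => (H s).det := by
  simp only [Matrix.det_apply]
  refine Finset.measurable_fun_sum _ fun σ _ => ?_
  refine Measurable.const_smul ?_ _
  exact Finset.measurable_fun_prod _ fun k _ => hH _ _

lemma MeasM.adjugate {H : X → Mat n} (hH : MeasM H) :
    MeasM fun s => (H s).adjugate := fun i j => by
  simp only [Matrix.adjugate_apply]
  refine MeasM.det fun a b => ?_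
  simp only [Matrix.updateRow_apply]
  by_cases h : a = j
  · simp only [h, if_true]; exact measurable_const
  · simp only [h, if_false]; exact hH a b

lemma MeasM.inv {H : X → Mat n} (hH : MeasM H) : MeasM fun s => (H s)⁻¹ := fun i j => by
  simp only [Matrix.inv_def, Ring.inverse_eq_inv', Matrix.smul_apply, smul_eq_mul]
  exact hH.det.inv.mul (hH.adjugate i j)

end meas

lemma measM_mn (j : Fin n) : MeasM fun g : Pairs n → ℝ => mn j (skM g) := fun a b => by
  unfold mn skM
  by_cases h : a = j ∨ b = j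
  · simp only [h, if_true]; exact measurable_const
  · simp only [h, if_false]
    exact ((continuous_gsym a b).div_const _).measurable

lemma measM_Gm (r : ℝ) (m : Vec n) (j : Fin n) :
    MeasM fun g : Pairs n → ℝ => Gm r m (skM g) j := by
  unfold Gm
  refine MeasM.inv fun a b => ?_
  simp only [Matrix.sub_apply, Matrix.smul_apply, smul_eq_mul]
  exact measurable_const.sub ((measM_mn j a b).const_mul r)

lemma measM_MM (r : ℝ) (m : Vec n) (j : Fin n) (k : Fin 3) :
    MeasM fun g : Pairs n → ℝ => MM r m (skM g) j k := by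
  unfold MM
  have h := measM_Gm r m j
  split_ifs
  · exact h
  · exact h.mul h
  · exact (h.mul (measM_mn j)).mul h

/-! ### the good event of the minor is closed -/

lemma continuous_mn (j : Fin n) : Continuous fun g : Pairs n → ℝ => mn j (skM g) := by
  refine continuous_matrix fun a b => ?_
  unfold mn skM
  by_cases h : a = j ∨ b = j
  · simp only [h, if_true]; exact continuous_const
  · simp only [h, if_false]
    exact (continuous_gsym a b).div_const _

lemma measurableSet_SJ (c r : ℝ) (m : Vec n) (j : Fin n) : MeasurableSet (SJ c r m j) := by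
  have hA := continuous_mn (n := n) j
  have hB : Continuous fun g : Pairs n → ℝ => dg (aa r m) - r • mn j (skM g) := by
    fun_prop
  have h1 : IsClosed {g : Pairs n → ℝ | OpLe (mn j (skM g)) 3} := by
    have : {g : Pairs n → ℝ | OpLe (mn j (skM g)) 3}
        = ⋂ v : Vec n, {g | sq ((mn j (skM g)).mulVec v) ≤ 3 ^ 2 * sq v} := by
      ext x; simp [OpLe]
    rw [this]
    refine isClosed_iInter fun v => isClosed_le ?_ continuous_const
    have h : Continuous fun g : Pairs n → ℝ => (mn j (skM g)).mulVec v :=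
      hA.matrix_mulVec continuous_const
    unfold sq
    exact continuous_finsetSum _ fun i _ => ((continuous_apply i).comp h).pow 2
  have h2 : IsClosed {g : Pairs n → ℝ | Coer c (dg (aa r m) - r • mn j (skM g))} := by
    have : {g : Pairs n → ℝ | Coer c (dg (aa r m) - r • mn j (skM g))}
        = ⋂ v : Vec n, {g | c * sq v ≤ qf (dg (aa r m) - r • mn j (skM g)) v} := by
      ext x; simp [Coer]
    rw [this]
    refine isClosed_iInter fun v => isClosed_le continuous_const ?_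
    have h : Continuous fun g : Pairs n → ℝ => (dg (aa r m) - r • mn j (skM g)).mulVec v :=
      hB.matrix_mulVec continuous_const
    unfold qf ip
    exact continuous_finsetSum _ fun i _ => continuous_const.mul ((continuous_apply i).comp h)
  exact (h1.inter h2).measurableSet

/-! ### independence of the row -/

/-- the unordered pair of two distinct indices -/
def prs (i j : Fin n) (h : i ≠ j) : Pairs n :=
  if h' : i < j then ⟨(i, j), h'⟩ else ⟨(j, i), lt_of_le_of_ne (not_lt.1 h') h.symm⟩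

lemma gsym_eq_prs (g : Pairs n → ℝ) (i j : Fin n) (h : i ≠ j) : gsym g i j = g (prs i j h) := by
  unfold gsym prs
  rcases lt_trichotomy i j with h1 | h1 | h1
  · simp [h1]
  · exact absurd h1 h
  · simp [h1, h1.not_gt]

lemma prs_val (i j : Fin n) (h : i ≠ j) :
    (prs i j h).1 = (i, j) ∨ (prs i j h).1 = (j, i) := by
  unfold prs
  by_cases h1 : i < j
  · left; simp [h1]
  · right; simp [h1]

lemma prs_inj {i k j : Fin n} (hi : i ≠ j) (hk : k ≠ j) (h : prs i j hi = prs k j hk) : i = k := by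
  have h1 := congrArg Subtype.val h
  rcases prs_val i j hi with e | e <;> rcases prs_val k j hk with e' | e' <;>
    rw [e, e', Prod.mk.injEq] at h1
  · exact h1.1
  · exact absurd h1.1 hi
  · exact absurd h1.1.symm hk
  · exact h1.2

lemma prs_ne {i j a b : Fin n} (hi : i ≠ j) (hab : a ≠ b) (ha : a ≠ j) (hb : b ≠ j) :
    prs a b hab ≠ prs i j hi := by
  intro h
  have h1 := congrArg Subtype.val h
  rcases prs_val a b hab with e | e <;> rcases prs_val i j hi with e' | e' <;>
    rw [e, e', Prod.mk.injEq] at h1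
  · exact hb h1.2
  · exact ha h1.1
  · exact ha h1.2
  · exact hb h1.1

lemma mn_update (g : Pairs n → ℝ) {i j : Fin n} (hi : i ≠ j) (s : ℝ) :
    mn j (skM (Function.update g (prs i j hi) s)) = mn j (skM g) := by
  ext a b
  unfold mn skM
  by_cases h : a = j ∨ b = j
  · simp only [h, if_true]
  · simp only [h, if_false]
    push Not at h
    by_cases hab : a = b
    · subst hab; simp [gsym_self]
    · rw [gsym_eq_prs _ a b hab, gsym_eq_prs _ a b hab,
        Function.update_of_ne (prs_ne hi hab h.1 h.2)]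

/-! ### the second moment -/

/-- general estimate for a matrix function `M` supported on the event `E` -/
theorem xi_general {j : Fin n} (hn : 1 ≤ n) {E : Set (Pairs n → ℝ)} (hE : MeasurableSet E)
    (hEi : ∀ g i (hi : i ≠ j) s, Function.update g (prs i j hi) s ∈ E ↔ g ∈ E)
    {M : (Pairs n → ℝ) → Mat n} (hM : MeasM M)
    (hMi : ∀ g i (hi : i ≠ j) s, M (Function.update g (prs i j hi) s) = M g)
    (hMs : ∀ g, (M g)ᵀ = M g) {C : ℝ} (hC : 0 ≤ C) (hMC : ∀ g ∈ E, OpLe (M g) C) :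
    IntegrableOn (fun g => (ip (col (skM g) j) ((M g).mulVec (col (skM g) j)) - trN (M g)) ^ 2) E
      (disorder n) ∧
    ∫ g in E, (ip (col (skM g) j) ((M g).mulVec (col (skM g) j)) - trN (M g)) ^ 2 ∂(disorder n)
      ≤ 6 * C ^ 2 / n := by
  classical
  have hn' : (0 : ℝ) < n := by exact_mod_cast hn
  rw [disorder_eq]
  set S := {i : Fin n // i ≠ j} with hS
  set e : S → Pairs n := fun i => prs i.1 j i.2 with he
  have hinj : Function.Injective e := fun a b h => Subtype.ext (prs_inj a.2 b.2 h)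
  set M' : (Pairs n → ℝ) → S → S → ℝ := fun g i k => if g ∈ E then M g i.1 k.1 else 0 with hM'
  have hb : ∀ g i k, |M' g i k| ≤ C := by
    intro g i k
    simp only [hM']
    split_ifs with h
    · exact entry_le hC (hMC g h) _ _
    · simpa using hC
  have hm : ∀ i k, Measurable fun g => M' g i k := by
    intro i k
    simp only [hM']
    exact Measurable.ite hE (hM _ _) measurable_const
  have hs : ∀ g i k, M' g i k = M' g k i := by
    intro g i k
    simp only [hM']
    split_ifs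
    · exact congrFun (congrFun (hMs g) i.1) k.1 ▸ rfl
    · rfl
  have hi : ∀ g i s, M' (Function.update g (e i) s) = M' g := by
    intro g i s
    funext a b
    simp only [hM', he, hMi, hEi]
  have hq := qf_var e hinj M' hs hm hb hi
  -- polynomial class
  have pM : ∀ i k, Pol (fun g => M' g i k) := fun i k => Pol.of_bdd (hm i k) fun g => hb g i k
  have px : ∀ i : S, Pol (fun g : Pairs n → ℝ => g (e i)) := fun i => Pol.coord (e i)
  have pf : Pol (fun g => ∑ i, ∑ k, M' g i k * g (e i) * g (e k) - ∑ i, M' g i i) :=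
    (Pol.sum _ fun i _ => Pol.sum _ fun k _ => ((pM i k).mul (px i)).mul (px k)).sub
      (Pol.sum _ fun i _ => pM i i)
  -- the quadratic form
  have hcol : ∀ (g : Pairs n → ℝ) (i : S), col (skM g) j i.1 = g (e i) / Real.sqrt n := by
    intro g i
    simp only [col, skM, he, gsym_eq_prs g i.1 j i.2]
  have hsum : ∀ (f : Fin n → ℝ), ∑ i, f i = ∑ i : S, f i.1 + f j := by
    intro f
    have h1 := Fintype.sum_eq_add_sum_subtype_ne f j
    rw [h1, add_comm]
  have hquad : ∀ g ∈ E, ip (col (skM g) j) ((M g).mulVec (col (skM g) j)) - trN (M g)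
      = (∑ i, ∑ k, M' g i k * g (e i) * g (e k) - ∑ i, M' g i i) / n - M g j j / n := by
    intro g hg
    have hcj : col (skM g) j j = 0 := skM_diag g j
    have e1 : ip (col (skM g) j) ((M g).mulVec (col (skM g) j))
        = ∑ i : S, ∑ k : S, M' g i k * g (e i) * g (e k) / n := by
      unfold ip Matrix.mulVec dotProduct
      rw [hsum fun i => col (skM g) j i * ∑ k, M g i k * col (skM g) j k, hcj, zero_mul, add_zero]
      refine Finset.sum_congr rfl fun i _ => ?_
      rw [hsum fun k => M g i.1 k * col (skM g) j k, hcj, mul_zero, add_zero, Finset.mul_sum]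
      refine Finset.sum_congr rfl fun k _ => ?_
      rw [hcol, hcol]
      simp only [hM', if_pos hg]
      have h2 : Real.sqrt n * Real.sqrt n = n := Real.mul_self_sqrt hn'.le
      have h3 : Real.sqrt n ≠ 0 := (Real.sqrt_pos.2 hn').ne'
      field_simp
      rw [pow_two, h2]
      ring
    have e2 : trN (M g) = (∑ i : S, M' g i i) / n + M g j j / n := by
      unfold trN
      rw [hsum fun i => M g i i]
      simp only [hM', if_pos hg]
      ring
    rw [e1, e2]
    simp only [← Finset.sum_div]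
    ring
  have hpt : ∀ g ∈ E, (ip (col (skM g) j) ((M g).mulVec (col (skM g) j)) - trN (M g)) ^ 2
      ≤ 2 / n ^ 2 * (∑ i, ∑ k, M' g i k * g (e i) * g (e k) - ∑ i, M' g i i) ^ 2
        + 2 * C ^ 2 / n := by
    intro g hg
    rw [hquad g hg]
    set a := ∑ i, ∑ k, M' g i k * g (e i) * g (e k) - ∑ i, M' g i i
    have h1 : M g j j ^ 2 ≤ C ^ 2 := by
      rw [← sq_abs]
      exact pow_le_pow_left₀ (abs_nonneg _) (entry_le hC (hMC g hg) j j) 2
    have h2 : (a / n - M g j j / n) ^ 2 ≤ 2 * (a / n) ^ 2 + 2 * (M g j j / n) ^ 2 := by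
      linarith only [sq_nonneg (a / n + M g j j / n)]
    have h3 : (M g j j / n) ^ 2 ≤ C ^ 2 / n := by
      rw [div_pow, div_le_div_iff₀ (by positivity) hn']
      have h4 : (n : ℝ) ≤ (n : ℝ) ^ 2 := by
        have : (1 : ℝ) ≤ n := by exact_mod_cast hn
        (by_contra nlg; linarith only [mul_nonneg (sq_nonneg (↑n : ℝ)) (sub_nonneg.2 this), mul_pos (sub_pos.2 (not_le.1 nlg)) (sub_pos.2 hn')])
      have h5 : 0 ≤ C ^ 2 := sq_nonneg C
      calc M g j j ^ 2 * n ≤ C ^ 2 * n := mul_le_mul_of_nonneg_right h1 hn'.le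
        _ ≤ C ^ 2 * (n : ℝ) ^ 2 := mul_le_mul_of_nonneg_left h4 h5
    have h6 : 2 / (n : ℝ) ^ 2 * a ^ 2 = 2 * (a / n) ^ 2 := by ring
    have h7 : 2 * C ^ 2 / (n : ℝ) = 2 * (C ^ 2 / n) := by ring
    rw [h6, h7]
    linarith only [h3, h2]
  have hI : Integrable (fun g => 2 / (n : ℝ) ^ 2
      * (∑ i, ∑ k, M' g i k * g (e i) * g (e k) - ∑ i, M' g i i) ^ 2 + 2 * C ^ 2 / n)
      (gpi (Pairs n)) :=
    ((pf.pow 2).integrable.const_mul _).add (integrable_const _)
  -- second moment of the coefficients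
  have hcoef : ∀ g, ∑ i, ∑ k, M' g i k ^ 2 ≤ n * C ^ 2 := by
    intro g
    by_cases hg : g ∈ E
    · have h1 : ∑ i : S, ∑ k : S, M' g i k ^ 2 ≤ hsq (M g) := by
        unfold hsq
        rw [hsum fun i => ∑ k, M g i k ^ 2]
        have h2 : ∀ i : S, ∑ k : S, M' g i k ^ 2 ≤ ∑ k, M g i.1 k ^ 2 := by
          intro i
          rw [hsum fun k => M g i.1 k ^ 2]
          simp only [hM', if_pos hg]
          linarith only [sq_nonneg (M g i.1 j)]
        have h3 : 0 ≤ ∑ k, M g j k ^ 2 := Finset.sum_nonneg fun _ _ => sq_nonneg _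
        linarith only [Finset.sum_le_sum fun i (_ : i ∈ (Finset.univ : Finset S)) => h2 i, h3]
      have h4 := hsq_mul_le (hMC g hg) 1
      rw [Matrix.mul_one] at h4
      have h5 : hsq (1 : Mat n) = n := by
        rw [← hs_sq, hs_one, Real.sq_sqrt hn'.le]
      rw [h5] at h4
      linarith only [h4, h1]
    · have : ∑ i : S, ∑ k : S, M' g i k ^ 2 = 0 := by
        simp [hM', hg]
      rw [this]; (clear * - hn; positivity)
  have hcoefI : ∫ g, ∑ i, ∑ k, M' g i k ^ 2 ∂(gpi (Pairs n)) ≤ n * C ^ 2 := by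
    have h1 : Integrable (fun g => ∑ i, ∑ k, M' g i k ^ 2) (gpi (Pairs n)) :=
      (Pol.sum _ fun i _ => Pol.sum _ fun k _ => (pM i k).pow 2).integrable
    have h2 := integral_mono h1 (integrable_const (n * C ^ 2)) hcoef
    rwa [integral_const, probReal_univ, one_smul] at h2
  have hmeas : Measurable fun g =>
      (ip (col (skM g) j) ((M g).mulVec (col (skM g) j)) - trN (M g)) ^ 2 := by
    have hc : ∀ i, Measurable fun g : Pairs n → ℝ => col (skM g) j i := fun i => by
      unfold col skM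
      exact ((continuous_gsym i j).div_const _).measurable
    refine Measurable.pow_const (Measurable.sub ?_ ?_) 2
    · unfold ip Matrix.mulVec dotProduct
      exact Finset.measurable_fun_sum _ fun i _ => (hc i).mul
        (Finset.measurable_fun_sum _ fun k _ => (hM i k).mul (hc k))
    · unfold trN
      exact (Finset.measurable_fun_sum _ fun i _ => hM i i).div_const _
  have hIon : IntegrableOn (fun g =>
      (ip (col (skM g) j) ((M g).mulVec (col (skM g) j)) - trN (M g)) ^ 2) E (gpi (Pairs n)) := by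
    refine Integrable.mono' hI.integrableOn hmeas.aestronglyMeasurable ?_
    refine ae_restrict_of_forall_mem hE fun g hg => ?_
    rw [Real.norm_eq_abs, abs_of_nonneg (sq_nonneg _)]
    exact hpt g hg
  refine ⟨hIon, ?_⟩
  calc ∫ g in E, (ip (col (skM g) j) ((M g).mulVec (col (skM g) j)) - trN (M g)) ^ 2
        ∂(gpi (Pairs n))
      ≤ ∫ g in E, (2 / (n : ℝ) ^ 2
          * (∑ i, ∑ k, M' g i k * g (e i) * g (e k) - ∑ i, M' g i i) ^ 2 + 2 * C ^ 2 / n)
          ∂(gpi (Pairs n)) := setIntegral_mono_on hIon hI.integrableOn hE hpt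
    _ ≤ ∫ g, (2 / (n : ℝ) ^ 2
          * (∑ i, ∑ k, M' g i k * g (e i) * g (e k) - ∑ i, M' g i i) ^ 2 + 2 * C ^ 2 / n)
          ∂(gpi (Pairs n)) := by
        refine setIntegral_le_integral hI (ae_of_all _ fun g => ?_)
        simp only [Pi.zero_apply]
        (clear * - hn; positivity)
    _ = 2 / (n : ℝ) ^ 2 * (2 * ∫ g, ∑ i, ∑ k, M' g i k ^ 2 ∂(gpi (Pairs n)))
          + 2 * C ^ 2 / n := by
        rw [integral_add ((pf.pow 2).integrable.const_mul _) (integrable_const _),
          integral_const_mul, hq, integral_const, probReal_univ, one_smul]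
    _ ≤ 2 / (n : ℝ) ^ 2 * (2 * (n * C ^ 2)) + 2 * C ^ 2 / n := by gcongr
    _ = 6 * C ^ 2 / n := by field_simp; ring

theorem probStatement : ProbStatement := by
  intro c hc
  have hg : 0 ≤ 1 / c := by positivity
  set C : ℝ := 1 / c + 1 / c * (1 / c) + 1 / c * 3 * (1 / c) with hC
  have hC0 : 0 ≤ C := by positivity
  refine ⟨6 * C ^ 2, by positivity, fun n hn r _ _ m _ j k => ?_⟩
  refine ⟨measurableSet_SJ c r m j, ?_⟩
  have hsymm : ∀ g : Pairs n → ℝ, (MM r m (skM g) j k)ᵀ = MM r m (skM g) j k := by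
    intro g
    have h1 : (Gm r m (skM g) j)ᵀ = Gm r m (skM g) j :=
      inv_symm (ham_symm (mn_symm (skM_transpose g) j) (aa r m) r)
    unfold MM
    split_ifs
    · exact h1
    · rw [Matrix.transpose_mul, h1]
    · rw [Matrix.transpose_mul, Matrix.transpose_mul, h1, mn_symm (skM_transpose g) j,
        Matrix.mul_assoc]
  have hop : ∀ g ∈ SJ c r m j, OpLe (MM r m (skM g) j k) C := by
    rintro g ⟨h1, h2⟩
    have h3 : OpLe (Gm r m (skM g) j) (1 / c) := Coer.opLe_inv hc h2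
    have p1 : 0 ≤ 1 / c * (1 / c) := by positivity
    have p2 : 0 ≤ 1 / c * 3 * (1 / c) := by positivity
    unfold MM
    split_ifs
    · exact h3.mono hg (by rw [hC]; linarith only [p2])
    · exact (h3.mul h3).mono p1 (by rw [hC]; linarith only [hC0, hg])
    · exact ((h3.mul h1).mul h3).mono p2 (by rw [hC]; linarith only [hC0, hg])
  exact xi_general hn (measurableSet_SJ c r m j)
    (fun g i hi s => by simp only [SJ, Set.mem_ofPred_eq, mn_update])
    (measM_MM r m j k) (fun g i hi s => by simp only [MM, Gm, mn_update]) hsymm hC0 hop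

end Vale.Agent.P150.F.G6c
end

section

/-! From positive densities to all densities: if small `I'` implies small relative entropy for
positive laws, then also for laws which may vanish somewhere. -/

open Filter Topology

namespace Vale.Agent.P150.F

variable {n : ℕ}

namespace D8T

lemma sqrt_mix {a b t : ℝ} (ha : 0 ≤ a) (hb : 0 ≤ b) (ht : 0 ≤ t) (ht1 : t ≤ 1) :
    (√((1 - t) * a + t) - √((1 - t) * b + t)) * (√((1 - t) * a + t) - √((1 - t) * b + t))
      ≤ (1 - t) * ((√a - √b) * (√a - √b)) := by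
  have h1t : 0 ≤ 1 - t := by linarith
  have hA : 0 ≤ (1 - t) * a + t := add_nonneg (mul_nonneg h1t ha) ht
  have hB : 0 ≤ (1 - t) * b + t := add_nonneg (mul_nonneg h1t hb) ht
  have e1 := Real.mul_self_sqrt hA
  have e2 := Real.mul_self_sqrt hB
  have e3 := Real.mul_self_sqrt ha
  have e4 := Real.mul_self_sqrt hb
  have key : (1 - t) * (√a * √b) + t ≤ √((1 - t) * a + t) * √((1 - t) * b + t) := by
    rw [← Real.sqrt_mul hA]
    apply Real.le_sqrt_of_sq_le
    have h5 : 0 ≤ (√a - √b) ^ 2 := sq_nonneg _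
    have h6 : ((1 - t) * a + t) * ((1 - t) * b + t) - ((1 - t) * (√a * √b) + t) ^ 2
        = (1 - t) * t * (√a - √b) ^ 2 := by
      have e5 : ∀ u v : ℝ, ((1 - t) * (u * u) + t) * ((1 - t) * (v * v) + t)
          - ((1 - t) * (u * v) + t) ^ 2 = (1 - t) * t * (u - v) ^ 2 := by
        intro u v; ring
      have := e5 (√a) (√b)
      rwa [e3, e4] at this
    have h7 : 0 ≤ (1 - t) * t * (√a - √b) ^ 2 := mul_nonneg (mul_nonneg h1t ht) h5
    linarith
  linarith only [mul_nonneg (sub_nonneg.2 ht) (sub_nonneg.2 key), mul_eq_zero_of_left (sub_eq_zero.2 e1) (t - (0)), mul_eq_zero_of_left (sub_eq_zero.2 e2) (t - (0)), mul_nonneg (sub_nonneg.2 h1t) (sub_nonneg.2 key), mul_eq_zero_of_left (sub_eq_zero.2 e1) (1 - t - (0)), mul_eq_zero_of_left (sub_eq_zero.2 e2) (1 - t - (0)), mul_eq_zero_of_left (sub_eq_zero.2 e3) (1 - t - (0)), mul_eq_zero_of_left (sub_eq_zero.2 e4) (1 - t - (0))]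

/-- mixing with `μ` -/
lemma IP_mix {μ : Cfg n → ℝ} (hμ : ∀ x, 0 < μ x) {ν : Cfg n → ℝ} (hν : IsProb ν) {t : ℝ}
    (ht : 0 ≤ t) (ht1 : t ≤ 1) :
    IP' (fun x => (1 - t) * ν x + t * μ x) μ ≤ IP' ν μ := by
  unfold IP'
  have h1 := DirW_le hμ (f := fun x => √(((1 - t) * ν x + t * μ x) / μ x))
    (g := fun x => √(((1 - t) * ν x + t * μ x) / μ x))
    (f' := fun x => √(ν x / μ x)) (g' := fun x => √(ν x / μ x)) (1 - t) (by
      intro x y
      have e : ∀ x, ((1 - t) * ν x + t * μ x) / μ x = (1 - t) * (ν x / μ x) + t := by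
        intro x
        have := (hμ x).ne'
        field_simp
      rw [e x, e y]
      exact sqrt_mix (div_nonneg (hν.1 y) (hμ y).le) (div_nonneg (hν.1 x) (hμ x).le) ht ht1)
  refine h1.trans ?_
  have h2 : 0 ≤ DirW μ (fun x => √(ν x / μ x)) (fun x => √(ν x / μ x)) := DirW_sq_nonneg hμ _
  linarith only [mul_nonneg (sub_nonneg.2 ht) (sub_nonneg.2 h2)]

/-- from positive laws to all laws -/
theorem ext_pos {μ : Cfg n → ℝ} (hμ : ∀ x, 0 < μ x) (hμ1 : ∑ x, μ x = 1) {p q : ℝ}
    (h : ∀ ν, IsProb ν → (∀ x, 0 < ν x) → IP' ν μ ≤ p → KL ν μ ≤ q)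
    (ν : Cfg n → ℝ) (hν : IsProb ν) (hp : IP' ν μ ≤ p) : KL ν μ ≤ q := by
  set νt : ℝ → Cfg n → ℝ := fun t x => (1 - t) * ν x + t * μ x with hνt
  have h1 : ∀ t, 0 < t → t ≤ 1 → KL (νt t) μ ≤ q := by
    intro t ht ht1
    apply h
    · refine ⟨fun x => add_nonneg (mul_nonneg (by linarith) (hν.1 x))
        (mul_nonneg ht.le (hμ x).le), ?_⟩
      simp only [hνt, Finset.sum_add_distrib, ← Finset.mul_sum, hν.2, hμ1]
      ring
    · intro x
      exact add_pos_of_nonneg_of_pos (mul_nonneg (by linarith) (hν.1 x)) (mul_pos ht (hμ x))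
    · exact (IP_mix hμ hν ht.le ht1).trans hp
  have hcont : Continuous fun t : ℝ => KL (νt t) μ := by
    have e : (fun t : ℝ => KL (νt t) μ)
        = fun t => ∑ x, μ x * ((νt t x / μ x) * Real.log (νt t x / μ x)) := by
      funext t
      unfold KL
      refine Finset.sum_congr rfl fun x _ => ?_
      have := (hμ x).ne'
      field_simp
    rw [e]
    refine continuous_finsetSum _ fun x _ => ?_
    refine continuous_const.mul ?_
    have h2 : Continuous fun t : ℝ => νt t x / μ x := by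
      simp only [hνt]
      fun_prop
    exact Real.continuous_mul_log.comp h2
  have h0 : KL (νt 0) μ = KL ν μ := by
    congr 1
    funext x
    simp [hνt]
  rw [← h0]
  have h3 : Tendsto (fun t : ℝ => KL (νt t) μ) (𝓝[>] 0) (𝓝 (KL (νt 0) μ)) :=
    (hcont.tendsto 0).mono_left nhdsWithin_le_nhds
  refine le_of_tendsto h3 ?_
  have h4 : Set.Ioc (0 : ℝ) 1 ∈ 𝓝[>] (0 : ℝ) := Ioc_mem_nhdsGT one_pos
  filter_upwards [h4] with t ht
  exact h1 t ht.1 ht.2

end D8T

end Vale.Agent.P150.F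
end

section

/-! P150 FULL, D3M steps 2-3 (helper162): non-asymptotic core of the lower bound on
`E tr (Q Cov)` along the `J`-killing path. -/

open MeasureTheory ProbabilityTheory Filter Topology Real
open scoped Matrix

namespace Vale.Agent.P150.F.T23

open P245 (gsn EG1)

variable {n m : ℕ}

/-! ### continuous functions of the label with exponential growth -/

/-- continuous with exponential growth -/
def G (Φ : Vec n → ℝ) : Prop :=
  Continuous Φ ∧ ∃ C c : ℝ, 0 ≤ C ∧ 0 ≤ c ∧ ∀ z, |Φ z| ≤ C * Real.exp (c * ∑ i, |z i|)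

theorem G.const (c : ℝ) : G (fun _ : Vec n => c) :=
  ⟨continuous_const, |c|, 0, abs_nonneg _, le_rfl, fun z => by simp⟩

theorem G.of_bdd {Φ : Vec n → ℝ} (h : Continuous Φ) {C : ℝ} (hb : ∀ z, |Φ z| ≤ C) : G Φ := by
  refine ⟨h, C, 0, (abs_nonneg _).trans (hb 0), le_rfl, fun z => ?_⟩
  simpa using hb z

theorem G.coord (i : Fin n) : G (fun z : Vec n => z i) := by
  refine ⟨continuous_apply i, 1, 1, zero_le_one, zero_le_one, fun z => ?_⟩
  have h1 : |z i| ≤ ∑ j, |z j| :=
    Finset.single_le_sum (f := fun j => |z j|) (fun j _ => abs_nonneg _) (Finset.mem_univ i)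
  have h2 := Real.add_one_le_exp (∑ j, |z j|)
  rw [one_mul, one_mul]
  linarith [h2, h1]

theorem G.add {Φ Ψ : Vec n → ℝ} (h : G Φ) (h' : G Ψ) : G (fun z => Φ z + Ψ z) := by
  obtain ⟨hc, C, c, hC, hc0, hb⟩ := h
  obtain ⟨hc', C', c', hC', hc0', hb'⟩ := h'
  refine ⟨hc.add hc', C + C', c + c', add_nonneg hC hC', add_nonneg hc0 hc0', fun z => ?_⟩
  have hS : 0 ≤ ∑ i, |z i| := Finset.sum_nonneg fun i _ => abs_nonneg _
  have e1 : Real.exp (c * ∑ i, |z i|) ≤ Real.exp ((c + c') * ∑ i, |z i|) :=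
    Real.exp_le_exp.2 (mul_le_mul_of_nonneg_right (by linarith only [hc0']) hS)
  have e2 : Real.exp (c' * ∑ i, |z i|) ≤ Real.exp ((c + c') * ∑ i, |z i|) :=
    Real.exp_le_exp.2 (mul_le_mul_of_nonneg_right (by linarith only [hc0]) hS)
  calc |Φ z + Ψ z| ≤ |Φ z| + |Ψ z| := abs_add_le _ _
    _ ≤ C * Real.exp (c * ∑ i, |z i|) + C' * Real.exp (c' * ∑ i, |z i|) := add_le_add (hb z) (hb' z)
    _ ≤ C * Real.exp ((c + c') * ∑ i, |z i|) + C' * Real.exp ((c + c') * ∑ i, |z i|) :=
        add_le_add (mul_le_mul_of_nonneg_left e1 hC) (mul_le_mul_of_nonneg_left e2 hC')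
    _ = _ := by ring

theorem G.mul {Φ Ψ : Vec n → ℝ} (h : G Φ) (h' : G Ψ) : G (fun z => Φ z * Ψ z) := by
  obtain ⟨hc, C, c, hC, hc0, hb⟩ := h
  obtain ⟨hc', C', c', hC', hc0', hb'⟩ := h'
  refine ⟨hc.mul hc', C * C', c + c', mul_nonneg hC hC', add_nonneg hc0 hc0', fun z => ?_⟩
  calc |Φ z * Ψ z| = |Φ z| * |Ψ z| := abs_mul _ _
    _ ≤ (C * Real.exp (c * ∑ i, |z i|)) * (C' * Real.exp (c' * ∑ i, |z i|)) :=
        mul_le_mul (hb z) (hb' z) (abs_nonneg _) (mul_nonneg hC (Real.exp_pos _).le)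
    _ = C * C' * (Real.exp (c * ∑ i, |z i|) * Real.exp (c' * ∑ i, |z i|)) := by ring
    _ = _ := by rw [← Real.exp_add, add_mul]

theorem G.cmul {Φ : Vec n → ℝ} (h : G Φ) (c : ℝ) : G (fun z => c * Φ z) := (G.const c).mul h

theorem G.neg {Φ : Vec n → ℝ} (h : G Φ) : G (fun z => - Φ z) := by
  simpa using h.cmul (-1)

theorem G.sub {Φ Ψ : Vec n → ℝ} (h : G Φ) (h' : G Ψ) : G (fun z => Φ z - Ψ z) := by
  simpa [sub_eq_add_neg] using h.add h'.neg

theorem G.abs {Φ : Vec n → ℝ} (h : G Φ) : G (fun z => |Φ z|) := by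
  obtain ⟨hc, C, c, hC, hc0, hb⟩ := h
  exact ⟨hc.abs, C, c, hC, hc0, fun z => by rw [abs_abs]; exact hb z⟩

theorem G.sum {ι : Type*} (s : Finset ι) {Φ : ι → Vec n → ℝ} (h : ∀ k ∈ s, G (Φ k)) :
    G (fun z => ∑ k ∈ s, Φ k z) := by
  classical
  induction s using Finset.induction_on with
  | empty => simpa using G.const (n := n) 0
  | insert a s ha ih =>
    simp_rw [Finset.sum_insert ha]
    exact (h a (Finset.mem_insert_self _ _)).add
      (ih fun k hk => h k (Finset.mem_insert_of_mem hk))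

theorem G.pow {Φ : Vec n → ℝ} (h : G Φ) (k : ℕ) : G (fun z => Φ z ^ k) := by
  induction k with
  | zero => simpa using G.const (n := n) 1
  | succ k ih => simpa [pow_succ] using ih.mul h

theorem G.div_const {Φ : Vec n → ℝ} (h : G Φ) (c : ℝ) : G (fun z => Φ z / c) := by
  simpa [div_eq_mul_inv, mul_comm] using h.cmul c⁻¹

theorem G.tanh {Φ : Vec n → ℝ} (h : G Φ) : G (fun z => Real.tanh (Φ z)) := by
  have hc : Continuous Real.tanh := by
    have : Real.tanh = fun x => Real.sinh x / Real.cosh x := by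
      funext x; exact Real.tanh_eq_sinh_div_cosh x
    rw [this]
    exact Real.continuous_sinh.div Real.continuous_cosh fun x => (Real.cosh_pos x).ne'
  exact G.of_bdd (hc.comp h.1) (C := 1) fun z => (Real.abs_tanh_lt_one _).le

/-- the label has exponential moments -/
theorem G.int {Φ : Vec n → ℝ} (h : G Φ) (R : Matrix (Fin n) (Fin m) ℝ) (s : ℝ) (x : Cfg n) :
    Integrable (fun ξ => Φ (obs R s x ξ)) (gpi (Fin m)) := by
  obtain ⟨hc, C, c, hC, hc0, hb⟩ := h
  have hobs : Continuous (obs R s x) := by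
    unfold obs Matrix.mulVec dotProduct; fun_prop
  set A : ℝ := ∑ i, |s * (R * Rᵀ).mulVec (sv x) i| with hA
  set B : ℝ := √s * ∑ i, ∑ j, |R i j| with hB
  have key : ∀ ξ : Fin m → ℝ, ∑ i, |obs R s x ξ i| ≤ A + B * S1 ξ := by
    intro ξ
    have h1 : ∀ i, |obs R s x ξ i| ≤ |s * (R * Rᵀ).mulVec (sv x) i|
        + √s * ((∑ j, |R i j|) * S1 ξ) := by
      intro i
      unfold obs
      refine (abs_add_le _ _).trans (add_le_add le_rfl ?_)
      rw [abs_mul, abs_of_nonneg (Real.sqrt_nonneg s)]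
      refine mul_le_mul_of_nonneg_left ?_ (Real.sqrt_nonneg s)
      unfold Matrix.mulVec dotProduct
      refine (Finset.abs_sum_le_sum_abs _ _).trans ?_
      rw [Finset.sum_mul]
      refine Finset.sum_le_sum fun j _ => ?_
      rw [abs_mul]
      exact mul_le_mul_of_nonneg_left
        (Finset.single_le_sum (f := fun k => |ξ k|) (fun k _ => abs_nonneg _) (Finset.mem_univ j))
        (abs_nonneg _)
    refine (Finset.sum_le_sum fun i _ => h1 i).trans ?_
    rw [Finset.sum_add_distrib, hA, hB]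
    have : ∑ i, √s * ((∑ j, |R i j|) * S1 ξ) = √s * (∑ i, ∑ j, |R i j|) * S1 ξ := by
      rw [← Finset.mul_sum, ← Finset.sum_mul, mul_assoc]
    rw [this]
  rw [gpi_eq_gsn]
  refine (eg1_of_le (φ := fun ξ => Φ (obs R s x ξ)) (C := C * Real.exp (c * A)) (c := c * B)
    fun ξ => ?_).integrable (hc.comp hobs).aestronglyMeasurable
  refine (hb _).trans ?_
  rw [mul_assoc, ← Real.exp_add]
  refine mul_le_mul_of_nonneg_left (Real.exp_le_exp.2 ?_) hC
  have := mul_le_mul_of_nonneg_left (key ξ) hc0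
  linarith

/-! ### the AMP iterates and the posterior as functions of the label -/

theorem t_abs_sv (x : Cfg n) (i : Fin n) : |sv x i| = 1 := by
  unfold sv
  cases x i <;> simp [sp]

theorem t_succ (M : Mat n) (r : ℝ) (z : Vec n) (x : Cfg n) (k : ℕ) (i : Fin n) :
    ampM M r z x (k + 1) i = Real.tanh (ampA M r z x k i) := by
  cases k <;> rfl

theorem t_absM (M : Mat n) (r : ℝ) (z : Vec n) (x : Cfg n) (k : ℕ) (i : Fin n) :
    |ampM M r z x k i| ≤ 1 := by
  cases k with
  | zero => exact (t_abs_sv x i).le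
  | succ k => rw [t_succ]; exact (Real.abs_tanh_lt_one _).le

theorem g_qq {u : Vec n → Vec n} (h : ∀ i, G fun z => u z i) : G fun z => qq (u z) := by
  unfold qq sq
  exact (G.sum _ fun i _ => (h i).pow 2).div_const _

theorem g_sq {u : Vec n → Vec n} (h : ∀ i, G fun z => u z i) : G fun z => sq (u z) := by
  unfold sq
  exact G.sum _ fun i _ => (h i).pow 2

theorem g_ip {u v : Vec n → Vec n} (h : ∀ i, G fun z => u z i) (h' : ∀ i, G fun z => v z i) :
    G fun z => ip (u z) (v z) := by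
  unfold ip
  exact G.sum _ fun i _ => (h i).mul (h' i)

theorem g_mulVec (M : Mat n) {u : Vec n → Vec n} (h : ∀ i, G fun z => u z i) (i : Fin n) :
    G fun z => M.mulVec (u z) i := by
  unfold Matrix.mulVec dotProduct
  exact G.sum _ fun j _ => (h j).cmul _

theorem g_qf (M : Mat n) {u : Vec n → Vec n} (h : ∀ i, G fun z => u z i) :
    G fun z => qf M (u z) := by
  unfold qf
  exact g_ip h (g_mulVec M h)

theorem g_amp (M : Mat n) (r : ℝ) (x : Cfg n) (k : ℕ) :
    (∀ i, G fun z => ampM M r z x k i) ∧ (∀ i, G fun z => ampA M r z x k i) := by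
  induction k using Nat.strong_induction_on with
  | _ k ih =>
    cases k with
    | zero =>
      refine ⟨fun i => G.const _, fun i => ?_⟩
      exact (G.const (M.mulVec (sv x) i)).add (G.coord i)
    | succ k =>
      have h1 : ∀ i, G fun z => ampM M r z x (k + 1) i := by
        intro i
        simp_rw [t_succ]
        exact ((ih k (Nat.lt_succ_self k)).2 i).tanh
      refine ⟨h1, fun i => ?_⟩
      change G fun z => M.mulVec (ampM M r z x (k + 1)) i + z i
        - r ^ 2 * (1 - qq (ampM M r z x (k + 1))) * ampM M r z x k i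
      refine ((g_mulVec M h1 i).add (G.coord i)).sub ?_
      exact (((G.const 1).sub (g_qq h1)).cmul (r ^ 2)).mul ((ih k (Nat.lt_succ_self k)).1 i)

theorem g_pst {ν : Cfg n → ℝ} (hν : IsProb ν) (Q : Mat n) (s : ℝ) (x : Cfg n) :
    G fun z => pst ν Q s z x :=
  G.of_bdd (continuous_pst hν Q s x) (C := 1) fun z => by
    rw [abs_of_nonneg ((pst_isProb hν Q s z).1 x)]
    exact pst_le_one hν Q s z x

theorem g_mean {ν : Cfg n → ℝ} (hν : IsProb ν) (Q : Mat n) (s : ℝ) (i : Fin n) :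
    G fun z => mean (pst ν Q s z) i := by
  unfold mean
  exact G.sum _ fun x _ => (g_pst hν Q s x).mul (G.const _)

theorem t_abs_condMean {ν : Cfg n → ℝ} (hν : ∀ x, 0 ≤ ν x) (i : Fin n) (x : Cfg n) :
    |condMean ν i x| ≤ 1 := by
  unfold condMean
  have h1 := hν (Function.update x i true)
  have h2 := hν (Function.update x i false)
  rw [abs_div, abs_of_nonneg (add_nonneg h1 h2)]
  refine div_le_one_of_le₀ ?_ (add_nonneg h1 h2)
  rw [abs_le]
  constructor <;> linarith

theorem g_condMean {ν : Cfg n → ℝ} (hν : IsProb ν) (hp : ∀ x, 0 < ν x) (Q : Mat n) (s : ℝ)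
    (i : Fin n) (x : Cfg n) : G fun z => condMean (pst ν Q s z) i x := by
  refine G.of_bdd ?_ (C := 1) fun z => t_abs_condMean (pst_isProb hν Q s z).1 i x
  unfold condMean
  refine ((continuous_pst hν Q s _).sub (continuous_pst hν Q s _)).div
    ((continuous_pst hν Q s _).add (continuous_pst hν Q s _)) fun z => ?_
  exact (add_pos (pst_pos hν hp Q s z _) (pst_pos hν hp Q s z _)).ne'

theorem g_dlr {ν : Cfg n → ℝ} (hν : IsProb ν) (hp : ∀ x, 0 < ν x) (M Q : Mat n) (s : ℝ) :
    G fun z => dlr M z (pst ν Q s z) := by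
  unfold dlr
  refine G.sum _ fun x _ => (g_pst hν Q s x).mul (G.sum _ fun i _ => ?_)
  refine ((g_condMean hν hp Q s i x).sub ?_).pow 2
  exact ((G.const (M.mulVec (sv x) i - M i i * sv x i)).add (G.coord i)).tanh

theorem t_dlr_nonneg {ν : Cfg n → ℝ} (hν : ∀ x, 0 ≤ ν x) (M : Mat n) (y : Vec n) :
    0 ≤ dlr M y ν :=
  Finset.sum_nonneg fun x _ => mul_nonneg (hν x) (Finset.sum_nonneg fun _ _ => sq_nonneg _)

/-! ### expectations over the channel -/

section EC

variable {ν : Cfg n → ℝ} {R : Matrix (Fin n) (Fin m) ℝ} {s : ℝ}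

theorem ec_mono (hν : IsProb ν) {Φ Ψ : Cfg n → Vec n → ℝ} (h1 : ∀ x, G (Φ x))
    (h2 : ∀ x, G (Ψ x)) (h : ∀ x z, Φ x z ≤ Ψ x z) : EC ν R s Φ ≤ EC ν R s Ψ :=
  EC_mono hν.1 R s (fun x => (h1 x).int R s x) (fun x => (h2 x).int R s x) h

theorem ec_add {Φ Ψ : Cfg n → Vec n → ℝ} (h1 : ∀ x, G (Φ x)) (h2 : ∀ x, G (Ψ x)) :
    EC ν R s (fun x z => Φ x z + Ψ x z) = EC ν R s Φ + EC ν R s Ψ :=
  EC_add R s (fun x => (h1 x).int R s x) (fun x => (h2 x).int R s x)

theorem ec_sub {Φ Ψ : Cfg n → Vec n → ℝ} (h1 : ∀ x, G (Φ x)) (h2 : ∀ x, G (Ψ x)) :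
    EC ν R s (fun x z => Φ x z - Ψ x z) = EC ν R s Φ - EC ν R s Ψ := by
  have h3 := ec_add (ν := ν) (R := R) (s := s) h1 (fun x => (h2 x).cmul (-1))
  rw [EC_const_mul] at h3
  have e : (fun (x : Cfg n) (z : Vec n) => Φ x z - Ψ x z)
      = fun x z => Φ x z + -1 * Ψ x z := by
    funext x z; ring
  rw [e, h3]
  ring

theorem ec_abs (hν : IsProb ν) {Φ : Cfg n → Vec n → ℝ} (h1 : ∀ x, G (Φ x)) :
    |EC ν R s Φ| ≤ EC ν R s (fun x z => |Φ x z|) := by
  rw [abs_le]
  constructor
  · have h2 := ec_mono (R := R) (s := s) hν (fun x => (h1 x).abs.cmul (-1)) h1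
      (fun x z => by have := neg_abs_le (Φ x z); linarith)
    rw [EC_const_mul] at h2
    linarith
  · exact ec_mono hν h1 (fun x => (h1 x).abs) fun x z => le_abs_self _

/-- Bayes -/
theorem ec_bayes (hν : IsProb ν) (hs : 0 ≤ s) {Φ : Cfg n → Vec n → ℝ} (h1 : ∀ x, G (Φ x)) :
    EC ν R s Φ = EC ν R s (fun _ z => Ex (pst ν (R * Rᵀ) s z) (fun x => Φ x z)) :=
  thCH1 n m R s hs ν hν Φ fun x => (h1 x).int R s x

theorem g_Ex (hν : IsProb ν) (Q : Mat n) {Φ : Cfg n → Vec n → ℝ} (h1 : ∀ x, G (Φ x)) :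
    G fun z => Ex (pst ν Q s z) (fun x => Φ x z) := by
  unfold Ex
  exact G.sum _ fun x _ => (g_pst hν Q s x).mul (h1 x)

/-- **from labels to the joint law**: a uniform statement for near-DLR laws gives a statement in
mean over the labels. -/
theorem lift (hn : 0 < n) (hν : IsProb ν) (hp : ∀ x, 0 < ν x) (hs : 0 ≤ s) (M : Mat n)
    {Ψ : Cfg n → Vec n → ℝ} (hΨ : ∀ x, G (Ψ x)) {B η ε : ℝ} (hB : ∀ x z, Ψ x z ≤ B) (hB0 : 0 ≤ B)
    (hη : 0 < η) (hε : 0 ≤ ε)
    (h : ∀ z, dlr M z (pst ν (R * Rᵀ) s z) ≤ η * n →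
      Ex (pst ν (R * Rᵀ) s z) (fun x => Ψ x z) ≤ ε) :
    EC ν R s Ψ ≤ ε + B / (η * n) * EC ν R s (fun _ z => dlr M z (pst ν (R * Rᵀ) s z)) := by
  have hn' : (0 : ℝ) < n := by exact_mod_cast hn
  have e1 : ε + B / (η * n) * EC ν R s (fun _ z => dlr M z (pst ν (R * Rᵀ) s z))
      = EC ν R s (fun _ z => ε + B / (η * n) * dlr M z (pst ν (R * Rᵀ) s z)) := by
    rw [ec_add (fun _ => G.const ε) (fun _ => (g_dlr hν hp M _ s).cmul _), EC_const_mul,
      EC_const hν.2]
  rw [ec_bayes hν hs hΨ, e1]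
  refine ec_mono hν (fun _ => g_Ex hν _ hΨ) (fun _ => (G.const ε).add
    ((g_dlr hν hp M _ s).cmul _)) fun _ z => ?_
  have hP := pst_isProb hν (R * Rᵀ) s z
  have hd := t_dlr_nonneg hP.1 M z
  by_cases hz : dlr M z (pst ν (R * Rᵀ) s z) ≤ η * n
  · have := h z hz
    have h2 : 0 ≤ B / (η * n) * dlr M z (pst ν (R * Rᵀ) s z) := by (clear * - hB0 hη hn hd; positivity)
    linarith only [h2, this]
  · have h3 : Ex (pst ν (R * Rᵀ) s z) (fun x => Ψ x z) ≤ B := by
      unfold Ex
      calc ∑ x, pst ν (R * Rᵀ) s z x * Ψ x z ≤ ∑ x, pst ν (R * Rᵀ) s z x * B :=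
            Finset.sum_le_sum fun x _ => mul_le_mul_of_nonneg_left (hB x z) (hP.1 x)
        _ = B := by rw [← Finset.sum_mul, hP.2, one_mul]
    have h4 : B ≤ B / (η * n) * dlr M z (pst ν (R * Rᵀ) s z) := by
      rw [div_mul_eq_mul_div, le_div_iff₀ (by positivity)]
      exact mul_le_mul_of_nonneg_left (not_le.1 hz).le hB0
    linarith only [hε, h3, h4]

end EC

end Vale.Agent.P150.F.T23
end

section

/-! Exponential tilting on the product of the cube and a Gaussian space. -/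

open MeasureTheory ProbabilityTheory Real Set Filter Topology

namespace Vale.Agent.P150.F.TP

open D3 (EJ JL)

variable {n m : ℕ}

/-- expectation under the product of `μ` and the standard Gaussian law -/
noncomputable def P0 (μ : Cfg n → ℝ) (F : Cfg n → (Fin m → ℝ) → ℝ) : ℝ :=
  ∑ x, μ x * ∫ ξ, F x ξ ∂gpi (Fin m)

/-- tilted weights -/
noncomputable def tw (μ : Cfg n → ℝ) (κ : ℝ) (Φ : Cfg n → (Fin m → ℝ) → ℝ) :
    Cfg n → (Fin m → ℝ) → ℝ :=
  fun x ξ => μ x * Real.exp (κ * Φ x ξ) / P0 μ fun x ξ => Real.exp (κ * Φ x ξ)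

variable {μ : Cfg n → ℝ} {κ B : ℝ} {Φ : Cfg n → (Fin m → ℝ) → ℝ}

theorem P0_mono (hμ : ∀ x, 0 ≤ μ x) {F G : Cfg n → (Fin m → ℝ) → ℝ}
    (hF : ∀ x, Integrable (F x) (gpi (Fin m))) (hG : ∀ x, Integrable (G x) (gpi (Fin m)))
    (h : ∀ x ξ, F x ξ ≤ G x ξ) : P0 μ F ≤ P0 μ G :=
  Finset.sum_le_sum fun x _ => mul_le_mul_of_nonneg_left
    (integral_mono (hF x) (hG x) (h x)) (hμ x)

theorem P0_add {F G : Cfg n → (Fin m → ℝ) → ℝ}
    (hF : ∀ x, Integrable (F x) (gpi (Fin m))) (hG : ∀ x, Integrable (G x) (gpi (Fin m))) :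
    P0 μ (fun x ξ => F x ξ + G x ξ) = P0 μ F + P0 μ G := by
  unfold P0
  rw [← Finset.sum_add_distrib]
  refine Finset.sum_congr rfl fun x _ => ?_
  rw [integral_add (hF x) (hG x), mul_add]

theorem P0_const_mul (c : ℝ) (F : Cfg n → (Fin m → ℝ) → ℝ) :
    P0 μ (fun x ξ => c * F x ξ) = c * P0 μ F := by
  unfold P0
  rw [Finset.mul_sum]
  refine Finset.sum_congr rfl fun x _ => ?_
  rw [integral_const_mul]
  ring

theorem P0_const (hμ : IsProb μ) (c : ℝ) :
    P0 μ (fun _ (_ : Fin m → ℝ) => c) = c := by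
  unfold P0
  simp only [integral_const, probReal_univ, smul_eq_mul, one_mul]
  rw [← Finset.sum_mul, hμ.2, one_mul]

theorem EJ_tw (F : Cfg n → (Fin m → ℝ) → ℝ) : EJ (tw μ κ Φ) F =
    P0 μ (fun x ξ => Real.exp (κ * Φ x ξ) * F x ξ) / P0 μ (fun x ξ => Real.exp (κ * Φ x ξ)) := by
  unfold EJ tw
  set Z := P0 μ (fun x ξ => Real.exp (κ * Φ x ξ)) with hZ
  show ∑ x, ∫ ξ, μ x * Real.exp (κ * Φ x ξ) / Z * F x ξ ∂gpi (Fin m) =
    (∑ x, μ x * ∫ ξ, Real.exp (κ * Φ x ξ) * F x ξ ∂gpi (Fin m)) / Z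
  rw [Finset.sum_div]
  refine Finset.sum_congr rfl fun x _ => ?_
  rw [mul_div_right_comm, ← integral_const_mul]
  refine integral_congr_ae (ae_of_all _ fun ξ => ?_)
  simp only
  ring

section bdd

variable (hΦm : ∀ x, Measurable (Φ x)) (hΦ0 : ∀ x ξ, 0 ≤ Φ x ξ) (hΦB : ∀ x ξ, Φ x ξ ≤ B)

include hΦm hΦ0 hΦB

theorem integrable_exp_mul {F : (Fin m → ℝ) → ℝ} (hF : Integrable F (gpi (Fin m)))
    (κ : ℝ) (x : Cfg n) :
    Integrable (fun ξ => Real.exp (κ * Φ x ξ) * F ξ) (gpi (Fin m)) := by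
  refine hF.bdd_mul (c := Real.exp (|κ| * B)) ((hΦm x).const_mul κ).exp.aestronglyMeasurable
    (ae_of_all _ fun ξ => ?_)
  rw [Real.norm_eq_abs, abs_of_pos (Real.exp_pos _)]
  refine Real.exp_le_exp.2 ((le_abs_self _).trans ?_)
  rw [abs_mul, abs_of_nonneg (hΦ0 x ξ)]
  exact mul_le_mul_of_nonneg_left (hΦB x ξ) (abs_nonneg _)

theorem integrable_exp (κ : ℝ) (x : Cfg n) :
    Integrable (fun ξ => Real.exp (κ * Φ x ξ)) (gpi (Fin m)) := by
  have := integrable_exp_mul hΦm hΦ0 hΦB (integrable_const (1 : ℝ)) κ x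
  simpa using this

theorem integrable_phi (x : Cfg n) : Integrable (Φ x) (gpi (Fin m)) :=
  Integrable.of_bound (hΦm x).aestronglyMeasurable B (ae_of_all _ fun ξ => by
    rw [Real.norm_eq_abs, abs_of_nonneg (hΦ0 x ξ)]; exact hΦB x ξ)

theorem one_le_Z (hμ : IsProb μ) (hκ : 0 ≤ κ) : 1 ≤ P0 μ (fun x ξ => Real.exp (κ * Φ x ξ)) := by
  rw [← P0_const (m := m) hμ 1]
  refine P0_mono hμ.1 (fun x => integrable_const _) (integrable_exp hΦm hΦ0 hΦB κ) fun x ξ => ?_
  exact Real.one_le_exp (mul_nonneg hκ (hΦ0 x ξ))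

theorem Z_le (hμ : IsProb μ) (hκ : 0 ≤ κ) : P0 μ (fun x ξ => Real.exp (κ * Φ x ξ)) ≤
    Real.exp (κ * EJ (tw μ κ Φ) Φ) := by
  set Z := P0 μ (fun x ξ => Real.exp (κ * Φ x ξ)) with hZ
  have hZ1 := one_le_Z hΦm hΦ0 hΦB hμ hκ
  rw [← hZ] at hZ1
  set E := EJ (tw μ κ Φ) Φ with hE
  -- `1 = P0 (e^{κΦ} e^{-κΦ}) ≥ Z e^{-κE}`
  have h1 : P0 μ (fun x ξ => Real.exp (κ * Φ x ξ) * (Real.exp (-(κ * E)) *
      (1 + κ * E - κ * Φ x ξ))) ≤ P0 (m := m) μ (fun _ _ => 1) := by
    refine P0_mono hμ.1 (fun x => ?_) (fun x => integrable_const _) fun x ξ => ?_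
    · refine integrable_exp_mul hΦm hΦ0 hΦB ?_ κ x
      exact ((integrable_const _).sub ((integrable_phi hΦm hΦ0 hΦB x).const_mul κ)).const_mul _
    · have h2 := Real.add_one_le_exp (κ * E - κ * Φ x ξ)
      have h3 : Real.exp (κ * Φ x ξ) * (Real.exp (-(κ * E)) * Real.exp (κ * E - κ * Φ x ξ)) = 1 := by
        rw [← Real.exp_add, ← Real.exp_add]
        have h30 : κ * Φ x ξ + (-(κ * E) + (κ * E - κ * Φ x ξ)) = 0 := by ring
        rw [h30, Real.exp_zero]
      rw [← h3]
      refine mul_le_mul_of_nonneg_left (mul_le_mul_of_nonneg_left ?_ (Real.exp_pos _).le)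
        (Real.exp_pos _).le
      linarith only [h3, h2]
  rw [P0_const hμ] at h1
  have h4 : P0 μ (fun x ξ => Real.exp (κ * Φ x ξ) * (Real.exp (-(κ * E)) *
      (1 + κ * E - κ * Φ x ξ))) = Real.exp (-(κ * E)) * Z := by
    have h5 : (fun (x : Cfg n) (ξ : Fin m → ℝ) => Real.exp (κ * Φ x ξ) * (Real.exp (-(κ * E)) *
        (1 + κ * E - κ * Φ x ξ))) = fun x ξ => Real.exp (-(κ * E)) * (1 + κ * E) *
          Real.exp (κ * Φ x ξ) + (-(Real.exp (-(κ * E)) * κ)) * (Real.exp (κ * Φ x ξ) * Φ x ξ) := by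
      funext x ξ
      ring
    rw [h5, P0_add (fun x => (integrable_exp hΦm hΦ0 hΦB κ x).const_mul _)
      (fun x => (integrable_exp_mul hΦm hΦ0 hΦB (integrable_phi hΦm hΦ0 hΦB x) κ x).const_mul _),
      P0_const_mul, P0_const_mul]
    have h6 : P0 μ (fun x ξ => Real.exp (κ * Φ x ξ) * Φ x ξ) = E * Z := by
      rw [hE, EJ_tw, ← hZ, div_mul_cancel₀ _ (by linarith)]
    rw [h6, ← hZ]
    ring
  rw [h4, Real.exp_neg, inv_mul_le_iff₀ (Real.exp_pos _), mul_one] at h1
  exact h1

/-- **Tilted Markov inequality.** -/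
theorem tilt_markov (hμ : IsProb μ) (hκ : 0 ≤ κ) (e : ℝ) :
    ∑ x, μ x * (gpi (Fin m)).real {ξ | e ≤ Φ x ξ} ≤
      Real.exp (-(κ * (e - EJ (tw μ κ Φ) Φ))) := by
  have h1 : ∑ x, μ x * (gpi (Fin m)).real {ξ | e ≤ Φ x ξ} ≤
      Real.exp (-(κ * e)) * P0 μ (fun x ξ => Real.exp (κ * Φ x ξ)) := by
    unfold P0
    rw [Finset.mul_sum]
    refine Finset.sum_le_sum fun x _ => ?_
    have h2 := mul_meas_ge_le_integral_of_nonneg (μ := gpi (Fin m))
      (f := fun ξ => Real.exp (κ * Φ x ξ)) (ae_of_all _ fun ξ => (Real.exp_pos _).le)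
      (integrable_exp hΦm hΦ0 hΦB κ x) (Real.exp (κ * e))
    have h3 : (gpi (Fin m)).real {ξ | e ≤ Φ x ξ} ≤
        (gpi (Fin m)).real {ξ | Real.exp (κ * e) ≤ Real.exp (κ * Φ x ξ)} :=
      measureReal_mono fun ξ hξ => Real.exp_le_exp.2 (mul_le_mul_of_nonneg_left hξ hκ)
    have h4 : (gpi (Fin m)).real {ξ | e ≤ Φ x ξ} ≤
        Real.exp (-(κ * e)) * ∫ ξ, Real.exp (κ * Φ x ξ) ∂gpi (Fin m) := by
      rw [Real.exp_neg, ← div_eq_inv_mul, le_div_iff₀ (Real.exp_pos _)]
      have := mul_le_mul_of_nonneg_left h3 (Real.exp_pos (κ * e)).le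
      linarith
    calc μ x * (gpi (Fin m)).real {ξ | e ≤ Φ x ξ} ≤
        μ x * (Real.exp (-(κ * e)) * ∫ ξ, Real.exp (κ * Φ x ξ) ∂gpi (Fin m)) :=
          mul_le_mul_of_nonneg_left h4 (hμ.1 x)
      _ = _ := by ring
  refine h1.trans ((mul_le_mul_of_nonneg_left (Z_le hΦm hΦ0 hΦB hμ hκ)
    (Real.exp_pos _).le).trans (le_of_eq ?_))
  rw [← Real.exp_add]
  congr 1
  ring

/-- The tilted weights have total mass one. -/
theorem EJ_tw_one (hμ : IsProb μ) (hκ : 0 ≤ κ) : EJ (tw μ κ Φ) (fun _ _ => 1) = 1 := by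
  rw [EJ_tw]
  simp only [mul_one]
  have := one_le_Z hΦm hΦ0 hΦB hμ hκ
  exact div_self (by linarith)

theorem tw_nonneg (hμ : IsProb μ) (hκ : 0 ≤ κ) (x : Cfg n) (ξ : Fin m → ℝ) :
    0 ≤ tw μ κ Φ x ξ := by
  have := one_le_Z hΦm hΦ0 hΦB hμ hκ
  exact div_nonneg (mul_nonneg (hμ.1 x) (Real.exp_pos _).le) (by linarith)

/-- The tilted weights are a joint law. -/
theorem JL_tw (hμ : IsProb μ) (hκ : 0 ≤ κ) : JL (tw μ κ Φ) where
  nonneg := tw_nonneg hΦm hΦ0 hΦB hμ hκ
  meas x := (((hΦm x).const_mul κ).exp.const_mul (μ x)).div_const _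
  int x := ((integrable_exp hΦm hΦ0 hΦB κ x).const_mul (μ x)).div_const _
  one := by
    have h := EJ_tw_one hΦm hΦ0 hΦB hμ hκ
    unfold EJ at h
    simpa only [mul_one] using h

/-- **Entropy inequality** for the tilted weights. -/
theorem EJ_le_of_exp (hμ : IsProb μ) (hκ : 0 ≤ κ) {G : Cfg n → (Fin m → ℝ) → ℝ} {t A : ℝ}
    (ht : 0 < t) (hG : ∀ x, Integrable (G x) (gpi (Fin m)))
    (hGe : ∀ x, Integrable (fun ξ => Real.exp (t * G x ξ)) (gpi (Fin m)))
    (hA : ∀ x, ∫ ξ, Real.exp (t * G x ξ) ∂gpi (Fin m) ≤ Real.exp A) :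
    EJ (tw μ κ Φ) G ≤ (κ * B + A) / t := by
  set Z := P0 μ (fun x ξ => Real.exp (κ * Φ x ξ)) with hZ
  have hZ1 := one_le_Z hΦm hΦ0 hΦB hμ hκ
  rw [← hZ] at hZ1
  have hZ0 : 0 < Z := by linarith
  set E := EJ (tw μ κ Φ) G with hE
  have h0 : P0 μ (fun x ξ => Real.exp (κ * Φ x ξ) * G x ξ) = E * Z := by
    rw [hE, EJ_tw, ← hZ, div_mul_cancel₀ _ hZ0.ne']
  -- Jensen
  have h1 : Z * Real.exp (t * E) ≤ P0 μ (fun x ξ => Real.exp (κ * Φ x ξ) * Real.exp (t * G x ξ)) := by
    have h2 : P0 μ (fun x ξ => Real.exp (κ * Φ x ξ) * (Real.exp (t * E) *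
        (1 - t * E + t * G x ξ))) ≤
        P0 μ (fun x ξ => Real.exp (κ * Φ x ξ) * Real.exp (t * G x ξ)) := by
      refine P0_mono hμ.1 (fun x => ?_) (fun x => ?_) fun x ξ => ?_
      · exact integrable_exp_mul hΦm hΦ0 hΦB
          (((integrable_const _).add ((hG x).const_mul t)).const_mul _) κ x
      · exact integrable_exp_mul hΦm hΦ0 hΦB (hGe x) κ x
      · refine mul_le_mul_of_nonneg_left ?_ (Real.exp_pos _).le
        have h3 := Real.add_one_le_exp (t * G x ξ - t * E)
        have h4 : Real.exp (t * G x ξ) = Real.exp (t * E) * Real.exp (t * G x ξ - t * E) := by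
          rw [← Real.exp_add]; congr 1; ring
        rw [h4]
        exact mul_le_mul_of_nonneg_left (by linarith) (Real.exp_pos _).le
    refine le_trans (le_of_eq ?_) h2
    have h5 : (fun (x : Cfg n) (ξ : Fin m → ℝ) => Real.exp (κ * Φ x ξ) * (Real.exp (t * E) *
        (1 - t * E + t * G x ξ))) = fun x ξ => Real.exp (t * E) * (1 - t * E) *
          Real.exp (κ * Φ x ξ) + (Real.exp (t * E) * t) * (Real.exp (κ * Φ x ξ) * G x ξ) := by
      funext x ξ
      ring
    rw [h5, P0_add (fun x => (integrable_exp hΦm hΦ0 hΦB κ x).const_mul _)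
      (fun x => (integrable_exp_mul hΦm hΦ0 hΦB (hG x) κ x).const_mul _),
      P0_const_mul, P0_const_mul, h0, ← hZ]
    ring
  have h6 : P0 μ (fun x ξ => Real.exp (κ * Φ x ξ) * Real.exp (t * G x ξ)) ≤
      Real.exp (κ * B) * Real.exp A := by
    have h7 : P0 μ (fun x ξ => Real.exp (κ * Φ x ξ) * Real.exp (t * G x ξ)) ≤
        P0 μ (fun x ξ => Real.exp (κ * B) * Real.exp (t * G x ξ)) := by
      refine P0_mono hμ.1 (fun x => integrable_exp_mul hΦm hΦ0 hΦB (hGe x) κ x)
        (fun x => (hGe x).const_mul _) fun x ξ => ?_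
      exact mul_le_mul_of_nonneg_right (Real.exp_le_exp.2
        (mul_le_mul_of_nonneg_left (hΦB x ξ) hκ)) (Real.exp_pos _).le
    refine h7.trans ?_
    rw [P0_const_mul]
    refine mul_le_mul_of_nonneg_left ?_ (Real.exp_pos _).le
    unfold P0
    calc ∑ x, μ x * ∫ ξ, Real.exp (t * G x ξ) ∂gpi (Fin m) ≤ ∑ x, μ x * Real.exp A :=
          Finset.sum_le_sum fun x _ => mul_le_mul_of_nonneg_left (hA x) (hμ.1 x)
      _ = Real.exp A := by rw [← Finset.sum_mul, hμ.2, one_mul]
  have h8 : Real.exp (t * E) ≤ Real.exp (κ * B + A) := by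
    rw [Real.exp_add]
    have h9 : 1 * Real.exp (t * E) ≤ Z * Real.exp (t * E) :=
      mul_le_mul_of_nonneg_right hZ1 (Real.exp_pos _).le
    linarith only [h9, h6, h1]
  rw [Real.exp_le_exp] at h8
  rw [le_div_iff₀ ht]
  linarith

end bdd

end Vale.Agent.P150.F.TP
end

section

/-! P150 FULL, D6: bounds for the second-order expansion of the displacement (helper645). -/

open MeasureTheory ProbabilityTheory Filter Topology
open scoped Matrix

namespace Vale.Agent.P150.F

variable {n : ℕ}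

/-! ### polynomial growth -/

/-- coordinates of polynomial growth -/
def PGV (f : Vec n → Vec n) : Prop := ∀ i, PG fun ξ => f ξ i

theorem PGV.const (a : Vec n) : PGV (fun _ : Vec n => a) := fun i => PG.const (a i)

theorem PGV.id : PGV (fun ξ : Vec n => ξ) := fun i => PG.coord i

theorem PGV.add {f g : Vec n → Vec n} (hf : PGV f) (hg : PGV g) : PGV (fun ξ => f ξ + g ξ) :=
  fun i => (hf i).add (hg i)

theorem PGV.sub {f g : Vec n → Vec n} (hf : PGV f) (hg : PGV g) : PGV (fun ξ => f ξ - g ξ) :=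
  fun i => (hf i).sub (hg i)

theorem PGV.smul {f : Vec n → Vec n} {c : Vec n → ℝ} (hc : PG c) (hf : PGV f) :
    PGV (fun ξ => c ξ • f ξ) :=
  fun i => hc.mul (hf i)

theorem PGV.mulVec {f : Vec n → Vec n} (A : Mat n) (hf : PGV f) :
    PGV (fun ξ => A.mulVec (f ξ)) := fun i => by
  have h : PG fun ξ => ∑ j, A i j * f ξ j := PG.sum _ fun j _ => (hf j).const_mul (A i j)
  exact h

theorem PGV.ip {f : Vec n → Vec n} (u : Vec n) (hf : PGV f) : PG (fun ξ => ip u (f ξ)) :=
  PG.sum _ fun j _ => (hf j).const_mul (u j)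

theorem PGV.sq {f : Vec n → Vec n} (hf : PGV f) : PG (fun ξ => sq (f ξ)) :=
  PG.sum _ fun j _ => (hf j).pow 2

theorem pgv_eps (δ : ℝ) (R : Mat n) (a : Vec n) : PGV fun ξ => δ • a + √δ • R.mulVec ξ :=
  (PGV.const _).add (PGV.smul (PG.const _) (PGV.mulVec R PGV.id))

theorem pgv_disp2 {f : Vec n → Vec n} (hf : PGV f) (r : ℝ) (B G : Mat n) (m : Vec n) :
    PGV fun ξ => disp2 r B G m (f ξ) := by
  have hG : PGV fun ξ => G.mulVec (f ξ) := hf.mulVec G
  have hP : PGV fun ξ => f ξ - B.mulVec (G.mulVec (f ξ)) := hf.sub (hG.mulVec B)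
  unfold disp2
  refine PGV.mulVec G ?_
  refine PGV.add (PGV.add (PGV.sub hf ?_) ?_) ?_
  · exact fun i => ((hP i).pow 2).const_mul (m i)
  · exact PGV.smul ((hG.ip m).const_mul _) hG
  · exact PGV.smul (hG.sq.const_mul _) (PGV.const m)

/-! ### bounds -/

/-- the constant in the bound of `disp2` -/
noncomputable def dK (n : ℕ) (C : ℝ) : ℝ :=
  C * (1 + (1 + C * C) ^ 2 + 2 / n * √n * C ^ 2 + 1 / n * C ^ 2 * √n)

theorem dK_nonneg {C : ℝ} (hC : 0 ≤ C) : 0 ≤ dK n C := by
  unfold dK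
  positivity

/-- the quadratic part of the expansion -/
noncomputable def quadP (r : ℝ) (B G : Mat n) (m e : Vec n) : Vec n :=
  (2 * r ^ 2 / n * ip m (G.mulVec e)) • G.mulVec e + (r ^ 2 / n * sq (G.mulVec e)) • m
    - (fun i => m i * ((e - B.mulVec (G.mulVec e)) i) ^ 2)

theorem disp2_eq (r : ℝ) (B G : Mat n) (m e : Vec n) :
    disp2 r B G m e = G.mulVec e + G.mulVec (quadP r B G m e) := by
  unfold disp2 quadP
  rw [← Matrix.mulVec_add]
  congr 1
  abel

theorem quadP_bd {r C : ℝ} {B G : Mat n} {m : Vec n} (hr : r ∈ Set.Icc (0 : ℝ) 1) (hC : 0 ≤ C)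
    (hB : OpLe B C) (hG : OpLe G C) (hm : ∀ i, |m i| ≤ 1) (e : Vec n) :
    nv (quadP r B G m e)
      ≤ ((1 + C * C) ^ 2 + 2 / n * √n * C ^ 2 + 1 / n * C ^ 2 * √n) * nv e ^ 2 := by
  have hn0 : (0 : ℝ) ≤ n := Nat.cast_nonneg n
  have hg : nv (G.mulVec e) ≤ C * nv e := hG.nv_le hC e
  have hg0 := nv_nonneg (G.mulVec e)
  have he0 := nv_nonneg e
  have hmn := nv_le_sqrt_n hm
  have hr2 : r ^ 2 ≤ 1 := pow_le_one₀ hr.1 hr.2
  have hsn := Real.sqrt_nonneg (n : ℝ)
  have hg2 : nv (G.mulVec e) ^ 2 ≤ C ^ 2 * nv e ^ 2 := by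
    rw [← mul_pow]
    exact pow_le_pow_left₀ hg0 hg 2
  have h1 : nv (fun i => m i * ((e - B.mulVec (G.mulVec e)) i) ^ 2) ≤ (1 + C * C) ^ 2 * nv e ^ 2 := by
    have hP : nv (e - B.mulVec (G.mulVec e)) ≤ (1 + C * C) * nv e := by
      refine (nv_sub_le _ _).trans ?_
      have h2 : nv (B.mulVec (G.mulVec e)) ≤ C * (C * nv e) :=
        (hB.nv_le hC _).trans (mul_le_mul_of_nonneg_left hg hC)
      linarith
    have h3 : nv (fun i => m i * ((e - B.mulVec (G.mulVec e)) i) ^ 2)
        ≤ nv (fun i => (e - B.mulVec (G.mulVec e)) i * (e - B.mulVec (G.mulVec e)) i) := by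
      refine nv_mono fun i => ?_
      rw [abs_mul, ← pow_two, abs_of_nonneg (sq_nonneg ((e - B.mulVec (G.mulVec e)) i))]
      exact mul_le_of_le_one_left (sq_nonneg _) (hm i)
    refine (h3.trans (nv_mul_le _ _)).trans ?_
    calc nv (e - B.mulVec (G.mulVec e)) * nv (e - B.mulVec (G.mulVec e))
        ≤ ((1 + C * C) * nv e) * ((1 + C * C) * nv e) :=
          mul_le_mul hP hP (nv_nonneg _) (by (clear * - hC he0; positivity))
      _ = (1 + C * C) ^ 2 * nv e ^ 2 := by ring
  have h2 : nv ((2 * r ^ 2 / n * ip m (G.mulVec e)) • G.mulVec e)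
      ≤ 2 / n * √n * C ^ 2 * nv e ^ 2 := by
    rw [nv_smul, abs_mul, abs_of_nonneg (by (clear * -; positivity) : (0 : ℝ) ≤ 2 * r ^ 2 / n)]
    have h3 : |ip m (G.mulVec e)| ≤ √n * nv (G.mulVec e) :=
      (abs_ip_le _ _).trans (mul_le_mul_of_nonneg_right hmn hg0)
    have h4 : 2 * r ^ 2 / n ≤ 2 / n := by
      refine div_le_div_of_nonneg_right ?_ hn0
      linarith only [hr2]
    calc 2 * r ^ 2 / n * |ip m (G.mulVec e)| * nv (G.mulVec e)
        ≤ 2 / n * (√n * nv (G.mulVec e)) * nv (G.mulVec e) := by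
          refine mul_le_mul_of_nonneg_right ?_ hg0
          exact mul_le_mul h4 h3 (abs_nonneg _) (by positivity)
      _ = 2 / n * √n * nv (G.mulVec e) ^ 2 := by ring
      _ ≤ 2 / n * √n * (C ^ 2 * nv e ^ 2) := mul_le_mul_of_nonneg_left hg2 (by (clear * -; positivity))
      _ = 2 / n * √n * C ^ 2 * nv e ^ 2 := by ring
  have h3 : nv ((r ^ 2 / n * sq (G.mulVec e)) • m) ≤ 1 / n * C ^ 2 * √n * nv e ^ 2 := by
    rw [nv_smul, ← nv_sq, abs_of_nonneg (by (clear * -; positivity))]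
    have h4 : r ^ 2 / n ≤ 1 / n := div_le_div_of_nonneg_right hr2 hn0
    calc r ^ 2 / n * nv (G.mulVec e) ^ 2 * nv m
        ≤ 1 / n * (C ^ 2 * nv e ^ 2) * √n :=
          mul_le_mul (mul_le_mul h4 hg2 (sq_nonneg _) (by positivity)) hmn (nv_nonneg m)
            (by (clear * -; positivity))
      _ = _ := by ring
  unfold quadP
  have h4 := nv_sub_le ((2 * r ^ 2 / n * ip m (G.mulVec e)) • G.mulVec e
    + (r ^ 2 / n * sq (G.mulVec e)) • m) (fun i => m i * ((e - B.mulVec (G.mulVec e)) i) ^ 2)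
  have h5 := nv_add_le ((2 * r ^ 2 / n * ip m (G.mulVec e)) • G.mulVec e)
    ((r ^ 2 / n * sq (G.mulVec e)) • m)
  calc _ ≤ _ := h4
    _ ≤ (2 / n * √n * C ^ 2 * nv e ^ 2 + 1 / n * C ^ 2 * √n * nv e ^ 2)
        + (1 + C * C) ^ 2 * nv e ^ 2 := add_le_add (h5.trans (add_le_add h2 h3)) h1
    _ = _ := by ring

theorem disp2_bd {r C : ℝ} {B G : Mat n} {m : Vec n} (hr : r ∈ Set.Icc (0 : ℝ) 1) (hC : 0 ≤ C)
    (hB : OpLe B C) (hG : OpLe G C) (hm : ∀ i, |m i| ≤ 1) (e : Vec n) :
    nv (disp2 r B G m e) ≤ dK n C * (nv e + nv e ^ 2) := by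
  rw [disp2_eq]
  have h1 := hG.nv_le hC e
  have h2 := (hG.nv_le hC (quadP r B G m e)).trans
    (mul_le_mul_of_nonneg_left (quadP_bd hr hC hB hG hm e) hC)
  have h3 := nv_add_le (G.mulVec e) (G.mulVec (quadP r B G m e))
  have he0 := nv_nonneg e
  have hk : 0 ≤ (1 + C * C) ^ 2 + 2 / n * √n * C ^ 2 + 1 / n * C ^ 2 * √n := by (clear * - hC; positivity)
  set k := (1 + C * C) ^ 2 + 2 / n * √n * C ^ 2 + 1 / n * C ^ 2 * √n with hkd
  have h4 : dK n C = C * (1 + k) := by
    rw [hkd]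
    unfold dK
    ring
  rw [h4]
  have h5 : 0 ≤ C * nv e ^ 2 := by (clear * - hC; positivity)
  have h6 : 0 ≤ C * k * nv e := by (clear * - hC he0; positivity)
  linarith only [h1, h3, h2, h5, h6]

/-- bound of the drift vector -/
noncomputable def dA (n : ℕ) (C : ℝ) : ℝ := C * C * (2 * √n) + (3 * C + C ^ 2) * √n

theorem dA_nonneg {C : ℝ} (hC : 0 ≤ C) : 0 ≤ dA n C := by
  unfold dA
  positivity

/-- the drift vector -/
noncomputable def effA (r ρ κ₀ δ : ℝ) (R : Mat n) (m : Vec n) (x : Cfg n) : Vec n :=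
  (R * Rᵀ).mulVec (sv x - m) + (κ₀ + (2 * r * ρ + δ * ρ ^ 2) * (1 - qq m)) • m

theorem effE_eqA (r ρ κ₀ δ : ℝ) (R : Mat n) (m : Vec n) (x : Cfg n) (ξ : Vec n) :
    effE r ρ κ₀ δ R m x ξ = δ • effA r ρ κ₀ δ R m x + √δ • R.mulVec ξ := rfl

theorem nv_sv_le (x : Cfg n) : nv (sv x) ≤ √n := nv_le_sqrt_n fun i => (abs_sv x i).le

theorem effA_bd {r ρ κ₀ δ C : ℝ} {R : Mat n} {m : Vec n} (hr : r ∈ Set.Icc (0 : ℝ) 1)
    (hρ : |ρ| ≤ C) (hκ : |κ₀| ≤ C) (hδ : 0 < δ) (hδ1 : δ ≤ 1) (hR : OpLe R C)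
    (hm : ∀ i, |m i| ≤ 1) (x : Cfg n) : nv (effA r ρ κ₀ δ R m x) ≤ dA n C := by
  have hC : 0 ≤ C := (abs_nonneg _).trans hρ
  have h1 : nv ((R * Rᵀ).mulVec (sv x - m)) ≤ C * C * (2 * √n) := by
    refine ((hR.mulN (D2.opLe_transpose hR) hC hC).nv_le (mul_nonneg hC hC) _).trans ?_
    refine mul_le_mul_of_nonneg_left ?_ (mul_nonneg hC hC)
    have := nv_sub_le (sv x) m
    have h2 := nv_sv_le x
    have h3 := nv_le_sqrt_n hm
    linarith
  have hq0 := qq_nonneg m
  have hq1 := qq_le_one hm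
  have h2 : |κ₀ + (2 * r * ρ + δ * ρ ^ 2) * (1 - qq m)| ≤ 3 * C + C ^ 2 := by
    have h3 : |2 * r * ρ + δ * ρ ^ 2| ≤ 2 * C + C ^ 2 := by
      refine (abs_add_le _ _).trans (add_le_add ?_ ?_)
      · rw [abs_mul, abs_of_nonneg (mul_nonneg zero_le_two hr.1)]
        calc 2 * r * |ρ| ≤ 2 * 1 * C := mul_le_mul (by linarith [hr.2]) hρ (abs_nonneg _) (by norm_num)
          _ = 2 * C := by ring
      · rw [abs_mul, abs_of_pos hδ, abs_of_nonneg (sq_nonneg ρ), ← sq_abs ρ]
        calc δ * |ρ| ^ 2 ≤ 1 * C ^ 2 :=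
              mul_le_mul hδ1 (pow_le_pow_left₀ (abs_nonneg _) hρ 2) (sq_nonneg _) zero_le_one
          _ = C ^ 2 := one_mul _
    have h4 : |(2 * r * ρ + δ * ρ ^ 2) * (1 - qq m)| ≤ 2 * C + C ^ 2 := by
      rw [abs_mul, abs_of_nonneg (by linarith : 0 ≤ 1 - qq m)]
      calc |2 * r * ρ + δ * ρ ^ 2| * (1 - qq m) ≤ |2 * r * ρ + δ * ρ ^ 2| * 1 :=
            mul_le_mul_of_nonneg_left (by linarith) (abs_nonneg _)
        _ ≤ 2 * C + C ^ 2 := by rw [mul_one]; exact h3
    refine (abs_add_le _ _).trans ?_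
    linarith
  unfold effA dA
  refine (nv_add_le _ _).trans (add_le_add h1 ?_)
  rw [nv_smul]
  exact mul_le_mul h2 (nv_le_sqrt_n hm) (nv_nonneg m) (by (clear * - hC; positivity))

end Vale.Agent.P150.F
end
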