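import Mathlib
import Vale.Agent.P150.Bdl.B20
import Vale.Agent.P150.Bdl.B28
import Vale.Agent.P150.Bdl.B7
import Vale.Agent.P150.Bdl.B21
import Vale.Agent.P150.Bdl.B27
import Vale.Agent.P150.Bdl.B14
import Vale.Agent.P150.Bdl.B6
import Vale.Agent.P150.Bdl.B19
import Vale.Agent.P150.Bdl.B15
import Vale.Agent.P150.Bdl.B9
import Vale.Agent.P150.Bdl.B13
import Vale.Agent.P150.Bdl.B22

set_option linter.all false

section

/-! Module D3c, part A: the hypotheses of D3b for the tilted law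
`exp (lam n Φ(x, ξ)) dμ(x) dγ(ξ) / Z`. -/

open MeasureTheory ProbabilityTheory Filter Topology Real
open scoped Matrix

namespace Vale.Agent.P150.F.D3

open D2 (DD gsq)
open TP (tw P0)

variable {n m : ℕ}

/-! ### the DLR defects -/

theorem dlr_pt {M : Mat n} (hM : M.IsSymm) (y : Vec n) {a : ℝ} (ha : 0 < a) (φ : Cfg n → ℝ)
    {c B : ℝ} (hB : ∀ x, gsq φ x ≤ B) {W : Cfg n → ℝ}
    (hW : ∀ x, W x = a * (Real.exp (qf M (sv x) / 2 + ip y (sv x)) * Real.exp (c * φ x))) :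
    dlr M y W ≤ (∑ x, W x) * (c ^ 2 * B) := by
  have h1 := dlr_exp_le hM y ha (fun x => c * φ x)
  have e : W = fun x => a * (Real.exp (qf M (sv x) / 2 + ip y (sv x)) * Real.exp (c * φ x)) :=
    funext hW
  rw [e]
  refine h1.trans ?_
  rw [Finset.sum_mul]
  refine Finset.sum_le_sum fun x _ => mul_le_mul_of_nonneg_left ?_ (by positivity)
  have h2 : ∑ i, dd i (fun x => c * φ x) x ^ 2 = c ^ 2 * gsq φ x := DX.gsq_mul_const φ c x
  rw [h2]
  exact mul_le_mul_of_nonneg_left (hB x) (sq_nonneg c)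

theorem qf_smul' (c : ℝ) (M : Mat n) (v : Vec n) : qf (c • M) v = c * qf M v := by
  unfold qf
  rw [Matrix.smul_mulVec, ip_smul_right]

theorem qf_add' (M N : Mat n) (v : Vec n) : qf (M + N) v = qf M v + qf N v := by
  unfold qf
  rw [Matrix.add_mulVec, ip_add_right]

theorem qf_one' (v : Vec n) : qf (1 : Mat n) v = sq v := by
  unfold qf
  rw [Matrix.one_mulVec, ipN_self]

theorem sq_sv' (x : Cfg n) : sq (sv x) = n := by
  unfold sq sv
  have : ∀ i, sp (x i) ^ 2 = 1 := fun i => by rw [pow_two]; exact DB.sp_mul_self _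
  simp [this]

section

variable {β κ s B c : ℝ} {J : Mat n} {R : Matrix (Fin n) (Fin m) ℝ}
  {Φ : Cfg n → (Fin m → ℝ) → ℝ}

theorem isSymm_smul (hJ : ∀ a b, J a b = J b a) (r : ℝ) : (r • J).IsSymm := by
  have : J.IsSymm := by ext a b; exact (hJ a b).symm
  exact this.smul r

theorem tw_gM_eq (M : Mat n) (y : Vec n) (x : Cfg n) (ξ : Fin m → ℝ) :
    tw (gM M y) c Φ x ξ = ((∑ x', Real.exp (qf M (sv x') / 2 + ip y (sv x'))) *
      Vale.Agent.P150.F.TP.P0 (gM M y) (fun x ξ => Real.exp (c * Φ x ξ)))⁻¹ *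
      (Real.exp (qf M (sv x) / 2 + ip y (sv x)) * Real.exp (c * Φ x ξ)) := by
  unfold tw gM
  rw [mul_inv, div_eq_mul_inv, div_eq_mul_inv]
  ring

theorem Zpos (M : Mat n) (y : Vec n) :
    0 < ∑ x' : Cfg n, Real.exp (qf M (sv x') / 2 + ip y (sv x')) :=
  Finset.sum_pos (fun _ _ => Real.exp_pos _) Finset.univ_nonempty

theorem int_mass {W : Cfg n → (Fin m → ℝ) → ℝ} (hW : JL W) :
    Integrable (fun ξ => ∑ x, W x ξ) (gpi (Fin m)) ∧ ∫ ξ, ∑ x, W x ξ ∂gpi (Fin m) = 1 := by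
  refine ⟨integrable_finsetSum _ fun x _ => hW.int x, ?_⟩
  rw [integral_finsetSum _ fun x _ => hW.int x]
  exact hW.one

theorem dlr_int_le {W : Cfg n → (Fin m → ℝ) → ℝ} (hW : JL W) (M : Mat n)
    (y : (Fin m → ℝ) → Vec n) {b : ℝ} (h : ∀ ξ, dlr M (y ξ) (fun x => W x ξ) ≤
      (∑ x, W x ξ) * b) : ∫ ξ, dlr M (y ξ) (fun x => W x ξ) ∂gpi (Fin m) ≤ b := by
  obtain ⟨h1, h2⟩ := int_mass hW
  calc ∫ ξ, dlr M (y ξ) (fun x => W x ξ) ∂gpi (Fin m) ≤ ∫ ξ, (∑ x, W x ξ) * b ∂gpi (Fin m) :=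
        integral_mono_of_nonneg (ae_of_all _ fun ξ => dlr_nonneg fun x => hW.nonneg x ξ)
          (h1.mul_const b) (ae_of_all _ h)
    _ = b := by rw [integral_mul_const, h2, one_mul]

variable (hΦm : ∀ x, Measurable (Φ x)) (hΦ0 : ∀ x ξ, 0 ≤ Φ x ξ) (hΦB : ∀ x ξ, Φ x ξ ≤ B)

include hΦm hΦ0 hΦB

theorem J1_tw (hJ : ∀ a b, J a b = J b a) (hc : 0 ≤ c) {C1 : ℝ}
    (hg : ∀ ξ x, gsq (fun z => Φ z ξ) x ≤ C1) :
    ∫ ξ, dlr (β • J) 0 (fun x => tw (gM (β • J) 0) c Φ x ξ) ∂gpi (Fin m) ≤ c ^ 2 * C1 := by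
  have hμ := tl_gM_isProb (β • J) (0 : Vec n)
  have hZ := TP.one_le_Z hΦm hΦ0 hΦB hμ hc
  refine dlr_int_le (TP.JL_tw hΦm hΦ0 hΦB hμ hc) _ _ fun ξ => ?_
  refine dlr_pt (isSymm_smul hJ β) 0 (inv_pos.2 (mul_pos (Zpos (β • J) 0)
    (by linarith only [hZ] : 0 < Vale.Agent.P150.F.TP.P0 (gM (β • J) 0) (fun x ξ => Real.exp (c * Φ x ξ))))) _ (hg ξ) fun x => ?_
  exact tw_gM_eq _ _ _ _

theorem J2_tw (hJ : ∀ a b, J a b = J b a) (hR : R * Rᵀ = J + κ • (1 : Mat n)) (hs : 0 ≤ s)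
    (hc : 0 ≤ c) {C1 : ℝ} (hg : ∀ ξ x, gsq (fun z => Φ z (bsh R s z ξ)) x ≤ C1) :
    ∫ ξ, dlr ((β - s) • J) (√s • R.mulVec ξ)
      (fun x => D3.shw R s (tw (gM (β • J) 0) c Φ) x ξ) ∂gpi (Fin m) ≤ c ^ 2 * C1 := by
  have hμ := tl_gM_isProb (β • J) (0 : Vec n)
  have hZ := TP.one_le_Z hΦm hΦ0 hΦB hμ hc
  refine dlr_int_le (W := D3.shw R s (tw (gM (β • J) 0) c Φ))
    (JL.shw R hs (TP.JL_tw hΦm hΦ0 hΦB hμ hc)) _ _ fun ξ => ?_
  refine dlr_pt (isSymm_smul hJ (β - s)) _ (a := ((∑ x' : Cfg n,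
    Real.exp (qf (β • J) (sv x') / 2 + ip 0 (sv x'))) *
      Vale.Agent.P150.F.TP.P0 (gM (β • J) 0) (fun x ξ => Real.exp (c * Φ x ξ)))⁻¹ * Real.exp (-(s / 2 * (κ * n))))
    (mul_pos (inv_pos.2 (mul_pos (Zpos (β • J) 0)
    (by linarith only [hZ] : 0 < Vale.Agent.P150.F.TP.P0 (gM (β • J) 0) (fun x ξ => Real.exp (c * Φ x ξ))))) (Real.exp_pos _))
    _ (hg ξ) fun x => ?_
  unfold D3.shw
  rw [tw_gM_eq, hR, qf_add', qf_smul', qf_smul', qf_smul', qf_one', sq_sv']
  have h0 : ip (0 : Vec n) (sv x) = 0 := by simp [ip]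
  rw [h0, ip_smul_left]
  have e1 : Real.exp (√s * ip (R.mulVec ξ) (sv x) - s / 2 * (qf J (sv x) + κ * n)) *
      Real.exp (β * qf J (sv x) / 2 + 0) = Real.exp (-(s / 2 * (κ * n))) *
      Real.exp ((β - s) * qf J (sv x) / 2 + √s * ip (R.mulVec ξ) (sv x)) := by
    rw [← Real.exp_add, ← Real.exp_add]
    congr 1
    ring
  linear_combination ((∑ x' : Cfg n, Real.exp (qf (β • J) (sv x') / 2 + ip 0 (sv x'))) *
      Vale.Agent.P150.F.TP.P0 (gM (β • J) 0) (fun x ξ => Real.exp (c * Φ x ξ)))⁻¹ *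
      Real.exp (c * Φ x (bsh R s x ξ)) * e1

end

/-! ### (J3) and (J4) -/

theorem abs_ind_le_c (ε : ℝ) (hε : ε = 1 ∨ ε = -1) (x : Cfg n) (j : Fin n) :
    |ind ε (sv x j)| ≤ 1 := by
  have h1 : sv x j = 1 ∨ sv x j = -1 := by
    unfold sv
    cases x j <;> simp [sp]
  unfold ind
  rcases hε with h | h <;> rcases h1 with h1 | h1 <;> rw [h, h1] <;> norm_num

/-- **The hypotheses of D3b for the tilted law.** -/
theorem JHyp_tw (hn : 0 < n) {β κ s B C1 CR η lam τ : ℝ} {J : Mat n}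
    {R : Matrix (Fin n) (Fin m) ℝ} {Φ : Cfg n → (Fin m → ℝ) → ℝ}
    (hJ : ∀ a b, J a b = J b a) (hJd : ∀ a, J a a = 0)
    (hR : R * Rᵀ = J + κ • (1 : Mat n)) (hCR : OpLe (R * Rᵀ) CR) (hCR0 : 0 < CR) (hs : 0 ≤ s)
    (hΦm : ∀ x, Measurable (Φ x)) (hΦ0 : ∀ x ξ, 0 ≤ Φ x ξ) (hΦB : ∀ x ξ, Φ x ξ ≤ B)
    (hg : ∀ ξ x, gsq (fun z => Φ z ξ) x * n ≤ C1)
    (hg' : ∀ ξ x, gsq (fun z => Φ z (bsh R s z ξ)) x * n ≤ C1)
    (hlam : 0 ≤ lam) (h1 : lam ^ 2 * C1 ≤ η) (hτ : 0 < τ) (hη : 0 < η)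
    (h3 : lam * B / τ + Real.log 2 / (n * τ) + τ * ((1 / η) ^ 2 * CR) ≤ η)
    (h4 : lam * B ≤ 1 / 2) :
    JHyp β κ J R s (4 * CR) η (tw (gM (β • J) 0) (lam * n) Φ) := by
  have hn' : (0 : ℝ) < n := by exact_mod_cast hn
  have hμ := tl_gM_isProb (β • J) (0 : Vec n)
  have hc : 0 ≤ lam * n := by (clear * - hlam hn; positivity)
  have hL := TP.JL_tw hΦm hΦ0 hΦB hμ hc
  have hd : ∀ j, (R * Rᵀ) j j = κ := fun j => by
    rw [hR]
    simp [hJd]
  -- entropy inequality for Lipschitz averages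
  have key : ∀ (θ : ℝ), |θ| ≤ 1 / η → ∀ G : Cfg n → (Fin m → ℝ) → ℝ,
      (∀ x, Lip (|θ| * √CR / √n) (G x)) → (∀ x, ∫ ξ, G x ξ ∂gpi (Fin m) = 0) →
      EJ (tw (gM (β • J) 0) (lam * n) Φ) (fun x ξ => |G x ξ|) ≤ η := by
    intro θ hθ G hG hG0
    have h5 := TP.EJ_le_of_exp hΦm hΦ0 hΦB hμ hc (G := fun x ξ => |G x ξ|) (t := n * τ)
      (A := Real.log 2 + (n * τ) ^ 2 * (|θ| * √CR / √n) ^ 2) (by (clear * - hn hτ; positivity))
      (fun x => (hG x).integrable.abs) (fun x => TP.lip_abs_exp_integrable (hG x) _)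
      (fun x => TP.exp_abs_le (hG x) (hG0 x) _)
    refine h5.trans (le_trans ?_ h3)
    have e1 : (|θ| * √CR / √(n : ℝ)) ^ 2 = θ ^ 2 * CR / n := by
      rw [div_pow, mul_pow, sq_abs, Real.sq_sqrt hCR0.le, Real.sq_sqrt hn'.le]
    have e2 : (lam * n * B + (Real.log 2 + (n * τ) ^ 2 * (θ ^ 2 * CR / n))) / (n * τ) =
        lam * B / τ + Real.log 2 / (n * τ) + τ * (θ ^ 2 * CR) := by
      field_simp
      ring
    rw [e1, e2]
    have e3 : θ ^ 2 ≤ (1 / η) ^ 2 := by
      rw [← sq_abs θ]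
      exact pow_le_pow_left₀ (abs_nonneg _) hθ 2
    have e4 : τ * (θ ^ 2 * CR) ≤ τ * ((1 / η) ^ 2 * CR) :=
      mul_le_mul_of_nonneg_left (mul_le_mul_of_nonneg_right e3 hCR0.le) hτ.le
    linarith only [e4]
  refine ⟨hL, hR, ?_, ?_, ?_, ?_, ?_, ?_⟩
  · refine (J1_tw hΦm hΦ0 hΦB hJ hc (C1 := C1 / n) fun ξ x => ?_).trans ?_
    · rw [le_div_iff₀ hn']; exact hg ξ x
    · have : (lam * n) ^ 2 * (C1 / n) = lam ^ 2 * C1 * n := by field_simp
      rw [this]
      exact mul_le_mul_of_nonneg_right h1 hn'.le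
  · refine (J2_tw hΦm hΦ0 hΦB hJ hR hs hc (C1 := C1 / n) fun ξ x => ?_).trans ?_
    · rw [le_div_iff₀ hn']; exact hg' ξ x
    · have : (lam * n) ^ 2 * (C1 / n) = lam ^ 2 * C1 * n := by field_simp
      rw [this]
      exact mul_le_mul_of_nonneg_right h1 hn'.le
  · intro θ ε hθ hε
    exact key θ hθ _ (fun x => TP.lip_avg hCR hCR0.le (abs_ind_le_c ε hε x)
      Real.abs_cos_sub_cos_le θ _) (fun x => TP.integral_avg_cos hd _ θ)
  · intro θ ε hθ hε
    have := key θ hθ (fun x ξ => (∑ j, ind ε (sv x j) * (Real.sin (θ * R.mulVec ξ j) - 0)) / n)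
      (fun x => TP.lip_avg hCR hCR0.le (abs_ind_le_c ε hε x)
      Real.abs_sin_sub_sin_le θ _) (fun x => TP.integral_avg_sin R _ θ)
    simpa only [sub_zero] using this
  · intro x
    have h5 := (TP.integrable_exp_mul hΦm hΦ0 hΦB (TP.integrable_sq_R R) (lam * n) x).const_mul
      (gM (β • J) 0 x / Vale.Agent.P150.F.TP.P0 (gM (β • J) 0) (fun x ξ => Real.exp (lam * n * Φ x ξ)))
    refine h5.congr (ae_of_all _ fun ξ => ?_)
    simp only [tw]
    ring
  · have h5 := TP.EJ_le_of_exp hΦm hΦ0 hΦB hμ hc (G := fun _ ξ => sq (R.mulVec ξ))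
      (t := 1 / (4 * CR)) (A := 2 * (1 / (4 * CR) * CR) * n) (by positivity)
      (fun x => TP.integrable_sq_R R)
      (fun x => TP.integrable_exp_sq_R hCR hCR0.le (by positivity) (by
        rw [div_mul_eq_mul_div, one_mul, div_le_div_iff₀ (by positivity) (by norm_num)]; linarith only []))
      (fun x => TP.integral_exp_sq_R_le hCR hCR0.le (by positivity) (by
        rw [div_mul_eq_mul_div, one_mul, div_le_div_iff₀ (by positivity) (by norm_num)]; linarith only []))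
    refine h5.trans (le_of_eq_of_le (b := 4 * CR * n * (lam * B + 1 / 2)) ?_ ?_)
    · field_simp
      ring
    · have : 4 * CR * n * (lam * B + 1 / 2) ≤ 4 * CR * n * 1 :=
        mul_le_mul_of_nonneg_left (by linarith only [h4]) (by positivity)
      linarith only [this]

end Vale.Agent.P150.F.D3
end

section

/-! Module D3c: exponential bounds for the AMP iterates along the `J`-killing path, under the
Gibbs measure itself. -/

open MeasureTheory ProbabilityTheory Filter Topology Real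
open scoped Matrix

namespace Vale.Agent.P150.F.D3

open D2 (DD gsq)
open TP (tw P0)

variable {n m : ℕ}

/-- What D3c delivers. -/
def D3cStatement : Prop := ∀ β κ : ℝ, 0 ≤ β → β < 1 → 4 ≤ κ →
  ∀ {I : Type} (F : Filter I) (n : I → ℕ) (J : ∀ i, Mat (n i)), Good β F n J →
    ∀ ε > 0, ∃ K₀ : ℕ, ∀ k ≥ K₀, ∃ c > 0, ∀ᶠ i in F,
      (∑ x, if ε ≤ qq (ampM (β • J i) β 0 x k) then gM (β • J i) 0 x else 0)
        ≤ Real.exp (-(c * n i)) ∧
      ∀ (m : ℕ) (R : Matrix (Fin (n i)) (Fin m) ℝ) (s : ℝ), s ∈ Set.Icc 0 β →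
        R * Rᵀ = J i + κ • (1 : Mat (n i)) →
        ∑ x, gM (β • J i) 0 x * (gpi (Fin m)).real {ξ | ε ≤
          qq (ampM ((β - s) • J i) (β - s) (obs R s x ξ) x k
            - ampM ((β - s) • J i) (β - s) (obs R s x ξ) x (k + 1))} ≤ Real.exp (-(c * n i))

/-! ### regularity in the field -/

theorem continuous_ampM (M : Mat n) (r : ℝ) (x : Cfg n) (k : ℕ) :
    Continuous (fun y : Vec n => ampM M r y x k) ∧
      Continuous (fun y : Vec n => ampM M r y x (k + 1)) := by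
  induction k with
  | zero =>
    refine ⟨continuous_const, ?_⟩
    show Continuous fun y : Vec n => (fun i => Real.tanh (M.mulVec (sv x) i + y i))
    exact continuous_pi fun i => continuous_tanh'.comp (continuous_const.add (continuous_apply i))
  | succ k ih =>
    refine ⟨ih.2, ?_⟩
    show Continuous fun y : Vec n => (fun i => Real.tanh (M.mulVec (ampM M r y x (k + 1)) i + y i
      - r ^ 2 * (1 - qq (ampM M r y x (k + 1))) * ampM M r y x k i))
    refine continuous_pi fun i => continuous_tanh'.comp ?_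
    have h1 : Continuous fun y : Vec n => M.mulVec (ampM M r y x (k + 1)) i := by
      unfold Matrix.mulVec dotProduct
      exact continuous_finsetSum _ fun j _ =>
        continuous_const.mul ((continuous_apply j).comp ih.2)
    have h2 : Continuous fun y : Vec n => qq (ampM M r y x (k + 1)) := by
      unfold qq sq
      exact (continuous_finsetSum _ fun j _ =>
        ((continuous_apply j).comp ih.2).pow 2).div_const _
    have h3 : Continuous fun y : Vec n => ampM M r y x k i := (continuous_apply i).comp ih.1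
    exact (h1.add (continuous_apply i)).sub
      ((continuous_const.mul (continuous_const.sub h2)).mul h3)

theorem continuous_qq_ampM (M : Mat n) (r : ℝ) (x : Cfg n) (k : ℕ) :
    Continuous fun y : Vec n => qq (ampM M r y x k) := by
  unfold qq sq
  exact (continuous_finsetSum _ fun j _ =>
    ((continuous_apply j).comp (continuous_ampM M r x k).1).pow 2).div_const _

theorem continuous_qq_sub (M : Mat n) (r : ℝ) (x : Cfg n) (k l : ℕ) :
    Continuous fun y : Vec n => qq (ampM M r y x k - ampM M r y x l) := by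
  unfold qq sq
  exact (continuous_finsetSum _ fun j _ => (((continuous_apply j).comp
    (continuous_ampM M r x k).1).sub ((continuous_apply j).comp
    (continuous_ampM M r x l).1)).pow 2).div_const _

theorem continuous_mulVec' (R : Matrix (Fin n) (Fin m) ℝ) :
    Continuous fun ξ : Fin m → ℝ => R.mulVec ξ := by
  unfold Matrix.mulVec dotProduct
  fun_prop

theorem continuous_obs_c (R : Matrix (Fin n) (Fin m) ℝ) (s : ℝ) (x : Cfg n) :
    Continuous fun ξ : Fin m → ℝ => obs R s x ξ := by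
  unfold obs
  refine continuous_pi fun i => continuous_const.add (continuous_const.mul ?_)
  exact (continuous_apply i).comp (continuous_mulVec' R)

theorem obs_eq (R : Matrix (Fin n) (Fin m) ℝ) (s : ℝ) (ξ : Fin m → ℝ) (x : Cfg n) :
    obs R s x ξ = (s • (R * Rᵀ)).mulVec (sv x) + √s • R.mulVec ξ := by
  funext i
  rw [Matrix.smul_mulVec]
  rfl

theorem opLe_DD_obs_c {R : Matrix (Fin n) (Fin m) ℝ} {s C : ℝ} (hC : 0 ≤ C)
    (hR : OpLe (R * Rᵀ) C) (hs0 : 0 ≤ s) (hs1 : s ≤ 1) (ξ : Fin m → ℝ) (x : Cfg n) :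
    OpLe (DD (fun z => obs R s z ξ) x) C := by
  have e : (fun z => obs R s z ξ) = fun z => (s • (R * Rᵀ)).mulVec (sv z) + √s • R.mulVec ξ :=
    funext fun z => obs_eq R s ξ z
  rw [e, DB.DD_add (fun z => (s • (R * Rᵀ)).mulVec (sv z)), DB.DD_mulVec, DB.DD_sv, mul_one,
    DX.DD_constField, add_zero]
  refine (hR.smul hC s).monoN (by positivity) ?_
  rw [abs_of_nonneg hs0]
  linarith only [mul_nonneg (sub_nonneg.2 hC) (sub_nonneg.2 hs1)]

/-! ### bounds -/

theorem qq_sub_ampM_le (M : Mat n) (r : ℝ) (y : Vec n) (x : Cfg n) (k l : ℕ) :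
    qq (ampM M r y x k - ampM M r y x l) ≤ 4 := by
  rcases Nat.eq_zero_or_pos n with hn | hn
  · subst hn
    simp [qq]
  have hn' : (0 : ℝ) < n := by exact_mod_cast hn
  unfold qq
  rw [div_le_iff₀ hn']
  unfold sq
  calc ∑ i, (ampM M r y x k - ampM M r y x l) i ^ 2 ≤ ∑ _i : Fin n, (4 : ℝ) := by
        refine Finset.sum_le_sum fun i _ => ?_
        have h1 := abs_le.1 (DB.abs_ampM_le M r y x k i)
        have h2 := abs_le.1 (DB.abs_ampM_le M r y x l i)
        rw [Pi.sub_apply]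
        nlinarith
    _ = 4 * n := by simp [mul_comm]

theorem JHyp.mono' {β κ : ℝ} {J : Mat n} {R : Matrix (Fin n) (Fin m) ℝ} {s C η η' : ℝ}
    {w : Cfg n → (Fin m → ℝ) → ℝ} (h : JHyp β κ J R s C η w) (hη : 0 < η) (hηη : η ≤ η') :
    JHyp β κ J R s C η' w := by
  have h1 : η * n ≤ η' * n := mul_le_mul_of_nonneg_right hηη (Nat.cast_nonneg n)
  have h2 : 1 / η' ≤ 1 / η := one_div_le_one_div_of_le hη hηη
  exact ⟨h.law, h.hR, h.J1.trans h1, h.J2.trans h1,
    fun θ ε hθ hε => (h.J3c θ ε (hθ.trans h2) hε).trans hηη,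
    fun θ ε hθ hε => (h.J3s θ ε (hθ.trans h2) hε).trans hηη, h.J4i, h.J4⟩

theorem exists_params {η C1 CR B : ℝ} (hη : 0 < η) (hC1 : 0 ≤ C1) (hCR : 0 < CR) (hB : 0 ≤ B) :
    ∃ lam > 0, ∃ τ > 0, ∃ N : ℕ, ∀ n : ℕ, N ≤ n → lam ^ 2 * C1 ≤ η ∧ lam * B ≤ 1 / 2 ∧
      lam * B / τ + Real.log 2 / (n * τ) + τ * ((1 / η) ^ 2 * CR) ≤ η := by
  set τ : ℝ := η ^ 3 / (4 * CR) with hτ
  have hτ0 : 0 < τ := by positivity
  set lam : ℝ := min (√(η / (C1 + 1))) (min (η * τ / (4 * (B + 1))) (1 / (2 * (B + 1)))) with hlam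
  have hl0 : 0 < lam := lt_min (Real.sqrt_pos.2 (by (clear * - hη hC1; positivity)))
    (lt_min (by positivity) (by positivity))
  have h1 : lam ≤ √(η / (C1 + 1)) := min_le_left _ _
  have h2 : lam ≤ η * τ / (4 * (B + 1)) := (min_le_right _ _).trans (min_le_left _ _)
  have h3 : lam ≤ 1 / (2 * (B + 1)) := (min_le_right _ _).trans (min_le_right _ _)
  obtain ⟨N, hN⟩ := exists_nat_ge (4 * Real.log 2 / (η * τ))
  refine ⟨lam, hl0, τ, hτ0, N + 1, fun n hn => ⟨?_, ?_, ?_⟩⟩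
  · have h4 : lam ^ 2 ≤ η / (C1 + 1) := by
      have := pow_le_pow_left₀ hl0.le h1 2
      rwa [Real.sq_sqrt (by positivity)] at this
    rw [le_div_iff₀ (by (clear * - hC1; positivity))] at h4
    linarith only [sq_nonneg lam, h4]
  · rw [le_div_iff₀ (by positivity)] at h3
    linarith only [hl0, h3]
  · have hn1 : (N : ℝ) + 1 ≤ n := by exact_mod_cast hn
    have hN0 : (0 : ℝ) ≤ N := Nat.cast_nonneg N
    have hn0 : (0 : ℝ) < n := by linarith only [hn1]
    have e1 : lam * B / τ ≤ η / 4 := by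
      rw [div_le_iff₀ hτ0]
      rw [le_div_iff₀ (by (clear * - hB; positivity))] at h2
      linarith only [hl0, h2]
    have e2 : Real.log 2 / (n * τ) ≤ η / 4 := by
      rw [div_le_iff₀ (by positivity)]
      rw [div_le_iff₀ (by positivity)] at hN
      have h5 : (N : ℝ) * (η * τ) ≤ n * (η * τ) :=
        mul_le_mul_of_nonneg_right (by linarith only [hn1]) (by positivity)
      linarith only [hN, h5]
    have e3 : τ * ((1 / η) ^ 2 * CR) = η / 4 := by
      rw [hτ]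
      field_simp
    rw [e3]
    linarith only [hη, e1, e2]

/-! ### zero field -/

theorem q_small_unif {β : ℝ} {I : Type} {F : Filter I} {n : I → ℕ} {J : ∀ i, Mat (n i)}
    (h : Good β F n J) (hβ0 : 0 ≤ β) (hβ1 : β < 1) (hU3 : U3S F n J) {ε : ℝ} (hε : 0 < ε) :
    ∃ K₀ : ℕ, ∀ k ≥ K₀, ∃ η > 0, ∀ᶠ i in F, ∀ ν : Cfg (n i) → ℝ, IsProb ν →
      dlr (β • J i) 0 ν ≤ η * n i → Ex ν (fun x => qq (ampM (β • J i) β 0 x k)) ≤ ε := by
  set H : (i : I) → {ν : Cfg (n i) → ℝ // IsProb ν} → ℝ :=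
    fun i ν => dlr (β • J i) 0 ν.1 / n i with hH
  set G := dataF F H with hG
  have hfst : Tendsto (fun p : Σ i, {ν : Cfg (n i) → ℝ // IsProb ν} => p.1) G F := dataF_fst F H
  have hop : ∀ᶠ i in F, OpLe (J i) 3 := by
    have := h.op 1 one_pos
    norm_num at this
    exact this
  obtain ⟨K₀, hK⟩ := overlap_small (F := G) (n := fun p => n p.1) (h.hn.comp hfst)
    (J := fun p => J p.1) (ν := fun p => p.2.1) hβ0 hβ1.le (hfst.eventually hop)
    (Eventually.of_forall fun p => p.2.2)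
    (fun q₀ hq₀ => by
      obtain ⟨c, hc, h1⟩ := h.ss q₀ hq₀
      exact ⟨c, hc, hfst.eventually h1⟩)
    (fun k hk => by
      rw [Metric.tendsto_nhds]
      intro e he
      have h1 : ∀ᶠ p in G, (fun (i : I) (ν : {ν : Cfg (n i) → ℝ // IsProb ν}) =>
          Ex ν.1 (fun x => |qq (ampM (β • J i) β 0 x k - ampM (β • J i) β 0 x (k + 1))
            - (qq (ampM (β • J i) β 0 x k) - qq (ampM (β • J i) β 0 x (k + 1)))|) ≤ e / 2)
          p.1 p.2 := by
        refine (eventually_dataF F H (fun (i : I) (ν : {ν : Cfg (n i) → ℝ // IsProb ν}) =>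
          Ex ν.1 (fun x => |qq (ampM (β • J i) β 0 x k - ampM (β • J i) β 0 x (k + 1))
            - (qq (ampM (β • J i) β 0 x k) - qq (ampM (β • J i) β 0 x (k + 1)))|) ≤ e / 2)).2 ?_
        obtain ⟨η, hη, h2⟩ := hU3 0 k hk (e / 2) (half_pos he)
        refine ⟨η, hη, ?_⟩
        filter_upwards [h2, h.hn.eventually (eventually_ge_atTop 1)] with i hi hn ν hν
        have hn' : (0 : ℝ) < n i := by exact_mod_cast hn
        have h3 : dlr (β • J i) 0 ν.1 ≤ η * n i := by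
          have h4 := (le_abs_self _).trans hν
          rwa [hH, div_le_iff₀ hn'] at h4
        have h5 := hi β 0 0 ν.1 hβ0 hβ1.le (by simp [Matrix.IsSymm]) (by simp [hsq]) ν.2
          (by rw [sub_zero]; exact h3)
        simpa only [sub_zero] using h5
      filter_upwards [h1] with p hp
      have h6 : 0 ≤ Ex p.2.1 (fun x => |sq (ampM (β • J p.1) β 0 x k
          - ampM (β • J p.1) β 0 x (k + 1)) / n p.1
            - (qq (ampM (β • J p.1) β 0 x k) - qq (ampM (β • J p.1) β 0 x (k + 1)))|) :=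
        Finset.sum_nonneg fun x _ => mul_nonneg (p.2.2.1 x) (abs_nonneg _)
      rw [Real.dist_eq, sub_zero, abs_of_nonneg h6]
      exact lt_of_le_of_lt hp (by linarith only [he])) hε
  refine ⟨K₀, fun k hk => ?_⟩
  have h7 := hK k hk
  obtain ⟨η, hη, h9⟩ := (eventually_dataF F H (fun (i : I)
    (ν : {ν : Cfg (n i) → ℝ // IsProb ν}) =>
      Ex ν.1 (fun x => qq (ampM (β • J i) β 0 x k)) ≤ ε)).1 h7
  refine ⟨η, hη, ?_⟩
  filter_upwards [h9, h.hn.eventually (eventually_ge_atTop 1)] with i hi hn ν hν hd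
  have hn' : (0 : ℝ) < n i := by exact_mod_cast hn
  refine hi ⟨ν, hν⟩ ?_
  have h10 : 0 ≤ dlr (β • J i) 0 ν := dlr_nonneg hν.1
  rw [hH]
  simp only
  rw [abs_of_nonneg (div_nonneg h10 hn'.le), div_le_iff₀ hn']
  exact hd

/-! ### the joint law -/

/-- the error in (U3), as a function of the field -/
noncomputable def V3 (J : Mat n) (r : ℝ) (k : ℕ) (x : Cfg n) (y : Vec n) : ℝ :=
  |qq (ampM (r • J) r y x k - ampM (r • J) r y x (k + 1))
    - (qq (ampM (r • J) r y x k) - qq (ampM (r • J) r y x (k + 1)))|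

theorem V3_le (J : Mat n) (r : ℝ) (k : ℕ) (x : Cfg n) (y : Vec n) : |V3 J r k x y| ≤ 5 := by
  unfold V3
  rw [abs_abs]
  have h1 := qq_sub_ampM_le (r • J) r y x k (k + 1)
  have h2 := qq_nonneg (ampM (r • J) r y x k - ampM (r • J) r y x (k + 1))
  have h3 := qq_nonneg (ampM (r • J) r y x k)
  have h4 := qq_nonneg (ampM (r • J) r y x (k + 1))
  have h5 := qq_le_one (DB.abs_ampM_le (r • J) r y x k)
  have h6 := qq_le_one (DB.abs_ampM_le (r • J) r y x (k + 1))
  rw [abs_le]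
  constructor <;> linarith

theorem continuous_V3 (J : Mat n) (r : ℝ) (k : ℕ) (x : Cfg n) :
    Continuous fun y : Vec n => V3 J r k x y :=
  ((continuous_qq_sub (r • J) r x k (k + 1)).sub ((continuous_qq_ampM (r • J) r x k).sub
    (continuous_qq_ampM (r • J) r x (k + 1)))).abs

/-- lifting of (U3) to joint laws satisfying (J2) -/
theorem U3_joint {β κ s C η η₁ e : ℝ} {J : Mat n} {R : Matrix (Fin n) (Fin m) ℝ}
    {w : Cfg n → (Fin m → ℝ) → ℝ} (hn : 0 < n) (hw : JHyp β κ J R s C η w) (hs : 0 ≤ s)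
    (hη₁ : 0 < η₁) (he : 0 ≤ e) (k : ℕ)
    (h : ∀ (y : Vec n) (ν : Cfg n → ℝ), IsProb ν → dlr ((β - s) • J) y ν ≤ η₁ * n →
      Ex ν (fun x => V3 J (β - s) k x y) ≤ e) :
    EJ w (fun x ξ => V3 J (β - s) k x (obs R s x ξ)) ≤ e + 5 * (η / η₁) := by
  rw [EJ_obs R hs (fun x y => V3 J (β - s) k x y)]
  have hy : Continuous fun ξ : Fin m → ℝ => √s • R.mulVec ξ :=
    (continuous_const_smul (√s)).comp (continuous_mulVec' R)
  refine (le_abs_self _).trans (lift (W := D3.shw R s w) (JL.shw R hs hw.law) ((β - s) • J)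
    hy.measurable hn hη₁ he (by norm_num)
    (fun x => ((continuous_V3 J (β - s) k x).comp hy).measurable)
    (fun x ξ => V3_le J (β - s) k x _) (fun ξ ν hν hd => ?_) hw.J2)
  have h1 : 0 ≤ Ex ν (fun x => V3 J (β - s) k x (√s • R.mulVec ξ)) :=
    Finset.sum_nonneg fun x _ => mul_nonneg (hν.1 x) (abs_nonneg _)
  rw [abs_of_nonneg h1]
  exact h _ ν hν hd

/-- **Module D3c.** -/
theorem d3c (hU : ∀ β : ℝ, 0 ≤ β → β < 1 → ∀ {I : Type} (F : Filter I) (n : I → ℕ)
      (J : ∀ i, Mat (n i)), Good β F n J → U3S F n J)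
    (hQ : ∀ β κ : ℝ, 0 ≤ β → β < 1 → 4 ≤ κ → D3bQ β κ) : D3cStatement := by
  intro β κ hβ0 hβ1 hκ I F n J h ε hε
  have hU3 := hU β hβ0 hβ1 F n J h
  obtain ⟨K₁, hK₁⟩ := q_small_unif h hβ0 hβ1 hU3 (half_pos hε)
  obtain ⟨e, he⟩ : ∃ e : ℝ, e = ε / 10 := ⟨_, rfl⟩
  have he0 : 0 < e := by rw [he]; positivity
  have hb1 : β ^ 2 < 1 := by (by_contra nlg; linarith only [mul_nonneg (sub_nonneg.2 (not_lt.1 nlg)) (sub_nonneg.2 hβ0), mul_nonneg (sub_nonneg.2 (not_lt.1 nlg)) (le_of_lt (sub_pos.2 hβ1)), mul_nonneg (sub_nonneg.2 hβ0) (le_of_lt (sub_pos.2 hβ1)), mul_pos (sub_pos.2 hβ1) (sub_pos.2 hβ1)])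
  obtain ⟨K₂, hK₂⟩ : ∃ K₂ : ℕ, ∀ k ≥ K₂, (β ^ 2) ^ k ≤ e := by
    have := (tendsto_pow_atTop_nhds_zero_of_lt_one (sq_nonneg β) hb1).eventually
      (ge_mem_nhds he0)
    obtain ⟨K₂, h2⟩ := eventually_atTop.1 this
    exact ⟨K₂, h2⟩
  refine ⟨max K₁ (K₂ + 1), fun k hk => ?_⟩
  have hk1 : K₁ ≤ k := (le_max_left _ _).trans hk
  have hk2 : K₂ + 1 ≤ k := (le_max_right _ _).trans hk
  obtain ⟨j, rfl⟩ : ∃ j, k = j + 1 := ⟨k - 1, by omega⟩
  -- zero field
  obtain ⟨ηa, hηa, hA⟩ := hK₁ (j + 1) hk1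
  obtain ⟨Ca, hCa0, hCa⟩ := DB.amp_macro 3 0 (by norm_num) le_rfl (j + 1)
  obtain ⟨la, hla0, hla⟩ := DX.exists_lam hCa0 hηa
  -- the joint law
  obtain ⟨CR, hCR⟩ : ∃ CR : ℝ, CR = 3 + κ := ⟨_, rfl⟩
  have hCR0 : 0 < CR := by rw [hCR]; linarith only [hκ]
  obtain ⟨C1, hC10, hC1⟩ := DB.amp_macro 3 CR (by norm_num) hCR0.le (j + 2)
  obtain ⟨η1, hη1, hE1⟩ := hU3 0 (j + 1) (by omega) e he0
  obtain ⟨η2, hη2, hE2⟩ := hQ β κ hβ0 hβ1 hκ F n J h (4 * CR) j e he0
  obtain ⟨η3, hη3, hE3⟩ := hQ β κ hβ0 hβ1 hκ F n J h (4 * CR) (j + 1) e he0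
  obtain ⟨η, hηd⟩ : ∃ η, η = min (min η2 η3) (η1 * e / 5) := ⟨_, rfl⟩
  have hη : 0 < η := by rw [hηd]; exact lt_min (lt_min hη2 hη3) (by (clear * - hη1 he0; positivity))
  have hηη2 : η ≤ η2 := by rw [hηd]; exact (min_le_left _ _).trans (min_le_left _ _)
  have hηη3 : η ≤ η3 := by rw [hηd]; exact (min_le_left _ _).trans (min_le_right _ _)
  have hηη1 : 5 * (η / η1) ≤ e := by
    have h5 : η ≤ η1 * e / 5 := by rw [hηd]; exact min_le_right _ _
    rw [mul_div_assoc', div_le_iff₀ hη1]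
    linarith only [h5]
  obtain ⟨lam, hlam, τ, hτ, N, hN⟩ := exists_params (B := 4) hη hC10 hCR0 (by norm_num)
  have hop : ∀ᶠ i in F, OpLe (J i) 3 := by
    have := h.op 1 one_pos
    norm_num at this
    exact this
  refine ⟨min (la * ε / 2) (lam * (ε / 2)), lt_min (by positivity) (by (clear * - hlam hε; positivity)), ?_⟩
  filter_upwards [hop, hA, hE1, hE2, hE3, h.hn.eventually (eventually_ge_atTop (max N 1))]
    with i hOp hAi h1 h2 h3 hn
  have hn0 : 0 < n i := lt_of_lt_of_le one_pos ((le_max_right _ _).trans hn)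
  have hnN : N ≤ n i := (le_max_left _ _).trans hn
  have hn' : (0 : ℝ) < n i := by exact_mod_cast hn0
  refine ⟨?_, fun m R s hs hR => ?_⟩
  · have hopβ : OpLe (β • J i) 3 := (hOp.smul (by norm_num) β).monoN (by (clear * -; positivity)) (by
      rw [abs_of_nonneg hβ0]; linarith only [hβ1])
    refine (DX.exp_of_mean (isSymm_smul (h.symm i) β) 0 _ hn0 hla0 hla (fun x =>
      (hCa (j + 1) le_rfl (j + 1) le_rfl (n i) (β • J i) β (fun _ => 0) hopβ hβ0 hβ1.le x
        (by rw [DX.DD_constField]; exact opLe_zero)).2.2.1) hAi).trans ?_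
    refine Real.exp_le_exp.2 (neg_le_neg ?_)
    exact mul_le_mul_of_nonneg_right (min_le_left _ _) hn'.le
  · obtain ⟨hs0, hsβ⟩ := hs
    have hs1 : s ≤ 1 := by linarith only [hsβ, hβ1]
    have hr0 : 0 ≤ β - s := by linarith only [hsβ]
    have hr1 : β - s ≤ 1 := by linarith only [hs0, hβ1]
    have hopr : OpLe ((β - s) • J i) 3 := (hOp.smul (by norm_num) _).monoN (by (clear * -; positivity)) (by
      rw [abs_of_nonneg hr0]; linarith only [hr1])
    have hopR : OpLe (R * Rᵀ) CR := by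
      rw [hR, hCR]
      refine hOp.add ((opLe_one.smul zero_le_one κ).monoN (by positivity) ?_) (by norm_num)
        (by linarith only [hκ])
      rw [abs_of_nonneg (by linarith only [hκ] : (0 : ℝ) ≤ κ), mul_one]
    set Φ : Cfg (n i) → (Fin m → ℝ) → ℝ := fun x ξ =>
      qq (ampM ((β - s) • J i) (β - s) (obs R s x ξ) x (j + 1)
        - ampM ((β - s) • J i) (β - s) (obs R s x ξ) x (j + 1 + 1)) with hΦ
    have hΦm : ∀ x, Measurable (Φ x) := fun x =>
      ((continuous_qq_sub ((β - s) • J i) (β - s) x (j + 1) (j + 1 + 1)).comp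
        (continuous_obs_c R s x)).measurable
    have hΦ0 : ∀ x ξ, 0 ≤ Φ x ξ := fun x ξ => qq_nonneg _
    have hΦB : ∀ x ξ, Φ x ξ ≤ 4 := fun x ξ => qq_sub_ampM_le _ _ _ _ _ _
    have hg : ∀ ξ x, gsq (fun z => Φ z ξ) x * n i ≤ C1 := fun ξ x =>
      (hC1 (j + 1) (by omega) (j + 1 + 1) (by omega) (n i) ((β - s) • J i) (β - s)
        (fun z => obs R s z ξ) hopr hr0 hr1 x (opLe_DD_obs_c hCR0.le hopR hs0 hs1 ξ x)).2.2.2
    have hg' : ∀ ξ x, gsq (fun z => Φ z (bsh R s z ξ)) x * n i ≤ C1 := by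
      intro ξ x
      have e1 : (fun z => Φ z (bsh R s z ξ)) = fun z =>
          qq (ampM ((β - s) • J i) (β - s) (√s • R.mulVec ξ) z (j + 1)
            - ampM ((β - s) • J i) (β - s) (√s • R.mulVec ξ) z (j + 1 + 1)) := by
        funext z
        rw [hΦ]
        simp only
        rw [obs_bsh R hs0]
      rw [e1]
      exact (hC1 (j + 1) (by omega) (j + 1 + 1) (by omega) (n i) ((β - s) • J i) (β - s)
        (fun _ => √s • R.mulVec ξ) hopr hr0 hr1 x (by
          rw [DX.DD_constField]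
          exact opLe_zero.monoN le_rfl hCR0.le)).2.2.2
    obtain ⟨p1, p2, p3⟩ := hN (n i) hnN
    have hJH : JHyp β κ (J i) R s (4 * CR) η (tw (gM (β • J i) 0) (lam * n i) Φ) :=
      JHyp_tw hn0 (h.symm i) (h.diag i) hR hopR hCR0 hs0 hΦm hΦ0 hΦB hg hg' hlam.le p1 hτ hη p3 p2
    set w := tw (gM (β • J i) 0) (lam * n i) Φ with hw
    have q1 := U3_joint (e := e) hn0 hJH hs0 hη1 he0.le (j + 1) (fun y ν hν hd => by
      have := h1 (β - s) 0 y ν hr0 hr1 (by simp [Matrix.IsSymm]) (by simp [hsq]) hν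
        (by rw [sub_zero]; exact hd)
      simp only [sub_zero] at this
      exact this)
    have q2 := h2 m R s w ⟨hs0, hsβ⟩ (hJH.mono' hη hηη2)
    have q3 := h3 m R s w ⟨hs0, hsβ⟩ (hJH.mono' hη hηη3)
    have q4 : qRS (gam β κ s j) - qRS (gam β κ s (j + 1)) ≤ e :=
      (qRS_gam_sub_le (by linarith only [hκ, hlam, p2]) ⟨hs0, hsβ⟩ j).trans (hK₂ (j + 1) (by omega))
    set A : Cfg (n i) → (Fin m → ℝ) → ℝ := fun x ξ =>
      |qq (ampM ((β - s) • J i) (β - s) (obs R s x ξ) x (j + 1)) - qRS (gam β κ s j)| with hAd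
    set B : Cfg (n i) → (Fin m → ℝ) → ℝ := fun x ξ =>
      |qq (ampM ((β - s) • J i) (β - s) (obs R s x ξ) x (j + 1 + 1))
        - qRS (gam β κ s (j + 1))| with hBd
    set V : Cfg (n i) → (Fin m → ℝ) → ℝ := fun x ξ =>
      V3 (J i) (β - s) (j + 1) x (obs R s x ξ) with hVd
    have hbd : ∀ (k l : ℕ) (y : Vec (n i)) x,
        |(|qq (ampM ((β - s) • J i) (β - s) y x k) - qRS (gam β κ s l)|)| ≤ 1 := by
      intro k l y x
      rw [abs_abs]
      have a1 := qq_nonneg (ampM ((β - s) • J i) (β - s) y x k)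
      have a2 := qq_le_one (DB.abs_ampM_le ((β - s) • J i) (β - s) y x k)
      have a3 : 0 ≤ qRS (gam β κ s l) :=
        (qst_nonneg (by linarith only [hκ, hlam, p2]) ⟨hs0, hsβ⟩).trans (qst_le_qRS_gam (by linarith only [p2, hlam, hκ]) ⟨hs0, hsβ⟩ l)
      have a4 := qRS_lt_one (gam β κ s l)
      rw [abs_le]
      constructor <;> linarith
    have iA : JI w A := JI.of_bdd hJH.law (fun x =>
      (((continuous_qq_ampM _ _ x (j + 1)).comp (continuous_obs_c R s x)).sub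
        continuous_const).abs.measurable) (fun x ξ => hbd _ _ _ _)
    have iB : JI w B := JI.of_bdd hJH.law (fun x =>
      (((continuous_qq_ampM _ _ x (j + 1 + 1)).comp (continuous_obs_c R s x)).sub
        continuous_const).abs.measurable) (fun x ξ => hbd _ _ _ _)
    have iV : JI w V := JI.of_bdd hJH.law (fun x =>
      ((continuous_V3 (J i) (β - s) (j + 1) x).comp (continuous_obs_c R s x)).measurable)
      (fun x ξ => V3_le _ _ _ _ _)
    have iΦ : JI w Φ := JI.of_bdd hJH.law hΦm (C := 4) (fun x ξ => by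
      rw [abs_of_nonneg (hΦ0 x ξ)]; exact hΦB x ξ)
    have hmean : EJ w Φ ≤ ε / 2 := by
      have r1 : EJ w Φ ≤ EJ w (fun x ξ => ((V x ξ + A x ξ) + B x ξ) + e) := by
        refine EJ_mono hJH.law iΦ (((iV.add iA).add iB).add (JI.const hJH.law e)) fun x ξ => ?_
        have b1 : Φ x ξ - (qq (ampM ((β - s) • J i) (β - s) (obs R s x ξ) x (j + 1))
            - qq (ampM ((β - s) • J i) (β - s) (obs R s x ξ) x (j + 1 + 1))) ≤ V x ξ :=
          le_abs_self _
        have b2 := (abs_le.1 (le_refl (A x ξ))).2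
        have b3 := (abs_le.1 (le_refl (B x ξ))).1
        linarith only [q4, b1, b2, b3]
      rw [EJ_add ((iV.add iA).add iB) (JI.const hJH.law e), EJ_add (iV.add iA) iB,
        EJ_add iV iA, EJ_const hJH.law] at r1
      have r2 : EJ w V ≤ 2 * e := by linarith only [hηη1, q1]
      have r3 : e * 10 = ε := by rw [he]; ring
      linarith only [q2, q3, r1, r2, r3]
    have hμ := tl_gM_isProb (β • J i) (0 : Vec (n i))
    refine (TP.tilt_markov hΦm hΦ0 hΦB hμ (κ := lam * n i) (by (clear * - hlam hn0; positivity)) ε).trans ?_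
    refine Real.exp_le_exp.2 (neg_le_neg ?_)
    rw [← hw]
    calc min (la * ε / 2) (lam * (ε / 2)) * (n i : ℝ) ≤ lam * (ε / 2) * n i :=
          mul_le_mul_of_nonneg_right (min_le_right _ _) hn'.le
      _ = lam * n i * (ε / 2) := by ring
      _ ≤ lam * n i * (ε - EJ w Φ) :=
          mul_le_mul_of_nonneg_left (by linarith only [hmean]) (by positivity)

end Vale.Agent.P150.F.D3
end

section

/-!
# From the families of D2 to uniform statements over `Good`

`ParJ`: steering matrix, field, temperature and law over a given coupling; `unif_par`: a limit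
along the family of all parameters (with arbitrary test data) is a uniform statement.
-/

open Filter Topology

namespace Vale.Agent.P150.F.D2

/-- the parameters of a datum over the couplings `J` -/
structure ParJ {n : ℕ} (J : Mat n) (CA : ℝ) where
  /-- inverse temperature -/
  r : ℝ
  /-- steering matrix -/
  A : Mat n
  /-- field -/
  y : Vec n
  /-- law -/
  ν : Cfg n → ℝ
  r0 : 0 ≤ r
  r1 : r ≤ 1
  asymm : A.IsSymm
  hs : hsq A ≤ CA
  prob : IsProb ν
  op : OpLe J 3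

/-- the datum of the parameters -/
def ParJ.dat {n : ℕ} {J : Mat n} {CA : ℝ} (p : ParJ J CA) : Dat := ⟨n, J, p.A, p.r, p.y, p.ν⟩

section

variable {I : Type} (F : Filter I) (n : I → ℕ) (J : ∀ i, Mat (n i)) (CA : ℝ) (T : I → Type)

/-- the index type: parameters and test data -/
abbrev IP : Type := Σ i, ParJ (J i) CA × T i

/-- the defect -/
noncomputable def defP (i : I) (p : ParJ (J i) CA × T i) : ℝ :=
  dlr (p.1.r • J i - p.1.A) p.1.y p.1.ν / n i

/-- the filter: `i → F` and the defect tends to zero -/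
noncomputable def filP : Filter (IP n J CA T) := dataF F (defP n J CA T)

/-- the family -/
def datP (j : IP n J CA T) : Dat := j.2.1.dat

variable {F n J}

/-- the family of all parameters satisfies the hypotheses of the universal AMP theorem -/
theorem hyp_par {β : ℝ} (h : Good β F n J) : Hyp (filP F n J CA T) (datP n J CA T) where
  n_top := h.hn.comp (dataF_fst F _)
  symm := fun j => by
    show (J j.1).IsSymm
    ext a b
    exact h.symm j.1 b a
  diag := fun j a => h.diag j.1 a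
  op := fun j => j.2.1.op
  sd := fun l ε hε => (dataF_fst F _).eventually (h.sd l ε hε)
  od := fun l ε hε => (dataF_fst F _).eventually (h.od l ε hε)
  r0 := fun j => j.2.1.r0
  r1 := fun j => j.2.1.r1
  asymm := fun j => j.2.1.asymm
  hsA := ⟨CA, fun j => j.2.1.hs⟩
  prob := fun j => j.2.1.prob
  dlr := dataF_H F _

/-- uniform form: structured parameters -/
theorem unif_par_aux {E : ∀ i, ParJ (J i) CA → T i → ℝ}
    (hE : Tendsto (fun j : IP n J CA T => E j.1 j.2.1 j.2.2) (filP F n J CA T) (𝓝 0))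
    {ε : ℝ} (hε : 0 < ε) :
    ∃ η > 0, ∀ᶠ i in F, ∀ (p : ParJ (J i) CA) (t : T i),
      dlr (p.r • J i - p.A) p.y p.ν ≤ η * n i → |E i p t| ≤ ε := by
  obtain ⟨η, hη, h⟩ := unif_of_filter (D := fun i => ParJ (J i) CA × T i)
    (H := defP n J CA T) (E := fun i d => E i d.1 d.2) hE ε hε
  refine ⟨η, hη, ?_⟩
  filter_upwards [h] with i hi p t hd
  refine hi (p, t) ?_
  unfold defP
  have h0 : 0 ≤ dlr (p.r • J i - p.A) p.y p.ν :=
    Finset.sum_nonneg fun x _ => mul_nonneg (p.prob.1 x) (Finset.sum_nonneg fun _ _ => sq_nonneg _)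
  rw [abs_of_nonneg (div_nonneg h0 (Nat.cast_nonneg _))]
  rcases Nat.eq_zero_or_pos (n i) with h1 | h1
  · have h2 : (n i : ℝ) = 0 := by exact_mod_cast h1
    calc dlr (p.r • J i - p.A) p.y p.ν / (n i : ℝ) = 0 := by rw [h2, div_zero]
      _ ≤ η := hη.le
  · rw [div_le_iff₀ (by exact_mod_cast h1)]
    exact hd

/-- **uniform form**: if an error tends to zero along the family of all parameters and test data
then it is small uniformly -/
theorem unif_par {β : ℝ} (h : Good β F n J)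
    {E : ∀ i, ℝ → Mat (n i) → Vec (n i) → (Cfg (n i) → ℝ) → T i → ℝ}
    (hE : Tendsto (fun j : IP n J CA T => E j.1 j.2.1.r j.2.1.A j.2.1.y j.2.1.ν j.2.2)
      (filP F n J CA T) (𝓝 0))
    {ε : ℝ} (hε : 0 < ε) :
    ∃ η > 0, ∀ᶠ i in F, ∀ (r : ℝ) (A : Mat (n i)) (y : Vec (n i)) (ν : Cfg (n i) → ℝ),
      0 ≤ r → r ≤ 1 → A.IsSymm → hsq A ≤ CA → IsProb ν → dlr (r • J i - A) y ν ≤ η * n i →
      ∀ t : T i, |E i r A y ν t| ≤ ε := by
  obtain ⟨η, hη, h1⟩ := unif_par_aux CA T (E := fun i p t => E i p.r p.A p.y p.ν t) hE hε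
  refine ⟨η, hη, ?_⟩
  have h2 := h.op 1 one_pos
  filter_upwards [h1, h2] with i hi hop r A y ν hr0 hr1 hA hCA hν hd t
  have hop3 : OpLe (J i) 3 := by
    norm_num at hop
    exact hop
  exact hi ⟨r, A, y, ν, hr0, hr1, hA, hCA, hν, hop3⟩ t hd

end

end Vale.Agent.P150.F.D2
end

section

/-! P150 FULL: laws of weighted sums of the noise vectors of the path space. -/

open MeasureTheory ProbabilityTheory Filter Topology
open scoped Matrix ENNReal

namespace Vale.Agent.P150.F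

variable {n : ℕ}

/-- scalar version: two independent standard Gaussians -/
theorem gs_real_two (a b : ℝ) :
    ((gaussianReal 0 1).prod (gaussianReal 0 1)).map (fun p : ℝ × ℝ => a * p.1 + b * p.2)
      = (gaussianReal 0 1).map (fun z => √(a ^ 2 + b ^ 2) * z) := by
  have e1 : ((gaussianReal 0 1).prod (gaussianReal 0 1)).map (fun p : ℝ × ℝ => a * p.1 + b * p.2)
      = ((gaussianReal 0 1).map (a * ·)) ∗ ((gaussianReal 0 1).map (b * ·)) := by
    unfold Measure.conv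
    rw [Measure.map_prod_map _ _ (by fun_prop) (by fun_prop), Measure.map_map (by fun_prop) (by fun_prop)]
    rfl
  rw [e1, gaussianReal_map_const_mul, gaussianReal_map_const_mul, gaussianReal_map_const_mul,
    gaussianReal_conv_gaussianReal]
  congr 1
  · simp
  · ext
    push_cast
    rw [Real.sq_sqrt (by positivity)]
    ring

/-- two independent standard Gaussian vectors -/
theorem gs_two (a b : ℝ) :
    ((gpi (Fin n)).prod (gpi (Fin n))).map (fun p : Vec n × Vec n => a • p.1 + b • p.2)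
      = (gpi (Fin n)).map (fun z => √(a ^ 2 + b ^ 2) • z) := by
  have h1 := (MeasureTheory.measurePreserving_arrowProdEquivProdArrow ℝ ℝ (Fin n)
    (fun _ => gaussianReal 0 1) (fun _ => gaussianReal 0 1))
  rw [show (gpi (Fin n)).prod (gpi (Fin n)) = _ from h1.map_eq.symm]
  rw [Measure.map_map (by fun_prop) (MeasurableEquiv.measurable _)]
  have h2 : ((fun p : Vec n × Vec n => a • p.1 + b • p.2) ∘
      (MeasurableEquiv.arrowProdEquivProdArrow ℝ ℝ (Fin n)))
      = fun f : Fin n → ℝ × ℝ => fun i => (fun p : ℝ × ℝ => a * p.1 + b * p.2) (f i) := by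
    funext f i
    rfl
  rw [h2, Measure.pi_map_pi (μ := fun _ : Fin n => (gaussianReal 0 1).prod (gaussianReal 0 1))
    (f := fun _ (p : ℝ × ℝ) => a * p.1 + b * p.2) (fun _ => by fun_prop)]
  simp only [gs_real_two]
  rw [← Measure.pi_map_pi (μ := fun _ : Fin n => gaussianReal 0 1)
    (f := fun _ (z : ℝ) => √(a ^ 2 + b ^ 2) * z) (fun _ => by fun_prop)]
  rfl

/-- the law of a weighted sum of the first `K` noise vectors -/
theorem gs_range (K : ℕ) (a : ℕ → ℝ) :
    (PN n).map (fun ω => ∑ j ∈ Finset.range K, a j • ω j)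
      = (gpi (Fin n)).map (fun z => √(∑ j ∈ Finset.range K, a j ^ 2) • z) := by
  induction K generalizing a with
  | zero =>
    simp only [Finset.range_zero, Finset.sum_empty, Real.sqrt_zero, zero_smul]
    rw [Measure.map_const, Measure.map_const, measure_univ, measure_univ]
  | succ K ih =>
    have hm : Measurable fun ω : ℕ → Vec n => ∑ j ∈ Finset.range (K + 1), a j • ω j :=
      Finset.measurable_fun_sum _ fun j _ => (measurable_pi_apply j).const_smul (a j)
    have hm' : Measurable fun ω : ℕ → Vec n => ∑ j ∈ Finset.range K, a (j + 1) • ω j :=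
      Finset.measurable_fun_sum _ fun j _ => (measurable_pi_apply j).const_smul (a (j + 1))
    conv_lhs => rw [← mp_consS.map_eq, Measure.map_map hm measurable_consS]
    have e1 : ((fun ω : ℕ → Vec n => ∑ j ∈ Finset.range (K + 1), a j • ω j) ∘
        fun p : Vec n × (ℕ → Vec n) => consS p.1 p.2)
        = (fun q : Vec n × Vec n => q.1 + q.2) ∘
          (fun p : Vec n × (ℕ → Vec n) => (a 0 • p.1, ∑ j ∈ Finset.range K, a (j + 1) • p.2 j)) := by
      funext p
      simp only [Function.comp_apply]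
      rw [Finset.sum_range_succ', add_comm]
      simp only [consS_zero, consS_succ]
    have e2 : ((gpi (Fin n)).prod (PN n)).map
        (fun p : Vec n × (ℕ → Vec n) => (a 0 • p.1, ∑ j ∈ Finset.range K, a (j + 1) • p.2 j))
        = ((gpi (Fin n)).prod (gpi (Fin n))).map (fun q : Vec n × Vec n => (a 0 • q.1,
            √(∑ j ∈ Finset.range K, a (j + 1) ^ 2) • q.2)) := by
      have h3 := Measure.map_prod_map (gpi (Fin n)) (PN n)
        (f := fun z : Vec n => a 0 • z) (g := fun ω : ℕ → Vec n => ∑ j ∈ Finset.range K, a (j + 1) • ω j)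
        (by fun_prop) hm'
      have h4 := Measure.map_prod_map (gpi (Fin n)) (gpi (Fin n))
        (f := fun z : Vec n => a 0 • z)
        (g := fun z : Vec n => √(∑ j ∈ Finset.range K, a (j + 1) ^ 2) • z)
        (by fun_prop) (by fun_prop)
      rw [ih (fun j => a (j + 1))] at h3
      have h5 := h3.symm.trans h4
      exact h5
    rw [e1, ← Measure.map_map (by fun_prop) (by fun_prop), e2, Measure.map_map (by fun_prop) (by fun_prop)]
    have e3 := gs_two (n := n) (a 0) (√(∑ j ∈ Finset.range K, a (j + 1) ^ 2))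
    rw [Real.sq_sqrt (Finset.sum_nonneg fun j _ => sq_nonneg _)] at e3
    rw [Finset.sum_range_succ' (fun j => a j ^ 2), add_comm (∑ j ∈ Finset.range K, a (j + 1) ^ 2)]
    exact e3

/-- the law of a weighted sum over a finite index set -/
theorem gs_finset (I : Finset ℕ) (a : ℕ → ℝ) :
    (PN n).map (fun ω => ∑ j ∈ I, a j • ω j)
      = (gpi (Fin n)).map (fun z => √(∑ j ∈ I, a j ^ 2) • z) := by
  classical
  have h := gs_range (n := n) (I.sup id + 1) (fun j => if j ∈ I then a j else 0)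
  have hI : I ⊆ Finset.range (I.sup id + 1) := fun j hj => by
    rw [Finset.mem_range]
    exact Nat.lt_succ_of_le (Finset.le_sup (f := id) hj)
  have e1 : ∀ ω : ℕ → Vec n, ∑ j ∈ Finset.range (I.sup id + 1), (if j ∈ I then a j else 0) • ω j
      = ∑ j ∈ I, a j • ω j := by
    intro ω
    rw [← Finset.sum_subset hI (f := fun j => (if j ∈ I then a j else 0) • ω j)
      fun j _ hj => by rw [if_neg hj, zero_smul]]
    exact Finset.sum_congr rfl fun j hj => by rw [if_pos hj]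
  have e2 : ∑ j ∈ Finset.range (I.sup id + 1), (if j ∈ I then a j else 0) ^ 2
      = ∑ j ∈ I, a j ^ 2 := by
    rw [← Finset.sum_subset hI (f := fun j => (if j ∈ I then a j else 0) ^ 2)
      fun j _ hj => by rw [if_neg hj]; norm_num]
    exact Finset.sum_congr rfl fun j hj => by rw [if_pos hj]
  rw [e2] at h
  simp only [e1] at h
  exact h

/-- probability form: an event of a weighted sum -/
theorem gs_prob (I : Finset ℕ) (a : ℕ → ℝ) {B : Set (Vec n)} (hB : MeasurableSet B) :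
    (PN n).real {ω | ∑ j ∈ I, a j • ω j ∈ B}
      = (gpi (Fin n)).real {z | √(∑ j ∈ I, a j ^ 2) • z ∈ B} := by
  have h := gs_finset (n := n) I a
  have hm : Measurable fun ω : ℕ → Vec n => ∑ j ∈ I, a j • ω j :=
    Finset.measurable_fun_sum _ fun j _ => (measurable_pi_apply j).const_smul (a j)
  have h1 := congrArg (fun μ : Measure (Vec n) => (μ B).toReal) h
  rw [Measure.map_apply hm hB, Measure.map_apply (by fun_prop) hB] at h1
  exact h1

end Vale.Agent.P150.F
end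

section

/-! P150 FULL, D6: there is no exit in the last phase. -/

open MeasureTheory ProbabilityTheory Filter Topology
open scoped Matrix

namespace Vale.Agent.P150.F

namespace SPar

variable {n : ℕ} (p : SPar n)

theorem qf_AA_nonneg_lp (k : ℕ) (P : p.Ctr) (v : Vec n) : 0 ≤ qf (p.AA k P) v := by
  have hsum : ∀ {ι : Type} (s : Finset ι) (B : ι → Mat n),
      qf (∑ i ∈ s, B i) v = ∑ i ∈ s, qf (B i) v := by
    intro ι s B
    classical
    induction s using Finset.induction_on with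
    | empty => simp [qf, ip]
    | insert a s ha ih => rw [Finset.sum_insert ha, Finset.sum_insert ha, Win.qf_add, ih]
  unfold AA
  rw [Win.qf_smul, hsum]
  refine mul_nonneg (sub_nonneg.2 (p.th_le_one _ _)) (Finset.sum_nonneg fun i _ => ?_)
  rw [hsum]
  refine Finset.sum_nonneg fun a _ => ?_
  rw [Win.qf_smul, Win.qf_vecMulVec]
  exact mul_nonneg (mul_nonneg (p.th_nonneg _ _) p.hKs) (sq_nonneg _)

/-- no exit in the last phase -/
theorem not_exit_last {c : ℝ} (hc : 0 < c) (hc1 : c ≤ 1) {k : ℕ}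
    (h1 : p.Nw * (p.d + 1) * p.q ≤ k) {P : p.Ctr} (hV : p.Valid k P) (y : Vec n) :
    ((k, (P, y)) : p.St) ∉ p.exitS c := by
  have hA := p.qf_AA_nonneg_lp k P
  have hM := p.mono_last hc1 h1 P hA
  have hE : ∃ m, p.IsSol k P y m := by
    set g := nv (tapG (p.rr k) p.J (p.AA k P) y 0) with hg
    have hR : √n ≤ max (√n) (g / c + 1) := le_max_left _ _
    have hM' : ∀ m ∈ Win.window 0 (max (√n) (g / c + 1)), ∀ v,
        c * sq v ≤ qf (Hess (p.rr k) p.J (p.AA k P) m) v := by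
      intro m hm v
      exact hM m ((p.mem_window_last h1 P m).2 ((window_zero_big hR).1 hm)) v
    obtain ⟨m', hm', h3, -⟩ := Win.exists_tap (m0 := 0) p.hJ (p.AA_symmC k P) hc hM'
      (fun i => by simp) (by
        rw [sub_zero, nv_zero, zero_add]
        exact lt_of_lt_of_le (by linarith only []) (le_max_right _ _))
    exact ⟨m', (p.mem_window_last h1 P m').2 ((window_zero_big hR).1 hm'), h3⟩
  rintro (h | h | h | h)
  · exact h hV
  · exact h hM
  · exact h hE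
  · exact p.not_far_last h1 P _ h

end SPar

end Vale.Agent.P150.F
end

section

/-! P150 FULL, D6: the trajectories of the concrete process, in the form used by the no-exit theorem
(helper105). -/

open MeasureTheory ProbabilityTheory Filter Topology
open scoped Matrix

namespace Vale.Agent.P150.F

namespace SPar

variable {n : ℕ} {p : SPar n}

theorem lp_div_iff (p : SPar n) {j f : ℕ} :
    j / p.q = f ↔ f * p.q ≤ j ∧ j < (f + 1) * p.q := by
  have hq := p.hq
  constructor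
  · intro h
    exact ⟨(Nat.le_div_iff_mul_le hq).1 h.ge, (Nat.div_lt_iff_lt_mul hq).1 (by omega)⟩
  · rintro ⟨h1, h2⟩
    have h3 := (Nat.le_div_iff_mul_le hq).2 h1
    have h4 := (Nat.div_lt_iff_lt_mul hq).2 h2
    omega

theorem lvl_eq (p : SPar n) (f k : ℕ) :
    p.lvl f k = Finset.Ico (f * p.q) (min k ((f + 1) * p.q)) := by
  unfold lvl
  ext j
  rw [Finset.mem_filter, Finset.mem_range, Finset.mem_Ico, p.lp_div_iff, lt_min_iff]
  tauto

/-- the steering noise of phase `f` in the direction `v`, up to level `k` -/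
noncomputable def bst (p : SPar n) (v : Vec n) (ω : ℕ → Vec n) (f k : ℕ) : ℝ :=
  ∑ l ∈ Finset.Ico (f * p.q) k, √(p.dl * p.Ks) * ip v (ω l)

theorem bS_eq (p : SPar n) (v : Vec n) (ω : ℕ → Vec n) (i a k : ℕ) :
    p.bS v ω i a k = p.bst v ω (i * (p.d + 1) + a) (min k ((i * (p.d + 1) + a + 1) * p.q)) := by
  unfold bS bst
  rw [lvl_eq, ip_sum_right, Finset.mul_sum]
  refine Finset.sum_congr rfl fun l _ => ?_
  rw [ip_smul_right, Real.sqrt_mul p.lp_dl_pos.le]
  ring

/-! ### the discrete part -/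

/-- the couplings at level `k` depend only on the centres of started windows -/
theorem AA_congr (p : SPar n) {k : ℕ} {P P' : p.Ctr}
    (h : ∀ i : Fin p.Nw, (i : ℕ) * (p.d + 1) * p.q < k → P i = P' i) :
    p.AA k P = p.AA k P' := by
  unfold AA
  congr 1
  refine Finset.sum_congr rfl fun i _ => Finset.sum_congr rfl fun a _ => ?_
  by_cases h1 : (i : ℕ) * (p.d + 1) * p.q < k
  · unfold vd ctr
    rw [h i h1]
  · have h2 : k ≤ ((i : ℕ) * (p.d + 1) + a) * p.q := by
      refine le_trans (by omega : k ≤ (i : ℕ) * (p.d + 1) * p.q) ?_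
      gcongr
      omega
    rw [p.lp_th_eq_zero h2, zero_mul, zero_smul, zero_smul]

theorem lp_AA_updC (p : SPar n) (k : ℕ) (P : p.Ctr) (m : Vec n) :
    p.AA k (p.updC k P m) = p.AA k P := by
  refine p.AA_congr fun i hi => ?_
  funext j
  unfold updC
  rw [if_neg (by omega)]

/-- the centre of the ball is not changed by the update, if there is a steering phase -/
theorem lp_cen_updC (p : SPar n) (hd : 0 < p.d) (k : ℕ) (P : p.Ctr) (m : Vec n) :
    p.cen k (p.updC k P m) = p.cen k P := by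
  have hq := p.hq
  by_cases hk : k < p.Nw * (p.d + 1) * p.q
  · rcases p.lp_cases hk with ⟨i, a, hf, hkind⟩ | ⟨i, hf, hkind⟩
    · unfold cen
      rw [hkind]
      simp only
      unfold ctrPrev
      by_cases h0 : 0 < (i : ℕ)
      · rw [dif_pos h0, dif_pos h0]
        unfold ctr
        have h1 : p.updC k P m ⟨(i : ℕ) - 1, by omega⟩ = P ⟨(i : ℕ) - 1, by omega⟩ := by
          funext j
          unfold updC
          rw [if_neg]
          simp only
          have h2 : ((i : ℕ) - 1) * (p.d + 1) * p.q < k := by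
            have h3 := lp_start_le (i := i) (a := a) hf
            have h4 : ((i : ℕ) - 1) * (p.d + 1) * p.q < i * (p.d + 1) * p.q := by
              have : (i : ℕ) - 1 < i := by omega
              have h5 : 0 < (p.d + 1) * p.q := by positivity
              rw [mul_assoc, mul_assoc]
              exact Nat.mul_lt_mul_of_pos_right this h5
            omega
          omega
        rw [h1]
      · rw [dif_neg h0, dif_neg h0]
    · unfold cen
      rw [hkind]
      simp only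
      unfold ctr
      have h1 : p.updC k P m i = P i := by
        funext j
        unfold updC
        rw [if_neg]
        have h2 : (i * (p.d + 1) + p.d) * p.q ≤ k := by
          rw [← hf]; exact Nat.div_mul_le_self _ _
        have h3 : (i : ℕ) * (p.d + 1) * p.q < (i * (p.d + 1) + p.d) * p.q := by
          exact Nat.mul_lt_mul_of_pos_right (by omega) hq
        omega
      rw [h1]
  · have h1 : ¬ k / p.q / (p.d + 1) < p.Nw := by
      intro h2
      apply hk
      have h3 := (Nat.div_lt_iff_lt_mul (by omega : 0 < p.d + 1)).1 h2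
      exact (Nat.div_lt_iff_lt_mul hq).1 h3
    unfold cen kind
    rw [dif_neg h1]
    split_ifs <;> rfl

theorem Mono_congr (p : SPar n) {c : ℝ} {k : ℕ} {P P' : p.Ctr} (h1 : p.cen k P = p.cen k P')
    (h2 : p.AA k P = p.AA k P') : p.Mono c k P ↔ p.Mono c k P' := by
  unfold Mono; rw [h1, h2]

theorem IsSol_congr (p : SPar n) {k : ℕ} {P P' : p.Ctr} (h1 : p.cen k P = p.cen k P')
    (h2 : p.AA k P = p.AA k P') (y m : Vec n) : p.IsSol k P y m ↔ p.IsSol k P' y m := by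
  unfold IsSol; rw [h1, h2]

theorem mh_congr (p : SPar n) {c : ℝ} {k : ℕ} {P P' : p.Ctr} (h1 : p.cen k P = p.cen k P')
    (h2 : p.AA k P = p.AA k P') (y : Vec n) : p.mh c k P y = p.mh c k P' y := by
  have h3 : (p.Mono c k P ∧ ∃ m, p.IsSol k P y m) ↔ (p.Mono c k P' ∧ ∃ m, p.IsSol k P' y m) := by
    rw [p.Mono_congr h1 h2]
    simp only [p.IsSol_congr h1 h2]
  have h4 : (fun m => p.IsSol k P y m) = fun m => p.IsSol k P' y m := by
    funext m
    exact propext (p.IsSol_congr h1 h2 y m)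
  unfold mh
  by_cases h5 : p.Mono c k P ∧ ∃ m, p.IsSol k P y m
  · rw [dif_pos h5, dif_pos (h3.1 h5)]
    congr 1
  · rw [dif_neg h5, dif_neg (fun h => h5 (h3.2 h))]

/-- the tracked solution is not changed by the update of the centres -/
theorem lp_mh_updC (p : SPar n) (hd : 0 < p.d) (c : ℝ) (k : ℕ) (P : p.Ctr) (m y : Vec n) :
    p.mh c k (p.updC k P m) y = p.mh c k P y :=
  p.mh_congr (p.lp_cen_updC hd k P m) (p.lp_AA_updC k P m) y

/-! ### trajectories -/

section Traj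

variable {c : ℝ} (hM : p.MMSucc) (hm : p.MhMeas c)

/-- level, centres and field of the trajectory from the initial state -/
theorem traj_lev (x : Cfg n) (ω : ℕ → Vec n) (s : p.St) (k : ℕ) :
    ((p.proc c hM hm).traj s x ω k).1 = s.1 + k := by
  induction k with
  | zero => rfl
  | succ k ih =>
    rw [Proc.traj_succ]
    show ((p.proc c hM hm).traj s x ω k).1 + 1 = s.1 + (k + 1)
    rw [ih]; ring

/-- the trajectory from the initial state -/
noncomputable def tr (x : Cfg n) (ω : ℕ → Vec n) (k : ℕ) : p.St :=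
  (p.proc c hM hm).traj (0, (0, 0)) x ω k

theorem tr_lev (x : Cfg n) (ω : ℕ → Vec n) (k : ℕ) : (tr hM hm x ω k).1 = k := by
  unfold tr; rw [traj_lev]; exact zero_add k

/-- the trajectory of the concrete process is a path; the tracked solution at level `k` is
`mh c k (P k) (y k)` -/
theorem isPath (hd : 0 < p.d) (x : Cfg n) (ω : ℕ → Vec n) :
    p.IsPath x ω (fun k => (tr hM hm x ω k).2.1) (fun k => (tr hM hm x ω k).2.2)
      (fun k => p.mh c k (tr hM hm x ω k).2.1 (tr hM hm x ω k).2.2) := by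
  have hstep : ∀ k, tr hM hm x ω (k + 1)
      = p.nxtS c (tr hM hm x ω k)
          (obs (p.RR (tr hM hm x ω k).1 (tr hM hm x ω k).2.1) p.dl x (ω k)) := by
    intro k; rfl
  have hP : ∀ k, (tr hM hm x ω (k + 1)).2.1 = p.updC (k + 1) (tr hM hm x ω k).2.1
      (p.mh c (k + 1) (tr hM hm x ω k).2.1 (tr hM hm x ω (k + 1)).2.2) := by
    intro k
    rw [hstep k]
    unfold nxtS
    simp only [tr_lev]
  refine ⟨rfl, rfl, fun k => ?_, fun k => ?_⟩
  · have h1 := p.lp_mh_updC hd c (k + 1) (tr hM hm x ω k).2.1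
      (p.mh c (k + 1) (tr hM hm x ω k).2.1 (tr hM hm x ω (k + 1)).2.2)
      (tr hM hm x ω (k + 1)).2.2
    rw [← hP k] at h1
    rw [h1]
    exact hP k
  · rw [hstep k]
    unfold nxtS
    simp only [tr_lev]

end Traj

/-! ### the data along a path -/

section Path

variable {x : Cfg n} {ω : ℕ → Vec n} {P : ℕ → p.Ctr} {y m : ℕ → Vec n}

end Path

end SPar

end Vale.Agent.P150.F
end

section

/-! P150 FULL, D6 (O1): the events (T3) on the concrete schedule. -/

open MeasureTheory ProbabilityTheory Filter Topology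
open scoped Matrix ENNReal

namespace Vale.Agent.P150.F

open Ms

variable {n : ℕ}

theorem hs_smul' (c : ℝ) (A : Mat n) : hs (c • A) = |c| * hs A := by
  unfold hs
  have h : hsq (c • A) = c ^ 2 * hsq A := by
    unfold hsq
    rw [Finset.mul_sum]
    refine Finset.sum_congr rfl fun i _ => ?_
    rw [Finset.mul_sum]
    refine Finset.sum_congr rfl fun j _ => ?_
    rw [Matrix.smul_apply, smul_eq_mul]; ring
  rw [h, Real.sqrt_mul (sq_nonneg c), Real.sqrt_sq_eq_abs]

theorem hs_vv (v : Vec n) : hs (Matrix.vecMulVec v v) = sq v := by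
  unfold hs
  have h : hsq (Matrix.vecMulVec v v) = sq v ^ 2 := by
    unfold hsq sq
    rw [_root_.sq (∑ i, v i ^ 2), Finset.sum_mul]
    refine Finset.sum_congr rfl fun i _ => ?_
    rw [Finset.mul_sum]
    refine Finset.sum_congr rfl fun j _ => ?_
    rw [Matrix.vecMulVec_apply]; ring
  rw [h, Real.sqrt_sq (sqN_nonneg v)]

theorem hs_sum_le {ι : Type*} (s : Finset ι) (A : ι → Mat n) :
    hs (∑ i ∈ s, A i) ≤ ∑ i ∈ s, hs (A i) := by
  classical
  induction s using Finset.induction_on with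
  | empty => simp [hs, hsq]
  | insert a s ha ih =>
    rw [Finset.sum_insert ha, Finset.sum_insert ha]
    exact (hs_add_le _ _).trans (by gcongr)

namespace SPar

variable (p : SPar n)

theorem ts_rr_nonneg (k : ℕ) : 0 ≤ p.rr k := by
  have h1 : ∑ i : Fin p.Nw, p.th (i * (p.d + 1) + p.d) k ≤ p.Nw := by
    calc ∑ i : Fin p.Nw, p.th (i * (p.d + 1) + p.d) k ≤ ∑ _i : Fin p.Nw, (1 : ℝ) :=
          Finset.sum_le_sum fun i _ => p.lp_th_le_one _ _
      _ = p.Nw := by simp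
  have h2 : p.τ * ∑ i : Fin p.Nw, p.th (i * (p.d + 1) + p.d) k ≤ p.τ * p.Nw :=
    mul_le_mul_of_nonneg_left h1 p.lp_τ_nonneg
  have h3 : p.τ * p.Nw = p.β := by
    have : (p.Nw : ℝ) ≠ 0 := by exact_mod_cast p.hNw.ne'
    unfold τ
    field_simp
  unfold rr
  linarith

theorem ts_rr_le (k : ℕ) : p.rr k ≤ p.β := by
  have h1 : 0 ≤ p.τ * ∑ i : Fin p.Nw, p.th (i * (p.d + 1) + p.d) k :=
    mul_nonneg p.lp_τ_nonneg (Finset.sum_nonneg fun i _ => p.lp_th_nonneg _ _)
  unfold rr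
  linarith only [h1]

theorem ts_rr_le_one (k : ℕ) : p.rr k ≤ 1 := (p.ts_rr_le k).trans p.hβ1.le

theorem ts_AA_symm (k : ℕ) (P : p.Ctr) : (p.AA k P).IsSymm := by
  unfold AA Matrix.IsSymm
  rw [Matrix.transpose_smul, Matrix.transpose_sum]
  congr 1
  refine Finset.sum_congr rfl fun i _ => ?_
  rw [Matrix.transpose_sum]
  refine Finset.sum_congr rfl fun a _ => ?_
  rw [Matrix.transpose_smul, Matrix.transpose_vecMulVec]

theorem ts_vd_sq (P : p.Ctr) (i : Fin p.Nw) (a : Fin p.d) : sq (p.vd P i a) ≤ 1 := by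
  rcases p.vd_sq_cases P i a with h | h
  · rw [h]; unfold sq; simp
  · exact h.le

theorem ts_AA_hsq (k : ℕ) (P : p.Ctr) : hsq (p.AA k P) ≤ (p.Nw * p.d * p.Ks) ^ 2 := by
  have hKs := p.hKs
  have h0 := p.lp_th_nonneg (p.Nw * (p.d + 1)) k
  have h1 := p.lp_th_le_one (p.Nw * (p.d + 1)) k
  have h2 : hs (p.AA k P) ≤ p.Nw * p.d * p.Ks := by
    unfold AA
    rw [hs_smul', abs_of_nonneg (by linarith)]
    have h3 : hs (∑ i : Fin p.Nw, ∑ a : Fin p.d,
        (p.th (i * (p.d + 1) + a) k * p.Ks) • Matrix.vecMulVec (p.vd P i a) (p.vd P i a))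
        ≤ p.Nw * p.d * p.Ks := by
      refine (hs_sum_le _ _).trans ?_
      calc ∑ i : Fin p.Nw, hs (∑ a : Fin p.d,
          (p.th (i * (p.d + 1) + a) k * p.Ks) • Matrix.vecMulVec (p.vd P i a) (p.vd P i a))
          ≤ ∑ _i : Fin p.Nw, ∑ _a : Fin p.d, p.Ks := by
            refine Finset.sum_le_sum fun i _ => (hs_sum_le _ _).trans ?_
            refine Finset.sum_le_sum fun a _ => ?_
            rw [hs_smul', hs_vv]
            have h4 := p.lp_th_nonneg (i * (p.d + 1) + a) k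
            have h5 := p.lp_th_le_one (i * (p.d + 1) + a) k
            rw [abs_of_nonneg (mul_nonneg h4 hKs)]
            have h6 := p.ts_vd_sq P i a
            have h7 := sqN_nonneg (p.vd P i a)
            calc p.th (i * (p.d + 1) + a) k * p.Ks * sq (p.vd P i a)
                ≤ 1 * p.Ks * 1 := by gcongr
              _ = p.Ks := by ring
        _ = p.Nw * p.d * p.Ks := by simp; ring
    have h8 : 0 ≤ hs (∑ i : Fin p.Nw, ∑ a : Fin p.d,
        (p.th (i * (p.d + 1) + a) k * p.Ks) • Matrix.vecMulVec (p.vd P i a) (p.vd P i a)) :=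
      hs_nn _
    linarith only [mul_nonneg (sub_nonneg.2 h0) (sub_nonneg.2 h3), mul_nonneg (sub_nonneg.2 h0) (sub_nonneg.2 h8), mul_nonneg (sub_nonneg.2 h1) (sub_nonneg.2 h3)]
  rw [← hs_sq]
  exact pow_le_pow_left₀ (hs_nn _) h2 2

end SPar

/-- (T3) on the concrete schedule: all levels `k`, all directions, all AMP indices up to `K` -/
theorem T3_sched (h1 : CH1) (hG : CHG) {I : Type*} {F : Filter I} {n : I → ℕ}
    {J : ∀ i, Mat (n i)} (hX : X2S F n J) (CA : ℝ) (K : ℕ) {ε : ℝ} (hε : 0 < ε) :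
    ∃ c > 0, ∀ᶠ i in F, ∀ p : SPar (n i), p.J = J i → p.Nw * p.d * p.Ks ≤ CA →
      ∀ (c₁ : ℝ) (hM : p.MMSucc) (hm : p.MhMeas c₁) (iw : Fin p.Nw) (a : Fin p.d) (k : ℕ)
        (s : p.St), ∀ j ≤ K,
        PE ((p.proc c₁ hM hm).law s) (fun x ω =>
          ε * √(n i) < |ip (p.vd ((p.proc c₁ hM hm).traj s x ω k).2.1 iw a) (sv x
          - ampM (p.rr ((p.proc c₁ hM hm).traj s x ω k).1 • p.J
              - p.AA ((p.proc c₁ hM hm).traj s x ω k).1 ((p.proc c₁ hM hm).traj s x ω k).2.1)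
            (p.rr ((p.proc c₁ hM hm).traj s x ω k).1)
            ((p.proc c₁ hM hm).traj s x ω k).2.2 x j)|) ≤ Real.exp (-(c * n i)) := by
  obtain ⟨c, hc, hi⟩ := T3_prob h1 hG hX (CA ^ 2) K hε
  refine ⟨c, hc, ?_⟩
  filter_upwards [hi] with i hi p hpJ hCA c₁ hM hm iw a k s j hj
  have hKs := p.hKs
  have hCA' : ∀ s : p.St, hsq (p.AA s.1 s.2.1) ≤ CA ^ 2 := fun s =>
    (p.ts_AA_hsq s.1 s.2.1).trans (pow_le_pow_left₀ (by (clear * - hKs; positivity)) hCA 2)
  have hmP : Measurable fun s : p.St => s.2.1 := measurable_fst.comp measurable_snd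
  have hvm : MVec fun s : p.St => p.vd s.2.1 iw a := fun l =>
    p.meas_disc fun _ P => p.vd P iw a l
  have hAm : MMat fun s : p.St => p.AA s.1 s.2.1 := fun l l' =>
    p.meas_disc fun k P => p.AA k P l l'
  have hrm : Measurable fun s : p.St => p.rr s.1 := p.meas_disc fun k _ => p.rr k
  rcases j with _ | j
  · -- `m⁰ = x`
    have hz : ∀ (x : Cfg (n i)) (ω : ℕ → Vec (n i)), ¬ (ε * √(n i)
        < |ip (p.vd ((p.proc c₁ hM hm).traj s x ω k).2.1 iw a) (sv x
          - ampM (p.rr ((p.proc c₁ hM hm).traj s x ω k).1 • p.J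
              - p.AA ((p.proc c₁ hM hm).traj s x ω k).1 ((p.proc c₁ hM hm).traj s x ω k).2.1)
            (p.rr ((p.proc c₁ hM hm).traj s x ω k).1)
            ((p.proc c₁ hM hm).traj s x ω k).2.2 x 0)|) := by
      intro x ω
      rw [show ampM (p.rr ((p.proc c₁ hM hm).traj s x ω k).1 • p.J
              - p.AA ((p.proc c₁ hM hm).traj s x ω k).1 ((p.proc c₁ hM hm).traj s x ω k).2.1)
            (p.rr ((p.proc c₁ hM hm).traj s x ω k).1)
            ((p.proc c₁ hM hm).traj s x ω k).2.2 x 0 = sv x from rfl, sub_self]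
      have : ip (p.vd ((p.proc c₁ hM hm).traj s x ω k).2.1 iw a) (0 : Vec (n i)) = 0 := by
        unfold ip; simp
      rw [this, abs_zero, not_lt]
      (clear * - hε; positivity)
    rw [PE_congr (E' := fun _ _ => False) fun x ω => iff_of_false (hz x ω) id, PE_false]
    exact (Real.exp_pos _).le
  · have h := hi p.St (p.proc c₁ hM hm) (fun s => p.rr s.1) (fun s => p.cc s.1)
      (fun s => p.AA s.1 s.2.1) (fun s => p.vd s.2.1 iw a)
      (fun s => by
        show p.MM s.1 s.2.1 = _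
        unfold SPar.MM
        rw [hpJ]) hrm hAm hvm (fun s => p.ts_rr_nonneg _) (fun s => p.ts_rr_le_one _)
      (fun s => p.ts_AA_symm _ _) hCA' (fun s => p.ts_vd_sq _ _ _) k s j (by omega)
    refine le_trans (PE_mono (fun x => ((p.proc c₁ hM hm).law_pos s x).le) fun x ω hω => ?_) h
    rw [hpJ] at hω
    exact hω.le

end Vale.Agent.P150.F
end

section

/-! P150 FULL, D6 (O1): the exit probability is at most the probability of the bad events. -/

open MeasureTheory ProbabilityTheory Filter Topology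
open scoped Matrix ENNReal

namespace Vale.Agent.P150.F

variable {n : ℕ}

namespace SPar

variable {p : SPar n}

/-- without exit before the last phase all centres are in the closed cube -/
theorem valid_of_not_exit {x : Cfg n} {ω : ℕ → Vec n} {P : ℕ → p.Ctr} {y m : ℕ → Vec n}
    (h : p.IsPath x ω P y m) {c : ℝ}
    (hne : ∀ k < p.Nw * (p.d + 1) * p.q, ((k, (P k, y k)) : p.St) ∉ p.exitS c) (k : ℕ) :
    p.Valid k (P k) := by
  intro i hi j
  have h1 : (i : ℕ) * (p.d + 1) * p.q < p.Nw * (p.d + 1) * p.q := by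
    have := p.hq
    have h2 : 0 < (p.d + 1) * p.q := by (clear * - this; positivity)
    rw [mul_assoc, mul_assoc]
    exact Nat.mul_lt_mul_of_pos_right i.2 h2
  have h2 := hne _ h1
  have h3 : p.Valid (i * (p.d + 1) * p.q) (P (i * (p.d + 1) * p.q)) := by
    by_contra hcon
    exact h2 (Or.inl hcon)
  rw [h.ctr_eq i le_rfl hi]
  exact h3 i le_rfl j

/-- no exit at all -/
theorem no_exit_all {x : Cfg n} {ω : ℕ → Vec n} {P : ℕ → p.Ctr} {y m : ℕ → Vec n}
    (h : p.IsPath x ω P y m) {c : ℝ} (hc : 0 < c) (hc1 : c ≤ 1)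
    (hne : ∀ k < p.Nw * (p.d + 1) * p.q, ((k, (P k, y k)) : p.St) ∉ p.exitS c) (k : ℕ) :
    ((k, (P k, y k)) : p.St) ∉ p.exitS c := by
  by_cases hk : k < p.Nw * (p.d + 1) * p.q
  · exact hne k hk
  · exact p.not_exit_last hc hc1 (not_lt.1 hk) (valid_of_not_exit h hne k) _

theorem tr_eq {c : ℝ} (hM : p.MMSucc) (hm : p.MhMeas c) (x : Cfg n) (ω : ℕ → Vec n) (k : ℕ) :
    tr hM hm x ω k = (k, ((tr hM hm x ω k).2.1, (tr hM hm x ω k).2.2)) := by
  conv_lhs => rw [← Prod.mk.eta (p := tr hM hm x ω k), tr_lev]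

/-- **exit probability** -/
theorem pexit_le (hd : 0 < p.d) {c : ℝ} (hc : 0 < c) (hc1 : c ≤ 1) (hM : p.MMSucc)
    (hm : p.MhMeas c) {G : Cfg n → (ℕ → Vec n) → Prop}
    (hno : ∀ x ω, G x ω → ∀ k < p.Nw * (p.d + 1) * p.q,
      ((k, ((tr hM hm x ω k).2.1, (tr hM hm x ω k).2.2)) : p.St) ∉ p.exitS c) :
    (p.loc c hM hm).pexit ≤ PE (gM (p.β • p.J) 0) (fun x ω => ¬ G x ω) := by
  have e0 : (p.proc c hM hm).law (0, (0, 0)) = gM (p.β • p.J) 0 := by
    show gM (p.MM 0 0) 0 = _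
    rw [p.MM_zero]
  have e1 : (p.loc c hM hm).pexit
      = PE (gM (p.β • p.J) 0) (fun x ω => ∃ j ≤ p.N, tr hM hm x ω j ∈ p.exitS c) := by
    rw [← e0]
    exact (p.proc c hM hm).hitE_const_eq (p.meas_exitS hc) p.N (0, (0, 0))
  rw [e1]
  refine PE_mono (fun x => (gM_pos _ _ x).le) ?_
  rintro x ω ⟨j, _, hj⟩ hG
  rw [tr_eq] at hj
  exact no_exit_all (isPath hM hm hd x ω) hc hc1 (hno x ω hG) j hj

end SPar

end Vale.Agent.P150.F
end

section

/-! P150 FULL, D6 (O1): the events (T1), (T2) at the levels of the concrete schedule (helper551). -/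

open MeasureTheory ProbabilityTheory Filter Topology
open scoped Matrix ENNReal

namespace Vale.Agent.P150.F

open Ms

variable {n : ℕ}

namespace SPar

variable (p : SPar n)

/-- the joint law of the spins and of the killing field at level `k` is the one of the one-shot
channel with time `β - rr k` -/
theorem PE_yJ (μ : Cfg n → ℝ) (k : ℕ) {B : Cfg n → Vec n → Prop}
    (hB : ∀ x, MeasurableSet {y | B x y}) :
    PE μ (fun x ω => B x (p.yJ x ω k))
      = ∑ x, μ x * (gpi (Fin n)).real {ξ | B x (obs p.S0 (p.β - p.rr k) x ξ)} := by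
  unfold PE
  refine Finset.sum_congr rfl fun x _ => ?_
  congr 1
  set f : Vec n → Vec n := fun z =>
    (p.β - p.rr k) • (p.J + p.κ₀ • (1 : Mat n)).mulVec (sv x) + p.S0.mulVec z with hf
  have hfm : Measurable f := by
    have h1 : MVec (fun z : Vec n => p.S0.mulVec z) :=
      (MMat.const p.S0).mulVec (mvec_of measurable_id)
    exact measurable_const.add h1.measurable
  have h := gs_prob (n := n) (p.lvlJ k) (fun _ => √(p.dl * p.τ)) (B := {z | B x (f z)})
    (hfm (hB x))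
  rw [p.card_lvlJ k] at h
  have e1 : {ω : ℕ → Vec n | B x (p.yJ x ω k)}
      = {ω | ∑ j ∈ p.lvlJ k, √(p.dl * p.τ) • ω j ∈ {z | B x (f z)}} := rfl
  rw [e1, h]
  congr 1
  ext ξ
  simp only [Set.mem_ofPred_eq]
  have e2 : f (√(p.β - p.rr k) • ξ) = obs p.S0 (p.β - p.rr k) x ξ := by
    funext i
    simp only [hf, obs, p.hS0, Matrix.mulVec_smul, Pi.add_apply, Pi.smul_apply, smul_eq_mul]
  rw [e2]

end SPar

/-- measurability of events of the AMP iterates in the field -/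
theorem measurable_nv_ampM_sub (M : Mat n) (r : ℝ) (x : Cfg n) (j k : ℕ) :
    Measurable fun y : Vec n => nv (ampM M r y x j - ampM M r y x k) := by
  have hid : MVec (fun y : Vec n => y) := mvec_of measurable_id
  exact ((MVec.ampM (MMat.const M) measurable_const hid x j).sub
    (MVec.ampM (MMat.const M) measurable_const hid x k)).nv

/-- what D3c delivers (T1), (T2) -/
def T12S (β κ : ℝ) {I : Type} (F : Filter I) (n : I → ℕ) (J : ∀ i, Mat (n i)) : Prop :=
  ∀ ε > 0, ∃ K₀ : ℕ, ∀ K ≥ K₀, ∃ c > 0, ∀ᶠ i in F,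
    (∑ x, gM (β • J i) 0 x * Set.indicator {x | ε * n i ≤ sq (ampM (β • J i) β 0 x K)}
      (fun _ => (1 : ℝ)) x) ≤ Real.exp (-(c * n i)) ∧
    ∀ s ∈ Set.Icc 0 β, ∀ (m : ℕ) (R : Matrix (Fin (n i)) (Fin m) ℝ),
      R * Rᵀ = J i + κ • (1 : Mat (n i)) →
      ∑ x, gM (β • J i) 0 x * (gpi (Fin m)).real {ξ | ε * n i ≤
        sq (ampM ((β - s) • J i) (β - s) (obs R s x ξ) x (K + 1)
          - ampM ((β - s) • J i) (β - s) (obs R s x ξ) x K)} ≤ Real.exp (-(c * n i))

namespace SPar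

variable (p : SPar n)

theorem t12_rr_le (k : ℕ) : p.rr k ≤ p.β := by
  unfold rr
  have h : 0 ≤ ∑ i : Fin p.Nw, p.th (i * (p.d + 1) + p.d) k :=
    Finset.sum_nonneg fun i _ => p.lp_th_nonneg _ _
  linarith only [mul_nonneg p.lp_τ_nonneg h]

theorem t12_rr_nonneg (k : ℕ) : 0 ≤ p.rr k := by
  unfold rr
  have h : ∑ i : Fin p.Nw, p.th (i * (p.d + 1) + p.d) k ≤ p.Nw := by
    calc ∑ i : Fin p.Nw, p.th (i * (p.d + 1) + p.d) k ≤ ∑ _i : Fin p.Nw, (1 : ℝ) :=
          Finset.sum_le_sum fun i _ => p.lp_th_le_one _ _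
      _ = p.Nw := by simp
  have h1 : p.τ * ∑ i : Fin p.Nw, p.th (i * (p.d + 1) + p.d) k ≤ p.τ * p.Nw :=
    mul_le_mul_of_nonneg_left h p.lp_τ_nonneg
  have h2 : p.τ * p.Nw = p.β := by
    unfold τ
    have : (p.Nw : ℝ) ≠ 0 := by exact_mod_cast p.hNw.ne'
    field_simp
  linarith only [h2, h1]

end SPar

theorem nv_ge_iff {ε : ℝ} (hε : 0 ≤ ε) (v : Vec n) : ε * √n ≤ nv v ↔ ε ^ 2 * n ≤ sq v := by
  rw [← nv_sq]
  have h : (ε * √n) ^ 2 = ε ^ 2 * n := by rw [mul_pow, Real.sq_sqrt (Nat.cast_nonneg n)]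
  rw [← h]
  constructor
  · intro h1
    exact pow_le_pow_left₀ (by (clear * - hε; positivity)) h1 2
  · intro h1
    exact le_of_sq_le_sq h1 (nv_nonneg _)

/-- (T1), (T2) for the concrete schedule, at every level, for finitely many AMP indices -/
theorem T12_prob {β κ : ℝ} {I : Type} {F : Filter I} {n : I → ℕ} {J : ∀ i, Mat (n i)}
    (hD : T12S β κ F n J) {e : ℝ} (he : 0 < e) (L : ℕ) :
    ∃ K₀ : ℕ, ∀ K ≥ K₀, ∃ c > 0, ∀ᶠ i in F, ∀ p : SPar (n i), p.β = β → p.κ₀ = κ → p.J = J i →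
      ∀ K' ∈ Finset.Icc K (K + L),
        (PE (gM (β • J i) 0) (fun x (_ : ℕ → Vec (n i)) =>
          e * √(n i) ≤ nv (ampM (β • J i) β 0 x K')) ≤ Real.exp (-(c * n i))) ∧
        ∀ k : ℕ, PE (gM (β • J i) 0) (fun x ω => e * √(n i) ≤
          nv (ampM (p.rr k • p.J) (p.rr k) (p.yJ x ω k) x (K' + 1)
            - ampM (p.rr k • p.J) (p.rr k) (p.yJ x ω k) x K')) ≤ Real.exp (-(c * n i)) := by
  classical
  obtain ⟨K₀, hK₀⟩ := hD (e ^ 2) (by positivity)
  refine ⟨K₀, fun K hK => ?_⟩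
  have key : ∀ j : ℕ, ∃ c > 0, ∀ᶠ i in F, ∀ p : SPar (n i), p.β = β → p.κ₀ = κ → p.J = J i →
        (PE (gM (β • J i) 0) (fun x (_ : ℕ → Vec (n i)) =>
          e * √(n i) ≤ nv (ampM (β • J i) β 0 x (K + j))) ≤ Real.exp (-(c * n i))) ∧
        ∀ k : ℕ, PE (gM (β • J i) 0) (fun x ω => e * √(n i) ≤
          nv (ampM (p.rr k • p.J) (p.rr k) (p.yJ x ω k) x (K + j + 1)
            - ampM (p.rr k • p.J) (p.rr k) (p.yJ x ω k) x (K + j))) ≤ Real.exp (-(c * n i)) := by
    intro j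
    obtain ⟨c, hc, hev⟩ := hK₀ (K + j) (by omega)
    refine ⟨c, hc, ?_⟩
    filter_upwards [hev] with i hi p hβ hκ hJ
    obtain ⟨h1, h2⟩ := hi
    constructor
    · rw [PE_spin]
      refine le_trans (le_of_eq ?_) h1
      refine Finset.sum_congr rfl fun x _ => ?_
      rw [Set.indicator_apply]
      simp only [Set.mem_ofPred_eq, nv_ge_iff he.le]
      split_ifs <;> simp
    · intro k
      have h3 := h2 (β - p.rr k) ⟨by rw [← hβ]; linarith only [p.t12_rr_le k],
        by linarith only [p.t12_rr_nonneg k]⟩ _ p.S0 (by rw [p.hS0, hJ, hκ])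
      have h4 := p.PE_yJ (gM (β • J i) 0) k (B := fun x y => e * √(n i) ≤
          nv (ampM (p.rr k • p.J) (p.rr k) y x (K + j + 1)
            - ampM (p.rr k • p.J) (p.rr k) y x (K + j)))
        (fun x => measurableSet_le measurable_const (measurable_nv_ampM_sub _ _ _ _ _))
      rw [h4]
      refine le_trans (le_of_eq ?_) h3
      refine Finset.sum_congr rfl fun x _ => ?_
      simp only [nv_ge_iff he.le, hβ, hJ, sub_sub_cancel]
  choose c hc hk using key
  obtain ⟨j₀, _, hj₀⟩ := Finset.exists_min_image (Finset.range (L + 1)) c ⟨0, by simp⟩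
  refine ⟨c j₀, hc j₀, ?_⟩
  have hall : ∀ᶠ i in F, ∀ j ∈ Finset.range (L + 1), _ :=
    (Filter.eventually_all_finset (Finset.range (L + 1))).2 fun j _ => hk j
  filter_upwards [hall] with i hi p hβ hκ hJ K' hK'
  rw [Finset.mem_Icc] at hK'
  have hj' : K' - K ∈ Finset.range (L + 1) := Finset.mem_range.2 (by omega)
  have hle : Real.exp (-(c (K' - K) * n i)) ≤ Real.exp (-(c j₀ * n i)) :=
    Real.exp_le_exp.2 (neg_le_neg (mul_le_mul_of_nonneg_right (hj₀ _ hj') (Nat.cast_nonneg _)))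
  obtain ⟨g1, g2⟩ := hi _ hj' p hβ hκ hJ
  rw [show K + (K' - K) = K' from by omega] at g1 g2
  exact ⟨g1.trans hle, fun k => (g2 k).trans hle⟩

end Vale.Agent.P150.F
end

section

/-! P150 FULL, D6 (O1): the exit statement from its ingredients. -/

open MeasureTheory ProbabilityTheory Filter Topology
open scoped Matrix ENNReal

namespace Vale.Agent.P150.F

/-- the no-exit theorem (Track5) -/
def NoExitS : Prop := ∀ {n : ℕ} (p : SPar n) (c : ℝ), 0 < n → 0 < c → c ≤ 1 →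
  (∀ k P, p.Valid k P → p.Mono c k P) → ∀ (hM : p.MMSucc) (hm : p.MhMeas c) (_ : 0 < p.d)
  (x : Cfg n) (ω : ℕ → Vec n) {Pm q' K : ℕ} {e ε E E' ρ1 ρ2 ρb ρc : ℝ}, 0 ≤ e → 0 ≤ ε →
  0 < Pm → Pm * q' = p.q → ExC c p.ρ p.κ₀ p.τ p.Ks E E' e ε p.Nw p.d Pm K p.ℓ ρ1 ρ2 ρb ρc →
  GoodEv p x ω (fun k => (SPar.tr hM hm x ω k).2.1) (fun k => (SPar.tr hM hm x ω k).2.2)
    Pm q' K e ε E E' → ∀ k < p.Nw * (p.d + 1) * p.q,
      ((k, ((SPar.tr hM hm x ω k).2.1, (SPar.tr hM hm x ω k).2.2)) : p.St) ∉ p.exitS c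

/-- the noise events (TNoise) -/
def NoiseS : Prop := ∀ {n : ℕ} (p : SPar n) (c : ℝ) (hM : p.MMSucc) (hm : p.MhMeas c)
  (μ : Cfg n → ℝ), IsProb μ → p.κ₀ = 4 → ∀ (ε τ₀ : ℝ), 0 < ε → 0 < τ₀ → p.τ ≤ τ₀ →
  ∀ (Pm q' : ℕ), 0 < Pm → Pm * q' = p.q →
  (∀ (i : Fin p.Nw) (a : Fin p.d), PE μ (fun x ω => ∃ j ≤ p.q, ε * √n <
      |p.bS (p.vd ((SPar.tr hM hm x ω ((i * (p.d + 1) + a) * p.q)).2.1) i a) ω i a
        ((i * (p.d + 1) + a) * p.q + j)|) ≤ 2 * Real.exp (-(ε ^ 2 / (2 * (p.Ks + 1)) * n))) ∧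
  (∀ i : Fin p.Nw, PE μ (fun _ ω => ∃ j ≤ p.q, √(56 * τ₀) * √n <
      nv (p.S0.mulVec (p.nJ ω ((i * (p.d + 1) + p.d) * p.q + j)
        - p.nJ ω ((i * (p.d + 1) + p.d) * p.q)))) ≤ 2 * Real.exp (-(1 * n))) ∧
  (∀ i : Fin p.Nw, ∀ l < Pm, PE μ (fun _ ω => √(56 * (τ₀ / Pm)) * √n <
      nv (p.S0.mulVec (p.nJ ω ((i * (p.d + 1) + p.d) * p.q + (l + 1) * q')
        - p.nJ ω ((i * (p.d + 1) + p.d) * p.q + l * q')))) ≤ 2 * Real.exp (-(1 * n)))

/-- absorbing a constant factor -/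
theorem exp_absorb {I : Type*} {F : Filter I} {n : I → ℕ} (hn : Tendsto n F atTop) {c : ℝ}
    (hc : 0 < c) (N : ℝ) : ∀ᶠ i in F, N * Real.exp (-(c * n i)) ≤ Real.exp (-(c / 2 * n i)) := by
  have h1 : Tendsto (fun i => Real.exp (-(c / 2 * (n i : ℝ)))) F (𝓝 0) := by
    have h2 : Tendsto (fun i => c / 2 * (n i : ℝ)) F atTop :=
      (tendsto_natCast_atTop_atTop.comp hn).const_mul_atTop (by positivity)
    exact Real.tendsto_exp_neg_atTop_nhds_zero.comp h2
  have h3 : Tendsto (fun i => |N| * Real.exp (-(c / 2 * (n i : ℝ)))) F (𝓝 0) := by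
    simpa using h1.const_mul |N|
  filter_upwards [h3.eventually (ge_mem_nhds (zero_lt_one' ℝ))] with i hi
  have e : Real.exp (-(c * n i)) = Real.exp (-(c / 2 * n i)) * Real.exp (-(c / 2 * n i)) := by
    rw [← Real.exp_add]
    congr 1
    ring
  rw [e, ← mul_assoc]
  have h4 := Real.exp_pos (-(c / 2 * (n i : ℝ)))
  calc N * Real.exp (-(c / 2 * n i)) * Real.exp (-(c / 2 * n i))
      ≤ |N| * Real.exp (-(c / 2 * n i)) * Real.exp (-(c / 2 * n i)) := by
        gcongr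
        exact le_abs_self N
    _ ≤ 1 * Real.exp (-(c / 2 * n i)) := mul_le_mul_of_nonneg_right hi h4.le
    _ = _ := one_mul _

/-- **the exit statement** -/
theorem exit_of (h1 : CH1) (hG : CHG) (hNE : NoExitS) (hNo : NoiseS)
    (hMono : ∀ {n : ℕ} (p : SPar n) (K : Cst), K.OK → p.Adm K → ∀ k P, p.Valid k P →
      p.Mono K.c k P)
    (hX : ∀ β : ℝ, 0 ≤ β → β < 1 → ∀ {I : Type} (F : Filter I) (n : I → ℕ)
      (J : ∀ i, Mat (n i)), Good β F n J → X2S F n J)
    (hT : ∀ β : ℝ, 0 ≤ β → β < 1 → ∀ {I : Type} (F : Filter I) (n : I → ℕ)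
      (J : ∀ i, Mat (n i)), Good β F n J → T12S β 4 F n J) : ExitStatement := by
  intro β hβ0 hβ1 I F n J hg c₁ L ε₁ ρ d hc₁ hL hε₁ hρ
  have hβp : 0 < 1 - β := by linarith only [hβ1]
  set c : ℝ := min (min (c₁ / 4) ((1 - β) ^ 2 / 2)) 1 with hcd
  have hc : 0 < c := lt_min (lt_min (by positivity) (by positivity)) one_pos
  have hc1 : c ≤ 1 := min_le_right _ _
  obtain ⟨τ₀, hτ₀, -, hτ1⟩ := num_tau (a := c * ρ / 8) (by positivity)
  refine ⟨τ₀, hτ₀, ?_⟩
  intro K hK e1 e2 e3 e4 e5 e6 hKτ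
  have hKc : K.c = c := by unfold Cst.c; rw [e1, e2]
  have hKs0 : 0 ≤ K.Ks := by
    rw [hK.hKs]; unfold Win.Ks
    have := hK.hc₁
    have := hK.hL
    positivity
  obtain ⟨KA, hKA⟩ := T12_prob (hT β hβ0 hβ1 F n J hg) (e := c * ρ / 448) (by positivity) 2
  obtain ⟨c2, hc2, hev2⟩ := hKA KA le_rfl
  obtain ⟨Pm, hPm, hPm2⟩ := num_pm (a := ρ / 8) (b := (7 : ℝ) ^ (KA + 2)) (τ₀ := τ₀) (by positivity)
  refine ⟨Pm, hPm, ?_⟩
  set ε : ℝ := exEps c ρ K.Ks K.Nw K.d KA with hεd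
  have hε : 0 < ε := exEps_pos hc hρ hKs0 _ _ _
  obtain ⟨c3, hc3, hev3⟩ := T3_sched h1 hG (hX β hβ0 hβ1 F n J hg) (K.Nw * K.d * K.Ks) (KA + 2) hε
  set c4 : ℝ := ε ^ 2 / (2 * (K.Ks + 1)) with hc4d
  have hc4 : 0 < c4 := by (clear * - hε hKs0; positivity)
  set cm : ℝ := min (min c2 c3) (min c4 1) with hcmd
  have hcm : 0 < cm := lt_min (lt_min hc2 hc3) (lt_min hc4 one_pos)
  refine ⟨cm / 2, by (clear * - hc2 hc3 hε hKs0; positivity), ?_⟩
  filter_upwards [hev2, hev3, exp_absorb hg.hn hcm (nBad K.Nw K.d Pm KA * 2),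
    hg.hn.eventually_gt_atTop 0] with i hi2 hi3 hi4 hn p hp hpJ
  refine ⟨1, fun q' _ hq hM hm => ?_⟩
  set P := p.withQ (Pm * q') hq with hPd
  have hPa : P.Adm K := hp.withQ _ hq
  have hdP : 0 < P.d := by rw [hPa.d_eq]; exact hK.hd
  have hκ : P.κ₀ = 4 := hPa.κ_eq.trans hK.hκ
  have hτP : P.τ = K.τ := by
    unfold SPar.τ Cst.τ
    rw [hPa.β_eq, hPa.Nw_eq]
  have hPJ : P.J = J i := hpJ
  have hc' : 0 < K.c := by rw [hKc]; exact hc
  have hc1' : K.c ≤ 1 := by rw [hKc]; exact hc1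
  have hExC : ExC K.c P.ρ P.κ₀ P.τ P.Ks (√(56 * τ₀)) (√(56 * (τ₀ / Pm))) (c * ρ / 448) ε
      P.Nw P.d Pm KA P.ℓ (3 * ρ / 8) (ρ / 32) (ρ / 8) (ρ / 8) := by
    have h := exC_of (c := c) (ρ := ρ) (Ks := K.Ks) (τ := K.τ) (τ₀ := τ₀) (Nw := K.Nw) (d := K.d)
      (Pm := Pm) (K := KA) (ℓ := K.ℓ) hc hc1 hρ hKs0 hKτ (by rw [← e5]; exact hK.hℓ) hτ1 hPm hPm2
    rw [hκ, hτP, hKc, hPa.ρ_eq, hPa.Ks_eq, hPa.Nw_eq, hPa.d_eq, hPa.ℓ_eq, e5]
    exact h
  have hq' : Pm * q' = P.q := rfl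
  set G : Cfg (n i) → (ℕ → Vec (n i)) → Prop := fun x ω =>
    GoodEv P x ω (fun k => (SPar.tr hM hm x ω k).2.1) (fun k => (SPar.tr hM hm x ω k).2.2)
      Pm q' KA (c * ρ / 448) ε (√(56 * τ₀)) (√(56 * (τ₀ / Pm))) with hGd
  have hex := SPar.pexit_le hdP hc' hc1' hM hm (G := G) fun x ω hGx =>
    hNE P K.c hn hc' hc1' (hMono P K hK hPa) hM hm hdP x ω (by positivity) hε.le hPm hq' hExC hGx
  refine hex.trans ?_
  have hμ : IsProb (gM (P.β • P.J) 0) := gM_isProb _ _
  have hβP : P.β = β := hPa.β_eq.trans e1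
  set θ : ℝ := 2 * Real.exp (-(cm * n i)) with hθd
  have hθ : 0 ≤ θ := by positivity
  have hexp : ∀ c' : ℝ, cm ≤ c' → Real.exp (-(c' * n i)) ≤ Real.exp (-(cm * n i)) := by
    intro c' hc'
    exact Real.exp_le_exp.2 (neg_le_neg (mul_le_mul_of_nonneg_right hc' (Nat.cast_nonneg _)))
  have hexp1 : ∀ c' : ℝ, cm ≤ c' → Real.exp (-(c' * n i)) ≤ θ := by
    intro c' hc'
    have := hexp c' hc'
    have h2 := Real.exp_pos (-(cm * n i))
    rw [hθd]; linarith only [h2, this]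
  have hexp2 : ∀ c' : ℝ, cm ≤ c' → 2 * Real.exp (-(c' * n i)) ≤ θ := by
    intro c' hc'
    have := hexp c' hc'
    rw [hθd]; linarith only [this]
  have hcm2 : cm ≤ c2 := (min_le_left _ _).trans (min_le_left _ _)
  have hcm3 : cm ≤ c3 := (min_le_left _ _).trans (min_le_right _ _)
  have hcm4 : cm ≤ c4 := (min_le_right _ _).trans (min_le_left _ _)
  have hcm5 : cm ≤ 1 := (min_le_right _ _).trans (min_le_right _ _)
  obtain ⟨n1, n2, n3⟩ := hNo P K.c hM hm _ hμ hκ ε τ₀ hε hτ₀ (hτP.le.trans hKτ) Pm q' hPm hq'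
  have hi2' := hi2 P hβP hκ hPJ
  have hμe : gM (P.β • P.J) 0 = gM (β • J i) 0 := by rw [hβP, hPJ]
  have key := PE_not_good (p := P) (fun x => hμ.1 x)
    (fun x ω k => (SPar.tr hM hm x ω k).2.1) (fun x ω k => (SPar.tr hM hm x ω k).2.2)
    (Pm := Pm) (q' := q') (K := KA) (e := c * ρ / 448) (ε := ε) (E := √(56 * τ₀))
    (E' := √(56 * (τ₀ / Pm))) hθ ?_ ?_ ?_ ?_ ?_ ?_
  · refine key.trans ?_
    rw [hθd, ← mul_assoc, hPa.Nw_eq, hPa.d_eq]
    exact hi4
  · -- init
    have h := (hi2' (KA + 2) (Finset.mem_Icc.2 ⟨by omega, le_rfl⟩)).1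
    rw [hμe]
    refine le_trans (PE_mono (fun x => (gM_pos _ _ x).le) fun x ω hω => ?_) (h.trans (hexp1 _ hcm2))
    have e7 : P.m0 x ω (KA + 2) 0 = ampM (β • J i) β 0 x (KA + 2) := by
      unfold SPar.m0
      rw [P.rr_zero, hβP, hPJ, P.yJ_zero]
    rw [e7] at hω
    exact hω.le
  · -- t12
    intro k j hj
    have h := (hi2' j (Finset.mem_Icc.2 (by omega))).2 k
    rw [hμe]
    refine le_trans (PE_mono (fun x => (gM_pos _ _ x).le) fun x ω hω => ?_) (h.trans (hexp1 _ hcm2))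
    exact hω.le
  · -- t3
    intro k iw a j hj
    have h := hi3 P hPJ (by rw [hPa.Nw_eq, hPa.d_eq, hPa.Ks_eq]) K.c hM hm iw a k (0, (0, 0)) j hj
    have e8 : (P.proc K.c hM hm).law (0, (0, 0)) = gM (P.β • P.J) 0 := by
      show gM (P.MM 0 0) 0 = _
      rw [P.MM_zero]
    rw [e8] at h
    refine le_trans (PE_mono (fun x => hμ.1 x) fun x ω hω => ?_) (h.trans (hexp1 _ hcm3))
    have e9 : ((P.proc K.c hM hm).traj (0, (0, 0)) x ω k).1 = k := SPar.tr_lev hM hm x ω k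
    rw [e9]
    exact hω
  · intro iw a
    exact (n1 iw a).trans (by rw [hPa.Ks_eq]; exact hexp2 _ hcm4)
  · intro iw
    exact (n2 iw).trans (hexp2 _ hcm5)
  · intro iw l hl
    exact (n3 iw l hl).trans (hexp2 _ hcm5)

end Vale.Agent.P150.F
end

section

/-! P150 FULL, D6 (O1): the hypothesis `T12S` of `T12_prob` / `good_init_t12` from D3c (helper551). -/

open MeasureTheory ProbabilityTheory Filter Topology
open scoped Matrix ENNReal

namespace Vale.Agent.P150.F

theorem t12_qq_iff {n : ℕ} (hn : 0 < n) {ε : ℝ} (v : Vec n) : ε * n ≤ sq v ↔ ε ≤ qq v := by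
  have hn' : (0 : ℝ) < n := by exact_mod_cast hn
  unfold qq
  rw [le_div_iff₀ hn']

theorem t12_sq_sub_comm {n : ℕ} (u v : Vec n) : sq (u - v) = sq (v - u) := by
  unfold sq
  refine Finset.sum_congr rfl fun i _ => ?_
  simp only [Pi.sub_apply]
  ring

theorem T12S_of (h : D3.D3cStatement) {β κ : ℝ} (hβ : 0 ≤ β) (hβ1 : β < 1) (hκ : 4 ≤ κ)
    {I : Type} {F : Filter I} {n : I → ℕ} {J : ∀ i, Mat (n i)} (hG : Good β F n J) :
    T12S β κ F n J := by
  classical
  intro ε hε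
  obtain ⟨K₀, hK₀⟩ := h β κ hβ hβ1 hκ F n J hG ε hε
  refine ⟨K₀, fun K hK => ?_⟩
  obtain ⟨c, hc, hev⟩ := hK₀ K hK
  refine ⟨c, hc, ?_⟩
  filter_upwards [hev, hG.hn.eventually (eventually_gt_atTop 0)] with i hi hn
  obtain ⟨h1, h2⟩ := hi
  refine ⟨?_, ?_⟩
  · refine le_trans (le_of_eq (Finset.sum_congr rfl fun x _ => ?_)) h1
    rw [Set.indicator_apply]
    simp only [Set.mem_ofPred_eq, t12_qq_iff hn]
    split_ifs <;> simp
  · intro s hs m R hR
    refine le_trans (le_of_eq (Finset.sum_congr rfl fun x _ => ?_)) (h2 m R s hs hR)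
    congr 2
    ext ξ
    simp only [Set.mem_ofPred_eq]
    rw [t12_sq_sub_comm, t12_qq_iff hn]

end Vale.Agent.P150.F
end
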