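import Mathlib
import Vale.Agent.P150.Bdl.B22
import Vale.Agent.P150.Bdl.B3
import Vale.Agent.P150.Bdl.B19
import Vale.Agent.P150.Bdl.B11

set_option linter.all false

section

open MeasureTheory ProbabilityTheory Filter Topology

namespace Vale.Agent.P150.Cav

variable {n : ℕ}

lemma hh_eq (z : ℂ) (β : ℝ) (g : Pairs n → ℝ) (i j : Fin n) :
    hh z β g i j = ∑ k, Gm z g j k * (Mm β g k i : ℂ) := by
  unfold hh Gx
  simp only [Mm_eq, Complex.ofReal_sum, Finset.mul_sum, Finset.sum_mul]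
  rw [Finset.sum_comm]
  refine Finset.sum_congr rfl fun k _ => Finset.sum_congr rfl fun x _ => ?_
  push_cast
  ring

lemma aa_eq (z : ℂ) (β : ℝ) (g : Pairs n → ℝ) : aa z β g = (n : ℂ)⁻¹ * ∑ i, hh z β g i i := by
  unfold aa hh
  congr 1
  rw [Finset.sum_comm]
  refine Finset.sum_congr rfl fun x _ => ?_
  rw [Finset.mul_sum]

lemma pw_zero (g : Pairs n → ℝ) (x y : Cfg n) : pw 0 g x = pw 0 g y := by
  have : ∀ x : Cfg n, energy (skJ 0 g) 0 x = 0 := by
    intro x
    simp [energy, skJ]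
  unfold pw gibbs
  rw [this, this]

/-- flip one spin -/
def flip (i : Fin n) (x : Cfg n) : Cfg n := Function.update x i (!(x i))

lemma flip_flip (i : Fin n) (x : Cfg n) : flip i (flip i x) = x := by
  unfold flip
  simp

lemma sp_not (b : Bool) : sp (!b) = - sp b := by cases b <;> simp [sp]

lemma Mm_zero (g : Pairs n → ℝ) (i j : Fin n) : Mm 0 g i j = if i = j then 1 else 0 := by
  by_cases h : i = j
  · subst h
    simp [Mm_self]
  · rw [if_neg h, Mm_eq]
    have h1 : ∑ x : Cfg n, pw 0 g x * (sp (x i) * sp (x j)) =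
        ∑ x : Cfg n, pw 0 g (flip i x) * (sp (flip i x i) * sp (flip i x j)) := by
      refine (Fintype.sum_bijective (flip i) ?_ _ _ fun x => rfl).symm
      exact (Function.Involutive.bijective (flip_flip i))
    have h2 : ∀ x : Cfg n, pw 0 g (flip i x) * (sp (flip i x i) * sp (flip i x j)) =
        -(pw 0 g x * (sp (x i) * sp (x j))) := by
      intro x
      rw [pw_zero g (flip i x) x]
      have e1 : flip i x i = !(x i) := by simp [flip]
      have e2 : flip i x j = x j := by simp [flip, Function.update_of_ne (Ne.symm h)]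
      rw [e1, e2, sp_not]
      ring
    simp only [h2, Finset.sum_neg_distrib] at h1
    linarith

lemma hh_zero (z : ℂ) (g : Pairs n → ℝ) (i j : Fin n) : hh z 0 g i j = Gm z g j i := by
  rw [hh_eq, Finset.sum_eq_single i]
  · simp [Mm_zero]
  · intro k _ hk
    simp [Mm_zero, hk]
  · simp

lemma aa_zero (z : ℂ) (g : Pairs n → ℝ) : aa z 0 g = mm z g := by
  rw [aa_eq]
  simp only [hh_zero]
  rfl

lemma norm_ee_le (z : ℂ) (hz : 0 < z.im) (β : ℝ) (hn : 0 < n) (g : Pairs n → ℝ) :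
    ‖ee z β g‖ ≤ 3 * (z.im)⁻¹ ^ 2 * (n : ℝ)⁻¹ := by
  have hn' : (0 : ℝ) < n := by exact_mod_cast hn
  have h1 : ‖∑ x : Cfg n, (pw β g x : ℂ) * ∑ j, Gx z g x j ^ 2‖ ≤ (z.im)⁻¹ ^ 2 * n := by
    refine norm_avg_le β g _ _ fun x => ?_
    refine (norm_sum_le _ _).trans ?_
    refine le_trans (le_of_eq ?_) (nsq_Gx_le z hz g x)
    unfold nsq
    exact Finset.sum_congr rfl fun j _ => norm_pow _ _
  have h2 : ∑ i, ‖hh z β g i i‖ ≤ (z.im)⁻¹ * n := by
    have e1 : ∀ i : Fin n, ‖hh z β g i i‖ ≤ ∑ x : Cfg n, pw β g x * ‖Gx z g x i‖ := by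
      intro i
      refine (norm_sum_le _ _).trans (Finset.sum_le_sum fun x _ => ?_)
      rw [norm_mul, norm_mul, norm_pw, Complex.norm_real, Real.norm_eq_abs, abs_sp, mul_one]
    refine (Finset.sum_le_sum fun i _ => e1 i).trans ?_
    rw [Finset.sum_comm]
    simp only [← Finset.mul_sum]
    have e2 : ∀ x : Cfg n, ∑ i, ‖Gx z g x i‖ ≤ (z.im)⁻¹ * n := by
      intro x
      have e3 := sum_norm_mul_le (Gx z g x) (fun _ => (1 : ℂ))
      simp only [norm_one, mul_one] at e3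
      refine e3.trans ?_
      have e4 : nsq (fun _ : Fin n => (1 : ℂ)) = n := by simp [nsq]
      rw [e4]
      have e5 : Real.sqrt (nsq (Gx z g x)) ≤ (z.im)⁻¹ * Real.sqrt n := by
        have := (coer_im z g).sqrt_nsq_inv_le hz (xv x)
        rwa [nsq_xv] at this
      calc Real.sqrt (nsq (Gx z g x)) * Real.sqrt n ≤ (z.im)⁻¹ * Real.sqrt n * Real.sqrt n := by
            gcongr
        _ = (z.im)⁻¹ * n := by rw [mul_assoc, Real.mul_self_sqrt hn'.le]
    calc ∑ x : Cfg n, pw β g x * ∑ i, ‖Gx z g x i‖ ≤ ∑ x : Cfg n, pw β g x * ((z.im)⁻¹ * n) :=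
          Finset.sum_le_sum fun x _ => mul_le_mul_of_nonneg_left (e2 x) (pw_pos β g x).le
      _ = (z.im)⁻¹ * n := by rw [← Finset.sum_mul, pw_sum, one_mul]
  have h3 : ‖2 * ∑ i, Gm z g i i * hh z β g i i‖ ≤ 2 * ((z.im)⁻¹ * ((z.im)⁻¹ * n)) := by
    rw [norm_mul]
    have : ‖(2 : ℂ)‖ = 2 := by simp
    rw [this]
    refine mul_le_mul_of_nonneg_left ?_ (by norm_num)
    refine (norm_sum_le _ _).trans ?_
    calc ∑ i, ‖Gm z g i i * hh z β g i i‖ ≤ ∑ i, (z.im)⁻¹ * ‖hh z β g i i‖ := by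
          refine Finset.sum_le_sum fun i _ => ?_
          rw [norm_mul]
          exact mul_le_mul_of_nonneg_right (norm_Gm_le z g hz i i) (norm_nonneg _)
      _ = (z.im)⁻¹ * ∑ i, ‖hh z β g i i‖ := by rw [Finset.mul_sum]
      _ ≤ _ := mul_le_mul_of_nonneg_left h2 (by positivity)
  unfold ee
  rw [norm_mul]
  have h4 : ‖((n : ℂ)⁻¹) ^ 2‖ = ((n : ℝ)⁻¹) ^ 2 := by simp
  rw [h4]
  have h5 := (norm_sub_le (∑ x : Cfg n, (pw β g x : ℂ) * ∑ j, Gx z g x j ^ 2)
    (2 * ∑ i, Gm z g i i * hh z β g i i)).trans (add_le_add h1 h3)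
  calc ((n : ℝ)⁻¹) ^ 2 * _ ≤ ((n : ℝ)⁻¹) ^ 2 * ((z.im)⁻¹ ^ 2 * n + 2 * ((z.im)⁻¹ * ((z.im)⁻¹ * n))) :=
        mul_le_mul_of_nonneg_left h5 (by positivity)
    _ = _ := by field_simp; ring

lemma norm_mm_le (z : ℂ) (hz : 0 < z.im) (hn : 0 < n) (g : Pairs n → ℝ) :
    ‖mm z g‖ ≤ (z.im)⁻¹ := by
  have hn' : (0 : ℝ) < n := by exact_mod_cast hn
  unfold mm
  rw [norm_mul]
  have h4 : ‖(n : ℂ)⁻¹‖ = (n : ℝ)⁻¹ := by simp
  rw [h4]
  have : ‖∑ i, Gm z g i i‖ ≤ n * (z.im)⁻¹ := by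
    refine (norm_sum_le _ _).trans ?_
    refine (Finset.sum_le_card_nsmul _ _ _ fun i _ => norm_Gm_le z g hz i i).trans ?_
    simp
  calc (n : ℝ)⁻¹ * _ ≤ (n : ℝ)⁻¹ * (n * (z.im)⁻¹) := mul_le_mul_of_nonneg_left this (by positivity)
    _ = _ := by field_simp

lemma continuous_mm (z : ℂ) (hz : 0 < z.im) : Continuous (fun g : Pairs n → ℝ => mm z g) :=
  continuous_const.mul (continuous_finsetSum _ fun i _ => continuous_Gm z hz i i)

lemma mm_im_nonpos (z : ℂ) (hz : 0 < z.im) (g : Pairs n → ℝ) : (mm z g).im ≤ 0 := by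
  have h1 : ∀ i : Fin n, (Gm z g i i).im ≤ 0 := by
    intro i
    have hq := quad_Am z g ((Gm z g).mulVec (Pi.single i 1))
    rw [Matrix.mulVec_mulVec, Am_mul_Gm z g hz, Matrix.one_mulVec] at hq
    rw [Finset.sum_eq_single i] at hq
    · have him := congrArg Complex.im hq
      simp only [Matrix.mulVec_single_one, Pi.single_eq_same, mul_one, Complex.conj_im,
        Complex.sub_im, Complex.mul_im, Complex.ofReal_re, Complex.ofReal_im, mul_zero,
        sub_zero, zero_add] at him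
      have h2 : (Matrix.col (Gm z g) i) i = Gm z g i i := rfl
      rw [h2] at him
      have h3 := nsq_nonneg (Matrix.col (Gm z g) i)
      linarith only [him, mul_nonneg (le_of_lt (sub_pos.2 hz)) (sub_nonneg.2 h3)]
    · intro b _ hb
      rw [Pi.single_eq_of_ne hb, mul_zero]
    · simp
  unfold mm
  have h2 : ((n : ℂ)⁻¹) = (((n : ℝ)⁻¹ : ℝ) : ℂ) := by push_cast; rfl
  rw [h2, Complex.mul_im, Complex.ofReal_re, Complex.ofReal_im, zero_mul, add_zero,
    Complex.im_sum]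
  exact mul_nonpos_of_nonneg_of_nonpos (by positivity) (Finset.sum_nonpos fun i _ => h1 i)

/-- the self-consistency defect -/
noncomputable def QQ (z : ℂ) (g : Pairs n → ℝ) : ℂ := z * mm z g - 1 - mm z g ^ 2

/-- derivative of `mm` -/
noncomputable def Dmm (z : ℂ) (i j : Fin n) (g : Pairs n → ℝ) : ℂ :=
  (n : ℂ)⁻¹ * ∑ k, (((Real.sqrt n)⁻¹ : ℝ) : ℂ) *
    (Gm z g k i * Gm z g j k + Gm z g k j * Gm z g i k)

lemma hasDerivAt_mm (z : ℂ) (hz : 0 < z.im) (g : Pairs n → ℝ) (i j : Fin n) (h : i ≠ j) :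
    HasDerivAt (fun s => mm z (Function.update g (pr i j h) s)) (Dmm z i j g)
      (g (pr i j h)) :=
  (HasDerivAt.fun_sum fun k _ => hasDerivAt_Gm z g hz i j h k k).const_mul _

lemma Dmm_eq (z : ℂ) (i j : Fin n) (g : Pairs n → ℝ) :
    Dmm z i j g = (((n : ℝ) * Real.sqrt n)⁻¹ : ℝ) *
      ((Gm z g).mulVec ((Gm z g).mulVec (Pi.single i 1)) j +
        (Gm z g).mulVec ((Gm z g).mulVec (Pi.single j 1)) i) := by
  unfold Dmm
  have e : ∀ a b : Fin n, (Gm z g).mulVec ((Gm z g).mulVec (Pi.single a 1)) b =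
      ∑ k, Gm z g b k * Gm z g k a := by
    intro a b
    simp only [Matrix.mulVec_single_one]
    rfl
  rw [e, e, ← Finset.sum_add_distrib, ← Finset.mul_sum]
  push_cast
  rw [mul_inv, mul_assoc]
  congr 2
  exact Finset.sum_congr rfl fun k _ => by ring

lemma norm_GG_le (z : ℂ) (hz : 0 < z.im) (g : Pairs n → ℝ) (a b : Fin n) :
    ‖(Gm z g).mulVec ((Gm z g).mulVec (Pi.single a 1)) b‖ ≤ (z.im)⁻¹ ^ 2 := by
  have h1 := (coer_im z g).sqrt_nsq_inv_le hz ((Gm z g).mulVec (Pi.single a 1))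
  have h2 := (coer_im z g).sqrt_nsq_inv_le hz (Pi.single a 1)
  have h3 : nsq (Pi.single a (1 : ℂ) : Fin n → ℂ) = 1 := by
    unfold nsq
    rw [Finset.sum_eq_single a]
    · simp
    · intro b _ hb
      simp [Pi.single_eq_of_ne hb]
    · simp
  rw [h3, Real.sqrt_one, mul_one] at h2
  have h4 : ‖(Gm z g).mulVec ((Gm z g).mulVec (Pi.single a 1)) b‖ ≤
      Real.sqrt (nsq ((Gm z g).mulVec ((Gm z g).mulVec (Pi.single a 1)))) := by
    refine Real.le_sqrt_of_sq_le ?_
    exact Finset.single_le_sum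
      (f := fun i => ‖(Gm z g).mulVec ((Gm z g).mulVec (Pi.single a 1)) i‖ ^ 2)
      (fun _ _ => sq_nonneg _) (Finset.mem_univ b)
  refine h4.trans (h1.trans ?_)
  rw [sq]
  exact mul_le_mul_of_nonneg_left h2 (by positivity)

lemma norm_Dmm_le (z : ℂ) (hz : 0 < z.im) (i j : Fin n) (g : Pairs n → ℝ) :
    ‖Dmm z i j g‖ ≤ ((n : ℝ) * Real.sqrt n)⁻¹ * (2 * (z.im)⁻¹ ^ 2) := by
  rw [Dmm_eq, norm_mul, Complex.norm_real, Real.norm_eq_abs, abs_of_nonneg (by positivity)]
  refine mul_le_mul_of_nonneg_left ?_ (by positivity)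
  refine (norm_add_le _ _).trans ?_
  have h1 := norm_GG_le z hz g i j
  have h2 := norm_GG_le z hz g j i
  linarith only [h2, h1]

lemma norm_QQ_le (z : ℂ) (hz : 0 < z.im) (hn : 0 < n) (g : Pairs n → ℝ) :
    ‖QQ z g‖ ≤ ‖z‖ * (z.im)⁻¹ + 1 + (z.im)⁻¹ ^ 2 := by
  unfold QQ
  have h := norm_mm_le z hz hn g
  refine (norm_sub_le _ _).trans (add_le_add ((norm_sub_le _ _).trans (add_le_add ?_ ?_)) ?_)
  · rw [norm_mul]; exact mul_le_mul_of_nonneg_left h (norm_nonneg _)
  · simp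
  · rw [norm_pow]; exact pow_le_pow_left₀ (norm_nonneg _) h 2

/-- The semicircle law, in `L²` form. -/
theorem semicircle (z : ℂ) (hz : 0 < z.im) : ∃ K : ℝ, 0 ≤ K ∧ ∀ n : ℕ, 0 < n →
    ∫ g : Pairs n → ℝ, ‖QQ z g‖ ^ 2 ∂(disorder n) ≤ K * (n : ℝ)⁻¹ := by
  set η := (z.im)⁻¹ with hη
  have hη0 : 0 ≤ η := by positivity
  set CQ : ℝ := ‖z‖ * η + 1 + η ^ 2 with hCQ
  have hCQ0 : 0 ≤ CQ := by positivity
  refine ⟨CQ * (3 * η ^ 2) + (‖z‖ + 2 * η) * (2 * η ^ 2) * η, by positivity, fun n hn => ?_⟩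
  have hn' : (0 : ℝ) < n := by exact_mod_cast hn
  have hcm := continuous_mm (n := n) z hz
  set DΨ : Fin n → Fin n → (Pairs n → ℝ) → ℂ := fun i j g =>
    (starRingEnd ℂ) ((z - 2 * mm z g) * Dmm z i j g) with hDΨ
  have hDmm_m : ∀ i j : Fin n, Measurable (Dmm z i j) := by
    intro i j
    have : Continuous (Dmm (n := n) z i j) := continuous_const.mul (continuous_finsetSum _ fun k _ =>
      continuous_const.mul (((continuous_Gm z hz k i).mul (continuous_Gm z hz j k)).add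
        ((continuous_Gm z hz k j).mul (continuous_Gm z hz i k))))
    exact this.measurable
  have hzm : ∀ g : Pairs n → ℝ, ‖z - 2 * mm z g‖ ≤ ‖z‖ + 2 * η := by
    intro g
    refine (norm_sub_le _ _).trans ?_
    rw [norm_mul]
    have := norm_mm_le z hz hn g
    simp only [Complex.norm_ofNat]
    linarith only [this]
  have hDb : ∀ i j g, ‖DΨ i j g‖ ≤ (‖z‖ + 2 * η) * (((n : ℝ) * Real.sqrt n)⁻¹ * (2 * η ^ 2)) := by
    intro i j g
    simp only [hDΨ, RCLike.norm_conj, norm_mul]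
    exact mul_le_mul (hzm g) (norm_Dmm_le z hz i j g) (norm_nonneg _) (by positivity)
  set CC : ℝ := CQ + (‖z‖ + 2 * η) * (((n : ℝ) * Real.sqrt n)⁻¹ * (2 * η ^ 2)) with hCC
  have hQc : Continuous (fun g : Pairs n → ℝ => QQ z g) := by
    unfold QQ; fun_prop
  have hmain := main_ibp z hz 0 hn (fun g => (starRingEnd ℂ) (QQ z g)) DΨ
    (Complex.continuous_conj.comp hQc).measurable
    (fun i j => (Complex.continuous_conj.measurable.comp
      (((measurable_const.sub (measurable_const.mul hcm.measurable))).mul (hDmm_m i j))))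
    CC
    (fun g => by
      rw [RCLike.norm_conj]
      have := norm_QQ_le z hz hn g
      have h2 : 0 ≤ (‖z‖ + 2 * η) * (((n : ℝ) * Real.sqrt n)⁻¹ * (2 * η ^ 2)) := by positivity
      rw [hCC]; linarith only [h2, this])
    (fun i j g => by have := hDb i j g; rw [hCC]; linarith only [this, hCQ0])
    (by
      intro i j h g
      have h1 := hasDerivAt_mm z hz g i j h
      have h2 : HasDerivAt (fun s => QQ z (Function.update g (pr i j h) s))
          ((z - 2 * mm z g) * Dmm z i j g) (g (pr i j h)) := by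
        unfold QQ
        have h3 := ((h1.const_mul z).sub_const 1).fun_sub (h1.fun_pow 2)
        refine h3.congr_deriv ?_
        simp only [Function.update_eq_self]
        push_cast
        ring
      exact h2.star_conj)
  -- bound of the error
  set c : ℝ := ((n : ℝ) * Real.sqrt n)⁻¹ with hc
  set Err : (Pairs n → ℝ) → ℂ := fun g => (starRingEnd ℂ) (QQ z g) * ee z 0 g +
    (c : ℂ) * ∑ i, ∑ j, (if i = j then 0 else DΨ i j g * hh z 0 g i j) with hErr
  have hErrb : ∀ g, ‖Err g‖ ≤ (CQ * (3 * η ^ 2) + (‖z‖ + 2 * η) * (2 * η ^ 2) * η) * (n : ℝ)⁻¹ := by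
    intro g
    refine (norm_add_le _ _).trans ?_
    rw [add_mul]
    refine add_le_add ?_ ?_
    · rw [norm_mul, RCLike.norm_conj]
      have h1 := norm_QQ_le z hz hn g
      have h2 := norm_ee_le z hz 0 hn g
      calc ‖QQ z g‖ * ‖ee z 0 g‖ ≤ CQ * (3 * η ^ 2 * (n : ℝ)⁻¹) :=
            mul_le_mul h1 h2 (norm_nonneg _) hCQ0
        _ = _ := by ring
    · rw [norm_mul, Complex.norm_real, Real.norm_eq_abs, abs_of_nonneg (by (clear * - hn; positivity))]
      have h1 : ‖∑ i, ∑ j, (if i = j then 0 else DΨ i j g * hh z 0 g i j)‖ ≤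
          (n : ℝ) * ((n : ℝ) * ((‖z‖ + 2 * η) * (c * (2 * η ^ 2)) * η)) := by
        refine (norm_sum_le _ _).trans ?_
        refine (Finset.sum_le_card_nsmul _ _ ((n : ℝ) * ((‖z‖ + 2 * η) * (c * (2 * η ^ 2)) * η))
          fun i _ => ?_).trans ?_
        · refine (norm_sum_le _ _).trans ?_
          refine (Finset.sum_le_card_nsmul _ _ ((‖z‖ + 2 * η) * (c * (2 * η ^ 2)) * η)
            fun j _ => ?_).trans ?_
          · by_cases hij : i = j
            · simp only [hij, if_true, norm_zero]; (clear * - hz hn; positivity)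
            · simp only [hij, if_false]
              rw [norm_mul, hh_zero]
              exact mul_le_mul (hDb i j g) (norm_Gm_le z g hz j i) (norm_nonneg _) (by positivity)
          · simp
        · simp
      refine (mul_le_mul_of_nonneg_left h1 (by positivity)).trans (le_of_eq ?_)
      have hs : c * c * (n : ℝ) ^ 3 = 1 := by
        rw [hc]
        have : Real.sqrt n * Real.sqrt n = n := Real.mul_self_sqrt hn'.le
        have hs0 : Real.sqrt n ≠ 0 := (Real.sqrt_pos.2 hn').ne'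
        field_simp
        nlinarith [this]
      have hn0 : (n : ℝ) ≠ 0 := hn'.ne'
      have hs' : c * c * (n : ℝ) ^ 2 = (n : ℝ)⁻¹ := by
        field_simp
        nlinarith [hs]
      calc c * ((n : ℝ) * ((n : ℝ) * ((‖z‖ + 2 * η) * (c * (2 * η ^ 2)) * η)))
          = (‖z‖ + 2 * η) * (2 * η ^ 2) * η * (c * c * (n : ℝ) ^ 2) := by ring
        _ = _ := by rw [hs']
  have heec : Continuous (fun g : Pairs n → ℝ => ee z 0 g) := by
    unfold ee
    refine continuous_const.mul ((continuous_finsetSum _ fun x _ => (continuous_pwC 0 x).mul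
      (continuous_finsetSum _ fun j _ => (continuous_Gx z hz x j).pow 2)).sub
      (continuous_const.mul (continuous_finsetSum _ fun i _ =>
        (continuous_Gm z hz i i).mul (continuous_hh z hz 0 i i))))
  have hErrm : Measurable Err := by
    have hcj : Measurable (fun g : Pairs n → ℝ => (starRingEnd ℂ) (QQ z g)) :=
      (Complex.continuous_conj.comp hQc).measurable
    refine (hcj.mul heec.measurable).add (measurable_const.mul ?_)
    refine Finset.measurable_sum _ fun i _ => Finset.measurable_sum _ fun j _ => ?_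
    by_cases hij : i = j
    · simp only [hij, if_true]; exact measurable_const
    · simp only [hij, if_false]
      exact (Complex.continuous_conj.measurable.comp
        (((measurable_const.sub (measurable_const.mul hcm.measurable))).mul (hDmm_m i j))).mul
        (continuous_hh z hz 0 i j).measurable
  have hErrI : Integrable Err (disorder n) := integrable_of_bdd hErrm _ hErrb
  have hQbdd : ∀ g : Pairs n → ℝ, ‖QQ z g‖ ≤ CQ := fun g => norm_QQ_le z hz hn g
  have hcont1 : Continuous (fun g : Pairs n → ℝ => (starRingEnd ℂ) (QQ z g) * (z * mm z g - 1)) :=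
    (Complex.continuous_conj.comp hQc).mul ((continuous_const.mul hcm).sub continuous_const)
  have hI1 : Integrable (fun g : Pairs n → ℝ => (starRingEnd ℂ) (QQ z g) * (z * mm z g - 1))
      (disorder n) := by
    refine integrable_of_bdd hcont1.measurable (CQ * (‖z‖ * η + 1)) fun g => ?_
    rw [norm_mul, RCLike.norm_conj]
    refine mul_le_mul (hQbdd g) ?_ (norm_nonneg _) hCQ0
    refine (norm_sub_le _ _).trans (add_le_add ?_ (by simp))
    rw [norm_mul]
    exact mul_le_mul_of_nonneg_left (norm_mm_le z hz hn g) (norm_nonneg _)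
  have hcont2 : Continuous (fun g : Pairs n → ℝ => (starRingEnd ℂ) (QQ z g) * (mm z g * mm z g)) :=
    (Complex.continuous_conj.comp hQc).mul (hcm.mul hcm)
  have hI2 : Integrable (fun g : Pairs n → ℝ => (starRingEnd ℂ) (QQ z g) * (mm z g * mm z g))
      (disorder n) := by
    refine integrable_of_bdd hcont2.measurable (CQ * (η * η)) fun g => ?_
    rw [norm_mul, RCLike.norm_conj, norm_mul]
    refine mul_le_mul (hQbdd g) ?_ (by (clear * -; positivity)) hCQ0
    have := norm_mm_le z hz hn g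
    exact mul_le_mul this this (norm_nonneg _) hη0
  have e1 : ∫ g : Pairs n → ℝ, (starRingEnd ℂ) (QQ z g) * (z * mm z g - 1) ∂(disorder n) =
      ∫ g : Pairs n → ℝ, (starRingEnd ℂ) (QQ z g) * (mm z g * mm z g) ∂(disorder n) +
      ∫ g, Err g ∂(disorder n) := by
    rw [← integral_add hI2 hErrI]
    have : ∀ g : Pairs n → ℝ, (starRingEnd ℂ) (QQ z g) * (z * mm z g - 1) =
      (starRingEnd ℂ) (QQ z g) * (z * aa z 0 g - 1) := fun g => by rw [aa_zero]
    simp only [this]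
    rw [hmain]
    congr 1
    ext g
    rw [hErr, aa_zero]
    push_cast
    ring
  have e2 : ∫ g : Pairs n → ℝ, ((‖QQ z g‖ ^ 2 : ℝ) : ℂ) ∂(disorder n) =
      ∫ g, Err g ∂(disorder n) := by
    have h1 : ∀ g : Pairs n → ℝ, ((‖QQ z g‖ ^ 2 : ℝ) : ℂ) =
        (starRingEnd ℂ) (QQ z g) * (z * mm z g - 1) - (starRingEnd ℂ) (QQ z g) *
          (mm z g * mm z g) := by
      intro g
      push_cast
      rw [← Complex.conj_mul', ← mul_sub]
      congr 1
      unfold QQ
      ring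
    simp only [h1]
    rw [integral_sub hI1 hI2, e1]
    ring
  rw [integral_complex_ofReal] at e2
  have h3 : |∫ g : Pairs n → ℝ, ‖QQ z g‖ ^ 2 ∂(disorder n)| =
      ‖∫ g, Err g ∂(disorder n)‖ := by
    rw [← e2, Complex.norm_real, Real.norm_eq_abs]
  refine (le_abs_self _).trans ?_
  rw [h3]
  refine (norm_integral_le_of_norm_le_const (Eventually.of_forall hErrb)).trans ?_
  simp


end Vale.Agent.P150.Cav
end

section

open MeasureTheory ProbabilityTheory Filter Topology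

namespace Vale.Agent.P150.Cav

variable {n : ℕ}

/-- mean squared overlap `⟨R²⟩ = n⁻² tr M²` -/
noncomputable def YY (β : ℝ) (g : Pairs n → ℝ) : ℝ :=
  ((n : ℝ)⁻¹) ^ 2 * ∑ i, ∑ j, Mm β g i j ^ 2

/-- quadratic form of `M` at a spin configuration -/
noncomputable def qf (β : ℝ) (g : Pairs n → ℝ) (x : Cfg n) : ℝ :=
  ∑ k, ∑ l, Mm β g k l * (sp (x k) * sp (x l))

lemma Mm_symm (β : ℝ) (g : Pairs n → ℝ) (i j : Fin n) : Mm β g i j = Mm β g j i := by
  simp only [Mm_eq]
  exact Finset.sum_congr rfl fun x _ => by ring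

lemma YY_nonneg (β : ℝ) (g : Pairs n → ℝ) : 0 ≤ YY β g := by
  unfold YY
  exact mul_nonneg (by positivity) (Finset.sum_nonneg fun _ _ => Finset.sum_nonneg fun _ _ =>
    sq_nonneg _)

lemma YY_le_one (β : ℝ) (hn : 0 < n) (g : Pairs n → ℝ) : YY β g ≤ 1 := by
  have hn' : (0 : ℝ) < n := by exact_mod_cast hn
  unfold YY
  have : ∑ i : Fin n, ∑ j : Fin n, Mm β g i j ^ 2 ≤ (n : ℝ) ^ 2 := by
    have h1 : ∀ i j : Fin n, Mm β g i j ^ 2 ≤ 1 := by
      intro i j
      have := abs_Mm_le β g i j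
      rw [← sq_abs]
      exact pow_le_one₀ (abs_nonneg _) this
    calc ∑ i : Fin n, ∑ j : Fin n, Mm β g i j ^ 2 ≤ ∑ i : Fin n, ∑ j : Fin n, (1 : ℝ) :=
          Finset.sum_le_sum fun i _ => Finset.sum_le_sum fun j _ => h1 i j
      _ = (n : ℝ) ^ 2 := by simp [sq]
  calc ((n : ℝ)⁻¹) ^ 2 * _ ≤ ((n : ℝ)⁻¹) ^ 2 * (n : ℝ) ^ 2 :=
        mul_le_mul_of_nonneg_left this (by positivity)
    _ = 1 := by field_simp

lemma continuous_YY (β : ℝ) : Continuous (fun g : Pairs n → ℝ => YY β g) :=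
  continuous_const.mul (continuous_finsetSum _ fun i _ => continuous_finsetSum _ fun j _ =>
    (continuous_Mm β i j).pow 2)

lemma qf_nonneg (β : ℝ) (g : Pairs n → ℝ) (x : Cfg n) : 0 ≤ qf β g x := by
  have h : qf β g x = ∑ y : Cfg n, pw β g y * (∑ k, sp (x k) * sp (y k)) ^ 2 := by
    unfold qf
    simp only [Mm_eq, Finset.sum_mul]
    have e1 : ∀ k : Fin n, ∑ l : Fin n, ∑ y : Cfg n, pw β g y * (sp (y k) * sp (y l)) *
        (sp (x k) * sp (x l)) = ∑ y : Cfg n, ∑ l : Fin n, pw β g y * (sp (y k) * sp (y l)) *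
        (sp (x k) * sp (x l)) := fun k => Finset.sum_comm
    simp only [e1]
    rw [Finset.sum_comm]
    refine Finset.sum_congr rfl fun y _ => ?_
    rw [sq, Finset.sum_mul_sum, Finset.mul_sum]
    refine Finset.sum_congr rfl fun k _ => ?_
    rw [Finset.mul_sum]
    refine Finset.sum_congr rfl fun l _ => ?_
    ring
  rw [h]
  exact Finset.sum_nonneg fun y _ => mul_nonneg (pw_pos β g y).le (sq_nonneg _)

lemma avg_qf (β : ℝ) (g : Pairs n → ℝ) :
    ∑ x : Cfg n, pw β g x * qf β g x = ∑ i, ∑ j, Mm β g i j ^ 2 := by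
  unfold qf
  simp only [Finset.mul_sum]
  rw [Finset.sum_comm]
  refine Finset.sum_congr rfl fun i _ => ?_
  rw [Finset.sum_comm]
  refine Finset.sum_congr rfl fun j _ => ?_
  calc ∑ x : Cfg n, pw β g x * (Mm β g i j * (sp (x i) * sp (x j)))
      = Mm β g i j * ∑ x : Cfg n, pw β g x * (sp (x i) * sp (x j)) := by
        rw [Finset.mul_sum]
        exact Finset.sum_congr rfl fun x _ => by ring
    _ = Mm β g i j ^ 2 := by rw [← Mm_eq, sq]

lemma hasDerivAt_Mm (β : ℝ) (g : Pairs n → ℝ) (i j : Fin n) (h : i ≠ j) (k l : Fin n) :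
    HasDerivAt (fun s => Mm β (Function.update g (pr i j h) s) k l)
      (β / Real.sqrt n * ∑ x : Cfg n, pw β g x * (sp (x i) * sp (x j) - Mm β g i j) *
        (sp (x k) * sp (x l))) (g (pr i j h)) := by
  simp only [Mm_eq _ _ k l]
  refine (HasDerivAt.fun_sum fun x _ => (hasDerivAt_pw β g i j h x).mul_const _).congr_deriv ?_
  rw [Finset.mul_sum]
  exact Finset.sum_congr rfl fun x _ => by ring

/-- derivative of `YY` -/
noncomputable def DYY (β : ℝ) (i j : Fin n) (g : Pairs n → ℝ) : ℝ :=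
  ((n : ℝ)⁻¹) ^ 2 * (2 * (β / Real.sqrt n)) *
    ∑ x : Cfg n, pw β g x * qf β g x * (sp (x i) * sp (x j) - Mm β g i j)

lemma hasDerivAt_YY (β : ℝ) (g : Pairs n → ℝ) (i j : Fin n) (h : i ≠ j) :
    HasDerivAt (fun s => YY β (Function.update g (pr i j h) s)) (DYY β i j g)
      (g (pr i j h)) := by
  unfold YY
  refine ((HasDerivAt.fun_sum fun k _ => HasDerivAt.fun_sum fun l _ =>
    (hasDerivAt_Mm β g i j h k l).fun_pow 2).const_mul _).congr_deriv ?_
  simp only [Function.update_eq_self]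
  unfold DYY
  rw [mul_assoc]
  congr 1
  have e1 : ∀ k l : Fin n, (2 : ℕ) * Mm β g k l ^ (2 - 1) * (β / Real.sqrt n *
      ∑ x : Cfg n, pw β g x * (sp (x i) * sp (x j) - Mm β g i j) * (sp (x k) * sp (x l))) =
      2 * (β / Real.sqrt n) * ∑ x : Cfg n, pw β g x * (sp (x i) * sp (x j) - Mm β g i j) *
        (Mm β g k l * (sp (x k) * sp (x l))) := by
    intro k l
    rw [show (2 : ℕ) * Mm β g k l ^ (2 - 1) * (β / Real.sqrt n *
      ∑ x : Cfg n, pw β g x * (sp (x i) * sp (x j) - Mm β g i j) * (sp (x k) * sp (x l))) =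
      2 * (β / Real.sqrt n) * (Mm β g k l * ∑ x : Cfg n, pw β g x *
        (sp (x i) * sp (x j) - Mm β g i j) * (sp (x k) * sp (x l))) by push_cast; ring]
    congr 1
    rw [Finset.mul_sum]
    exact Finset.sum_congr rfl fun x _ => by ring
  simp only [e1, ← Finset.mul_sum]
  congr 1
  have e2 : ∀ k : Fin n, ∑ l : Fin n, ∑ x : Cfg n, pw β g x *
      (sp (x i) * sp (x j) - Mm β g i j) * (Mm β g k l * (sp (x k) * sp (x l))) =
      ∑ x : Cfg n, ∑ l : Fin n, pw β g x *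
      (sp (x i) * sp (x j) - Mm β g i j) * (Mm β g k l * (sp (x k) * sp (x l))) :=
    fun k => Finset.sum_comm
  simp only [e2]
  rw [Finset.sum_comm]
  refine Finset.sum_congr rfl fun x _ => ?_
  unfold qf
  simp only [← Finset.mul_sum]
  ring

lemma qf_le (β : ℝ) (g : Pairs n → ℝ) (x : Cfg n) : qf β g x ≤ (n : ℝ) ^ 2 := by
  unfold qf
  have h1 : ∀ k l : Fin n, Mm β g k l * (sp (x k) * sp (x l)) ≤ 1 := by
    intro k l
    refine (le_abs_self _).trans ?_
    rw [abs_mul, abs_mul, abs_sp, abs_sp]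
    have := abs_Mm_le β g k l
    linarith
  calc ∑ k, ∑ l, Mm β g k l * (sp (x k) * sp (x l)) ≤ ∑ k : Fin n, ∑ l : Fin n, (1 : ℝ) :=
        Finset.sum_le_sum fun k _ => Finset.sum_le_sum fun l _ => h1 k l
    _ = (n : ℝ) ^ 2 := by simp [sq]

lemma abs_DYY_le (β : ℝ) (i j : Fin n) (g : Pairs n → ℝ) :
    |DYY β i j g| ≤ ((n : ℝ)⁻¹) ^ 2 * (2 * (|β| / Real.sqrt n)) * ((n : ℝ) ^ 2 * 2) := by
  unfold DYY
  rw [abs_mul]
  have h0 : |((n : ℝ)⁻¹) ^ 2 * (2 * (β / Real.sqrt n))| =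
      ((n : ℝ)⁻¹) ^ 2 * (2 * (|β| / Real.sqrt n)) := by
    rw [abs_mul, abs_mul, abs_div, abs_of_nonneg (Real.sqrt_nonneg _)]
    rw [abs_of_nonneg (by positivity : (0 : ℝ) ≤ ((n : ℝ)⁻¹) ^ 2), abs_two]
  rw [h0]
  refine mul_le_mul_of_nonneg_left ?_ (by positivity)
  refine (Finset.abs_sum_le_sum_abs _ _).trans ?_
  calc ∑ x : Cfg n, |pw β g x * qf β g x * (sp (x i) * sp (x j) - Mm β g i j)|
      ≤ ∑ x : Cfg n, pw β g x * ((n : ℝ) ^ 2 * 2) := by
        refine Finset.sum_le_sum fun x _ => ?_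
        rw [mul_assoc, abs_mul, abs_of_pos (pw_pos β g x)]
        refine mul_le_mul_of_nonneg_left ?_ (pw_pos β g x).le
        rw [abs_mul, abs_of_nonneg (qf_nonneg β g x)]
        refine mul_le_mul (qf_le β g x) ?_ (abs_nonneg _) (by positivity)
        refine (abs_sub _ _).trans ?_
        rw [abs_mul, abs_sp, abs_sp]
        have := abs_Mm_le β g i j
        linarith only [this]
    _ = (n : ℝ) ^ 2 * 2 := by rw [← Finset.sum_mul, pw_sum, one_mul]

lemma continuous_qf (β : ℝ) (x : Cfg n) : Continuous (fun g : Pairs n → ℝ => qf β g x) :=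
  continuous_finsetSum _ fun k _ => continuous_finsetSum _ fun l _ =>
    (continuous_Mm β k l).mul continuous_const

lemma continuous_DYY (β : ℝ) (i j : Fin n) : Continuous (fun g : Pairs n → ℝ => DYY β i j g) :=
  continuous_const.mul (continuous_finsetSum _ fun x _ =>
    ((continuous_pw β x).mul (continuous_qf β x)).mul
      (continuous_const.sub (continuous_Mm β i j)))

/-- bilinear quantity `x^T G M x` -/
noncomputable def rr (z : ℂ) (β : ℝ) (g : Pairs n → ℝ) (x : Cfg n) : ℂ :=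
  ∑ i, ∑ j, (sp (x i) : ℂ) * (sp (x j) : ℂ) * hh z β g i j

lemma norm_rr_le (z : ℂ) (hz : 0 < z.im) (β : ℝ) (g : Pairs n → ℝ) (x : Cfg n) :
    ‖rr z β g x‖ ≤ (z.im)⁻¹ * (n : ℝ) ^ 2 := by
  set v : Fin n → ℂ := fun k => ∑ i, (Mm β g k i : ℂ) * (sp (x i) : ℂ) with hv
  have h1 : rr z β g x = ∑ j, xv x j * (Gm z g).mulVec v j := by
    unfold rr
    rw [Finset.sum_comm]
    refine Finset.sum_congr rfl fun j _ => ?_
    simp only [hh_eq, Matrix.mulVec, dotProduct, hv, xv, Finset.mul_sum]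
    rw [Finset.sum_comm]
    refine Finset.sum_congr rfl fun k _ => Finset.sum_congr rfl fun i _ => ?_
    ring
  rw [h1]
  refine ((coer_im z g).bilin_le hz (xv x) v).trans ?_
  refine mul_le_mul_of_nonneg_left ?_ (by positivity)
  rw [nsq_xv]
  have h2 : ∀ k, ‖v k‖ ≤ n := by
    intro k
    rw [hv]
    refine (norm_sum_le _ _).trans ?_
    refine (Finset.sum_le_card_nsmul _ _ 1 fun i _ => ?_).trans ?_
    · rw [norm_mul, Complex.norm_real, Complex.norm_real, Real.norm_eq_abs, Real.norm_eq_abs,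
        abs_sp, mul_one]
      exact abs_Mm_le β g k i
    · simp
  have h3 : nsq v ≤ (n : ℝ) ^ 3 := by
    unfold nsq
    refine (Finset.sum_le_card_nsmul _ _ ((n : ℝ) ^ 2) fun k _ => ?_).trans ?_
    · exact pow_le_pow_left₀ (norm_nonneg _) (h2 k) 2
    · simp only [Finset.card_univ, Fintype.card_fin, nsmul_eq_mul]
      exact le_of_eq (by ring)
  calc Real.sqrt n * Real.sqrt (nsq v) ≤ Real.sqrt n * Real.sqrt ((n : ℝ) ^ 3) := by
        gcongr
    _ = Real.sqrt (n * (n : ℝ) ^ 3) := by rw [Real.sqrt_mul (by positivity)]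
    _ = Real.sqrt (((n : ℝ) ^ 2) ^ 2) := by congr 1; ring
    _ = (n : ℝ) ^ 2 := Real.sqrt_sq (by positivity)

lemma sum_Mm_hh (z : ℂ) (β : ℝ) (g : Pairs n → ℝ) :
    ∑ i, ∑ j, (Mm β g i j : ℂ) * hh z β g i j = ∑ x : Cfg n, (pw β g x : ℂ) * rr z β g x := by
  unfold rr
  simp only [Mm_eq, Complex.ofReal_sum, Finset.sum_mul, Finset.mul_sum]
  have e1 : ∀ i : Fin n, ∑ j : Fin n, ∑ x : Cfg n, ((pw β g x * (sp (x i) * sp (x j)) : ℝ) : ℂ) *
      hh z β g i j = ∑ x : Cfg n, ∑ j : Fin n, ((pw β g x * (sp (x i) * sp (x j)) : ℝ) : ℂ) *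
      hh z β g i j := fun i => Finset.sum_comm
  simp only [e1]
  rw [Finset.sum_comm]
  refine Finset.sum_congr rfl fun x _ => Finset.sum_congr rfl fun i _ =>
    Finset.sum_congr rfl fun j _ => ?_
  push_cast
  ring

lemma norm_sum_DYY_hh_le (z : ℂ) (hz : 0 < z.im) (β : ℝ) (hn : 0 < n) (g : Pairs n → ℝ) :
    ‖∑ i, ∑ j, (DYY β i j g : ℂ) * hh z β g i j‖ ≤
      ((n : ℝ)⁻¹) ^ 2 * (2 * (|β| / Real.sqrt n)) * (((n : ℝ) ^ 2 * YY β g) *
        (2 * ((z.im)⁻¹ * (n : ℝ) ^ 2))) := by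
  have hn' : (0 : ℝ) < n := by exact_mod_cast hn
  set ρ : ℂ := ∑ i, ∑ j, (Mm β g i j : ℂ) * hh z β g i j with hρ
  have hρb : ‖ρ‖ ≤ (z.im)⁻¹ * (n : ℝ) ^ 2 := by
    rw [hρ, sum_Mm_hh]
    exact norm_avg_le β g _ _ fun x => norm_rr_le z hz β g x
  have h1 : ∑ i, ∑ j, (DYY β i j g : ℂ) * hh z β g i j =
      ((((n : ℝ)⁻¹) ^ 2 * (2 * (β / Real.sqrt n)) : ℝ) : ℂ) *
        ∑ x : Cfg n, (pw β g x : ℂ) * ((qf β g x : ℂ) * (rr z β g x - ρ)) := by
    have e0 : ∀ x : Cfg n, rr z β g x - ρ = ∑ i, ∑ j,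
        ((sp (x i) * sp (x j) - Mm β g i j : ℝ) : ℂ) * hh z β g i j := by
      intro x
      rw [hρ]
      unfold rr
      rw [← Finset.sum_sub_distrib]
      refine Finset.sum_congr rfl fun i _ => ?_
      rw [← Finset.sum_sub_distrib]
      refine Finset.sum_congr rfl fun j _ => ?_
      push_cast
      ring
    simp only [e0]
    unfold DYY
    simp only [Finset.mul_sum, Finset.sum_mul, Complex.ofReal_sum, Complex.ofReal_mul]
    have e1 : ∀ (F : Fin n → Fin n → Cfg n → ℂ), ∑ i, ∑ j, ∑ x : Cfg n, F i j x =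
        ∑ x : Cfg n, ∑ i, ∑ j, F i j x := by
      intro F
      have : ∀ i : Fin n, ∑ j, ∑ x : Cfg n, F i j x = ∑ x : Cfg n, ∑ j, F i j x :=
        fun i => Finset.sum_comm
      simp only [this]
      exact Finset.sum_comm
    rw [e1]
    refine Finset.sum_congr rfl fun x _ => Finset.sum_congr rfl fun i _ =>
      Finset.sum_congr rfl fun j _ => ?_
    push_cast
    ring
  rw [h1, norm_mul, Complex.norm_real, Real.norm_eq_abs]
  have h0 : |((n : ℝ)⁻¹) ^ 2 * (2 * (β / Real.sqrt n))| =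
      ((n : ℝ)⁻¹) ^ 2 * (2 * (|β| / Real.sqrt n)) := by
    rw [abs_mul, abs_mul, abs_div, abs_of_nonneg (Real.sqrt_nonneg _)]
    rw [abs_of_nonneg (by positivity : (0 : ℝ) ≤ ((n : ℝ)⁻¹) ^ 2), abs_two]
  rw [h0]
  refine mul_le_mul_of_nonneg_left ?_ (by positivity)
  refine (norm_sum_le _ _).trans ?_
  have h2 : (n : ℝ) ^ 2 * YY β g = ∑ x : Cfg n, pw β g x * qf β g x := by
    rw [avg_qf]
    unfold YY
    field_simp
  rw [h2, Finset.sum_mul]
  refine Finset.sum_le_sum fun x _ => ?_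
  rw [norm_mul, norm_mul, norm_pw, Complex.norm_real, Real.norm_eq_abs,
    abs_of_nonneg (qf_nonneg β g x), mul_assoc]
  refine mul_le_mul_of_nonneg_left ?_ (pw_pos β g x).le
  refine mul_le_mul_of_nonneg_left ?_ (qf_nonneg β g x)
  refine (norm_sub_le _ _).trans ?_
  have := norm_rr_le z hz β g x
  linarith only [this, hρb]

lemma norm_aa_le (z : ℂ) (β : ℝ) (hn : 0 < n) (g : Pairs n → ℝ) {d : ℝ} (hd : 0 < d)
    (hA : Coer (Am z g) d) : ‖aa z β g‖ ≤ d⁻¹ := by
  have hn' : (0 : ℝ) < n := by exact_mod_cast hn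
  unfold aa
  rw [norm_mul]
  have h1 : ‖∑ x : Cfg n, (pw β g x : ℂ) * ∑ i, Gx z g x i * (sp (x i) : ℂ)‖ ≤ d⁻¹ * n := by
    refine norm_avg_le β g _ _ fun x => ?_
    have h2 := hA.bilin_le hd (xv x) (xv x)
    rw [nsq_xv, Real.mul_self_sqrt hn'.le] at h2
    refine le_trans (le_of_eq ?_) h2
    congr 1
    exact Finset.sum_congr rfl fun i _ => by rw [mul_comm]; rfl
  have h3 : ‖(n : ℂ)⁻¹‖ = (n : ℝ)⁻¹ := by simp
  rw [h3]
  calc (n : ℝ)⁻¹ * _ ≤ (n : ℝ)⁻¹ * (d⁻¹ * n) := mul_le_mul_of_nonneg_left h1 (by positivity)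
    _ = d⁻¹ := by field_simp

lemma norm_bb_le (z : ℂ) (β : ℝ) (g : Pairs n → ℝ) {d : ℝ} (hd : 0 < d)
    (hA : Coer (Am z g) d) : ‖bb z β g‖ ≤ d⁻¹ * YY β g := by
  unfold bb YY
  rw [norm_mul]
  have h4 : ‖((n : ℂ)⁻¹) ^ 2‖ = ((n : ℝ)⁻¹) ^ 2 := by simp
  rw [h4]
  have h1 : ‖∑ i, ∑ j, (Mm β g i j : ℂ) * hh z β g i j‖ ≤ d⁻¹ * ∑ i, ∑ j, Mm β g i j ^ 2 := by
    refine (norm_sum_le _ _).trans ?_
    rw [Finset.mul_sum]
    refine Finset.sum_le_sum fun i _ => ?_
    have h2 := hA.bilin_le hd (fun j => (Mm β g i j : ℂ)) (fun j => (Mm β g i j : ℂ))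
    have h3 : nsq (fun j => (Mm β g i j : ℂ)) = ∑ j, Mm β g i j ^ 2 := by
      unfold nsq
      refine Finset.sum_congr rfl fun j _ => ?_
      rw [Complex.norm_real, Real.norm_eq_abs, sq_abs]
    rw [Real.mul_self_sqrt (nsq_nonneg _), h3] at h2
    refine le_trans (le_of_eq ?_) h2
    congr 1
    refine Finset.sum_congr rfl fun j _ => ?_
    congr 1
    rw [hh_eq]
    simp only [Matrix.mulVec, dotProduct]
    exact Finset.sum_congr rfl fun k _ => by rw [Mm_symm β g k i]; rfl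
  calc ((n : ℝ)⁻¹) ^ 2 * _ ≤ ((n : ℝ)⁻¹) ^ 2 * (d⁻¹ * ∑ i, ∑ j, Mm β g i j ^ 2) :=
        mul_le_mul_of_nonneg_left h1 (by positivity)
    _ = _ := by ring

lemma continuous_aa (z : ℂ) (hz : 0 < z.im) (β : ℝ) :
    Continuous (fun g : Pairs n → ℝ => aa z β g) :=
  continuous_const.mul (continuous_finsetSum _ fun x _ => (continuous_pwC β x).mul
    (continuous_finsetSum _ fun i _ => (continuous_Gx z hz x i).mul continuous_const))

lemma continuous_bb (z : ℂ) (hz : 0 < z.im) (β : ℝ) :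
    Continuous (fun g : Pairs n → ℝ => bb z β g) :=
  continuous_const.mul (continuous_finsetSum _ fun i _ => continuous_finsetSum _ fun j _ =>
    (Complex.continuous_ofReal.comp (continuous_Mm β i j)).mul (continuous_hh z hz β i j))

lemma continuous_ee (z : ℂ) (hz : 0 < z.im) (β : ℝ) :
    Continuous (fun g : Pairs n → ℝ => ee z β g) := by
  unfold ee
  refine continuous_const.mul ((continuous_finsetSum _ fun x _ => (continuous_pwC β x).mul
    (continuous_finsetSum _ fun j _ => (continuous_Gx z hz x j).pow 2)).sub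
    (continuous_const.mul (continuous_finsetSum _ fun i _ =>
      (continuous_Gm z hz i i).mul (continuous_hh z hz β i i))))

end Vale.Agent.P150.Cav
end

section

open MeasureTheory ProbabilityTheory Filter Topology

namespace Vale.Agent.P150.Cav

variable {n : ℕ}

/-- the cutoff function `(ε + Y)^(-α)` -/
noncomputable def Ph (ε α β : ℝ) (g : Pairs n → ℝ) : ℝ := (ε + YY β g) ^ (-α)

lemma Ph_pos {ε : ℝ} (hε : 0 < ε) (α β : ℝ) (g : Pairs n → ℝ) : 0 < Ph ε α β g :=
  Real.rpow_pos_of_pos (by have := YY_nonneg β g; linarith) _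

lemma Ph_le {ε α : ℝ} (hε : 0 < ε) (hα : 0 < α) (β : ℝ) (g : Pairs n → ℝ) :
    Ph ε α β g ≤ ε ^ (-α) := by
  unfold Ph
  have := YY_nonneg β g
  exact Real.rpow_le_rpow_of_nonpos hε (by linarith) (by linarith)

lemma continuous_Ph {ε : ℝ} (hε : 0 < ε) (α β : ℝ) :
    Continuous (fun g : Pairs n → ℝ => Ph ε α β g) := by
  unfold Ph
  refine Continuous.rpow_const (continuous_const.add (continuous_YY β)) fun g => Or.inl ?_
  have := YY_nonneg β g
  exact ne_of_gt (by linarith)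

/-- derivative of the cutoff -/
noncomputable def DPh (ε α β : ℝ) (i j : Fin n) (g : Pairs n → ℝ) : ℝ :=
  DYY β i j g * (-α) * (ε + YY β g) ^ (-α - 1)

lemma hasDerivAt_Ph {ε : ℝ} (hε : 0 < ε) (α β : ℝ) (g : Pairs n → ℝ) (i j : Fin n) (h : i ≠ j) :
    HasDerivAt (fun s => Ph ε α β (Function.update g (pr i j h) s)) (DPh ε α β i j g)
      (g (pr i j h)) := by
  unfold Ph
  have h0 : ε + YY β (Function.update g (pr i j h) (g (pr i j h))) ≠ 0 := by
    have := YY_nonneg β (Function.update g (pr i j h) (g (pr i j h)))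
    exact ne_of_gt (by linarith)
  refine (((hasDerivAt_YY β g i j h).const_add ε).rpow_const (Or.inl h0)).congr_deriv ?_
  simp only [Function.update_eq_self]
  rfl

/-- the cutoff term is small -/
lemma norm_X_le {ε α : ℝ} (hε : 0 < ε) (hα : 0 < α) (z : ℂ) (hz : 0 < z.im) (β : ℝ)
    (hn : 0 < n) (g : Pairs n → ℝ) :
    ‖((((n : ℝ) * Real.sqrt n)⁻¹ : ℝ) : ℂ) *
      ∑ i, ∑ j, (if i = j then 0 else (DPh ε α β i j g : ℂ) * hh z β g i j)‖ ≤
      (4 * |β| * α * (z.im)⁻¹) * Ph ε α β g := by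
  have hn' : (0 : ℝ) < n := by exact_mod_cast hn
  have hY := YY_nonneg β g
  have hpos : 0 < ε + YY β g := by linarith only [hY, hε]
  have e1 : ∑ i, ∑ j, (if i = j then 0 else (DPh ε α β i j g : ℂ) * hh z β g i j) =
      (((-α) * (ε + YY β g) ^ (-α - 1) : ℝ) : ℂ) *
        ∑ i, ∑ j, (DYY β i j g : ℂ) * hh z β g i j := by
    rw [Finset.mul_sum]
    refine Finset.sum_congr rfl fun i _ => ?_
    rw [Finset.mul_sum]
    refine Finset.sum_congr rfl fun j _ => ?_
    by_cases hij : i = j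
    · subst hij
      have : DYY β i i g = 0 := by
        unfold DYY
        rw [Mm_self]
        simp [sp_mul_self]
      simp [this]
    · simp only [hij, if_false]
      unfold DPh
      push_cast
      ring
  rw [e1, norm_mul, norm_mul, Complex.norm_real, Complex.norm_real, Real.norm_eq_abs,
    Real.norm_eq_abs, abs_of_nonneg (by positivity : (0 : ℝ) ≤ ((n : ℝ) * Real.sqrt n)⁻¹)]
  have h2 := norm_sum_DYY_hh_le z hz β hn g
  have h3 : |(-α) * (ε + YY β g) ^ (-α - 1)| = α * (ε + YY β g) ^ (-α - 1) := by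
    rw [abs_mul, abs_neg, abs_of_pos hα, abs_of_pos (Real.rpow_pos_of_pos hpos _)]
  rw [h3]
  have h4 : (ε + YY β g) ^ (-α - 1) * YY β g ≤ Ph ε α β g := by
    unfold Ph
    rw [Real.rpow_sub_one hpos.ne', div_mul_eq_mul_div, div_le_iff₀ hpos]
    refine mul_le_mul_of_nonneg_left (by linarith only [hε]) (Real.rpow_nonneg hpos.le _)
  have hs : Real.sqrt n * Real.sqrt n = n := Real.mul_self_sqrt hn'.le
  have hs0 : Real.sqrt n ≠ 0 := (Real.sqrt_pos.2 hn').ne'
  have hrp : 0 ≤ (ε + YY β g) ^ (-α - 1) := Real.rpow_nonneg hpos.le _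
  calc ((n : ℝ) * Real.sqrt n)⁻¹ * (α * (ε + YY β g) ^ (-α - 1) *
        ‖∑ i, ∑ j, (DYY β i j g : ℂ) * hh z β g i j‖)
      ≤ ((n : ℝ) * Real.sqrt n)⁻¹ * (α * (ε + YY β g) ^ (-α - 1) *
        (((n : ℝ)⁻¹) ^ 2 * (2 * (|β| / Real.sqrt n)) * (((n : ℝ) ^ 2 * YY β g) *
        (2 * ((z.im)⁻¹ * (n : ℝ) ^ 2))))) := by
        refine mul_le_mul_of_nonneg_left ?_ (by positivity)
        exact mul_le_mul_of_nonneg_left h2 (by (clear * - hα hε hY; positivity))
    _ = (4 * |β| * α * (z.im)⁻¹) * ((ε + YY β g) ^ (-α - 1) * YY β g) := by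
        have : ((n : ℝ) * Real.sqrt n)⁻¹ * (|β| / Real.sqrt n) = |β| * ((n : ℝ)⁻¹) ^ 2 := by
          rw [div_eq_mul_inv, mul_inv]
          have : (Real.sqrt n)⁻¹ * (Real.sqrt n)⁻¹ = (n : ℝ)⁻¹ := by
            rw [← mul_inv, hs]
          calc (n : ℝ)⁻¹ * (Real.sqrt n)⁻¹ * (|β| * (Real.sqrt n)⁻¹)
              = (n : ℝ)⁻¹ * |β| * ((Real.sqrt n)⁻¹ * (Real.sqrt n)⁻¹) := by ring
            _ = _ := by rw [this]; ring
        calc ((n : ℝ) * Real.sqrt n)⁻¹ * (α * (ε + YY β g) ^ (-α - 1) *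
            (((n : ℝ)⁻¹) ^ 2 * (2 * (|β| / Real.sqrt n)) * (((n : ℝ) ^ 2 * YY β g) *
            (2 * ((z.im)⁻¹ * (n : ℝ) ^ 2)))))
            = (((n : ℝ) * Real.sqrt n)⁻¹ * (|β| / Real.sqrt n)) * (4 * α * (z.im)⁻¹ *
              ((ε + YY β g) ^ (-α - 1) * YY β g)) * (((n : ℝ)⁻¹) ^ 2 * (n : ℝ) ^ 2 * (n : ℝ) ^ 2) := by
              ring
          _ = _ := by
              rw [this]
              field_simp
    _ ≤ _ := mul_le_mul_of_nonneg_left h4 (by (clear * - hα hz; positivity))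

/-- The basic inequality at fixed `n`. -/
theorem basic {ε α : ℝ} (hε : 0 < ε) (hα : 0 < α) (u : ℂ) (hu : 0 < u.im)
    (z : ℂ) (hzu : z = u + u⁻¹) (hz : 0 < z.im) (hn : 0 < n) :
    ∫ g : Pairs n → ℝ, Ph ε α u.re g ∂(disorder n) ≤
      ∫ g : Pairs n → ℝ, (Ph ε α u.re g * (u.im * ‖aa z u.re g‖ + ‖mm z g - u⁻¹‖ * ‖aa z u.re g‖ +
        |u.re| * ‖bb z u.re g‖ + ‖ee z u.re g‖) + (4 * |u.re| * α * (z.im)⁻¹) * Ph ε α u.re g)
        ∂(disorder n) := by
  set β := u.re with hβ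
  have hn' : (0 : ℝ) < n := by exact_mod_cast hn
  have hPc := continuous_Ph (n := n) hε α β
  have hac := continuous_aa (n := n) z hz β
  have hbc := continuous_bb (n := n) z hz β
  have hec := continuous_ee (n := n) z hz β
  have hmc := continuous_mm (n := n) z hz
  -- derivative bound
  set CD : ℝ := ((n : ℝ)⁻¹) ^ 2 * (2 * (|β| / Real.sqrt n)) * ((n : ℝ) ^ 2 * 2) * α *
    ε ^ (-α - 1) with hCD
  have hCD0 : 0 ≤ CD := by (clear * - hn hα hε; positivity)
  have hDb : ∀ (i j : Fin n) (g : Pairs n → ℝ), |DPh ε α β i j g| ≤ CD := by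
    intro i j g
    have hY := YY_nonneg β g
    unfold DPh
    rw [abs_mul, abs_mul, abs_neg, abs_of_pos hα]
    have h1 : |(ε + YY β g) ^ (-α - 1)| ≤ ε ^ (-α - 1) := by
      rw [abs_of_nonneg (Real.rpow_nonneg (by linarith only [hY, hε]) _)]
      exact Real.rpow_le_rpow_of_nonpos hε (by linarith only [hY]) (by linarith only [hα])
    have h2 := abs_DYY_le β i j g
    refine mul_le_mul (mul_le_mul_of_nonneg_right h2 hα.le) h1 (abs_nonneg _) (by (clear * - hn hα; positivity))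
  have hDm : ∀ i j : Fin n, Measurable (fun g : Pairs n → ℝ => (DPh ε α β i j g : ℂ)) := by
    intro i j
    refine Complex.measurable_ofReal.comp ?_
    have : Continuous (fun g : Pairs n → ℝ => DPh ε α β i j g) := by
      unfold DPh
      refine ((continuous_DYY β i j).mul continuous_const).mul ?_
      refine Continuous.rpow_const (continuous_const.add (continuous_YY β)) fun g => Or.inl ?_
      have := YY_nonneg β g
      exact ne_of_gt (by linarith only [this, hε])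
    exact this.measurable
  have hmain := main_ibp z hz β hn (fun g => (Ph ε α β g : ℂ))
    (fun i j g => (DPh ε α β i j g : ℂ)) (Complex.continuous_ofReal.comp hPc).measurable hDm
    (ε ^ (-α) + CD)
    (fun g => by
      rw [Complex.norm_real, Real.norm_eq_abs, abs_of_pos (Ph_pos hε α β g)]
      have := Ph_le hε hα β g
      linarith only [this, hCD0])
    (fun i j g => by
      rw [Complex.norm_real, Real.norm_eq_abs]
      have := hDb i j g
      have h2 : 0 ≤ ε ^ (-α) := Real.rpow_nonneg hε.le _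
      linarith only [h2, this])
    (fun i j h g => (hasDerivAt_Ph hε α β g i j h).ofReal_comp)
  set X : (Pairs n → ℝ) → ℂ := fun g => ((((n : ℝ) * Real.sqrt n)⁻¹ : ℝ) : ℂ) *
      ∑ i, ∑ j, (if i = j then 0 else (DPh ε α β i j g : ℂ) * hh z β g i j) with hX
  have hXb : ∀ g, ‖X g‖ ≤ (4 * |β| * α * (z.im)⁻¹) * Ph ε α β g := fun g =>
    norm_X_le hε hα z hz β hn g
  have hXm : Measurable X := by
    refine measurable_const.mul ?_
    refine Finset.measurable_sum _ fun i _ => Finset.measurable_sum _ fun j _ => ?_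
    by_cases hij : i = j
    · simp only [hij, if_true]; exact measurable_const
    · simp only [hij, if_false]
      exact (hDm i j).mul (continuous_hh z hz β i j).measurable
  -- bounds for integrability
  have hPb : ∀ g : Pairs n → ℝ, ‖(Ph ε α β g : ℂ)‖ ≤ ε ^ (-α) := by
    intro g
    rw [Complex.norm_real, Real.norm_eq_abs, abs_of_pos (Ph_pos hε α β g)]
    exact Ph_le hε hα β g
  have hab : ∀ g : Pairs n → ℝ, ‖aa z β g‖ ≤ (z.im)⁻¹ := fun g =>
    norm_aa_le z β hn g hz (coer_im z g)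
  have hbb : ∀ g : Pairs n → ℝ, ‖bb z β g‖ ≤ (z.im)⁻¹ := fun g => by
    have h1 := norm_bb_le z β g hz (coer_im z g)
    have h2 := YY_le_one β hn g
    have h3 : (z.im)⁻¹ * YY β g ≤ (z.im)⁻¹ * 1 := mul_le_mul_of_nonneg_left h2 (by positivity)
    linarith only [h3, h1]
  have heb : ∀ g : Pairs n → ℝ, ‖ee z β g‖ ≤ 3 * (z.im)⁻¹ ^ 2 * (n : ℝ)⁻¹ := fun g =>
    norm_ee_le z hz β hn g
  have hmb : ∀ g : Pairs n → ℝ, ‖mm z g‖ ≤ (z.im)⁻¹ := fun g => norm_mm_le z hz hn g
  have hPC : Continuous (fun g : Pairs n → ℝ => (Ph ε α β g : ℂ)) :=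
    Complex.continuous_ofReal.comp hPc
  have hIP : Integrable (fun g : Pairs n → ℝ => (Ph ε α β g : ℂ)) (disorder n) :=
    integrable_of_bdd hPC.measurable _ hPb
  have hI1 : Integrable (fun g : Pairs n → ℝ => (Ph ε α β g : ℂ) * (z * aa z β g - 1))
      (disorder n) := by
    refine integrable_of_bdd (hPC.mul ((continuous_const.mul hac).sub continuous_const)).measurable
      (ε ^ (-α) * (‖z‖ * (z.im)⁻¹ + 1)) fun g => ?_
    rw [norm_mul]
    refine mul_le_mul (hPb g) ?_ (norm_nonneg _) (Real.rpow_nonneg hε.le _)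
    refine (norm_sub_le _ _).trans (add_le_add ?_ (by simp))
    rw [norm_mul]
    exact mul_le_mul_of_nonneg_left (hab g) (norm_nonneg _)
  have hI2 : Integrable (fun g : Pairs n → ℝ => (Ph ε α β g : ℂ) * (mm z g * aa z β g +
      β * aa z β g - β * bb z β g + ee z β g) + X g) (disorder n) := by
    refine integrable_of_bdd ((hPC.mul ((((hmc.mul hac).add (continuous_const.mul hac)).sub
      (continuous_const.mul hbc)).add hec)).measurable.add hXm)
      (ε ^ (-α) * ((z.im)⁻¹ * (z.im)⁻¹ + |β| * (z.im)⁻¹ + |β| * (z.im)⁻¹ +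
        3 * (z.im)⁻¹ ^ 2 * (n : ℝ)⁻¹) + (4 * |β| * α * (z.im)⁻¹) * ε ^ (-α)) fun g => ?_
    refine (norm_add_le _ _).trans (add_le_add ?_ ?_)
    · rw [norm_mul]
      refine mul_le_mul (hPb g) ?_ (norm_nonneg _) (Real.rpow_nonneg hε.le _)
      refine (norm_add_le _ _).trans (add_le_add ?_ (heb g))
      refine (norm_sub_le _ _).trans (add_le_add ?_ ?_)
      · refine (norm_add_le _ _).trans (add_le_add ?_ ?_)
        · rw [norm_mul]
          exact mul_le_mul (hmb g) (hab g) (norm_nonneg _) (by positivity)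
        · rw [norm_mul, Complex.norm_real, Real.norm_eq_abs]
          exact mul_le_mul_of_nonneg_left (hab g) (abs_nonneg _)
      · rw [norm_mul, Complex.norm_real, Real.norm_eq_abs]
        exact mul_le_mul_of_nonneg_left (hbb g) (abs_nonneg _)
    · refine (hXb g).trans ?_
      exact mul_le_mul_of_nonneg_left (Ph_le hε hα β g) (by (clear * - hα hz; positivity))
  -- rewrite
  have hkey : ∫ g : Pairs n → ℝ, (Ph ε α β g : ℂ) ∂(disorder n) =
      ∫ g : Pairs n → ℝ, ((Ph ε α β g : ℂ) * ((u - β) * aa z β g - (mm z g - u⁻¹) * aa z β g +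
        β * bb z β g - ee z β g) - X g) ∂(disorder n) := by
    have h1 : ∀ g : Pairs n → ℝ, ((Ph ε α β g : ℂ) * ((u - β) * aa z β g -
        (mm z g - u⁻¹) * aa z β g + β * bb z β g - ee z β g) - X g) =
        ((Ph ε α β g : ℂ) * (z * aa z β g - 1) - ((Ph ε α β g : ℂ) * (mm z g * aa z β g +
      β * aa z β g - β * bb z β g + ee z β g) + X g)) + (Ph ε α β g : ℂ) := by
      intro g
      rw [hzu]
      ring
    simp only [h1]
    have hI12 : Integrable (fun g : Pairs n → ℝ => (Ph ε α β g : ℂ) * (z * aa z β g - 1) -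
        ((Ph ε α β g : ℂ) * (mm z g * aa z β g + β * aa z β g - β * bb z β g + ee z β g) + X g))
        (disorder n) := hI1.sub hI2
    rw [integral_add hI12 hIP, integral_sub hI1 hI2, hmain, sub_self, zero_add]
  have hub : u - β = (u.im : ℂ) * Complex.I := by
    rw [hβ]
    apply Complex.ext <;> simp
  have hnorm : ∀ g : Pairs n → ℝ, ‖(Ph ε α β g : ℂ) * ((u - β) * aa z β g -
      (mm z g - u⁻¹) * aa z β g + β * bb z β g - ee z β g) - X g‖ ≤
      Ph ε α β g * (u.im * ‖aa z β g‖ + ‖mm z g - u⁻¹‖ * ‖aa z β g‖ +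
        |β| * ‖bb z β g‖ + ‖ee z β g‖) + (4 * |β| * α * (z.im)⁻¹) * Ph ε α β g := by
    intro g
    refine (norm_sub_le _ _).trans (add_le_add ?_ (hXb g))
    rw [norm_mul, Complex.norm_real, Real.norm_eq_abs, abs_of_pos (Ph_pos hε α β g)]
    refine mul_le_mul_of_nonneg_left ?_ (Ph_pos hε α β g).le
    refine (norm_sub_le _ _).trans (add_le_add ?_ le_rfl)
    refine (norm_add_le _ _).trans (add_le_add ?_ ?_)
    · refine (norm_sub_le _ _).trans (add_le_add ?_ ?_)
      · rw [norm_mul, hub, norm_mul, Complex.norm_real, Complex.norm_I, mul_one, Real.norm_eq_abs,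
          abs_of_pos hu]
      · rw [norm_mul]
    · rw [norm_mul, Complex.norm_real, Real.norm_eq_abs]
  have hIR : Integrable (fun g : Pairs n → ℝ => Ph ε α β g * (u.im * ‖aa z β g‖ +
      ‖mm z g - u⁻¹‖ * ‖aa z β g‖ + |β| * ‖bb z β g‖ + ‖ee z β g‖) +
      (4 * |β| * α * (z.im)⁻¹) * Ph ε α β g) (disorder n) := by
    have hcont : Continuous (fun g : Pairs n → ℝ => Ph ε α β g * (u.im * ‖aa z β g‖ +
      ‖mm z g - u⁻¹‖ * ‖aa z β g‖ + |β| * ‖bb z β g‖ + ‖ee z β g‖) +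
      (4 * |β| * α * (z.im)⁻¹) * Ph ε α β g) := by
      fun_prop
    refine Integrable.of_bound hcont.measurable.aestronglyMeasurable
      (ε ^ (-α) * (u.im * (z.im)⁻¹ + ((z.im)⁻¹ + ‖u⁻¹‖) * (z.im)⁻¹ + |β| * (z.im)⁻¹ +
        3 * (z.im)⁻¹ ^ 2 * (n : ℝ)⁻¹) + (4 * |β| * α * (z.im)⁻¹) * ε ^ (-α))
      (Eventually.of_forall fun g => ?_)
    have hP0 := (Ph_pos hε α β g).le
    rw [Real.norm_eq_abs, abs_of_nonneg (by (clear * - hP0 hu hα hz; positivity))]
    have hPle := Ph_le hε hα β g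
    refine add_le_add ?_ (mul_le_mul_of_nonneg_left hPle (by (clear * - hα hz; positivity)))
    refine mul_le_mul hPle ?_ (by (clear * - hu; positivity)) (Real.rpow_nonneg hε.le _)
    refine add_le_add (add_le_add (add_le_add ?_ ?_) ?_) (heb g)
    · exact mul_le_mul_of_nonneg_left (hab g) hu.le
    · refine mul_le_mul ((norm_sub_le _ _).trans (add_le_add (hmb g) le_rfl)) (hab g)
        (norm_nonneg _) (by (clear * - hz; positivity))
    · exact mul_le_mul_of_nonneg_left (hbb g) (abs_nonneg _)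
  have hfin : ‖∫ g : Pairs n → ℝ, (Ph ε α β g : ℂ) ∂(disorder n)‖ ≤
      ∫ g : Pairs n → ℝ, (Ph ε α β g * (u.im * ‖aa z β g‖ +
      ‖mm z g - u⁻¹‖ * ‖aa z β g‖ + |β| * ‖bb z β g‖ + ‖ee z β g‖) +
      (4 * |β| * α * (z.im)⁻¹) * Ph ε α β g) ∂(disorder n) := by
    rw [hkey]
    exact norm_integral_le_of_norm_le hIR (Eventually.of_forall hnorm)
  rw [integral_complex_ofReal, Complex.norm_real, Real.norm_eq_abs] at hfin
  exact (le_abs_self _).trans hfin

end Vale.Agent.P150.Cav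
end

section

open MeasureTheory ProbabilityTheory Filter Topology

namespace Vale.Agent.P150.Cav

/-- The event that the top of the spectrum of `G` is at most `(2+δ)√n`. -/
def OpGood (n : ℕ) (δ : ℝ) : Set (Pairs n → ℝ) :=
  {g | ∀ v : Fin n → ℝ, ∑ i, ∑ j, gsym g i j * v i * v j ≤ (2 + δ) * Real.sqrt n * ∑ i, v i ^ 2}

lemma measurableSet_OpGood (n : ℕ) (δ : ℝ) : MeasurableSet (OpGood n δ) := by
  have : OpGood n δ = ⋂ v : Fin n → ℝ, {g : Pairs n → ℝ | ∑ i, ∑ j, gsym g i j * v i * v j ≤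
      (2 + δ) * Real.sqrt n * ∑ i, v i ^ 2} := by
    ext g; simp [OpGood]
  rw [this]
  refine IsClosed.measurableSet (isClosed_iInter fun v => isClosed_le ?_ continuous_const)
  exact continuous_finsetSum _ fun i _ => continuous_finsetSum _ fun j _ =>
    ((continuous_gsym i j).mul continuous_const).mul continuous_const

lemma coer_of_OpGood {n : ℕ} (hn : 0 < n) {δ : ℝ} {g : Pairs n → ℝ} (hg : g ∈ OpGood n δ)
    (z : ℂ) : Coer (Am z g) (z.re - (2 + δ)) := by
  have hn' : (0 : ℝ) < n := by exact_mod_cast hn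
  have hs : 0 < Real.sqrt n := Real.sqrt_pos.2 hn'
  refine coer_re z g (2 + δ) fun v => ?_
  have h := hg v
  have h1 : ∑ i, ∑ j, Wm g i j * (v i * v j) =
      (∑ i, ∑ j, gsym g i j * v i * v j) / Real.sqrt n := by
    rw [Finset.sum_div]
    refine Finset.sum_congr rfl fun i _ => ?_
    rw [Finset.sum_div]
    refine Finset.sum_congr rfl fun j _ => ?_
    unfold Wm
    ring
  rw [h1, div_le_iff₀ hs]
  linarith only [h]

lemma integral_mm_sub_le (u : ℂ) (hu : 0 < u.im) (z : ℂ) (hzu : z = u + u⁻¹) (hz : 0 < z.im) :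
    ∃ K : ℝ, 0 ≤ K ∧ ∀ n : ℕ, 0 < n →
      ∫ g : Pairs n → ℝ, ‖mm z g - u⁻¹‖ ∂(disorder n) ≤ K * (Real.sqrt n)⁻¹ := by
  obtain ⟨K, hK0, hK⟩ := semicircle z hz
  refine ⟨(1 + K) / 2 / u.im, by positivity, fun n hn => ?_⟩
  have hn' : (0 : ℝ) < n := by exact_mod_cast hn
  have hs : 0 < Real.sqrt n := Real.sqrt_pos.2 hn'
  have hu0 : u ≠ 0 := by
    intro h; rw [h] at hu; simp at hu
  have hss : Real.sqrt n * Real.sqrt n = n := Real.mul_self_sqrt hn'.le
  have hmc := continuous_mm (n := n) z hz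
  have hQc : Continuous (fun g : Pairs n → ℝ => QQ z g) := by
    unfold QQ; fun_prop
  -- pointwise bound
  have h1 : ∀ g : Pairs n → ℝ, ‖mm z g - u⁻¹‖ ≤
      (u.im)⁻¹ * (((Real.sqrt n)⁻¹ + Real.sqrt n * ‖QQ z g‖ ^ 2) / 2) := by
    intro g
    have e1 : (mm z g - u⁻¹) * (mm z g - u) = -QQ z g := by
      unfold QQ
      rw [hzu]
      field_simp
      ring
    have e2 : u.im ≤ ‖mm z g - u‖ := by
      have h3 := Complex.abs_im_le_norm (mm z g - u)
      have h4 := mm_im_nonpos z hz g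
      rw [Complex.sub_im] at h3
      have h5 := neg_abs_le ((mm z g).im - u.im)
      linarith only [h3, h4, h5]
    have e3 : ‖mm z g - u⁻¹‖ * ‖mm z g - u‖ = ‖QQ z g‖ := by
      rw [← norm_mul, e1, norm_neg]
    have e4 : ‖mm z g - u⁻¹‖ * u.im ≤ ‖QQ z g‖ := by
      rw [← e3]
      exact mul_le_mul_of_nonneg_left e2 (norm_nonneg _)
    have e5 : ‖QQ z g‖ ≤ ((Real.sqrt n)⁻¹ + Real.sqrt n * ‖QQ z g‖ ^ 2) / 2 := by
      have h6 : 0 ≤ (Real.sqrt n)⁻¹ * (1 - Real.sqrt n * ‖QQ z g‖) ^ 2 := by (clear * - hn; positivity)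
      have h7 : (Real.sqrt n)⁻¹ * (1 - Real.sqrt n * ‖QQ z g‖) ^ 2 =
          (Real.sqrt n)⁻¹ - 2 * ‖QQ z g‖ + Real.sqrt n * ‖QQ z g‖ ^ 2 := by
        field_simp
        ring
      linarith only [h6, h7]
    rw [inv_mul_eq_div, le_div_iff₀ hu]
    exact e4.trans e5
  have hI : Integrable (fun g : Pairs n → ℝ => ‖QQ z g‖ ^ 2) (disorder n) := by
    refine Integrable.of_bound (hQc.norm.pow 2).measurable.aestronglyMeasurable
      ((‖z‖ * (z.im)⁻¹ + 1 + (z.im)⁻¹ ^ 2) ^ 2) (Eventually.of_forall fun g => ?_)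
    rw [Real.norm_eq_abs, abs_of_nonneg (by positivity)]
    exact pow_le_pow_left₀ (norm_nonneg _) (norm_QQ_le z hz hn g) 2
  have hI2 : Integrable (fun g : Pairs n → ℝ =>
      (u.im)⁻¹ * (((Real.sqrt n)⁻¹ + Real.sqrt n * ‖QQ z g‖ ^ 2) / 2)) (disorder n) :=
    (((integrable_const _).add (hI.const_mul _)).div_const _).const_mul _
  have hI3 : Integrable (fun g : Pairs n → ℝ => ‖mm z g - u⁻¹‖) (disorder n) := by
    refine hI2.mono' (hmc.sub continuous_const).norm.measurable.aestronglyMeasurable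
      (Eventually.of_forall fun g => ?_)
    rw [norm_norm]
    exact h1 g
  refine (integral_mono hI3 hI2 h1).trans ?_
  rw [integral_const_mul, integral_div, integral_add (integrable_const _) (hI.const_mul _),
    integral_const_mul, integral_const]
  simp only [probReal_univ, one_smul]
  have h2 := hK n hn
  have h3 : Real.sqrt n * ∫ g : Pairs n → ℝ, ‖QQ z g‖ ^ 2 ∂(disorder n) ≤
      K * (Real.sqrt n)⁻¹ := by
    calc Real.sqrt n * ∫ g : Pairs n → ℝ, ‖QQ z g‖ ^ 2 ∂(disorder n)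
        ≤ Real.sqrt n * (K * (n : ℝ)⁻¹) := mul_le_mul_of_nonneg_left h2 hs.le
      _ = K * (Real.sqrt n)⁻¹ := by
          have h9 : (n : ℝ)⁻¹ = (Real.sqrt n)⁻¹ * (Real.sqrt n)⁻¹ := by rw [← mul_inv, hss]
          rw [h9]
          field_simp
  calc (u.im)⁻¹ * (((Real.sqrt n)⁻¹ + Real.sqrt n * ∫ g : Pairs n → ℝ, ‖QQ z g‖ ^ 2 ∂(disorder n)) / 2)
      ≤ (u.im)⁻¹ * (((Real.sqrt n)⁻¹ + K * (Real.sqrt n)⁻¹) / 2) := by
        refine mul_le_mul_of_nonneg_left ?_ (by positivity)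
        linarith only [h3]
    _ = _ := by ring

/-- Key integral estimate at fixed `n`. -/
theorem Ph_bound {α : ℝ} (hα : 0 < α) (hα1 : α < 1) (u : ℂ) (hu : 0 < u.im) (hre : 0 < u.re)
    (z : ℂ) (hzu : z = u + u⁻¹) (hz : 0 < z.im) (δ d : ℝ) (hd : 0 < d)
    (hdz : d ≤ z.re - (2 + δ)) {ε : ℝ} (hε : 0 < ε) (hε1 : ε ≤ 1) {n : ℕ} (hn : 0 < n)
    (hsmall : u.im * d⁻¹ + 4 * |u.re| * α * (z.im)⁻¹ + 3 * (z.im)⁻¹ ^ 2 * (n : ℝ)⁻¹ ≤ 1 / 2) :
    ∫ g : Pairs n → ℝ, Ph ε α u.re g ∂(disorder n) ≤ 4 * u.re * d⁻¹ +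
      2 * (ε ^ (-α) * (z.im)⁻¹) * ((u.im + u.re) * (disorder n).real (OpGood n δ)ᶜ +
        ∫ g : Pairs n → ℝ, ‖mm z g - u⁻¹‖ ∂(disorder n)) := by
  have hbasic := basic (n := n) hε hα u hu z hzu hz hn
  set β := u.re with hβ
  have hn' : (0 : ℝ) < n := by exact_mod_cast hn
  set A := (z.im)⁻¹ with hA
  have hA0 : 0 < A := by positivity
  set S := OpGood n δ with hS
  have hSm : MeasurableSet Sᶜ := (measurableSet_OpGood n δ).compl
  have hPc := continuous_Ph (n := n) hε α β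
  have hmc := continuous_mm (n := n) z hz
  have hεα : 0 < ε ^ (-α) := Real.rpow_pos_of_pos hε _
  have hab : ∀ g : Pairs n → ℝ, ‖aa z β g‖ ≤ A := fun g =>
    norm_aa_le z β hn g hz (coer_im z g)
  have hbb : ∀ g : Pairs n → ℝ, ‖bb z β g‖ ≤ A := fun g => by
    have h1 := norm_bb_le z β g hz (coer_im z g)
    have h2 := YY_le_one β hn g
    have h3 : A * YY β g ≤ A * 1 := mul_le_mul_of_nonneg_left h2 (by positivity)
    linarith only [h3, h1]
  have heb : ∀ g : Pairs n → ℝ, ‖ee z β g‖ ≤ 3 * A ^ 2 * (n : ℝ)⁻¹ := fun g =>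
    norm_ee_le z hz β hn g
  have hcoer : ∀ g ∈ S, Coer (Am z g) d := by
    intro g hg v
    have h1 := coer_of_OpGood hn hg z v
    have h2 : d * nsq v ≤ (z.re - (2 + δ)) * nsq v :=
      mul_le_mul_of_nonneg_right hdz (nsq_nonneg v)
    exact h2.trans h1
  have hPY : ∀ g : Pairs n → ℝ, Ph ε α β g * YY β g ≤ 2 := by
    intro g
    have hY0 := YY_nonneg β g
    have hY1 := YY_le_one β hn g
    have hpos : 0 < ε + YY β g := by linarith only [hY0, hε]
    have h1 : Ph ε α β g * YY β g ≤ (ε + YY β g) ^ (-α) * (ε + YY β g) := by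
      unfold Ph
      exact mul_le_mul_of_nonneg_left (by linarith only [hε]) (Real.rpow_nonneg hpos.le _)
    have h2 : (ε + YY β g) ^ (-α) * (ε + YY β g) = (ε + YY β g) ^ (1 - α) := by
      rw [show (1 - α) = -α + 1 by ring, Real.rpow_add hpos, Real.rpow_one]
    have h3 : (ε + YY β g) ^ (1 - α) ≤ 2 ^ (1 - α) :=
      Real.rpow_le_rpow hpos.le (by linarith only [hY1, hε1]) (by linarith only [hα1])
    have h4 : (2 : ℝ) ^ (1 - α) ≤ 2 ^ (1 : ℝ) :=
      Real.rpow_le_rpow_of_exponent_le (by norm_num) (by linarith only [hα])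
    rw [Real.rpow_one] at h4
    linarith only [h4, h3, h2, h1]
  -- indicator of the bad set
  set I : (Pairs n → ℝ) → ℝ := Set.indicator Sᶜ (fun _ => (1 : ℝ)) with hI
  have hI0 : ∀ g, 0 ≤ I g := fun g => Set.indicator_nonneg (fun _ _ => zero_le_one) g
  have hIint : Integrable I (disorder n) := (integrable_const 1).indicator hSm
  have hIeq : ∫ g, I g ∂(disorder n) = (disorder n).real Sᶜ := by
    rw [hI, integral_indicator hSm]
    simp
  have hpt : ∀ g : Pairs n → ℝ, Ph ε α β g * (u.im * ‖aa z β g‖ + ‖mm z g - u⁻¹‖ * ‖aa z β g‖ +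
        |β| * ‖bb z β g‖ + ‖ee z β g‖) + (4 * |β| * α * A) * Ph ε α β g ≤
      (u.im * d⁻¹ + 4 * |β| * α * A + 3 * A ^ 2 * (n : ℝ)⁻¹) * Ph ε α β g + 2 * β * d⁻¹ +
      (ε ^ (-α) * A) * ((u.im + β) * I g) + (ε ^ (-α) * A) * ‖mm z g - u⁻¹‖ := by
    intro g
    have hP0 := (Ph_pos hε α β g).le
    have hPle := Ph_le hε hα β g
    have hY0 := YY_nonneg β g
    rw [abs_of_pos hre]
    have t2 : Ph ε α β g * (‖mm z g - u⁻¹‖ * ‖aa z β g‖) ≤ (ε ^ (-α) * A) * ‖mm z g - u⁻¹‖ := by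
      calc Ph ε α β g * (‖mm z g - u⁻¹‖ * ‖aa z β g‖) ≤ ε ^ (-α) * (‖mm z g - u⁻¹‖ * A) := by
            refine mul_le_mul hPle ?_ (by (clear * -; positivity)) hεα.le
            exact mul_le_mul_of_nonneg_left (hab g) (norm_nonneg _)
        _ = _ := by ring
    have t4 : Ph ε α β g * ‖ee z β g‖ ≤ 3 * A ^ 2 * (n : ℝ)⁻¹ * Ph ε α β g := by
      rw [mul_comm]
      exact mul_le_mul_of_nonneg_right (heb g) hP0
    have t13 : Ph ε α β g * (u.im * ‖aa z β g‖) + Ph ε α β g * (β * ‖bb z β g‖) ≤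
        u.im * d⁻¹ * Ph ε α β g + 2 * β * d⁻¹ + (ε ^ (-α) * A) * ((u.im + β) * I g) := by
      by_cases hg : g ∈ S
      · have ha := norm_aa_le z β hn g hd (hcoer g hg)
        have hb := norm_bb_le z β g hd (hcoer g hg)
        have h1 : Ph ε α β g * (u.im * ‖aa z β g‖) ≤ u.im * d⁻¹ * Ph ε α β g := by
          calc Ph ε α β g * (u.im * ‖aa z β g‖) ≤ Ph ε α β g * (u.im * d⁻¹) :=
                mul_le_mul_of_nonneg_left (mul_le_mul_of_nonneg_left ha hu.le) hP0
            _ = _ := by ring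
        have h2 : Ph ε α β g * (β * ‖bb z β g‖) ≤ 2 * β * d⁻¹ := by
          calc Ph ε α β g * (β * ‖bb z β g‖) ≤ Ph ε α β g * (β * (d⁻¹ * YY β g)) :=
                mul_le_mul_of_nonneg_left (mul_le_mul_of_nonneg_left hb hre.le) hP0
            _ = β * d⁻¹ * (Ph ε α β g * YY β g) := by ring
            _ ≤ β * d⁻¹ * 2 := mul_le_mul_of_nonneg_left (hPY g) (by (clear * - hre hd; positivity))
            _ = _ := by ring
        have h3 : 0 ≤ (ε ^ (-α) * A) * ((u.im + β) * I g) := by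
          have := hI0 g; (clear * - hε hz hu hre this; positivity)
        linarith only [h1, h2, h3]
      · have hI1 : I g = 1 := by
          rw [hI]; exact Set.indicator_of_mem (by simpa using hg) _
        rw [hI1]
        have h1 : Ph ε α β g * (u.im * ‖aa z β g‖) ≤ ε ^ (-α) * (u.im * A) :=
          mul_le_mul hPle (mul_le_mul_of_nonneg_left (hab g) hu.le) (by (clear * - hu; positivity)) hεα.le
        have h2 : Ph ε α β g * (β * ‖bb z β g‖) ≤ ε ^ (-α) * (β * A) :=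
          mul_le_mul hPle (mul_le_mul_of_nonneg_left (hbb g) hre.le) (by (clear * - hre; positivity)) hεα.le
        have h3 : 0 ≤ u.im * d⁻¹ * Ph ε α β g + 2 * β * d⁻¹ := by (clear * - hu hd hP0 hre; positivity)
        have h4 : (ε ^ (-α) * A) * ((u.im + β) * 1) = ε ^ (-α) * (u.im * A) + ε ^ (-α) * (β * A) := by
          ring
        linarith only [h3, h2, h1]
    have e : Ph ε α β g * (u.im * ‖aa z β g‖ + ‖mm z g - u⁻¹‖ * ‖aa z β g‖ +
        β * ‖bb z β g‖ + ‖ee z β g‖) = (Ph ε α β g * (u.im * ‖aa z β g‖) +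
        Ph ε α β g * (β * ‖bb z β g‖)) + Ph ε α β g * (‖mm z g - u⁻¹‖ * ‖aa z β g‖) +
        Ph ε α β g * ‖ee z β g‖ := by ring
    rw [e]
    linarith
  have hIPh : Integrable (fun g : Pairs n → ℝ => Ph ε α β g) (disorder n) := by
    refine Integrable.of_bound hPc.measurable.aestronglyMeasurable (ε ^ (-α))
      (Eventually.of_forall fun g => ?_)
    rw [Real.norm_eq_abs, abs_of_pos (Ph_pos hε α β g)]
    exact Ph_le hε hα β g
  have hImm : Integrable (fun g : Pairs n → ℝ => ‖mm z g - u⁻¹‖) (disorder n) := by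
    refine Integrable.of_bound (hmc.sub continuous_const).norm.measurable.aestronglyMeasurable
      (A + ‖u⁻¹‖) (Eventually.of_forall fun g => ?_)
    rw [norm_norm]
    exact (norm_sub_le _ _).trans (add_le_add (norm_mm_le z hz hn g) le_rfl)
  have hR1 : Integrable (fun g : Pairs n → ℝ =>
      (u.im * d⁻¹ + 4 * |β| * α * A + 3 * A ^ 2 * (n : ℝ)⁻¹) * Ph ε α β g) (disorder n) :=
    hIPh.const_mul _
  have hR2 : Integrable (fun g : Pairs n → ℝ =>
      (u.im * d⁻¹ + 4 * |β| * α * A + 3 * A ^ 2 * (n : ℝ)⁻¹) * Ph ε α β g + 2 * β * d⁻¹)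
      (disorder n) := hR1.add (integrable_const _)
  have hR3 : Integrable (fun g : Pairs n → ℝ => (ε ^ (-α) * A) * ((u.im + β) * I g))
      (disorder n) := (hIint.const_mul _).const_mul _
  have hR4 : Integrable (fun g : Pairs n → ℝ =>
      (u.im * d⁻¹ + 4 * |β| * α * A + 3 * A ^ 2 * (n : ℝ)⁻¹) * Ph ε α β g + 2 * β * d⁻¹ +
      (ε ^ (-α) * A) * ((u.im + β) * I g)) (disorder n) := hR2.add hR3
  have hR5 : Integrable (fun g : Pairs n → ℝ => (ε ^ (-α) * A) * ‖mm z g - u⁻¹‖)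
      (disorder n) := hImm.const_mul _
  have hL : Integrable (fun g : Pairs n → ℝ => Ph ε α β g * (u.im * ‖aa z β g‖ +
      ‖mm z g - u⁻¹‖ * ‖aa z β g‖ + |β| * ‖bb z β g‖ + ‖ee z β g‖) +
      (4 * |β| * α * A) * Ph ε α β g) (disorder n) := by
    have hac := continuous_aa (n := n) z hz β
    have hbc := continuous_bb (n := n) z hz β
    have hec := continuous_ee (n := n) z hz β
    have hcont : Continuous (fun g : Pairs n → ℝ => Ph ε α β g * (u.im * ‖aa z β g‖ +
      ‖mm z g - u⁻¹‖ * ‖aa z β g‖ + |β| * ‖bb z β g‖ + ‖ee z β g‖) +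
      (4 * |β| * α * A) * Ph ε α β g) := by
      fun_prop
    refine (hR4.add hR5).mono' hcont.measurable.aestronglyMeasurable
      (Eventually.of_forall fun g => ?_)
    have hP0 := (Ph_pos hε α β g).le
    rw [Real.norm_eq_abs, abs_of_nonneg (by positivity)]
    exact hpt g
  have hfin := hbasic.trans (integral_mono hL (hR4.add hR5) hpt)
  rw [show (fun g : Pairs n → ℝ => (u.im * d⁻¹ + 4 * |β| * α * A + 3 * A ^ 2 * (n : ℝ)⁻¹) *
      Ph ε α β g + 2 * β * d⁻¹ + (ε ^ (-α) * A) * ((u.im + β) * I g)) +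
      (fun g : Pairs n → ℝ => (ε ^ (-α) * A) * ‖mm z g - u⁻¹‖) = fun g =>
      ((u.im * d⁻¹ + 4 * |β| * α * A + 3 * A ^ 2 * (n : ℝ)⁻¹) *
      Ph ε α β g + 2 * β * d⁻¹ + (ε ^ (-α) * A) * ((u.im + β) * I g)) +
      (ε ^ (-α) * A) * ‖mm z g - u⁻¹‖ from rfl] at hfin
  rw [integral_add hR4 hR5, integral_add hR2 hR3, integral_add hR1 (integrable_const _)] at hfin
  simp only [integral_const_mul, integral_const, hIeq, probReal_univ, one_smul] at hfin
  set P := ∫ g : Pairs n → ℝ, Ph ε α β g ∂(disorder n) with hP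
  have hP0 : 0 ≤ P := integral_nonneg fun g => (Ph_pos hε α β g).le
  have h1 : (u.im * d⁻¹ + 4 * |β| * α * A + 3 * A ^ 2 * (n : ℝ)⁻¹) * P ≤ 1 / 2 * P :=
    mul_le_mul_of_nonneg_right hsmall hP0
  linarith

end Vale.Agent.P150.Cav
end

section

open MeasureTheory ProbabilityTheory Filter Topology

namespace Vale.Agent.P150.Cav

/-- `gap * n * ⟨R²⟩ ≤ 1` -/
lemma gap_mul_YY_le {n : ℕ} (hn : 0 < n) (β : ℝ) (g : Pairs n → ℝ) :
    gap (skJ β g) (fun _ => 0) * (n * YY β g) ≤ 1 := by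
  have hn' : (0 : ℝ) < n := by exact_mod_cast hn
  have hJs : ∀ i j, skJ β g i j = skJ β g j i := by
    intro i j
    unfold skJ
    rw [gsym_symm]
  set G := gap (skJ β g) (fun _ => 0) with hG
  have h1 : ∀ y : Cfg n, G * ex (skJ β g) (fun _ => 0)
      (fun x => (∑ j, sp (y j) * sp (x j)) ^ 2) ≤ n := by
    intro y
    set f : Cfg n → ℝ := fun x => ∑ j, sp (y j) * sp (x j) with hf
    have hdir := Poinc.dir_lin_le (skJ β g) (fun _ => 0) hJs (fun j => sp (y j))
    have hsum : ∑ i, sp (y i) ^ 2 = (n : ℝ) := by simp [sp_sq]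
    rw [hsum] at hdir
    have hmean : ex (skJ β g) (fun _ => 0) f = 0 := by
      have : ex (skJ β g) (fun _ => 0) f =
          ∑ j, sp (y j) * ex (skJ β g) (fun _ => 0) (fun x => sp (x j)) := by
        unfold ex
        simp only [hf, Finset.mul_sum]
        rw [Finset.sum_comm]
        exact Finset.sum_congr rfl fun j _ => Finset.sum_congr rfl fun x _ => by ring
      rw [this]
      simp [Poinc.ex_sp_zero]
    have hvar : var (skJ β g) (fun _ => 0) f = ex (skJ β g) (fun _ => 0) (fun x => f x ^ 2) := by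
      rw [Poinc.var_eq, hmean]; ring
    rw [← hvar]
    by_cases h0 : var (skJ β g) (fun _ => 0) f = 0
    · rw [h0, mul_zero]; exact hn'.le
    · have hpos : 0 < var (skJ β g) (fun _ => 0) f :=
        lt_of_le_of_ne (Poinc.var_nonneg _ _ f) (Ne.symm h0)
      have h2 := gap_le hJs f h0
      rw [le_div_iff₀ hpos] at h2
      exact h2.trans hdir
  have h2 : ∑ y : Cfg n, pw β g y * (G * ex (skJ β g) (fun _ => 0)
      (fun x => (∑ j, sp (y j) * sp (x j)) ^ 2)) ≤ n := by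
    calc ∑ y : Cfg n, pw β g y * (G * ex (skJ β g) (fun _ => 0)
          (fun x => (∑ j, sp (y j) * sp (x j)) ^ 2)) ≤ ∑ y : Cfg n, pw β g y * n :=
          Finset.sum_le_sum fun y _ => mul_le_mul_of_nonneg_left (h1 y) (pw_pos β g y).le
      _ = n := by rw [← Finset.sum_mul, pw_sum, one_mul]
  have h3 : ∑ y : Cfg n, pw β g y * (G * ex (skJ β g) (fun _ => 0)
      (fun x => (∑ j, sp (y j) * sp (x j)) ^ 2)) = G * ((n : ℝ) ^ 2 * YY β g) := by
    have e1 : (n : ℝ) ^ 2 * YY β g = ∑ i, ∑ j, Mm β g i j ^ 2 := by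
      unfold YY; field_simp
    rw [e1, ← avg_qf, Finset.mul_sum]
    refine Finset.sum_congr rfl fun y _ => ?_
    have e2 : ex (skJ β g) (fun _ => 0) (fun x => (∑ j, sp (y j) * sp (x j)) ^ 2) = qf β g y := by
      have e3 : ex (skJ β g) (fun _ => 0) (fun x => (∑ j, sp (y j) * sp (x j)) ^ 2) =
          ∑ x : Cfg n, pw β g x * (∑ j, sp (y j) * sp (x j)) ^ 2 := rfl
      rw [e3]
      unfold qf
      simp only [Mm_eq, Finset.sum_mul]
      have e4 : ∀ k : Fin n, ∑ l : Fin n, ∑ x : Cfg n, pw β g x * (sp (x k) * sp (x l)) *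
          (sp (y k) * sp (y l)) = ∑ x : Cfg n, ∑ l : Fin n, pw β g x * (sp (x k) * sp (x l)) *
          (sp (y k) * sp (y l)) := fun k => Finset.sum_comm
      simp only [e4]
      rw [Finset.sum_comm]
      refine Finset.sum_congr rfl fun x _ => ?_
      rw [sq, Finset.sum_mul_sum, Finset.mul_sum]
      refine Finset.sum_congr rfl fun k _ => ?_
      rw [Finset.mul_sum]
      refine Finset.sum_congr rfl fun l _ => ?_
      ring
    rw [e2]
    ring
  rw [h3] at h2
  have h4 : G * (n * YY β g) * n ≤ 1 * n := by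
    calc G * (n * YY β g) * n = G * ((n : ℝ) ^ 2 * YY β g) := by ring
      _ ≤ 1 * n := by rw [one_mul]; exact h2
  exact le_of_mul_le_mul_right h4 hn'

lemma tendsto_OpGood {δ : ℝ} (hδ : 0 < δ) :
    Tendsto (fun n : ℕ => (disorder n).real (OpGood n δ)ᶜ) atTop (𝓝 0) := by
  have h1 : ∀ n : ℕ, (disorder n).real (OpGood n δ)ᶜ = 1 - (disorder n (OpGood n δ)).toReal := by
    intro n
    rw [measureReal_compl (measurableSet_OpGood n δ)]
    simp [Measure.real]
  have hlow : Tendsto (fun n : ℕ => disorder n (OpGood n δ)) atTop (𝓝 1) := by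
    refine tendsto_of_tendsto_of_tendsto_of_le_of_le (goe_norm hδ) tendsto_const_nhds ?_ ?_
    · intro n
      refine measure_mono ?_
      intro g hg v
      exact (le_abs_self _).trans (hg v)
    · intro n
      exact prob_le_one
  simp only [h1]
  have h2 : Tendsto (fun n : ℕ => (disorder n (OpGood n δ)).toReal) atTop (𝓝 1) := by
    have := (ENNReal.tendsto_toReal (a := 1) ENNReal.one_ne_top).comp hlow
    simpa [Function.comp_def] using this
  have := h2.const_sub 1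
  simpa using this

/-- For `β > 1` the mean squared overlap stays away from zero. -/
theorem overlap_tight (β : ℝ) (hβ : 1 < β) : ∃ C α : ℝ, 0 < C ∧ 0 < α ∧ ∀ ε : ℝ, 0 < ε → ε ≤ 1 →
    ∀ᶠ n : ℕ in atTop, (disorder n).real {g | YY β g ≤ ε} ≤ C * ε ^ α := by
  have hβ0 : 0 < β := by linarith
  set d0 : ℝ := β + β⁻¹ - 2 with hd0
  have hd0pos : 0 < d0 := by
    have : d0 = (β - 1) ^ 2 / β := by rw [hd0]; field_simp; ring
    rw [this]
    have : 0 < (β - 1) ^ 2 := by positivity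
    positivity
  set m : ℝ := min 1 d0 with hm
  have hm0 : 0 < m := lt_min one_pos hd0pos
  have hm1 : m ≤ 1 := min_le_left _ _
  have hmd : m ≤ d0 := min_le_right _ _
  set τ : ℝ := m / 16 with hτ
  have hτ0 : 0 < τ := by positivity
  set u : ℂ := ⟨β, τ⟩ with hu
  have hure : u.re = β := rfl
  have huim : u.im = τ := rfl
  have hns : Complex.normSq u = β ^ 2 + τ ^ 2 := by
    rw [Complex.normSq_apply]; simp only [hure, huim]; ring
  have hnspos : 1 < β ^ 2 + τ ^ 2 := by nlinarith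
  set z : ℂ := u + u⁻¹ with hz
  have hzre : z.re = β + β / (β ^ 2 + τ ^ 2) := by
    rw [hz, Complex.add_re, Complex.inv_re, hns]
  have hzim : z.im = τ - τ / (β ^ 2 + τ ^ 2) := by
    rw [hz, Complex.add_im, Complex.inv_im, hns, huim]; ring
  have hzim0 : 0 < z.im := by
    rw [hzim, sub_pos, div_lt_iff₀ (by linarith)]
    nlinarith
  set A : ℝ := (z.im)⁻¹ with hA
  have hA0 : 0 < A := by positivity
  set δ : ℝ := d0 / 4 with hδ
  have hδ0 : 0 < δ := by positivity
  set d : ℝ := d0 / 2 with hd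
  have hdpos : 0 < d := by positivity
  have hdz : d ≤ z.re - (2 + δ) := by
    rw [hzre]
    have h1 : β⁻¹ - τ ^ 2 ≤ β / (β ^ 2 + τ ^ 2) := by
      rw [le_div_iff₀ (by linarith only [hnspos, hτ0, hτ, hm1])]
      have e : (β⁻¹ - τ ^ 2) * (β ^ 2 + τ ^ 2) = β + τ ^ 2 * (β⁻¹ - β ^ 2 - τ ^ 2) := by
        field_simp
        ring
      rw [e]
      have hinv : β⁻¹ ≤ 1 := inv_le_one_of_one_le₀ hβ.le
      nlinarith [sq_nonneg τ, mul_nonneg (sq_nonneg τ) (by linarith only [hnspos, hinv] : (0:ℝ) ≤ β ^ 2 + τ ^ 2 - β⁻¹)]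
    have h2 : τ ^ 2 ≤ d0 / 4 := by
      rw [hτ]; (by_contra nlg; linarith only [nlg, mul_pos (sub_pos.2 hτ0) (sub_pos.2 hδ0), mul_eq_zero_of_left (sub_eq_zero.2 hδ) (τ - (0)), mul_pos (sub_pos.2 hτ0) (sub_pos.2 hτ0), mul_eq_zero_of_left (sub_eq_zero.2 hτ) (d - (0)), mul_eq_zero_of_left (sub_eq_zero.2 hτ) (d - (d0 / 2)), mul_eq_zero_of_left (sub_eq_zero.2 hτ) (τ - (m / 16)), mul_nonneg (sub_nonneg.2 hmd) (le_of_lt (sub_pos.2 hτ0)), mul_nonneg (sub_nonneg.2 hm1) (le_of_lt (sub_pos.2 hdpos)), mul_eq_zero_of_left (sub_eq_zero.2 hd) (1 - (m)), mul_pos (sub_pos.2 (not_le.1 nlg)) (sub_pos.2 hτ0), mul_eq_zero_of_left (sub_eq_zero.2 hτ) ((m / 16) ^ 2 - (d0 / 4)), mul_nonneg (le_of_lt (sub_pos.2 (not_le.1 nlg))) (sub_nonneg.2 hm1)])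
    rw [hd, hδ]
    linarith only [h1, h2]
  set α : ℝ := min (1 / 2) ((32 * β * A)⁻¹) with hα
  have hα0 : 0 < α := lt_min (by norm_num) (by positivity)
  have hα1 : α < 1 := lt_of_le_of_lt (min_le_left _ _) (by norm_num)
  have hα2 : α ≤ (32 * β * A)⁻¹ := min_le_right _ _
  have hb1 : u.im * d⁻¹ ≤ 1 / 8 := by
    rw [huim, ← div_eq_mul_inv, div_le_iff₀ hdpos]
    rw [hτ, hd]; linarith only [hmd]
  have hb2 : 4 * |u.re| * α * A ≤ 1 / 8 := by
    rw [hure, abs_of_pos hβ0]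
    calc 4 * β * α * A = (4 * β * A) * α := by ring
      _ ≤ (4 * β * A) * (32 * β * A)⁻¹ := mul_le_mul_of_nonneg_left hα2 (by positivity)
      _ = 1 / 8 := by field_simp; norm_num
  obtain ⟨K, hK0, hK⟩ := integral_mm_sub_le u (by rw [huim]; exact hτ0) z hz hzim0
  refine ⟨2 * (4 * β * d⁻¹ + 1), α, by positivity, hα0, fun ε hε hε1 => ?_⟩
  -- the error term tends to zero
  have hlim : Tendsto (fun n : ℕ => 2 * (ε ^ (-α) * A) * ((τ + β) *
      (disorder n).real (OpGood n δ)ᶜ + K * (Real.sqrt n)⁻¹)) atTop (𝓝 0) := by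
    have h1 := tendsto_OpGood hδ0
    have h2 : Tendsto (fun n : ℕ => (Real.sqrt n)⁻¹) atTop (𝓝 0) :=
      tendsto_inv_atTop_zero.comp (Real.tendsto_sqrt_atTop.comp tendsto_natCast_atTop_atTop)
    have h3 := ((h1.const_mul (τ + β)).add (h2.const_mul K)).const_mul (2 * (ε ^ (-α) * A))
    simpa using h3
  have hlim2 : Tendsto (fun n : ℕ => 3 * A ^ 2 * (n : ℝ)⁻¹) atTop (𝓝 0) := by
    have h2 : Tendsto (fun n : ℕ => ((n : ℝ))⁻¹) atTop (𝓝 0) :=
      tendsto_inv_atTop_zero.comp tendsto_natCast_atTop_atTop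
    simpa using h2.const_mul (3 * A ^ 2)
  filter_upwards [eventually_gt_atTop 0, hlim.eventually_le_const (show (0 : ℝ) < 1 by norm_num),
    hlim2.eventually_le_const (show (0 : ℝ) < 1 / 4 by norm_num)] with n hn h1 h2
  have hP := Ph_bound hα0 hα1 u (by rw [huim]; exact hτ0) (by rw [hure]; exact hβ0) z hz hzim0
    δ d hdpos hdz hε hε1 hn (by rw [← hA]; linarith only [hb1, hb2, h2])
  rw [hure, huim] at hP
  have hKn := hK n hn
  have hεα : 0 < ε ^ (-α) := Real.rpow_pos_of_pos hε _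
  have hP2 : ∫ g : Pairs n → ℝ, Ph ε α β g ∂(disorder n) ≤ 4 * β * d⁻¹ + 1 := by
    refine hP.trans (add_le_add le_rfl ?_)
    refine le_trans ?_ h1
    refine mul_le_mul_of_nonneg_left (add_le_add le_rfl hKn) (by positivity)
  -- Markov
  have hIPh : Integrable (fun g : Pairs n → ℝ => Ph ε α β g) (disorder n) := by
    refine Integrable.of_bound (continuous_Ph hε α β).measurable.aestronglyMeasurable (ε ^ (-α))
      (Eventually.of_forall fun g => ?_)
    rw [Real.norm_eq_abs, abs_of_pos (Ph_pos hε α β g)]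
    exact Ph_le hε hα0 β g
  have hM := mul_meas_ge_le_integral_of_nonneg (Eventually.of_forall fun g =>
    (Ph_pos (n := n) hε α β g).le) hIPh ((2 * ε) ^ (-α))
  have hsub : {g : Pairs n → ℝ | YY β g ≤ ε} ⊆ {g | (2 * ε) ^ (-α) ≤ Ph ε α β g} := by
    intro g hg
    have hY := YY_nonneg β g
    have hg' : YY β g ≤ ε := hg
    show (2 * ε) ^ (-α) ≤ (ε + YY β g) ^ (-α)
    exact Real.rpow_le_rpow_of_nonpos (by linarith only [hY, hε]) (by linarith only [hg']) (by linarith only [hα0])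
  have h2ε : 0 < (2 * ε) ^ (-α) := Real.rpow_pos_of_pos (by linarith only [hε]) _
  have hfin : (2 * ε) ^ (-α) * (disorder n).real {g : Pairs n → ℝ | YY β g ≤ ε} ≤
      4 * β * d⁻¹ + 1 := by
    refine le_trans (mul_le_mul_of_nonneg_left (measureReal_mono hsub) h2ε.le) ?_
    exact hM.trans hP2
  have hpow : (2 * ε) ^ α ≤ 2 * ε ^ α := by
    rw [Real.mul_rpow (by norm_num) hε.le]
    refine mul_le_mul_of_nonneg_right ?_ (Real.rpow_nonneg hε.le _)
    calc (2 : ℝ) ^ α ≤ 2 ^ (1 : ℝ) := Real.rpow_le_rpow_of_exponent_le (by norm_num) hα1.le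
      _ = 2 := Real.rpow_one 2
  have hneg : (2 * ε) ^ (-α) * (2 * ε) ^ α = 1 := by
    rw [← Real.rpow_add (by linarith only [hε])]; simp
  calc (disorder n).real {g : Pairs n → ℝ | YY β g ≤ ε}
      = (2 * ε) ^ α * ((2 * ε) ^ (-α) * (disorder n).real {g : Pairs n → ℝ | YY β g ≤ ε}) := by
        rw [← mul_assoc, mul_comm ((2 * ε) ^ α), hneg, one_mul]
    _ ≤ (2 * ε) ^ α * (4 * β * d⁻¹ + 1) :=
        mul_le_mul_of_nonneg_left hfin (Real.rpow_nonneg (by linarith only [hε]) _)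
    _ ≤ (2 * ε ^ α) * (4 * β * d⁻¹ + 1) := mul_le_mul_of_nonneg_right hpow (by (clear * - hβ hd0pos; positivity))
    _ = _ := by ring

end Vale.Agent.P150.Cav
end
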