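import Mathlib
import Vale.Agent.P150.Bdl.B7
import Vale.Agent.P150.Bdl.B14
import Vale.Agent.P150.Bdl.B21
import Vale.Agent.P150.Bdl.B20
import Vale.Agent.P150.Bdl.B23
import Vale.Agent.P150.Bdl.B4

set_option linter.all false

section

/-! P150 FULL, module D3b, deterministic part (helper691). -/

open MeasureTheory ProbabilityTheory Filter Topology
open scoped Matrix

namespace Vale.Agent.P150.F.D3

variable {n m : ℕ}

/-- the average of `1{σ_j = ε} cos (α + θ a_j)` -/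
noncomputable def chr (ε θ α : ℝ) (a : Vec n) (x : Cfg n) : ℝ :=
  (∑ j, ind ε (sv x j) * Real.cos (α + θ * a j)) / n

/-- the fraction of spins equal to `ε` -/
noncomputable def fr (ε : ℝ) (x : Cfg n) : ℝ := (∑ j, ind ε (sv x j)) / n

/-- the deviation of the empirical characteristic function from that of `N (c ε, g)` -/
noncomputable def dev (ε θ α c g : ℝ) (a : Vec n) (x : Cfg n) : ℝ :=
  chr ε θ α a x - Real.exp (-(θ ^ 2 * g / 2)) * Real.cos (α + θ * (c * ε)) * fr ε x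

lemma sv_eq (x : Cfg n) (j : Fin n) : sv x j = 1 ∨ sv x j = -1 := by
  unfold sv
  cases x j <;> simp [sp]

lemma ind_eq {ε : ℝ} (hε : ε = 1 ∨ ε = -1) (x : Cfg n) (j : Fin n) :
    (ind ε (sv x j) = 0 ∧ sv x j = -ε) ∨ (ind ε (sv x j) = 1 ∧ sv x j = ε) := by
  unfold ind
  rcases hε with rfl | rfl <;> rcases sv_eq x j with h | h <;> rw [h] <;> norm_num

lemma ind_nonneg {ε : ℝ} (hε : ε = 1 ∨ ε = -1) (x : Cfg n) (j : Fin n) :
    0 ≤ ind ε (sv x j) := by
  rcases ind_eq hε x j with h | h <;> rw [h.1] <;> norm_num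

lemma ind_le_one {ε : ℝ} (hε : ε = 1 ∨ ε = -1) (x : Cfg n) (j : Fin n) :
    ind ε (sv x j) ≤ 1 := by
  rcases ind_eq hε x j with h | h <;> rw [h.1] <;> norm_num

lemma abs_ind_le {ε : ℝ} (hε : ε = 1 ∨ ε = -1) (x : Cfg n) (j : Fin n) :
    |ind ε (sv x j)| ≤ 1 := by
  rw [abs_of_nonneg (ind_nonneg hε x j)]
  exact ind_le_one hε x j

/-- averages of bounded quantities are bounded -/
lemma abs_avg_le {u : Fin n → ℝ} {C : ℝ} (hC : 0 ≤ C) (h : ∀ j, |u j| ≤ C) :
    |(∑ j, u j) / n| ≤ C := by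
  rcases Nat.eq_zero_or_pos n with rfl | hn
  · simpa using hC
  have hn' : (0 : ℝ) < n := by exact_mod_cast hn
  rw [abs_div, abs_of_pos hn', div_le_iff₀ hn']
  calc |∑ j, u j| ≤ ∑ j, |u j| := Finset.abs_sum_le_sum_abs _ _
    _ ≤ ∑ _j : Fin n, C := Finset.sum_le_sum fun j _ => h j
    _ = C * n := by simp [mul_comm]

lemma abs_chr_le {ε : ℝ} (hε : ε = 1 ∨ ε = -1) (θ α : ℝ) (a : Vec n) (x : Cfg n) :
    |chr ε θ α a x| ≤ 1 := by
  refine abs_avg_le zero_le_one fun j => ?_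
  rw [abs_mul]
  exact mul_le_one₀ (abs_ind_le hε x j) (abs_nonneg _) (Real.abs_cos_le_one _)

lemma abs_fr_le {ε : ℝ} (hε : ε = 1 ∨ ε = -1) (x : Cfg n) : |fr ε x| ≤ 1 :=
  abs_avg_le zero_le_one fun j => abs_ind_le hε x j

lemma abs_dev_le {ε : ℝ} (hε : ε = 1 ∨ ε = -1) {g : ℝ} (hg : 0 ≤ g) (θ α c : ℝ) (a : Vec n)
    (x : Cfg n) : |dev ε θ α c g a x| ≤ 2 := by
  unfold dev
  have h1 := abs_chr_le hε θ α a x
  have h2 : |Real.exp (-(θ ^ 2 * g / 2)) * Real.cos (α + θ * (c * ε)) * fr ε x| ≤ 1 := by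
    rw [abs_mul, abs_mul, Real.abs_exp]
    have e1 : Real.exp (-(θ ^ 2 * g / 2)) ≤ 1 := Real.exp_le_one_iff.2 (by
      have : 0 ≤ θ ^ 2 * g / 2 := by positivity
      linarith only [this])
    exact mul_le_one₀ (mul_le_one₀ e1 (abs_nonneg _) (Real.abs_cos_le_one _)) (abs_nonneg _)
      (abs_fr_le hε x)
  calc _ ≤ _ := abs_sub _ _
    _ ≤ 1 + 1 := add_le_add h1 h2
    _ = 2 := by norm_num

/-- change of the phase -/
lemma chr_add (ε θ α α' : ℝ) (a : Vec n) (x : Cfg n) :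
    chr ε θ (α + α') a x = Real.cos α' * chr ε θ α a x
      - Real.sin α' * chr ε θ (α - Real.pi / 2) a x := by
  unfold chr
  rw [← mul_div_assoc, ← mul_div_assoc, ← sub_div, Finset.mul_sum, Finset.mul_sum,
    ← Finset.sum_sub_distrib]
  congr 1
  refine Finset.sum_congr rfl fun j _ => ?_
  have h1 : Real.cos (α - Real.pi / 2 + θ * a j) = Real.sin (α + θ * a j) := by
    rw [show α - Real.pi / 2 + θ * a j = α + θ * a j - Real.pi / 2 by ring,
      Real.cos_sub_pi_div_two]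
  rw [h1, show α + α' + θ * a j = (α + θ * a j) + α' by ring, Real.cos_add]
  ring

lemma dev_add (ε θ α α' c g : ℝ) (a : Vec n) (x : Cfg n) :
    dev ε θ (α + α') c g a x = Real.cos α' * dev ε θ α c g a x
      - Real.sin α' * dev ε θ (α - Real.pi / 2) c g a x := by
  unfold dev
  rw [chr_add]
  have h1 : Real.cos (α - Real.pi / 2 + θ * (c * ε)) = Real.sin (α + θ * (c * ε)) := by
    rw [show α - Real.pi / 2 + θ * (c * ε) = α + θ * (c * ε) - Real.pi / 2 by ring,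
      Real.cos_sub_pi_div_two]
  rw [h1, show α + α' + θ * (c * ε) = (α + θ * (c * ε)) + α' by ring, Real.cos_add]
  ring

/-- any phase from the phases `0` and `-π/2` -/
lemma abs_dev_le_of_phase (ε θ α c g : ℝ) (a : Vec n) (x : Cfg n) :
    |dev ε θ α c g a x| ≤ |dev ε θ 0 c g a x| + |dev ε θ (-(Real.pi / 2)) c g a x| := by
  have h := dev_add ε θ 0 α c g a x
  rw [zero_add, zero_sub] at h
  rw [h]
  have h1 : |Real.cos α * dev ε θ 0 c g a x| ≤ |dev ε θ 0 c g a x| := by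
    rw [abs_mul]
    exact mul_le_of_le_one_left (abs_nonneg _) (Real.abs_cos_le_one _)
  have h2 : |Real.sin α * dev ε θ (-(Real.pi / 2)) c g a x|
      ≤ |dev ε θ (-(Real.pi / 2)) c g a x| := by
    rw [abs_mul]
    exact mul_le_of_le_one_left (abs_nonneg _) (Real.abs_sin_le_one _)
  exact (abs_sub _ _).trans (add_le_add h1 h2)

/-- Lipschitz dependence on the variance in the deconvolution multiplier -/
lemma chr_lip {ε : ℝ} (hε : ε = 1 ∨ ε = -1) (θ α : ℝ) {c c' : ℝ} (hc : |c| ≤ 1)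
    (hc' : |c'| ≤ 1) (a : Vec n) (x : Cfg n) :
    |Real.exp (θ ^ 2 * c / 2) * chr ε θ (α - θ * (c * ε)) a x
      - Real.exp (θ ^ 2 * c' / 2) * chr ε θ (α - θ * (c' * ε)) a x|
      ≤ Real.exp (θ ^ 2) * (θ ^ 2 + |θ|) * |c - c'| := by
  have hε1 : |ε| = 1 := by rcases hε with rfl | rfl <;> simp
  have e0 : ∀ c : ℝ, |c| ≤ 1 → Real.exp (θ ^ 2 * c / 2) ≤ Real.exp (θ ^ 2) := by
    intro c hc
    refine Real.exp_le_exp.2 ?_
    have := (abs_le.1 hc).2
    linarith only [sq_nonneg θ, mul_nonneg (sub_nonneg.2 this) (sq_nonneg θ)]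
  have e1 : |Real.exp (θ ^ 2 * c / 2) - Real.exp (θ ^ 2 * c' / 2)|
      ≤ Real.exp (θ ^ 2) * (θ ^ 2 * |c - c'|) := by
    have key : ∀ u v M : ℝ, u ≤ M → v ≤ M →
        |Real.exp u - Real.exp v| ≤ Real.exp M * |u - v| := by
      intro u v M hu hv
      wlog huv : v ≤ u generalizing u v with H
      · rw [abs_sub_comm, abs_sub_comm u v]
        exact H v u hv hu (le_of_not_ge huv)
      rw [abs_of_nonneg (by linarith [Real.exp_le_exp.2 huv]), abs_of_nonneg (by linarith)]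
      have h1 : Real.exp v = Real.exp u * Real.exp (v - u) := by
        rw [← Real.exp_add]; congr 1; ring
      have h2 := Real.add_one_le_exp (v - u)
      have h3 := Real.exp_pos u
      have h4 := Real.exp_le_exp.2 hu
      rw [h1]
      linarith only [mul_nonneg (sub_nonneg.2 huv) (sub_nonneg.2 h4), mul_nonneg (sub_nonneg.2 h2) (le_of_lt (sub_pos.2 h3))]
    have h := key (θ ^ 2 * c / 2) (θ ^ 2 * c' / 2) (θ ^ 2)
      (by have := (abs_le.1 hc).2; linarith only [mul_nonneg (sub_nonneg.2 this) (sq_nonneg θ), sq_nonneg θ])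
      (by have := (abs_le.1 hc').2; linarith only [sq_nonneg θ, mul_nonneg (sub_nonneg.2 this) (sq_nonneg θ)])
    refine h.trans (mul_le_mul_of_nonneg_left ?_ (Real.exp_pos _).le)
    rw [show θ ^ 2 * c / 2 - θ ^ 2 * c' / 2 = θ ^ 2 * (c - c') / 2 by ring, abs_div, abs_mul,
      abs_of_nonneg (sq_nonneg θ), abs_two]
    have : 0 ≤ θ ^ 2 * |c - c'| := by positivity
    linarith
  have e2 : |chr ε θ (α - θ * (c * ε)) a x - chr ε θ (α - θ * (c' * ε)) a x|
      ≤ |θ| * |c - c'| := by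
    unfold chr
    rw [← sub_div, ← Finset.sum_sub_distrib]
    refine abs_avg_le (by positivity) fun j => ?_
    rw [← mul_sub, abs_mul]
    have h1 : |Real.cos (α - θ * (c * ε) + θ * a j) - Real.cos (α - θ * (c' * ε) + θ * a j)|
        ≤ |θ| * |c - c'| := by
      refine (Real.abs_cos_sub_cos_le _ _).trans (le_of_eq ?_)
      rw [show α - θ * (c * ε) + θ * a j - (α - θ * (c' * ε) + θ * a j)
        = -(θ * (c - c') * ε) by ring, abs_neg, abs_mul, abs_mul, hε1, mul_one]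
    calc |ind ε (sv x j)| * _ ≤ 1 * (|θ| * |c - c'|) :=
          mul_le_mul (abs_ind_le hε x j) h1 (abs_nonneg _) zero_le_one
      _ = _ := one_mul _
  have e3 : Real.exp (θ ^ 2 * c / 2) * chr ε θ (α - θ * (c * ε)) a x
      - Real.exp (θ ^ 2 * c' / 2) * chr ε θ (α - θ * (c' * ε)) a x
      = (Real.exp (θ ^ 2 * c / 2) - Real.exp (θ ^ 2 * c' / 2)) * chr ε θ (α - θ * (c * ε)) a x
        + Real.exp (θ ^ 2 * c' / 2) * (chr ε θ (α - θ * (c * ε)) a x
          - chr ε θ (α - θ * (c' * ε)) a x) := by ring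
  rw [e3]
  refine (abs_add_le _ _).trans ?_
  rw [abs_mul, abs_mul, Real.abs_exp]
  calc _ ≤ Real.exp (θ ^ 2) * (θ ^ 2 * |c - c'|) * 1 + Real.exp (θ ^ 2) * (|θ| * |c - c'|) := by
        refine add_le_add (mul_le_mul e1 (abs_chr_le hε _ _ _ _) (abs_nonneg _) (by (clear * -; positivity)))
          (mul_le_mul (e0 _ hc') e2 (abs_nonneg _) (Real.exp_pos _).le)
    _ = _ := by ring

/-- the deconvolution of the limit: if `a` has law `N (g ε, g)` then the multiplier turns it into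
`N ((g - c) ε, g - c)` -/
lemma deconv_dev (ε θ α c g : ℝ) (a : Vec n) (x : Cfg n) :
    Real.exp (θ ^ 2 * c / 2) * chr ε θ (α - θ * (c * ε)) a x
      = Real.exp (θ ^ 2 * c / 2) * dev ε θ (α - θ * (c * ε)) g g a x
        + Real.exp (-(θ ^ 2 * (g - c) / 2)) * Real.cos (α + θ * ((g - c) * ε)) * fr ε x := by
  unfold dev
  have h1 : Real.exp (-(θ ^ 2 * (g - c) / 2))
      = Real.exp (θ ^ 2 * c / 2) * Real.exp (-(θ ^ 2 * g / 2)) := by
    rw [← Real.exp_add]; congr 1; ring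
  rw [h1, show α - θ * (c * ε) + θ * (g * ε) = α + θ * ((g - c) * ε) by ring]
  ring

/-! ### overlaps -/

lemma qq_ampM_succ (M : Mat n) (r : ℝ) (y : Vec n) (x : Cfg n) (k : ℕ) :
    qq (ampM M r y x (k + 1)) = (∑ j, Real.tanh (ampA M r y x k j) ^ 2) / n := by
  unfold qq sq
  simp only [ampM_succ]

end Vale.Agent.P150.F.D3
end

section

/-! P150 FULL, module D3b: the two cube-level inputs in uniform form (helper691). -/

open MeasureTheory ProbabilityTheory Filter Topology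
open scoped Matrix

namespace Vale.Agent.P150.F.D3

/-- the step variance `c = r² (q_k - q_{k+1})` between the fields `a^{k+1}` and `a^{k+2}` -/
noncomputable def cst {n : ℕ} (M : Mat n) (r : ℝ) (y : Vec n) (k : ℕ) (x : Cfg n) : ℝ :=
  r ^ 2 * (qq (ampM M r y x k) - qq (ampM M r y x (k + 1)))

/-- one step (deconvolution form of charStep), uniform form -/
def StepU (β : ℝ) : Prop :=
  ∀ {I : Type} (F : Filter I) (n : I → ℕ) (J : ∀ i, Mat (n i)), Good β F n J →
    ∀ (k : ℕ) (θ ε C e : ℝ), (ε = 1 ∨ ε = -1) → 0 < e → ∃ η > 0, ∀ᶠ i in F,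
      ∀ (r : ℝ) (y : Vec (n i)) (ν φ : Cfg (n i) → ℝ) (α : ℝ), r ∈ Set.Icc 0 1 → IsProb ν →
        Macro C φ → dlr (r • J i) y ν ≤ η * n i →
        |Ex ν (fun x => φ x *
          (Real.exp (θ ^ 2 * cst (r • J i) r y k x / 2) *
              chr ε θ (α - θ * (cst (r • J i) r y k x * ε)) (ampA (r • J i) r y x k) x
            - chr ε θ α (ampA (r • J i) r y x (k + 1)) x))| ≤ e

/-- the law of the zero-field local fields (D3a'), uniform form, with arbitrary phases -/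
def BaseU (β : ℝ) : Prop :=
  ∀ {I : Type} (F : Filter I) (n : I → ℕ) (J : ∀ i, Mat (n i)), Good β F n J →
    ∀ (θ ε C e : ℝ), (ε = 1 ∨ ε = -1) → 0 < e → ∃ η > 0, ∀ᶠ i in F,
      ∀ (ν φ : Cfg (n i) → ℝ) (α : Vec (n i)), IsProb ν → Macro C φ →
        dlr (β • J i) 0 ν ≤ η * n i →
        |Ex ν (fun x => φ x *
          ((∑ j, ind ε (sv x j) * Real.cos (α j + θ * (β • J i).mulVec (sv x) j)) / n i
            - Real.exp (-(θ ^ 2 * β ^ 2 / 2)) *
              ((∑ j, ind ε (sv x j) * Real.cos (α j + θ * (β ^ 2 * ε))) / n i)))| ≤ e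

end Vale.Agent.P150.F.D3
end

section

/-! P150 FULL, module D3b: macroscopic functions (helper84). Closure properties of `Macro` and
`JMac`, averages `(1/n) ∑_j f(σ_j, A_j)` are macroscopic, moment bounds of the AMP fields. -/

open MeasureTheory ProbabilityTheory Filter Topology
open scoped Matrix

namespace Vale.Agent.P150.F.D3

open D2 (DD gsq)
open DB

variable {n m : ℕ}

/-! ### closure of `Macro` -/

theorem mac_sq_eq (φ : Cfg n → ℝ) (x : Cfg n) :
    (∑ i, dd i φ x ^ 2) * n = (nv (fun i => dd i φ x) * √n) ^ 2 := by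
  rw [mul_pow, nv_sq, Real.sq_sqrt (Nat.cast_nonneg n)]
  rfl

theorem mac_nonneg {C : ℝ} {φ : Cfg n → ℝ} (h : Macro C φ) : 0 ≤ C :=
  (abs_nonneg _).trans (h.1 (fun _ => true))

theorem mac_grad {C : ℝ} {φ : Cfg n → ℝ} (h : Macro C φ) (x : Cfg n) :
    nv (fun i => dd i φ x) * √n ≤ C := by
  have h1 := h.2 x
  rw [mac_sq_eq] at h1
  exact le_of_sq_le_sq' h1 (mac_nonneg h)
where
  le_of_sq_le_sq' {a b : ℝ} (h : a ^ 2 ≤ b ^ 2) (hb : 0 ≤ b) : a ≤ b := by
    linarith only [le_abs_self a, abs_le_of_sq_le_sq h hb]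

theorem mac_of_grad {C : ℝ} {φ : Cfg n → ℝ} (h1 : ∀ x, |φ x| ≤ C)
    (h2 : ∀ x, nv (fun i => dd i φ x) * √n ≤ C) : Macro C φ := by
  refine ⟨h1, fun x => ?_⟩
  rw [mac_sq_eq]
  exact pow_le_pow_left₀ (mul_nonneg (nv_nonneg _) (Real.sqrt_nonneg _)) (h2 x) 2

theorem mac_mono {C C' : ℝ} {φ : Cfg n → ℝ} (h : Macro C φ) (hC : C ≤ C') : Macro C' φ :=
  mac_of_grad (fun x => (h.1 x).trans hC) (fun x => (mac_grad h x).trans hC)

theorem mac_add {C C' : ℝ} {φ ψ : Cfg n → ℝ} (h : Macro C φ) (h' : Macro C' ψ) :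
    Macro (C + C') (fun x => φ x + ψ x) := by
  refine mac_of_grad (fun x => (abs_add_le _ _).trans (add_le_add (h.1 x) (h'.1 x)))
    (fun x => ?_)
  have e : (fun i => dd i (fun z => φ z + ψ z) x)
      = (fun i => dd i φ x) + fun i => dd i ψ x := by
    funext i; exact Vale.Agent.P150.F.DB.dd_add i φ ψ x
  rw [e]
  have h1 := nv_add_le (fun i => dd i φ x) (fun i => dd i ψ x)
  have h2 := mac_grad h x
  have h3 := mac_grad h' x
  linarith only [mul_le_mul_of_nonneg_right h1 (Real.sqrt_nonneg (n : ℝ)), h3, h2]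

theorem mac_const_mul {C : ℝ} {φ : Cfg n → ℝ} (c : ℝ) (h : Macro C φ) :
    Macro (|c| * C) (fun x => c * φ x) := by
  refine mac_of_grad (fun x => ?_) (fun x => ?_)
  · rw [abs_mul]; exact mul_le_mul_of_nonneg_left (h.1 x) (abs_nonneg c)
  · have e : (fun i => dd i (fun z => c * φ z) x) = c • fun i => dd i φ x := by
      funext i; exact Vale.Agent.P150.F.DB.dd_const_mul i c φ x
    rw [e, nv_smul, mul_assoc]
    exact mul_le_mul_of_nonneg_left (mac_grad h x) (abs_nonneg c)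

theorem mac_neg {C : ℝ} {φ : Cfg n → ℝ} (h : Macro C φ) : Macro C (fun x => -φ x) := by
  have := mac_const_mul (-1) h
  simpa using this

theorem mac_sub {C C' : ℝ} {φ ψ : Cfg n → ℝ} (h : Macro C φ) (h' : Macro C' ψ) :
    Macro (C + C') (fun x => φ x - ψ x) := by
  simpa [sub_eq_add_neg] using mac_add h (mac_neg h')

/-! ### closure of `JMac` -/

section JMac

variable {R : Matrix (Fin n) (Fin m) ℝ} {s C C' : ℝ} {φ ψ : Cfg n → (Fin m → ℝ) → ℝ}

theorem jmac_mono (h : JMac R s C φ) (hC : C ≤ C') : JMac R s C' φ :=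
  ⟨h.meas, fun ξ => mac_mono (h.mac ξ) hC, fun ξ => mac_mono (h.mac' ξ) hC⟩

theorem jmac_sub (h : JMac R s C φ) (h' : JMac R s C' ψ) :
    JMac R s (C + C') (fun x ξ => φ x ξ - ψ x ξ) :=
  ⟨fun x => (h.meas x).sub (h'.meas x), fun ξ => mac_sub (h.mac ξ) (h'.mac ξ),
    fun ξ => mac_sub (h.mac' ξ) (h'.mac' ξ)⟩

theorem jmac_const_mul (c : ℝ) (h : JMac R s C φ) :
    JMac R s (|c| * C) (fun x ξ => c * φ x ξ) :=
  ⟨fun x => (h.meas x).const_mul c, fun ξ => mac_const_mul c (h.mac ξ),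
    fun ξ => mac_const_mul c (h.mac' ξ)⟩

theorem jmac_congr (h : JMac R s C φ) (he : ∀ x ξ, φ x ξ = ψ x ξ) : JMac R s C ψ := by
  have : φ = ψ := by funext x ξ; exact he x ξ
  rwa [← this]

end JMac

/-! ### test functions -/

/-- bounded `C^{1,1}` test functions `f(σ, a)`, with derivative `f'` in `a` -/
structure Test (B : ℝ) (f f' : ℝ → ℝ → ℝ) : Prop where
  bd : ∀ e, |e| ≤ 1 → ∀ a, |f e a| ≤ B
  bd' : ∀ e, |e| ≤ 1 → ∀ a, |f' e a| ≤ B
  tay : ∀ e, |e| ≤ 1 → ∀ a a', |f e a' - f e a - f' e a * (a' - a)| ≤ B * (a' - a) ^ 2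

theorem mc_abs_ind_le {ε e : ℝ} (hε : |ε| ≤ 1) (he : |e| ≤ 1) : |ind ε e| ≤ 1 := by
  unfold ind
  have h1 : |ε * e| ≤ 1 := by
    rw [abs_mul]; exact mul_le_one₀ hε (abs_nonneg _) he
  have := abs_le.1 h1
  rw [abs_le]; constructor <;> linarith

theorem cos_taylor (u v : ℝ) : |Real.cos v - Real.cos u + Real.sin u * (v - u)| ≤ (v - u) ^ 2 := by
  have h := Convex.norm_image_sub_le_of_norm_hasDerivWithin_le
    (f := fun w => Real.cos w + Real.sin u * w)
    (f' := fun w => -Real.sin w + Real.sin u) (s := Set.uIcc u v) (x := u) (y := v)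
    (C := |v - u|)
    (fun w _ => by
      have h1 : HasDerivAt (fun w => Real.cos w + Real.sin u * w)
          (-Real.sin w + Real.sin u * 1) w :=
        (Real.hasDerivAt_cos w).add ((hasDerivAt_id w).const_mul (Real.sin u))
      rw [mul_one] at h1
      exact h1.hasDerivWithinAt)
    (fun w hw => by
      rw [Real.norm_eq_abs]
      have h1 : |Real.sin w - Real.sin u| ≤ |w - u| := Real.abs_sin_sub_sin_le w u
      have h2 : |w - u| ≤ |v - u| := Set.abs_sub_left_of_mem_uIcc hw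
      have e : -Real.sin w + Real.sin u = -(Real.sin w - Real.sin u) := by ring
      rw [e, abs_neg]
      exact h1.trans h2)
    (convex_uIcc u v) Set.left_mem_uIcc Set.right_mem_uIcc
  rw [Real.norm_eq_abs, Real.norm_eq_abs] at h
  have e : Real.cos v + Real.sin u * v - (Real.cos u + Real.sin u * u)
      = Real.cos v - Real.cos u + Real.sin u * (v - u) := by ring
  simp only [e] at h
  rw [← sq_abs (v - u), pow_two]
  exact h

/-- the trigonometric test functions -/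
theorem test_cos {ε : ℝ} (hε : |ε| ≤ 1) (θ α : ℝ) :
    Test (1 + |θ| + θ ^ 2) (fun e a => ind ε e * Real.cos (θ * a + α))
      (fun e a => ind ε e * (-(θ * Real.sin (θ * a + α)))) := by
  have hp : 0 ≤ θ ^ 2 := sq_nonneg θ
  have hq : 0 ≤ |θ| := abs_nonneg θ
  refine ⟨fun e he a => ?_, fun e he a => ?_, fun e he a a' => ?_⟩
  · rw [abs_mul]
    have := mul_le_one₀ (mc_abs_ind_le hε he) (abs_nonneg _) (Real.abs_cos_le_one (θ * a + α))
    linarith
  · rw [abs_mul, abs_neg, abs_mul]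
    have h1 := mc_abs_ind_le hε he
    have h2 := Real.abs_sin_le_one (θ * a + α)
    have h3 : |θ| * |Real.sin (θ * a + α)| ≤ |θ| := mul_le_of_le_one_right hq h2
    have h4 := mul_le_mul h1 h3 (by positivity) zero_le_one
    linarith only [h4, hp]
  · have e1 : ind ε e * Real.cos (θ * a' + α) - ind ε e * Real.cos (θ * a + α)
        - ind ε e * (-(θ * Real.sin (θ * a + α))) * (a' - a)
        = ind ε e * (Real.cos (θ * a' + α) - Real.cos (θ * a + α)
          + Real.sin (θ * a + α) * ((θ * a' + α) - (θ * a + α))) := by ring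
    rw [e1, abs_mul]
    have h1 := cos_taylor (θ * a + α) (θ * a' + α)
    have h2 : ((θ * a' + α) - (θ * a + α)) ^ 2 = θ ^ 2 * (a' - a) ^ 2 := by ring
    rw [h2] at h1
    have h3 := mul_le_mul (mc_abs_ind_le hε he) h1 (abs_nonneg _) zero_le_one
    have h4 : θ ^ 2 * (a' - a) ^ 2 ≤ (1 + |θ| + θ ^ 2) * (a' - a) ^ 2 :=
      mul_le_mul_of_nonneg_right (by linarith only [hq]) (sq_nonneg _)
    linarith

/-! ### averages are macroscopic -/

/-- the constant -/
def mcst (C₀ B : ℝ) : ℝ := B + C₀ * B + (2 * B * C₀ ^ 2 + B + B * C₀)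

theorem abs_sv_le (x : Cfg n) (j : Fin n) : |sv x j| ≤ 1 := (sp_abs (x j)).le

theorem macro_avg {C₀ B : ℝ} (hC₀ : 0 ≤ C₀) (hB : 0 ≤ B) {f f' : ℝ → ℝ → ℝ} (ht : Test B f f')
    {A : Cfg n → Vec n} (hA : ∀ x, OpLe (DD A x) C₀) :
    Macro (mcst C₀ B) (fun x => (∑ j, f (sv x j) (A x j)) / n) := by
  have hpos1 : 0 ≤ C₀ * B := mul_nonneg hC₀ hB
  have hpos2 : 0 ≤ 2 * B * C₀ ^ 2 + B + B * C₀ := by (clear * - hB hC₀; positivity)
  rcases Nat.eq_zero_or_pos n with hn | hn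
  · subst hn
    refine ⟨fun x => ?_, fun x => ?_⟩
    · simp only [Finset.univ_eq_empty, Finset.sum_empty, zero_div, abs_zero]
      unfold mcst; (clear * - hB hC₀; positivity)
    · simp only [Finset.univ_eq_empty, Finset.sum_empty, zero_mul]
      positivity
  have hn' : (0 : ℝ) < n := by exact_mod_cast hn
  refine mac_of_grad (fun x => ?_) (fun x => ?_)
  · rw [abs_div, abs_of_pos hn', div_le_iff₀ hn']
    have h1 : |∑ j, f (sv x j) (A x j)| ≤ ∑ _j : Fin n, B :=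
      (Finset.abs_sum_le_sum_abs _ _).trans
        (Finset.sum_le_sum fun j _ => ht.bd _ (abs_sv_le x j) _)
    simp only [Finset.sum_const, Finset.card_univ, Fintype.card_fin, nsmul_eq_mul] at h1
    unfold mcst
    nlinarith
  · set K : ℝ := 2 * B * C₀ ^ 2 + B + B * C₀ with hK
    set g : Vec n := fun j => f' (sv x j) (A x j) with hg
    set u : Vec n := (DD A x)ᵀ.mulVec g with hu
    have key : ∀ i, |(n : ℝ) * dd i (fun z => (∑ j, f (sv z j) (A z j)) / n) x - u i| ≤ K := by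
      intro i
      have e1 : (n : ℝ) * dd i (fun z => (∑ j, f (sv z j) (A z j)) / n) x
          = ∑ j, dd i (fun z => f (sv z j) (A z j)) x := by
        have : (fun z => (∑ j, f (sv z j) (A z j)) / n)
            = fun z => (1 / (n : ℝ)) * ∑ j, f (sv z j) (A z j) := by
          funext z; ring
        rw [this, Vale.Agent.P150.F.DB.dd_const_mul, Vale.Agent.P150.F.DB.dd_sum]
        field_simp
      have e2 : u i = ∑ j, DD A x j i * g j := by
        simp only [hu, Matrix.mulVec, dotProduct, Matrix.transpose_apply]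
      rw [e1, e2, ← Finset.sum_sub_distrib]
      have hterm : ∀ j, |dd i (fun z => f (sv z j) (A z j)) x - DD A x j i * g j|
          ≤ 2 * B * DD A x j i ^ 2 + (if j = i then B + B * |DD A x j i| else 0) := by
        intro j
        set d : ℝ := DD A x j i with hd
        have hdd : dd i (fun z => A z j) x = d := rfl
        by_cases hji : j = i
        · rw [if_pos hji]
          have h1 : |dd i (fun z => f (sv z j) (A z j)) x| ≤ B :=
            dd_abs_le (fun z => ht.bd _ (abs_sv_le z j) _) i x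
          have h2 : |d * g j| ≤ B * |d| := by
            rw [abs_mul, mul_comm]
            exact mul_le_mul_of_nonneg_right (ht.bd' _ (abs_sv_le x j) _) (abs_nonneg _)
          have h3 := abs_sub (dd i (fun z => f (sv z j) (A z j)) x) (d * g j)
          have h4 : 0 ≤ 2 * B * d ^ 2 := by (clear * - hB; positivity)
          linarith only [h1, h2, h3, h4]
        · rw [if_neg hji, add_zero]
          have h1 := dd_eq_flip i (fun z => f (sv z j) (A z j)) x
          have h2 := Vale.Agent.P150.F.DB.dd_flip i (fun z => A z j) x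
          have h3 : sv (Function.update x i (!x i)) j = sv x j := by
            unfold sv
            rw [Function.update_of_ne hji]
          rw [hdd] at h2
          simp only [h3] at h1
          rw [h2] at h1
          have h4 := ht.tay (sv x j) (abs_sv_le x j) (A x j) (A x j - 2 * sp (x i) * d)
          have hs := sp_mul_self (x i)
          have e3 : dd i (fun z => f (sv z j) (A z j)) x - d * g j
              = -(sp (x i)) / 2 * (f (sv x j) (A x j - 2 * sp (x i) * d) - f (sv x j) (A x j)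
                - f' (sv x j) (A x j) * (A x j - 2 * sp (x i) * d - A x j)) := by
            rw [h1]
            linear_combination (d * f' (sv x j) (A x j)) * hs
          rw [e3, abs_mul, abs_div, abs_neg, sp_abs, abs_of_pos (by norm_num : (0 : ℝ) < 2)]
          have e4 : (A x j - 2 * sp (x i) * d - A x j) ^ 2 = 4 * d ^ 2 := by
            linear_combination (4 * d ^ 2) * hs
          rw [e4] at h4
          linarith only [h4]
      refine (Finset.abs_sum_le_sum_abs _ _).trans ((Finset.sum_le_sum fun j _ => hterm j).trans ?_)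
      rw [Finset.sum_add_distrib, ← Finset.mul_sum, Finset.sum_ite_eq' Finset.univ i,
        if_pos (Finset.mem_univ _)]
      have h1 : ∑ j, DD A x j i ^ 2 ≤ C₀ ^ 2 := col_le (hA x) i
      have h2 : |DD A x i i| ≤ C₀ := by
        have h3 : DD A x i i ^ 2 ≤ ∑ j, DD A x j i ^ 2 :=
          Finset.single_le_sum (f := fun j => DD A x j i ^ 2) (fun j _ => sq_nonneg _)
            (Finset.mem_univ i)
        exact abs_le_of_sq_le_sq (h3.trans h1) hC₀
      have h4 := mul_le_mul_of_nonneg_left h1 (by (clear * - hB; positivity) : 0 ≤ 2 * B)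
      have h5 := mul_le_mul_of_nonneg_left h2 hB
      rw [hK]
      linarith only [h4, h5]
    have e : (fun i => dd i (fun z => (∑ j, f (sv z j) (A z j)) / n) x)
        = (1 / (n : ℝ)) • (u + fun i => (n : ℝ) * dd i (fun z => (∑ j, f (sv z j) (A z j)) / n) x
            - u i) := by
      funext i
      simp only [Pi.smul_apply, Pi.add_apply, smul_eq_mul]
      field_simp
      ring
    rw [e, nv_smul, abs_of_pos (by positivity : (0 : ℝ) < 1 / n)]
    have h1 : nv u ≤ C₀ * (B * √n) := by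
      refine ((Vale.Agent.P150.F.DB.opLe_transpose (hA x) hC₀).nv_le hC₀ _).trans (mul_le_mul_of_nonneg_left ?_ hC₀)
      exact nv_le_sqrt hB fun j => ht.bd' _ (abs_sv_le x j) _
    have h2 : nv (fun i => (n : ℝ) * dd i (fun z => (∑ j, f (sv z j) (A z j)) / n) x - u i)
        ≤ K * √n := nv_le_sqrt (by (clear * - hB hC₀; positivity)) key
    have h3 := (nv_add_le u (fun i => (n : ℝ) * dd i
      (fun z => (∑ j, f (sv z j) (A z j)) / n) x - u i)).trans (add_le_add h1 h2)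
    have hsn : √(n : ℝ) * √(n : ℝ) = n := Real.mul_self_sqrt hn'.le
    calc _ ≤ 1 / (n : ℝ) * (C₀ * (B * √n) + K * √n) * √n := by gcongr
      _ = (C₀ * B + K) * (√n * √n) / n := by ring
      _ = C₀ * B + K := by rw [hsn]; field_simp
      _ ≤ mcst C₀ B := by unfold mcst; linarith only [hB]

/-! ### averages over AMP fields -/

theorem DD_const_field (y : Vec n) (x : Cfg n) : DD (fun _ => y) x = 0 := by
  ext j i
  exact Vale.Agent.P150.F.DB.dd_const i (y j) x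

theorem DD_obs (R : Matrix (Fin n) (Fin m) ℝ) (s : ℝ) (ξ : Fin m → ℝ) (x : Cfg n) :
    DD (fun z => obs R s z ξ) x = s • (R * Rᵀ) := by
  ext j i
  show dd i (fun z => s * (R * Rᵀ).mulVec (sv z) j + √s * R.mulVec ξ j) x = _
  have h1 : dd i (fun z => s * (R * Rᵀ).mulVec (sv z) j + √s * R.mulVec ξ j) x
      = s * dd i (fun z => (R * Rᵀ).mulVec (sv z) j) x := by
    unfold dd; ring
  rw [h1]
  have h2 : dd i (fun z => (R * Rᵀ).mulVec (sv z) j) x = DD (fun z => (R * Rᵀ).mulVec (sv z)) x j i :=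
    rfl
  rw [h2, DD_mulVec, DD_sv, mul_one, Matrix.smul_apply, smul_eq_mul]

theorem opLe_DD_obs {R : Matrix (Fin n) (Fin m) ℝ} {s CQ : ℝ} (hs0 : 0 ≤ s) (hs1 : s ≤ 1)
    (hCQ : 0 ≤ CQ) (hQ : OpLe (R * Rᵀ) CQ) (ξ : Fin m → ℝ) (x : Cfg n) :
    OpLe (DD (fun z => obs R s z ξ) x) CQ := by
  rw [DD_obs]
  refine (hQ.smul hCQ s).monoN (by (clear * - hCQ; positivity)) ?_
  rw [abs_of_nonneg hs0]
  exact mul_le_of_le_one_left hCQ hs1

/-- the label in terms of `ξ'` -/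
theorem mc_obs_bsh (R : Matrix (Fin n) (Fin m) ℝ) {s : ℝ} (hs : 0 ≤ s) (x : Cfg n)
    (ξ : Fin m → ℝ) : obs R s x (bsh R s x ξ) = √s • R.mulVec ξ := by
  funext i
  unfold obs bsh
  rw [Matrix.mulVec_sub, Matrix.mulVec_smul, Matrix.mulVec_mulVec]
  simp only [Pi.sub_apply, Pi.smul_apply, smul_eq_mul]
  have := Real.mul_self_sqrt hs
  linear_combination (-((R * Rᵀ).mulVec (sv x) i)) * this

/-- averages over AMP fields are macroscopic (field depending on the configuration) -/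
theorem macro_amp_gen (CM Cy B : ℝ) (hCM : 0 ≤ CM) (hCy : 0 ≤ Cy) (hB : 0 ≤ B) (k : ℕ) :
    ∃ C₁ : ℝ, 0 ≤ C₁ ∧ ∀ (n : ℕ) (M : Mat n) (r : ℝ) (y : Cfg n → Vec n) (f f' : ℝ → ℝ → ℝ),
      OpLe M CM → 0 ≤ r → r ≤ 1 → (∀ x, OpLe (DD y x) Cy) → Test B f f' →
        Macro C₁ (fun x => (∑ j, f (sv x j) (ampA M r (y x) x k j)) / n) := by
  obtain ⟨C, hC0, hC⟩ := amp_bound CM Cy hCM hCy k
  refine ⟨mcst C B, by unfold mcst; (clear * - hB hC0; positivity), ?_⟩
  intro n M r y f f' hM hr0 hr1 hy ht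
  exact macro_avg hC0 hB ht (A := fun x => ampA M r (y x) x k)
    (fun x => (hC n M r y hM hr0 hr1 x (hy x)).2.2)

/-- averages over AMP fields are macroscopic (constant field) -/
theorem macro_amp (CM B : ℝ) (hCM : 0 ≤ CM) (hB : 0 ≤ B) (k : ℕ) :
    ∃ C₁ : ℝ, 0 ≤ C₁ ∧ ∀ (n : ℕ) (M : Mat n) (r : ℝ) (y : Vec n) (f f' : ℝ → ℝ → ℝ),
      OpLe M CM → 0 ≤ r → r ≤ 1 → Test B f f' →
        Macro C₁ (fun x => (∑ j, f (sv x j) (ampA M r y x k j)) / n) := by
  obtain ⟨C₁, h0, h⟩ := macro_amp_gen CM 0 B hCM le_rfl hB k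
  refine ⟨C₁, h0, fun n M r y f f' hM hr0 hr1 ht => ?_⟩
  refine h n M r (fun _ => y) f f' hM hr0 hr1 (fun x => ?_) ht
  rw [DD_const_field]
  exact opLe_zero

/-- linear fields -/
theorem macro_lin {CM B : ℝ} (hCM : 0 ≤ CM) (hB : 0 ≤ B) {M : Mat n} (hM : OpLe M CM)
    {f f' : ℝ → ℝ → ℝ} (ht : Test B f f') (y : Vec n) :
    Macro (mcst CM B) (fun x => (∑ j, f (sv x j) (M.mulVec (sv x) j + y j)) / n) := by
  refine macro_avg hCM hB ht (A := fun x => M.mulVec (sv x) + y) fun x => ?_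
  have : DD (fun z => M.mulVec (sv z) + y) x = M := by
    rw [DD_add (fun z => M.mulVec (sv z)) (fun _ => y), DD_const_field, DD_mulVec, DD_sv, mul_one,
      add_zero]
  rw [this]
  exact hM

/-! ### measurability in the noise -/

theorem continuous_amp (M : Mat n) (r : ℝ) (x : Cfg n) (k : ℕ) :
    Continuous (fun y : Vec n => ampM M r y x k) ∧
      Continuous (fun y : Vec n => ampM M r y x (k + 1)) ∧
      Continuous (fun y : Vec n => ampA M r y x k) := by
  have hth : Continuous Real.tanh := by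
    have : Real.tanh = fun a => Real.sinh a / Real.cosh a := by
      funext a; exact Real.tanh_eq_sinh_div_cosh a
    rw [this]
    exact Real.continuous_sinh.div Real.continuous_cosh fun a => (Real.cosh_pos a).ne'
  have hA : ∀ l, Continuous (fun y : Vec n => ampA M r y x l) →
      Continuous (fun y : Vec n => ampM M r y x (l + 1)) := by
    intro l hl
    have e : (fun y : Vec n => ampM M r y x (l + 1))
        = fun y i => Real.tanh (ampA M r y x l i) := by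
      funext y; exact Vale.Agent.P150.F.DB.ampM_succ M r y x l
    rw [e]
    exact continuous_pi fun i => hth.comp ((continuous_apply i).comp hl)
  induction k with
  | zero =>
    have h0 : Continuous (fun y : Vec n => ampA M r y x 0) := by
      have e : (fun y : Vec n => ampA M r y x 0) = fun y i => M.mulVec (sv x) i + y i := rfl
      rw [e]
      fun_prop
    exact ⟨continuous_const, hA 0 h0, h0⟩
  | succ k ih =>
    obtain ⟨h1, h2, h3⟩ := ih
    have h4 : Continuous (fun y : Vec n => ampA M r y x (k + 1)) := by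
      have e : (fun y : Vec n => ampA M r y x (k + 1)) = fun y i =>
          M.mulVec (ampM M r y x (k + 1)) i + y i
            - r ^ 2 * (1 - qq (ampM M r y x (k + 1))) * ampM M r y x k i := rfl
      rw [e]
      refine continuous_pi fun i => ?_
      have e1 : Continuous fun y : Vec n => M.mulVec (ampM M r y x (k + 1)) i := by
        unfold Matrix.mulVec dotProduct
        exact continuous_finsetSum _ fun j _ =>
          continuous_const.mul ((continuous_apply j).comp h2)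
      have e2 : Continuous fun y : Vec n => qq (ampM M r y x (k + 1)) := by
        unfold qq sq
        exact (continuous_finsetSum _ fun j _ => ((continuous_apply j).comp h2).pow 2).div_const _
      have e3 : Continuous fun y : Vec n => ampM M r y x k i := (continuous_apply i).comp h1
      exact (e1.add (continuous_apply i)).sub
        ((continuous_const.mul (continuous_const.sub e2)).mul e3)
    exact ⟨h2, hA (k + 1) h4, h4⟩

theorem continuous_obs (R : Matrix (Fin n) (Fin m) ℝ) (s : ℝ) (x : Cfg n) :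
    Continuous (fun ξ => obs R s x ξ) := by
  unfold obs
  refine continuous_pi fun i => continuous_const.add (continuous_const.mul ?_)
  unfold Matrix.mulVec dotProduct
  fun_prop

theorem continuous_ampA_obs (M : Mat n) (r : ℝ) (R : Matrix (Fin n) (Fin m) ℝ) (s : ℝ)
    (x : Cfg n) (k : ℕ) : Continuous (fun ξ => ampA M r (obs R s x ξ) x k) :=
  (continuous_amp M r x k).2.2.comp (continuous_obs R s x)

theorem measurable_avg {A : (Fin m → ℝ) → Vec n} (hA : Continuous A) (f : ℝ → ℝ → ℝ)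
    (hf : ∀ e, Continuous (f e)) (x : Cfg n) :
    Measurable (fun ξ => (∑ j, f (sv x j) (A ξ j)) / n) := by
  have : Continuous (fun ξ => (∑ j, f (sv x j) (A ξ j)) / n) :=
    (continuous_finsetSum _ fun j _ => (hf _).comp ((continuous_apply j).comp hA)).div_const _
  exact this.measurable

/-- averages over the AMP fields along the path are jointly macroscopic -/
theorem jmac_amp (CM CQ B : ℝ) (hCM : 0 ≤ CM) (hCQ : 0 ≤ CQ) (hB : 0 ≤ B) (k : ℕ) :
    ∃ C₁ : ℝ, 0 ≤ C₁ ∧ ∀ (n m : ℕ) (M : Mat n) (r : ℝ) (R : Matrix (Fin n) (Fin m) ℝ) (s : ℝ)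
      (f f' : ℝ → ℝ → ℝ), OpLe M CM → 0 ≤ r → r ≤ 1 → OpLe (R * Rᵀ) CQ → 0 ≤ s → s ≤ 1 →
        (∀ e, Continuous (f e)) → Test B f f' →
        JMac R s C₁ (fun x ξ => (∑ j, f (sv x j) (ampA M r (obs R s x ξ) x k j)) / n) := by
  obtain ⟨C₁, h0, h⟩ := macro_amp_gen CM CQ B hCM hCQ hB k
  obtain ⟨C₂, h0', h'⟩ := macro_amp CM B hCM hB k
  refine ⟨C₁ + C₂, by positivity, ?_⟩
  intro n m M r R s f f' hM hr0 hr1 hQ hs0 hs1 hf ht
  refine ⟨fun x => measurable_avg (continuous_ampA_obs M r R s x k) f hf x, fun ξ => ?_,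
    fun ξ => ?_⟩
  · exact mac_mono (h n M r (fun x => obs R s x ξ) f f' hM hr0 hr1
      (fun x => opLe_DD_obs hs0 hs1 hCQ hQ ξ x) ht) (by linarith only [h0'])
  · simp only [mc_obs_bsh R hs0]
    exact mac_mono (h' n M r (√s • R.mulVec ξ) f f' hM hr0 hr1 ht) (by linarith only [h0])

/-! ### moment bounds -/

theorem nv_ampA_le {M : Mat n} {CM r : ℝ} (hCM : 0 ≤ CM) (hM : OpLe M CM) (hr0 : 0 ≤ r)
    (hr1 : r ≤ 1) (y : Vec n) (x : Cfg n) (k : ℕ) :
    nv (ampA M r y x k) ≤ nv y + (CM + 1) * √n := by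
  have hm : ∀ l, nv (ampM M r y x l) ≤ √n := fun l => nv_le_sqrt_n (Vale.Agent.P150.F.DB.abs_ampM_le M r y x l)
  match k with
  | 0 =>
    have e : ampA M r y x 0 = M.mulVec (ampM M r y x 0) + y := rfl
    rw [e]
    have h1 := hM.nv_le hCM (ampM M r y x 0)
    have h2 := mul_le_mul_of_nonneg_left (hm 0) hCM
    have h3 := nv_add_le (M.mulVec (ampM M r y x 0)) y
    have h4 := Real.sqrt_nonneg (n : ℝ)
    linarith only [h4, h3, h2, h1]
  | k + 1 =>
    have e : ampA M r y x (k + 1) = (M.mulVec (ampM M r y x (k + 1)) + y)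
        - (r ^ 2 * (1 - qq (ampM M r y x (k + 1)))) • ampM M r y x k := rfl
    rw [e]
    have h1 := hM.nv_le hCM (ampM M r y x (k + 1))
    have h2 := mul_le_mul_of_nonneg_left (hm (k + 1)) hCM
    have h3 := nv_add_le (M.mulVec (ampM M r y x (k + 1))) y
    have h4 := nv_sub_le (M.mulVec (ampM M r y x (k + 1)) + y)
      ((r ^ 2 * (1 - qq (ampM M r y x (k + 1)))) • ampM M r y x k)
    have hq := qq_le_one (Vale.Agent.P150.F.DB.abs_ampM_le M r y x (k + 1))
    have hq0 := qq_nonneg (ampM M r y x (k + 1))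
    have hr2 : r ^ 2 ≤ 1 := pow_le_one₀ hr0 hr1
    have h5 : |r ^ 2 * (1 - qq (ampM M r y x (k + 1)))| ≤ 1 := by
      rw [abs_of_nonneg (mul_nonneg (sq_nonneg r) (by linarith))]
      exact mul_le_one₀ hr2 (by linarith) (by linarith)
    have h6 : nv ((r ^ 2 * (1 - qq (ampM M r y x (k + 1)))) • ampM M r y x k) ≤ √n := by
      rw [nv_smul]
      have := mul_le_mul h5 (hm k) (nv_nonneg _) zero_le_one
      linarith only [this]
    linarith

theorem sq_ampA_le {M : Mat n} {CM r : ℝ} (hCM : 0 ≤ CM) (hM : OpLe M CM) (hr0 : 0 ≤ r)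
    (hr1 : r ≤ 1) (y : Vec n) (x : Cfg n) (k : ℕ) :
    sq (ampA M r y x k) ≤ 2 * sq y + 2 * (CM + 1) ^ 2 * n := by
  have h := nv_ampA_le hCM hM hr0 hr1 y x k
  rw [← nv_sq, ← nv_sq]
  have h1 := nv_nonneg (ampA M r y x k)
  have h2 := pow_le_pow_left₀ h1 h 2
  have h3 : (√(n : ℝ)) ^ 2 = n := Real.sq_sqrt (Nat.cast_nonneg n)
  linarith only [mul_eq_zero_of_left (sub_eq_zero.2 h3) (0 - (0 - (CM + 1) ^ 2)), mul_nonneg (sub_nonneg.2 hr0) (sq_nonneg (nv y - (CM + 1) * √n)), mul_nonneg (sub_nonneg.2 hr1) (sq_nonneg (nv y - (CM + 1) * √n)), mul_nonneg (sub_nonneg.2 h) (sub_nonneg.2 h), mul_nonneg (sub_nonneg.2 h) (sub_nonneg.2 h1)]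

theorem sq_obs_le {R : Matrix (Fin n) (Fin m) ℝ} {s CQ : ℝ} (hs0 : 0 ≤ s) (hs1 : s ≤ 1)
    (hCQ : 0 ≤ CQ) (hQ : OpLe (R * Rᵀ) CQ) (x : Cfg n) (ξ : Fin m → ℝ) :
    sq (obs R s x ξ) ≤ 2 * CQ ^ 2 * n + 2 * sq (R.mulVec ξ) := by
  have e : obs R s x ξ = s • (R * Rᵀ).mulVec (sv x) + √s • R.mulVec ξ := rfl
  rw [← nv_sq, ← nv_sq, e]
  have h1 := nv_add_le (s • (R * Rᵀ).mulVec (sv x)) (√s • R.mulVec ξ)
  rw [nv_smul, nv_smul, abs_of_nonneg hs0, abs_of_nonneg (Real.sqrt_nonneg s)] at h1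
  have h2 := hQ.nv_le hCQ (sv x)
  have h3 : nv (sv x) ≤ √n := nv_le_sqrt_n (abs_sv_le x)
  have h4 : √s ≤ 1 := Real.sqrt_le_one.2 hs1
  have h5 := nv_nonneg (R.mulVec ξ)
  have h6 : s * nv ((R * Rᵀ).mulVec (sv x)) ≤ 1 * (CQ * √n) :=
    mul_le_mul hs1 (h2.trans (mul_le_mul_of_nonneg_left h3 hCQ)) (nv_nonneg _) zero_le_one
  have h7 : √s * nv (R.mulVec ξ) ≤ 1 * nv (R.mulVec ξ) := mul_le_mul_of_nonneg_right h4 h5
  have h8 : nv (s • (R * Rᵀ).mulVec (sv x) + √s • R.mulVec ξ) ≤ CQ * √n + nv (R.mulVec ξ) := by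
    linarith
  have h9 := pow_le_pow_left₀ (nv_nonneg _) h8 2
  have h10 : (√(n : ℝ)) ^ 2 = n := Real.sq_sqrt (Nat.cast_nonneg n)
  linarith only [mul_eq_zero_of_left (sub_eq_zero.2 h10) (0 - (0 - CQ ^ 2)), mul_nonneg (sub_nonneg.2 hs0) (sub_nonneg.2 h9), mul_nonneg (sub_nonneg.2 hs0) (sq_nonneg (CQ * √n - nv (R.mulVec ξ))), mul_nonneg (sub_nonneg.2 hs1) (sub_nonneg.2 h9), mul_nonneg (sub_nonneg.2 hs1) (sq_nonneg (CQ * √n - nv (R.mulVec ξ)))]

theorem sq_ampA_obs_le {M : Mat n} {CM r : ℝ} (hCM : 0 ≤ CM) (hM : OpLe M CM) (hr0 : 0 ≤ r)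
    (hr1 : r ≤ 1) {R : Matrix (Fin n) (Fin m) ℝ} {s CQ : ℝ} (hs0 : 0 ≤ s) (hs1 : s ≤ 1)
    (hCQ : 0 ≤ CQ) (hQ : OpLe (R * Rᵀ) CQ) (x : Cfg n) (ξ : Fin m → ℝ) (k : ℕ) :
    sq (ampA M r (obs R s x ξ) x k) ≤
      (4 * CQ ^ 2 + 2 * (CM + 1) ^ 2) * n + 4 * sq (R.mulVec ξ) := by
  have h1 := sq_ampA_le hCM hM hr0 hr1 (obs R s x ξ) x k
  have h2 := sq_obs_le hs0 hs1 hCQ hQ x ξ
  linarith only [h2, h1]

/-! ### integrated moment bounds -/

section EJ

variable {w : Cfg n → (Fin m → ℝ) → ℝ}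

/-- domination: bounded by `A + B |Rξ|²` -/
theorem EJ_le_of_sq {R : Matrix (Fin n) (Fin m) ℝ} (hw : JL w)
    (hi : ∀ x, Integrable (fun ξ => w x ξ * sq (R.mulVec ξ)) (gpi (Fin m))) {a b : ℝ}
    {Φ : Cfg n → (Fin m → ℝ) → ℝ} (hm : ∀ x, Measurable (Φ x)) (h0 : ∀ x ξ, 0 ≤ Φ x ξ)
    (h : ∀ x ξ, Φ x ξ ≤ a + b * sq (R.mulVec ξ)) :
    (∀ x, Integrable (fun ξ => w x ξ * Φ x ξ) (gpi (Fin m))) ∧
      EJ w Φ ≤ a + b * EJ w (fun _ ξ => sq (R.mulVec ξ)) := by
  have hint2 : ∀ x, Integrable (fun ξ => w x ξ * (a + b * sq (R.mulVec ξ))) (gpi (Fin m)) := by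
    intro x
    have h1 := ((hw.int x).const_mul a).add ((hi x).const_mul b)
    refine h1.congr (ae_of_all _ fun ξ => ?_)
    simp only [Pi.add_apply]
    ring
  have hint : ∀ x, Integrable (fun ξ => w x ξ * Φ x ξ) (gpi (Fin m)) := by
    intro x
    refine (hint2 x).mono ((hw.meas x).mul (hm x)).aestronglyMeasurable
      (ae_of_all _ fun ξ => ?_)
    rw [Real.norm_eq_abs, Real.norm_eq_abs, abs_of_nonneg (mul_nonneg (hw.nonneg x ξ) (h0 x ξ)),
      abs_of_nonneg (mul_nonneg (hw.nonneg x ξ) ((h0 x ξ).trans (h x ξ)))]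
    exact mul_le_mul_of_nonneg_left (h x ξ) (hw.nonneg x ξ)
  refine ⟨hint, ?_⟩
  have h1 : EJ w Φ ≤ ∑ x, ∫ ξ, w x ξ * (a + b * sq (R.mulVec ξ)) ∂(gpi (Fin m)) := by
    refine Finset.sum_le_sum fun x _ => integral_mono (hint x) (hint2 x) fun ξ => ?_
    exact mul_le_mul_of_nonneg_left (h x ξ) (hw.nonneg x ξ)
  refine h1.trans (le_of_eq ?_)
  have h2 : ∀ x, ∫ ξ, w x ξ * (a + b * sq (R.mulVec ξ)) ∂(gpi (Fin m))
      = a * ∫ ξ, w x ξ ∂(gpi (Fin m)) + b * ∫ ξ, w x ξ * sq (R.mulVec ξ) ∂(gpi (Fin m)) := by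
    intro x
    have e : (fun ξ => w x ξ * (a + b * sq (R.mulVec ξ)))
        = fun ξ => a * w x ξ + b * (w x ξ * sq (R.mulVec ξ)) := by
      funext ξ; ring
    rw [e, integral_add ((hw.int x).const_mul a) ((hi x).const_mul b), integral_const_mul,
      integral_const_mul]
  simp only [h2]
  rw [Finset.sum_add_distrib, ← Finset.mul_sum, ← Finset.mul_sum, hw.one, mul_one]
  rfl

/-- second moments of the AMP fields along the path -/
theorem EJ_sq_ampA_le {R : Matrix (Fin n) (Fin m) ℝ} {s CQ C CM r : ℝ} {M : Mat n} (hw : JL w)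
    (hi : ∀ x, Integrable (fun ξ => w x ξ * sq (R.mulVec ξ)) (gpi (Fin m)))
    (hJ4 : EJ w (fun _ ξ => sq (R.mulVec ξ)) ≤ C * n) (hCM : 0 ≤ CM) (hM : OpLe M CM)
    (hr0 : 0 ≤ r) (hr1 : r ≤ 1) (hs0 : 0 ≤ s) (hs1 : s ≤ 1) (hCQ : 0 ≤ CQ)
    (hQ : OpLe (R * Rᵀ) CQ) (k : ℕ) :
    (∀ x, Integrable (fun ξ => w x ξ * sq (ampA M r (obs R s x ξ) x k)) (gpi (Fin m))) ∧
      EJ w (fun x ξ => sq (ampA M r (obs R s x ξ) x k))
        ≤ (4 * CQ ^ 2 + 2 * (CM + 1) ^ 2 + 4 * C) * n := by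
  have h := EJ_le_of_sq (R := R) (a := (4 * CQ ^ 2 + 2 * (CM + 1) ^ 2) * n) (b := 4) hw hi
    (Φ := fun x ξ => sq (ampA M r (obs R s x ξ) x k)) (fun x => ?_)
    (fun x ξ => sqN_nonneg _)
    (fun x ξ => sq_ampA_obs_le hCM hM hr0 hr1 hs0 hs1 hCQ hQ x ξ k)
  · refine ⟨h.1, h.2.trans ?_⟩
    linarith only [hJ4]
  · have : Continuous (fun ξ => sq (ampA M r (obs R s x ξ) x k)) := by
      unfold sq
      exact continuous_finsetSum _ fun j _ =>
        ((continuous_apply j).comp (continuous_ampA_obs M r R s x k)).pow 2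
    exact this.measurable

end EJ

end Vale.Agent.P150.F.D3
end

section

/-! P150 FULL, module D3b: the laws of the zero-field local fields, from the cube-level statement
`BaseU` (helper713). -/

open MeasureTheory ProbabilityTheory Filter Topology
open scoped Matrix

namespace Vale.Agent.P150.F.D3

namespace BH

variable {n m : ℕ}

/-- the deviation statistic of the zero-field local fields -/
noncomputable def Zd (β θ ε α : ℝ) (J : Mat n) (x : Cfg n) : ℝ :=
  (∑ j, ind ε (sv x j) * Real.cos (α + θ * (β • J).mulVec (sv x) j)) / n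
    - Real.exp (-(θ ^ 2 * β ^ 2 / 2)) *
      ((∑ j, ind ε (sv x j) * Real.cos (α + θ * (β ^ 2 * ε))) / n)

theorem abs_one {ε : ℝ} (hε : ε = 1 ∨ ε = -1) : |ε| ≤ 1 := by
  rcases hε with rfl | rfl <;> simp

theorem exp_le_one (θ β : ℝ) : Real.exp (-(θ ^ 2 * β ^ 2 / 2)) ≤ 1 := by
  rw [Real.exp_le_one_iff]
  have : 0 ≤ θ ^ 2 * β ^ 2 / 2 := by positivity
  linarith only [this]

theorem abs_Zd_le {β θ ε α : ℝ} (hε : ε = 1 ∨ ε = -1) (J : Mat n) (x : Cfg n) :
    |Zd β θ ε α J x| ≤ 2 := by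
  unfold Zd
  have h1 : |(∑ j, ind ε (sv x j) * Real.cos (α + θ * (β • J).mulVec (sv x) j)) / n| ≤ 1 := by
    refine abs_avg_le zero_le_one fun j => ?_
    rw [abs_mul]
    exact mul_le_one₀ (abs_ind_le hε x j) (abs_nonneg _) (Real.abs_cos_le_one _)
  have h2 : |(∑ j, ind ε (sv x j) * Real.cos (α + θ * (β ^ 2 * ε))) / n| ≤ 1 := by
    refine abs_avg_le zero_le_one fun j => ?_
    rw [abs_mul]
    exact mul_le_one₀ (abs_ind_le hε x j) (abs_nonneg _) (Real.abs_cos_le_one _)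
  refine (abs_sub _ _).trans ?_
  rw [abs_mul, Real.abs_exp]
  have h3 := mul_le_one₀ (exp_le_one θ β) (abs_nonneg _) h2
  linarith only [h3, h1]

theorem test_cst {ε K : ℝ} (hε : |ε| ≤ 1) (hK : |K| ≤ 1) :
    Test 1 (fun e _ => ind ε e * K) (fun _ _ => 0) := by
  refine ⟨fun e he a => ?_, fun e he a => by simp, fun e he a a' => ?_⟩
  · rw [abs_mul]
    exact mul_le_one₀ (mc_abs_ind_le hε he) (abs_nonneg _) hK
  · simp only [sub_self, zero_mul, abs_zero]
    positivity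

/-- the constant of `macro_Zd` -/
noncomputable def cZ (θ : ℝ) : ℝ := mcst 3 (1 + |θ| + θ ^ 2) + 1 * mcst 3 1

theorem macro_Zd {β θ ε α : ℝ} (h0 : 0 ≤ β) (h1 : β ≤ 1) (hε : ε = 1 ∨ ε = -1) {J : Mat n}
    (hJ : OpLe J 3) : Macro (cZ θ) (Zd β θ ε α J) := by
  have hM : OpLe (β • J) 3 := by
    intro v
    have e1 : (β • J).mulVec v = β • J.mulVec v := Matrix.smul_mulVec _ _ _
    have e2 : sq (β • J.mulVec v) = β ^ 2 * sq (J.mulVec v) := by
      unfold sq
      rw [Finset.mul_sum]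
      exact Finset.sum_congr rfl fun j _ => by rw [Pi.smul_apply, smul_eq_mul, mul_pow]
    rw [e1, e2]
    have h2 := hJ v
    have h3 : β ^ 2 ≤ 1 := pow_le_one₀ h0 h1
    have h4 : 0 ≤ sq (J.mulVec v) := Finset.sum_nonneg fun _ _ => sq_nonneg _
    linarith only [mul_nonneg (sub_nonneg.2 h3) (sub_nonneg.2 h4), mul_nonneg (sub_nonneg.2 h1) (sub_nonneg.2 h2), mul_nonneg (sub_nonneg.2 h0) (sub_nonneg.2 h2)]
  have ha := macro_lin (n := n) (CM := 3) (by norm_num) (by positivity) hM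
    (test_cos (abs_one hε) θ α) (fun _ => 0)
  have hb := mac_const_mul (Real.exp (-(θ ^ 2 * β ^ 2 / 2)))
    (macro_lin (n := n) (CM := 3) (by norm_num) zero_le_one hM
      (test_cst (abs_one hε) (Real.abs_cos_le_one (α + θ * (β ^ 2 * ε)))) (fun _ => 0))
  have hc := mac_sub ha (mac_mono hb (C' := 1 * mcst 3 1) (mul_le_mul_of_nonneg_right
    (by rw [Real.abs_exp]; exact exp_le_one θ β) (by unfold mcst; positivity)))
  have e1 : (fun x => (∑ j, ind ε (sv x j) * Real.cos (θ * ((β • J).mulVec (sv x) j + 0) + α)) / n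
      - Real.exp (-(θ ^ 2 * β ^ 2 / 2)) *
      ((∑ j, ind ε (sv x j) * Real.cos (α + θ * (β ^ 2 * ε))) / n)) = Zd β θ ε α J := by
    funext x
    unfold Zd
    congr 2
    exact Finset.sum_congr rfl fun j _ => by rw [add_zero, add_comm]
  rw [← e1]
  exact hc

theorem single {β : ℝ} (h0 : 0 ≤ β) (h1 : β ≤ 1) (hB : BaseU β) {I : Type} {F : Filter I}
    {n : I → ℕ} {J : ∀ i, Mat (n i)} (hG : Good β F n J) (θ ε α : ℝ) (hε : ε = 1 ∨ ε = -1)
    {e : ℝ} (he : 0 < e) : ∃ η > 0, ∀ᶠ i in F, ∀ (m : ℕ) (w : Cfg (n i) → (Fin m → ℝ) → ℝ),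
      JL w → ∫ ξ, dlr (β • J i) 0 (fun x => w x ξ) ∂(gpi (Fin m)) ≤ η * n i →
      EJ w (fun x _ => |Zd β θ ε α (J i) x|) ≤ e := by
  obtain ⟨η, hη, h⟩ := hB F n J hG θ ε (cZ θ) (e ^ 2 / 2) hε (by positivity)
  refine ⟨η * (e ^ 2 / 8), by positivity, ?_⟩
  filter_upwards [h, hG.op 1 one_pos, hG.hn.eventually_gt_atTop 0] with i hi hop hn m w hw hd
  have hop' : OpLe (J i) 3 := by
    have : (2 : ℝ) + 1 = 3 := by norm_num
    rwa [this] at hop
  have hmac := macro_Zd (α := α) h0 h1 hε (θ := θ) hop'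
  have hb2 : ∀ (x : Cfg (n i)) (_ : Fin m → ℝ), |Zd β θ ε α (J i) x ^ 2| ≤ 4 := by
    intro x _
    rw [abs_pow]
    have := pow_le_pow_left₀ (abs_nonneg _) (abs_Zd_le (α := α) (θ := θ) (β := β) hε (J i) x) 2
    linarith only [this]
  have key := lift hw (β • J i) (y := fun _ => 0) measurable_const hn hη
    (ε := e ^ 2 / 2) (by positivity) (C := 4) (by norm_num)
    (Φ := fun x _ => Zd β θ ε α (J i) x ^ 2) (fun _ => measurable_const) hb2 (fun ξ ν hν hdν => by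
      have h2 := hi ν (Zd β θ ε α (J i)) (fun _ => α) hν hmac hdν
      have e1 : (fun x => Zd β θ ε α (J i) x ^ 2) = fun x => Zd β θ ε α (J i) x *
        ((∑ j, ind ε (sv x j) * Real.cos (α + θ * (β • J i).mulVec (sv x) j)) / n i
            - Real.exp (-(θ ^ 2 * β ^ 2 / 2)) *
              ((∑ j, ind ε (sv x j) * Real.cos (α + θ * (β ^ 2 * ε))) / n i)) := by
        funext x
        rw [pow_two]
        rfl
      rw [e1]
      exact h2) hd
  have e2 : e ^ 2 / 2 + 4 * (η * (e ^ 2 / 8) / η) = e ^ 2 := by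
    field_simp
    ring
  rw [e2] at key
  have h3 := EJ_le_sqrt hw (Φ := fun x _ => |Zd β θ ε α (J i) x|)
    (JI.of_bdd hw (fun _ => measurable_const) (C := 2) fun x _ => by
      rw [abs_abs]; exact abs_Zd_le hε (J i) x)
    (JI.of_bdd hw (fun _ => measurable_const) (C := 4) fun x ξ => by
      rw [sq_abs]; exact hb2 x ξ)
  refine h3.trans ?_
  simp only [sq_abs]
  rw [← Real.sqrt_sq he.le]
  exact Real.sqrt_le_sqrt ((le_abs_self _).trans key)

/-- finitely many statistics at once -/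
theorem finite {β : ℝ} (h0 : 0 ≤ β) (h1 : β ≤ 1) (hB : BaseU β) {I : Type} {F : Filter I}
    {n : I → ℕ} {J : ∀ i, Mat (n i)} (hG : Good β F n J) (S : Finset (ℝ × ℝ × ℝ))
    (hS : ∀ p ∈ S, p.2.1 = 1 ∨ p.2.1 = -1)
    {e : ℝ} (he : 0 < e) : ∃ η > 0, ∀ᶠ i in F, ∀ (m : ℕ) (w : Cfg (n i) → (Fin m → ℝ) → ℝ),
      JL w → ∫ ξ, dlr (β • J i) 0 (fun x => w x ξ) ∂(gpi (Fin m)) ≤ η * n i →
      ∀ p ∈ S, EJ w (fun x _ => |Zd β p.1 p.2.1 p.2.2 (J i) x|) ≤ e := by
  classical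
  induction S using Finset.induction_on with
  | empty => exact ⟨1, one_pos, Eventually.of_forall fun i m w _ _ p hp => by simp at hp⟩
  | insert a s ha ih =>
    obtain ⟨η₁, hη₁, h₁⟩ := ih fun p hp => hS p (Finset.mem_insert_of_mem hp)
    obtain ⟨η₂, hη₂, h₂⟩ := single h0 h1 hB hG a.1 a.2.1 a.2.2
      (hS a (Finset.mem_insert_self _ _)) he
    refine ⟨min η₁ η₂, lt_min hη₁ hη₂, ?_⟩
    filter_upwards [h₁, h₂] with i q1 q2 m w hw hd p hp
    have hn : (0 : ℝ) ≤ n i := Nat.cast_nonneg _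
    rcases Finset.mem_insert.1 hp with rfl | hp'
    · exact q2 m w hw (hd.trans (mul_le_mul_of_nonneg_right (min_le_right _ _) hn))
    · exact q1 m w hw (hd.trans (mul_le_mul_of_nonneg_right (min_le_left _ _) hn)) p hp'

end BH

open BH in
/-- the laws of the zero-field local fields -/
theorem d3bH_of {β κ : ℝ} (h0 : 0 ≤ β) (h1 : β < 1) (hB : BaseU β) : D3bH β κ := by
  intro I F n J hG f C₁ hf hC C e he
  obtain ⟨Θ, η, hη, h⟩ := L3A f C₁ hf hC 9 1 e he
  classical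
  obtain ⟨η', hη', h'⟩ := finite h0 h1.le hB hG
    (Θ ×ˢ (({1, -1} : Finset ℝ) ×ˢ ({0, -(Real.pi / 2)} : Finset ℝ))) (fun p hp => by
      have h2 := (Finset.mem_product.1 (Finset.mem_product.1 hp).2).1
      rcases Finset.mem_insert.1 h2 with h3 | h3
      · exact Or.inl h3
      · exact Or.inr (Finset.mem_singleton.1 h3)) hη
  refine ⟨η', hη', ?_⟩
  filter_upwards [h', hG.op 1 one_pos, hG.hn.eventually_gt_atTop 0] with i hi hop hn m R s w _ hw
  have hop' : OpLe (J i) 3 := by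
    have : (2 : ℝ) + 1 = 3 := by norm_num
    rwa [this] at hop
  have hsq : ∀ x : Cfg (n i), sq ((β • J i).mulVec (sv x)) ≤ 9 * n i := by
    intro x
    have e1 : (β • J i).mulVec (sv x) = β • (J i).mulVec (sv x) := Matrix.smul_mulVec _ _ _
    have e2 : sq (β • (J i).mulVec (sv x)) = β ^ 2 * sq ((J i).mulVec (sv x)) := by
      unfold sq
      rw [Finset.mul_sum]
      exact Finset.sum_congr rfl fun j _ => by rw [Pi.smul_apply, smul_eq_mul, mul_pow]
    have e3 : sq (sv x) = n i := by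
      unfold sq sv
      simp [sp_sq, pow_two]
    rw [e1, e2]
    have h2 := hop' (sv x)
    rw [e3] at h2
    have h3 : β ^ 2 ≤ 1 := pow_le_one₀ h0 h1.le
    have h4 : 0 ≤ sq ((J i).mulVec (sv x)) := Finset.sum_nonneg fun _ _ => sq_nonneg _
    (by_contra nlg; linarith only [mul_nonneg (le_of_lt (sub_pos.2 (not_le.1 nlg))) (sub_nonneg.2 h0), mul_pos (sub_pos.2 (not_le.1 nlg)) (sub_pos.2 h1), mul_nonneg (sub_nonneg.2 h0) (sub_nonneg.2 h2), mul_nonneg (le_of_lt (sub_pos.2 h1)) (sub_nonneg.2 h2), mul_nonneg (sub_nonneg.2 h3) (sub_nonneg.2 h4)])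
  have hd := hi m w hw.law hw.J1
  refine h (n i) m hn w hw.law (fun x _ => (β • J i).mulVec (sv x)) (fun _ _ => measurable_const)
    (fun x => (hw.law.int x).mul_const _) ?_ (β ^ 2) (sq_nonneg _) (pow_le_one₀ h0 h1.le) ?_
  · exact EJ_le_of_le hw.law (by positivity) fun x _ => hsq x
  · intro θ hθ ε hε
    have hεm : ε ∈ ({1, -1} : Finset ℝ) := by
      rcases hε with rfl | rfl <;> simp
    have hc := hd (θ, ε, 0) (Finset.mem_product.2 ⟨hθ, Finset.mem_product.2 ⟨hεm, by simp⟩⟩)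
    have hs := hd (θ, ε, -(Real.pi / 2))
      (Finset.mem_product.2 ⟨hθ, Finset.mem_product.2 ⟨hεm, by simp⟩⟩)
    refine ⟨?_, ?_⟩
    · refine le_trans (le_of_eq ?_) hc
      refine EJ_congr fun x _ => ?_
      congr 1
      unfold Zd
      simp only [zero_add]
      rw [← mul_div_assoc, ← sub_div, Finset.mul_sum, ← Finset.sum_sub_distrib]
      congr 1
      exact Finset.sum_congr rfl fun j _ => by ring
    · refine le_trans (le_of_eq ?_) hs
      refine EJ_congr fun x _ => ?_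
      congr 1
      unfold Zd
      have e1 : ∀ u : ℝ, Real.cos (-(Real.pi / 2) + u) = Real.sin u := by
        intro u
        rw [show -(Real.pi / 2) + u = u - Real.pi / 2 by ring, Real.cos_sub_pi_div_two]
      simp only [e1]
      rw [← mul_div_assoc, ← sub_div, Finset.mul_sum, ← Finset.sum_sub_distrib]
      congr 1
      exact Finset.sum_congr rfl fun j _ => by ring

end Vale.Agent.P150.F.D3
end

section

/-! P150 FULL, module D3b: lifting the cube-level inputs to joint laws, filter form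
(helper691). -/

open MeasureTheory ProbabilityTheory Filter Topology
open scoped Matrix

namespace Vale.Agent.P150.F.D3

/-- the data of a joint law at size `n` -/
structure JD (n : ℕ) where
  /-- noise dimension -/
  m : ℕ
  /-- driving matrix -/
  R : Matrix (Fin n) (Fin m) ℝ
  /-- time -/
  s : ℝ
  /-- density -/
  w : Cfg n → (Fin m → ℝ) → ℝ

/-- the hypotheses on a joint law -/
def JH (β κ C : ℝ) {n : ℕ} (J : Mat n) (d : JD n) (η : ℝ) : Prop :=
  0 < η ∧ d.s ∈ Set.Icc 0 β ∧ ∃ η' > 0, η' ≤ η ∧ JHyp β κ J d.R d.s C η' d.w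

section

variable {I : Type} {F : Filter I} {n : I → ℕ} {J : ∀ i, Mat (n i)} {β κ C : ℝ}

/-- the filter of joint laws -/
def jF (F : Filter I) (n : I → ℕ) (J : ∀ i, Mat (n i)) (β κ C : ℝ) : Filter (Σ i, JD (n i)) :=
  uF F (fun i (d : JD (n i)) η => JH β κ C (J i) d η)

theorem jF_mono (i : I) (d : JD (n i)) (η η' : ℝ) (h : η ≤ η') (h1 : JH β κ C (J i) d η) :
    JH β κ C (J i) d η' := by
  obtain ⟨h0, hs, η'', h2, h3, h4⟩ := h1
  exact ⟨h0.trans_le h, hs, η'', h2, h3.trans h, h4⟩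

theorem jF_unif {X : ∀ i, JD (n i) → ℝ}
    (h : Tendsto (fun p : Σ i, JD (n i) => X p.1 p.2) (jF F n J β κ C) (𝓝 0)) {e : ℝ}
    (he : 0 < e) :
    ∃ η > 0, ∀ᶠ i in F, ∀ (m : ℕ) (R : Matrix (Fin (n i)) (Fin m) ℝ) (s : ℝ)
      (w : Cfg (n i) → (Fin m → ℝ) → ℝ), s ∈ Set.Icc 0 β → JHyp β κ (J i) R s C η w →
      |X i ⟨m, R, s, w⟩| ≤ e := by
  obtain ⟨η, hη, h1⟩ := unif_of_tendsto jF_mono h he
  refine ⟨η, hη, h1.mono fun i hi m R s w hs hw => hi ⟨m, R, s, w⟩ ?_⟩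
  exact ⟨hη, hs, η, hη, le_rfl, hw⟩

theorem jF_hyp {η : ℝ} (hη : 0 < η) :
    ∀ᶠ p in jF F n J β κ C, p.2.s ∈ Set.Icc 0 β ∧
      ∃ η' > 0, η' ≤ η ∧ JHyp β κ (J p.1) p.2.R p.2.s C η' p.2.w := by
  have h := eventually_uF_hyp (F := F) (hyp := fun i (d : JD (n i)) η => JH β κ C (J i) d η) hη
  exact h.mono fun p hp => ⟨hp.2.1, hp.2.2⟩

theorem jF_fst {P : I → Prop} (h : ∀ᶠ i in F, P i) : ∀ᶠ p in jF F n J β κ C, P p.1 :=
  eventually_uF_of_fst h

/-- the couplings at time `s` -/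
noncomputable def Mj (J : ∀ i, Mat (n i)) (β : ℝ) (p : Σ i, JD (n i)) : Mat (n p.1) :=
  (β - p.2.s) • J p.1

/-- the fields `a^{k+1}` -/
noncomputable def Aj (J : ∀ i, Mat (n i)) (β : ℝ) (k : ℕ) (p : Σ i, JD (n i)) (x : Cfg (n p.1))
    (ξ : Fin p.2.m → ℝ) : Vec (n p.1) :=
  ampA (Mj J β p) (β - p.2.s) (obs p.2.R p.2.s x ξ) x k

/-- the overlaps `q_k` -/
noncomputable def Qj (J : ∀ i, Mat (n i)) (β : ℝ) (k : ℕ) (p : Σ i, JD (n i)) (x : Cfg (n p.1))
    (ξ : Fin p.2.m → ℝ) : ℝ :=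
  qq (ampM (Mj J β p) (β - p.2.s) (obs p.2.R p.2.s x ξ) x k)

/-- the step variances -/
noncomputable def Cj (J : ∀ i, Mat (n i)) (β : ℝ) (k : ℕ) (p : Σ i, JD (n i)) (x : Cfg (n p.1))
    (ξ : Fin p.2.m → ℝ) : ℝ :=
  cst (Mj J β p) (β - p.2.s) (obs p.2.R p.2.s x ξ) k x

lemma abs_cst_le {n : ℕ} (M : Mat n) {r : ℝ} (hr : r ∈ Set.Icc (0 : ℝ) 1) (y : Vec n) (k : ℕ)
    (x : Cfg n) : |cst M r y k x| ≤ 1 := by
  unfold cst
  have h1 : r ^ 2 ≤ 1 := pow_le_one₀ hr.1 hr.2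
  have a0 : 0 ≤ qq (ampM M r y x k) := qq_nonneg _
  have a1 := qq_ampM_le M r y x k
  have b0 : 0 ≤ qq (ampM M r y x (k + 1)) := qq_nonneg _
  have b1 := qq_ampM_le M r y x (k + 1)
  rw [abs_mul, abs_of_nonneg (sq_nonneg r)]
  refine mul_le_one₀ h1 (abs_nonneg _) ?_
  rw [abs_le]
  constructor <;> linarith

/-- the bounded bracket of the step -/
lemma abs_step_le {n : ℕ} {ε : ℝ} (hε : ε = 1 ∨ ε = -1) (θ α c : ℝ) (hc : |c| ≤ 1)
    (a a' : Vec n) (x : Cfg n) :
    |Real.exp (θ ^ 2 * c / 2) * chr ε θ (α - θ * (c * ε)) a x - chr ε θ α a' x|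
      ≤ Real.exp (θ ^ 2) + 1 := by
  refine (abs_sub _ _).trans (add_le_add ?_ (abs_chr_le hε _ _ _ _))
  rw [abs_mul, Real.abs_exp]
  have h1 : Real.exp (θ ^ 2 * c / 2) ≤ Real.exp (θ ^ 2) := by
    refine Real.exp_le_exp.2 ?_
    have := (abs_le.1 hc).2
    linarith only [sq_nonneg θ, mul_nonneg (sub_nonneg.2 this) (sq_nonneg θ)]
  calc _ ≤ Real.exp (θ ^ 2) * 1 :=
        mul_le_mul h1 (abs_chr_le hε _ _ _ _) (abs_nonneg _) (Real.exp_pos _).le
    _ = _ := mul_one _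

/-! ### measurability -/

lemma measurable_qq {Ω : Type*} [MeasurableSpace Ω] {n : ℕ} {v : Ω → Vec n}
    (hv : ∀ j, Measurable fun ω => v ω j) : Measurable fun ω => qq (v ω) := by
  unfold qq sq
  exact (Finset.measurable_fun_sum _ fun j _ => (hv j).pow_const 2).div_const _

lemma measurable_amp {Ω : Type*} [MeasurableSpace Ω] {n : ℕ} (M : Mat n) (r : ℝ) (x : Cfg n)
    {y : Ω → Vec n} (hy : ∀ j, Measurable fun ω => y ω j) (k : ℕ) :
    (∀ j, Measurable fun ω => ampM M r (y ω) x k j) ∧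
      (∀ j, Measurable fun ω => ampA M r (y ω) x k j) := by
  have ht : Measurable Real.tanh := continuous_tanh'.measurable
  have step : ∀ k, (∀ j, Measurable fun ω => ampM M r (y ω) x k j) →
      (∀ j, Measurable fun ω => ampA M r (y ω) x k j) →
      (∀ j, Measurable fun ω => ampM M r (y ω) x (k + 1) j) ∧
      (∀ j, Measurable fun ω => ampA M r (y ω) x (k + 1) j) := by
    intro k h1 h2
    have h3 : ∀ j, Measurable fun ω => ampM M r (y ω) x (k + 1) j := by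
      intro j
      simp only [ampM_succ]
      exact ht.comp (h2 j)
    refine ⟨h3, fun j => ?_⟩
    simp only [ampA_succ]
    refine ((?_ : Measurable _).add (hy j)).sub (((measurable_qq h3).const_sub 1
      |>.const_mul _).mul (h1 j))
    unfold Matrix.mulVec dotProduct
    exact Finset.measurable_fun_sum _ fun l _ => (h3 l).const_mul _
  induction k with
  | zero =>
    refine ⟨fun j => ?_, fun j => ?_⟩
    · exact measurable_const
    · simp only [ampA]
      exact (hy j).const_add _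
  | succ k ih => exact step k ih.1 ih.2

lemma measurable_obs {n m : ℕ} (R : Matrix (Fin n) (Fin m) ℝ) (s : ℝ) (x : Cfg n) (j : Fin n) :
    Measurable fun ξ => obs R s x ξ j := by
  unfold obs
  refine Measurable.const_add ?_ _
  refine Measurable.const_mul ?_ _
  unfold Matrix.mulVec dotProduct
  exact Finset.measurable_fun_sum _ fun l _ => (measurable_pi_apply l).const_mul _

lemma measurable_mulVec_apply {n m : ℕ} (R : Matrix (Fin n) (Fin m) ℝ) (j : Fin n) :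
    Measurable fun ξ : Fin m → ℝ => R.mulVec ξ j := by
  unfold Matrix.mulVec dotProduct
  exact Finset.measurable_fun_sum _ fun l _ => (measurable_pi_apply l).const_mul _

lemma measurable_chr {Ω : Type*} [MeasurableSpace Ω] {n : ℕ} (ε θ : ℝ) {α : Ω → ℝ}
    (hα : Measurable α) {a : Ω → Vec n} (ha : ∀ j, Measurable fun ω => a ω j) (x : Cfg n) :
    Measurable fun ω => chr ε θ (α ω) (a ω) x := by
  unfold chr
  refine (Finset.measurable_fun_sum _ fun j _ => ?_).div_const _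
  exact (Real.measurable_cos.comp (hα.add ((ha j).const_mul _))).const_mul _

lemma measurable_Aj (k : ℕ) (p : Σ i, JD (n i)) (x : Cfg (n p.1)) (j : Fin (n p.1)) :
    Measurable fun ξ => Aj J β k p x ξ j :=
  (measurable_amp (Mj J β p) (β - p.2.s) x (measurable_obs p.2.R p.2.s x) k).2 j

lemma measurable_Qj (k : ℕ) (p : Σ i, JD (n i)) (x : Cfg (n p.1)) :
    Measurable fun ξ => Qj J β k p x ξ :=
  measurable_qq (measurable_amp (Mj J β p) (β - p.2.s) x (measurable_obs p.2.R p.2.s x) k).1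

lemma measurable_Cj (k : ℕ) (p : Σ i, JD (n i)) (x : Cfg (n p.1)) :
    Measurable fun ξ => Cj J β k p x ξ := by
  unfold Cj cst
  exact ((measurable_Qj k p x).sub (measurable_Qj (k + 1) p x)).const_mul _

lemma measurable_step (k : ℕ) (ε θ α : ℝ) (p : Σ i, JD (n i)) (x : Cfg (n p.1)) :
    Measurable fun ξ => Real.exp (θ ^ 2 * Cj J β k p x ξ / 2) *
        chr ε θ (α - θ * (Cj J β k p x ξ * ε)) (Aj J β k p x ξ) x
        - chr ε θ α (Aj J β (k + 1) p x ξ) x := by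
  refine ((Real.measurable_exp.comp (((measurable_Cj k p x).const_mul _).div_const _)).mul
    (measurable_chr ε θ ?_ (measurable_Aj k p x) x)).sub
    (measurable_chr ε θ measurable_const (measurable_Aj (k + 1) p x) x)
  exact (((measurable_Cj k p x).mul_const _).const_mul _).const_sub _

/-! ### the lifted inputs -/

/-- the step at the level of joint laws -/
theorem step_lift (hG : Good β F n J) (hβ : β < 1) (hS : StepU β) (k : ℕ) {θ ε : ℝ}
    (hε : ε = 1 ∨ ε = -1) {φ : ∀ p : Σ i, JD (n i), Cfg (n p.1) → (Fin p.2.m → ℝ) → ℝ} {C' : ℝ}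
    (hφm : ∀ᶠ p in jF F n J β κ C, ∀ x, Measurable (φ p x))
    (hφ : ∀ᶠ p in jF F n J β κ C, ∀ ξ, Macro C' (fun x => φ p x (bsh p.2.R p.2.s x ξ)))
    (α : (Σ i, JD (n i)) → ℝ) :
    Tendsto (fun p : Σ i, JD (n i) => EJ p.2.w (fun x ξ => φ p x ξ *
      (Real.exp (θ ^ 2 * Cj J β k p x ξ / 2) *
        chr ε θ (α p - θ * (Cj J β k p x ξ * ε)) (Aj J β k p x ξ) x
        - chr ε θ (α p) (Aj J β (k + 1) p x ξ) x))) (jF F n J β κ C) (𝓝 0) := by
  rw [Metric.tendsto_nhds]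
  intro e he
  set C₀ : ℝ := |C'| * (Real.exp (θ ^ 2) + 1) with hC₀
  have hC₀0 : 0 ≤ C₀ := by (clear * -; positivity)
  obtain ⟨η, hη, h1⟩ := hS F n J hG k θ ε C' (e / 4) hε (by linarith only [he])
  set η₁ : ℝ := e * η / (4 * (C₀ + 1)) with hη₁
  have hη₁0 : 0 < η₁ := by (clear * - he hη; positivity)
  have hn : ∀ᶠ i in F, 0 < n i := hG.hn.eventually (eventually_gt_atTop 0)
  filter_upwards [jF_fst h1, jF_fst hn, jF_hyp hη₁0, hφm, hφ] with p hp1 hpn hp2 hpm hpφ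
  obtain ⟨hs, η', hη'0, hη', hJ⟩ := hp2
  have hs0 : 0 ≤ p.2.s := hs.1
  have hr : β - p.2.s ∈ Set.Icc (0 : ℝ) 1 := ⟨by linarith only [hs.2], by linarith only [hs0, hβ]⟩
  have hn' : (0 : ℝ) < n p.1 := by exact_mod_cast hpn
  rw [Real.dist_eq, sub_zero]
  rw [EJ_shift p.2.R hs0]
  set Φ : Cfg (n p.1) → (Fin p.2.m → ℝ) → ℝ := fun x ξ => φ p x (bsh p.2.R p.2.s x ξ) *
      (Real.exp (θ ^ 2 * cst (Mj J β p) (β - p.2.s) (√p.2.s • p.2.R.mulVec ξ) k x / 2) *
        chr ε θ (α p - θ * (cst (Mj J β p) (β - p.2.s) (√p.2.s • p.2.R.mulVec ξ) k x * ε))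
          (ampA (Mj J β p) (β - p.2.s) (√p.2.s • p.2.R.mulVec ξ) x k) x
        - chr ε θ (α p) (ampA (Mj J β p) (β - p.2.s) (√p.2.s • p.2.R.mulVec ξ) x (k + 1)) x)
    with hΦ
  have e1 : (fun x ξ => φ p x (bsh p.2.R p.2.s x ξ) *
      (Real.exp (θ ^ 2 * Cj J β k p x (bsh p.2.R p.2.s x ξ) / 2) *
        chr ε θ (α p - θ * (Cj J β k p x (bsh p.2.R p.2.s x ξ) * ε))
          (Aj J β k p x (bsh p.2.R p.2.s x ξ)) x
        - chr ε θ (α p) (Aj J β (k + 1) p x (bsh p.2.R p.2.s x ξ)) x)) = Φ := by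
    funext x ξ
    rw [hΦ]
    unfold Cj Aj
    rw [obs_bsh p.2.R hs0]
  rw [e1]
  have hbm : ∀ x, Measurable fun ξ : Fin p.2.m → ℝ => bsh p.2.R p.2.s x ξ := by
    intro x
    unfold bsh
    exact measurable_id.sub_const _
  have hΦm : ∀ x, Measurable (Φ x) := by
    intro x
    have h2 : Measurable fun ξ => φ p x ξ *
      (Real.exp (θ ^ 2 * Cj J β k p x ξ / 2) *
        chr ε θ (α p - θ * (Cj J β k p x ξ * ε)) (Aj J β k p x ξ) x
        - chr ε θ (α p) (Aj J β (k + 1) p x ξ) x) := (hpm x).mul (measurable_step k ε θ _ p x)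
    have h3 := h2.comp (hbm x)
    have e2 := congrFun e1 x
    rw [← e2]
    exact h3
  have hΦb : ∀ x ξ, |Φ x ξ| ≤ C₀ := by
    intro x ξ
    rw [hΦ]
    simp only
    rw [abs_mul]
    exact mul_le_mul (((hpφ ξ).1 x).trans (le_abs_self _))
      (abs_step_le hε _ _ _ (abs_cst_le _ hr _ _ _) _ _ _) (abs_nonneg _) (abs_nonneg _)
  have hy : Measurable fun ξ : Fin p.2.m → ℝ => √p.2.s • p.2.R.mulVec ξ := by
    refine measurable_pi_iff.2 fun j => ?_
    exact (measurable_mulVec_apply p.2.R j).const_mul _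
  have key := lift (hJ.law.shw p.2.R hs0) (Mj J β p) hy hpn hη (by linarith only [he] : 0 ≤ e / 4) hC₀0
    hΦm hΦb (fun ξ ν hν hd => hp1 (β - p.2.s) _ ν _ (α p) hr hν (hpφ ξ) hd)
    (hJ.J2)
  have h5 : C₀ * (η' / η) ≤ e / 4 := by
    have h6 : η' / η ≤ e / (4 * (C₀ + 1)) := by
      rw [div_le_iff₀ hη]
      calc η' ≤ η₁ := hη'
        _ = e / (4 * (C₀ + 1)) * η := by rw [hη₁]; ring
    calc C₀ * (η' / η) ≤ (C₀ + 1) * (e / (4 * (C₀ + 1))) := by
          refine mul_le_mul (by linarith only []) h6 (by (clear * - hη'0 hη; positivity)) (by linarith only [hC₀0])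
      _ = e / 4 := by field_simp
  linarith only [he, key, h5]

/-- the base at the level of joint laws -/
theorem base_lift (hG : Good β F n J) (hB : BaseU β) {θ ε : ℝ}
    (hε : ε = 1 ∨ ε = -1) {φ : ∀ p : Σ i, JD (n i), Cfg (n p.1) → (Fin p.2.m → ℝ) → ℝ} {C' : ℝ}
    (hφm : ∀ᶠ p in jF F n J β κ C, ∀ x, Measurable (φ p x))
    (hφ : ∀ᶠ p in jF F n J β κ C, ∀ ξ, Macro C' (fun x => φ p x ξ))
    (α : ∀ p : Σ i, JD (n i), (Fin p.2.m → ℝ) → Vec (n p.1))
    (hα : ∀ p j, Measurable fun ξ => α p ξ j) :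
    Tendsto (fun p : Σ i, JD (n i) => EJ p.2.w (fun x ξ => φ p x ξ *
      ((∑ j, ind ε (sv x j) * Real.cos (α p ξ j + θ * (β • J p.1).mulVec (sv x) j)) / n p.1
            - Real.exp (-(θ ^ 2 * β ^ 2 / 2)) *
              ((∑ j, ind ε (sv x j) * Real.cos (α p ξ j + θ * (β ^ 2 * ε))) / n p.1))))
      (jF F n J β κ C) (𝓝 0) := by
  rw [Metric.tendsto_nhds]
  intro e he
  set C₀ : ℝ := |C'| * 2 with hC₀
  have hC₀0 : 0 ≤ C₀ := by (clear * -; positivity)
  obtain ⟨η, hη, h1⟩ := hB F n J hG θ ε C' (e / 4) hε (by linarith only [he])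
  set η₁ : ℝ := e * η / (4 * (C₀ + 1)) with hη₁
  have hη₁0 : 0 < η₁ := by (clear * - he hη; positivity)
  have hn : ∀ᶠ i in F, 0 < n i := hG.hn.eventually (eventually_gt_atTop 0)
  filter_upwards [jF_fst h1, jF_fst hn, jF_hyp hη₁0, hφm, hφ] with p hp1 hpn hp2 hpm hpφ
  obtain ⟨hs, η', hη'0, hη', hJ⟩ := hp2
  rw [Real.dist_eq, sub_zero]
  have hΦb : ∀ x ξ, |φ p x ξ *
      ((∑ j, ind ε (sv x j) * Real.cos (α p ξ j + θ * (β • J p.1).mulVec (sv x) j)) / n p.1
            - Real.exp (-(θ ^ 2 * β ^ 2 / 2)) *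
              ((∑ j, ind ε (sv x j) * Real.cos (α p ξ j + θ * (β ^ 2 * ε))) / n p.1))|
      ≤ C₀ := by
    intro x ξ
    rw [abs_mul]
    have b1 : ∀ u : Vec (n p.1),
        |(∑ j, ind ε (sv x j) * Real.cos (u j)) / n p.1| ≤ 1 := fun u =>
      abs_avg_le zero_le_one fun j => by
        rw [abs_mul]
        exact mul_le_one₀ (abs_ind_le hε x j) (abs_nonneg _) (Real.abs_cos_le_one _)
    refine mul_le_mul (((hpφ ξ).1 x).trans (le_abs_self _)) ?_ (abs_nonneg _) (abs_nonneg _)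
    refine (abs_sub _ _).trans ?_
    rw [abs_mul, Real.abs_exp]
    have e1 : Real.exp (-(θ ^ 2 * β ^ 2 / 2)) ≤ 1 := Real.exp_le_one_iff.2 (by
      have : 0 ≤ θ ^ 2 * β ^ 2 / 2 := by (clear * -; positivity)
      linarith only [this])
    have b2 := b1 (fun j => α p ξ j + θ * (β • J p.1).mulVec (sv x) j)
    have b3 := b1 (fun j => α p ξ j + θ * (β ^ 2 * ε))
    have b4 := mul_le_one₀ e1 (abs_nonneg _) b3
    linarith only [b4, b2]
  have hΦm : ∀ x, Measurable (fun ξ => φ p x ξ *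
      ((∑ j, ind ε (sv x j) * Real.cos (α p ξ j + θ * (β • J p.1).mulVec (sv x) j)) / n p.1
            - Real.exp (-(θ ^ 2 * β ^ 2 / 2)) *
              ((∑ j, ind ε (sv x j) * Real.cos (α p ξ j + θ * (β ^ 2 * ε))) / n p.1))) := by
    intro x
    refine (hpm x).mul (((Finset.measurable_fun_sum _ fun j _ => ?_).div_const _).sub
      (((Finset.measurable_fun_sum _ fun j _ => ?_).div_const _).const_mul _))
    · exact (Real.measurable_cos.comp ((hα p j).add_const _)).const_mul _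
    · exact (Real.measurable_cos.comp ((hα p j).add_const _)).const_mul _
  have key := lift hJ.law (β • J p.1) (y := fun _ => 0) measurable_const hpn hη
    (by linarith only [he] : 0 ≤ e / 4) hC₀0
    hΦm hΦb (fun ξ ν hν hd => hp1 ν _ (α p ξ) hν (hpφ ξ) hd)
    (hJ.J1)
  have h5 : C₀ * (η' / η) ≤ e / 4 := by
    have h6 : η' / η ≤ e / (4 * (C₀ + 1)) := by
      rw [div_le_iff₀ hη]
      calc η' ≤ η₁ := hη'
        _ = e / (4 * (C₀ + 1)) * η := by rw [hη₁]; ring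
    calc C₀ * (η' / η) ≤ (C₀ + 1) * (e / (4 * (C₀ + 1))) := by
          refine mul_le_mul (by linarith only []) h6 (by (clear * - hη'0 hη; positivity)) (by linarith only [hC₀0])
      _ = e / 4 := by field_simp
  linarith only [he, key, h5]

end

end Vale.Agent.P150.F.D3
end

section

/-! P150 FULL, module D3b: the induction over the AMP levels (helper691). -/

open MeasureTheory ProbabilityTheory Filter Topology
open scoped Matrix

namespace Vale.Agent.P150.F.D3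

section

variable {I : Type} {F : Filter I} {n : I → ℕ} {J : ∀ i, Mat (n i)} {β κ C : ℝ}

/-- the variance parameter at level `k` -/
noncomputable def gm (β κ : ℝ) (k : ℕ) (p : Σ i, JD (n i)) : ℝ := gam β κ p.2.s k

/-- the deviation of the empirical characteristic function at level `k` -/
noncomputable def Dv (J : ∀ i, Mat (n i)) (β κ ε θ α : ℝ) (k : ℕ) (p : Σ i, JD (n i))
    (x : Cfg (n p.1)) (ξ : Fin p.2.m → ℝ) : ℝ :=
  dev ε θ α (gm β κ k p) (gm β κ k p) (Aj J β k p x ξ) x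

/-- the law of `a^{k+1}` given `σ` is `N (g σ, g)` -/
def LawA (F : Filter I) (n : I → ℕ) (J : ∀ i, Mat (n i)) (β κ C : ℝ) (k : ℕ) : Prop :=
  ∀ θ ε α : ℝ, (ε = 1 ∨ ε = -1) →
    Tendsto (fun p : Σ i, JD (n i) => EJ p.2.w (fun x ξ => |Dv J β κ ε θ α k p x ξ|))
      (jF F n J β κ C) (𝓝 0)

/-- the facts which hold eventually -/
structure Ev (J : ∀ i, Mat (n i)) (β κ C : ℝ) (p : Σ i, JD (n i)) : Prop where
  law : JL p.2.w
  s0 : 0 ≤ p.2.s
  sβ : p.2.s ≤ β
  hR : p.2.R * p.2.Rᵀ = J p.1 + κ • (1 : Mat (n p.1))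
  npos : 0 < n p.1
  op : OpLe (J p.1) 3
  i4 : ∀ x, Integrable (fun ξ => p.2.w x ξ * sq (p.2.R.mulVec ξ)) (gpi (Fin p.2.m))
  b4 : EJ p.2.w (fun _ ξ => sq (p.2.R.mulVec ξ)) ≤ C * n p.1

theorem ev (hG : Good β F n J) : ∀ᶠ p in jF F n J β κ C, Ev J β κ C p := by
  have hn : ∀ᶠ i in F, 0 < n i := hG.hn.eventually (eventually_gt_atTop 0)
  filter_upwards [jF_hyp (F := F) (n := n) (J := J) (β := β) (κ := κ) (C := C) one_pos,
    jF_fst hn, jF_fst (hG.op 1 one_pos)] with p hp h1 h2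
  obtain ⟨hs, η', _, _, hJ⟩ := hp
  exact ⟨hJ.law, hs.1, hs.2, hJ.hR, h1, by norm_num at h2; exact h2, hJ.J4i, hJ.J4⟩

namespace Ev

variable {p : Σ i, JD (n i)}

theorem opM (h : Ev J β κ C p) (hβ : β < 1) : OpLe (Mj J β p) 3 := by
  have h1 := h.op.smul (by norm_num) (β - p.2.s)
  refine h1.monoN (by positivity) ?_
  have h2 : |β - p.2.s| ≤ 1 := by
    rw [abs_of_nonneg (by linarith [h.sβ])]
    linarith only [h.s0, hβ]
  linarith only [h2]

theorem opR (h : Ev J β κ C p) (hκ : 0 ≤ κ) : OpLe (p.2.R * p.2.Rᵀ) (3 + κ) := by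
  rw [h.hR]
  have h1 := (opLe_one (n := n p.1)).smul zero_le_one κ
  rw [abs_of_nonneg hκ, mul_one] at h1
  exact h.op.add h1 (by norm_num) hκ

theorem r0 (h : Ev J β κ C p) : 0 ≤ β - p.2.s := by linarith [h.sβ]

theorem r1 (h : Ev J β κ C p) (hβ : β < 1) : β - p.2.s ≤ 1 := by linarith [h.s0]

theorem s1 (h : Ev J β κ C p) (hβ : β < 1) : p.2.s ≤ 1 := by linarith [h.sβ]

theorem smem (h : Ev J β κ C p) : p.2.s ∈ Set.Icc 0 β := ⟨h.s0, h.sβ⟩

theorem gm0 (h : Ev J β κ C p) (hκ : 0 ≤ κ) (k : ℕ) : 0 ≤ gm β κ k p :=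
  gam_nonneg hκ h.smem k

theorem gmle (h : Ev J β κ C p) (hκ : 0 ≤ κ) (k : ℕ) : gm β κ k p ≤ β ^ 2 + β * κ := by
  have h1 : gm β κ k p ≤ gam β κ p.2.s 0 := gam_antitone hκ h.smem (Nat.zero_le k)
  rw [gam_zero] at h1
  have h2 : p.2.s * κ ≤ β * κ := mul_le_mul_of_nonneg_right h.sβ hκ
  linarith

end Ev

/-! ### from the law to test functions -/

lemma dev_zero_eq {m : ℕ} (ε θ c g : ℝ) (a : Vec m) (x : Cfg m) :
    (∑ j, ind ε (sv x j) * (Real.cos (θ * a j) - Real.exp (-(θ ^ 2 * g / 2)) *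
      Real.cos (θ * (c * ε)))) / m = dev ε θ 0 c g a x := by
  unfold dev chr fr
  simp only [zero_add]
  rw [← mul_div_assoc, ← sub_div]
  congr 1
  rw [Finset.mul_sum, ← Finset.sum_sub_distrib]
  exact Finset.sum_congr rfl fun j _ => by ring

lemma dev_pi_eq {m : ℕ} (ε θ c g : ℝ) (a : Vec m) (x : Cfg m) :
    (∑ j, ind ε (sv x j) * (Real.sin (θ * a j) - Real.exp (-(θ ^ 2 * g / 2)) *
      Real.sin (θ * (c * ε)))) / m = dev ε θ (-(Real.pi / 2)) c g a x := by
  have hc : ∀ u : ℝ, Real.cos (-(Real.pi / 2) + u) = Real.sin u := by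
    intro u
    rw [show -(Real.pi / 2) + u = u - Real.pi / 2 by ring, Real.cos_sub_pi_div_two]
  unfold dev chr fr
  simp only [hc]
  rw [← mul_div_assoc, ← sub_div]
  congr 1
  rw [Finset.mul_sum, ← Finset.sum_sub_distrib]
  exact Finset.sum_congr rfl fun j _ => by ring

lemma measurable_Dv (ε θ α : ℝ) (k : ℕ) (p : Σ i, JD (n i)) (x : Cfg (n p.1)) :
    Measurable fun ξ => Dv J β κ ε θ α k p x ξ := by
  unfold Dv dev
  exact (measurable_chr ε θ measurable_const (measurable_Aj k p x) x).sub_const _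

/-- general test functions -/
theorem LawA.test (hG : Good β F n J) (hβ : β < 1) (hκ : 0 ≤ κ) {k : ℕ}
    (hA : LawA F n J β κ C k) {f : ℝ → ℝ → ℝ} {C₁ : ℝ} (hf : ∀ ε, Continuous (f ε))
    (hC : ∀ ε a, |f ε a| ≤ C₁ * (1 + |a|)) :
    Tendsto (fun p : Σ i, JD (n i) => EJ p.2.w (fun x ξ =>
      |(∑ j, (f (sv x j) (Aj J β k p x ξ j) - NEs f (gm β κ k p) (sv x j))) / n p.1|))
      (jF F n J β κ C) (𝓝 0) := by
  rw [Metric.tendsto_nhds]
  intro e he
  obtain ⟨Θ, η, hη, h3⟩ := L3A f C₁ hf hC (4 * (3 + κ) ^ 2 + 2 * (3 + 1) ^ 2 + 4 * C)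
    (β ^ 2 + β * κ) (e / 2) (by linarith only [he])
  have hall : ∀ᶠ p in jF F n J β κ C, ∀ θ ∈ Θ, ∀ ε ∈ ({1, -1} : Finset ℝ),
      ∀ α ∈ ({0, -(Real.pi / 2)} : Finset ℝ),
      EJ p.2.w (fun x ξ => |Dv J β κ ε θ α k p x ξ|) ≤ η := by
    rw [eventually_all_finset]
    intro θ _
    rw [eventually_all_finset]
    intro ε hε
    rw [eventually_all_finset]
    intro α _
    have hε' : ε = 1 ∨ ε = -1 := by simpa using hε
    have h4 := (hA θ ε α hε').eventually (gt_mem_nhds hη)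
    exact h4.mono fun p hp => hp.le
  filter_upwards [hall, ev hG] with p hp hE
  rw [Real.dist_eq, sub_zero]
  have hm := EJ_sq_ampA_le hE.law hE.i4 hE.b4 (by norm_num : (0 : ℝ) ≤ 3) (hE.opM hβ) hE.r0
    (hE.r1 hβ) hE.s0 (hE.s1 hβ) (by linarith only [hκ] : (0 : ℝ) ≤ 3 + κ) (hE.opR hκ) k
  have h5 := h3 (n p.1) p.2.m hE.npos p.2.w hE.law (fun x ξ => Aj J β k p x ξ)
    (fun x j => measurable_Aj k p x j) hm.1 hm.2 (gm β κ k p) (hE.gm0 hκ k) (hE.gmle hκ k) ?_
  · rw [abs_of_nonneg (EJ_nonneg hE.law fun x ξ => abs_nonneg _)]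
    linarith only [he, h5]
  · intro θ hθ ε hε
    have hε' : ε ∈ ({1, -1} : Finset ℝ) := by simpa using hε
    refine ⟨?_, ?_⟩
    · have := hp θ hθ ε hε' 0 (by simp)
      simpa only [Dv, ← dev_zero_eq] using this
    · have := hp θ hθ ε hε' (-(Real.pi / 2)) (by simp)
      simpa only [Dv, ← dev_pi_eq] using this

/-- the limit overlaps: `1` at level `0`, `q(g_k)` at level `k` -/
noncomputable def Qb (β κ : ℝ) : ℕ → (Σ i, JD (n i)) → ℝ
  | 0, _ => 1
  | k + 1, p => qRS (gm β κ k p)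

theorem LawA.overlap (hG : Good β F n J) (hβ : β < 1) (hκ : 0 ≤ κ) {k : ℕ}
    (hA : LawA F n J β κ C k) :
    Tendsto (fun p : Σ i, JD (n i) => EJ p.2.w (fun x ξ =>
      |Qj J β (k + 1) p x ξ - Qb β κ (k + 1) p|)) (jF F n J β κ C) (𝓝 0) := by
  have h := hA.test hG hβ hκ (f := fun _ a => Real.tanh a ^ 2) (C₁ := 1)
    (fun _ => continuous_tanh'.pow 2) (fun _ a => by
      have h1 : |Real.tanh a ^ 2| ≤ 1 := by
        rw [abs_pow]
        exact pow_le_one₀ (abs_nonneg _) (Real.abs_tanh_lt_one a).le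
      have h2 := abs_nonneg a
      linarith [h2, h1])
  refine h.congr' ?_
  filter_upwards [ev hG] with p hE
  refine EJ_congr fun x ξ => ?_
  congr 1
  have hn' : (n p.1 : ℝ) ≠ 0 := by exact_mod_cast hE.npos.ne'
  have h1 : ∀ j, NEs (fun _ a => Real.tanh a ^ 2) (gm β κ k p) (sv x j)
      = qRS (gm β κ k p) := fun j => mc_NEs_tanh_sq (hE.gm0 hκ k) (sv_eq x j)
  simp only [h1]
  rw [Finset.sum_sub_distrib, sub_div]
  unfold Qj Qb
  rw [qq_ampM_succ]
  congr 1
  simp only [Finset.sum_const, Finset.card_univ, Fintype.card_fin, nsmul_eq_mul]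
  field_simp

theorem overlap_zero (hG : Good β F n J) :
    Tendsto (fun p : Σ i, JD (n i) => EJ p.2.w (fun x ξ =>
      |Qj J β 0 p x ξ - Qb β κ 0 p|)) (jF F n J β κ C) (𝓝 0) := by
  refine tendsto_const_nhds.congr' ?_
  filter_upwards [ev hG] with p hE
  have h1 : EJ p.2.w (fun x ξ => |Qj J β 0 p x ξ - Qb β κ 0 p|)
      = EJ p.2.w (fun _ _ => (0 : ℝ)) := by
    refine EJ_congr fun x ξ => ?_
    unfold Qj Qb
    rw [qq_ampM_zero hE.npos, sub_self, abs_zero]
  rw [h1, EJ_const hE.law]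

/-- the limit of the step variances -/
noncomputable def Cb (β κ : ℝ) (k : ℕ) (p : Σ i, JD (n i)) : ℝ :=
  (β - p.2.s) ^ 2 * (Qb β κ k p - Qb β κ (k + 1) p)

lemma Qb_zero (p : Σ i, JD (n i)) : Qb β κ 0 p = 1 := rfl

lemma Qb_succ (k : ℕ) (p : Σ i, JD (n i)) : Qb β κ (k + 1) p = qRS (gm β κ k p) := rfl

lemma gm_succ' (k : ℕ) (p : Σ i, JD (n i)) : gm β κ (k + 1) p
    = β ^ 2 + p.2.s * κ - (β - p.2.s) ^ 2 * (1 - qRS (gm β κ k p)) := gam_succ β κ p.2.s k

lemma gm_sub_Cb (k : ℕ) (p : Σ i, JD (n i)) :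
    gm β κ k p - Cb β κ k p = gm β κ (k + 1) p := by
  unfold Cb
  cases k with
  | zero =>
    rw [Qb_zero, Qb_succ, gm_succ']
    have : gm β κ 0 p = β ^ 2 + p.2.s * κ := rfl
    rw [this]
  | succ k =>
    rw [Qb_succ, Qb_succ, gm_succ' (k + 1), gm_succ' k]
    ring

lemma Ev.Qb_mem {p : Σ i, JD (n i)} (h : Ev J β κ C p) (hκ : 0 ≤ κ) (k : ℕ) :
    0 ≤ Qb β κ k p ∧ Qb β κ k p ≤ 1 := by
  cases k with
  | zero => exact ⟨zero_le_one, le_rfl⟩
  | succ k => exact ⟨qRS_nonneg (h.gm0 hκ k), qRS_le_one _⟩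

lemma Ev.abs_Cb_le {p : Σ i, JD (n i)} (h : Ev J β κ C p) (hβ : β < 1) (hκ : 0 ≤ κ) (k : ℕ) :
    |Cb β κ k p| ≤ 1 := by
  unfold Cb
  have h1 : (β - p.2.s) ^ 2 ≤ 1 := pow_le_one₀ h.r0 (h.r1 hβ)
  have a := h.Qb_mem hκ k
  have b := h.Qb_mem hκ (k + 1)
  rw [abs_mul, abs_of_nonneg (sq_nonneg _)]
  refine mul_le_one₀ h1 (abs_nonneg _) ?_
  rw [abs_le]
  constructor <;> linarith [a.1, a.2, b.1, b.2]

lemma Ev.abs_Qj_le {p : Σ i, JD (n i)} (k : ℕ) (x : Cfg (n p.1)) (ξ : Fin p.2.m → ℝ) :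
    |Qj J β k p x ξ| ≤ 1 := by
  unfold Qj
  rw [abs_of_nonneg (qq_nonneg _)]
  exact qq_ampM_le _ _ _ _ _

/-- convergence of the step variances -/
theorem tendsto_C (hG : Good β F n J) (hβ : β < 1) (hκ : 0 ≤ κ) {k : ℕ}
    (h1 : Tendsto (fun p : Σ i, JD (n i) => EJ p.2.w (fun x ξ =>
      |Qj J β k p x ξ - Qb β κ k p|)) (jF F n J β κ C) (𝓝 0))
    (h2 : Tendsto (fun p : Σ i, JD (n i) => EJ p.2.w (fun x ξ =>
      |Qj J β (k + 1) p x ξ - Qb β κ (k + 1) p|)) (jF F n J β κ C) (𝓝 0)) :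
    Tendsto (fun p : Σ i, JD (n i) => EJ p.2.w (fun x ξ =>
      |Cj J β k p x ξ - Cb β κ k p|)) (jF F n J β κ C) (𝓝 0) := by
  have h3 := h1.add h2
  rw [add_zero] at h3
  refine squeeze_zero' ?_ ?_ h3
  · filter_upwards [ev hG] with p hE
    exact EJ_nonneg hE.law fun x ξ => abs_nonneg _
  · filter_upwards [ev hG] with p hE
    have hb : ∀ k, JI p.2.w (fun x ξ => |Qj J β k p x ξ - Qb β κ k p|) := fun k =>
      (JI.of_bdd hE.law (fun x => (measurable_Qj k p x).sub_const _) (C := 2) (fun x ξ => by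
        have := Ev.abs_Qj_le (J := J) (β := β) k x ξ
        have h4 := hE.Qb_mem hκ k
        refine (abs_sub _ _).trans ?_
        rw [abs_of_nonneg h4.1]
        linarith only [h4.2, this])).abs hE.law
    rw [← EJ_add (hb k) (hb (k + 1))]
    refine EJ_mono_nonneg hE.law ((hb k).add (hb (k + 1))) (fun x ξ => abs_nonneg _)
      fun x ξ => ?_
    unfold Cj cst Cb
    have e1 : (β - p.2.s) ^ 2 * (qq (ampM (Mj J β p) (β - p.2.s) (obs p.2.R p.2.s x ξ) x k)
        - qq (ampM (Mj J β p) (β - p.2.s) (obs p.2.R p.2.s x ξ) x (k + 1)))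
        - (β - p.2.s) ^ 2 * (Qb β κ k p - Qb β κ (k + 1) p)
        = (β - p.2.s) ^ 2 * ((Qj J β k p x ξ - Qb β κ k p)
          - (Qj J β (k + 1) p x ξ - Qb β κ (k + 1) p)) := by
      unfold Qj
      ring
    rw [e1, abs_mul, abs_of_nonneg (sq_nonneg _)]
    have h4 : (β - p.2.s) ^ 2 ≤ 1 := pow_le_one₀ hE.r0 (hE.r1 hβ)
    calc _ ≤ 1 * |(Qj J β k p x ξ - Qb β κ k p) - (Qj J β (k + 1) p x ξ - Qb β κ (k + 1) p)| :=
          mul_le_mul_of_nonneg_right h4 (abs_nonneg _)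
      _ ≤ _ := by rw [one_mul]; exact abs_sub _ _

/-! ### macroscopic deviations -/

/-- the deviations are jointly macroscopic -/
theorem jmac_Dv (hG : Good β F n J) (hβ : β < 1) (hκ : 0 ≤ κ) (k : ℕ) {ε : ℝ}
    (hε : ε = 1 ∨ ε = -1) (θ α : ℝ) :
    ∃ C' : ℝ, ∀ᶠ p in jF F n J β κ C, JMac p.2.R p.2.s C' (fun x ξ => Dv J β κ ε θ α k p x ξ) := by
  have hε1 : |ε| ≤ 1 := by rcases hε with rfl | rfl <;> simp
  obtain ⟨C1, hC1, h1⟩ := jmac_amp 3 (3 + κ) (1 + |θ| + θ ^ 2) (by norm_num) (by linarith only [hκ])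
    (by positivity) k
  obtain ⟨C2, hC2, h2⟩ := jmac_amp 3 (3 + κ) (1 + |(0 : ℝ)| + 0 ^ 2) (by norm_num) (by linarith only [hκ])
    (by (clear * -; positivity)) k
  refine ⟨C1 + 1 * C2, ?_⟩
  filter_upwards [ev hG] with p hE
  have j1 := h1 (n p.1) p.2.m (Mj J β p) (β - p.2.s) p.2.R p.2.s _ _ (hE.opM hβ) hE.r0 (hE.r1 hβ)
    (hE.opR hκ) hE.s0 (hE.s1 hβ) (fun e => by fun_prop) (test_cos hε1 θ α)
  have j2 := h2 (n p.1) p.2.m (Mj J β p) (β - p.2.s) p.2.R p.2.s _ _ (hE.opM hβ) hE.r0 (hE.r1 hβ)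
    (hE.opR hκ) hE.s0 (hE.s1 hβ) (fun e => by fun_prop) (test_cos hε1 0 0)
  set b : ℝ := Real.exp (-(θ ^ 2 * gm β κ k p / 2)) * Real.cos (α + θ * (gm β κ k p * ε)) with hb
  have hb1 : |b| ≤ 1 := by
    rw [hb, abs_mul, Real.abs_exp]
    have e1 : Real.exp (-(θ ^ 2 * gm β κ k p / 2)) ≤ 1 := Real.exp_le_one_iff.2 (by
      have := hE.gm0 hκ k
      have : 0 ≤ θ ^ 2 * gm β κ k p / 2 := by (clear * - this; positivity)
      linarith only [this])
    exact mul_le_one₀ e1 (abs_nonneg _) (Real.abs_cos_le_one _)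
  have j3 := jmac_sub j1 (jmac_mono (jmac_const_mul b j2)
    (mul_le_mul_of_nonneg_right hb1 hC2))
  refine jmac_congr j3 fun x ξ => ?_
  unfold Dv dev chr fr Aj
  rw [← hb]
  simp only [zero_mul, add_zero, Real.cos_zero, mul_one]
  congr 2
  refine Finset.sum_congr rfl fun j _ => ?_
  rw [add_comm (θ * _) α]


lemma Ev.JI_bdd {p : Σ i, JD (n i)} (h : Ev J β κ C p) {Φ : Cfg (n p.1) → (Fin p.2.m → ℝ) → ℝ}
    (hΦ : ∀ x, Measurable (Φ x)) {B : ℝ} (hB : ∀ x ξ, |Φ x ξ| ≤ B) : JI p.2.w Φ :=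
  JI.of_bdd h.law hΦ hB

lemma Ev.abs_Dv_le {p : Σ i, JD (n i)} (h : Ev J β κ C p) (hκ : 0 ≤ κ) {ε : ℝ}
    (hε : ε = 1 ∨ ε = -1) (θ α : ℝ) (k : ℕ) (x : Cfg (n p.1)) (ξ : Fin p.2.m → ℝ) :
    |Dv J β κ ε θ α k p x ξ| ≤ 2 := abs_dev_le hε (h.gm0 hκ k) _ _ _ _ _

/-- from the second moment to the first -/
theorem law_of_sq (hG : Good β F n J) (hκ : 0 ≤ κ) {k : ℕ}
    (h : ∀ θ ε α : ℝ, (ε = 1 ∨ ε = -1) →
      Tendsto (fun p : Σ i, JD (n i) => EJ p.2.w (fun x ξ =>
        Dv J β κ ε θ α k p x ξ * Dv J β κ ε θ α k p x ξ)) (jF F n J β κ C) (𝓝 0)) :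
    LawA F n J β κ C k := by
  intro θ ε α hε
  have h1 := (Real.continuous_sqrt.tendsto 0).comp (h θ ε α hε)
  rw [Real.sqrt_zero] at h1
  refine squeeze_zero' ?_ ?_ h1
  · filter_upwards [ev hG] with p hE
    exact EJ_nonneg hE.law fun x ξ => abs_nonneg _
  · filter_upwards [ev hG] with p hE
    have hm : ∀ x, Measurable fun ξ => |Dv J β κ ε θ α k p x ξ| := fun x =>
      (measurable_Dv ε θ α k p x).abs
    have hb : JI p.2.w (fun x ξ => |Dv J β κ ε θ α k p x ξ|) :=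
      hE.JI_bdd hm (B := 2) fun x ξ => by
        rw [abs_abs]; exact hE.abs_Dv_le hκ hε θ α k x ξ
    have hb2 : JI p.2.w (fun x ξ => |Dv J β κ ε θ α k p x ξ| ^ 2) :=
      hE.JI_bdd (fun x => (hm x).pow_const 2) (B := 4) fun x ξ => by
        have := hE.abs_Dv_le hκ hε θ α k x ξ
        rw [abs_pow, abs_abs]
        linarith only [mul_nonneg (sub_nonneg.2 this) (sub_nonneg.2 (abs_nonneg (Dv J β κ ε θ α k p x ξ))), mul_nonneg (sub_nonneg.2 this) (sub_nonneg.2 this)]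
    refine (EJ_le_sqrt hE.law hb hb2).trans (le_of_eq ?_)
    simp only [Function.comp_apply]
    congr 1
    refine EJ_congr fun x ξ => ?_
    rw [sq_abs, pow_two]

/-- the induction step -/
theorem LawA.succ (hG : Good β F n J) (hβ : β < 1) (hκ : 0 ≤ κ) (hS : StepU β) {k : ℕ}
    (hA : LawA F n J β κ C k)
    (hc : Tendsto (fun p : Σ i, JD (n i) => EJ p.2.w (fun x ξ =>
      |Cj J β k p x ξ - Cb β κ k p|)) (jF F n J β κ C) (𝓝 0)) :
    LawA F n J β κ C (k + 1) := by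
  refine law_of_sq hG hκ fun θ ε α hε => ?_
  obtain ⟨C', hC'⟩ := jmac_Dv (C := C) hG hβ hκ (k + 1) hε θ α
  have hstep := step_lift (κ := κ) (C := C) hG hβ hS k (θ := θ) hε
    (φ := fun p x ξ => Dv J β κ ε θ α (k + 1) p x ξ) (C' := C')
    (hC'.mono fun p hp => hp.meas) (hC'.mono fun p hp => hp.mac') (fun _ => α)
  have h0 := hA θ ε 0 hε
  have h1 := hA θ ε (-(Real.pi / 2)) hε
  set L : ℝ := Real.exp (θ ^ 2) * (θ ^ 2 + |θ|) with hL
  have hL0 : 0 ≤ L := by (clear * -; positivity)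
  have hsum := (((tendsto_zero_iff_abs_tendsto_zero _).1 hstep).add (hc.const_mul (2 * L))).add
    (((h0.add h1).const_mul (2 * Real.exp (θ ^ 2))))
  simp only [mul_zero, add_zero] at hsum
  refine squeeze_zero' ?_ ?_ hsum
  · filter_upwards [ev hG] with p hE
    exact EJ_nonneg hE.law fun x ξ => mul_self_nonneg _
  · filter_upwards [ev hG] with p hE
    -- notation
    set D : Cfg (n p.1) → (Fin p.2.m → ℝ) → ℝ := fun x ξ => Dv J β κ ε θ α (k + 1) p x ξ with hD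
    set S : Cfg (n p.1) → (Fin p.2.m → ℝ) → ℝ := fun x ξ =>
      Real.exp (θ ^ 2 * Cj J β k p x ξ / 2) *
        chr ε θ (α - θ * (Cj J β k p x ξ * ε)) (Aj J β k p x ξ) x
        - chr ε θ α (Aj J β (k + 1) p x ξ) x with hS'
    have hDm : ∀ x, Measurable (D x) := fun x => measurable_Dv ε θ α (k + 1) p x
    have hSm : ∀ x, Measurable (S x) := fun x => measurable_step k ε θ α p x
    have hDb : ∀ x ξ, |D x ξ| ≤ 2 := fun x ξ => hE.abs_Dv_le hκ hε θ α (k + 1) x ξ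
    have hcb : ∀ x ξ, |Cj J β k p x ξ| ≤ 1 := fun x ξ =>
      abs_cst_le _ ⟨hE.r0, hE.r1 hβ⟩ _ _ _
    have hSb : ∀ x ξ, |S x ξ| ≤ Real.exp (θ ^ 2) + 1 := fun x ξ =>
      abs_step_le hε _ _ _ (hcb x ξ) _ _ _
    -- pointwise bound
    have hpt : ∀ x ξ, D x ξ * D x ξ ≤ -(D x ξ * S x ξ)
        + (2 * L) * |Cj J β k p x ξ - Cb β κ k p|
        + (2 * Real.exp (θ ^ 2)) * (|Dv J β κ ε θ 0 k p x ξ|
          + |Dv J β κ ε θ (-(Real.pi / 2)) k p x ξ|) := by
      intro x ξ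
      set a := Aj J β k p x ξ with ha
      set c := Cj J β k p x ξ with hc'
      set cb := Cb β κ k p with hcb'
      set g := gm β κ k p with hg
      have hcbb : |cb| ≤ 1 := hE.abs_Cb_le hβ hκ k
      have e1 := deconv_dev ε θ α cb g a x
      have e2 : g - cb = gm β κ (k + 1) p := gm_sub_Cb k p
      rw [e2] at e1
      have e3 : D x ξ = -(S x ξ) + (Real.exp (θ ^ 2 * c / 2) * chr ε θ (α - θ * (c * ε)) a x
          - Real.exp (θ ^ 2 * cb / 2) * chr ε θ (α - θ * (cb * ε)) a x)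
          + Real.exp (θ ^ 2 * cb / 2) * dev ε θ (α - θ * (cb * ε)) g g a x := by
        have e4 : D x ξ = chr ε θ α (Aj J β (k + 1) p x ξ) x
            - Real.exp (-(θ ^ 2 * gm β κ (k + 1) p / 2)) *
              Real.cos (α + θ * (gm β κ (k + 1) p * ε)) * fr ε x := rfl
        have e5 : S x ξ = Real.exp (θ ^ 2 * c / 2) * chr ε θ (α - θ * (c * ε)) a x
            - chr ε θ α (Aj J β (k + 1) p x ξ) x := rfl
        rw [e4, e5]
        linarith [e1]
      have b1 := chr_lip hε θ α (hcb x ξ) hcbb a x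
      have b2 := abs_dev_le_of_phase ε θ (α - θ * (cb * ε)) g g a x
      have b3 : Real.exp (θ ^ 2 * cb / 2) ≤ Real.exp (θ ^ 2) := by
        refine Real.exp_le_exp.2 ?_
        have := (abs_le.1 hcbb).2
        linarith only [sq_nonneg θ, mul_nonneg (sub_nonneg.2 this) (sq_nonneg θ)]
      have hDx := hDb x ξ
      have f1 : D x ξ * (Real.exp (θ ^ 2 * c / 2) * chr ε θ (α - θ * (c * ε)) a x
          - Real.exp (θ ^ 2 * cb / 2) * chr ε θ (α - θ * (cb * ε)) a x)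
          ≤ (2 * L) * |c - cb| := by
        refine (le_abs_self _).trans ?_
        rw [abs_mul]
        calc _ ≤ 2 * (L * |c - cb|) := mul_le_mul hDx b1 (abs_nonneg _) (by norm_num)
          _ = _ := by ring
      have f2 : D x ξ * (Real.exp (θ ^ 2 * cb / 2) * dev ε θ (α - θ * (cb * ε)) g g a x)
          ≤ (2 * Real.exp (θ ^ 2)) * (|dev ε θ 0 g g a x| + |dev ε θ (-(Real.pi / 2)) g g a x|) := by
        refine (le_abs_self _).trans ?_
        rw [abs_mul, abs_mul, Real.abs_exp]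
        calc _ ≤ 2 * (Real.exp (θ ^ 2) * (|dev ε θ 0 g g a x|
              + |dev ε θ (-(Real.pi / 2)) g g a x|)) :=
              mul_le_mul hDx (mul_le_mul b3 b2 (abs_nonneg _) (Real.exp_pos _).le)
                (by (clear * -; positivity)) (by norm_num)
          _ = _ := by ring
      have e6 : D x ξ * D x ξ = -(D x ξ * S x ξ)
          + D x ξ * (Real.exp (θ ^ 2 * c / 2) * chr ε θ (α - θ * (c * ε)) a x
          - Real.exp (θ ^ 2 * cb / 2) * chr ε θ (α - θ * (cb * ε)) a x)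
          + D x ξ * (Real.exp (θ ^ 2 * cb / 2) * dev ε θ (α - θ * (cb * ε)) g g a x) := by
        nth_rewrite 2 [e3]
        ring
      rw [e6]
      have f3 : |dev ε θ 0 g g a x| + |dev ε θ (-(Real.pi / 2)) g g a x|
          = |Dv J β κ ε θ 0 k p x ξ| + |Dv J β κ ε θ (-(Real.pi / 2)) k p x ξ| := rfl
      rw [← f3]
      linarith only [f1, f2]
    -- integrate
    have i1 : JI p.2.w (fun x ξ => D x ξ * S x ξ) :=
      hE.JI_bdd (fun x => (hDm x).mul (hSm x)) (B := 2 * (Real.exp (θ ^ 2) + 1)) fun x ξ => by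
        rw [abs_mul]
        exact mul_le_mul (hDb x ξ) (hSb x ξ) (abs_nonneg _) (by norm_num)
    have i2 : JI p.2.w (fun x ξ => |Cj J β k p x ξ - Cb β κ k p|) :=
      hE.JI_bdd (fun x => ((measurable_Cj k p x).sub_const _).abs) (B := 2) fun x ξ => by
        rw [abs_abs]
        have := hE.abs_Cb_le hβ hκ k
        have h3 := hcb x ξ
        exact (abs_sub _ _).trans (by linarith only [h3, this])
    have i3 : ∀ α', JI p.2.w (fun x ξ => |Dv J β κ ε θ α' k p x ξ|) := fun α' =>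
      hE.JI_bdd (fun x => (measurable_Dv ε θ α' k p x).abs) (B := 2) fun x ξ => by
        rw [abs_abs]; exact hE.abs_Dv_le hκ hε θ α' k x ξ
    have i4 := (i2.cmul (2 * L))
    have i5 := ((i3 0).add (i3 (-(Real.pi / 2)))).cmul (2 * Real.exp (θ ^ 2))
    have i6 : JI p.2.w (fun x ξ => -(D x ξ * S x ξ)) := by
      have := i1.cmul (-1)
      simpa using this
    have hle := EJ_mono_nonneg hE.law ((i6.add i4).add i5) (fun x ξ => mul_self_nonneg (D x ξ)) hpt
    refine hle.trans ?_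
    rw [EJ_add (i6.add i4) i5, EJ_add i6 i4, EJ_neg, EJ_cmul, EJ_cmul,
      EJ_add (i3 0) (i3 (-(Real.pi / 2)))]
    have := neg_le_abs (EJ p.2.w (fun x ξ => D x ξ * S x ξ))
    exact add_le_add (add_le_add this le_rfl) le_rfl


/-! ### the base of the induction -/

/-- the noise at time `s` -/
theorem tendsto_J3 (θ ε : ℝ) (hε : ε = 1 ∨ ε = -1) (hβ : β < 1) (hG : Good β F n J) :
    Tendsto (fun p : Σ i, JD (n i) => EJ p.2.w (fun x ξ =>
      |(∑ j, ind ε (sv x j) * (Real.cos ((θ * √p.2.s) * p.2.R.mulVec ξ j)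
        - Real.exp (-((θ * √p.2.s) ^ 2 * κ / 2)))) / n p.1|)) (jF F n J β κ C) (𝓝 0) ∧
    Tendsto (fun p : Σ i, JD (n i) => EJ p.2.w (fun x ξ =>
      |(∑ j, ind ε (sv x j) * Real.sin ((θ * √p.2.s) * p.2.R.mulVec ξ j)) / n p.1|))
      (jF F n J β κ C) (𝓝 0) := by
  have key : ∀ e > 0, ∀ᶠ p in jF F n J β κ C,
      EJ p.2.w (fun x ξ =>
      |(∑ j, ind ε (sv x j) * (Real.cos ((θ * √p.2.s) * p.2.R.mulVec ξ j)
        - Real.exp (-((θ * √p.2.s) ^ 2 * κ / 2)))) / n p.1|) ≤ e ∧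
      EJ p.2.w (fun x ξ =>
      |(∑ j, ind ε (sv x j) * Real.sin ((θ * √p.2.s) * p.2.R.mulVec ξ j)) / n p.1|) ≤ e := by
    intro e he
    have hη : 0 < min e (1 / (|θ| + 1)) := by
      have : 0 < |θ| + 1 := by positivity
      positivity
    filter_upwards [jF_hyp (F := F) (n := n) (J := J) (β := β) (κ := κ) (C := C) hη] with p hp
    obtain ⟨hs, η', h0, h1, hJ⟩ := hp
    have hs1 : √p.2.s ≤ 1 := Real.sqrt_le_one.2 (by linarith only [hs.2, hβ])
    have h2 : |θ * √p.2.s| ≤ 1 / η' := by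
      have h3 : |θ * √p.2.s| ≤ |θ| := by
        rw [abs_mul, abs_of_nonneg (Real.sqrt_nonneg _)]
        exact mul_le_of_le_one_right (abs_nonneg _) hs1
      have h4 : η' ≤ 1 / (|θ| + 1) := h1.trans (min_le_right _ _)
      have h5 : |θ| + 1 ≤ 1 / η' := by
        rw [le_div_iff₀ h0]
        rw [le_div_iff₀ (by positivity)] at h4
        linarith
      linarith
    exact ⟨(hJ.J3c _ ε h2 hε).trans (h1.trans (min_le_left _ _)),
      (hJ.J3s _ ε h2 hε).trans (h1.trans (min_le_left _ _))⟩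
  constructor
  · rw [Metric.tendsto_nhds]
    intro e he
    filter_upwards [key (e / 2) (by linarith only [he]), ev hG] with p hp hE
    rw [Real.dist_eq, sub_zero, abs_of_nonneg (EJ_nonneg hE.law fun x ξ => abs_nonneg _)]
    linarith only [hp.1, he]
  · rw [Metric.tendsto_nhds]
    intro e he
    filter_upwards [key (e / 2) (by linarith), ev hG] with p hp hE
    rw [Real.dist_eq, sub_zero, abs_of_nonneg (EJ_nonneg hE.law fun x ξ => abs_nonneg _)]
    linarith only [hp.2, he]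

/-- the first field -/
lemma Ev.Aj_zero {p : Σ i, JD (n i)} (h : Ev J β κ C p) (x : Cfg (n p.1)) (ξ : Fin p.2.m → ℝ)
    (j : Fin (n p.1)) :
    Aj J β 0 p x ξ j = (β • J p.1).mulVec (sv x) j
      + (p.2.s * κ * sv x j + √p.2.s * p.2.R.mulVec ξ j) := by
  unfold Aj Mj
  simp only [ampA]
  unfold obs
  rw [h.hR, Matrix.add_mulVec, Matrix.smul_mulVec, Matrix.smul_mulVec, Matrix.smul_mulVec,
    Matrix.one_mulVec]
  simp only [Pi.add_apply, Pi.smul_apply, smul_eq_mul]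
  ring

/-- the law of the first field -/
theorem LawA.zero (hG : Good β F n J) (hβ : β < 1) (hκ : 0 ≤ κ) (hB : BaseU β) :
    LawA F n J β κ C 0 := by
  refine law_of_sq hG hκ fun θ ε α hε => ?_
  obtain ⟨C', hC'⟩ := jmac_Dv (C := C) hG hβ hκ 0 hε θ α
  have hbase := base_lift (κ := κ) (C := C) hG hB (θ := θ) hε
    (φ := fun p x ξ => Dv J β κ ε θ α 0 p x ξ) (C' := C')
    (hC'.mono fun p hp => hp.meas) (hC'.mono fun p hp => hp.mac)
    (fun p ξ j => α + θ * (p.2.s * κ * ε + √p.2.s * p.2.R.mulVec ξ j))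
    (fun p j => (((measurable_mulVec_apply p.2.R j).const_mul _).const_add _
      |>.const_mul _).const_add _)
  obtain ⟨h3c, h3s⟩ := tendsto_J3 (κ := κ) (C := C) θ ε hε hβ hG
  have hsum := ((tendsto_zero_iff_abs_tendsto_zero _).1 hbase).add ((h3c.add h3s).const_mul 2)
  simp only [mul_zero, add_zero] at hsum
  refine squeeze_zero' ?_ ?_ hsum
  · filter_upwards [ev hG] with p hE
    exact EJ_nonneg hE.law fun x ξ => mul_self_nonneg _
  · filter_upwards [ev hG] with p hE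
    set D : Cfg (n p.1) → (Fin p.2.m → ℝ) → ℝ := fun x ξ => Dv J β κ ε θ α 0 p x ξ with hD
    set αξ : (Fin p.2.m → ℝ) → Vec (n p.1) := fun ξ j =>
      α + θ * (p.2.s * κ * ε + √p.2.s * p.2.R.mulVec ξ j) with hαξ
    set X : Cfg (n p.1) → (Fin p.2.m → ℝ) → ℝ := fun x ξ =>
      (∑ j, ind ε (sv x j) * Real.cos (αξ ξ j + θ * (β • J p.1).mulVec (sv x) j)) / n p.1
            - Real.exp (-(θ ^ 2 * β ^ 2 / 2)) *
              ((∑ j, ind ε (sv x j) * Real.cos (αξ ξ j + θ * (β ^ 2 * ε))) / n p.1) with hX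
    set Y : Cfg (n p.1) → (Fin p.2.m → ℝ) → ℝ := fun x ξ =>
      (∑ j, ind ε (sv x j) * (Real.cos ((θ * √p.2.s) * p.2.R.mulVec ξ j)
        - Real.exp (-((θ * √p.2.s) ^ 2 * κ / 2)))) / n p.1 with hY
    set Z : Cfg (n p.1) → (Fin p.2.m → ℝ) → ℝ := fun x ξ =>
      (∑ j, ind ε (sv x j) * Real.sin ((θ * √p.2.s) * p.2.R.mulVec ξ j)) / n p.1 with hZ
    have hss : √p.2.s * √p.2.s = p.2.s := Real.mul_self_sqrt hE.s0
    -- decomposition
    have hdec : ∀ x ξ, D x ξ = X x ξ + Real.exp (-(θ ^ 2 * β ^ 2 / 2)) *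
        (Real.cos (α + θ * ((β ^ 2 + p.2.s * κ) * ε)) * Y x ξ
          - Real.sin (α + θ * ((β ^ 2 + p.2.s * κ) * ε)) * Z x ξ) := by
      intro x ξ
      have e1 : chr ε θ α (Aj J β 0 p x ξ) x
          = (∑ j, ind ε (sv x j) * Real.cos (αξ ξ j + θ * (β • J p.1).mulVec (sv x) j))
            / n p.1 := by
        unfold chr
        congr 1
        refine Finset.sum_congr rfl fun j _ => ?_
        rcases ind_eq hε x j with h | h
        · rw [h.1, zero_mul, zero_mul]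
        · congr 2
          rw [hE.Aj_zero x ξ j, h.2]
          simp only [hαξ]
          ring
      have e2 : (∑ j, ind ε (sv x j) * Real.cos (αξ ξ j + θ * (β ^ 2 * ε))) / n p.1
          = Real.cos (α + θ * ((β ^ 2 + p.2.s * κ) * ε)) * Y x ξ
            - Real.sin (α + θ * ((β ^ 2 + p.2.s * κ) * ε)) * Z x ξ
            + Real.cos (α + θ * ((β ^ 2 + p.2.s * κ) * ε)) *
              (Real.exp (-((θ * √p.2.s) ^ 2 * κ / 2)) * fr ε x) := by
        simp only [hY, hZ, fr]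
        rw [← mul_div_assoc, ← mul_div_assoc, ← mul_div_assoc, ← mul_div_assoc, ← sub_div,
          ← add_div]
        congr 1
        rw [Finset.mul_sum, Finset.mul_sum, Finset.mul_sum, Finset.mul_sum,
          ← Finset.sum_sub_distrib, ← Finset.sum_add_distrib]
        refine Finset.sum_congr rfl fun j _ => ?_
        have e3 : αξ ξ j + θ * (β ^ 2 * ε) = (α + θ * ((β ^ 2 + p.2.s * κ) * ε))
            + (θ * √p.2.s) * p.2.R.mulVec ξ j := by
          simp only [hαξ]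
          ring
        rw [e3, Real.cos_add]
        ring
      have e4 : Real.exp (-(θ ^ 2 * gm β κ 0 p / 2))
          = Real.exp (-(θ ^ 2 * β ^ 2 / 2)) * Real.exp (-((θ * √p.2.s) ^ 2 * κ / 2)) := by
        rw [← Real.exp_add]
        congr 1
        have : gm β κ 0 p = β ^ 2 + p.2.s * κ := rfl
        rw [this, mul_pow, Real.sq_sqrt hE.s0]
        ring
      have e5 : gm β κ 0 p = β ^ 2 + p.2.s * κ := rfl
      have e6 : D x ξ = chr ε θ α (Aj J β 0 p x ξ) x
            - Real.exp (-(θ ^ 2 * gm β κ 0 p / 2)) *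
              Real.cos (α + θ * (gm β κ 0 p * ε)) * fr ε x := rfl
      rw [e6, e1, e4, e5]
      simp only [hX]
      rw [e2]
      ring
    have hDm : ∀ x, Measurable (D x) := fun x => measurable_Dv ε θ α 0 p x
    have hDb : ∀ x ξ, |D x ξ| ≤ 2 := fun x ξ => hE.abs_Dv_le hκ hε θ α 0 x ξ
    have hbm : ∀ j, Measurable fun ξ : Fin p.2.m → ℝ => p.2.R.mulVec ξ j := fun j =>
      measurable_mulVec_apply p.2.R j
    have hYm : ∀ x, Measurable (Y x) := fun x =>
      (Finset.measurable_fun_sum _ fun j _ =>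
        ((Real.measurable_cos.comp ((hbm j).const_mul _)).sub_const _).const_mul _).div_const _
    have hZm : ∀ x, Measurable (Z x) := fun x =>
      (Finset.measurable_fun_sum _ fun j _ =>
        (Real.measurable_sin.comp ((hbm j).const_mul _)).const_mul _).div_const _
    have hαm : ∀ j, Measurable fun ξ => αξ ξ j := fun j =>
      ((((hbm j).const_mul _).const_add _).const_mul _).const_add _
    have hXm : ∀ x, Measurable (X x) := fun x => by
      refine ((Finset.measurable_fun_sum _ fun j _ => ?_).div_const _).sub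
        (((Finset.measurable_fun_sum _ fun j _ => ?_).div_const _).const_mul _)
      · exact (Real.measurable_cos.comp ((hαm j).add_const _)).const_mul _
      · exact (Real.measurable_cos.comp ((hαm j).add_const _)).const_mul _
    have hexp1 : ∀ u : ℝ, 0 ≤ u → Real.exp (-u) ≤ 1 := fun u hu =>
      Real.exp_le_one_iff.2 (by linarith only [hu])
    have hYb : ∀ x ξ, |Y x ξ| ≤ 2 := fun x ξ =>
      abs_avg_le (by norm_num) fun j => by
        rw [abs_mul]
        have h1 := abs_ind_le hε x j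
        have h2 : |Real.cos ((θ * √p.2.s) * p.2.R.mulVec ξ j)
            - Real.exp (-((θ * √p.2.s) ^ 2 * κ / 2))| ≤ 2 := by
          refine (abs_sub _ _).trans ?_
          rw [Real.abs_exp]
          have h3 := Real.abs_cos_le_one ((θ * √p.2.s) * p.2.R.mulVec ξ j)
          have h4 := hexp1 ((θ * √p.2.s) ^ 2 * κ / 2) (by (clear * - hκ; positivity))
          linarith only [h3, h4]
        calc _ ≤ 1 * 2 := mul_le_mul h1 h2 (abs_nonneg _) zero_le_one
          _ = 2 := one_mul _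
    have hZb : ∀ x ξ, |Z x ξ| ≤ 1 := fun x ξ =>
      abs_avg_le zero_le_one fun j => by
        rw [abs_mul]
        exact mul_le_one₀ (abs_ind_le hε x j) (abs_nonneg _) (Real.abs_sin_le_one _)
    have hXb : ∀ x ξ, |X x ξ| ≤ 2 := fun x ξ => by
      have b1 : ∀ u : Vec (n p.1),
          |(∑ j, ind ε (sv x j) * Real.cos (u j)) / n p.1| ≤ 1 := fun u =>
        abs_avg_le zero_le_one fun j => by
          rw [abs_mul]
          exact mul_le_one₀ (abs_ind_le hε x j) (abs_nonneg _) (Real.abs_cos_le_one _)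
      refine (abs_sub _ _).trans ?_
      rw [abs_mul, Real.abs_exp]
      have b2 := b1 (fun j => αξ ξ j + θ * (β • J p.1).mulVec (sv x) j)
      have b3 := b1 (fun j => αξ ξ j + θ * (β ^ 2 * ε))
      have b4 := mul_le_one₀ (hexp1 (θ ^ 2 * β ^ 2 / 2) (by (clear * -; positivity))) (abs_nonneg _) b3
      linarith only [b4, b2]
    have hpt : ∀ x ξ, D x ξ * D x ξ ≤ D x ξ * X x ξ + 2 * (|Y x ξ| + |Z x ξ|) := by
      intro x ξ
      have e7 : D x ξ * D x ξ = D x ξ * X x ξ + D x ξ * (Real.exp (-(θ ^ 2 * β ^ 2 / 2)) *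
        (Real.cos (α + θ * ((β ^ 2 + p.2.s * κ) * ε)) * Y x ξ
          - Real.sin (α + θ * ((β ^ 2 + p.2.s * κ) * ε)) * Z x ξ)) := by
        nth_rewrite 2 [hdec x ξ]
        ring
      rw [e7]
      have e8 : |Real.cos (α + θ * ((β ^ 2 + p.2.s * κ) * ε)) * Y x ξ
          - Real.sin (α + θ * ((β ^ 2 + p.2.s * κ) * ε)) * Z x ξ| ≤ |Y x ξ| + |Z x ξ| := by
        refine (abs_sub _ _).trans ?_
        rw [abs_mul, abs_mul]
        exact add_le_add (mul_le_of_le_one_left (abs_nonneg _) (Real.abs_cos_le_one _))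
          (mul_le_of_le_one_left (abs_nonneg _) (Real.abs_sin_le_one _))
      have e9 : D x ξ * (Real.exp (-(θ ^ 2 * β ^ 2 / 2)) *
        (Real.cos (α + θ * ((β ^ 2 + p.2.s * κ) * ε)) * Y x ξ
          - Real.sin (α + θ * ((β ^ 2 + p.2.s * κ) * ε)) * Z x ξ)) ≤ 2 * (|Y x ξ| + |Z x ξ|) := by
        refine (le_abs_self _).trans ?_
        rw [abs_mul, abs_mul, Real.abs_exp]
        calc _ ≤ 2 * (1 * (|Y x ξ| + |Z x ξ|)) :=
              mul_le_mul (hDb x ξ) (mul_le_mul (hexp1 _ (by (clear * -; positivity))) e8 (abs_nonneg _)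
                zero_le_one) (by (clear * -; positivity)) (by norm_num)
          _ = _ := by ring
      linarith only [e9]
    have i1 : JI p.2.w (fun x ξ => D x ξ * X x ξ) :=
      hE.JI_bdd (fun x => (hDm x).mul (hXm x)) (B := 4) fun x ξ => by
        rw [abs_mul]
        calc |D x ξ| * |X x ξ| ≤ 2 * 2 := mul_le_mul (hDb x ξ) (hXb x ξ) (abs_nonneg _)
              (by norm_num)
          _ = 4 := by norm_num
    have i2 : JI p.2.w (fun x ξ => |Y x ξ|) :=
      hE.JI_bdd (fun x => (hYm x).abs) (B := 2) fun x ξ => by rw [abs_abs]; exact hYb x ξ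
    have i3 : JI p.2.w (fun x ξ => |Z x ξ|) :=
      hE.JI_bdd (fun x => (hZm x).abs) (B := 1) fun x ξ => by rw [abs_abs]; exact hZb x ξ
    have i4 := (i2.add i3).cmul 2
    have hle := EJ_mono_nonneg hE.law (i1.add i4) (fun x ξ => mul_self_nonneg (D x ξ)) hpt
    refine hle.trans ?_
    rw [EJ_add i1 i4, EJ_cmul, EJ_add i2 i3]
    exact add_le_add (le_abs_self _) le_rfl

/-- the laws and the overlaps at all levels -/
theorem law_all (hG : Good β F n J) (hβ : β < 1) (hκ : 0 ≤ κ) (hS : StepU β) (hB : BaseU β)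
    (k : ℕ) : LawA F n J β κ C k ∧
      Tendsto (fun p : Σ i, JD (n i) => EJ p.2.w (fun x ξ =>
        |Qj J β k p x ξ - Qb β κ k p|)) (jF F n J β κ C) (𝓝 0) := by
  induction k with
  | zero => exact ⟨LawA.zero hG hβ hκ hB, overlap_zero hG⟩
  | succ k ih =>
    have h1 := ih.1.overlap hG hβ hκ
    exact ⟨ih.1.succ hG hβ hκ hS (tendsto_C hG hβ hκ ih.2 h1), h1⟩

end

/-- D3b, laws of the AMP fields -/
theorem d3bA_of {β κ : ℝ} (hβ : β < 1) (hκ : 0 ≤ κ) (hS : StepU β) (hB : BaseU β) :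
    D3bA β κ := by
  intro I F n J hG f C₁ hf hC C k e he
  have h := (law_all (C := C) hG hβ hκ hS hB k).1.test hG hβ hκ hf hC
  obtain ⟨η, hη, h1⟩ := jF_unif (X := fun i d => EJ d.w (fun x ξ =>
      |(∑ j, (f (sv x j) (Aj J β k ⟨i, d⟩ x ξ j) - NEs f (gm β κ k ⟨i, d⟩) (sv x j))) / n i|))
    h he
  refine ⟨η, hη, h1.mono fun i hi m R s w hs hw => ?_⟩
  exact (le_abs_self _).trans (hi m R s w hs hw)

/-- D3b from the two cube-level inputs and the law of the zero-field local fields -/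
theorem d3b_of (hS : ∀ β : ℝ, 0 ≤ β → β < 1 → StepU β) (hB : ∀ β : ℝ, 0 ≤ β → β < 1 → BaseU β)
    (hH : ∀ β κ : ℝ, 0 ≤ β → β < 1 → 4 ≤ κ → D3bH β κ) : D3bStatement := by
  intro β κ hβ0 hβ hκ
  have hκ0 : 0 ≤ κ := by linarith only [hκ]
  have hA : D3bA β κ := d3bA_of hβ hκ0 (hS β hβ0 hβ) (hB β hβ0 hβ)
  exact ⟨D3bQ_of_A hκ0 hA, hA, hH β κ hβ0 hβ hκ, d3bB β κ hκ0⟩

end Vale.Agent.P150.F.D3
end
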