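import Mathlib
import Vale.Agent.P150.Bdl.B22
import Vale.Agent.P150.Bdl.B26
import Vale.Agent.P150.Bdl.B6
import Vale.Agent.P150.Bdl.B17
import Vale.Agent.P150.Bdl.B16
import Vale.Agent.P150.Bdl.B25
import Vale.Agent.P150.Bdl.B27
import Vale.Agent.P150.Bdl.B21
import Vale.Agent.P150.Bdl.B1
import Vale.Agent.P150.Bdl.B8
import Vale.Agent.P150.Bdl.B28

set_option linter.all false

section

/-! P150-FULL, module D2: the kernel `f^c(a,b)`: bounds, derivatives, the identity, Taylor bounds,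
discrete chain rule. -/

open Finset MeasureTheory intervalIntegral

namespace Vale.Agent.P150.F.D2

open St

/-! ### One-parameter integrals -/

/-- differentiation of `∫ w e^{p + t q}` in `t` -/
lemma hasDerivAt_expInt {w p q : ℝ → ℝ} (hw : Continuous w) (hp : Continuous p)
    (hq : Continuous q) (t : ℝ) :
    HasDerivAt (fun t => ∫ s in (-1 : ℝ)..1, w s * Real.exp (p s + t * q s))
      (∫ s in (-1 : ℝ)..1, w s * q s * Real.exp (p s + t * q s)) t := by
  have h := hasDerivAt_integral_of_dominated_loc_of_deriv_le (μ := volume) (a := -1) (b := 1)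
    (F := fun t s => w s * Real.exp (p s + t * q s))
    (F' := fun t s => w s * q s * Real.exp (p s + t * q s)) (x₀ := t)
    (s := Metric.ball t 1) (bound := fun s => |w s * q s| * Real.exp (|p s| + (|t| + 1) * |q s|))
    (Metric.ball_mem_nhds t one_pos)
    (Filter.Eventually.of_forall fun t => by
      exact (Continuous.aestronglyMeasurable (by fun_prop)))
    (Continuous.intervalIntegrable (by fun_prop) _ _)
    (Continuous.aestronglyMeasurable (by fun_prop))
    (Filter.Eventually.of_forall fun s _ x hx => by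
      rw [Real.norm_eq_abs, abs_mul, abs_of_pos (Real.exp_pos _)]
      refine mul_le_mul_of_nonneg_left (Real.exp_le_exp.mpr ?_) (abs_nonneg _)
      have hx' : |x| ≤ |t| + 1 := by
        rw [Metric.mem_ball, Real.dist_eq] at hx
        have := abs_sub_abs_le_abs_sub x t
        linarith only [this, hx]
      have h1 : x * q s ≤ (|t| + 1) * |q s| := by
        calc x * q s ≤ |x * q s| := le_abs_self _
          _ = |x| * |q s| := abs_mul _ _
          _ ≤ _ := mul_le_mul_of_nonneg_right hx' (abs_nonneg _)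
      linarith only [le_abs_self (p s), h1])
    (Continuous.intervalIntegrable (by fun_prop) _ _)
    (Filter.Eventually.of_forall fun s _ x _ => by
      have h1 : HasDerivAt (fun x => p s + x * q s) (q s) x := by
        simpa using ((hasDerivAt_id x).mul_const (q s)).const_add (p s)
      exact ((h1.exp).const_mul (w s)).congr_deriv (by ring))
  exact h.2

/-- the moment integrals `∫_{-1}^1 s^k e^{-c s²/2 - s u} ds` -/
noncomputable def Ik (k : ℕ) (c u : ℝ) : ℝ :=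
  ∫ s in (-1 : ℝ)..1, s ^ k * Real.exp (-(c * s ^ 2 / 2) - s * u)

lemma hasDerivAt_Ik_u (k : ℕ) (c u : ℝ) :
    HasDerivAt (fun u => Ik k c u) (-Ik (k + 1) c u) u := by
  have h := hasDerivAt_expInt (w := fun s => s ^ k) (p := fun s => -(c * s ^ 2 / 2))
    (q := fun s => -s) (by fun_prop) (by fun_prop) (by fun_prop) u
  have e1 : (fun u => Ik k c u) =
      fun t => ∫ s in (-1 : ℝ)..1, s ^ k * Real.exp (-(c * s ^ 2 / 2) + t * -s) := by
    funext t
    unfold Ik
    congr 1; funext s; congr 2; ring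
  have e2 : -Ik (k + 1) c u =
      ∫ s in (-1 : ℝ)..1, s ^ k * -s * Real.exp (-(c * s ^ 2 / 2) + u * -s) := by
    unfold Ik
    rw [← intervalIntegral.integral_neg]
    congr 1; funext s
    rw [show -(c * s ^ 2 / 2) - s * u = -(c * s ^ 2 / 2) + u * -s by ring]
    ring
  rw [e1, e2]
  exact h

lemma hasDerivAt_Ik_c (k : ℕ) (c u : ℝ) :
    HasDerivAt (fun c => Ik k c u) (-(1 / 2) * Ik (k + 2) c u) c := by
  have h := hasDerivAt_expInt (w := fun s => s ^ k) (p := fun s => -(s * u))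
    (q := fun s => -(s ^ 2 / 2)) (by fun_prop) (by fun_prop) (by fun_prop) c
  have e1 : (fun c => Ik k c u) =
      fun t => ∫ s in (-1 : ℝ)..1, s ^ k * Real.exp (-(s * u) + t * -(s ^ 2 / 2)) := by
    funext t
    unfold Ik
    congr 1; funext s; congr 2; ring
  have e2 : -(1 / 2) * Ik (k + 2) c u =
      ∫ s in (-1 : ℝ)..1, s ^ k * -(s ^ 2 / 2) * Real.exp (-(s * u) + c * -(s ^ 2 / 2)) := by
    unfold Ik
    rw [← intervalIntegral.integral_const_mul]
    congr 1; funext s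
    rw [show -(c * s ^ 2 / 2) - s * u = -(s * u) + c * -(s ^ 2 / 2) by ring]
    ring
  rw [e1, e2]
  exact h

lemma abs_Ik_le (k : ℕ) (c u : ℝ) : |Ik k c u| ≤ 2 * Real.exp (|c| / 2 + |u|) := by
  unfold Ik
  rw [← Real.norm_eq_abs]
  refine (intervalIntegral.norm_integral_le_of_norm_le_const
    (C := Real.exp (|c| / 2 + |u|)) fun s hs => ?_).trans_eq ?_
  · rw [Set.uIoc_of_le (by norm_num)] at hs
    have hs1 : |s| ≤ 1 := abs_le.mpr ⟨hs.1.le, hs.2⟩
    rw [Real.norm_eq_abs, abs_mul, abs_pow, abs_of_pos (Real.exp_pos _)]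
    have h1 : |s| ^ k ≤ 1 := pow_le_one₀ (abs_nonneg s) hs1
    have h2 : -(c * s ^ 2 / 2) - s * u ≤ |c| / 2 + |u| := by
      have a1 : -(c * s ^ 2 / 2) ≤ |c| / 2 := by
        have : s ^ 2 ≤ 1 := by rw [← sq_abs]; exact pow_le_one₀ (abs_nonneg s) hs1
        have b1 : -c * s ^ 2 ≤ |c| * s ^ 2 :=
          mul_le_mul_of_nonneg_right (neg_le_abs c) (sq_nonneg s)
        have b2 : |c| * s ^ 2 ≤ |c| * 1 := mul_le_mul_of_nonneg_left this (abs_nonneg c)
        linarith only [b1, b2]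
      have a2 : -(s * u) ≤ |u| := by
        calc -(s * u) ≤ |s * u| := neg_le_abs _
          _ = |s| * |u| := abs_mul _ _
          _ ≤ 1 * |u| := mul_le_mul_of_nonneg_right hs1 (abs_nonneg _)
          _ = |u| := one_mul _
      linarith only [a1, a2]
    calc |s| ^ k * Real.exp (-(c * s ^ 2 / 2) - s * u)
        ≤ 1 * Real.exp (|c| / 2 + |u|) :=
          mul_le_mul h1 (Real.exp_le_exp.mpr h2) (Real.exp_pos _).le zero_le_one
      _ = _ := one_mul _
  · norm_num; ring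

/-- `u I_0 + c I_1 = 2 e^{-c/2} sinh u` -/
lemma Ik_ident (c u : ℝ) :
    u * Ik 0 c u + c * Ik 1 c u = 2 * Real.exp (-c / 2) * Real.sinh u := by
  have h : ∀ s : ℝ, HasDerivAt (fun s => -Real.exp (-(c * s ^ 2 / 2) - s * u))
      (u * (s ^ 0 * Real.exp (-(c * s ^ 2 / 2) - s * u)) +
        c * (s ^ 1 * Real.exp (-(c * s ^ 2 / 2) - s * u))) s := by
    intro s
    have h1 : HasDerivAt (fun s : ℝ => -(c * s ^ 2 / 2) - s * u) (-(c * s) - u) s := by
      have a1 : HasDerivAt (fun s : ℝ => s ^ 2) (2 * s) s := by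
        simpa using hasDerivAt_pow 2 s
      have a2 := (((a1.const_mul c).div_const 2).neg).sub ((hasDerivAt_id s).mul_const u)
      exact a2.congr_deriv (by ring)
    exact h1.exp.neg.congr_deriv (by ring)
  have hint := integral_eq_sub_of_hasDerivAt (a := -1) (b := 1) (fun s _ => h s)
    (Continuous.intervalIntegrable (by fun_prop) _ _)
  rw [intervalIntegral.integral_add (Continuous.intervalIntegrable (by fun_prop) _ _)
    (Continuous.intervalIntegrable (by fun_prop) _ _), intervalIntegral.integral_const_mul,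
    intervalIntegral.integral_const_mul] at hint
  unfold Ik
  rw [hint, Real.sinh_eq]
  have e1 : -(c * (1 : ℝ) ^ 2 / 2) - 1 * u = -c / 2 + -u := by ring
  have e2 : -(c * (-1 : ℝ) ^ 2 / 2) - -1 * u = -c / 2 + u := by ring
  rw [e1, e2, Real.exp_add, Real.exp_add]
  ring

/-! ### The functions `g_k` -/

/-- `g_k(c,a,b) = I_k(c,a-b)/(cosh a cosh b)` -/
noncomputable def gk (k : ℕ) (c a b : ℝ) : ℝ := Ik k c (a - b) / (Real.cosh a * Real.cosh b)

lemma exp_abs_le_cosh (a : ℝ) : Real.exp |a| ≤ 2 * Real.cosh a := by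
  rw [← Real.cosh_abs, Real.cosh_eq]
  have := Real.exp_pos (-|a|)
  linarith only [this]

lemma abs_gk_le (k : ℕ) (c a b : ℝ) : |gk k c a b| ≤ 8 * Real.exp (|c| / 2) := by
  unfold gk
  have ha := Real.cosh_pos a
  have hb := Real.cosh_pos b
  rw [abs_div, abs_of_pos (mul_pos ha hb), div_le_iff₀ (mul_pos ha hb)]
  refine (abs_Ik_le k c (a - b)).trans ?_
  have h1 : Real.exp |a - b| ≤ (2 * Real.cosh a) * (2 * Real.cosh b) := by
    calc Real.exp |a - b| ≤ Real.exp (|a| + |b|) := Real.exp_le_exp.mpr (abs_sub a b)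
      _ = Real.exp |a| * Real.exp |b| := Real.exp_add _ _
      _ ≤ _ := mul_le_mul (exp_abs_le_cosh a) (exp_abs_le_cosh b) (Real.exp_pos _).le
          (by positivity)
  rw [Real.exp_add]
  have h2 := Real.exp_pos (|c| / 2)
  linarith [mul_nonneg (sub_nonneg.2 h1) (le_of_lt (sub_pos.2 h2))]

lemma hasDerivAt_gk_a (k : ℕ) (c a b : ℝ) :
    HasDerivAt (fun a => gk k c a b) (-gk (k + 1) c a b - Real.tanh a * gk k c a b) a := by
  have ha := (Real.cosh_pos a).ne'
  have hb := (Real.cosh_pos b).ne'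
  have h1 : HasDerivAt (fun a => Ik k c (a - b)) (-Ik (k + 1) c (a - b)) a :=
    (hasDerivAt_Ik_u k c (a - b)).comp_sub_const a b
  have h2 := h1.div ((Real.hasDerivAt_cosh a).mul_const (Real.cosh b)) (mul_ne_zero ha hb)
  refine h2.congr_deriv ?_
  unfold gk
  rw [Real.tanh_eq_sinh_div_cosh]
  field_simp

lemma hasDerivAt_gk_b (k : ℕ) (c a b : ℝ) :
    HasDerivAt (fun b => gk k c a b) (gk (k + 1) c a b - Real.tanh b * gk k c a b) b := by
  have ha := (Real.cosh_pos a).ne'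
  have hb := (Real.cosh_pos b).ne'
  have h1 : HasDerivAt (fun b => Ik k c (a - b)) (Ik (k + 1) c (a - b)) b :=
    ((hasDerivAt_Ik_u k c (a - b)).comp_const_sub a b).congr_deriv (neg_neg _)
  have h2 := h1.div ((Real.hasDerivAt_cosh b).const_mul (Real.cosh a)) (mul_ne_zero ha hb)
  refine h2.congr_deriv ?_
  unfold gk
  rw [Real.tanh_eq_sinh_div_cosh]
  field_simp

lemma hasDerivAt_gk_c (k : ℕ) (c a b : ℝ) :
    HasDerivAt (fun c => gk k c a b) (-(1 / 2) * gk (k + 2) c a b) c := by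
  have h := (hasDerivAt_Ik_c k c (a - b)).div_const (Real.cosh a * Real.cosh b)
  refine h.congr_deriv ?_
  unfold gk
  ring

/-! ### The class of functions -/

/-- functions of `(c, a, b)` generated by constants, `tanh a`, `tanh b`, `e^{c/2}`, `g_k` -/
inductive FG : (ℝ → ℝ → ℝ → ℝ) → Prop
  | cst (r : ℝ) : FG fun _ _ _ => r
  | ta : FG fun _ a _ => Real.tanh a
  | tb : FG fun _ _ b => Real.tanh b
  | ec : FG fun c _ _ => Real.exp (c / 2)
  | g (k : ℕ) : FG (gk k)
  | add {f h : ℝ → ℝ → ℝ → ℝ} : FG f → FG h → FG fun c a b => f c a b + h c a b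
  | mul {f h : ℝ → ℝ → ℝ → ℝ} : FG f → FG h → FG fun c a b => f c a b * h c a b

namespace FG

variable {f h : ℝ → ℝ → ℝ → ℝ}

lemma neg (hf : FG f) : FG fun c a b => -f c a b := by
  have := (FG.cst (-1)).mul hf
  simpa using this

lemma sub (hf : FG f) (hh : FG h) : FG fun c a b => f c a b - h c a b := by
  simpa [sub_eq_add_neg] using hf.add hh.neg

/-- boundedness for bounded `c` -/
theorem bdd (hf : FG f) (C : ℝ) : ∃ K, 0 ≤ K ∧ ∀ c a b, |c| ≤ C → |f c a b| ≤ K := by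
  induction hf with
  | cst r => exact ⟨|r|, abs_nonneg _, fun _ _ _ _ => le_rfl⟩
  | ta => exact ⟨1, zero_le_one, fun _ a _ _ => (Real.abs_tanh_lt_one a).le⟩
  | tb => exact ⟨1, zero_le_one, fun _ _ b _ => (Real.abs_tanh_lt_one b).le⟩
  | ec =>
    refine ⟨Real.exp (C / 2), (Real.exp_pos _).le, fun c _ _ hc => ?_⟩
    rw [abs_of_pos (Real.exp_pos _)]
    exact Real.exp_le_exp.mpr (by linarith [le_abs_self c])
  | g k =>
    refine ⟨8 * Real.exp (C / 2), by positivity, fun c a b hc => (abs_gk_le k c a b).trans ?_⟩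
    gcongr
  | add _ _ h1 h2 =>
    obtain ⟨K1, p1, q1⟩ := h1
    obtain ⟨K2, p2, q2⟩ := h2
    exact ⟨K1 + K2, by positivity, fun c a b hc =>
      (abs_add_le _ _).trans (add_le_add (q1 c a b hc) (q2 c a b hc))⟩
  | mul _ _ h1 h2 =>
    obtain ⟨K1, p1, q1⟩ := h1
    obtain ⟨K2, p2, q2⟩ := h2
    exact ⟨K1 * K2, by positivity, fun c a b hc => by
      rw [abs_mul]; exact mul_le_mul (q1 c a b hc) (q2 c a b hc) (abs_nonneg _) p1⟩

end FG

/-- `f` has the partial derivatives `fc`, `fa`, `fb` -/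
structure Par (f fc fa fb : ℝ → ℝ → ℝ → ℝ) : Prop where
  dc : ∀ c a b, HasDerivAt (fun c => f c a b) (fc c a b) c
  da : ∀ c a b, HasDerivAt (fun a => f c a b) (fa c a b) a
  db : ∀ c a b, HasDerivAt (fun b => f c a b) (fb c a b) b

/-- the class is closed under partial derivatives -/
theorem FG.par {f : ℝ → ℝ → ℝ → ℝ} (hf : FG f) :
    ∃ fc fa fb, FG fc ∧ FG fa ∧ FG fb ∧ Par f fc fa fb := by
  have h0 := FG.cst 0
  induction hf with
  | cst r => exact ⟨_, _, _, h0, h0, h0, fun _ _ _ => hasDerivAt_const _ _,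
      fun _ _ _ => hasDerivAt_const _ _, fun _ _ _ => hasDerivAt_const _ _⟩
  | ta =>
    refine ⟨_, fun _ a _ => 1 - Real.tanh a * Real.tanh a, _, h0,
      (FG.cst 1).sub (FG.ta.mul FG.ta), h0, fun _ _ _ => hasDerivAt_const _ _,
      fun _ a _ => ?_, fun _ _ _ => hasDerivAt_const _ _⟩
    rw [← pow_two]; exact hasDerivAt_tanh' a
  | tb =>
    refine ⟨_, _, fun _ _ b => 1 - Real.tanh b * Real.tanh b, h0, h0,
      (FG.cst 1).sub (FG.tb.mul FG.tb), fun _ _ _ => hasDerivAt_const _ _,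
      fun _ _ _ => hasDerivAt_const _ _, fun _ _ b => ?_⟩
    rw [← pow_two]; exact hasDerivAt_tanh' b
  | ec =>
    refine ⟨fun c _ _ => Real.exp (c / 2) * (1 / 2), _, _, FG.ec.mul (FG.cst (1 / 2)), h0, h0,
      fun c _ _ => ?_, fun _ _ _ => hasDerivAt_const _ _, fun _ _ _ => hasDerivAt_const _ _⟩
    exact ((hasDerivAt_id c).div_const 2).exp
  | g k =>
    exact ⟨_, _, _, (FG.cst (-(1 / 2))).mul (FG.g (k + 2)),
      ((FG.g (k + 1)).neg).sub (FG.ta.mul (FG.g k)), (FG.g (k + 1)).sub (FG.tb.mul (FG.g k)),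
      fun c a b => hasDerivAt_gk_c k c a b, fun c a b => hasDerivAt_gk_a k c a b,
      fun c a b => hasDerivAt_gk_b k c a b⟩
  | add hf hh h1 h2 =>
    obtain ⟨fc, fa, fb, p1, p2, p3, P⟩ := h1
    obtain ⟨gc, ga, gb, q1, q2, q3, Q⟩ := h2
    exact ⟨_, _, _, p1.add q1, p2.add q2, p3.add q3, fun c a b => (P.dc c a b).add (Q.dc c a b),
      fun c a b => (P.da c a b).add (Q.da c a b), fun c a b => (P.db c a b).add (Q.db c a b)⟩
  | mul hf hh h1 h2 =>
    obtain ⟨fc, fa, fb, p1, p2, p3, P⟩ := h1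
    obtain ⟨gc, ga, gb, q1, q2, q3, Q⟩ := h2
    exact ⟨_, _, _, (p1.mul hh).add (hf.mul q1), (p2.mul hh).add (hf.mul q2),
      (p3.mul hh).add (hf.mul q3), fun c a b => (P.dc c a b).mul (Q.dc c a b),
      fun c a b => (P.da c a b).mul (Q.da c a b), fun c a b => (P.db c a b).mul (Q.db c a b)⟩

/-- uniqueness of the partial derivatives -/
theorem Par.unique {f fc fa fb gc ga gb : ℝ → ℝ → ℝ → ℝ} (P : Par f fc fa fb)
    (Q : Par f gc ga gb) : fc = gc ∧ fa = ga ∧ fb = gb :=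
  ⟨funext fun c => funext fun a => funext fun b => (P.dc c a b).unique (Q.dc c a b),
   funext fun c => funext fun a => funext fun b => (P.da c a b).unique (Q.da c a b),
   funext fun c => funext fun a => funext fun b => (P.db c a b).unique (Q.db c a b)⟩

/-! ### Lipschitz and Taylor bounds -/

/-- one-dimensional mean value bound -/
lemma mv_le {g g' : ℝ → ℝ} (hg : ∀ x, HasDerivAt g (g' x) x) {x y K : ℝ}
    (hK : ∀ z ∈ Set.uIcc x y, |g' z| ≤ K) : |g y - g x| ≤ K * |y - x| := by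
  have := Convex.norm_image_sub_le_of_norm_hasDerivWithin_le (s := Set.uIcc x y) (f := g)
    (f' := g') (C := K) (x := x) (y := y) (fun z _ => (hg z).hasDerivWithinAt)
    (fun z hz => by rw [Real.norm_eq_abs]; exact hK z hz) (convex_uIcc x y)
    Set.left_mem_uIcc Set.right_mem_uIcc
  simpa [Real.norm_eq_abs] using this

lemma abs_le_of_uIcc {x y z C : ℝ} (hx : |x| ≤ C) (hy : |y| ≤ C) (hz : z ∈ Set.uIcc x y) :
    |z| ≤ C := by
  have h1 : Set.uIcc x y ⊆ Set.Icc (-C) C :=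
    Set.uIcc_subset_Icc (abs_le.mp hx) (abs_le.mp hy)
  exact abs_le.mpr (h1 hz)

lemma abs_sub_le_of_uIcc {x y z : ℝ} (hz : z ∈ Set.uIcc x y) : |z - x| ≤ |y - x| := by
  rcases le_total x y with h | h
  · rw [Set.uIcc_of_le h] at hz
    rw [abs_of_nonneg (sub_nonneg.mpr hz.1), abs_of_nonneg (sub_nonneg.mpr h)]
    linarith [hz.2]
  · rw [Set.uIcc_of_ge h] at hz
    rw [abs_of_nonpos (sub_nonpos.mpr hz.2), abs_of_nonpos (sub_nonpos.mpr h)]
    linarith [hz.1]

/-- one-dimensional Taylor bound -/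
lemma taylor_le {g g' g'' : ℝ → ℝ} (hg : ∀ x, HasDerivAt g (g' x) x)
    (hg' : ∀ x, HasDerivAt g' (g'' x) x) {x y K : ℝ} (hK0 : 0 ≤ K)
    (hK : ∀ z ∈ Set.uIcc x y, |g'' z| ≤ K) :
    |g y - g x - g' x * (y - x)| ≤ K * |y - x| ^ 2 := by
  have h1 : ∀ z, HasDerivAt (fun z => g z - g' x * z) (g' z - g' x) z := by
    intro z
    exact ((hg z).sub ((hasDerivAt_id z).const_mul (g' x))).congr_deriv (by ring)
  have h2 := mv_le h1 (x := x) (y := y) (K := K * |y - x|) (fun z hz => by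
    refine (mv_le hg' (x := x) (y := z) (K := K) fun w hw => hK w ?_).trans ?_
    · exact Set.uIcc_subset_uIcc_left hz hw
    · exact mul_le_mul_of_nonneg_left (abs_sub_le_of_uIcc hz) hK0)
  have e : g y - g x - g' x * (y - x) = g y - g' x * y - (g x - g' x * x) := by ring
  rw [e]
  refine h2.trans_eq (by ring)

/-- Lipschitz bound for functions of the class -/
theorem FG.lip {f : ℝ → ℝ → ℝ → ℝ} (hf : FG f) (C : ℝ) : ∃ K, 0 ≤ K ∧
    ∀ c a b c' a' b', |c| ≤ C → |c'| ≤ C →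
      |f c' a' b' - f c a b| ≤ K * (|c' - c| + |a' - a| + |b' - b|) := by
  obtain ⟨fc, fa, fb, h1, h2, h3, P⟩ := hf.par
  obtain ⟨K1, p1, q1⟩ := h1.bdd C
  obtain ⟨K2, p2, q2⟩ := h2.bdd C
  obtain ⟨K3, p3, q3⟩ := h3.bdd C
  refine ⟨K1 + K2 + K3, by (clear * - p1 p2 p3; positivity), fun c a b c' a' b' hc hc' => ?_⟩
  have r1 : |f c' a' b' - f c a' b'| ≤ K1 * |c' - c| :=
    mv_le (fun z => P.dc z a' b') fun z hz => q1 _ _ _ (abs_le_of_uIcc hc hc' hz)
  have r2 : |f c a' b' - f c a b'| ≤ K2 * |a' - a| :=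
    mv_le (fun z => P.da c z b') fun z _ => q2 _ _ _ hc
  have r3 : |f c a b' - f c a b| ≤ K3 * |b' - b| :=
    mv_le (fun z => P.db c a z) fun z _ => q3 _ _ _ hc
  have e : f c' a' b' - f c a b = (f c' a' b' - f c a' b') + (f c a' b' - f c a b') +
      (f c a b' - f c a b) := by ring
  rw [e]
  refine ((abs_add_le _ _).trans (add_le_add_left (abs_add_le _ _) _)).trans ?_
  have s1 := abs_nonneg (c' - c)
  have s2 := abs_nonneg (a' - a)
  have s3 := abs_nonneg (b' - b)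
  linarith only [r1, r2, r3, mul_nonneg p1 s2, mul_nonneg p1 s3, mul_nonneg p2 s1, mul_nonneg p2 s3, mul_nonneg p3 s1, mul_nonneg p3 s2]

/-- second order Taylor bound for functions of the class -/
theorem FG.taylor {f fc fa fb : ℝ → ℝ → ℝ → ℝ} (hf : FG f) (P : Par f fc fa fb) (C : ℝ) :
    ∃ K, 0 ≤ K ∧ ∀ c a b c' a' b', |c| ≤ C → |c'| ≤ C →
      |f c' a' b' - f c a b -
        (fc c a b * (c' - c) + fa c a b * (a' - a) + fb c a b * (b' - b))| ≤
        K * (|c' - c| + |a' - a| + |b' - b|) ^ 2 := by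
  obtain ⟨gc, ga, gb, h1, h2, h3, Q⟩ := hf.par
  obtain ⟨e1, e2, e3⟩ := P.unique Q
  subst e1 e2 e3
  obtain ⟨_, _, _, k1, _, _, P1⟩ := h1.par
  obtain ⟨_, _, _, _, k2, _, P2⟩ := h2.par
  obtain ⟨_, _, _, _, _, k3, P3⟩ := h3.par
  obtain ⟨K1, p1, q1⟩ := k1.bdd C
  obtain ⟨K2, p2, q2⟩ := k2.bdd C
  obtain ⟨K3, p3, q3⟩ := k3.bdd C
  obtain ⟨L1, l1, m1⟩ := h1.lip C
  obtain ⟨L2, l2, m2⟩ := h2.lip C
  refine ⟨K1 + K2 + K3 + L1 + L2, by (clear * - p1 p2 p3 l1 l2; positivity), fun c a b c' a' b' hc hc' => ?_⟩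
  have r1 : |f c' a' b' - f c a' b' - fc c a' b' * (c' - c)| ≤ K1 * |c' - c| ^ 2 :=
    taylor_le (fun z => P.dc z a' b') (fun z => P1.dc z a' b') p1
      fun z hz => q1 _ _ _ (abs_le_of_uIcc hc hc' hz)
  have r2 : |f c a' b' - f c a b' - fa c a b' * (a' - a)| ≤ K2 * |a' - a| ^ 2 :=
    taylor_le (fun z => P.da c z b') (fun z => P2.da c z b') p2 fun z _ => q2 _ _ _ hc
  have r3 : |f c a b' - f c a b - fb c a b * (b' - b)| ≤ K3 * |b' - b| ^ 2 :=
    taylor_le (fun z => P.db c a z) (fun z => P3.db c a z) p3 fun z _ => q3 _ _ _ hc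
  have r4 : |fc c a' b' - fc c a b| ≤ L1 * (|a' - a| + |b' - b|) := by
    have := m1 c a b c a' b' hc hc
    simpa using this
  have r5 : |fa c a b' - fa c a b| ≤ L2 * |b' - b| := by
    have := m2 c a b c a b' hc hc
    simpa using this
  set x := |c' - c| with hx
  set y := |a' - a| with hy
  set z := |b' - b| with hz
  have x0 : 0 ≤ x := abs_nonneg _
  have y0 : 0 ≤ y := abs_nonneg _
  have z0 : 0 ≤ z := abs_nonneg _
  have r6 : |(fc c a' b' - fc c a b) * (c' - c)| ≤ L1 * (y + z) * x := by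
    rw [abs_mul]; exact mul_le_mul_of_nonneg_right r4 x0
  have r7 : |(fa c a b' - fa c a b) * (a' - a)| ≤ L2 * z * y := by
    rw [abs_mul]; exact mul_le_mul_of_nonneg_right r5 y0
  have e : f c' a' b' - f c a b -
        (fc c a b * (c' - c) + fa c a b * (a' - a) + fb c a b * (b' - b)) =
      (f c' a' b' - f c a' b' - fc c a' b' * (c' - c)) +
      (f c a' b' - f c a b' - fa c a b' * (a' - a)) +
      (f c a b' - f c a b - fb c a b * (b' - b)) +
      (fc c a' b' - fc c a b) * (c' - c) + (fa c a b' - fa c a b) * (a' - a) := by ring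
  rw [e]
  have t1 : x ^ 2 ≤ (x + y + z) ^ 2 := by
    apply pow_le_pow_left₀ x0; linarith only [z0, y0]
  have t2 : y ^ 2 ≤ (x + y + z) ^ 2 := by
    apply pow_le_pow_left₀ y0; linarith only [z0, x0]
  have t3 : z ^ 2 ≤ (x + y + z) ^ 2 := by
    apply pow_le_pow_left₀ z0; linarith only [x0, y0]
  have xy := mul_nonneg x0 y0
  have xz := mul_nonneg x0 z0
  have yz := mul_nonneg y0 z0
  have t4 : (y + z) * x ≤ (x + y + z) ^ 2 := by (by_contra nlg; linarith only [mul_nonneg (sq_nonneg (x : ℝ)) (sub_nonneg.2 xy), mul_nonneg (sq_nonneg (x : ℝ)) (sub_nonneg.2 xz), mul_nonneg (sq_nonneg (x + y + z : ℝ)) (le_of_lt (sub_pos.2 (not_le.1 nlg))), mul_pos (sub_pos.2 (not_le.1 nlg)) (sub_pos.2 (not_le.1 nlg)), mul_nonneg (le_of_lt (sub_pos.2 (not_le.1 nlg))) (sub_nonneg.2 t1), mul_nonneg (sub_nonneg.2 t1) (sub_nonneg.2 t1)])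
  have t5 : z * y ≤ (x + y + z) ^ 2 := by (by_contra nlg; linarith only [nlg, mul_nonneg (sub_nonneg.2 xz) (sub_nonneg.2 yz), mul_nonneg (sub_nonneg.2 xz) (sub_nonneg.2 xz), mul_nonneg (sub_nonneg.2 t3) (sub_nonneg.2 t3), mul_nonneg (le_of_lt (sub_pos.2 (not_le.1 nlg))) (sub_nonneg.2 t4), mul_nonneg (le_of_lt (sub_pos.2 (not_le.1 nlg))) (sub_nonneg.2 xz), mul_nonneg (le_of_lt (sub_pos.2 (not_le.1 nlg))) (sub_nonneg.2 xy), mul_nonneg (le_of_lt (sub_pos.2 (not_le.1 nlg))) (sub_nonneg.2 t3), mul_pos (sub_pos.2 (not_le.1 nlg)) (sub_pos.2 (not_le.1 nlg)), mul_nonneg (sq_nonneg (z : ℝ)) (sub_nonneg.2 yz), mul_nonneg (sq_nonneg (z : ℝ)) (sub_nonneg.2 xz)])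
  calc _ ≤ K1 * x ^ 2 + K2 * y ^ 2 + K3 * z ^ 2 + L1 * (y + z) * x + L2 * z * y := by
        refine (abs_add_le _ _).trans (add_le_add ?_ r7)
        refine (abs_add_le _ _).trans (add_le_add ?_ r6)
        refine (abs_add_le _ _).trans (add_le_add ?_ r3)
        exact (abs_add_le _ _).trans (add_le_add r1 r2)
    _ ≤ K1 * (x + y + z) ^ 2 + K2 * (x + y + z) ^ 2 + K3 * (x + y + z) ^ 2 +
        L1 * (x + y + z) ^ 2 + L2 * (x + y + z) ^ 2 := by
        rw [mul_assoc L1, mul_assoc L2]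
        gcongr
    _ = _ := by ring

/-! ### The kernel -/

lemma ker_eq (c a b : ℝ) : ker c a b = Real.exp (c / 2) / 2 * gk 0 c a b := by
  unfold ker gk Ik
  simp only [pow_zero, one_mul]
  rw [mul_div_assoc]

/-- `∂_c f^c` -/
noncomputable def kerC (c a b : ℝ) : ℝ :=
  Real.exp (c / 2) / 2 * ((1 / 2) * gk 0 c a b - (1 / 2) * gk 2 c a b)
/-- `∂_a f^c` -/
noncomputable def kerA (c a b : ℝ) : ℝ :=
  Real.exp (c / 2) / 2 * (-gk 1 c a b - Real.tanh a * gk 0 c a b)
/-- `∂_b f^c` -/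
noncomputable def kerB (c a b : ℝ) : ℝ :=
  Real.exp (c / 2) / 2 * (gk 1 c a b - Real.tanh b * gk 0 c a b)

lemma FG_exp2 : FG fun c _ _ => Real.exp (c / 2) / 2 := by
  have := FG.ec.mul (FG.cst (1 / 2))
  simpa [div_eq_mul_inv] using this

theorem FG_ker : FG ker := by
  have h : ker = fun c a b => Real.exp (c / 2) / 2 * gk 0 c a b := by
    funext c a b; exact ker_eq c a b
  rw [h]; exact FG_exp2.mul (FG.g 0)

theorem FG_kerC : FG kerC :=
  FG_exp2.mul (((FG.cst (1 / 2)).mul (FG.g 0)).sub ((FG.cst (1 / 2)).mul (FG.g 2)))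
theorem FG_kerA : FG kerA := FG_exp2.mul (((FG.g 1).neg).sub (FG.ta.mul (FG.g 0)))
theorem FG_kerB : FG kerB := FG_exp2.mul ((FG.g 1).sub (FG.tb.mul (FG.g 0)))

theorem par_ker : Par ker kerC kerA kerB := by
  refine ⟨fun c a b => ?_, fun c a b => ?_, fun c a b => ?_⟩
  · have h1 : HasDerivAt (fun c : ℝ => Real.exp (c / 2) / 2) (Real.exp (c / 2) * (1 / 2) / 2) c :=
      (((hasDerivAt_id c).div_const 2).exp).div_const 2
    have h2 := h1.mul (hasDerivAt_gk_c 0 c a b)
    have e : (fun c => ker c a b) = fun c => Real.exp (c / 2) / 2 * gk 0 c a b := by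
      funext c; exact ker_eq c a b
    rw [e]
    refine h2.congr_deriv ?_
    unfold kerC
    ring
  · have h2 := (hasDerivAt_gk_a 0 c a b).const_mul (Real.exp (c / 2) / 2)
    have e : (fun a => ker c a b) = fun a => Real.exp (c / 2) / 2 * gk 0 c a b := by
      funext a; exact ker_eq c a b
    rw [e]
    exact h2
  · have h2 := (hasDerivAt_gk_b 0 c a b).const_mul (Real.exp (c / 2) / 2)
    have e : (fun b => ker c a b) = fun b => Real.exp (c / 2) / 2 * gk 0 c a b := by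
      funext b; exact ker_eq c a b
    rw [e]
    exact h2

/-- the identity for the kernel -/
theorem ker_ident (c a b : ℝ) :
    (a - b - c * Real.tanh a) * ker c a b - c * kerA c a b = Real.tanh a - Real.tanh b := by
  have ha := (Real.cosh_pos a).ne'
  have hb := (Real.cosh_pos b).ne'
  rw [ker_eq]
  unfold kerA
  have h := Ik_ident c (a - b)
  have e1 : (a - b - c * Real.tanh a) * (Real.exp (c / 2) / 2 * gk 0 c a b) -
      c * (Real.exp (c / 2) / 2 * (-gk 1 c a b - Real.tanh a * gk 0 c a b)) =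
      Real.exp (c / 2) / 2 * (((a - b) * Ik 0 c (a - b) + c * Ik 1 c (a - b)) /
        (Real.cosh a * Real.cosh b)) := by
    unfold gk; ring
  rw [e1, h, Real.tanh_eq_sinh_div_cosh, Real.tanh_eq_sinh_div_cosh, Real.sinh_sub]
  have h2 : Real.exp (c / 2) * Real.exp (-(c / 2)) = 1 := by
    rw [← Real.exp_add, add_neg_cancel, Real.exp_zero]
  rw [neg_div 2 c]
  field_simp
  linear_combination (Real.sinh a * Real.cosh b - Real.cosh a * Real.sinh b) * h2

/-! ### The discrete chain rule -/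

/-! ### Packaged constants -/

/-- one constant for everything about the kernel, `|c| ≤ C` -/
theorem ker_const (C : ℝ) : ∃ K : ℝ, 0 ≤ K ∧
    (∀ c a b, |c| ≤ C → |ker c a b| ≤ K ∧ |kerC c a b| ≤ K ∧ |kerA c a b| ≤ K ∧
      |kerB c a b| ≤ K) ∧
    (∀ c a b c' a' b', |c| ≤ C → |c'| ≤ C →
      |ker c' a' b' - ker c a b| ≤ K * (|c' - c| + |a' - a| + |b' - b|) ∧
      |kerA c' a' b' - kerA c a b| ≤ K * (|c' - c| + |a' - a| + |b' - b|) ∧
      |kerB c' a' b' - kerB c a b| ≤ K * (|c' - c| + |a' - a| + |b' - b|)) ∧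
    (∀ c a b c' a' b', |c| ≤ C → |c'| ≤ C →
      |ker c' a' b' - ker c a b -
        (kerC c a b * (c' - c) + kerA c a b * (a' - a) + kerB c a b * (b' - b))| ≤
        K * (|c' - c| + |a' - a| + |b' - b|) ^ 2) := by
  obtain ⟨K1, p1, q1⟩ := FG_ker.bdd C
  obtain ⟨K2, p2, q2⟩ := FG_kerC.bdd C
  obtain ⟨K3, p3, q3⟩ := FG_kerA.bdd C
  obtain ⟨K4, p4, q4⟩ := FG_kerB.bdd C
  obtain ⟨L1, r1, s1⟩ := FG_ker.lip C
  obtain ⟨L2, r2, s2⟩ := FG_kerA.lip C
  obtain ⟨L3, r3, s3⟩ := FG_kerB.lip C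
  obtain ⟨N, n0, hN⟩ := FG_ker.taylor par_ker C
  refine ⟨K1 + K2 + K3 + K4 + L1 + L2 + L3 + N, by (clear * - p1 p2 p3 p4 r1 r2 r3 n0; positivity), fun c a b hc => ?_,
    fun c a b c' a' b' hc hc' => ?_, fun c a b c' a' b' hc hc' => ?_⟩
  · exact ⟨(q1 c a b hc).trans (by linarith only [n0, r3, r2, r1, p4, p3, p2]), (q2 c a b hc).trans (by linarith only [n0, r3, r2, r1, p4, p3, p1]),
      (q3 c a b hc).trans (by linarith), (q4 c a b hc).trans (by linarith only [n0, r3, r2, r1, p3, p2, p1])⟩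
  · exact ⟨(s1 c a b c' a' b' hc hc').trans (by gcongr; linarith only [n0, r3, r2, p4, p3, p2, p1]),
      (s2 c a b c' a' b' hc hc').trans (by gcongr; linarith),
      (s3 c a b c' a' b' hc hc').trans (by gcongr; linarith only [n0, r2, r1, p4, p3, p2, p1])⟩
  · exact (hN c a b c' a' b' hc hc').trans (by gcongr; linarith)

end Vale.Agent.P150.F.D2
end

section

/-!
# D2: the induction step `P_k ⇒ H_{k+1}`
-/

open Filter Topology
open scoped Matrix

namespace Vale.Agent.P150.F.D2.Ind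

variable {ι : Type} {F : Filter ι} {d : ι → Dat}

theorem dg_mul_dg {n : ℕ} (a b : Vec n) : dg a * dg b = dg (fun j => a j * b j) := by
  unfold dg; exact Matrix.diagonal_mul_diagonal _ _

theorem ob_mul_dg {K : ∀ i, Cfg (d i).n → Mat (d i).n} (hK : OB F d K) {p : Fld d}
    (hp : EB F d p) : OB F d (fun i x => K i x * dg (p i x)) := by
  obtain ⟨C, hC0, hC⟩ := hK
  obtain ⟨D, hD⟩ := hp
  refine ⟨C * |D|, by positivity, ?_⟩
  filter_upwards [hC, hD] with i h1 h2 x v
  rw [← Matrix.mulVec_mulVec]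
  refine (h1 x _).trans ?_
  rw [mul_pow, sq_abs, mul_assoc]
  exact mul_le_mul_of_nonneg_left (sq_dg_le (h2 x) v) (sq_nonneg _)

theorem trN_dg_eq {n : ℕ} (a : Vec n) : trN (dg a) = (∑ j, a j) / n := by
  unfold trN dg
  simp

theorem abs_trN_dg_le {n : ℕ} {a : Vec n} {C : ℝ} (hC : 0 ≤ C) (h : ∀ j, |a j| ≤ C) :
    |trN (dg a)| ≤ C := by
  rw [trN_dg_eq, abs_div, Nat.abs_cast]
  refine div_n_le hC ((Finset.abs_sum_le_sum_abs _ _).trans ?_)
  calc ∑ j, |a j| ≤ ∑ _j : Fin n, C := Finset.sum_le_sum fun j _ => h j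
    _ = C * n := by simp [mul_comm]

theorem DK_succ' (d : Dat) (x : Cfg d.n) {k : ℕ} (hk : 1 ≤ k) :
    d.DK x (k + 1) = d.Xi x k * dg (d.f x (k + 1)) := by
  obtain ⟨k, rfl⟩ : ∃ j, k = j + 1 := ⟨k - 1, by omega⟩
  exact DK_succ _ _ _ _ _ _

theorem m_eq_tanh (d : Dat) (x : Cfg d.n) {k : ℕ} (hk : 1 ≤ k) (j : Fin d.n) :
    d.m x k j = Real.tanh (d.a x k j) := by
  obtain ⟨k, rfl⟩ : ∃ j, k = j + 1 := ⟨k - 1, by omega⟩
  exact m_succ _ _ _ _

/-- the algebraic identity behind the induction step -/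
theorem ip_ker (d : Dat) (x : Cfg d.n) {k : ℕ} (hk : 1 ≤ k) (G : Vec d.n) :
    ip (d.a x k - d.a x (k + 1) - d.c x k • d.m x k) (fun j => d.f x (k + 1) j * G j)
      = ip (d.m x k - d.m x (k + 1)) G
        + d.c x k * ∑ j, G j * kerA (d.c x k) (d.a x k j) (d.a x (k + 1) j) := by
  unfold ip
  rw [Finset.mul_sum, ← Finset.sum_add_distrib]
  refine Finset.sum_congr rfl fun j _ => ?_
  have h1 := ker_ident (d.c x k) (d.a x k j) (d.a x (k + 1) j)
  have h2 := m_eq_tanh d x hk j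
  have h3 := m_eq_tanh d x (show 1 ≤ k + 1 by omega) j
  have h4 : d.f x (k + 1) j = ker (d.c x k) (d.a x k j) (d.a x (k + 1) j) := rfl
  simp only [Pi.sub_apply, Pi.smul_apply, smul_eq_mul]
  rw [h2, h3, h4]
  linear_combination (G j) * h1

/-- `P_k ⇒ H_{k+1}` -/
theorem HH_succ (hp : ∀ i, IsProb (d i).ν) (hop : OpB F d) (hL4 : L4 F d) (hT3 : T3 F d)
    (hT3' : T3' F d) {k : ℕ} (hk : 1 ≤ k) (hX : XX F d k) (hP : PP F d k)
    {pf : ℕ → Fld d} (hf : Loc F d {k, k + 1} (fun i x => (d i).f x (k + 1)) pf)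
    (hpf : pf k = fun i x j => kerA ((d i).c x k) ((d i).a x k j) ((d i).a x (k + 1) j)) :
    HH F d (k + 1) := by
  intro G hG
  set f : Fld d := fun i x => (d i).f x (k + 1) with hfdef
  set w : Fld d := fm f G with hw
  have hwTF : TF F d w := hf.1.fm hG
  have hP' := hP w hwTF
  have hs1 : ∀ l ∈ ({k, k + 1} : Finset ℕ), 1 ≤ l := by
    intro l hl
    simp only [Finset.mem_insert, Finset.mem_singleton] at hl
    omega
  have hk1 : k ∈ ({k, k + 1} : Finset ℕ) := by simp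
  have hk2 : k + 1 ∈ ({k, k + 1} : Finset ℕ) := by simp
  have hl4 : L4s F d f := hf.l4 hop hL4 hs1
  -- E1: product rule
  have E1 : UZ F d (fun i x => trN ((d i).Xi x k * DD (w i) x)
      - (trN ((d i).Xi x k * dg (f i x) * DD (G i) x)
        + trN ((d i).Xi x k * dg (G i x) * DD (f i) x))) := by
    refine (UZ.trN_mul (xi_ob hop k) (DA.fm_aux hl4 hG)).congr fun i x => ?_
    rw [Matrix.mul_sub, trN_sub, Matrix.mul_add, trN_add, Matrix.mul_assoc, Matrix.mul_assoc]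
  -- E2: the derivative of `f`
  have E2 := Loc.trN (ob_mul_dg (xi_ob hop k) hG.1) hf
  -- E3, E4: word laws
  have E3 := hT3 k hk (fm G (pf k)) (hG.1.fm (hf.2.1 k hk1))
  have E4 := hT3' k (k + 1) hk (Nat.lt_succ_self k) (fm G (pf (k + 1)))
    (hG.1.fm (hf.2.1 (k + 1) hk2))
  -- E5: `χ_k ≈ c_k`
  obtain ⟨B, hB⟩ := hG.1.fm (hf.2.1 k hk1)
  have E5 : Tendsto (EE d fun i x => ((d i).chi x k - (d i).c x k)
      * trN (dg (fm G (pf k) i x))) F (𝓝 0) := by
    refine tendsto_EE_of_abs_le hp (C := |B|) hX ?_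
    filter_upwards [hB] with i hi x
    rw [abs_mul, mul_comm]
    refine mul_le_mul_of_nonneg_right ?_ (abs_nonneg _)
    exact abs_trN_dg_le (abs_nonneg B) fun j => (hi x j).trans (le_abs_self B)
  refine tendsto_EE_congr hp (tendsto_EE_add hP' E5) ?_
  refine (((E1.add E2).add E3).add E4).congr fun i x => ?_
  have hsum : ∑ l ∈ ({k, k + 1} : Finset ℕ),
      trN ((d i).Xi x k * dg (G i x) * dg (pf l i x) * (d i).MM x l)
      = trN ((d i).Xi x k * dg (fm G (pf k) i x) * (d i).MM x k)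
        + trN ((d i).Xi x k * dg (fm G (pf (k + 1)) i x) * (d i).MM x (k + 1)) := by
    rw [Finset.sum_pair (by omega)]
    have e : ∀ l, (d i).Xi x k * dg (G i x) * dg (pf l i x)
        = (d i).Xi x k * dg (fm G (pf l) i x) := by
      intro l
      rw [Matrix.mul_assoc, dg_mul_dg]
      rfl
    rw [e, e]
  rw [hsum]
  have hid := ip_ker (d i) x hk (G i x)
  have hw' : w i x = fun j => (d i).f x (k + 1) j * G i x j := rfl
  have hdk := DK_succ' (d i) x hk
  have htr : trN (dg (fm G (pf k) i x))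
      = (∑ j, G i x j * kerA ((d i).c x k) ((d i).a x k j) ((d i).a x (k + 1) j)) / (d i).n := by
    rw [trN_dg_eq, hpf]
    rfl
  rw [hw', hid, hdk, htr]
  show ip ((d i).m x (k + 1 - 1) - (d i).m x (k + 1)) (G i x) / (d i).n
      - trN ((d i).Xi x k * dg ((d i).f x (k + 1)) * DD (G i) x) - _ = _
  have hk' : k + 1 - 1 = k := rfl
  rw [hk']
  have hfi : f i x = (d i).f x (k + 1) := rfl
  rw [hfi]
  ring

end Vale.Agent.P150.F.D2.Ind
end

section

/-!
# D2: local fields from Taylor bounds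
-/

open Filter Topology
open scoped Matrix

namespace Vale.Agent.P150.F.D2

section Fixed

variable {n : ℕ}

/-- the discrete derivative at `x` through the flipped configuration -/
theorem dd_flip (m : Fin n) (f : Cfg n → ℝ) (x : Cfg n) :
    dd m f x = sp (x m) * ((f x - f (Function.update x m (!x m))) / 2) := by
  unfold dd
  cases h : x m with
  | true =>
    have e1 : Function.update x m true = x := by rw [← h, Function.update_eq_self]
    rw [e1]
    simp [sp]
  | false =>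
    have e1 : Function.update x m false = x := by rw [← h, Function.update_eq_self]
    rw [e1]
    simp [sp]
    ring

theorem abs_sub_flip (m : Fin n) (f : Cfg n → ℝ) (x : Cfg n) :
    |f (Function.update x m (!x m)) - f x| = 2 * |dd m f x| := by
  rw [dd_flip, abs_mul, abs_sp, one_mul, abs_div, abs_sub_comm, abs_of_pos (two_pos : (0:ℝ) < 2)]
  ring

theorem taylor_entry {s : Finset ℕ} {W : Cfg n → Vec n} {P : ℕ → Vec n} {A : ℕ → Cfg n → Vec n}
    {φ : Cfg n → ℝ} {B : ℝ} {x : Cfg n}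
    (hT : ∀ z j, |W z j - W x j - ∑ l ∈ s, P l j * (A l z j - A l x j)| ≤
      B * ∑ l ∈ s, (A l z j - A l x j) ^ 2 + B * |φ z - φ x|) (j m : Fin n) :
    |DD W x j m - ∑ l ∈ s, P l j * DD (A l) x j m| ≤
      2 * B * ∑ l ∈ s, DD (A l) x j m ^ 2 + B * |dd m φ x| := by
  have h1 := hT (Function.update x m (!x m)) j
  have e1 : DD W x j m = dd m (fun z => W z j) x := rfl
  have e2 : ∀ l, DD (A l) x j m = dd m (fun z => A l z j) x := fun l => rfl
  have e3 : DD W x j m - ∑ l ∈ s, P l j * DD (A l) x j m =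
      -(sp (x m) / 2) * (W (Function.update x m (!x m)) j - W x j -
        ∑ l ∈ s, P l j * (A l (Function.update x m (!x m)) j - A l x j)) := by
    have h3 : ∑ l ∈ s, P l j * DD (A l) x j m = ∑ l ∈ s, (-(sp (x m) / 2)) *
        (P l j * (A l (Function.update x m (!x m)) j - A l x j)) := by
      refine Finset.sum_congr rfl fun l _ => ?_
      rw [e2, dd_flip]
      ring
    rw [h3, ← Finset.mul_sum, e1, dd_flip]
    ring
  rw [e3, abs_mul, abs_neg, abs_div, abs_sp, abs_of_pos (two_pos : (0:ℝ) < 2)]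
  have h2 : ∀ l ∈ s, (A l (Function.update x m (!x m)) j - A l x j) ^ 2 =
      4 * DD (A l) x j m ^ 2 := by
    intro l _
    rw [e2, ← sq_abs, abs_sub_flip m (fun z => A l z j) x, mul_pow, sq_abs]
    ring
  rw [Finset.sum_congr rfl h2, ← Finset.mul_sum, abs_sub_flip m φ x] at h1
  linarith only [h1]

theorem hsq_taylor {s : Finset ℕ} {W : Cfg n → Vec n} {P : ℕ → Vec n} {A : ℕ → Cfg n → Vec n}
    {φ : Cfg n → ℝ} {B : ℝ} {x : Cfg n}
    (hT : ∀ z j, |W z j - W x j - ∑ l ∈ s, P l j * (A l z j - A l x j)| ≤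
      B * ∑ l ∈ s, (A l z j - A l x j) ^ 2 + B * |φ z - φ x|) :
    hsq (DD W x - ∑ l ∈ s, dg (P l) * DD (A l) x) ≤
      8 * B ^ 2 * s.card * ∑ l ∈ s, (∑ j, ∑ m, DD (A l) x j m ^ 4) +
        2 * B ^ 2 * (n * gsq φ x) := by
  have h1 : ∀ j m, (DD W x - ∑ l ∈ s, dg (P l) * DD (A l) x) j m ^ 2 ≤
      8 * B ^ 2 * s.card * ∑ l ∈ s, DD (A l) x j m ^ 4 + 2 * B ^ 2 * dd m φ x ^ 2 := by
    intro j m
    have e1 : (DD W x - ∑ l ∈ s, dg (P l) * DD (A l) x) j m =
        DD W x j m - ∑ l ∈ s, P l j * DD (A l) x j m := by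
      rw [Matrix.sub_apply, Matrix.sum_apply]
      simp only [dg_mul_apply]
    rw [e1]
    have h2 := taylor_entry hT j m
    have h3 := pow_le_pow_left₀ (abs_nonneg _) h2 2
    rw [sq_abs] at h3
    refine h3.trans ?_
    have h4 : (∑ l ∈ s, DD (A l) x j m ^ 2) ^ 2 ≤ s.card * ∑ l ∈ s, DD (A l) x j m ^ 4 := by
      refine (sq_sum_le_card_mul_sum_sq (s := s) (f := fun l => DD (A l) x j m ^ 2)).trans
        (le_of_eq ?_)
      congr 1
      exact Finset.sum_congr rfl fun l _ => by ring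
    have h5 : (2 * B * ∑ l ∈ s, DD (A l) x j m ^ 2 + B * |dd m φ x|) ^ 2 ≤
        2 * (2 * B * ∑ l ∈ s, DD (A l) x j m ^ 2) ^ 2 + 2 * (B * |dd m φ x|) ^ 2 := by
      linarith only [sq_nonneg (2 * B * ∑ l ∈ s, DD (A l) x j m ^ 2 - B * |dd m φ x|)]
    refine h5.trans ?_
    have h6 : (2 * B * ∑ l ∈ s, DD (A l) x j m ^ 2) ^ 2 ≤
        4 * B ^ 2 * (s.card * ∑ l ∈ s, DD (A l) x j m ^ 4) := by
      rw [mul_pow, show (2 * B) ^ 2 = 4 * B ^ 2 by ring]
      exact mul_le_mul_of_nonneg_left h4 (by positivity)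
    have h7 : (B * |dd m φ x|) ^ 2 = B ^ 2 * dd m φ x ^ 2 := by rw [mul_pow, sq_abs]
    rw [h7]
    linarith only [h6]
  unfold hsq
  have h2 := Finset.sum_le_sum fun j (_ : j ∈ Finset.univ) =>
    Finset.sum_le_sum fun m (_ : m ∈ Finset.univ) => h1 j m
  refine h2.trans (le_of_eq ?_)
  simp only [Finset.sum_add_distrib, ← Finset.mul_sum]
  congr 1
  · congr 1
    have h3 : ∀ j, ∑ m, ∑ l ∈ s, DD (A l) x j m ^ 4 = ∑ l ∈ s, ∑ m, DD (A l) x j m ^ 4 :=
      fun m => Finset.sum_comm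
    rw [Finset.sum_congr rfl fun j _ => h3 j]
    exact Finset.sum_comm
  · unfold gsq
    rw [Finset.sum_const, Finset.card_univ, Fintype.card_fin, nsmul_eq_mul]

end Fixed

section Fam

variable {ι : Type} {F : Filter ι} {d : ι → Dat}

/-- the approximating matrices of local fields have `hsq = O(n)` -/
theorem LM_hsq (hO : OpB F d) {s : Finset ℕ} {p : ℕ → Fld d} (hp : ∀ l ∈ s, EB F d (p l)) :
    ∃ C : ℝ, ∀ᶠ i in F, ∀ x, hsq (LM d s p i x) ≤ C * (d i).n := by
  classical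
  induction s using Finset.induction_on with
  | empty => exact ⟨0, Eventually.of_forall fun i x => by simp [D2.LM, hsq]⟩
  | insert a s ha ih =>
    obtain ⟨C, hC⟩ := ih fun l hl => hp l (Finset.mem_insert_of_mem hl)
    obtain ⟨D, hD⟩ := hp a (Finset.mem_insert_self _ _)
    obtain ⟨E, hE⟩ := hO a
    refine ⟨2 * (D ^ 2 * E ^ 2) + 2 * C, ?_⟩
    filter_upwards [hC, hD, hE] with i h1 h2 h3 x
    have e1 : D2.LM d (insert a s) p i x = dg (p a i x) * (d i).MM x a + D2.LM d s p i x := by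
      unfold D2.LM
      rw [Finset.sum_insert ha]
    rw [e1]
    refine (hsq_add_le _ _).trans ?_
    have h4 := hsq_dg_mul_le (h2 x) ((d i).MM x a)
    have h5 := mul_le_mul_of_nonneg_left (opLe_hsq_le (h3 x).1) (sq_nonneg D)
    have h6 := h1 x
    linarith only [h6, h5, h4]

theorem HZ.sum {κ : Type*} {s : Finset κ} {X : κ → ∀ i, Cfg (d i).n → Mat (d i).n}
    (h : ∀ a ∈ s, HZ F d (X a)) : HZ F d (fun i x => ∑ a ∈ s, X a i x) := by
  classical
  induction s using Finset.induction_on with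
  | empty => exact HZ.congr HZ.zero fun i x => by simp
  | insert a s ha ih =>
    have h1 := (h a (Finset.mem_insert_self _ _)).add
      (ih fun b hb => h b (Finset.mem_insert_of_mem hb))
    exact HZ.congr h1 fun i x => Finset.sum_insert ha

/-- LOCAL FIELDS FROM TAYLOR BOUNDS: a bounded field `w` whose increments between any two
configurations are `∑ p_l Δa^l`, up to `B ∑ |Δa^l|² + B |Δφ|` with a weakly macroscopic `φ`,
is local with derivatives `p`. -/
theorem Loc.of_incr (hD : DerA F d) (hO : OpB F d) {s : Finset ℕ} (hs : ∀ l ∈ s, 1 ≤ l)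
    {w : Fld d} {p : ℕ → Fld d} {φ : Scl d} (hφ : MW F d φ) (hw : EB F d w)
    (hp : ∀ l ∈ s, EB F d (p l)) {B : ℝ}
    (hT : ∀ᶠ i in F, ∀ (x z : Cfg (d i).n) (j : Fin (d i).n),
      |w i z j - w i x j - ∑ l ∈ s, p l i x j * ((d i).a z l j - (d i).a x l j)| ≤
        B * ∑ l ∈ s, ((d i).a z l j - (d i).a x l j) ^ 2 + B * |φ i z - φ i x|) :
    Loc F d s w p := by
  have hz1 : HZ F d (fun i x => DD (w i) x -
      ∑ l ∈ s, dg (p l i x) * DD (fun z => (d i).a z l) x) := by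
    have h4 : UZ F d (fun i x => ∑ l ∈ s,
        (∑ j, ∑ m, DD (fun z => (d i).a z l) x j m ^ 4) / (d i).n) :=
      UZ.sum fun l hl => (hD l (hs l hl)).2.2
    have h5 := (h4.const_mul (8 * |B| ^ 2 * s.card)).add (hφ.2.const_mul (2 * |B| ^ 2))
    refine h5.mono ?_
    filter_upwards [hT] with i hi x
    rw [abs_of_nonneg (div_nonneg (hsq_nonneg _) (Nat.cast_nonneg _))]
    refine le_trans ?_ (le_abs_self _)
    have h6 : ∀ z j, |w i z j - w i x j - ∑ l ∈ s, p l i x j * ((d i).a z l j - (d i).a x l j)| ≤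
        |B| * ∑ l ∈ s, ((d i).a z l j - (d i).a x l j) ^ 2 + |B| * |φ i z - φ i x| := by
      intro z j
      refine (hi x z j).trans (add_le_add ?_ ?_)
      · exact mul_le_mul_of_nonneg_right (le_abs_self B) (Finset.sum_nonneg fun _ _ => sq_nonneg _)
      · exact mul_le_mul_of_nonneg_right (le_abs_self B) (abs_nonneg _)
    have h7 := hsq_taylor (A := fun l z => (d i).a z l) (P := fun l => p l i x) h6
    rcases Nat.eq_zero_or_pos (d i).n with h0 | h0
    · have h0' : ((d i).n : ℝ) = 0 := by exact_mod_cast h0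
      rw [h0', div_zero]
      have : 0 ≤ gsq (φ i) x := gsq_nonneg _ _
      simp only [div_zero, Finset.sum_const_zero, mul_zero, zero_add]
      (clear * - this; positivity)
    · have hn' : (0 : ℝ) < (d i).n := by exact_mod_cast h0
      rw [div_le_iff₀ hn']
      refine h7.trans (le_of_eq ?_)
      rw [← Finset.sum_div]
      field_simp
  have hz2 : HZ F d (fun i x => ∑ l ∈ s, dg (p l i x) *
      (DD (fun z => (d i).a z l) x - (d i).MM x l)) := by
    refine HZ.sum fun l hl => ?_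
    exact HZ.dg (show HZ F d (fun i x => DD (fun z => (d i).a z l) x - (d i).MM x l) from
      (hD l (hs l hl)).1) (hp l hl)
  have hz : HZ F d (fun i x => DD (w i) x - LM d s p i x) := by
    refine (hz1.add hz2).congr fun i x => ?_
    unfold LM
    simp only [mul_sub, Finset.sum_sub_distrib]
    abel
  refine Loc.mk' ⟨hw, ?_⟩ hp hz
  obtain ⟨C, hC⟩ := LM_hsq hO hp
  refine ⟨2 * C + 2, ?_⟩
  filter_upwards [hC, hz 1 one_pos] with i h1 h2 x
  have e1 : DD (w i) x = LM d s p i x + (DD (w i) x - LM d s p i x) := by abel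
  rw [e1]
  refine (hsq_add_le _ _).trans ?_
  have h3 := h1 x
  have h4 : hsq (DD (w i) x - LM d s p i x) ≤ (d i).n := by
    have h5 := h2 x
    rcases Nat.eq_zero_or_pos (d i).n with h0 | h0
    · have : ∀ A : Mat (d i).n, hsq A = 0 := by
        intro A
        unfold hsq
        have : IsEmpty (Fin (d i).n) := by rw [h0]; infer_instance
        simp
      rw [this]
      exact Nat.cast_nonneg _
    · have hn' : (0 : ℝ) < (d i).n := by exact_mod_cast h0
      rw [abs_of_nonneg (div_nonneg (hsq_nonneg _) (Nat.cast_nonneg _)), div_le_one hn'] at h5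
      exact h5
  linarith

/-- bounds of a field of the form `Φ (φ, a^k, a^{k+1})`, `Φ ∈ FG` -/
theorem EB.of_FG {Φ : ℝ → ℝ → ℝ → ℝ} (hΦ : FG Φ) {φ : Scl d} (hφ : UB F d φ) (k l : ℕ) :
    EB F d (fun i x j => Φ (φ i x) ((d i).a x k j) ((d i).a x l j)) := by
  obtain ⟨C, hC⟩ := hφ
  obtain ⟨K, _, hK⟩ := hΦ.bdd C
  exact ⟨K, hC.mono fun i hi x j => hK _ _ _ (hi x)⟩

/-- the partial derivatives of a field `Φ (φ, a^k, a^l)` -/
noncomputable def pFG (Φa Φb : ℝ → ℝ → ℝ → ℝ) (d : ι → Dat) (φ : Scl d) (k l : ℕ) :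
    ℕ → Fld d := fun m i x j =>
  if m = k then Φa (φ i x) ((d i).a x k j) ((d i).a x l j)
    else Φb (φ i x) ((d i).a x k j) ((d i).a x l j)

/-- fields `Φ (φ, a^k, a^l)` with `Φ ∈ FG` and a weakly macroscopic `φ` are local -/
theorem Loc.of_FG (hD : DerA F d) (hO : OpB F d) {Φ Φc Φa Φb : ℝ → ℝ → ℝ → ℝ}
    (hΦ : FG Φ) (P : Par Φ Φc Φa Φb) {φ : Scl d} (hφ : MW F d φ)
    {k l : ℕ} (hk : 1 ≤ k) (hl : 1 ≤ l) (hkl : k ≠ l) :
    Loc F d {k, l} (fun i x j => Φ (φ i x) ((d i).a x k j) ((d i).a x l j))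
      (pFG Φa Φb d φ k l) := by
  obtain ⟨C, hC⟩ := hφ.1
  obtain ⟨gc, ga, gb, h1, h2, h3, Q⟩ := hΦ.par
  obtain ⟨e1, e2, e3⟩ := P.unique Q
  subst e1 e2 e3
  obtain ⟨K, hK0, hK⟩ := hΦ.taylor P C
  obtain ⟨L, hL0, hL⟩ := h1.bdd C
  have hC0 : ∀ᶠ i in F, ∀ x, |φ i x| ≤ |C| := hC.mono fun i hi x => (hi x).trans (le_abs_self C)
  refine Loc.of_incr hD hO ?_ hφ (EB.of_FG hΦ hφ.1 k l) ?_ (B := 3 * K * (2 * |C| + 1) + L) ?_
  · intro m hm
    rcases Finset.mem_insert.1 hm with h | h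
    · rw [h]; exact hk
    · rw [Finset.mem_singleton.1 h]; exact hl
  · intro m _
    by_cases hm : m = k
    · obtain ⟨C', hC'⟩ := EB.of_FG h2 hφ.1 k l
      exact ⟨C', hC'.mono fun i hi x j => by rw [pFG, if_pos hm]; exact hi x j⟩
    · obtain ⟨C', hC'⟩ := EB.of_FG h3 hφ.1 k l
      exact ⟨C', hC'.mono fun i hi x j => by rw [pFG, if_neg hm]; exact hi x j⟩
  · filter_upwards [hC, hC0] with i hi hi0 x z j
    rw [Finset.sum_pair hkl, Finset.sum_pair hkl]
    have t1 := hK (φ i x) ((d i).a x k j) ((d i).a x l j) (φ i z) ((d i).a z k j)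
      ((d i).a z l j) (hi x) (hi z)
    have t2 := hL (φ i x) ((d i).a x k j) ((d i).a x l j) (hi x)
    have e1 : pFG Φa Φb d φ k l k i x j = Φa (φ i x) ((d i).a x k j) ((d i).a x l j) := by
      rw [pFG, if_pos rfl]
    have e2 : pFG Φa Φb d φ k l l i x j = Φb (φ i x) ((d i).a x k j) ((d i).a x l j) := by
      rw [pFG, if_neg hkl.symm]
    rw [e1, e2]
    have t3 : |φ i z - φ i x| ≤ 2 * |C| := by
      have := abs_sub (φ i z) (φ i x)
      linarith only [hi0 z, hi0 x, this]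
    obtain ⟨u, hu⟩ : ∃ u, u = φ i z - φ i x := ⟨_, rfl⟩
    obtain ⟨v, hv⟩ : ∃ v, v = (d i).a z k j - (d i).a x k j := ⟨_, rfl⟩
    obtain ⟨w, hw⟩ : ∃ w, w = (d i).a z l j - (d i).a x l j := ⟨_, rfl⟩
    rw [← hu, ← hv, ← hw] at t1
    rw [← hu] at t3
    rw [← hu, ← hv, ← hw]
    obtain ⟨D, hDD⟩ : ∃ D, D = Φ (φ i z) ((d i).a z k j) ((d i).a z l j) -
      Φ (φ i x) ((d i).a x k j) ((d i).a x l j) := ⟨_, rfl⟩
    rw [← hDD] at t1 ⊢
    obtain ⟨fc, hfc⟩ : ∃ fc, fc = Φc (φ i x) ((d i).a x k j) ((d i).a x l j) := ⟨_, rfl⟩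
    obtain ⟨fa, hfa⟩ : ∃ fc, fc = Φa (φ i x) ((d i).a x k j) ((d i).a x l j) := ⟨_, rfl⟩
    obtain ⟨fb, hfb⟩ : ∃ fc, fc = Φb (φ i x) ((d i).a x k j) ((d i).a x l j) := ⟨_, rfl⟩
    rw [← hfc, ← hfa, ← hfb] at t1
    rw [← hfc] at t2
    rw [← hfa, ← hfb]
    have e3 : D - (fa * v + fb * w) = (D - (fc * u + fa * v + fb * w)) + fc * u := by ring
    rw [e3]
    refine (abs_add_le _ _).trans ?_
    rw [abs_mul]
    have u0 := abs_nonneg u
    have v0 := abs_nonneg v
    have w0 := abs_nonneg w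
    have C0 := abs_nonneg C
    have t4 : |fc| * |u| ≤ L * |u| := mul_le_mul_of_nonneg_right t2 u0
    have t5 : (|u| + |v| + |w|) ^ 2 ≤ 3 * (|u| ^ 2 + (v ^ 2 + w ^ 2)) := by
      rw [← sq_abs v, ← sq_abs w]
      linarith only [sq_nonneg (|u| - |v|), sq_nonneg (|u| - |w|), sq_nonneg (|v| - |w|)]
    have t6 : |u| ^ 2 ≤ 2 * |C| * |u| := by linarith only [mul_nonneg (sub_nonneg.2 t3) (sub_nonneg.2 u0)]
    have t7 : K * (|u| + |v| + |w|) ^ 2 ≤ 3 * K * (2 * |C|) * |u| + 3 * K * (v ^ 2 + w ^ 2) := by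
      have := mul_le_mul_of_nonneg_left t5 hK0
      have t8 := mul_le_mul_of_nonneg_left t6 hK0
      linarith only [t8, this]
    have s0 : 0 ≤ v ^ 2 + w ^ 2 := by (clear * -; positivity)
    have s1 : 0 ≤ K * |C| * (v ^ 2 + w ^ 2) := by (clear * - hK0; positivity)
    have s2 : 0 ≤ L * (v ^ 2 + w ^ 2) := by (clear * - hL0; positivity)
    have s3 : 0 ≤ K * |u| := by (clear * - hK0; positivity)
    linarith only [s3, s2, s1, t7, t4, t1]

/-- the partial derivatives of the diagonal `f_{k+1} = f^{c_k}(a^k, a^{k+1})` -/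
noncomputable def pF (d : ι → Dat) (k : ℕ) : ℕ → Fld d :=
  pFG kerA kerB d (fun i x => (d i).c x k) k (k + 1)

/-- the diagonal `f_{k+1}` is a local field -/
theorem locF (hJ : HypJ F d) (hD : DerA F d) (hT : MacT F d) (hO : OpB F d) (k : ℕ)
    (hk : 1 ≤ k) : Loc F d {k, k + 1} (fun i x => (d i).f x (k + 1)) (pF d k) :=
  Loc.of_FG hD hO FG_ker par_ker (MW.c hJ hT k) hk (by omega) (by omega)

theorem pF_self (k : ℕ) (i : ι) (x : Cfg (d i).n) (j : Fin (d i).n) :
    pF d k k i x j = kerA ((d i).c x k) ((d i).a x k j) ((d i).a x (k + 1) j) := if_pos rfl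

end Fam

end Vale.Agent.P150.F.D2
end

section

/-!
# D2: the universal AMP theorem

The word laws and the derivative facts for the AMP data without side conditions, and the
induction: `H_k`, `P_k`, `X_k` for all `k ≥ 1`; consequences against local fields.
-/

open Filter Topology
open scoped Matrix

namespace Vale.Agent.P150.F.D2

section Fam

variable {ι : Type} {F : Filter ι} {d : ι → Dat}

/-- the diagonals `f_k` are bounded -/
theorem HypJ.ebF (h : HypJ F d) (k : ℕ) : EB F d fun i x => (d i).f x k := by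
  obtain ⟨K, _, h1, _⟩ := ker_const 2
  exact ⟨K, Eventually.of_forall fun i x j => (h1 _ _ _ (h.abs_c_le i x (k - 1))).1⟩

theorem HypJ.opB (h : HypJ F d) : OpB F d := D2.opB h h.ebF

theorem HypJ.l4 (h : HypJ F d) : L4 F d := D2.l4 h

theorem HypJ.t1k (h : HypJ F d) : T1k F d := D2.t1k h h.ebF

theorem HypJ.t3 (h : HypJ F d) : T3 F d := D2.t3 h h.ebF

theorem HypJ.t3' (h : HypJ F d) : T3' F d := D2.t3' h h.ebF

theorem HypJ.derA (h : HypJ F d) : DerA F d := Der.derA h h.l4 h.opB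

theorem HypJ.macT (h : HypJ F d) : MacT F d := Der.macT h

/-- the diagonal `f_{k+1}` is a local field -/
theorem HypJ.locPF (h : HypJ F d) {k : ℕ} (hk : 1 ≤ k) :
    Loc F d {k, k + 1} (fun i x => (d i).f x (k + 1)) (pF d k) :=
  locF h h.derA h.macT h.opB k hk

theorem HypJ.locF (h : HypJ F d) : LocF F d := fun _ hk => ⟨_, h.locPF hk⟩

/-- the induction of the universal AMP theorem -/
theorem Hyp.all (h : Hyp F d) (k : ℕ) :
    HH F d (k + 1) ∧ PP F d (k + 1) ∧ XX F d (k + 1) := by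
  have hJ : HypJ F d := h.toHypJ
  induction k with
  | zero =>
    have h1 := HH_one h
    exact ⟨h1, Ind.PP_one hJ h.prob hJ.opB hJ.macT h1, XX.one⟩
  | succ k ih =>
    obtain ⟨h1, h2, h3⟩ := ih
    have h4 : HH F d (k + 2) :=
      Ind.HH_succ h.prob hJ.opB hJ.l4 hJ.t3 hJ.t3' (Nat.succ_pos k) h3 h2
        (hJ.locPF (Nat.succ_pos k)) (by
          funext i x j
          exact pF_self (k + 1) i x j)
    exact ⟨h4, Ind.PP_of_HH hJ h.prob hJ.opB hJ.macT k h1 h4,
      XX.succ h.prob hJ hJ.opB hJ.l4 hJ.derA hJ.macT hJ.locF hJ.t1k hJ.t3 k h4⟩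

theorem Hyp.hh (h : Hyp F d) {k : ℕ} (hk : 1 ≤ k) : HH F d k := by
  obtain ⟨k, rfl⟩ := Nat.exists_eq_succ_of_ne_zero (Nat.one_le_iff_ne_zero.1 hk)
  exact (h.all k).1

theorem Hyp.pp (h : Hyp F d) {k : ℕ} (hk : 1 ≤ k) : PP F d k := by
  obtain ⟨k, rfl⟩ := Nat.exists_eq_succ_of_ne_zero (Nat.one_le_iff_ne_zero.1 hk)
  exact (h.all k).2.1

theorem Hyp.xx (h : Hyp F d) {k : ℕ} (hk : 1 ≤ k) : XX F d k := by
  obtain ⟨k, rfl⟩ := Nat.exists_eq_succ_of_ne_zero (Nat.one_le_iff_ne_zero.1 hk)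
  exact (h.all k).2.2

/-- `H_k` against local fields -/
theorem Hyp.hl (h : Hyp F d) {k : ℕ} (hk : 1 ≤ k) : HL F d k :=
  HH.loc h.prob h.toHypJ.opB h.toHypJ.t1k hk (h.hh hk)

/-- the AMP iterates are approximately the conditional expectation of the configuration
(against local fields) -/
theorem Hyp.n1 (h : Hyp F d) (k : ℕ) : N1 F d k := by
  induction k with
  | zero => exact N1.zero
  | succ k ih => exact N1.succ ih (h.hl (Nat.succ_pos k))

/-- the AMP field increments against local fields -/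
theorem Hyp.ppLoc (h : Hyp F d) {k : ℕ} (hk : 1 ≤ k) : PPloc F d k :=
  PP.loc h.prob h.toHypJ h.toHypJ.opB h.toHypJ.macT h.toHypJ.t3 h.toHypJ.t3' hk (h.n1 k)
    (h.pp hk) (h.xx hk)

end Fam

end Vale.Agent.P150.F.D2
end

section

/-! P150 FULL, D2: the outputs (U2), (U3) in filter form, from (N1) (helper222). -/

open Filter Topology
open scoped Matrix

namespace Vale.Agent.P150.F.D2.Out

open Der (gr derM macQ opDer d2_gr_qq m_abs_le)

variable {ι : Type} {F : Filter ι} {d : ι → Dat}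

theorem ip_sub_left {n : ℕ} (u v w : Vec n) : ip (u - v) w = ip u w - ip v w := by
  unfold ip
  rw [← Finset.sum_sub_distrib]
  exact Finset.sum_congr rfl fun i _ => by rw [Pi.sub_apply]; ring

theorem gsq_const_mul {n : ℕ} (c : ℝ) (f : Cfg n → ℝ) (x : Cfg n) :
    gsq (fun z => c * f z) x = c ^ 2 * gsq f x := by
  unfold gsq
  rw [Finset.mul_sum]
  exact Finset.sum_congr rfl fun i _ => by rw [dd_const_mul, mul_pow]

theorem gsq_eq_gr {n : ℕ} (f : Cfg n → ℝ) (x : Cfg n) : gsq f x = sq (gr f x) := rfl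

/-- the overlaps are weakly macroscopic -/
theorem MW_q (h : HypJ F d) (k : ℕ) : MW F d fun i x => (d i).q x k := by
  obtain ⟨C, hC, hq⟩ := macQ h k
  exact MW.of_MS h.n_top ⟨C, Eventually.of_forall fun i x => hq i x⟩

/-- `|m^k - m^{k+1}|²/n` is weakly macroscopic -/
theorem MW_dm (h : HypJ F d) (k : ℕ) :
    MW F d fun i x => qq ((d i).m x k - (d i).m x (k + 1)) := by
  obtain ⟨C, hC, hop⟩ := opDer h k
  have h1 : MS F d fun i x => qq ((1 / 2 : ℝ) • ((d i).m x k - (d i).m x (k + 1))) := by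
    refine ⟨1 + 8 * (C ^ 2 + C ^ 4), Eventually.of_forall fun i x => ⟨?_, ?_⟩⟩
    · have hb : ∀ j, |((1 / 2 : ℝ) • ((d i).m x k - (d i).m x (k + 1))) j| ≤ 1 := fun j => by
        have e1 := m_abs_le (d i) x k j
        have e2 := m_abs_le (d i) x (k + 1) j
        rw [Pi.smul_apply, Pi.sub_apply, smul_eq_mul, abs_mul, abs_of_pos (by norm_num)]
        have := abs_sub ((d i).m x k j) ((d i).m x (k + 1) j)
        linarith only [this, e2, e1]
      have hq := Der.qq_bounds hb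
      rw [abs_of_nonneg hq.1]
      have : 0 ≤ 8 * (C ^ 2 + C ^ 4) := by positivity
      linarith only [this, hq.2]
    · have hb : ∀ j, |((1 / 2 : ℝ) • ((d i).m x k - (d i).m x (k + 1))) j| ≤ 1 := fun j => by
        have e1 := m_abs_le (d i) x k j
        have e2 := m_abs_le (d i) x (k + 1) j
        rw [Pi.smul_apply, Pi.sub_apply, smul_eq_mul, abs_mul, abs_of_pos (by norm_num)]
        have := abs_sub ((d i).m x k j) ((d i).m x (k + 1) j)
        linarith only [this, e2, e1]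
      have e1 : DD (fun z => (1 / 2 : ℝ) • ((d i).m z k - (d i).m z (k + 1))) x =
          (1 / 2 : ℝ) • (DD (fun z => (d i).m z k) x - DD (fun z => (d i).m z (k + 1)) x) := by
        ext j l
        show dd l (fun z => 1 / 2 * ((d i).m z k j - (d i).m z (k + 1) j)) x = _
        rw [dd_const_mul, dd_sub]
        rfl
      have h2 : OpLe (DD (fun z => (1 / 2 : ℝ) • ((d i).m z k - (d i).m z (k + 1))) x) C := by
        rw [e1]
        have h3 := Der.d2_smul (Der.d2_sub hC hC (hop i x).1 (hop i x).2.1) (1 / 2 : ℝ)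
        refine opLe_mono h3 ?_
        rw [abs_of_pos (by norm_num : (0 : ℝ) < 1 / 2)]
        refine le_of_eq ?_
        congr 1
        ring
      rw [gsq_eq_gr]
      have h4 := d2_gr_qq (G := fun z => (1 / 2 : ℝ) • ((d i).m z k - (d i).m z (k + 1))) h2 hb
      linarith only [h4]
  have h2 := (MW.of_MS h.n_top h1).const_mul 4
  refine h2.congr fun i x => ?_
  unfold qq sq
  rw [← mul_div_assoc, Finset.mul_sum]
  congr 1
  refine Finset.sum_congr rfl fun j _ => ?_
  rw [Pi.smul_apply, smul_eq_mul]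
  ring

/-- (U3) -/
theorem U3F (h : Hyp F d) (hD : DerA F d) {k : ℕ} (h1 : N1 F d k)
    (h2 : N1 F d (k + 1)) :
    Tendsto (EE d fun i x => |qq ((d i).m x k - (d i).m x (k + 1)) -
      (qq ((d i).m x k) - qq ((d i).m x (k + 1)))|) F (𝓝 0) := by
  have hJ := h.toHypJ
  have hB : MW F d fun i x => qq ((d i).m x k - (d i).m x (k + 1)) -
      (qq ((d i).m x k) - qq ((d i).m x (k + 1))) :=
    (MW_dm hJ k).sub ((MW_q hJ k).sub (MW_q hJ (k + 1)))
  have hw := Loc.m (F := F) hD (Nat.succ_pos k)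
  have e1 := h1 _ _ _ hw (by simp) _ hB
  have e2 := h2 _ _ _ hw (by simp) _ hB
  have e3 := (e1.sub e2).const_mul 2
  rw [sub_zero, mul_zero] at e3
  refine tendsto_EE_abs_of_sq h.prob (e3.congr fun i => ?_)
  unfold EE
  rw [← Ex_sub, ← Ex_const_mul]
  congr 1
  funext x
  have e4 : qq ((d i).m x k - (d i).m x (k + 1)) - (qq ((d i).m x k) - qq ((d i).m x (k + 1))) =
      2 * (ip (sv x - (d i).m x k) ((d i).m x (k + 1)) / (d i).n -
        ip (sv x - (d i).m x (k + 1)) ((d i).m x (k + 1)) / (d i).n) := by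
    unfold qq sq ip
    rw [← sub_div, ← sub_div, ← sub_div, ← Finset.sum_sub_distrib, ← Finset.sum_sub_distrib,
      ← Finset.sum_sub_distrib, ← mul_div_assoc, Finset.mul_sum]
    congr 1
    refine Finset.sum_congr rfl fun j _ => ?_
    simp only [Pi.sub_apply]
    ring
  beta_reduce
  rw [e4]
  ring

/-- the truncation of a vector -/
noncomputable def trv {n : ℕ} (L : ℝ) (v : Vec n) : Vec n :=
  fun j => if |v j| ≤ L / √n then v j else 0

theorem trv_abs {n : ℕ} {L : ℝ} (hL : 0 ≤ L) (v : Vec n) (j : Fin n) :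
    |√(n : ℝ) * trv L v j| ≤ L := by
  have hn : (0 : ℝ) < n := by
    have := j.pos
    exact_mod_cast this
  have hs : 0 < √(n : ℝ) := Real.sqrt_pos.2 hn
  unfold trv
  split_ifs with h
  · rw [abs_mul, abs_of_pos hs]
    calc √(n : ℝ) * |v j| ≤ √(n : ℝ) * (L / √n) := mul_le_mul_of_nonneg_left h hs.le
      _ = L := by field_simp
  · rw [mul_zero, abs_zero]
    exact hL

theorem sq_trv_le {n : ℕ} (L : ℝ) (v : Vec n) : sq (trv L v) ≤ sq v := by
  unfold sq trv
  refine Finset.sum_le_sum fun j _ => ?_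
  split_ifs
  · exact le_rfl
  · rw [zero_pow two_ne_zero]
    exact sq_nonneg _

theorem trv_diff {n : ℕ} {L : ℝ} (hL : 0 < L) {v u : Vec n} (hv : sq v ≤ 1)
    (hu : ∀ j, |u j| ≤ 2) : |ip v u - ip (trv L v) u| ≤ 2 / L * √n := by
  rw [← ip_sub_left]
  unfold ip
  refine (Finset.abs_sum_le_sum_abs _ _).trans ?_
  have h1 : ∀ j, |(v - trv L v) j * u j| ≤ 2 / L * √n * v j ^ 2 := fun j => by
    have hn : (0 : ℝ) < n := by
      have := j.pos
      exact_mod_cast this
    have hs : 0 < √(n : ℝ) := Real.sqrt_pos.2 hn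
    rw [abs_mul, Pi.sub_apply]
    unfold trv
    split_ifs with h
    · rw [sub_self, abs_zero, zero_mul]
      positivity
    · rw [sub_zero]
      push Not at h
      have h2 : |v j| ≤ √n / L * v j ^ 2 := by
        rw [← sq_abs, pow_two, ← mul_assoc]
        have h3 : 1 ≤ √n / L * |v j| := by
          rw [div_mul_eq_mul_div, le_div_iff₀ hL, one_mul]
          rw [div_lt_iff₀ hs] at h
          linarith
        calc |v j| = 1 * |v j| := (one_mul _).symm
          _ ≤ √n / L * |v j| * |v j| := mul_le_mul_of_nonneg_right h3 (abs_nonneg _)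
      calc |v j| * |u j| ≤ (√n / L * v j ^ 2) * 2 :=
            mul_le_mul h2 (hu j) (abs_nonneg _) (by positivity)
        _ = 2 / L * √n * v j ^ 2 := by ring
  refine (Finset.sum_le_sum fun j _ => h1 j).trans ?_
  rw [← Finset.mul_sum]
  have h4 : 0 ≤ 2 / L * √n := by positivity
  calc 2 / L * √n * ∑ j, v j ^ 2 ≤ 2 / L * √n * 1 := mul_le_mul_of_nonneg_left hv h4
    _ = 2 / L * √n := mul_one _

theorem abs_sv_sub_m (D : Dat) (x : Cfg D.n) (k : ℕ) (j : Fin D.n) :
    |(sv x - D.m x k) j| ≤ 2 := by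
  have h1 := m_abs_le D x k j
  have h2 : |sv x j| = 1 := Der.sp_abs _
  rw [Pi.sub_apply]
  refine (abs_sub _ _).trans ?_
  linarith

/-- the truncated fluctuation is weakly macroscopic -/
theorem mw_tv (h : HypJ F d) (k : ℕ) {v : ∀ i, Vec (d i).n} (hv : ∀ i, sq (v i) ≤ 1) :
    MW F d fun i x => ip (v i) (sv x - (d i).m x k) / √(d i).n := by
  obtain ⟨C, hC, hop⟩ := opDer h k
  refine MW.of_MS h.n_top ⟨2 + (1 + C) ^ 2, Eventually.of_forall fun i x => ?_⟩
  have hsn : 0 ≤ √((d i).n : ℝ) := Real.sqrt_nonneg _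
  have hv0 := sq_nonneg' (v i)
  constructor
  · rw [abs_div, abs_of_nonneg hsn]
    have h1 : |ip (v i) (sv x - (d i).m x k)| ≤ 2 * √(d i).n := by
      refine (abs_ip_le _ _).trans ?_
      have h2 : sq (sv x - (d i).m x k) ≤ 4 * (d i).n := by
        unfold sq
        calc ∑ j, (sv x - (d i).m x k) j ^ 2 ≤ ∑ _j : Fin (d i).n, (4 : ℝ) := by
              refine Finset.sum_le_sum fun j _ => ?_
              rw [← sq_abs]
              have := abs_sv_sub_m (d i) x k j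
              linarith only [mul_nonneg (sub_nonneg.2 this) (sub_nonneg.2 this), mul_nonneg (sub_nonneg.2 this) (sub_nonneg.2 (abs_nonneg ((sv x - (d i).m x k) j)))]
          _ = 4 * (d i).n := by simp [mul_comm]
      have h3 : √(sq (v i)) ≤ 1 := by
        rw [Real.sqrt_le_one]
        exact hv i
      have h4 : √(sq (sv x - (d i).m x k)) ≤ 2 * √(d i).n := by
        calc √(sq (sv x - (d i).m x k)) ≤ √(4 * (d i).n) := Real.sqrt_le_sqrt h2
          _ = 2 * √(d i).n := by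
            rw [Real.sqrt_mul (by norm_num), show (4 : ℝ) = 2 ^ 2 by norm_num,
              Real.sqrt_sq (by norm_num)]
      calc √(sq (v i)) * √(sq (sv x - (d i).m x k)) ≤ 1 * (2 * √(d i).n) :=
            mul_le_mul h3 h4 (Real.sqrt_nonneg _) zero_le_one
        _ = 2 * √(d i).n := one_mul _
    have h5 : |ip (v i) (sv x - (d i).m x k)| / √(d i).n ≤ 2 :=
      div_le_of_le_mul₀ hsn (by norm_num) h1
    linarith only [sq_nonneg (1 + C), h5]
  · rcases Nat.eq_zero_or_pos (d i).n with h0 | h0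
    · have h0' : ((d i).n : ℝ) = 0 := by exact_mod_cast h0
      rw [h0', mul_zero]
      positivity
    · have hn' : (0 : ℝ) < (d i).n := by exact_mod_cast h0
      have e0 : (fun z => ip (v i) (sv z - (d i).m z k) / √((d i).n : ℝ)) =
          fun z => (√((d i).n : ℝ))⁻¹ * ip (v i) (sv z - (d i).m z k) := by
        funext z
        rw [div_eq_inv_mul]
      beta_reduce
      rw [e0, gsq_const_mul, inv_pow, Real.sq_sqrt hn'.le, gsq_avg_le (v i)
        (fun z => sv z - (d i).m z k) x]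
      have e1 : DD (fun z => sv z - (d i).m z k) x = 1 - DD (fun z => (d i).m z k) x := by
        have := Der.DD_sub sv (fun z => (d i).m z k) x
        rw [Der.DD_sv] at this
        exact this
      have h1 : OpLe (1 : Mat (d i).n) 1 := fun u => by
        rw [Matrix.one_mulVec]
        linarith only []
      have h2 : OpLe (DD (fun z => sv z - (d i).m z k) x) (1 + C) := by
        rw [e1]
        exact Der.d2_sub zero_le_one hC h1 (hop i x).1
      have h3 := opLe_transpose h2 (v i)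
      have h4 : (1 + C) ^ 2 * sq (v i) ≤ (1 + C) ^ 2 * 1 :=
        mul_le_mul_of_nonneg_left (hv i) (sq_nonneg _)
      calc ((d i).n : ℝ)⁻¹ * sq ((DD (fun z => sv z - (d i).m z k) x)ᵀ.mulVec (v i)) *
            (d i).n = sq ((DD (fun z => sv z - (d i).m z k) x)ᵀ.mulVec (v i)) := by
              field_simp
        _ ≤ 2 + (1 + C) ^ 2 := by linarith only [h4, h3]

/-- (U2) -/
theorem U2F (h : Hyp F d) {k : ℕ} (h1 : N1 F d k) {v : ∀ i, Vec (d i).n}
    (hv : ∀ i, sq (v i) ≤ 1) :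
    Tendsto (EE d fun i x => |ip (v i) (sv x - (d i).m x k)| / √(d i).n) F (𝓝 0) := by
  have hJ := h.toHypJ
  have key : ∀ L : ℝ, 0 < L → Tendsto (EE d fun i x =>
      |ip (trv L (v i)) (sv x - (d i).m x k) / √(d i).n|) F (𝓝 0) := by
    intro L hL
    have hv' : ∀ i, sq (trv L (v i)) ≤ 1 := fun i => (sq_trv_le L _).trans (hv i)
    have hM := mw_tv hJ k hv'
    have hw : Loc F d ∅ (fun i _ => fun j => √((d i).n : ℝ) * trv L (v i) j)
        (fun _ _ _ _ => 0) := Loc.label ∅ (fun i j => trv_abs hL.le (v i) j)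
    have e1 := h1 _ _ _ hw (by simp) _ hM
    refine tendsto_EE_abs_of_sq h.prob (e1.congr fun i => ?_)
    unfold EE
    congr 1
    funext x
    beta_reduce
    rcases Nat.eq_zero_or_pos (d i).n with h0 | h0
    · have h0' : ((d i).n : ℝ) = 0 := by exact_mod_cast h0
      rw [h0', Real.sqrt_zero, div_zero, div_zero]
      ring
    · have hn' : (0 : ℝ) < (d i).n := by exact_mod_cast h0
      have e2 : ip (sv x - (d i).m x k) (fun j => √((d i).n : ℝ) * trv L (v i) j) =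
          √((d i).n : ℝ) * ip (trv L (v i)) (sv x - (d i).m x k) := by
        unfold ip
        rw [Finset.mul_sum]
        exact Finset.sum_congr rfl fun j _ => by ring
      rw [e2, pow_two]
      congr 1
      have hs : √((d i).n : ℝ) ≠ 0 := (Real.sqrt_pos.2 hn').ne'
      have h5 : √((d i).n : ℝ) * √((d i).n : ℝ) = (d i).n := Real.mul_self_sqrt hn'.le
      rw [div_eq_div_iff hn'.ne' hs]
      calc √((d i).n : ℝ) * ip (trv L (v i)) (sv x - (d i).m x k) * √((d i).n : ℝ) =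
            ip (trv L (v i)) (sv x - (d i).m x k) * (√((d i).n : ℝ) * √((d i).n : ℝ)) := by ring
        _ = _ := by rw [h5]
  rw [Metric.tendsto_nhds]
  intro ε hε
  have hL : (0 : ℝ) < 4 / ε := by positivity
  have h2 := (Metric.tendsto_nhds.1 (key (4 / ε) hL)) (ε / 2) (half_pos hε)
  filter_upwards [h2] with i hi
  rw [Real.dist_eq, sub_zero] at hi ⊢
  have h3 : EE d (fun i x => |ip (v i) (sv x - (d i).m x k)| / √(d i).n) i ≤
      EE d (fun i x => |ip (trv (4 / ε) (v i)) (sv x - (d i).m x k) / √(d i).n|) i + ε / 2 := by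
    unfold EE
    rw [← Ex_const (h.prob i) (ε / 2), ← Ex_add]
    refine Ex_mono (h.prob i) fun x => ?_
    have hsn : 0 ≤ √((d i).n : ℝ) := Real.sqrt_nonneg _
    have h4 := trv_diff hL (hv i) (abs_sv_sub_m (d i) x k)
    beta_reduce
    rw [abs_div, abs_of_nonneg hsn]
    have h5 : |ip (v i) (sv x - (d i).m x k)| ≤
        |ip (trv (4 / ε) (v i)) (sv x - (d i).m x k)| + ε / 2 * √(d i).n := by
      have h6 := abs_sub_abs_le_abs_sub (ip (v i) (sv x - (d i).m x k))
        (ip (trv (4 / ε) (v i)) (sv x - (d i).m x k))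
      have h7 : 2 / (4 / ε) = ε / 2 := by field_simp; norm_num
      rw [h7] at h4
      linarith only [h4, h6]
    calc |ip (v i) (sv x - (d i).m x k)| / √(d i).n ≤
        (|ip (trv (4 / ε) (v i)) (sv x - (d i).m x k)| + ε / 2 * √(d i).n) / √(d i).n :=
          div_le_div_of_nonneg_right h5 hsn
      _ = |ip (trv (4 / ε) (v i)) (sv x - (d i).m x k)| / √(d i).n +
          ε / 2 * √(d i).n / √(d i).n := add_div _ _ _
      _ ≤ _ := add_le_add le_rfl (div_le_of_le_mul₀ hsn (by positivity) le_rfl)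
  have h8 : 0 ≤ EE d (fun i x => |ip (v i) (sv x - (d i).m x k)| / √(d i).n) i :=
    Ex_nonneg (h.prob i) fun x => by (clear * -; positivity)
  rw [abs_of_nonneg h8]
  have h9 := (abs_lt.1 hi).2
  linarith only [h9, h3]

end Vale.Agent.P150.F.D2.Out
end

section

/-! P150 FULL, D2: the outputs (U2), (U3) in uniform form (helper222). -/

open Filter Topology
open scoped Matrix

namespace Vale.Agent.P150.F.D2.Out

variable {I : Type} {F : Filter I}

/-- all admissible data of size `n i`, with couplings `J i` -/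
structure DU (n : I → ℕ) (J : ∀ i, Mat (n i)) (CA : ℝ) (i : I) where
  r : ℝ
  A : Mat (n i)
  y : Vec (n i)
  ν : Cfg (n i) → ℝ
  r0 : 0 ≤ r
  r1 : r ≤ 1
  asymm : A.IsSymm
  hsA : hsq A ≤ CA
  prob : IsProb ν
  op : OpLe (J i) 3

namespace DU

variable {n : I → ℕ} {J : ∀ i, Mat (n i)} {CA : ℝ}

/-- the datum -/
def dat {i : I} (p : DU n J CA i) : Dat := ⟨n i, J i, p.A, p.r, p.y, p.ν⟩

/-- the relative DLR defect -/
noncomputable def H {i : I} (p : DU n J CA i) : ℝ :=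
  dlr (p.r • J i - p.A) p.y p.ν / n i

theorem H_nonneg {i : I} (p : DU n J CA i) : 0 ≤ p.H := by
  refine div_nonneg (Finset.sum_nonneg fun x _ => mul_nonneg (p.prob.1 x) ?_) (Nat.cast_nonneg _)
  exact Finset.sum_nonneg fun _ _ => sq_nonneg _

/-- all families of admissible data, along the filter `dataF` -/
theorem hyp {β : ℝ} (h : Good β F n J) {D : I → Type} (π : ∀ i, D i → DU n J CA i) :
    Hyp (dataF F fun i p => (π i p).H) (fun p : Σ i, D i => (π p.1 p.2).dat) where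
  n_top := h.hn.comp (dataF_fst F _)
  symm := fun p => by
    ext a b
    exact h.symm p.1 b a
  diag := fun p j => h.diag p.1 j
  op := fun p => (π p.1 p.2).op
  sd := fun l ε hε => (dataF_fst F _).eventually (h.sd l ε hε)
  od := fun l ε hε => (dataF_fst F _).eventually (h.od l ε hε)
  r0 := fun p => (π p.1 p.2).r0
  r1 := fun p => (π p.1 p.2).r1
  asymm := fun p => (π p.1 p.2).asymm
  hsA := ⟨CA, fun p => (π p.1 p.2).hsA⟩
  prob := fun p => (π p.1 p.2).prob
  dlr := dataF_H F _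

/-- the uniform form -/
theorem unif {D : I → Type} (π : ∀ i, D i → DU n J CA i) {E : ∀ i, D i → ℝ}
    (h : Tendsto (fun p : Σ i, D i => E p.1 p.2) (dataF F fun i p => (π i p).H) (𝓝 0)) :
    ∀ ε > 0, ∃ η > 0, ∀ᶠ i in F, ∀ p : D i,
      Vale.Agent.P150.F.dlr ((π i p).r • J i - (π i p).A) (π i p).y (π i p).ν ≤ η * n i →
        |E i p| ≤ ε := by
  intro ε hε
  obtain ⟨η, hη, h1⟩ := unif_of_filter (D := D) (H := fun i p => (π i p).H) (E := E) h ε hε
  refine ⟨η, hη, ?_⟩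
  filter_upwards [h1] with i hi p hp
  refine hi p ?_
  rw [abs_of_nonneg (H_nonneg _)]
  exact div_le_of_le_mul₀ (Nat.cast_nonneg _) hη.le hp

end DU

/-- the main result of D2 as an input -/
def MainN1 : Prop := ∀ {ι : Type} (G : Filter ι) (d : ι → Dat), Hyp G d →
  DerA G d ∧ ∀ k, 1 ≤ k → N1 G d k

variable {n : I → ℕ} {J : ∀ i, Mat (n i)} {β : ℝ}

/-- (U3), uniform form -/
theorem u3s (hmain : MainN1) (h : Good β F n J) : U3S F n J := by
  intro CA k hk
  have hH := DU.hyp (CA := CA) h (D := fun i => DU n J CA i) (fun _ p => p)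
  obtain ⟨hD, hN⟩ := hmain _ _ hH
  have h1 := U3F hH hD (hN k hk) (hN (k + 1) (hk.trans (Nat.le_succ k)))
  have h2 := DU.unif (F := F) (D := fun i => DU n J CA i) (fun _ p => p)
    (E := fun i p => Ex p.ν (fun x =>
      |qq (ampM (p.r • J i - p.A) p.r p.y x k - ampM (p.r • J i - p.A) p.r p.y x (k + 1))
        - (qq (ampM (p.r • J i - p.A) p.r p.y x k)
          - qq (ampM (p.r • J i - p.A) p.r p.y x (k + 1)))|)) h1
  intro ε hε
  obtain ⟨η, hη, h3⟩ := h2 ε hε
  refine ⟨η, hη, ?_⟩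
  filter_upwards [h3, h.op 1 one_pos] with i hi hop r A y ν hr0 hr1 hA hCA hν hdlr
  have hop3 : OpLe (J i) 3 := by norm_num at hop; exact hop
  exact (le_abs_self _).trans (hi ⟨r, A, y, ν, hr0, hr1, hA, hCA, hν, hop3⟩ hdlr)

/-- (U2), uniform form -/
theorem u2s (hmain : MainN1) (h : Good β F n J) : U2S F n J := by
  intro CA k hk
  have hH := DU.hyp (CA := CA) h
    (D := fun i => DU n J CA i × {v : Vec (n i) // sq v ≤ 1}) (fun _ p => p.1)
  obtain ⟨hD, hN⟩ := hmain _ _ hH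
  have h1 := U2F hH (hN k hk) (v := fun p => p.2.2.1) (fun p => p.2.2.2)
  have h2 := DU.unif (F := F) (D := fun i => DU n J CA i × {v : Vec (n i) // sq v ≤ 1})
    (fun _ p => p.1)
    (E := fun i p => Ex p.1.ν (fun x =>
      |ip p.2.1 (sv x - ampM (p.1.r • J i - p.1.A) p.1.r p.1.y x k)| / √(n i))) h1
  intro ε hε
  obtain ⟨η, hη, h3⟩ := h2 ε hε
  refine ⟨η, hη, ?_⟩
  filter_upwards [h3, h.op 1 one_pos, h.hn.eventually_gt_atTop 0] with i hi hop hn r A y ν hr0
    hr1 hA hCA hν hdlr v hv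
  have hop3 : OpLe (J i) 3 := by norm_num at hop; exact hop
  have h4 := (le_abs_self _).trans
    (hi ⟨⟨r, A, y, ν, hr0, hr1, hA, hCA, hν, hop3⟩, ⟨v, hv⟩⟩ hdlr)
  have hs : 0 < √(n i : ℝ) := Real.sqrt_pos.2 (by exact_mod_cast hn)
  have e : Ex ν (fun x => |ip v (sv x - ampM (r • J i - A) r y x k)| / √(n i : ℝ))
      = Ex ν (fun x => |ip v (sv x - ampM (r • J i - A) r y x k)|) / √(n i : ℝ) := by
    unfold Ex
    rw [Finset.sum_div]
    exact Finset.sum_congr rfl fun x _ => by ring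
  have h5 : Ex ν (fun x => |ip v (sv x - ampM (r • J i - A) r y x k)|) / √(n i : ℝ) ≤ ε := by
    rw [← e]
    exact h4
  rwa [div_le_iff₀ hs] at h5

end Vale.Agent.P150.F.D2.Out
end

section

/-! P150 FULL, D2: the outputs (U2), (U3), (X2), (X3) for good couplings (helper222). -/

open Filter Topology

namespace Vale.Agent.P150.F

variable {I : Type} {F : Filter I} {n : I → ℕ} {J : ∀ i, Mat (n i)} {β : ℝ}

theorem D2.Out.mainN1 : D2.Out.MainN1 := fun _ _ h => ⟨h.toHypJ.derA, fun k _ => h.n1 k⟩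

/-- (U2) for good couplings -/
theorem Good.u2 (h : Good β F n J) : U2S F n J := D2.Out.u2s D2.Out.mainN1 h

/-- (U3) for good couplings -/
theorem Good.u3 (h : Good β F n J) : U3S F n J := D2.Out.u3s D2.Out.mainN1 h

/-- exponential form of (U2) for good couplings -/
theorem Good.x2 (h : Good β F n J) : X2S F n J := x2_of_u2 h h.u2

end Vale.Agent.P150.F
end

section

/-! P150 FULL, D6: exact expectation of the second-order expansion, and the drift (helper645). -/

open MeasureTheory ProbabilityTheory Filter Topology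
open scoped Matrix

namespace Vale.Agent.P150.F

variable {n : ℕ}

section Exact

variable (δ : ℝ) (R G : Mat n) (a : Vec n)

theorem lin_eps (ξ : Vec n) (i : Fin n) :
    G.mulVec (δ • a + √δ • R.mulVec ξ) i = δ * G.mulVec a i + √δ * (G * R).mulVec ξ i := by
  rw [Matrix.mulVec_add, Matrix.mulVec_smul, Matrix.mulVec_smul, Matrix.mulVec_mulVec]
  rfl

theorem pg_lin_eps (i : Fin n) : PG fun ξ : Vec n => G.mulVec (δ • a + √δ • R.mulVec ξ) i :=
  (pgv_eps δ R a).mulVec G i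

theorem int_lin_eps (i : Fin n) :
    ∫ ξ : Vec n, G.mulVec (δ • a + √δ • R.mulVec ξ) i ∂(gpi (Fin n)) = δ * G.mulVec a i := by
  simp_rw [lin_eps]
  rw [integral_add (integrable_const _) ((integrable_lin (G * R) i).const_mul _),
    integral_const, probReal_univ, one_smul, integral_const_mul, integral_lin, mul_zero, add_zero]

theorem int_lin2_eps (hδ : 0 ≤ δ) (hG : G.IsSymm) (i j : Fin n) :
    ∫ ξ : Vec n, G.mulVec (δ • a + √δ • R.mulVec ξ) i * G.mulVec (δ • a + √δ • R.mulVec ξ) j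
        ∂(gpi (Fin n))
      = δ ^ 2 * (G.mulVec a i * G.mulVec a j) + δ * (G * (R * Rᵀ) * G) i j := by
  have h1 : ∀ ξ : Vec n, G.mulVec (δ • a + √δ • R.mulVec ξ) i
      * G.mulVec (δ • a + √δ • R.mulVec ξ) j = δ ^ 2 * (G.mulVec a i * G.mulVec a j)
        + (δ * √δ * G.mulVec a i * (G * R).mulVec ξ j
        + (δ * √δ * G.mulVec a j * (G * R).mulVec ξ i
        + δ * ((G * R).mulVec ξ i * (G * R).mulVec ξ j))) := by
    intro ξ
    rw [lin_eps, lin_eps]
    have := Real.mul_self_sqrt hδ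
    linear_combination ((G * R).mulVec ξ i * (G * R).mulVec ξ j) * this
  simp_rw [h1]
  have i1 := (integrable_lin (G * R) j).const_mul (δ * √δ * G.mulVec a i)
  have i2 := (integrable_lin (G * R) i).const_mul (δ * √δ * G.mulVec a j)
  have i3 := (integrable_lin_mul (G * R) i j).const_mul δ
  have e4 : G * R * (G * R)ᵀ = G * (R * Rᵀ) * G := by
    rw [Matrix.transpose_mul, hG.eq, Matrix.mul_assoc, Matrix.mul_assoc, Matrix.mul_assoc]
  have j3 : Integrable (fun ξ : Vec n => δ * √δ * G.mulVec a j * (G * R).mulVec ξ i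
      + δ * ((G * R).mulVec ξ i * (G * R).mulVec ξ j)) (gpi (Fin n)) := i2.add i3
  have j2 : Integrable (fun ξ : Vec n => δ * √δ * G.mulVec a i * (G * R).mulVec ξ j
      + (δ * √δ * G.mulVec a j * (G * R).mulVec ξ i
      + δ * ((G * R).mulVec ξ i * (G * R).mulVec ξ j))) (gpi (Fin n)) := i1.add j3
  have l4 := integral_lin_mul (G * R) i j
  rw [e4] at l4
  rw [integral_add (integrable_const _) j2, integral_add i1 j3,
    integral_add i2 i3, integral_const, probReal_univ, one_smul, integral_const_mul,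
    integral_const_mul, integral_const_mul, integral_lin, integral_lin, l4]
  ring

end Exact

/-- the matrix part of the drift -/
noncomputable def kk (r : ℝ) (S : Mat n) (m : Vec n) (j : Fin n) : ℝ :=
  2 * r ^ 2 / n * S.mulVec m j + r ^ 2 / n * (∑ i, S i i) * m j
    - m j * (S j j / (1 - m j ^ 2) ^ 2)

theorem int_quadP {r δ : ℝ} {B G R : Mat n} {m a : Vec n} (hδ : 0 ≤ δ) (hG : G.IsSymm)
    (hP : ∀ (e : Vec n) (j : Fin n), (e - B.mulVec (G.mulVec e)) j = G.mulVec e j / (1 - m j ^ 2))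
    (j : Fin n) :
    ∫ ξ : Vec n, quadP r B G m (δ • a + √δ • R.mulVec ξ) j ∂(gpi (Fin n))
      = δ ^ 2 * quadP r B G m a j + δ * kk r (G * (R * Rᵀ) * G) m j := by
  have hq : ∀ e : Vec n, quadP r B G m e j = (∑ i, 2 * r ^ 2 / n * m i * (G.mulVec e j * G.mulVec e i)
      + ∑ i, r ^ 2 / n * m j * (G.mulVec e i * G.mulVec e i))
      - m j / (1 - m j ^ 2) ^ 2 * (G.mulVec e j * G.mulVec e j) := by
    intro e
    have h1 : quadP r B G m e j = 2 * r ^ 2 / n * ip m (G.mulVec e) * G.mulVec e j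
        + r ^ 2 / n * sq (G.mulVec e) * m j - m j * ((e - B.mulVec (G.mulVec e)) j) ^ 2 := rfl
    rw [h1, hP e j]
    unfold ip sq
    rw [Finset.mul_sum, Finset.sum_mul, Finset.mul_sum, Finset.sum_mul]
    congr 1
    · congr 1
      · exact Finset.sum_congr rfl fun i _ => by ring
      · exact Finset.sum_congr rfl fun i _ => by ring
    · rw [div_pow]
      ring
  have hI : ∀ (c : ℝ) (i k : Fin n), Integrable (fun ξ : Vec n =>
      c * (G.mulVec (δ • a + √δ • R.mulVec ξ) i * G.mulVec (δ • a + √δ • R.mulVec ξ) k))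
      (gpi (Fin n)) := fun c i k =>
    (((pg_lin_eps δ R G a i).mul (pg_lin_eps δ R G a k)).const_mul c).integrable
  have hS1 : Integrable (fun ξ : Vec n => ∑ i, 2 * r ^ 2 / n * m i
      * (G.mulVec (δ • a + √δ • R.mulVec ξ) j * G.mulVec (δ • a + √δ • R.mulVec ξ) i))
      (gpi (Fin n)) := integrable_finsetSum _ fun i _ => hI _ _ _
  have hS2 : Integrable (fun ξ : Vec n => ∑ i, r ^ 2 / n * m j
      * (G.mulVec (δ • a + √δ • R.mulVec ξ) i * G.mulVec (δ • a + √δ • R.mulVec ξ) i))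
      (gpi (Fin n)) := integrable_finsetSum _ fun i _ => hI _ _ _
  simp_rw [hq]
  have hS3 : Integrable (fun ξ : Vec n => (∑ i, 2 * r ^ 2 / n * m i
      * (G.mulVec (δ • a + √δ • R.mulVec ξ) j * G.mulVec (δ • a + √δ • R.mulVec ξ) i))
      + ∑ i, r ^ 2 / n * m j
      * (G.mulVec (δ • a + √δ • R.mulVec ξ) i * G.mulVec (δ • a + √δ • R.mulVec ξ) i))
      (gpi (Fin n)) := hS1.add hS2
  rw [integral_sub hS3 (hI _ _ _), integral_add hS1 hS2,
    integral_finsetSum _ fun i _ => hI _ _ _, integral_finsetSum _ fun i _ => hI _ _ _]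
  simp_rw [integral_const_mul, int_lin2_eps δ R G a hδ hG]
  have e1 : kk r (G * (R * Rᵀ) * G) m j = (∑ i, 2 * r ^ 2 / n * m i * (G * (R * Rᵀ) * G) j i
      + ∑ i, r ^ 2 / n * m j * (G * (R * Rᵀ) * G) i i)
      - m j / (1 - m j ^ 2) ^ 2 * (G * (R * Rᵀ) * G) j j := by
    unfold kk Matrix.mulVec dotProduct
    rw [Finset.mul_sum, Finset.mul_sum, Finset.sum_mul]
    congr 1
    · congr 1
      · exact Finset.sum_congr rfl fun i _ => by ring
      · exact Finset.sum_congr rfl fun i _ => by ring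
    · ring
  rw [e1]
  have e2 : ∀ (f g h : Fin n → ℝ), ∑ i, f i * (δ ^ 2 * g i + δ * h i)
      = δ ^ 2 * ∑ i, f i * g i + δ * ∑ i, f i * h i := by
    intro f g h
    rw [Finset.mul_sum, Finset.mul_sum, ← Finset.sum_add_distrib]
    exact Finset.sum_congr rfl fun i _ => by ring
  rw [e2 (fun i => 2 * r ^ 2 / n * m i), e2 (fun _ => r ^ 2 / n * m j)]
  ring

/-- exact expectation of the second-order expansion -/
theorem int_disp2 {r δ : ℝ} {B G R : Mat n} {m a : Vec n} (hδ : 0 ≤ δ) (hG : G.IsSymm)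
    (hP : ∀ (e : Vec n) (j : Fin n), (e - B.mulVec (G.mulVec e)) j = G.mulVec e j / (1 - m j ^ 2))
    (i : Fin n) :
    ∫ ξ : Vec n, disp2 r B G m (δ • a + √δ • R.mulVec ξ) i ∂(gpi (Fin n))
      = (δ • G.mulVec (a + kk r (G * (R * Rᵀ) * G) m) + δ ^ 2 • G.mulVec (quadP r B G m a)) i := by
  have hpq : ∀ j, PG fun ξ : Vec n => quadP r B G m (δ • a + √δ • R.mulVec ξ) j := by
    intro j
    have hf := pgv_eps δ R a
    have hGf : PGV fun ξ => G.mulVec (δ • a + √δ • R.mulVec ξ) := hf.mulVec G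
    have h1 : PGV fun ξ => quadP r B G m (δ • a + √δ • R.mulVec ξ) := by
      unfold quadP
      refine PGV.sub (PGV.add ?_ ?_) ?_
      · exact PGV.smul ((hGf.ip m).const_mul _) hGf
      · exact PGV.smul (hGf.sq.const_mul _) (PGV.const m)
      · exact fun i => (((hf.sub (hGf.mulVec B)) i).pow 2).const_mul (m i)
    exact h1 j
  have h1 : ∀ ξ : Vec n, disp2 r B G m (δ • a + √δ • R.mulVec ξ) i
      = G.mulVec (δ • a + √δ • R.mulVec ξ) i
        + ∑ j, G i j * quadP r B G m (δ • a + √δ • R.mulVec ξ) j := by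
    intro ξ
    rw [disp2_eq]
    rfl
  simp_rw [h1]
  have hI : ∀ j, Integrable (fun ξ : Vec n => G i j * quadP r B G m (δ • a + √δ • R.mulVec ξ) j)
      (gpi (Fin n)) := fun j => ((hpq j).const_mul _).integrable
  rw [integral_add (pg_lin_eps δ R G a i).integrable (integrable_finsetSum _ fun j _ => hI j),
    integral_finsetSum _ fun j _ => hI j, int_lin_eps]
  simp_rw [integral_const_mul, int_quadP hδ hG hP]
  have h2 : ∀ v : Vec n, G.mulVec v i = ∑ j, G i j * v j := fun v => rfl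
  rw [Pi.add_apply, Pi.smul_apply, Pi.smul_apply, smul_eq_mul, smul_eq_mul, Matrix.mulVec_add,
    Pi.add_apply, h2 (kk r (G * (R * Rᵀ) * G) m), h2 (quadP r B G m a), mul_add, Finset.mul_sum,
    Finset.mul_sum, add_assoc]
  congr 1
  rw [← Finset.sum_add_distrib]
  exact Finset.sum_congr rfl fun j _ => by ring

/-- `a + kk` is the drift vector of `kap` up to order `δ` -/
theorem effA_kk (r ρ κ₀ δ : ℝ) (R G : Mat n) (m : Vec n) (x : Cfg n) :
    effA r ρ κ₀ δ R m x + kk r (G * (R * Rᵀ) * G) m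
      = ((R * Rᵀ).mulVec (sv x - m) + kap r ρ κ₀ (R * Rᵀ) G m)
        + (δ * ρ ^ 2 * (1 - qq m)) • m := by
  funext j
  unfold effA kk
  simp only [Pi.add_apply, Pi.smul_apply, smul_eq_mul]
  unfold kap trN
  ring

/-- the identity for `1 - B G` -/
theorem one_sub_BG {r : ℝ} {J A G : Mat n} {m : Vec n} (hm : ∀ i, |m i| < 1)
    (hG : Hess r J A m * G = 1) (e : Vec n) (j : Fin n) :
    (e - (Bm r J A m).mulVec (G.mulVec e)) j = G.mulVec e j / (1 - m j ^ 2) := by
  have h1 : (Hess r J A m).mulVec (G.mulVec e) j = e j := by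
    rw [Matrix.mulVec_mulVec, hG, Matrix.one_mulVec]
  rw [Hess_mulVec] at h1
  rw [Pi.sub_apply, ← h1]
  ring

/-- the exact expectation is the drift up to order `δ²` -/
theorem drift_expC {r ρ κ₀ δ C : ℝ} {J A R G : Mat n} {m : Vec n} (hC : 0 ≤ C) (hδ : 0 < δ)
    (hδ1 : δ ≤ 1)
    (hr : r ∈ Set.Icc (0 : ℝ) 1) (hρ : |ρ| ≤ C) (hκ : |κ₀| ≤ C) (hR : OpLe R C) (hG : OpLe G C)
    (hB : OpLe (Bm r J A m) C) (hGs : G.IsSymm) (hm : ∀ i, |m i| < 1)
    (hH : Hess r J A m * G = 1) (x : Cfg n) (i : Fin n) :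
    |(∫ ξ : Vec n, disp2 r (Bm r J A m) G m (effE r ρ κ₀ δ R m x ξ) i ∂(gpi (Fin n)))
      - (δ • G.mulVec ((R * Rᵀ).mulVec (sv x - m) + kap r ρ κ₀ (R * Rᵀ) G m)) i|
      ≤ (C * C ^ 2 * √n + dK n C * dA n C ^ 2) * (δ * √δ) := by
  have hm' : ∀ i, |m i| ≤ 1 := fun i => (hm i).le
  simp_rw [effE_eqA]
  rw [int_disp2 hδ.le hGs (one_sub_BG hm hH) i, effA_kk, Matrix.mulVec_add, Pi.add_apply,
    Pi.smul_apply, Pi.smul_apply, Pi.smul_apply, Pi.add_apply, Matrix.mulVec_smul, Pi.smul_apply]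
  simp only [smul_eq_mul]
  set u := G.mulVec ((R * Rᵀ).mulVec (sv x - m) + kap r ρ κ₀ (R * Rᵀ) G m) i with hu
  have e1 : δ * (u + δ * ρ ^ 2 * (1 - qq m) * G.mulVec m i)
      + δ ^ 2 * G.mulVec (quadP r (Bm r J A m) G m (effA r ρ κ₀ δ R m x)) i - δ * u
      = δ ^ 2 * (ρ ^ 2 * (1 - qq m) * G.mulVec m i
        + G.mulVec (quadP r (Bm r J A m) G m (effA r ρ κ₀ δ R m x)) i) := by ring
  rw [e1, abs_mul, abs_of_nonneg (sq_nonneg δ)]
  have hA := effA_bd hr hρ hκ hδ hδ1 hR hm' x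
  have hq0 := qq_nonneg m
  have hq1 := qq_le_one hm'
  have h2 : |ρ ^ 2 * (1 - qq m) * G.mulVec m i| ≤ C * C ^ 2 * √n := by
    rw [abs_mul, abs_of_nonneg (mul_nonneg (sq_nonneg ρ) (by linarith))]
    have h3 : |G.mulVec m i| ≤ C * √n := (abs_le_nv _ i).trans
      ((hG.nv_le hC m).trans (mul_le_mul_of_nonneg_left (nv_le_sqrt_n hm') hC))
    have h4 : ρ ^ 2 * (1 - qq m) ≤ C ^ 2 := by
      have h5 : ρ ^ 2 ≤ C ^ 2 := by
        rw [← sq_abs ρ]
        exact pow_le_pow_left₀ (abs_nonneg _) hρ 2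
      (by_contra nlg; linarith only [mul_pos (sub_pos.2 (not_le.1 nlg)) (sub_pos.2 hδ), mul_nonneg (le_of_lt (sub_pos.2 (not_le.1 nlg))) (sub_nonneg.2 hδ1), mul_nonneg (sub_nonneg.2 hq0) (sub_nonneg.2 h5), mul_nonneg (sub_nonneg.2 hq0) (sq_nonneg ρ), mul_nonneg (sub_nonneg.2 hq1) (sub_nonneg.2 h5)])
    calc ρ ^ 2 * (1 - qq m) * |G.mulVec m i| ≤ C ^ 2 * (C * √n) :=
          mul_le_mul h4 h3 (abs_nonneg _) (by positivity)
      _ = C * C ^ 2 * √n := by ring
  have h3 : |G.mulVec (quadP r (Bm r J A m) G m (effA r ρ κ₀ δ R m x)) i|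
      ≤ dK n C * dA n C ^ 2 := by
    refine (abs_le_nv _ i).trans ((hG.nv_le hC _).trans ?_)
    refine (mul_le_mul_of_nonneg_left (quadP_bd hr hC hB hG hm' _) hC).trans ?_
    have h4 : nv (effA r ρ κ₀ δ R m x) ^ 2 ≤ dA n C ^ 2 := pow_le_pow_left₀ (nv_nonneg _) hA 2
    have hk : 0 ≤ (1 + C * C) ^ 2 + 2 / n * √n * C ^ 2 + 1 / n * C ^ 2 * √n := by (clear * - hC; positivity)
    have h5 : C * ((1 + C * C) ^ 2 + 2 / n * √n * C ^ 2 + 1 / n * C ^ 2 * √n) ≤ dK n C := by
      unfold dK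
      refine mul_le_mul_of_nonneg_left ?_ hC
      linarith only []
    rw [← mul_assoc]
    exact mul_le_mul h5 h4 (sq_nonneg _) (dK_nonneg hC)
  have hdd : δ ^ 2 ≤ δ * √δ := by
    have hs : δ ≤ √δ := by
      have := Real.mul_self_sqrt hδ.le
      have h2 : √δ ≤ 1 := Real.sqrt_le_one.2 hδ1
      (by_contra nlg; linarith only [mul_pos (sub_pos.2 (not_le.1 nlg)) (sub_pos.2 hδ), mul_nonneg (le_of_lt (sub_pos.2 (not_le.1 nlg))) (sub_nonneg.2 (Real.sqrt_nonneg δ)), mul_nonneg (le_of_lt (sub_pos.2 hδ)) (sub_nonneg.2 hδ1), mul_eq_zero_of_left (sub_eq_zero.2 this) (1 - (√δ)), mul_eq_zero_of_left (sub_eq_zero.2 this) (√δ - (0))])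
    (by_contra nlg; linarith only [nlg, mul_nonneg (le_of_lt (sub_pos.2 hδ)) (sub_nonneg.2 hs), mul_nonneg (le_of_lt (sub_pos.2 (not_le.1 nlg))) (sub_nonneg.2 hδ1), mul_pos (sub_pos.2 (not_le.1 nlg)) (sub_pos.2 hδ)])
  have h4 := (abs_add_le (ρ ^ 2 * (1 - qq m) * G.mulVec m i)
    (G.mulVec (quadP r (Bm r J A m) G m (effA r ρ κ₀ δ R m x)) i)).trans (add_le_add h2 h3)
  rw [mul_comm (C * C ^ 2 * √n + dK n C * dA n C ^ 2)]
  exact mul_le_mul hdd h4 (abs_nonneg _) (mul_nonneg hδ.le (Real.sqrt_nonneg δ))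

theorem driftCore : DriftCore := by
  intro n C e₀ hC1 he₀
  have hC : 0 ≤ C := zero_le_one.trans hC1
  obtain ⟨K1, hK1, herr⟩ := drift_err n C (dK n C) (dA n C) e₀ hC (dK_nonneg hC) (dA_nonneg hC) he₀
  set K2 := C * C ^ 2 * √n + dK n C * dA n C ^ 2 with hK2d
  have hK2 : 0 ≤ K2 := by
    have := dK_nonneg (n := n) hC
    (clear * - hC1 this; positivity)
  refine ⟨(K1 + K2) * √n, ?_⟩
  intro δ hδ hδ1 r ρ κ₀ J A R G m hr hρ hκ hR hG hB hGs hm hH F hFm hF hloc ν hν
  have hm' : ∀ i, |m i| ≤ 1 := fun i => (hm i).le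
  have hdd : 0 ≤ δ * √δ := mul_nonneg hδ.le (Real.sqrt_nonneg δ)
  have hx : ∀ (x : Cfg n) (i : Fin n), |(∫ ξ, F x ξ i ∂(gpi (Fin n)))
      - (δ • G.mulVec ((R * Rᵀ).mulVec (sv x - m) + kap r ρ κ₀ (R * Rᵀ) G m)) i|
      ≤ (K1 + K2) * (δ * √δ) := by
    intro x i
    have h1 := herr δ hδ hδ1 R (effA r ρ κ₀ δ R m x) hR (effA_bd hr hρ hκ hδ hδ1 hR hm' x)
      (F x) (fun ξ => disp2 r (Bm r J A m) G m (δ • effA r ρ κ₀ δ R m x + √δ • R.mulVec ξ))
      (hFm x) (pgv_disp2 (pgv_eps _ _ _) r (Bm r J A m) G m) (hF x)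
      (fun ξ => disp2_bd hr hC hB hG hm' _) (hloc x) i
    have h2 := drift_expC hC hδ hδ1 hr hρ hκ hR hG hB hGs hm hH x i
    have h3 := abs_sub_le (∫ ξ, F x ξ i ∂(gpi (Fin n)))
      (∫ ξ : Vec n, disp2 r (Bm r J A m) G m (effE r ρ κ₀ δ R m x ξ) i ∂(gpi (Fin n)))
      ((δ • G.mulVec ((R * Rᵀ).mulVec (sv x - m) + kap r ρ κ₀ (R * Rᵀ) G m)) i)
    calc _ ≤ _ := h3
      _ ≤ K1 * (δ * √δ) + K2 * (δ * √δ) := add_le_add h1 h2
      _ = _ := by ring
  have key : ∀ i, |((fun i => ∑ x, ν x * ∫ ξ, F x ξ i ∂(gpi (Fin n)))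
      - δ • G.mulVec ((R * Rᵀ).mulVec (mean ν - m) + kap r ρ κ₀ (R * Rᵀ) G m)) i|
      ≤ (K1 + K2) * (δ * √δ) := by
    intro i
    have hlin : (δ • G.mulVec ((R * Rᵀ).mulVec (mean ν - m) + kap r ρ κ₀ (R * Rᵀ) G m)) i
        = ∑ x, ν x * (δ • G.mulVec ((R * Rᵀ).mulVec (sv x - m) + kap r ρ κ₀ (R * Rᵀ) G m)) i := by
      have hmean : (R * Rᵀ).mulVec (mean ν - m) + kap r ρ κ₀ (R * Rᵀ) G m
          = ∑ x, ν x • ((R * Rᵀ).mulVec (sv x - m) + kap r ρ κ₀ (R * Rᵀ) G m) := by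
        have h5 : mean ν - m = ∑ x, ν x • (sv x - m) := by
          funext k
          simp only [Pi.sub_apply, Finset.sum_apply, Pi.smul_apply, smul_eq_mul, mean, mul_sub,
            Finset.sum_sub_distrib]
          rw [← Finset.sum_mul, hν.2, one_mul]
        simp only [smul_add, Finset.sum_add_distrib]
        rw [← Finset.sum_smul, hν.2, one_smul, h5, Matrix.mulVec_sum]
        simp_rw [Matrix.mulVec_smul]
      rw [hmean, Matrix.mulVec_sum, Finset.smul_sum, Finset.sum_apply]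
      refine Finset.sum_congr rfl fun x _ => ?_
      rw [Matrix.mulVec_smul]
      simp only [Pi.smul_apply, smul_eq_mul]
      ring
    rw [Pi.sub_apply, hlin, ← Finset.sum_sub_distrib]
    calc |∑ x, (ν x * (∫ ξ, F x ξ i ∂(gpi (Fin n)))
          - ν x * (δ • G.mulVec ((R * Rᵀ).mulVec (sv x - m) + kap r ρ κ₀ (R * Rᵀ) G m)) i)|
        ≤ ∑ x, |ν x * (∫ ξ, F x ξ i ∂(gpi (Fin n)))
          - ν x * (δ • G.mulVec ((R * Rᵀ).mulVec (sv x - m) + kap r ρ κ₀ (R * Rᵀ) G m)) i| :=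
          Finset.abs_sum_le_sum_abs _ _
      _ ≤ ∑ x, ν x * ((K1 + K2) * (δ * √δ)) := by
          refine Finset.sum_le_sum fun x _ => ?_
          rw [← mul_sub, abs_mul, abs_of_nonneg (hν.1 x)]
          exact mul_le_mul_of_nonneg_left (hx x i) (hν.1 x)
      _ = (K1 + K2) * (δ * √δ) := by rw [← Finset.sum_mul, hν.2, one_mul]
  refine (nv_le_sqrt (mul_nonneg (add_nonneg hK1 hK2) hdd) key).trans (le_of_eq ?_)
  ring

end Vale.Agent.P150.F
end
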