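import Mathlib
import Vale.Agent.P150.Bdl.B28
import Vale.Agent.P150.Bdl.B15
import Vale.Agent.P150.Bdl.B8
import Vale.Agent.P150.Bdl.B20
import Vale.Agent.P150.Bdl.B24
import Vale.Agent.P150.Bdl.B21
import Vale.Agent.P150.Bdl.B17
import Vale.Agent.P150.Bdl.B26
import Vale.Agent.P150.Bdl.B19

set_option linter.all false

section

/-! P150 FULL, D3M steps 2-3 (helper162): the core inequality. -/

open MeasureTheory ProbabilityTheory Filter Topology Real
open scoped Matrix

namespace Vale.Agent.P150.F.T23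

variable {n m : ℕ}

theorem g_vsub {u v : Vec n → Vec n} (h : ∀ i, G fun z => u z i) (h' : ∀ i, G fun z => v z i)
    (i : Fin n) : G fun z => (u z - v z) i := (h i).sub (h' i)

theorem g_nv {u : Vec n → Vec n} (h : ∀ i, G fun z => u z i) : G fun z => nv (u z) := by
  obtain ⟨hc, C, c, hC, hc0, hb⟩ := g_sq h
  have e : (fun z => nv (u z)) = fun z => √(sq (u z)) := by
    funext z; exact nv_eq_sqrt _
  refine ⟨by rw [e]; exact hc.sqrt, C + 1, c, by linarith, hc0, fun z => ?_⟩
  have h1 := hb z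
  have h2 : nv (u z) ≤ 1 + sq (u z) := by
    rw [← nv_sq]; linarith only [nv_nonneg (u z), sq_nonneg (nv (u z) - 1)]
  have h3 : 1 ≤ Real.exp (c * ∑ i, |z i|) :=
    Real.one_le_exp (mul_nonneg hc0 (Finset.sum_nonneg fun i _ => abs_nonneg _))
  rw [abs_of_nonneg (nv_nonneg _)]
  have h4 := le_abs_self (sq (u z))
  linarith

/-- the AMP iterate at the label `z`, coupling `r = β - s` -/
noncomputable def mm (β s : ℝ) (J : Mat n) (k : ℕ) (x : Cfg n) (z : Vec n) : Vec n :=
  ampM ((β - s) • J) (β - s) z x k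

/-- the AMP field at the label `z`, coupling `r = β - s` -/
noncomputable def aa (β s : ℝ) (J : Mat n) (k : ℕ) (x : Cfg n) (z : Vec n) : Vec n :=
  ampA ((β - s) • J) (β - s) z x k

theorem g_mm (β s : ℝ) (J : Mat n) (k : ℕ) (x : Cfg n) (i : Fin n) :
    G fun z => mm β s J k x z i := (g_amp _ _ x k).1 i

theorem g_aa (β s : ℝ) (J : Mat n) (k : ℕ) (x : Cfg n) (i : Fin n) :
    G fun z => aa β s J k x z i := (g_amp _ _ x k).2 i

theorem abs_mm (β s : ℝ) (J : Mat n) (k : ℕ) (x : Cfg n) (z : Vec n) (i : Fin n) :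
    |mm β s J k x z i| ≤ 1 := t_absM _ _ _ _ _ _

/-- the error terms of steps (2), (3) at level `k` -/
structure Errs (β κ s : ℝ) (J : Mat n) (R : Matrix (Fin n) (Fin m) ℝ) (ν : Cfg n → ℝ) (k : ℕ)
    (q ε : ℝ) : Prop where
  hA1 : |EC ν R s (fun x z => ip (mm β s J (k + 2) x z) (aa β s J (k + 1) x z)) / n
    - (β ^ 2 + s * κ - (β - s) ^ 2 * (1 - q))| ≤ ε
  hA0 : |EC ν R s (fun x z => ip (sv x) (aa β s J 0 x z)) / n - (β ^ 2 + s * κ)| ≤ ε
  hH : |β * (EC ν R s (fun x _ => qf J (sv x)) / n) - β ^ 2| ≤ ε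
  hQ : EC ν R s (fun x z => |qq (mm β s J (k + 1) x z) - q|) ≤ ε
  hU : EC ν R s (fun x z => |sq (mm β s J k x z - mm β s J (k + 1) x z) / n
    - (qq (mm β s J k x z) - qq (mm β s J (k + 1) x z))|) ≤ ε
  hD : EC ν R s (fun x z => nv (mm β s J (k + 1) x z - mm β s J (k + 2) x z)
    * nv (aa β s J (k + 1) x z)) / n ≤ ε
  h2 : EC ν R s (fun x z => |ip ((R * Rᵀ).mulVec (mean (pst ν (R * Rᵀ) s z)))
    (sv x - mm β s J (k + 1) x z)|) / n ≤ ε
  h3 : EC ν R s (fun x z => |ip z (sv x - mm β s J (k + 1) x z)|) / n ≤ ε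

theorem t_RRt_symm (R : Matrix (Fin n) (Fin m) ℝ) (i j : Fin n) :
    (R * Rᵀ) i j = (R * Rᵀ) j i := by
  rw [Matrix.mul_apply, Matrix.mul_apply]
  exact Finset.sum_congr rfl fun k _ => by
    rw [Matrix.transpose_apply, Matrix.transpose_apply]; ring

theorem t_RRt_psd (R : Matrix (Fin n) (Fin m) ℝ) (v : Vec n) : 0 ≤ qf (R * Rᵀ) v := by
  have e : qf (R * Rᵀ) v = ∑ j, (Rᵀ.mulVec v j) ^ 2 := by
    have h1 : qf (R * Rᵀ) v = v ⬝ᵥ (R * Rᵀ).mulVec v := rfl
    rw [h1, ← Matrix.mulVec_mulVec, Matrix.dotProduct_mulVec, ← Matrix.mulVec_transpose]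
    unfold dotProduct
    exact Finset.sum_congr rfl fun j _ => by ring
  rw [e]
  exact Finset.sum_nonneg fun _ _ => sq_nonneg _

theorem t_qf_add_smul (J : Mat n) (κ : ℝ) (v : Vec n) :
    qf (J + κ • (1 : Mat n)) v = qf J v + κ * sq v := by
  unfold qf
  rw [Matrix.add_mulVec, Matrix.smul_mulVec, Matrix.one_mulVec, ip_add_right, ip_smul_right,
    ipN_self]

/-- **core of steps (2), (3)** -/
theorem core (hn : 0 < n) {β κ s : ℝ} (hβ1 : β < 1) (hs : 0 ≤ s) (hr : s < β) (hκ : 0 ≤ κ)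
    {J : Mat n} {R : Matrix (Fin n) (Fin m) ℝ} (hR : R * Rᵀ = J + κ • (1 : Mat n))
    {ν : Cfg n → ℝ} (hν : IsProb ν) {k : ℕ} {q ε : ℝ} (hq0 : 0 ≤ q) (hq1 : q ≤ 1)
    (hε : 0 ≤ ε) (H : Errs β κ s J R ν k q ε) :
    κ * (1 - q) + (β - s) * (1 - q) ^ 2 - (κ + 2 + 8 / (β - s)) * ε
      ≤ EC ν R s (fun _ z => ∑ i, (R * Rᵀ * covM (pst ν (R * Rᵀ) s z)) i i) / n := by
  have hn' : (0 : ℝ) < n := by exact_mod_cast hn
  set r : ℝ := β - s with hr_def
  have hr0 : 0 < r := by rw [hr_def]; linarith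
  have hβ0 : 0 < β := by linarith only [hr0, hs]
  have hrβ : r ≤ β := by rw [hr_def]; linarith
  have hr1 : r ≤ 1 := by linarith
  have hsβ : s = β - r := by rw [hr_def]; ring
  have gm := fun x => g_mm β s J (k + 1) x
  have gm' := fun x => g_mm β s J k x
  have gm2 := fun x => g_mm β s J (k + 2) x
  have ga := fun x => g_aa β s J (k + 1) x
  have gz : ∀ i, G fun z : Vec n => z i := fun i => G.coord i
  have gs : ∀ (x : Cfg n) i, G fun _ : Vec n => sv x i := fun x i => G.const _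
  -- abbreviations for the expectations
  set XJ : ℝ := EC ν R s (fun x _ => qf J (sv x)) / n with hXJ
  set XM : ℝ := EC ν R s (fun x z => qf J (mm β s J (k + 1) x z)) / n with hXM
  set XQ : ℝ := EC ν R s (fun x z => qq (mm β s J (k + 1) x z)) with hXQ
  -- 1. the trace
  have e1 : EC ν R s (fun _ z => ∑ i, (R * Rᵀ * covM (pst ν (R * Rᵀ) s z)) i i)
      = EC ν R s (fun x _ => qf (R * Rᵀ) (sv x))
        - EC ν R s (fun _ z => qf (R * Rᵀ) (mean (pst ν (R * Rᵀ) s z))) := by
    have h1 : (fun (_ : Cfg n) z => ∑ i, (R * Rᵀ * covM (pst ν (R * Rᵀ) s z)) i i)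
        = fun _ z => Ex (pst ν (R * Rᵀ) s z) (fun x => qf (R * Rᵀ) (sv x))
          - qf (R * Rᵀ) (mean (pst ν (R * Rᵀ) s z)) := by
      funext _ z
      exact t_trQ _ (pst_isProb hν _ s z)
    rw [h1, ec_sub (fun _ => g_Ex hν _ fun x => G.const (qf (R * Rᵀ) (sv x)))
      (fun _ => g_qf _ (g_mean hν _ s))]
    rw [← ec_bayes hν hs (Φ := fun x _ => qf (R * Rᵀ) (sv x)) fun x => G.const _]
  -- 2. the energy of the posterior mean
  have e2 : EC ν R s (fun _ z => qf (R * Rᵀ) (mean (pst ν (R * Rᵀ) s z)))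
      ≤ 2 * EC ν R s (fun x z => |ip ((R * Rᵀ).mulVec (mean (pst ν (R * Rᵀ) s z)))
          (sv x - mm β s J (k + 1) x z)|)
        + EC ν R s (fun x z => qf (R * Rᵀ) (mm β s J (k + 1) x z)) := by
    have g1 : ∀ x, G fun z => |ip ((R * Rᵀ).mulVec (mean (pst ν (R * Rᵀ) s z)))
          (sv x - mm β s J (k + 1) x z)| := fun x =>
      (g_ip (g_mulVec _ (g_mean hν _ s)) (g_vsub (gs x) (gm x))).abs
    have g2 : ∀ x, G fun z => qf (R * Rᵀ) (mm β s J (k + 1) x z) := fun x => g_qf _ (gm x)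
    rw [ec_bayes hν hs g1, ec_bayes hν hs g2, ← EC_const_mul, ← ec_add
      (fun _ => (g_Ex hν _ g1).cmul 2) (fun _ => g_Ex hν _ g2)]
    refine ec_mono hν (fun _ => g_qf _ (g_mean hν _ s))
      (fun _ => ((g_Ex hν _ g1).cmul 2).add (g_Ex hν _ g2)) fun _ z => ?_
    exact t_step2 (t_RRt_symm R) (t_RRt_psd R) (pst_isProb hν _ s z) _
  -- 3. splitting `Q = J + κ`
  have e3 : EC ν R s (fun x _ => qf (R * Rᵀ) (sv x)) = n * XJ + κ * n := by
    have h1 : (fun (x : Cfg n) (_ : Vec n) => qf (R * Rᵀ) (sv x))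
        = fun x _ => qf J (sv x) + κ * n := by
      funext x _
      rw [hR, t_qf_add_smul]
      have : sq (sv x) = n := by
        unfold sq
        have : ∀ i, sv x i ^ 2 = 1 := fun i => by rw [← sq_abs, t_abs_sv, one_pow]
        simp [this]
      rw [this]
    rw [h1, ec_add (fun x => G.const _) (fun _ => G.const _), EC_const hν.2, hXJ]
    field_simp
  have e4 : EC ν R s (fun x z => qf (R * Rᵀ) (mm β s J (k + 1) x z)) = n * XM + κ * n * XQ := by
    have h1 : (fun (x : Cfg n) (z : Vec n) => qf (R * Rᵀ) (mm β s J (k + 1) x z))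
        = fun x z => qf J (mm β s J (k + 1) x z) + κ * n * qq (mm β s J (k + 1) x z) := by
      funext x z
      rw [hR, t_qf_add_smul]
      unfold qq
      field_simp
    rw [h1, ec_add (fun x => g_qf _ (gm x)) (fun x => (g_qq (gm x)).cmul _), EC_const_mul, hXM,
      hXQ]
    field_simp
  -- 4. the overlap
  have e5 : |XQ - q| ≤ ε := by
    have h1 : XQ - q = EC ν R s (fun x z => qq (mm β s J (k + 1) x z) - q) := by
      rw [ec_sub (fun x => g_qq (gm x)) (fun _ => G.const _), EC_const hν.2]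
    rw [h1]
    exact (ec_abs hν fun x => (g_qq (gm x)).sub (G.const _)).trans H.hQ
  -- 5. the AMP identity
  set T : ℝ := EC ν R s (fun x z => (1 - qq (mm β s J (k + 1) x z)) *
      ip (mm β s J (k + 1) x z) (mm β s J k x z)) / n with hT
  have gT : ∀ x, G fun z => (1 - qq (mm β s J (k + 1) x z)) *
      ip (mm β s J (k + 1) x z) (mm β s J k x z) := fun x =>
    ((G.const 1).sub (g_qq (gm x))).mul (g_ip (gm x) (gm' x))
  have e6 : r * XM = EC ν R s (fun x z => ip (mm β s J (k + 1) x z) (aa β s J (k + 1) x z)) / n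
      - EC ν R s (fun x z => ip z (mm β s J (k + 1) x z)) / n + r ^ 2 * T := by
    have h1 : EC ν R s (fun x z => r * qf J (mm β s J (k + 1) x z))
        = EC ν R s (fun x z => ip (mm β s J (k + 1) x z) (aa β s J (k + 1) x z)
        - ip z (mm β s J (k + 1) x z)
        + r ^ 2 * ((1 - qq (mm β s J (k + 1) x z)) *
          ip (mm β s J (k + 1) x z) (mm β s J k x z))) := by
      congr 1
      funext x z
      exact t_amp_id J r z x k
    rw [EC_const_mul, ec_add (fun x => (g_ip (gm x) (ga x)).sub (g_ip gz (gm x)))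
      (fun x => (gT x).cmul _), ec_sub (fun x => g_ip (gm x) (ga x)) (fun x => g_ip gz (gm x)),
      EC_const_mul] at h1
    rw [hXM, hT, mul_div_assoc', h1]
    ring
  have e7 : |T - (1 - q) * q| ≤ ε + ε / 2 := by
    have h1 : T - (1 - q) * q = EC ν R s (fun x z => (1 - qq (mm β s J (k + 1) x z)) *
      ip (mm β s J (k + 1) x z) (mm β s J k x z) / n - (1 - q) * q) := by
      rw [ec_sub (fun x => (gT x).div_const _) (fun _ => G.const _), EC_const hν.2, hT]
      congr 1
      simp_rw [div_eq_mul_inv _ (n : ℝ), mul_comm _ ((n : ℝ)⁻¹)]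
      rw [EC_const_mul]
    rw [h1]
    have gU : ∀ x, G fun z => |sq (mm β s J k x z - mm β s J (k + 1) x z) / n
        - (qq (mm β s J k x z) - qq (mm β s J (k + 1) x z))| := fun x =>
      (((g_sq (g_vsub (gm' x) (gm x))).div_const _).sub
        ((g_qq (gm' x)).sub (g_qq (gm x)))).abs
    calc _ ≤ EC ν R s (fun x z => |(1 - qq (mm β s J (k + 1) x z)) *
          ip (mm β s J (k + 1) x z) (mm β s J k x z) / n - (1 - q) * q|) :=
          ec_abs hν fun x => ((gT x).div_const _).sub (G.const _)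
      _ ≤ EC ν R s (fun x z => |qq (mm β s J (k + 1) x z) - q|
          + 1 / 2 * |sq (mm β s J k x z - mm β s J (k + 1) x z) / n
        - (qq (mm β s J k x z) - qq (mm β s J (k + 1) x z))|) := by
          refine ec_mono hν (fun x => (((gT x).div_const _).sub (G.const _)).abs)
            (fun x => ((g_qq (gm x)).sub (G.const _)).abs.add ((gU x).cmul _)) fun x z => ?_
          have := t_overlap hn (abs_mm β s J (k + 1) x z) (abs_mm β s J k x z) hq0 hq1
          linarith only [this]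
      _ ≤ _ := by
          rw [ec_add (fun x => ((g_qq (gm x)).sub (G.const _)).abs) (fun x => (gU x).cmul _),
            EC_const_mul]
          have := H.hQ
          have := H.hU
          linarith
  -- 6. the term `⟨m, a⟩`
  have e8 : |EC ν R s (fun x z => ip (mm β s J (k + 1) x z) (aa β s J (k + 1) x z)) / n
      - (β ^ 2 + s * κ - r ^ 2 * (1 - q))| ≤ 2 * ε := by
    have h1 : EC ν R s (fun x z => ip (mm β s J (k + 1) x z) (aa β s J (k + 1) x z))
        = EC ν R s (fun x z => ip (mm β s J (k + 1) x z - mm β s J (k + 2) x z)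
            (aa β s J (k + 1) x z))
          + EC ν R s (fun x z => ip (mm β s J (k + 2) x z) (aa β s J (k + 1) x z)) := by
      rw [← ec_add (fun x => g_ip (g_vsub (gm x) (gm2 x)) (ga x))
        (fun x => g_ip (gm2 x) (ga x))]
      congr 1
      funext x z
      rw [ip_sub_left]
      ring
    have h2 : |EC ν R s (fun x z => ip (mm β s J (k + 1) x z - mm β s J (k + 2) x z)
            (aa β s J (k + 1) x z)) / n| ≤ ε := by
      rw [abs_div, abs_of_pos hn', div_le_iff₀ hn']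
      refine (ec_abs hν fun x => g_ip (g_vsub (gm x) (gm2 x)) (ga x)).trans ?_
      have h3 := H.hD
      rw [div_le_iff₀ hn'] at h3
      refine le_trans (ec_mono hν (fun x => (g_ip (g_vsub (gm x) (gm2 x)) (ga x)).abs)
        (fun x => (g_nv (g_vsub (gm x) (gm2 x))).mul (g_nv (ga x))) fun x z => ?_) h3
      exact abs_ip_le _ _
    have h3 := H.hA1
    rw [← hr_def] at h3
    rw [h1, add_div]
    calc _ = |EC ν R s (fun x z => ip (mm β s J (k + 1) x z - mm β s J (k + 2) x z)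
            (aa β s J (k + 1) x z)) / n
          + (EC ν R s (fun x z => ip (mm β s J (k + 2) x z) (aa β s J (k + 1) x z)) / n
            - (β ^ 2 + s * κ - r ^ 2 * (1 - q)))| := by congr 1; ring
      _ ≤ ε + ε := (abs_add_le _ _).trans (add_le_add h2 h3)
      _ = _ := by ring
  -- 7. the term `⟨y, m⟩`
  have e9 : |EC ν R s (fun x z => ip z (mm β s J (k + 1) x z)) / n
      - (β ^ 2 + s * κ - r * XJ)| ≤ 2 * ε := by
    have h1 : EC ν R s (fun x z => ip z (mm β s J (k + 1) x z))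
        = EC ν R s (fun x z => ip (sv x) (aa β s J 0 x z)) - r * (n * XJ)
          - EC ν R s (fun x z => ip z (sv x - mm β s J (k + 1) x z)) := by
      have h2 : r * (n * XJ) = EC ν R s (fun x _ => r * qf J (sv x)) := by
        rw [EC_const_mul, hXJ]; field_simp
      rw [h2, ← ec_sub (fun x => g_ip (gs x) (g_aa β s J 0 x)) (fun x => G.const _),
        ← ec_sub (fun x => (g_ip (gs x) (g_aa β s J 0 x)).sub (G.const _))
          (fun x => g_ip gz (g_vsub (gs x) (gm x)))]
      congr 1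
      funext x z
      rw [ip_sub_right]
      have h3 : ip (sv x) (aa β s J 0 x z) = r * qf J (sv x) + ip z (sv x) := t_amp0 J r z x
      rw [h3]
      ring
    have h2 : |EC ν R s (fun x z => ip z (sv x - mm β s J (k + 1) x z)) / n| ≤ ε := by
      rw [abs_div, abs_of_pos hn', div_le_iff₀ hn']
      have h3 := H.h3
      rw [div_le_iff₀ hn'] at h3
      exact (ec_abs hν fun x => g_ip gz (g_vsub (gs x) (gm x))).trans h3
    have h3 := H.hA0
    rw [h1]
    have h4 : (EC ν R s (fun x z => ip (sv x) (aa β s J 0 x z)) - r * (n * XJ)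
          - EC ν R s (fun x z => ip z (sv x - mm β s J (k + 1) x z))) / n
        - (β ^ 2 + s * κ - r * XJ)
        = (EC ν R s (fun x z => ip (sv x) (aa β s J 0 x z)) / n - (β ^ 2 + s * κ))
          - EC ν R s (fun x z => ip z (sv x - mm β s J (k + 1) x z)) / n := by
      field_simp
      ring
    rw [h4]
    calc _ ≤ ε + ε := (abs_sub _ _).trans (add_le_add h3 h2)
      _ = _ := by ring
  -- 8. assembly
  have hJ : |XJ - β| ≤ ε / β := by
    have h1 := H.hH
    rw [← hXJ] at h1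
    rw [le_div_iff₀ hβ0, ← abs_of_pos hβ0, ← abs_mul]
    rw [abs_of_pos hβ0]
    have : (XJ - β) * β = β * XJ - β ^ 2 := by ring
    rw [this]
    exact h1
  have hεβ : ε / β ≤ ε / r := by
    exact div_le_div_of_nonneg_left hε hr0 hrβ
  have hrJ : r * |XJ - β| ≤ ε := by
    calc r * |XJ - β| ≤ r * (ε / r) := mul_le_mul_of_nonneg_left (hJ.trans hεβ) hr0.le
      _ = ε := by field_simp
  have f1 : r * XM ≤ r * β - r ^ 2 * (1 - q) ^ 2 + 7 * ε := by
    rw [e6]
    have a1 := (abs_le.1 e8).2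
    have a2 := (abs_le.1 e9).1
    have a3 := (abs_le.1 e7).2
    have a4 : r ^ 2 * T ≤ r ^ 2 * ((1 - q) * q) + 3 / 2 * ε := by
      have h1 : r ^ 2 * (T - (1 - q) * q) ≤ r ^ 2 * (ε + ε / 2) :=
        mul_le_mul_of_nonneg_left a3 (sq_nonneg r)
      have h2 : r ^ 2 * (ε + ε / 2) ≤ 1 * (ε + ε / 2) :=
        mul_le_mul_of_nonneg_right (by (by_contra nlg; linarith only [mul_pos (sub_pos.2 (not_le.1 nlg)) (sub_pos.2 hr0), mul_nonneg (le_of_lt (sub_pos.2 (not_le.1 nlg))) (sub_nonneg.2 hr1), mul_pos (sub_pos.2 hβ1) (sub_pos.2 hβ1), mul_pos (sub_pos.2 hβ1) (sub_pos.2 hβ0), mul_nonneg (le_of_lt (sub_pos.2 hr0)) (sub_nonneg.2 hrβ), mul_nonneg (le_of_lt (sub_pos.2 hβ0)) (sub_nonneg.2 hrβ)])) (by linarith only [hε])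
      linarith only [h2, h1]
    have a5 : r * XJ ≤ r * β + ε := by
      have h1 := le_abs_self (XJ - β)
      have h2 : r * (XJ - β) ≤ r * |XJ - β| := mul_le_mul_of_nonneg_left h1 hr0.le
      linarith only [h2, hrJ]
    have a6 : r ^ 2 * ((1 - q) * q) = r ^ 2 * (1 - q) - r ^ 2 * (1 - q) ^ 2 := by ring
    linarith only [a5, a4, a2, a1, hε]
  have f2 : XM ≤ β - r * (1 - q) ^ 2 + 7 * ε / r := by
    have h1 : XM = r * XM / r := by field_simp
    have h2 : β - r * (1 - q) ^ 2 + 7 * ε / r = (r * β - r ^ 2 * (1 - q) ^ 2 + 7 * ε) / r := by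
      field_simp
    rw [h1, h2]
    exact div_le_div_of_nonneg_right f1 hr0.le
  have f3 : XJ ≥ β - ε / r := by
    have := (abs_le.1 (hJ.trans hεβ)).1
    linarith only [this]
  have f4 : κ * XQ ≤ κ * q + κ * ε := by
    have h1 := (abs_le.1 e5).2
    have := mul_le_mul_of_nonneg_left (by linarith only [h1] : XQ ≤ q + ε) hκ
    linarith only [this]
  have f5 := H.h2
  rw [div_le_iff₀ hn'] at f5
  rw [e1, e3, le_div_iff₀ hn']
  have f6 := e2
  rw [e4] at f6
  have f7 : n * XM ≤ n * (β - r * (1 - q) ^ 2 + 7 * ε / r) := mul_le_mul_of_nonneg_left f2 hn'.le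
  have f8 : n * (β - ε / r) ≤ n * XJ := mul_le_mul_of_nonneg_left f3 hn'.le
  have f9 : κ * n * XQ ≤ n * (κ * q + κ * ε) := by
    have := mul_le_mul_of_nonneg_left f4 hn'.le
    linarith only [this]
  have f10 : 8 / r * ε = ε / r + 7 * ε / r := by ring
  have f11 : (κ * (1 - q) + r * (1 - q) ^ 2 - (κ + 2 + 8 / r) * ε) * n
      = n * (β - ε / r) + κ * n - (2 * (ε * n) + (n * (β - r * (1 - q) ^ 2 + 7 * ε / r)
        + n * (κ * q + κ * ε))) := by
    have : (κ + 2 + 8 / r) * ε = κ * ε + 2 * ε + (ε / r + 7 * ε / r) := by rw [← f10]; ring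
    rw [this]
    ring
  rw [f11]
  linarith only [f9, f8, f7, f6, f5]

end Vale.Agent.P150.F.T23
end

section

/-! P150 FULL, D3M steps 2-3 (helper162): second moments, and the error terms (h2), (h3), (hD). -/

open MeasureTheory ProbabilityTheory Filter Topology Real
open scoped Matrix

namespace Vale.Agent.P150.F.T23

variable {n m : ℕ}

theorem t_sq_sv (x : Cfg n) : sq (sv x) = n := by
  unfold sq
  have : ∀ i, sv x i ^ 2 = 1 := fun i => by rw [← sq_abs, t_abs_sv, one_pow]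
  simp [this]

theorem t_sq_le_n {v : Vec n} (hv : ∀ i, |v i| ≤ 1) : sq v ≤ n := by
  unfold sq
  calc ∑ i, v i ^ 2 ≤ ∑ _i : Fin n, (1 : ℝ) := Finset.sum_le_sum fun i _ => by
        rw [← sq_abs]; exact pow_le_one₀ (abs_nonneg _) (hv i)
    _ = n := by simp

theorem t_nv_le_of_sq {v : Vec n} {C : ℝ} (hC : 0 ≤ C) (h : sq v ≤ C ^ 2) : nv v ≤ C := by
  rw [nv_eq_sqrt]; exact Real.sqrt_le_iff.2 ⟨hC, h⟩

theorem t_nv_opLe {A : Mat n} {C : ℝ} (hC : 0 ≤ C) (h : OpLe A C) (v : Vec n) :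
    nv (A.mulVec v) ≤ C * nv v := by
  refine t_nv_le_of_sq (mul_nonneg hC (nv_nonneg v)) ?_
  rw [mul_pow, nv_sq]
  exact h v

theorem t_nv_Q {J : Mat n} {κ : ℝ} (hκ : 0 ≤ κ) (hJ : OpLe J 3) {v : Vec n}
    (hv : ∀ i, |v i| ≤ 1) : nv ((J + κ • (1 : Mat n)).mulVec v) ≤ (κ + 3) * √n := by
  have h1 : nv v ≤ √n := by
    rw [nv_eq_sqrt]; exact Real.sqrt_le_sqrt (t_sq_le_n hv)
  have e : (J + κ • (1 : Mat n)).mulVec v = J.mulVec v + κ • v := by
    rw [Matrix.add_mulVec, Matrix.smul_mulVec, Matrix.one_mulVec]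
  rw [e]
  calc nv (J.mulVec v + κ • v) ≤ nv (J.mulVec v) + nv (κ • v) := nv_add_le _ _
    _ ≤ 3 * nv v + κ * nv v := by
        refine add_le_add (t_nv_opLe (by norm_num) hJ v) ?_
        rw [nv_smul, abs_of_nonneg hκ]
    _ = (κ + 3) * nv v := by ring
    _ ≤ _ := mul_le_mul_of_nonneg_left h1 (by linarith)

/-- second moment of the label -/
theorem t_sq_z {κ s : ℝ} (hκ : 0 ≤ κ) (hs : 0 ≤ s) (hs1 : s ≤ 1) {J : Mat n}
    (hd : ∀ i, J i i = 0) (hJ : OpLe J 3)
    {R : Matrix (Fin n) (Fin m) ℝ} (hR : R * Rᵀ = J + κ • (1 : Mat n))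
    {ν : Cfg n → ℝ} (hν : IsProb ν) :
    EC ν R s (fun _ z => sq z) ≤ ((κ + 3) ^ 2 + κ) * n := by
  have h6 := (thCH6a n m R s hs ν hν).2.2.2
  have e1 : EC ν R s (fun _ z => sq z) = ∑ i, EC ν R s (fun _ z => z i * z i) := by
    unfold sq
    simp_rw [pow_two]
    exact EC_sum Finset.univ ν R s fun i _ x => ((G.coord i).mul (G.coord i)).int R s x
  rw [e1]
  have e2 : ∑ i, EC ν R s (fun _ z => z i * z i)
      = s * (κ * n) + s ^ 2 * Ex ν (fun x => sq ((R * Rᵀ).mulVec (sv x))) := by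
    simp_rw [h6]
    rw [Finset.sum_add_distrib, ← Finset.mul_sum, ← Finset.mul_sum]
    congr 1
    · congr 1
      rw [hR]
      simp [hd]
      ring
    · congr 1
      unfold Ex sq
      rw [Finset.sum_comm]
      refine Finset.sum_congr rfl fun x _ => ?_
      rw [Finset.mul_sum]
      exact Finset.sum_congr rfl fun i _ => by ring
  rw [e2]
  have h1 : Ex ν (fun x => sq ((R * Rᵀ).mulVec (sv x))) ≤ (κ + 3) ^ 2 * n := by
    unfold Ex
    calc ∑ x, ν x * sq ((R * Rᵀ).mulVec (sv x)) ≤ ∑ x, ν x * ((κ + 3) ^ 2 * n) := by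
          refine Finset.sum_le_sum fun x _ => mul_le_mul_of_nonneg_left ?_ (hν.1 x)
          rw [hR, ← nv_sq]
          have h2 := t_nv_Q hκ hJ (v := sv x) fun i => (t_abs_sv x i).le
          calc nv ((J + κ • (1 : Mat n)).mulVec (sv x)) ^ 2 ≤ ((κ + 3) * √n) ^ 2 :=
                pow_le_pow_left₀ (nv_nonneg _) h2 2
            _ = (κ + 3) ^ 2 * n := by rw [mul_pow, Real.sq_sqrt (Nat.cast_nonneg n)]
      _ = _ := by rw [← Finset.sum_mul, hν.2, one_mul]
  have hn : (0 : ℝ) ≤ n := Nat.cast_nonneg n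
  have h2 : s * (κ * n) ≤ 1 * (κ * n) := mul_le_mul_of_nonneg_right hs1 (by (clear * - hκ; positivity))
  have h3 : s ^ 2 * Ex ν (fun x => sq ((R * Rᵀ).mulVec (sv x)))
      ≤ 1 * ((κ + 3) ^ 2 * n) := by
    refine mul_le_mul (by linarith only [mul_nonneg (sub_nonneg.2 hs) (sub_nonneg.2 hs1), mul_nonneg (sub_nonneg.2 hs1) (sub_nonneg.2 hs1)]) h1 ?_ zero_le_one
    unfold Ex
    exact Finset.sum_nonneg fun x _ => mul_nonneg (hν.1 x) (sqN_nonneg _)
  linarith

/-- size of the AMP fields -/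
theorem t_sq_a {J : Mat n} (hJ : OpLe J 3) {r : ℝ} (hr0 : 0 ≤ r) (hr1 : r ≤ 1) (z : Vec n)
    (x : Cfg n) (k : ℕ) : nv (ampA (r • J) r z x k) ≤ 4 * √n + nv z := by
  have hn0 : 0 ≤ √(n : ℝ) := Real.sqrt_nonneg _
  have h1 : ∀ j, nv (ampM (r • J) r z x j) ≤ √n := fun j => by
    rw [nv_eq_sqrt]; exact Real.sqrt_le_sqrt (t_sq_le_n (t_absM _ _ _ _ _))
  have h2 : ∀ j, nv ((r • J).mulVec (ampM (r • J) r z x j)) ≤ 3 * √n := fun j => by
    rw [Matrix.smul_mulVec, nv_smul, abs_of_nonneg hr0]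
    have h3 := t_nv_opLe (by norm_num) hJ (ampM (r • J) r z x j)
    have h4 : nv (J.mulVec (ampM (r • J) r z x j)) ≤ 3 * √n :=
      h3.trans (mul_le_mul_of_nonneg_left (h1 j) (by norm_num))
    calc r * nv (J.mulVec (ampM (r • J) r z x j)) ≤ 1 * nv (J.mulVec (ampM (r • J) r z x j)) :=
          mul_le_mul_of_nonneg_right hr1 (nv_nonneg _)
      _ ≤ _ := by rw [one_mul]; exact h4
  cases k with
  | zero =>
    have e : ampA (r • J) r z x 0 = (r • J).mulVec (ampM (r • J) r z x 0) + z := rfl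
    rw [e]
    have := nv_add_le ((r • J).mulVec (ampM (r • J) r z x 0)) z
    have := h2 0
    linarith
  | succ k =>
    have e : ampA (r • J) r z x (k + 1) = (r • J).mulVec (ampM (r • J) r z x (k + 1)) + z
        - (r ^ 2 * (1 - qq (ampM (r • J) r z x (k + 1)))) • ampM (r • J) r z x k := rfl
    rw [e]
    have h3 := nv_sub_le ((r • J).mulVec (ampM (r • J) r z x (k + 1)) + z)
      ((r ^ 2 * (1 - qq (ampM (r • J) r z x (k + 1)))) • ampM (r • J) r z x k)
    have h4 := nv_add_le ((r • J).mulVec (ampM (r • J) r z x (k + 1))) z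
    have h5 := h2 (k + 1)
    have hq := t_qq_mem (t_absM (r • J) r z x (k + 1))
    have h6 : nv ((r ^ 2 * (1 - qq (ampM (r • J) r z x (k + 1)))) • ampM (r • J) r z x k)
        ≤ √n := by
      rw [nv_smul, abs_of_nonneg (mul_nonneg (sq_nonneg r) (by linarith [hq.2]))]
      have h7 : r ^ 2 * (1 - qq (ampM (r • J) r z x (k + 1))) ≤ 1 * 1 :=
        mul_le_mul (by linarith only [mul_nonneg (sub_nonneg.2 hr1) (sub_nonneg.2 hr1), mul_nonneg (sub_nonneg.2 hr0) (sub_nonneg.2 hr1)]) (by linarith [hq.1]) (by linarith [hq.2]) zero_le_one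
      calc _ ≤ (1 * 1) * √n := mul_le_mul h7 (h1 k) (nv_nonneg _) (by norm_num)
        _ = _ := by ring
    linarith

section

variable {ν : Cfg n → ℝ} {R : Matrix (Fin n) (Fin m) ℝ} {β κ s : ℝ} {J : Mat n}

/-- the lift of (U2): for every continuous field `v (z)` with `|v| ≤ 1` -/
theorem lift_U2 (hn : 0 < n) (hν : IsProb ν) (hp : ∀ x, 0 < ν x) (hs : 0 ≤ s)
    (hd : ∀ i, J i i = 0) (hR : R * Rᵀ = J + κ • (1 : Mat n)) {k : ℕ} {η ε η' : ℝ}
    (hη : 0 < η) (hε : 0 ≤ ε) (hη' : 8 * η' ≤ ε * η)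
    (hU : ∀ (y : Vec n) (ν' : Cfg n → ℝ), IsProb ν' → dlr ((β - s) • J) y ν' ≤ η * n →
      ∀ v : Vec n, sq v ≤ 1 →
        Ex ν' (fun x => |ip v (sv x - ampM ((β - s) • J) (β - s) y x k)|) ≤ ε * √n)
    (hI : IP' ν (gM (β • J) 0) ≤ η' * n)
    {v : Vec n → Vec n} (hv : ∀ i, G fun z => v z i) (hv1 : ∀ z, sq (v z) ≤ 1) :
    EC ν R s (fun x z => |ip (v z) (sv x - mm β s J k x z)|) ≤ 2 * ε * √n := by
  have hn' : (0 : ℝ) < n := by exact_mod_cast hn
  have hsn : 0 < √(n : ℝ) := Real.sqrt_pos.2 hn'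
  have gs : ∀ (x : Cfg n) i, G fun _ : Vec n => sv x i := fun x i => G.const _
  have gd : ∀ x i, G fun z => (sv x - mm β s J k x z) i := fun x i =>
    (gs x i).sub (g_mm β s J k x i)
  have h1 := lift (R := R) (s := s) hn hν hp hs ((β - s) • J)
    (Ψ := fun x z => |ip (v z) (sv x - mm β s J k x z)|)
    (fun x => (g_ip hv (gd x)).abs) (B := 2 * √n) (η := η) (ε := ε * √n)
    (fun x z => by
      refine (abs_ip_le _ _).trans ?_
      have a1 : nv (v z) ≤ 1 := t_nv_le_of_sq zero_le_one (by rw [one_pow]; exact hv1 z)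
      have a2 : nv (sv x) ≤ √n := by rw [nv_eq_sqrt, t_sq_sv]
      have a3 : nv (mm β s J k x z) ≤ √n := by
        rw [nv_eq_sqrt]; exact Real.sqrt_le_sqrt (t_sq_le_n (abs_mm _ _ _ _ _ _))
      have a4 := nv_sub_le (sv x) (mm β s J k x z)
      calc nv (v z) * nv (sv x - mm β s J k x z) ≤ 1 * (2 * √n) :=
            mul_le_mul a1 (by linarith only [a4, a3, a2]) (nv_nonneg _) zero_le_one
        _ = _ := one_mul _) (by positivity) hη (by (clear * - hε hn; positivity))
    (fun z hz => hU z _ (pst_isProb hν _ s z) hz (v z) (hv1 z))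
  have h2 := DM.dlr_path hd hR hs hν hp (β := β)
  refine h1.trans ?_
  have h3 : 2 * √n / (η * n) * EC ν R s (fun _ z => dlr ((β - s) • J) z (pst ν (R * Rᵀ) s z))
      ≤ 2 * √n / (η * n) * (4 * (η' * n)) := by
    refine mul_le_mul_of_nonneg_left ?_ (by positivity)
    linarith only [h2, hI]
  have h4 : 2 * √n / (η * n) * (4 * (η' * n)) = √n * (8 * η' / η) := by
    field_simp
    ring
  have h5 : 8 * η' / η ≤ ε := by
    rw [div_le_iff₀ hη]; exact hη'
  have h6 : √(n : ℝ) * (8 * η' / η) ≤ √n * ε := mul_le_mul_of_nonneg_left h5 hsn.le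
  linarith

/-- (h2) -/
theorem err_h2 (hn : 0 < n) (hν : IsProb ν) (hs : 0 ≤ s) (hκ : 0 ≤ κ)
    (hJ : OpLe J 3) (hR : R * Rᵀ = J + κ • (1 : Mat n)) {k : ℕ} {ε : ℝ}
    (hL : ∀ v : Vec n → Vec n, (∀ i, G fun z => v z i) → (∀ z, sq (v z) ≤ 1) →
      EC ν R s (fun x z => |ip (v z) (sv x - mm β s J k x z)|) ≤ ε * √n) :
    EC ν R s (fun x z => |ip ((R * Rᵀ).mulVec (mean (pst ν (R * Rᵀ) s z)))
      (sv x - mm β s J k x z)|) / n ≤ (κ + 3) * ε := by
  have _ := hs
  have hn' : (0 : ℝ) < n := by exact_mod_cast hn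
  have hsn : 0 < √(n : ℝ) := Real.sqrt_pos.2 hn'
  have hc : 0 < (κ + 3) * √n := by positivity
  have h1 := hL (fun z => ((κ + 3) * √n)⁻¹ • (R * Rᵀ).mulVec (mean (pst ν (R * Rᵀ) s z)))
    (fun i => by
      have := (g_mulVec (R * Rᵀ) (g_mean hν (R * Rᵀ) s) i).cmul (((κ + 3) * √n)⁻¹)
      exact this)
    (fun z => by
      have hm : ∀ i, |mean (pst ν (R * Rᵀ) s z) i| ≤ 1 := by
        intro i
        have hP := pst_isProb hν (R * Rᵀ) s z
        unfold mean
        refine (Finset.abs_sum_le_sum_abs _ _).trans ?_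
        calc ∑ x, |pst ν (R * Rᵀ) s z x * sv x i| = ∑ x, pst ν (R * Rᵀ) s z x := by
              refine Finset.sum_congr rfl fun x _ => ?_
              rw [abs_mul, t_abs_sv, mul_one, abs_of_nonneg (hP.1 x)]
          _ = 1 := hP.2
          _ ≤ 1 := le_rfl
      have h2 : nv ((R * Rᵀ).mulVec (mean (pst ν (R * Rᵀ) s z))) ≤ (κ + 3) * √n := by
        rw [hR] at hm ⊢
        exact t_nv_Q hκ hJ hm
      rw [← nv_sq, nv_smul, abs_of_pos (inv_pos.2 hc)]
      have h3 : ((κ + 3) * √n)⁻¹ * nv ((R * Rᵀ).mulVec (mean (pst ν (R * Rᵀ) s z))) ≤ 1 := by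
        rw [inv_mul_le_iff₀ hc, mul_one]
        exact h2
      exact pow_le_one₀ (mul_nonneg (inv_pos.2 hc).le (nv_nonneg _)) h3)
  have h2 : EC ν R s (fun x z => |ip ((R * Rᵀ).mulVec (mean (pst ν (R * Rᵀ) s z)))
      (sv x - mm β s J k x z)|) = ((κ + 3) * √n) * EC ν R s (fun x z =>
        |ip (((κ + 3) * √n)⁻¹ • (R * Rᵀ).mulVec (mean (pst ν (R * Rᵀ) s z)))
          (sv x - mm β s J k x z)|) := by
    rw [← EC_const_mul]
    congr 1
    funext x z
    rw [ip_smul_left, abs_mul, abs_of_pos (inv_pos.2 hc), ← mul_assoc, mul_inv_cancel₀ hc.ne',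
      one_mul]
  rw [h2, div_le_iff₀ hn']
  calc (κ + 3) * √n * EC ν R s _ ≤ (κ + 3) * √n * (ε * √n) :=
        mul_le_mul_of_nonneg_left h1 hc.le
    _ = (κ + 3) * ε * (√n * √n) := by ring
    _ = _ := by rw [Real.mul_self_sqrt hn'.le]

/-- (h3) -/
theorem err_h3 (hn : 0 < n) (hν : IsProb ν) {k : ℕ} {ε t C : ℝ} (ht : 0 < t)
    (hC : EC ν R s (fun _ z => sq z) ≤ C * n)
    (hL : ∀ v : Vec n → Vec n, (∀ i, G fun z => v z i) → (∀ z, sq (v z) ≤ 1) →
      EC ν R s (fun x z => |ip (v z) (sv x - mm β s J k x z)|) ≤ ε * √n) :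
    EC ν R s (fun x z => |ip z (sv x - mm β s J k x z)|) / n ≤ t * (1 + C) + ε / t := by
  have hn' : (0 : ℝ) < n := by exact_mod_cast hn
  have hsn : 0 < √(n : ℝ) := Real.sqrt_pos.2 hn'
  have gs : ∀ (x : Cfg n) i, G fun _ : Vec n => sv x i := fun x i => G.const _
  have gd : ∀ x i, G fun z => (sv x - mm β s J k x z) i := fun x i =>
    (gs x i).sub (g_mm β s J k x i)
  have gz : ∀ i, G fun z : Vec n => z i := fun i => G.coord i
  have hpos : ∀ z : Vec n, 0 < √n + nv z := fun z => by linarith only [nv_nonneg z, hsn]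
  have gv : ∀ i, G fun z : Vec n => ((√n + nv z)⁻¹ • z) i := by
    intro i
    have g1 : G fun z : Vec n => (√n + nv z)⁻¹ := by
      refine G.of_bdd ?_ (C := (√n)⁻¹) fun z => ?_
      · exact (continuous_const.add (g_nv gz).1).inv₀ fun z => (hpos z).ne'
      · rw [abs_of_pos (inv_pos.2 (hpos z))]
        exact inv_anti₀ hsn (by linarith [nv_nonneg z])
    exact g1.mul (gz i)
  have hv1 : ∀ z : Vec n, nv ((√n + nv z)⁻¹ • z) ≤ 1 := by
    intro z
    rw [nv_smul, abs_of_pos (inv_pos.2 (hpos z)), inv_mul_le_iff₀ (hpos z)]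
    linarith only [hsn]
  have h1 := hL (fun z => (√n + nv z)⁻¹ • z) gv fun z => by
    rw [← nv_sq]; exact pow_le_one₀ (nv_nonneg _) (hv1 z)
  have h2 : EC ν R s (fun x z => |ip z (sv x - mm β s J k x z)|)
      ≤ EC ν R s (fun x z => t * (n + sq z)
        + √n / t * |ip ((√n + nv z)⁻¹ • z) (sv x - mm β s J k x z)|) := by
    refine ec_mono hν (fun x => (g_ip gz (gd x)).abs)
      (fun x => ((((G.const (n : ℝ)).add (g_sq gz)).cmul t)).add
        ((g_ip gv (gd x)).abs.cmul _)) fun x z => ?_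
    set w := sv x - mm β s J k x z with hw
    set p := |ip ((√n + nv z)⁻¹ • z) w| with hp
    have a1 : |ip z w| = (√n + nv z) * p := by
      rw [hp, ip_smul_left, abs_mul, abs_of_pos (inv_pos.2 (hpos z)), ← mul_assoc,
        mul_inv_cancel₀ (hpos z).ne', one_mul]
    have a2 : p ≤ 2 * √n := by
      refine (abs_ip_le _ _).trans ?_
      have b2 : nv (sv x) ≤ √n := by rw [nv_eq_sqrt, t_sq_sv]
      have b3 : nv (mm β s J k x z) ≤ √n := by
        rw [nv_eq_sqrt]; exact Real.sqrt_le_sqrt (t_sq_le_n (abs_mm _ _ _ _ _ _))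
      have b4 := nv_sub_le (sv x) (mm β s J k x z)
      calc nv _ * nv w ≤ 1 * (2 * √n) :=
            mul_le_mul (hv1 z) (by rw [hw]; linarith only [b4, b3, b2]) (nv_nonneg _) zero_le_one
        _ = _ := one_mul _
    have a3 : 0 ≤ p := abs_nonneg _
    have a4 : (√n + nv z) * p ≤ t / 2 * (√n + nv z) ^ 2 + 1 / (2 * t) * p ^ 2 := by
      have h := sq_nonneg (t * (√n + nv z) - p)
      have e : t / 2 * (√n + nv z) ^ 2 + 1 / (2 * t) * p ^ 2 - (√n + nv z) * p
          = (t * (√n + nv z) - p) ^ 2 / (2 * t) := by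
        field_simp
        ring
      have : 0 ≤ (t * (√n + nv z) - p) ^ 2 / (2 * t) := by (clear * - ht; positivity)
      linarith only [e, this]
    have a5 : (√n + nv z) ^ 2 ≤ 2 * (n + sq z) := by
      rw [← nv_sq]
      linarith only [sq_nonneg (√n - nv z), Real.sq_sqrt hn'.le]
    have a6 : p ^ 2 ≤ 2 * √n * p := by
      rw [pow_two]; exact mul_le_mul_of_nonneg_right a2 a3
    have a7 : t / 2 * (√n + nv z) ^ 2 ≤ t * (n + sq z) := by
      have := mul_le_mul_of_nonneg_left a5 (by positivity : 0 ≤ t / 2)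
      linarith only [this]
    have a8 : 1 / (2 * t) * p ^ 2 ≤ √n / t * p := by
      have h := mul_le_mul_of_nonneg_left a6 (by positivity : 0 ≤ 1 / (2 * t))
      have e : 1 / (2 * t) * (2 * √n * p) = √n / t * p := by field_simp
      rw [e] at h
      exact h
    rw [a1]
    linarith only [a8, a7, a4]
  have h3 : EC ν R s (fun x z => t * (n + sq z)
        + √n / t * |ip ((√n + nv z)⁻¹ • z) (sv x - mm β s J k x z)|)
      = t * (n + EC ν R s (fun _ z => sq z))
        + √n / t * EC ν R s (fun x z => |ip ((√n + nv z)⁻¹ • z) (sv x - mm β s J k x z)|) := by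
    rw [ec_add (fun x => (((G.const (n : ℝ)).add (g_sq gz)).cmul t))
      (fun x => ((g_ip gv (gd x)).abs.cmul _)), EC_const_mul, EC_const_mul,
      ec_add (fun _ => G.const _) (fun _ => g_sq gz), EC_const hν.2]
  rw [h3] at h2
  rw [div_le_iff₀ hn']
  refine h2.trans ?_
  have h4 : √n / t * EC ν R s (fun x z => |ip ((√n + nv z)⁻¹ • z) (sv x - mm β s J k x z)|)
      ≤ √n / t * (ε * √n) := mul_le_mul_of_nonneg_left h1 (by positivity)
  have h5 : √n / t * (ε * √n) = ε / t * n := by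
    calc √n / t * (ε * √n) = ε / t * (√n * √n) := by ring
      _ = _ := by rw [Real.mul_self_sqrt hn'.le]
  have h6 : t * (n + EC ν R s (fun _ z => sq z)) ≤ t * (n + C * n) :=
    mul_le_mul_of_nonneg_left (by linarith only [hC]) ht.le
  linarith only [h6, h5, h4]

/-- (hD) -/
theorem err_hD (hn : 0 < n) (hν : IsProb ν) (hJ : OpLe J 3) (hr0 : 0 ≤ β - s) (hr1 : β - s ≤ 1)
    {k : ℕ} {δ t C : ℝ} (ht : 0 < t) (hC : EC ν R s (fun _ z => sq z) ≤ C * n)
    (hU : EC ν R s (fun x z => sq (mm β s J (k + 1) x z - mm β s J (k + 2) x z)) / n ≤ δ) :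
    EC ν R s (fun x z => nv (mm β s J (k + 1) x z - mm β s J (k + 2) x z)
      * nv (aa β s J (k + 1) x z)) / n ≤ t * (16 + C) + δ / t := by
  have hn' : (0 : ℝ) < n := by exact_mod_cast hn
  have gz : ∀ i, G fun z : Vec n => z i := fun i => G.coord i
  have gu : ∀ x i, G fun z => (mm β s J (k + 1) x z - mm β s J (k + 2) x z) i := fun x =>
    g_vsub (g_mm β s J (k + 1) x) (g_mm β s J (k + 2) x)
  rw [div_le_iff₀ hn'] at hU ⊢
  have h1 : EC ν R s (fun x z => nv (mm β s J (k + 1) x z - mm β s J (k + 2) x z)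
      * nv (aa β s J (k + 1) x z)) ≤ EC ν R s (fun x z => t * (16 * n + sq z)
        + 1 / t * sq (mm β s J (k + 1) x z - mm β s J (k + 2) x z)) := by
    refine ec_mono hν (fun x => (g_nv (gu x)).mul (g_nv (g_aa β s J (k + 1) x)))
      (fun x => (((G.const (16 * (n : ℝ))).add (g_sq gz)).cmul t).add ((g_sq (gu x)).cmul _))
      fun x z => ?_
    set p := nv (mm β s J (k + 1) x z - mm β s J (k + 2) x z) with hp
    set b := nv (aa β s J (k + 1) x z) with hb
    have a1 : b ≤ 4 * √n + nv z := t_sq_a hJ hr0 hr1 z x (k + 1)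
    have a0 : 0 ≤ b := nv_nonneg _
    have a2 : b ^ 2 ≤ 2 * (16 * n + sq z) := by
      have h := pow_le_pow_left₀ a0 a1 2
      rw [← nv_sq]
      linarith only [h, sq_nonneg (4 * √n - nv z), Real.sq_sqrt hn'.le]
    have a3 : p * b ≤ t / 2 * b ^ 2 + 1 / (2 * t) * p ^ 2 := by
      have e : t / 2 * b ^ 2 + 1 / (2 * t) * p ^ 2 - p * b = (t * b - p) ^ 2 / (2 * t) := by
        field_simp
        ring
      have : 0 ≤ (t * b - p) ^ 2 / (2 * t) := by (clear * - ht; positivity)
      linarith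
    have a4 : t / 2 * b ^ 2 ≤ t * (16 * n + sq z) := by
      have := mul_le_mul_of_nonneg_left a2 (by positivity : 0 ≤ t / 2)
      linarith only [this]
    have a5 : 1 / (2 * t) * p ^ 2 ≤ 1 / t * sq (mm β s J (k + 1) x z - mm β s J (k + 2) x z) := by
      rw [← nv_sq, ← hp]
      refine mul_le_mul_of_nonneg_right ?_ (sq_nonneg p)
      exact one_div_le_one_div_of_le ht (by linarith only [ht])
    linarith only [a5, a4, a3]
  have h2 : EC ν R s (fun x z => t * (16 * n + sq z)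
        + 1 / t * sq (mm β s J (k + 1) x z - mm β s J (k + 2) x z))
      = t * (16 * n + EC ν R s (fun _ z => sq z))
        + 1 / t * EC ν R s (fun x z => sq (mm β s J (k + 1) x z - mm β s J (k + 2) x z)) := by
    rw [ec_add (fun x => (((G.const (16 * (n : ℝ))).add (g_sq gz)).cmul t))
      (fun x => ((g_sq (gu x)).cmul _)), EC_const_mul, EC_const_mul,
      ec_add (fun _ => G.const _) (fun _ => g_sq gz), EC_const hν.2]
  rw [h2] at h1
  refine h1.trans ?_
  have h3 : 1 / t * EC ν R s (fun x z => sq (mm β s J (k + 1) x z - mm β s J (k + 2) x z))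
      ≤ 1 / t * (δ * n) := mul_le_mul_of_nonneg_left hU (by positivity)
  have h4 : t * (16 * n + EC ν R s (fun _ z => sq z)) ≤ t * (16 * n + C * n) :=
    mul_le_mul_of_nonneg_left (by linarith only [hC]) ht.le
  have h5 : 1 / t * (δ * n) = δ / t * n := by ring
  linarith only [h5, h4, h3]

end

end Vale.Agent.P150.F.T23
end

section

/-! P150 FULL, D3M steps 2-3 (helper162): the MMSE lower bound `D3M23` from (U2), (U3) and D3b. -/

open MeasureTheory ProbabilityTheory Filter Topology Real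
open scoped Matrix

namespace Vale.Agent.P150.F.T23

variable {n m : ℕ}

/-! ### uniform eventual statements for product laws -/

/-- `P` holds eventually, uniformly over times, square roots and near-stationary laws -/
def Nice (β κ : ℝ) {I : Type} (F : Filter I) (n : I → ℕ) (J : ∀ i, Mat (n i))
    (P : ∀ i : I, ℝ → Mat (n i) → (Cfg (n i) → ℝ) → Prop) : Prop :=
  ∃ η > 0, ∀ᶠ i in F, ∀ s ∈ Set.Icc (0 : ℝ) β, ∀ R : Mat (n i),
    R * Rᵀ = J i + κ • (1 : Mat (n i)) → ∀ ν : Cfg (n i) → ℝ, IsProb ν → (∀ x, 0 < ν x) →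
    IP' ν (gM (β • J i) 0) ≤ η * n i → P i s R ν

theorem Nice.and {β κ : ℝ} {I : Type} {F : Filter I} {n : I → ℕ} {J : ∀ i, Mat (n i)}
    {P Q : ∀ i : I, ℝ → Mat (n i) → (Cfg (n i) → ℝ) → Prop} (h : Nice β κ F n J P)
    (h' : Nice β κ F n J Q) : Nice β κ F n J (fun i s R ν => P i s R ν ∧ Q i s R ν) := by
  obtain ⟨η, hη, h⟩ := h
  obtain ⟨η', hη', h'⟩ := h'
  refine ⟨min η η', lt_min hη hη', ?_⟩
  filter_upwards [h, h'] with i hi hi' s hs R hR ν hν hp hI
  have hn : (0 : ℝ) ≤ n i := Nat.cast_nonneg _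
  exact ⟨hi s hs R hR ν hν hp (hI.trans (mul_le_mul_of_nonneg_right (min_le_left _ _) hn)),
    hi' s hs R hR ν hν hp (hI.trans (mul_le_mul_of_nonneg_right (min_le_right _ _) hn))⟩

theorem nice_of_J {β κ : ℝ} (hκ : 4 ≤ κ) {I : Type} {F : Filter I} {n : I → ℕ}
    {J : ∀ i, Mat (n i)} (hG : Good β F n J) {η : ℝ} (hη : 0 < η)
    {P : ∀ i : I, ℝ → Mat (n i) → (Cfg (n i) → ℝ) → Prop}
    (h : ∀ᶠ i in F, ∀ (R : Mat (n i)) (s : ℝ) (ν : Cfg (n i) → ℝ), s ∈ Set.Icc 0 β →
      IsProb ν → D3.JHyp β κ (J i) R s κ η (fun x _ => ν x) → P i s R ν) :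
    Nice β κ F n J P := by
  obtain ⟨η', hη', h'⟩ := D3.jhyp_prod hκ hG hη
  refine ⟨η', hη', ?_⟩
  filter_upwards [h, h'] with i hi hi' s hs R hR ν hν hp hI
  exact hi R s ν hs hν (hi' (n i) R s ν hs hR hν hp hI)

theorem ej_prod (ν : Cfg n → ℝ) (R : Matrix (Fin n) (Fin m) ℝ) (s : ℝ) (Φ : Cfg n → Vec n → ℝ) :
    D3.EJ (m := m) (fun x _ => ν x) (fun x ξ => Φ x (obs R s x ξ)) = EC ν R s Φ := by
  unfold D3.EJ EC
  refine Finset.sum_congr rfl fun x _ => ?_
  rw [integral_const_mul]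

/-! ### the two test functions -/

/-- `ε a` with `ε` clipped -/
noncomputable def f1 (ε a : ℝ) : ℝ := max (-1) (min 1 ε) * a

/-- `a tanh a` -/
noncomputable def f2 (_ε a : ℝ) : ℝ := a * Real.tanh a

theorem f1_cont (ε : ℝ) : Continuous (f1 ε) := by unfold f1; fun_prop

theorem f1_le (ε a : ℝ) : |f1 ε a| ≤ 1 * (1 + |a|) := by
  unfold f1
  rw [abs_mul]
  have h : |max (-1) (min 1 ε)| ≤ 1 := by
    rw [abs_le]
    exact ⟨le_max_left _ _, max_le (by norm_num) (min_le_left _ _)⟩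
  have := mul_le_mul_of_nonneg_right h (abs_nonneg a)
  linarith

theorem f1_sv (x : Cfg n) (j : Fin n) (a : ℝ) : f1 (sv x j) a = sv x j * a := by
  unfold f1
  have h := t_abs_sv x j
  rcases (abs_eq zero_le_one).1 h with h | h <;> rw [h] <;> norm_num

theorem f2_cont (ε : ℝ) : Continuous (f2 ε) := by
  unfold f2
  exact continuous_id.mul rs_tanh_cont

theorem f2_le (ε a : ℝ) : |f2 ε a| ≤ 1 * (1 + |a|) := by
  unfold f2
  rw [abs_mul]
  have h1 := rs_tanh_abs_le a
  have := mul_le_mul_of_nonneg_left h1 (abs_nonneg a)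
  linarith

theorem NEs_f1 (g : ℝ) (x : Cfg n) (j : Fin n) : D3.NEs f1 g (sv x j) = g := by
  unfold D3.NEs
  have h : ∀ z, f1 (sv x j) (g * sv x j + √g * z) = g + sv x j * √g * z := by
    intro z
    rw [f1_sv]
    have h2 : sv x j * sv x j = 1 := by
      rw [← pow_two, ← sq_abs, t_abs_sv, one_pow]
    calc sv x j * (g * sv x j + √g * z) = g * (sv x j * sv x j) + sv x j * √g * z := by ring
      _ = _ := by rw [h2, mul_one]
  simp_rw [h]
  rw [integral_add (integrable_const g) (sg_integrable_id.const_mul _), integral_const_mul]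
  have : ∫ x, x ∂gm1 = 0 := sg_odd fun x => rfl
  rw [this]
  simp

theorem NEs_f2 {g : ℝ} (hg : 0 ≤ g) (x : Cfg n) (j : Fin n) : D3.NEs f2 g (sv x j) = g := by
  have e1 : NE (fun a => a) g = NE (fun a => a * Real.tanh a) g :=
    NE_odd continuous_id (C := 1) (fun x => by simp only [id]; linarith [abs_nonneg x])
      (fun x => rfl) hg
  have e2 : NE (fun a => a) g = g := by
    unfold NE
    rw [integral_add (integrable_const g) (sg_integrable_id.const_mul _), integral_const_mul]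
    have : ∫ x, x ∂gm1 = 0 := sg_odd fun x => rfl
    rw [this]
    simp
  have h1 : D3.NEs f2 g 1 = g := by
    rw [e1] at e2
    unfold NE at e2
    unfold D3.NEs f2
    simp only [mul_one]
    exact e2
  rcases (abs_eq zero_le_one).1 (t_abs_sv x j) with h | h
  · rw [h]; exact h1
  · rw [h]
    refine Eq.trans ?_ h1
    unfold D3.NEs
    rw [← sg_map_neg]
    refine integral_congr_ae (Eventually.of_forall fun z => ?_)
    show f2 (-1) (g * -1 + √g * -z) = f2 1 (g * 1 + √g * z)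
    unfold f2
    have : g * -1 + √g * -z = -(g * 1 + √g * z) := by ring
    rw [this, Real.tanh_neg]
    ring

/-! ### the inputs from D3b -/

section inputs

variable {β κ : ℝ} {I : Type} {F : Filter I} {n : I → ℕ} {J : ∀ i, Mat (n i)}

theorem in_Q (hκ : 4 ≤ κ) (hG : Good β F n J) (hb : D3.D3bQ β κ) (k : ℕ) {e : ℝ} (he : 0 < e) :
    Nice β κ F n J (fun i s R ν =>
      EC ν R s (fun x z => |qq (mm β s (J i) (k + 1) x z) - qRS (gam β κ s k)|) ≤ e) := by
  obtain ⟨η, hη, h⟩ := hb F n J hG κ k e he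
  refine nice_of_J hκ hG hη ?_
  filter_upwards [h] with i hi R s ν hs _ hH
  have := hi (n i) R s _ hs hH
  rw [← ej_prod]
  exact this

/-- from the mean absolute error to the error of the mean -/
theorem ec_err {n m : ℕ} (hn : 0 < n) {ν : Cfg n → ℝ} (hν : IsProb ν)
    {R : Matrix (Fin n) (Fin m) ℝ} {s : ℝ} {Φ : Cfg n → Vec n → ℝ} (hΦ : ∀ x, G (Φ x)) {g e : ℝ}
    (h : EC ν R s (fun x z => |(Φ x z - n * g) / n|) ≤ e) : |EC ν R s Φ / n - g| ≤ e := by
  have hn' : (0 : ℝ) < n := by exact_mod_cast hn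
  have e1 : EC ν R s Φ / n - g = EC ν R s (fun x z => (Φ x z - n * g) / n) := by
    have e2 : (fun (x : Cfg n) (z : Vec n) => (Φ x z - n * g) / n)
        = fun x z => (n : ℝ)⁻¹ * (Φ x z - n * g) := by
      funext x z; rw [div_eq_inv_mul]
    rw [e2, EC_const_mul, ec_sub hΦ (fun _ => G.const _), EC_const hν.2]
    field_simp
  rw [e1]
  exact (ec_abs hν fun x => ((hΦ x).sub (G.const _)).div_const _).trans h

theorem sum_f1 {n : ℕ} (x : Cfg n) (u : Vec n) (g : ℝ) :
    ∑ j, (f1 (sv x j) (u j) - D3.NEs f1 g (sv x j)) = ip (sv x) u - n * g := by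
  have e1 : ∀ j, f1 (sv x j) (u j) - D3.NEs f1 g (sv x j) = sv x j * u j - g := fun j => by
    rw [f1_sv, NEs_f1]
  simp_rw [e1]
  rw [Finset.sum_sub_distrib, Finset.sum_const, Finset.card_univ, Fintype.card_fin, nsmul_eq_mul]
  rfl

theorem sum_f2 {n : ℕ} (x : Cfg n) (u : Vec n) {g : ℝ} (hg : 0 ≤ g) :
    ∑ j, (f2 (sv x j) (u j) - D3.NEs f2 g (sv x j)) = ip (fun j => Real.tanh (u j)) u - n * g := by
  have e1 : ∀ j, f2 (sv x j) (u j) - D3.NEs f2 g (sv x j) = Real.tanh (u j) * u j - g :=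
    fun j => by
      rw [NEs_f2 hg, mul_comm]
      rfl
  simp_rw [e1]
  rw [Finset.sum_sub_distrib, Finset.sum_const, Finset.card_univ, Fintype.card_fin, nsmul_eq_mul]
  rfl

theorem in_A0 (hκ : 4 ≤ κ) (hG : Good β F n J) (hb : D3.D3bA β κ) {e : ℝ} (he : 0 < e) :
    Nice β κ F n J (fun i s R ν =>
      |EC ν R s (fun x z => ip (sv x) (aa β s (J i) 0 x z)) / n i - (β ^ 2 + s * κ)| ≤ e) := by
  obtain ⟨η, hη, h⟩ := hb F n J hG f1 1 f1_cont f1_le κ 0 e he
  refine nice_of_J hκ hG hη ?_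
  filter_upwards [h, hG.hn.eventually_gt_atTop 0] with i hi hn R s ν hs hν hH
  have h1 := hi (n i) R s _ hs hH
  simp_rw [sum_f1, gam_zero] at h1
  refine ec_err hn hν (fun x => g_ip (u := fun _ => sv x) (v := fun z => aa β s (J i) 0 x z)
    (fun j => G.const (sv x j)) (g_aa β s (J i) 0 x)) ?_
  rw [← ej_prod]
  exact h1

theorem in_A1 (hκ : 4 ≤ κ) (hG : Good β F n J) (hb : D3.D3bA β κ) (k : ℕ) {e : ℝ} (he : 0 < e) :
    Nice β κ F n J (fun i s R ν =>
      |EC ν R s (fun x z => ip (mm β s (J i) (k + 2) x z) (aa β s (J i) (k + 1) x z)) / n i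
        - (β ^ 2 + s * κ - (β - s) ^ 2 * (1 - qRS (gam β κ s k)))| ≤ e) := by
  obtain ⟨η, hη, h⟩ := hb F n J hG f2 1 f2_cont f2_le κ (k + 1) e he
  refine nice_of_J hκ hG hη ?_
  filter_upwards [h, hG.hn.eventually_gt_atTop 0] with i hi hn R s ν hs hν hH
  have h1 := hi (n i) R s _ hs hH
  simp_rw [sum_f2 _ _ (gam_nonneg (by linarith only [hκ] : (0 : ℝ) ≤ κ) hs (k + 1))] at h1
  refine ec_err hn hν (fun x => g_ip (g_mm β s (J i) (k + 2) x) (g_aa β s (J i) (k + 1) x)) ?_
  rw [← ej_prod]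
  exact h1

theorem in_H (hκ : 4 ≤ κ) (hG : Good β F n J) (hb : D3.D3bH β κ) {e : ℝ} (he : 0 < e) :
    Nice β κ F n J (fun i s R ν =>
      |β * (EC ν R s (fun x _ => qf (J i) (sv x)) / n i) - β ^ 2| ≤ e) := by
  obtain ⟨η, hη, h⟩ := hb F n J hG f1 1 f1_cont f1_le κ e he
  refine nice_of_J hκ hG hη ?_
  filter_upwards [h, hG.hn.eventually_gt_atTop 0] with i hi hn R s ν hs hν hH
  have h1 := hi (n i) R s _ hs hH
  simp_rw [sum_f1] at h1
  have e1 : ∀ x : Cfg (n i), ip (sv x) ((β • J i).mulVec (sv x)) = β * qf (J i) (sv x) := by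
    intro x
    rw [Matrix.smul_mulVec, ip_smul_right]
    rfl
  simp_rw [e1] at h1
  have h2 : |EC ν R s (fun x _ => β * qf (J i) (sv x)) / n i - β ^ 2| ≤ e := by
    refine ec_err hn hν (fun x => G.const _) ?_
    rw [← ej_prod]
    exact h1
  rw [EC_const_mul, mul_div_assoc] at h2
  exact h2

/-! ### the inputs from D2 -/

theorem in_U3 (hβ1 : β < 1) (hG : Good β F n J) (hU : U3S F n J) {k : ℕ} (hk : 1 ≤ k) {e : ℝ}
    (he : 0 < e) :
    Nice β κ F n J (fun i s R ν =>
      EC ν R s (fun x z => |sq (mm β s (J i) k x z - mm β s (J i) (k + 1) x z) / n i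
        - (qq (mm β s (J i) k x z) - qq (mm β s (J i) (k + 1) x z))|) ≤ e) := by
  obtain ⟨η, hη, h⟩ := hU 0 k hk (e / 2) (half_pos he)
  refine ⟨e / 2 * η / 24, by positivity, ?_⟩
  filter_upwards [h, hG.hn.eventually_gt_atTop 0] with i hi hn s hs R hR ν hν hp hI
  have hn' : (0 : ℝ) < n i := by exact_mod_cast hn
  have g0 := fun x => g_mm β s (J i) k x
  have g1 := fun x => g_mm β s (J i) (k + 1) x
  have h1 := lift (R := R) (s := s) hn hν hp hs.1 ((β - s) • J i)
    (Ψ := fun x z => |sq (mm β s (J i) k x z - mm β s (J i) (k + 1) x z) / n i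
        - (qq (mm β s (J i) k x z) - qq (mm β s (J i) (k + 1) x z))|)
    (fun x => (((g_sq (g_vsub (g0 x) (g1 x))).div_const _).sub
        ((g_qq (g0 x)).sub (g_qq (g1 x)))).abs) (B := 6) (η := η) (ε := e / 2)
    (fun x z => by
      have a1 := t_qq_mem (abs_mm β s (J i) k x z)
      have a2 := t_qq_mem (abs_mm β s (J i) (k + 1) x z)
      have a3 : 0 ≤ sq (mm β s (J i) k x z - mm β s (J i) (k + 1) x z) / n i :=
        div_nonneg (sqN_nonneg _) hn'.le
      have a4 : sq (mm β s (J i) k x z - mm β s (J i) (k + 1) x z) / n i ≤ 4 := by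
        rw [div_le_iff₀ hn']
        unfold sq
        calc ∑ j, (mm β s (J i) k x z - mm β s (J i) (k + 1) x z) j ^ 2
            ≤ ∑ _j : Fin (n i), (4 : ℝ) := by
              refine Finset.sum_le_sum fun j _ => ?_
              have b1 := abs_le.1 (abs_mm β s (J i) k x z j)
              have b2 := abs_le.1 (abs_mm β s (J i) (k + 1) x z j)
              rw [Pi.sub_apply]
              linarith only [mul_nonneg (sub_nonneg.2 b1.1) (sub_nonneg.2 b1.2), mul_nonneg (sub_nonneg.2 b1.1) (sub_nonneg.2 b2.1), mul_nonneg (sub_nonneg.2 b1.2) (sub_nonneg.2 b2.2), mul_nonneg (sub_nonneg.2 b2.1) (sub_nonneg.2 b2.2)]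
          _ = 4 * n i := by simp; ring
      rw [abs_le]
      constructor <;> linarith [a1.1, a1.2, a2.1, a2.2])
    (by norm_num) hη (by positivity)
    (fun z hz => by
      have h2 := hi (β - s) 0 z (pst ν (R * Rᵀ) s z) (by linarith only [hs.2]) (by linarith only [hs.1, hβ1])
        (Matrix.isSymm_zero) (by unfold hsq; simp) (pst_isProb hν _ s z) (by rwa [sub_zero])
      rw [sub_zero] at h2
      exact h2)
  refine h1.trans ?_
  have h2 := DM.dlr_path (hG.diag i) hR hs.1 hν hp (β := β)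
  have h3 : 6 / (η * n i) * EC ν R s (fun _ z => dlr ((β - s) • J i) z (pst ν (R * Rᵀ) s z))
      ≤ 6 / (η * n i) * (4 * (e / 2 * η / 24 * n i)) := by
    refine mul_le_mul_of_nonneg_left ?_ (by positivity)
    linarith only [hI, h2]
  have h4 : 6 / (η * n i) * (4 * (e / 2 * η / 24 * n i)) = e / 2 := by
    field_simp
    ring
  linarith only [h4, h3]

theorem in_U2 (hβ1 : β < 1) (hG : Good β F n J) (hU : U2S F n J) {k : ℕ} (hk : 1 ≤ k) {e : ℝ}
    (he : 0 < e) :
    Nice β κ F n J (fun i s R ν =>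
      ∀ v : Vec (n i) → Vec (n i), (∀ j, G fun z => v z j) → (∀ z, sq (v z) ≤ 1) →
        EC ν R s (fun x z => |ip (v z) (sv x - mm β s (J i) k x z)|) ≤ e * √(n i)) := by
  obtain ⟨η, hη, h⟩ := hU 0 k hk (e / 2) (half_pos he)
  refine ⟨e / 2 * η / 8, by positivity, ?_⟩
  filter_upwards [h, hG.hn.eventually_gt_atTop 0] with i hi hn s hs R hR ν hν hp hI v hv hv1
  have h1 := lift_U2 (η := η) (ε := e / 2) (η' := e / 2 * η / 8) hn hν hp hs.1 (hG.diag i) hR
    (k := k) hη (by positivity) (by linarith only []) (fun y ν' hν' hd w hw => by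
      have h2 := hi (β - s) 0 y ν' (by linarith only [hs.2]) (by linarith only [hs.1, hβ1])
        (Matrix.isSymm_zero) (by unfold hsq; simp) hν' (by rwa [sub_zero]) w hw
      rw [sub_zero] at h2
      exact h2) hI hv hv1
  linarith only [h1]

end inputs

/-- **D3M23** from (U2), (U3) and D3b -/
theorem d3m23_of
    (hU2 : ∀ (β : ℝ), 0 ≤ β → β < 1 → ∀ {I : Type} (F : Filter I) (n : I → ℕ)
      (J : ∀ i, Mat (n i)), Good β F n J → U2S F n J)
    (hU3 : ∀ (β : ℝ), 0 ≤ β → β < 1 → ∀ {I : Type} (F : Filter I) (n : I → ℕ)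
      (J : ∀ i, Mat (n i)), Good β F n J → U3S F n J)
    (hb : D3.D3bStatement) : D3M23 := by
  intro β hβ0 hβ1 κ hκ I F n J hG r₀ hr₀ ε hε
  obtain ⟨hQ, hA, hH, _⟩ := hb β κ hβ0 hβ1 hκ
  have hκ0 : 0 ≤ κ := by linarith
  -- constants
  set Cz : ℝ := (κ + 3) ^ 2 + κ with hCz
  have hCz0 : 0 ≤ Cz := by positivity
  set ε0 : ℝ := ε / (2 * (κ + 2 + 8 / r₀)) with hε0_def
  have hK : 0 < κ + 2 + 8 / r₀ := by positivity
  have hε0 : 0 < ε0 := by positivity
  set t : ℝ := ε0 / (2 * (16 + Cz)) with ht_def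
  have ht : 0 < t := by positivity
  set δ : ℝ := ε0 * t / 2 with hδ_def
  have hδ : 0 < δ := by positivity
  set e1 : ℝ := min ε0 (δ / 6) with he1_def
  have he1 : 0 < e1 := lt_min hε0 (by (clear * - hε hκ hr₀; positivity))
  set e2 : ℝ := min (ε0 / (κ + 3)) (ε0 * t / 2) with he2_def
  have he2 : 0 < e2 := lt_min (by positivity) (by positivity)
  obtain ⟨k, hk1, hkδ, hkε⟩ : ∃ k : ℕ, 1 ≤ k ∧ (β ^ 2) ^ (k + 1) ≤ δ / 2 ∧
      (κ + 2) * (β ^ 2) ^ (k + 1) ≤ ε / 2 := by
    have hb2 : β ^ 2 < 1 := by (by_contra nlg; linarith only [mul_nonneg (sub_nonneg.2 (not_lt.1 nlg)) (sub_nonneg.2 hβ0), mul_nonneg (sub_nonneg.2 (not_lt.1 nlg)) (le_of_lt (sub_pos.2 hβ1)), mul_nonneg (sub_nonneg.2 hβ0) (le_of_lt (sub_pos.2 hβ1)), mul_pos (sub_pos.2 hβ1) (sub_pos.2 hβ1)])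
    have hlim : Tendsto (fun k : ℕ => (β ^ 2) ^ (k + 1)) atTop (𝓝 0) :=
      (tendsto_pow_atTop_nhds_zero_of_lt_one (sq_nonneg β) hb2).comp (tendsto_add_atTop_nat 1)
    have h1 := hlim.eventually (ge_mem_nhds (by positivity : (0 : ℝ) < δ / 2))
    have h2 := hlim.eventually (ge_mem_nhds (by positivity : (0 : ℝ) < ε / (2 * (κ + 2))))
    obtain ⟨k, ⟨hk1, hk2⟩, hk3⟩ := ((h1.and h2).and (eventually_ge_atTop 1)).exists
    refine ⟨k, hk3, hk1, ?_⟩
    have h3 := mul_le_mul_of_nonneg_left hk2 (by linarith only [hκ] : 0 ≤ κ + 2)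
    have h4 : (κ + 2) * (ε / (2 * (κ + 2))) = ε / 2 := by field_simp
    linarith only [h3, h4]
  have N := ((((in_Q hκ hG hQ k he1).and (in_Q hκ hG hQ (k + 1) he1)).and
    ((in_A0 hκ hG hA hε0).and (in_A1 hκ hG hA k hε0))).and
    ((in_H hκ hG hH hε0).and (in_U2 (κ := κ) hβ1 hG (hU2 β hβ0 hβ1 F n J hG)
      (k := k + 1) (by omega) he2))).and
    ((in_U3 (κ := κ) hβ1 hG (hU3 β hβ0 hβ1 F n J hG) hk1 he1).and
      (in_U3 (κ := κ) hβ1 hG (hU3 β hβ0 hβ1 F n J hG) (k := k + 1) (by omega) he1))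
  obtain ⟨η, hη, hN⟩ := N
  refine ⟨η, hη, ?_⟩
  filter_upwards [hN, hG.hn.eventually_gt_atTop 0, hG.op 1 one_pos] with i hi hn hop
  intro s hs0 hsr R hR ν hν hp hI
  have hs : s ∈ Set.Icc (0 : ℝ) β := ⟨hs0, by linarith only [hsr, hr₀]⟩
  obtain ⟨⟨⟨⟨h1, h2⟩, h3, h4⟩, h5, h6⟩, h7, h8⟩ := hi s hs R hR ν hν hp hI
  have hn' : (0 : ℝ) < n i := by exact_mod_cast hn
  have hJ3 : OpLe (J i) 3 := by
    have : (2 : ℝ) + 1 = 3 := by norm_num
    rwa [this] at hop
  have hz := t_sq_z hκ0 hs0 (by linarith only [hsr, hr₀, hβ1]) (hG.diag i) hJ3 hR hν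
  rw [← hCz] at hz
  have hr0 : 0 < β - s := by linarith only [hsr, hr₀]
  have hr1 : β - s ≤ 1 := by linarith only [hs0, hβ1]
  set q := qRS (gam β κ s k) with hq_def
  have hq0 : 0 ≤ q := qRS_nonneg (gam_nonneg hκ0 hs k)
  have hq1 : q ≤ 1 := qRS_le_one _
  have g1 := fun x => g_mm β s (J i) (k + 1) x
  have g2 := fun x => g_mm β s (J i) (k + 2) x
  -- the difference `m^{k+1} - m^{k+2}`
  have hsq : EC ν R s (fun x z => sq (mm β s (J i) (k + 1) x z - mm β s (J i) (k + 2) x z))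
      / n i ≤ δ := by
    have a1 : EC ν R s (fun x z => sq (mm β s (J i) (k + 1) x z - mm β s (J i) (k + 2) x z))
        / n i = EC ν R s (fun x z => (n i : ℝ)⁻¹ *
          sq (mm β s (J i) (k + 1) x z - mm β s (J i) (k + 2) x z)) := by
      rw [EC_const_mul, div_eq_inv_mul]
    rw [a1]
    have gU : ∀ x, G fun z => |sq (mm β s (J i) (k + 1) x z - mm β s (J i) (k + 2) x z) / n i
        - (qq (mm β s (J i) (k + 1) x z) - qq (mm β s (J i) (k + 2) x z))| := fun x =>
      (((g_sq (g_vsub (g1 x) (g2 x))).div_const _).sub ((g_qq (g1 x)).sub (g_qq (g2 x)))).abs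
    have gA : ∀ x, G fun z => |qq (mm β s (J i) (k + 1) x z) - q| := fun x =>
      ((g_qq (g1 x)).sub (G.const _)).abs
    have gB : ∀ x, G fun z => |qq (mm β s (J i) (k + 2) x z) - qRS (gam β κ s (k + 1))| :=
      fun x => ((g_qq (g2 x)).sub (G.const _)).abs
    have a2 : EC ν R s (fun x z => (n i : ℝ)⁻¹ *
          sq (mm β s (J i) (k + 1) x z - mm β s (J i) (k + 2) x z))
        ≤ EC ν R s (fun x z => |sq (mm β s (J i) (k + 1) x z - mm β s (J i) (k + 2) x z) / n i
            - (qq (mm β s (J i) (k + 1) x z) - qq (mm β s (J i) (k + 2) x z))|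
          + (|qq (mm β s (J i) (k + 1) x z) - q|
            + (|qq (mm β s (J i) (k + 2) x z) - qRS (gam β κ s (k + 1))|
              + (q - qRS (gam β κ s (k + 1)))))) := by
      refine ec_mono hν (fun x => (g_sq (g_vsub (g1 x) (g2 x))).cmul _)
        (fun x => (gU x).add ((gA x).add ((gB x).add (G.const _)))) fun x z => ?_
      have b1 := le_abs_self (sq (mm β s (J i) (k + 1) x z - mm β s (J i) (k + 2) x z) / n i
            - (qq (mm β s (J i) (k + 1) x z) - qq (mm β s (J i) (k + 2) x z)))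
      have b2 := le_abs_self (qq (mm β s (J i) (k + 1) x z) - q)
      have b3 := neg_abs_le (qq (mm β s (J i) (k + 2) x z) - qRS (gam β κ s (k + 1)))
      rw [← div_eq_inv_mul]
      linarith only [b1, b2, b3]
    rw [ec_add gU (fun x => (gA x).add ((gB x).add (G.const _))),
      ec_add gA (fun x => (gB x).add (G.const _)), ec_add gB (fun _ => G.const _),
      EC_const hν.2] at a2
    have a3 := qRS_gam_sub_le hκ0 hs k
    rw [← hq_def] at a3
    have a4 : e1 ≤ δ / 6 := min_le_right _ _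
    have a5 : EC ν R s (fun x z => |qq (mm β s (J i) (k + 2) x z) - qRS (gam β κ s (k + 1))|)
        ≤ e1 := h2
    linarith only [a5, a4, a3, a2, h1, h8, hkδ]
  have hE : Errs β κ s (J i) R ν k q ε0 := by
    refine ⟨h4, h3, h5, h1.trans (min_le_left _ _), h7.trans (min_le_left _ _), ?_, ?_, ?_⟩
    · have a1 := err_hD hn hν hJ3 hr0.le hr1 ht hz hsq
      have a2 : t * (16 + Cz) + δ / t = ε0 := by
        rw [hδ_def]
        have e1 : t * (16 + Cz) = ε0 / 2 := by rw [ht_def]; field_simp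
        have e2 : ε0 * t / 2 / t = ε0 / 2 := by field_simp
        rw [e1, e2]; ring
      linarith only [a2, a1]
    · have a1 := err_h2 hn hν hs0 hκ0 hJ3 hR h6
      have a2 : (κ + 3) * e2 ≤ ε0 := by
        have b1 : e2 ≤ ε0 / (κ + 3) := min_le_left _ _
        have b2 := mul_le_mul_of_nonneg_left b1 (by linarith only [hr0, hs0, hκ, hβ1] : 0 ≤ κ + 3)
        have b3 : (κ + 3) * (ε0 / (κ + 3)) = ε0 := by field_simp
        linarith only [b2, b3]
      linarith only [a2, a1]
    · have a1 := err_h3 hn hν ht hz h6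
      have a2 : t * (1 + Cz) ≤ ε0 / 2 := by
        have b1 : t * (1 + Cz) ≤ t * (16 + Cz) := mul_le_mul_of_nonneg_left (by linarith only [hr0, hs0, hβ1]) ht.le
        have b2 : t * (16 + Cz) = ε0 / 2 := by rw [ht_def]; field_simp
        linarith only [b2, ht]
      have a3 : e2 / t ≤ ε0 / 2 := by
        rw [div_le_iff₀ ht]
        have b1 : e2 ≤ ε0 * t / 2 := min_le_right _ _
        linarith only [b1]
      linarith only [a3, a2, a1]
  have hC := core hn hβ1 hs0 (by linarith only [hr0] : s < β) hκ0 hR hν hq0 hq1 hε0.le hE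
  rw [le_div_iff₀ hn'] at hC
  have hqF : qF β κ s = qst β κ s := qF_eq_qst hβ0 hβ1 hκ0 hs0 hs.2
  have hqs := qst_le_qRS_gam hκ0 hs k
  have hqs' := qRS_gam_sub_qst_le hκ0 hs k
  rw [← hq_def, ← hqF] at hqs hqs'
  have hqF0 : 0 ≤ qF β κ s := by rw [hqF]; exact qst_nonneg hκ0 hs
  have f1' : (κ + 2 + 8 / (β - s)) * ε0 ≤ ε / 2 := by
    have b1 : 8 / (β - s) ≤ 8 / r₀ := div_le_div_of_nonneg_left (by norm_num) hr₀ (by linarith only [hsr])
    have b2 : (κ + 2 + 8 / (β - s)) * ε0 ≤ (κ + 2 + 8 / r₀) * ε0 :=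
      mul_le_mul_of_nonneg_right (by linarith only [b1]) hε0.le
    have b3 : (κ + 2 + 8 / r₀) * ε0 = ε / 2 := by rw [hε0_def]; field_simp
    linarith only [b3, b2]
  have f2' : κ * (1 - qF β κ s) + (β - s) * (1 - qF β κ s) ^ 2 - ε / 2
      ≤ κ * (1 - q) + (β - s) * (1 - q) ^ 2 := by
    set p := qF β κ s with hp_def
    have b1 : κ * (1 - p) - κ * (1 - q) = κ * (q - p) := by ring
    have b2 : (β - s) * (1 - p) ^ 2 - (β - s) * (1 - q) ^ 2
        = (β - s) * ((q - p) * (2 - p - q)) := by ring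
    have b3 : (q - p) * (2 - p - q) ≤ (q - p) * 2 :=
      mul_le_mul_of_nonneg_left (by linarith only [hqF0, hqs]) (by linarith only [hqs])
    have b4 : (β - s) * ((q - p) * (2 - p - q)) ≤ 1 * ((q - p) * 2) :=
      mul_le_mul hr1 b3 (mul_nonneg (by linarith only [hqs]) (by linarith only [hqs, hq1])) zero_le_one
    have b5 : (κ + 2) * (q - p) ≤ (κ + 2) * (β ^ 2) ^ (k + 1) :=
      mul_le_mul_of_nonneg_left hqs' (by linarith only [hr0, hs0, hκ, hβ1])
    linarith only [b5, b4, hkε]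
  refine le_trans ?_ hC
  rw [mul_comm]
  refine mul_le_mul_of_nonneg_right ?_ hn'.le
  linarith only [f1', f2']

end Vale.Agent.P150.F.T23
end

section

/-!
# D2: N2 for trigonometric test functions with spin weights

From N1 and the pre-identity `PPloc` for local fields.
-/

open Filter Topology

namespace Vale.Agent.P150.F.D2.N2

open Vale.Agent.P150.F.D2 Vale.Agent.P150.F.D2.Ind

variable {ι : Type} {F : Filter ι} {d : ι → Dat}

/-- N1 (hypothesis form) -/
def N1h (F : Filter ι) (d : ι → Dat) (k : ℕ) : Prop :=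
  ∀ (w : Fld d) (p : ℕ → Fld d) (s : Finset ℕ), Loc F d s w p → (∀ l ∈ s, k ≤ l) →
    ∀ φ : Scl d, MW F d φ →
      Tendsto (EE d fun i x => φ i x * (ip (sv x - (d i).m x k) (w i x) / (d i).n)) F (𝓝 0)

/-- the pre-identity for local fields (hypothesis form) -/
def PPh (F : Filter ι) (d : ι → Dat) (k : ℕ) : Prop :=
  ∀ (w : Fld d) (p : ℕ → Fld d) (s : Finset ℕ), Loc F d s w p → k ∈ s → (∀ l ∈ s, k ≤ l) →
    ∀ φ : Scl d, MW F d φ →
      Tendsto (EE d fun i x => φ i x *
        (ip ((d i).a x k - (d i).a x (k + 1) - (d i).c x k • sv x) (w i x) / (d i).n -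
          (d i).c x k * trN (dg (p k i x)))) F (𝓝 0)

/-! ### bounds -/

theorem abs_t_le (d : Dat) (x : Cfg d.n) (k : ℕ) : |d.t x k| ≤ 1 := by
  cases k with
  | zero => rw [t_zero]; simp
  | succ k =>
    rcases Nat.eq_zero_or_pos d.n with h0 | h0
    · have : d.t x (k + 1) = 0 := by
        unfold Dat.t tS
        rw [if_neg (Nat.succ_ne_zero k)]
        unfold trN
        have hn : (d.n : ℝ) = 0 := by exact_mod_cast h0
        rw [hn, div_zero]
      rw [this]; simp
    · rw [t_succ d x k h0]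
      have hn : (0 : ℝ) < d.n := by exact_mod_cast h0
      have h1 : 0 ≤ qq (d.m x (k + 1)) := div_nonneg (sq_nonneg' _) hn.le
      have h2 : qq (d.m x (k + 1)) ≤ 1 := by
        unfold qq
        rw [div_le_one hn]
        unfold sq
        calc ∑ j, d.m x (k + 1) j ^ 2 ≤ ∑ _j : Fin d.n, (1 : ℝ) := by
              refine Finset.sum_le_sum fun j _ => ?_
              rw [← sq_abs]
              exact pow_le_one₀ (abs_nonneg _) (abs_m_le d x (k + 1) j)
          _ = d.n := by simp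
      rw [abs_le]
      constructor <;> linarith

theorem sq_le_of_abs {n : ℕ} {v : Vec n} {C : ℝ} (h : ∀ j, |v j| ≤ C) : sq v ≤ C ^ 2 * n := by
  unfold sq
  calc ∑ j, v j ^ 2 ≤ ∑ _j : Fin n, C ^ 2 := by
        refine Finset.sum_le_sum fun j _ => ?_
        rw [← sq_abs]
        exact pow_le_pow_left₀ (abs_nonneg _) (h j) 2
    _ = C ^ 2 * n := by simp [mul_comm]

theorem sq_a_diff_le (hJ : HypJ F d) {k : ℕ} (hk : 1 ≤ k) :
    ∃ C : ℝ, 0 ≤ C ∧ ∀ i x, sq ((d i).a x k - (d i).a x (k + 1)) ≤ C * (d i).n := by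
  obtain ⟨CM, hCM⟩ := M_op hJ
  refine ⟨2 * (CM ^ 2 * 2 ^ 2) + 2 * 2 ^ 2, by positivity, fun i x => ?_⟩
  have hr : |(d i).r ^ 2| ≤ 1 := by
    rw [abs_of_nonneg (sq_nonneg _)]; exact pow_le_one₀ (hJ.r0 i) (hJ.r1 i)
  have hrt : ∀ l l' j, |(d i).r ^ 2 * (d i).t x l * (d i).m x l' j| ≤ 1 := by
    intro l l' j
    rw [abs_mul, abs_mul]
    have h1 : |(d i).r ^ 2| * |(d i).t x l| ≤ 1 :=
      mul_le_one₀ hr (abs_nonneg _) (abs_t_le _ _ _)
    exact mul_le_one₀ h1 (abs_nonneg _) (abs_m_le _ _ _ _)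
  have hdec : ∃ e : Vec (d i).n, (∀ j, |e j| ≤ 2) ∧ (d i).a x k - (d i).a x (k + 1) =
      (d i).M.mulVec ((d i).m x (k - 1) - (d i).m x k) + e := by
    obtain ⟨k', rfl⟩ : ∃ k', k = k' + 1 := ⟨k - 1, by omega⟩
    cases k' with
    | zero =>
      refine ⟨fun j => (d i).r ^ 2 * (d i).t x 1 * (d i).m x 0 j, fun j => ?_, ?_⟩
      · exact (hrt 1 0 j).trans (by norm_num)
      · ext j
        show (d i).a x 1 j - (d i).a x 2 j = (d i).M.mulVec ((d i).m x 0 - (d i).m x 1) j + _
        rw [Matrix.mulVec_sub, Pi.sub_apply, a_one, a_add_two (d i) x 0 j]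
        ring
    | succ k' =>
      refine ⟨fun j => (d i).r ^ 2 * (d i).t x (k' + 2) * (d i).m x (k' + 1) j -
        (d i).r ^ 2 * (d i).t x (k' + 1) * (d i).m x k' j, fun j => ?_, ?_⟩
      · refine (abs_sub _ _).trans ?_
        linarith only [hrt (k' + 2) (k' + 1) j, hrt (k' + 1) k' j]
      · ext j
        show (d i).a x (k' + 2) j - (d i).a x (k' + 3) j =
          (d i).M.mulVec ((d i).m x (k' + 1) - (d i).m x (k' + 2)) j + _
        rw [Matrix.mulVec_sub, Pi.sub_apply, a_add_two (d i) x k' j,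
          show k' + 3 = (k' + 1) + 2 from rfl, a_add_two (d i) x (k' + 1) j]
        ring
  obtain ⟨e, he, hdec⟩ := hdec
  rw [hdec]
  refine (sq_add_le' _ _).trans ?_
  have h1 : sq ((d i).m x (k - 1) - (d i).m x k) ≤ 2 ^ 2 * (d i).n :=
    sq_le_of_abs fun j => by
      rw [Pi.sub_apply]
      refine (abs_sub _ _).trans ?_
      linarith only [abs_m_le (d i) x k j, abs_m_le (d i) x (k - 1) j]
  have h2 := hCM i ((d i).m x (k - 1) - (d i).m x k)
  have h3 := mul_le_mul_of_nonneg_left h1 (sq_nonneg CM)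
  have h4 := sq_le_of_abs he
  linarith only [h4, h3, h2]

/-! ### the smooth clip -/

/-- smooth clip -/
noncomputable def gL (L t : ℝ) : ℝ := L * Real.tanh (t / L)
/-- derivative of the smooth clip -/
noncomputable def gL' (L t : ℝ) : ℝ := 1 - Real.tanh (t / L) ^ 2

theorem abs_gL_le {L : ℝ} (hL : 0 ≤ L) (t : ℝ) : |gL L t| ≤ L := by
  unfold gL
  rw [abs_mul, abs_of_nonneg hL]
  exact mul_le_of_le_one_right hL (Real.abs_tanh_lt_one _).le

theorem abs_gL'_le (L t : ℝ) : |gL' L t| ≤ 1 := by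
  unfold gL'
  rw [abs_of_pos (one_sub_tanh_sq_pos _)]
  exact one_sub_tanh_sq_le _

theorem gL_taylor {L : ℝ} (hL : 1 ≤ L) (u v : ℝ) :
    |gL L u - gL L v - gL' L v * (u - v)| ≤ (u - v) ^ 2 / L := by
  have hL0 : 0 < L := by linarith
  have h := abs_tanh_taylor (v / L) ((u - v) / L)
  have e1 : v / L + (u - v) / L = u / L := by rw [← add_div]; ring_nf
  rw [e1] at h
  have e2 : gL L u - gL L v - gL' L v * (u - v) =
      L * (Real.tanh (u / L) - Real.tanh (v / L) -
        (u - v) / L * (1 - Real.tanh (v / L) ^ 2)) := by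
    unfold gL gL'
    field_simp
  rw [e2, abs_mul, abs_of_pos hL0]
  refine (mul_le_mul_of_nonneg_left h hL0.le).trans (le_of_eq ?_)
  field_simp

theorem abs_sub_gL_le {L : ℝ} (hL : 1 ≤ L) (t : ℝ) : |t - gL L t| ≤ t ^ 2 / L := by
  have h := gL_taylor hL t 0
  have e : gL L t - gL L 0 - gL' L 0 * (t - 0) = -(t - gL L t) := by
    unfold gL gL'
    simp
  rw [e, abs_neg, sub_zero] at h
  exact h

/-- N1 for fields `(a^k - a^{k+1}) W` -/
theorem n1_diff (hJ : HypJ F d) (hp : ∀ i, IsProb (d i).ν) (hD : DerA F d) (hO : OpB F d)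
    (h4 : L4 F d) {k : ℕ} (hk : 1 ≤ k) (hN : N1h F d k) {W : Fld d} {p : ℕ → Fld d}
    {s : Finset ℕ} (hW : Loc F d s W p) (hs : ∀ l ∈ s, k ≤ l) {φ : Scl d} (hφ : MW F d φ) :
    Tendsto (EE d fun i x => φ i x * (ip (sv x - (d i).m x k)
      (fun j => ((d i).a x k j - (d i).a x (k + 1) j) * W i x j) / (d i).n)) F (𝓝 0) := by
  classical
  obtain ⟨CD, hCD0, hCD⟩ := sq_a_diff_le hJ hk
  obtain ⟨Cφ, hCφ⟩ := hφ.1
  obtain ⟨CW, hCW⟩ := hW.1.1
  -- the big index set
  set s' : Finset ℕ := insert k (insert (k + 1) s) with hs'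
  have hs'k : ∀ l ∈ s', k ≤ l := by
    intro l hl
    rcases Finset.mem_insert.1 hl with h | h
    · exact h.ge
    rcases Finset.mem_insert.1 h with h | h
    · omega
    · exact hs l h
  have hs'1 : ∀ l ∈ s', 1 ≤ l := fun l hl => hk.trans (hs'k l hl)
  have hss : s ⊆ s' := fun l hl => Finset.mem_insert_of_mem (Finset.mem_insert_of_mem hl)
  have hY := ((YF.a hD hk).ext (s' := s') (Finset.singleton_subset_iff.2
    (Finset.mem_insert_self _ _))).add (((YF.a hD (show 1 ≤ k + 1 by omega)).smul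
      (θ := fun _ => -1) (C := 1) (fun _ => by simp)).ext (s' := s')
      (Finset.singleton_subset_iff.2 (Finset.mem_insert_of_mem (Finset.mem_insert_self _ _))))
  have key : ∀ L : ℝ, 1 ≤ L → Tendsto (EE d fun i x => φ i x * (ip (sv x - (d i).m x k)
      (fun j => gL L ((d i).a x k j - (d i).a x (k + 1) j) * W i x j) / (d i).n)) F (𝓝 0) := by
    intro L hL
    have h1 := hY.comp (g := gL L) (g' := gL' L) (C := L) (by linarith only [hL])
      (fun u => abs_gL_le (by linarith only [hL]) u) (fun u => (abs_gL'_le L u).trans hL)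
      (fun u v => (gL_taylor hL u v).trans (by
        have : (u - v) ^ 2 / L ≤ (u - v) ^ 2 := div_le_self (sq_nonneg _) hL
        linarith only [mul_nonneg (sub_nonneg.2 hL) (sq_nonneg (u - v)), this]))
    have h2 := Loc.fm hO h4 hs'1 h1 (hW.ext hss)
    have h3 := hN _ _ _ h2 hs'k φ hφ
    have e : (fun (i : ι) (x : Cfg (d i).n) => φ i x * (ip (sv x - (d i).m x k)
        (fun j => gL L ((d i).a x k j - (d i).a x (k + 1) j) * W i x j) / (d i).n)) =
        fun i x => φ i x * (ip (sv x - (d i).m x k)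
          (D2.fm (fun i x j => gL L ((d i).a x k j + -1 * (d i).a x (k + 1) j)) W i x) /
            (d i).n) := by
      funext i x
      have e2 : (fun j => gL L ((d i).a x k j - (d i).a x (k + 1) j) * W i x j) =
          D2.fm (fun i x j => gL L ((d i).a x k j + -1 * (d i).a x (k + 1) j)) W i x := by
        funext j
        unfold D2.fm
        beta_reduce
        rw [neg_one_mul, ← sub_eq_add_neg]
      rw [e2]
    rw [e]
    exact h3
  rw [Metric.tendsto_nhds]
  intro ε hε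
  obtain ⟨L, hL1, hL⟩ : ∃ L : ℝ, 1 ≤ L ∧ |Cφ| * (2 * |CW| * CD) / L < ε / 2 := by
    refine ⟨max 1 (|Cφ| * (2 * |CW| * CD) / (ε / 2) + 1), le_max_left _ _, ?_⟩
    have h0 : 0 < max 1 (|Cφ| * (2 * |CW| * CD) / (ε / 2) + 1) :=
      lt_of_lt_of_le one_pos (le_max_left _ _)
    rw [div_lt_iff₀ h0]
    have h1 : |Cφ| * (2 * |CW| * CD) / (ε / 2) + 1 ≤
        max 1 (|Cφ| * (2 * |CW| * CD) / (ε / 2) + 1) := le_max_right _ _
    have h2 := mul_le_mul_of_nonneg_left h1 (half_pos hε).le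
    have h3 : ε / 2 * (|Cφ| * (2 * |CW| * CD) / (ε / 2) + 1) =
        |Cφ| * (2 * |CW| * CD) + ε / 2 := by
      field_simp
    linarith only [h3, h2, hε]
  have h1 := (Metric.tendsto_nhds.1 (key L hL1)) (ε / 2) (half_pos hε)
  filter_upwards [h1, hCφ, hCW, hJ.n_top.eventually_gt_atTop 0] with i g1 g2 g3 g4
  rw [Real.dist_eq, sub_zero] at g1 ⊢
  have hn : (0 : ℝ) < (d i).n := by exact_mod_cast g4
  have hdiff : |EE d (fun i x => φ i x * (ip (sv x - (d i).m x k)
      (fun j => ((d i).a x k j - (d i).a x (k + 1) j) * W i x j) / (d i).n)) i -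
      EE d (fun i x => φ i x * (ip (sv x - (d i).m x k)
      (fun j => gL L ((d i).a x k j - (d i).a x (k + 1) j) * W i x j) / (d i).n)) i| ≤
      |Cφ| * (2 * |CW| * CD) / L := by
    unfold EE
    rw [← Ex_sub]
    refine abs_Ex_le_of (hp i) fun x => ?_
    rw [← mul_sub, ← sub_div, abs_mul, abs_div, abs_of_pos hn]
    have b1 : ip (sv x - (d i).m x k)
        (fun j => ((d i).a x k j - (d i).a x (k + 1) j) * W i x j) -
        ip (sv x - (d i).m x k)
        (fun j => gL L ((d i).a x k j - (d i).a x (k + 1) j) * W i x j) =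
        ∑ j, (sv x j - (d i).m x k j) * (((d i).a x k j - (d i).a x (k + 1) j -
          gL L ((d i).a x k j - (d i).a x (k + 1) j)) * W i x j) := by
      unfold ip
      rw [← Finset.sum_sub_distrib]
      refine Finset.sum_congr rfl fun j _ => ?_
      rw [Pi.sub_apply]
      ring
    have b2 : |∑ j, (sv x j - (d i).m x k j) * (((d i).a x k j - (d i).a x (k + 1) j -
          gL L ((d i).a x k j - (d i).a x (k + 1) j)) * W i x j)| ≤
        2 * |CW| * CD / L * (d i).n := by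
      calc _ ≤ ∑ j, |(sv x j - (d i).m x k j) * (((d i).a x k j - (d i).a x (k + 1) j -
          gL L ((d i).a x k j - (d i).a x (k + 1) j)) * W i x j)| :=
            Finset.abs_sum_le_sum_abs _ _
        _ ≤ ∑ j, 2 * |CW| / L * (((d i).a x k - (d i).a x (k + 1)) j) ^ 2 := by
            refine Finset.sum_le_sum fun j _ => ?_
            rw [abs_mul, abs_mul]
            have c1 : |sv x j - (d i).m x k j| ≤ 2 := by
              refine (abs_sub _ _).trans ?_
              have := abs_m_le (d i) x k j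
              have h5 : |sv x j| = 1 := by unfold sv; exact abs_sp _
              linarith only [h5, this]
            have c2 := abs_sub_gL_le hL1 ((d i).a x k j - (d i).a x (k + 1) j)
            have c3 : |W i x j| ≤ |CW| := (g3 x j).trans (le_abs_self _)
            rw [Pi.sub_apply]
            calc _ ≤ 2 * (((d i).a x k j - (d i).a x (k + 1) j) ^ 2 / L * |CW|) := by
                  refine mul_le_mul c1 ?_ (by (clear * -; positivity)) (by norm_num)
                  exact mul_le_mul c2 c3 (abs_nonneg _) (by (clear * - hL1; positivity))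
              _ = _ := by ring
        _ = 2 * |CW| / L * sq ((d i).a x k - (d i).a x (k + 1)) := by
            rw [← Finset.mul_sum]; rfl
        _ ≤ 2 * |CW| / L * (CD * (d i).n) :=
            mul_le_mul_of_nonneg_left (hCD i x) (by (clear * - hL1; positivity))
        _ = _ := by ring
    rw [b1]
    calc |φ i x| * (|∑ j, (sv x j - (d i).m x k j) * (((d i).a x k j - (d i).a x (k + 1) j -
          gL L ((d i).a x k j - (d i).a x (k + 1) j)) * W i x j)| / (d i).n)
        ≤ |Cφ| * (2 * |CW| * CD / L) := by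
          refine mul_le_mul ((g2 x).trans (le_abs_self _)) ?_ (by (clear * - g4; positivity)) (abs_nonneg _)
          rw [div_le_iff₀ hn]
          exact b2
      _ = _ := by ring
  have := abs_sub_abs_le_abs_sub (EE d (fun i x => φ i x * (ip (sv x - (d i).m x k)
      (fun j => ((d i).a x k j - (d i).a x (k + 1) j) * W i x j) / (d i).n)) i)
      (EE d (fun i x => φ i x * (ip (sv x - (d i).m x k)
      (fun j => gL L ((d i).a x k j - (d i).a x (k + 1) j) * W i x j) / (d i).n)) i)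
  linarith only [this, hdiff, g1, hL]

/-- trigonometric functions of the AMP fields are local -/
theorem loc_cos (hD : DerA F d) {s : Finset ℕ} (hs : ∀ l ∈ s, 1 ≤ l) {θ : ι → ℕ → ℝ} {C : ℝ}
    (hθ : ∀ i l, |θ i l| ≤ C) (α u : ∀ i, Vec (d i).n) {C' : ℝ} (hu : ∀ i j, |u i j| ≤ C') :
    Loc F d s (fun i x j => u i j * Real.cos (∑ l ∈ s, θ i l * (d i).a x l j + α i j))
      (fun l i x j => u i j *
        (-Real.sin (∑ l ∈ s, θ i l * (d i).a x l j + α i j) * θ i l)) :=
  ((YF.lin hD hs hθ α).comp (g := Real.cos) (g' := fun u => -Real.sin u) (C := 1) zero_le_one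
    (fun u => Real.abs_cos_le_one u) (fun u => by rw [abs_neg]; exact Real.abs_sin_le_one u)
    (fun u v => abs_cos_taylor u v)).mul_label hu

/-- the pointwise identity behind N2 with spin weights -/
theorem point_identity {σ m D c u v θ X Y : ℝ} (hσ : σ ^ 2 = 1) :
    (D - c * σ) * ((u + v * σ) * X) + c * ((u + v * σ) * (θ * Y)) =
      ((D - c * σ) * (u * X) - c * (u * (-Y * θ))) +
      ((D - c * σ) * (m * (v * X)) - c * (m * (v * (-Y * θ)) + v * X * (1 - m ^ 2))) +
      (σ - m) * (D * (v * X)) + c * ((σ - m) * (θ * v * Y)) +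
      c * ((σ - m) * (m * (v * X))) := by
  linear_combination (-c * v * X) * hσ

theorem sv_sq' {n : ℕ} (x : Cfg n) (j : Fin n) : sv x j ^ 2 = 1 := by
  unfold sv
  cases x j <;> simp [sp]

/-- **N2 for trigonometric test functions with spin weights.** -/
theorem n2t (hJ : HypJ F d) (hp : ∀ i, IsProb (d i).ν) (hD : DerA F d) (hO : OpB F d)
    (h4 : L4 F d) (hT : MacT F d) {k : ℕ} (hk : 1 ≤ k) (hN : N1h F d k) (hP : PPh F d k)
    {s : Finset ℕ} (hks : k ∈ s) (hs : ∀ l ∈ s, k ≤ l) : D3.N2T F d k s := by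
  classical
  intro φ hφ u v α θ C hu hv hθ
  have hs1 : ∀ l ∈ s, 1 ≤ l := fun l hl => hk.trans (hs l hl)
  have hφc : MW F d (fun i x => φ i x * (d i).c x k) := hφ.mul (mw_c hJ hT k)
  -- the local fields
  have L1 := loc_cos hD hs1 hθ α u hu
  have L2 := loc_cos hD hs1 hθ α v hv
  have Lm : Loc F d s (fun i x => (d i).m x k) _ :=
    (Loc.m hD hk).ext (s' := s) (Finset.singleton_subset_iff.2 hks)
  have L3 := Loc.fm hO h4 hs1 Lm L2
  have L4' := loc_cos hD hs1 hθ (fun i j => α i j - Real.pi / 2) (fun i j => θ i k * v i j)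
    (C' := C * C) (fun i j => by
      rw [abs_mul]
      exact mul_le_mul (hθ i k) (hv i j) (abs_nonneg _) ((abs_nonneg _).trans (hθ i k)))
  have A := hP _ _ _ L1 hks hs φ hφ
  have B := hP _ _ _ L3 hks hs φ hφ
  have Cc := n1_diff hJ hp hD hO h4 hk hN L2 hs hφ
  have Dd := hN _ _ _ L4' hs _ hφc
  have E := hN _ _ _ L3 hs _ hφc
  have T := tendsto_EE_add (tendsto_EE_add (tendsto_EE_add (tendsto_EE_add A B) Cc) Dd) E
  refine T.congr fun i => ?_
  unfold EE
  congr 1
  funext x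
  rcases Nat.eq_zero_or_pos (d i).n with h0 | h0
  · have hn : ((d i).n : ℝ) = 0 := by exact_mod_cast h0
    unfold trN
    simp only [hn, div_zero, mul_zero, add_zero, sub_zero]
  have hn : ((d i).n : ℝ) ≠ 0 := by
    have : (0 : ℝ) < (d i).n := by exact_mod_cast h0
    exact this.ne'
  set Y : Fin (d i).n → ℝ := fun j => ∑ l ∈ s, θ i l * (d i).a x l j + α i j with hY
  have hsin : ∀ j, Real.cos (∑ l ∈ s, θ i l * (d i).a x l j + (α i j - Real.pi / 2)) =
      Real.sin (Y j) := by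
    intro j
    rw [← add_sub_assoc, Real.cos_sub_pi_div_two]
  have hS : ∀ j, (d i).S x k j = 1 - (d i).m x k j ^ 2 := fun j => rfl
  simp only [ip, trN, dg, Matrix.diagonal_apply_eq, D2.fm, Pi.sub_apply, Pi.smul_apply,
    smul_eq_mul, hsin, Finset.mem_singleton, if_true, hS]
  have key : (∑ j, ((d i).a x k j - (d i).a x (k + 1) j - (d i).c x k * sv x j) *
      ((u i j + v i j * sv x j) * Real.cos (Y j))) + (d i).c x k * ∑ j, (u i j + v i j * sv x j) *
        (θ i k * Real.sin (Y j)) =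
      ((∑ j, ((d i).a x k j - (d i).a x (k + 1) j - (d i).c x k * sv x j) *
        (u i j * Real.cos (Y j))) -
        (d i).c x k * ∑ j, u i j * (-Real.sin (Y j) * θ i k)) +
      ((∑ j, ((d i).a x k j - (d i).a x (k + 1) j - (d i).c x k * sv x j) *
        ((d i).m x k j * (v i j * Real.cos (Y j)))) -
        (d i).c x k * ∑ j, ((d i).m x k j * (v i j * (-Real.sin (Y j) * θ i k)) +
          v i j * Real.cos (Y j) * (1 - (d i).m x k j ^ 2))) +
      (∑ j, (sv x j - (d i).m x k j) * (((d i).a x k j - (d i).a x (k + 1) j) *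
        (v i j * Real.cos (Y j)))) +
      (d i).c x k * (∑ j, (sv x j - (d i).m x k j) * (θ i k * v i j * Real.sin (Y j))) +
      (d i).c x k * (∑ j, (sv x j - (d i).m x k j) *
        ((d i).m x k j * (v i j * Real.cos (Y j)))) := by
    simp only [Finset.mul_sum, ← Finset.sum_add_distrib, ← Finset.sum_sub_distrib]
    exact Finset.sum_congr rfl fun j _ => point_identity (sv_sq' x j)
  simp only [hY] at key ⊢
  linear_combination (-(φ i x) / (d i).n) * key

end Vale.Agent.P150.F.D2.N2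

namespace Vale.Agent.P150.F.D2

variable {ι : Type} {F : Filter ι} {d : ι → Dat}

/-- **N2 for trigonometric test functions**, from `N1` and `PPloc`. -/
theorem n2t (hJ : HypJ F d) (hp : ∀ i, IsProb (d i).ν) (hD : DerA F d) (hO : OpB F d)
    (h4 : L4 F d) (hT : MacT F d) {k : ℕ} (hk : 1 ≤ k) (hN : N1 F d k) (hP : PPloc F d k)
    {s : Finset ℕ} (hks : k ∈ s) (hs : ∀ l ∈ s, k ≤ l) : D3.N2T F d k s :=
  N2.n2t hJ hp hD hO h4 hT hk (fun w p s => hN s w p) (fun w p s => hP s w p) hks hs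

end Vale.Agent.P150.F.D2
end

section

/-! Mixing uniformly over all external fields: the good starting set. -/

open Filter Topology

namespace Vale.Agent.P150.Unif

open Semi

variable {n : ℕ} {J : Fin n → Fin n → ℝ} (b : Fin n → ℝ)

/-- one-site weight of the product measure with field `b` -/
noncomputable def pw {n : ℕ} (b : Fin n → ℝ) (i : Fin n) (s : Bool) : ℝ :=
  Real.exp (sp s * b i) / (2 * Real.cosh (b i))

/-- the conditional probabilities are bounded by `e^{2R}` times the product weights -/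
lemma cond_le {R : ℝ} (hR : ∀ (z : Cfg n) (i : Fin n), |locField J b z i - b i| ≤ R)
    (i : Fin n) (s : Bool) (z : Cfg n) :
    Real.exp (sp s * locField J b z i) / (2 * Real.cosh (locField J b z i))
      ≤ Real.exp (2 * R) * pw b i s := by
  set h := locField J b z i with hh
  have h1 := abs_le.mp (hR z i)
  have hc1 : Real.exp (-R) * Real.cosh (b i) ≤ Real.cosh h := by
    rw [Real.cosh_eq, Real.cosh_eq]
    have e1 : Real.exp (-R) * Real.exp (b i) ≤ Real.exp h := by
      rw [← Real.exp_add]; exact Real.exp_le_exp.mpr (by linarith)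
    have e2 : Real.exp (-R) * Real.exp (-(b i)) ≤ Real.exp (-h) := by
      rw [← Real.exp_add]; exact Real.exp_le_exp.mpr (by linarith)
    linarith only [e2, e1]
  have hc2 : Real.exp (sp s * h) ≤ Real.exp R * Real.exp (sp s * b i) := by
    rw [← Real.exp_add]
    apply Real.exp_le_exp.mpr
    cases s
    · simp [sp]; linarith
    · simp [sp]; linarith
  have p1 := Real.cosh_pos (b i)
  have p2 := Real.cosh_pos h
  unfold pw
  rw [div_le_iff₀ (by positivity)]
  have e3 : Real.exp (2 * R) = Real.exp R * Real.exp R := by rw [← Real.exp_add]; ring_nf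
  have e4 : Real.exp R * Real.exp (-R) = 1 := by rw [← Real.exp_add]; simp
  calc Real.exp (sp s * h) ≤ Real.exp R * Real.exp (sp s * b i) := hc2
    _ = Real.exp (2 * R) * (Real.exp (sp s * b i) / (2 * Real.cosh (b i)))
          * (2 * (Real.exp (-R) * Real.cosh (b i))) := by
        rw [e3]
        field_simp
        linear_combination -e4
    _ ≤ Real.exp (2 * R) * (Real.exp (sp s * b i) / (2 * Real.cosh (b i)))
          * (2 * Real.cosh h) := by
        apply mul_le_mul_of_nonneg_left _ (by positivity)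
        linarith only [hc1]

lemma prod_pw (z : Cfg n) : ∏ i, pw b i (z i)
    = Real.exp (∑ i, b i * sp (z i)) / ∏ i, (2 * Real.cosh (b i)) := by
  unfold pw
  rw [Finset.prod_div_distrib, Real.exp_sum]
  congr 1
  apply Finset.prod_congr rfl
  intro i _
  rw [mul_comm]

lemma sum_exp_field : ∑ z : Cfg n, Real.exp (∑ i, b i * sp (z i)) = ∏ i, (2 * Real.cosh (b i)) := by
  have h1 : ∀ z : Cfg n, Real.exp (∑ i, b i * sp (z i)) = ∏ i, Real.exp (b i * sp (z i)) := by
    intro z; rw [Real.exp_sum]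
  simp only [h1]
  rw [← Fintype.prod_sum (fun (i : Fin n) (s : Bool) => Real.exp (b i * sp s))]
  apply Finset.prod_congr rfl
  intro i _
  rw [Fintype.sum_bool, Real.cosh_eq]
  simp [sp]
  ring

/-- comparison of the Gibbs measure with the product measure -/
lemma gibbs_ge_prod {M : ℝ} (hM : ∀ z : Cfg n, |energy J (fun _ => 0) z| ≤ M) (z : Cfg n) :
    Real.exp (-(2 * M)) * ∏ i, pw b i (z i) ≤ gibbs J b z := by
  have hE : ∀ y : Cfg n, energy J b y = energy J (fun _ => 0) y + ∑ i, b i * sp (y i) := by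
    intro y; unfold energy; simp
  unfold gibbs
  have hZ : ∑ y : Cfg n, Real.exp (energy J b y) ≤ Real.exp M * ∏ i, (2 * Real.cosh (b i)) := by
    rw [← sum_exp_field, Finset.mul_sum]
    apply Finset.sum_le_sum
    intro y _
    rw [hE, Real.exp_add]
    exact mul_le_mul_of_nonneg_right (Real.exp_le_exp.mpr (le_trans (le_abs_self _) (hM y)))
      (Real.exp_pos _).le
  have hP : 0 < ∏ i, (2 * Real.cosh (b i)) :=
    Finset.prod_pos fun i _ => by have := Real.cosh_pos (b i); positivity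
  rw [le_div_iff₀ (Poinc.Z_pos J _), prod_pw]
  have hnn : 0 ≤ Real.exp (-(2 * M)) * (Real.exp (∑ i, b i * sp (z i)) / ∏ i, (2 * Real.cosh (b i))) :=
    by positivity
  calc Real.exp (-(2 * M)) * (Real.exp (∑ i, b i * sp (z i)) / ∏ i, (2 * Real.cosh (b i)))
        * ∑ y : Cfg n, Real.exp (energy J b y)
      ≤ Real.exp (-(2 * M)) * (Real.exp (∑ i, b i * sp (z i)) / ∏ i, (2 * Real.cosh (b i)))
        * (Real.exp M * ∏ i, (2 * Real.cosh (b i))) := mul_le_mul_of_nonneg_left hZ hnn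
    _ = (Real.exp (-(2 * M)) * Real.exp M) * Real.exp (∑ i, b i * sp (z i)) := by
        field_simp
    _ = Real.exp (-M) * Real.exp (∑ i, b i * sp (z i)) := by
        rw [← Real.exp_add]; ring_nf
    _ ≤ Real.exp (energy J (fun _ => 0) z) * Real.exp (∑ i, b i * sp (z i)) := by
        apply mul_le_mul_of_nonneg_right _ (Real.exp_pos _).le
        apply Real.exp_le_exp.mpr
        have := (abs_le.mp (hM z)).1
        linarith
    _ = Real.exp (energy J b z) := by rw [hE, Real.exp_add]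

/-- good configurations: no site in a very unlikely state -/
def Good {n : ℕ} (b : Fin n → ℝ) (R δ : ℝ) (z : Cfg n) : Prop :=
  ∀ i, δ ≤ Real.exp (2 * R) * pw b i (z i)

lemma gibbs_ge_good {M R δ : ℝ} (hM : ∀ z : Cfg n, |energy J (fun _ => 0) z| ≤ M)
    (hδ : 0 < δ) (z : Cfg n) (hz : Good b R δ z) :
    Real.exp (-(2 * M + n * (2 * R - Real.log δ))) ≤ gibbs J b z := by
  refine le_trans ?_ (gibbs_ge_prod b hM z)
  rw [neg_add, Real.exp_add]
  apply mul_le_mul_of_nonneg_left _ (Real.exp_pos _).le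
  have h1 : Real.exp (-(n * (2 * R - Real.log δ))) = ∏ _i : Fin n, (Real.exp (-(2 * R)) * δ) := by
    rw [Finset.prod_const, Finset.card_univ, Fintype.card_fin]
    nth_rewrite 2 [← Real.exp_log hδ]
    rw [← Real.exp_add, ← Real.exp_nat_mul]
    congr 1; ring
  rw [h1]
  apply Finset.prod_le_prod
  · intro i _; positivity
  · intro i _
    have h2 := hz i
    calc Real.exp (-(2 * R)) * δ ≤ Real.exp (-(2 * R)) * (Real.exp (2 * R) * pw b i (z i)) :=
          mul_le_mul_of_nonneg_left h2 (Real.exp_pos _).le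
      _ = pw b i (z i) := by
          rw [← mul_assoc, ← Real.exp_add]; simp

open Classical in
/-- the bad set has small probability after a burn-in -/
lemma bad_mass {R δ : ℝ} (hR : ∀ (z : Cfg n) (i : Fin n), |locField J b z i - b i| ≤ R)
    (t : ℝ) (ht : 0 ≤ t) (hδ : δ = Real.exp (-t)) (x : Cfg n) :
    ∑ z, kernel J b t x z * (if Good b R δ z then 0 else 1) ≤ 4 * n * Real.exp (-t) := by
  have hδ0 : 0 < δ := by rw [hδ]; exact Real.exp_pos _
  -- union bound
  have h1 : ∀ z : Cfg n, (if Good b R δ z then (0:ℝ) else 1)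
      ≤ ∑ i, ∑ s : Bool, (if Real.exp (2 * R) * pw b i s < δ then (1:ℝ) else 0)
          * (if z i = s then 1 else 0) := by
    intro z
    have hnn : ∀ (i : Fin n) (s : Bool), 0 ≤ (if Real.exp (2 * R) * pw b i s < δ then (1:ℝ) else 0)
          * (if z i = s then 1 else 0) := by
      intro i s; split_ifs <;> norm_num
    split_ifs with hg
    · exact Finset.sum_nonneg fun i _ => Finset.sum_nonneg fun s _ => hnn i s
    · unfold Good at hg
      push Not at hg
      obtain ⟨i, hi⟩ := hg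
      have h2 : (1:ℝ) ≤ ∑ s : Bool, (if Real.exp (2 * R) * pw b i s < δ then (1:ℝ) else 0)
          * (if z i = s then 1 else 0) := by
        have h3 := Finset.single_le_sum (f := fun s : Bool =>
          (if Real.exp (2 * R) * pw b i s < δ then (1:ℝ) else 0) * (if z i = s then 1 else 0))
          (fun s _ => hnn i s) (Finset.mem_univ (z i))
        simp only [hi, if_true, mul_one] at h3
        exact h3
      exact h2.trans (Finset.single_le_sum (f := fun i => ∑ s : Bool,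
          (if Real.exp (2 * R) * pw b i s < δ then (1:ℝ) else 0) * (if z i = s then 1 else 0))
          (fun i _ => Finset.sum_nonneg fun s _ => hnn i s) (Finset.mem_univ i))
  have h2 : ∑ z, kernel J b t x z * (if Good b R δ z then (0:ℝ) else 1)
      ≤ ∑ i, ∑ s : Bool, (if Real.exp (2 * R) * pw b i s < δ then (1:ℝ) else 0)
          * Pt J b t (fun z => if z i = s then (1:ℝ) else 0) x := by
    calc ∑ z, kernel J b t x z * (if Good b R δ z then (0:ℝ) else 1)
        ≤ ∑ z, kernel J b t x z * ∑ i, ∑ s : Bool,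
          (if Real.exp (2 * R) * pw b i s < δ then (1:ℝ) else 0) * (if z i = s then 1 else 0) := by
          apply Finset.sum_le_sum
          intro z _
          exact mul_le_mul_of_nonneg_left (h1 z) (kernel_nonneg (J := J) b ht x z)
      _ = _ := by
          unfold Pt
          simp only [Finset.mul_sum]
          rw [Finset.sum_comm]
          apply Finset.sum_congr rfl; intro i _
          rw [Finset.sum_comm]
          apply Finset.sum_congr rfl; intro s _
          apply Finset.sum_congr rfl; intro z _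
          ring
  refine h2.trans ?_
  have h3 : ∀ (i : Fin n) (s : Bool), (if Real.exp (2 * R) * pw b i s < δ then (1:ℝ) else 0)
          * Pt J b t (fun z => if z i = s then (1:ℝ) else 0) x ≤ 2 * Real.exp (-t) := by
    intro i s
    split_ifs with hlt
    · rw [one_mul]
      have h4 := site_marginal (J := J) b i s (Real.exp (2 * R) * pw b i s)
        (fun z => cond_le b hR i s z) t ht x
      rw [hδ] at hlt
      linarith only [h4, hlt]
    · rw [zero_mul]; positivity
  calc ∑ i, ∑ s : Bool, (if Real.exp (2 * R) * pw b i s < δ then (1:ℝ) else 0)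
          * Pt J b t (fun z => if z i = s then (1:ℝ) else 0) x
      ≤ ∑ _i : Fin n, ∑ _s : Bool, 2 * Real.exp (-t) :=
        Finset.sum_le_sum fun i _ => Finset.sum_le_sum fun s _ => h3 i s
    _ = 4 * n * Real.exp (-t) := by
        simp; ring

open Classical in
/-- **burn-in**: total variation bound at time `t + s`, for all starts and all fields -/
theorem tv_burn {M R C : ℝ} (hJ : ∀ i j, J i j = J j i) (hC : 0 < C)
    (hM : ∀ z : Cfg n, |energy J (fun _ => 0) z| ≤ M)
    (hR : ∀ (z : Cfg n) (i : Fin n), |locField J b z i - b i| ≤ R)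
    (hml : ∀ f : Cfg n → ℝ, (∀ x, 0 < f x) →
      entg J b f ≤ C * dir J b f (fun x => Real.log (f x)))
    (t : ℝ) (ht : 0 ≤ t) (hnt : 64 * n * Real.exp (-t) ≤ 1) (s : ℝ) (hs : 0 ≤ s)
    (hsm : 16 * (2 * M + n * (2 * R + t)) * Real.exp (-(s / C)) ≤ 1) (x : Cfg n) :
    tvDist J b (t + s) x ≤ 1 / 4 := by
  refine (tvDist_add b ht x).trans ?_
  have key : ∀ z : Cfg n, tvDist J b s z
      ≤ 3 / 16 + (if Good b R (Real.exp (-t)) z then (0:ℝ) else 1) := by
    intro z
    split_ifs with hg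
    · have h1 := gibbs_ge_good (J := J) b hM (Real.exp_pos (-t)) z hg
      rw [Real.log_exp] at h1
      have h2 := tv_le_of_mlsi_at b hJ C (2 * M + n * (2 * R - -t)) hC hml z h1 s hs
      have h3 : 2 * (Real.exp (-(s / C)) * (2 * M + n * (2 * R - -t))) ≤ (3 / 8) ^ 2 := by
        rw [sub_neg_eq_add]
        norm_num
        linarith only [hsm]
      have h4 := abs_le_of_sq_le_sq' (h2.trans h3) (by norm_num)
      linarith only [h4.2]
    · have := tvDist_le_one (J := J) b hs z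
      linarith only [this]
  calc ∑ z, kernel J b t x z * tvDist J b s z
      ≤ ∑ z, kernel J b t x z * (3 / 16 + (if Good b R (Real.exp (-t)) z then (0:ℝ) else 1)) := by
        apply Finset.sum_le_sum
        intro z _
        exact mul_le_mul_of_nonneg_left (key z) (kernel_nonneg (J := J) b ht x z)
    _ = 3 / 16 + ∑ z, kernel J b t x z * (if Good b R (Real.exp (-t)) z then (0:ℝ) else 1) := by
        simp only [mul_add, Finset.sum_add_distrib]
        rw [← Finset.sum_mul, kernel_row, one_mul]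
    _ ≤ 3 / 16 + 4 * n * Real.exp (-t) := by
        have := bad_mass (J := J) b hR t ht rfl x
        linarith only [this]
    _ ≤ 1 / 4 := by linarith only [hnt]

end Vale.Agent.P150.Unif
end
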