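import Mathlib
import Vale.Agent.P150.Bdl.B9
import Vale.Agent.P150.Bdl.B28
import Vale.Agent.P150.Bdl.B23
import Vale.Agent.P150.Bdl.B18
import Vale.Agent.P150.Bdl.B26
import Vale.Agent.P150.Bdl.B12
import Vale.Agent.P150.Bdl.B8
import Vale.Agent.P150.Bdl.B24
import Vale.Agent.P150.Bdl.B20

set_option linter.all false

section

/-! Module G6: concentration for one parameter and for pairs of parameters (helper477). -/

open MeasureTheory ProbabilityTheory Filter Topology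
open scoped Matrix

namespace Vale.Agent.P150.F

namespace G6

variable {n d : ℕ}

/-- the good couplings of a parameter -/
def Sr (c : ℝ) (p : Par n d) : Set (Pairs n → ℝ) := {g | p.Reg c (skM g)}

/-- the drift error as a function of the disorder -/
noncomputable def Ug (κ₀ : ℝ) (p : Par n d) (g : Pairs n → ℝ) : Vec n :=
  fun j => p.U κ₀ (skM g) j

/-- its truncated mean -/
noncomputable def bg (κ₀ c : ℝ) (p : Par n d) : Vec n :=
  fun j => ∫ g in Sr c p, Ug κ₀ p g j ∂(disorder n)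

theorem continuous_H (p : Par n d) (v : Vec n) :
    Continuous fun g : Pairs n → ℝ => qf (p.H (skM g)) v := by
  have h := continuous_skM (n := n)
  unfold qf ip Par.H Hess
  refine continuous_finsetSum _ fun i _ => ?_
  refine continuous_const.mul ?_
  have h2 : Continuous fun g : Pairs n → ℝ => (dg (fun i => 1 / (1 - p.m i ^ 2)) +
      (p.r ^ 2 * (1 - qq p.m)) • (1 : Mat n) - p.r • skM g + p.A
      - (2 * p.r ^ 2 / n) • Matrix.vecMulVec p.m p.m) := by
    fun_prop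
  have h3 : Continuous fun g : Pairs n → ℝ => (dg (fun i => 1 / (1 - p.m i ^ 2)) +
      (p.r ^ 2 * (1 - qq p.m)) • (1 : Mat n) - p.r • skM g + p.A
      - (2 * p.r ^ 2 / n) • Matrix.vecMulVec p.m p.m).mulVec v := by
    fun_prop
  exact (continuous_apply i).comp h3

theorem isSymm_skM (g : Pairs n → ℝ) : (skM g).IsSymm := by
  ext i j
  simp only [Matrix.transpose_apply]
  exact skM_symm g j i

theorem measurableSet_Sr (c : ℝ) (p : Par n d) : MeasurableSet (Sr c p) := by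
  have h : Sr c p = {g | OpLe (skM g) 3} ∩ ⋂ v : Vec n, {g | c * sq v ≤ qf (p.H (skM g)) v} := by
    ext g
    simp only [Sr, Par.Reg, Set.mem_ofPred_eq, Set.mem_inter_iff, Set.mem_iInter]
    exact ⟨fun h => h.2, fun h => ⟨isSymm_skM g, h⟩⟩
  rw [h]
  refine (measurableSet_opLe 3).inter ?_
  exact (isClosed_iInter fun v => isClosed_le continuous_const (continuous_H p v)).measurableSet

theorem intOn_of_lip {S : Set (Pairs n → ℝ)} (hS : MeasurableSet S) {f : (Pairs n → ℝ) → ℝ}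
    {L : ℝ} (hL : 0 ≤ L) (hf : ∀ g ∈ S, ∀ g' ∈ S, |f g - f g'| ≤ L * ed g g') :
    IntegrableOn f S (disorder n) := by
  obtain ⟨fe, hfe, he⟩ := exists_ext hL hf
  have h1 : Integrable fe (disorder n) := hfe.integrable
  exact (h1.integrableOn).congr_fun (fun g hg => he g hg) hS

/-- the quantitative properties of `U` that the chaining uses -/
structure HU (β K κ₀ c C : ℝ) (n d : ℕ) : Prop where
  pos : 0 < C
  bd : ∀ p : Par n d, p.Ok β K → ∀ g ∈ Sr c p, ∀ j, |Ug κ₀ p g j| ≤ C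
  lip : ∀ p : Par n d, p.Ok β K → ∀ g ∈ Sr c p, ∀ g' ∈ Sr c p,
    nv (Ug κ₀ p g - Ug κ₀ p g') ≤ C * √(2 / n) * ed g g'
  mix : ∀ (p p' : Par n d) (ε : ℝ), 0 ≤ ε → p.Ok β K → p'.Ok β K → p.Near ε p' →
    ∀ g ∈ Sr c p ∩ Sr c p', ∀ g' ∈ Sr c p ∩ Sr c p',
      nv ((Ug κ₀ p g - Ug κ₀ p' g) - (Ug κ₀ p g' - Ug κ₀ p' g')) ≤ C * ε * √(2 / n) * ed g g'
  crude : ∀ (p p' : Par n d) (ε : ℝ), p.Ok β K → p'.Ok β K → p.Near ε p' →
    ∀ g ∈ Sr c p ∩ Sr c p', ∀ j, |Ug κ₀ p g j - Ug κ₀ p' g j| ≤ C * ε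

section

variable {β K κ₀ c C : ℝ}

theorem nv_coord_le (u v : Vec n) (j : Fin n) : |u j - v j| ≤ nv (u - v) := by
  have := abs_le_nv (u - v) j
  simpa using this

theorem intOn_U (h : HU β K κ₀ c C n d) {p : Par n d} (hp : p.Ok β K) (j : Fin n) :
    IntegrableOn (fun g => Ug κ₀ p g j) (Sr c p) (disorder n) := by
  refine intOn_of_lip (L := C * √(2 / n)) (measurableSet_Sr c p)
    (mul_nonneg h.pos.le (Real.sqrt_nonneg _)) fun g hg g' hg' => ?_
  exact (nv_coord_le _ _ j).trans (h.lip p hp g hg g' hg')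

theorem intOn_U_sq (h : HU β K κ₀ c C n d) {p : Par n d} (hp : p.Ok β K) (j : Fin n) :
    IntegrableOn (fun g => Ug κ₀ p g j ^ 2) (Sr c p) (disorder n) := by
  have hL : 0 ≤ C * √(2 / n) := mul_nonneg h.pos.le (Real.sqrt_nonneg _)
  refine intOn_of_lip (L := 2 * C * (C * √(2 / n))) (measurableSet_Sr c p)
    (mul_nonneg (by linarith only [h.pos]) hL) fun g hg g' hg' => ?_
  have h1 := (nv_coord_le _ _ j).trans (h.lip p hp g hg g' hg')
  have h2 := h.bd p hp g hg j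
  have h3 := h.bd p hp g' hg' j
  have e : Ug κ₀ p g j ^ 2 - Ug κ₀ p g' j ^ 2
      = (Ug κ₀ p g j + Ug κ₀ p g' j) * (Ug κ₀ p g j - Ug κ₀ p g' j) := by ring
  rw [e, abs_mul, mul_assoc (2 * C)]
  refine mul_le_mul ((abs_add_le _ _).trans (by linarith only [h3, h2])) h1 (abs_nonneg _) (by linarith only [h.pos])

theorem bg_sq_le (h : HU β K κ₀ c C n d) {p : Par n d} (hp : p.Ok β K) {C₃ : ℝ}
    (h3 : ∫ g in {g | p.Reg c (skM g)}, sq (fun j => p.U κ₀ (skM g) j) ∂(disorder n) ≤ C₃) :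
    sq (bg κ₀ c p) ≤ C₃ := by
  refine le_trans ?_ h3
  have e1 : ∫ g in {g | p.Reg c (skM g)}, sq (fun j => p.U κ₀ (skM g) j) ∂(disorder n)
      = ∑ j, ∫ g in Sr c p, Ug κ₀ p g j ^ 2 ∂(disorder n) := by
    rw [← integral_finsetSum _ fun j _ => intOn_U_sq h hp j]
    rfl
  rw [e1]
  unfold sq
  refine Finset.sum_le_sum fun j _ => ?_
  set b := bg κ₀ c p j with hb
  have i1 := intOn_U h hp j
  have i2 := intOn_U_sq h hp j
  have h4 : 0 ≤ ∫ g in Sr c p, (Ug κ₀ p g j - b) ^ 2 ∂(disorder n) :=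
    integral_nonneg fun g => sq_nonneg _
  have e2 : ∫ g in Sr c p, (Ug κ₀ p g j - b) ^ 2 ∂(disorder n)
      = ∫ g in Sr c p, Ug κ₀ p g j ^ 2 ∂(disorder n) - 2 * b * b
        + b ^ 2 * (disorder n).real (Sr c p) := by
    have e3 : ∀ g, (Ug κ₀ p g j - b) ^ 2 = Ug κ₀ p g j ^ 2 - 2 * b * Ug κ₀ p g j + b ^ 2 :=
      fun g => by ring
    simp only [e3]
    have i3 : IntegrableOn (fun g => 2 * b * Ug κ₀ p g j) (Sr c p) (disorder n) :=
      i1.const_mul _
    have i4 : IntegrableOn (fun _ => b ^ 2) (Sr c p) (disorder n) :=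
      (integrable_const _).integrableOn
    have i5 : IntegrableOn (fun g => Ug κ₀ p g j ^ 2 - 2 * b * Ug κ₀ p g j) (Sr c p)
      (disorder n) := i2.sub i3
    rw [integral_add i5 i4, integral_sub i2 i3, integral_const_mul, setIntegral_const]
    simp only [smul_eq_mul]
    have : ∫ g in Sr c p, Ug κ₀ p g j ∂(disorder n) = b := rfl
    rw [this]
    ring
  rw [e2] at h4
  have h5 : (disorder n).real (Sr c p) ≤ 1 := measureReal_le_one
  linarith only [mul_nonneg (sub_nonneg.2 h5) (sq_nonneg b), h4]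

theorem single (h : HU β K κ₀ c C n d) (hn : 1 ≤ n) {p : Par n d} (hp : p.Ok β K) {δ : ℝ}
    (hδ : (disorder n (Sr c p)ᶜ).toReal ≤ δ) {s : ℝ} (hs : 0 ≤ s) :
    (disorder n {g | g ∈ Sr c p ∧ 2 * √2 * C + C * s + 3 * C * √n * δ
      ≤ nv (Ug κ₀ p g - bg κ₀ c p)}).toReal ≤ Real.exp (-(s ^ 2 * n / 8)) := by
  have hn' : (0 : ℝ) < n := by exact_mod_cast hn
  have hL : 0 < C * √(2 / n) := mul_pos h.pos (Real.sqrt_pos.2 (by (clear * - hn; positivity)))
  have h1 := G6d_conc n (Sr c p) (measurableSet_Sr c p) δ hδ (Ug κ₀ p) (C * √(2 / n)) C hL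
    h.pos.le (h.lip p hp) (h.bd p hp) (C * s) (mul_nonneg h.pos.le hs)
  have e1 : 2 * √n * (C * √(2 / n)) = 2 * √2 * C := by
    rw [Real.sqrt_div (by norm_num)]
    have : √(n : ℝ) ≠ 0 := (Real.sqrt_pos.2 hn').ne'
    field_simp
  have e2 : (C * s) ^ 2 / (4 * (C * √(2 / n)) ^ 2) = s ^ 2 * n / 8 := by
    rw [mul_pow C (√(2 / n)), Real.sq_sqrt (by (clear * - hn; positivity))]
    have := h.pos.ne'
    field_simp
    ring
  rw [e1, e2] at h1
  refine le_trans (le_of_eq ?_) h1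
  congr 2
  ext g
  simp only [Set.mem_ofPred_eq]
  have e3 : 2 * √2 * C + C * s + 3 * C * √n * δ = 2 * √2 * C + 3 * C * √n * δ + C * s := by ring
  rw [e3]
  rfl

theorem pair (h : HU β K κ₀ c C n d) (hn : 1 ≤ n) {p p' : Par n d} (hp : p.Ok β K)
    (hp' : p'.Ok β K) {ε : ℝ} (hε : 0 < ε) (hN : p.Near ε p') {δ : ℝ}
    (hδ : (disorder n (Sr c p)ᶜ).toReal ≤ δ) (hδ' : (disorder n (Sr c p')ᶜ).toReal ≤ δ)
    {s : ℝ} (hs : 0 ≤ s) :
    (disorder n {g | g ∈ Sr c p ∩ Sr c p' ∧ 2 * √2 * C * ε + C * ε * s + 14 * C * √n * δ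
      ≤ nv ((Ug κ₀ p g - Ug κ₀ p' g) - (bg κ₀ c p - bg κ₀ c p'))}).toReal
      ≤ Real.exp (-(s ^ 2 * n / 8)) := by
  have hn' : (0 : ℝ) < n := by exact_mod_cast hn
  have hCε : 0 < C * ε := mul_pos h.pos hε
  have hL : 0 < C * ε * √(2 / n) := mul_pos hCε (Real.sqrt_pos.2 (by positivity))
  set S := Sr c p ∩ Sr c p' with hS
  have mS : MeasurableSet S := (measurableSet_Sr c p).inter (measurableSet_Sr c p')
  have hδ2 : (disorder n Sᶜ).toReal ≤ 2 * δ := by
    rw [hS, Set.compl_inter]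
    refine (measureReal_union_le _ _).trans ?_
    have h1 : (disorder n).real (Sr c p)ᶜ ≤ δ := hδ
    have h2 : (disorder n).real (Sr c p')ᶜ ≤ δ := hδ'
    linarith only [h2, h1]
  set V : (Pairs n → ℝ) → Vec n := fun g => Ug κ₀ p g - Ug κ₀ p' g with hV
  have hVM : ∀ g ∈ S, ∀ j, |V g j| ≤ 2 * C := by
    intro g hg j
    have h1 := h.bd p hp g hg.1 j
    have h2 := h.bd p' hp' g hg.2 j
    rw [hV]
    simp only [Pi.sub_apply]
    exact (abs_sub _ _).trans (by linarith only [h2, h1])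
  have h1 := G6d_conc n S mS (2 * δ) hδ2 V (C * ε * √(2 / n)) (2 * C) hL (by linarith only [h.pos])
    (h.mix p p' ε hε.le hp hp' hN) hVM (C * ε * s) (mul_nonneg hCε.le hs)
  have e1 : 2 * √n * (C * ε * √(2 / n)) = 2 * √2 * C * ε := by
    rw [Real.sqrt_div (by norm_num)]
    have : √(n : ℝ) ≠ 0 := (Real.sqrt_pos.2 hn').ne'
    field_simp
  have e2 : (C * ε * s) ^ 2 / (4 * (C * ε * √(2 / n)) ^ 2) = s ^ 2 * n / 8 := by
    rw [mul_pow (C * ε) (√(2 / n)), Real.sq_sqrt (by positivity)]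
    have h3 := h.pos.ne'
    have h4 := hε.ne'
    field_simp
    ring
  rw [e1, e2] at h1
  refine le_trans ?_ h1
  refine measureReal_mono ?_
  rintro g ⟨hg, hg2⟩
  refine ⟨hg, ?_⟩
  set v : Vec n := fun j => ∫ g' in S, V g' j ∂(disorder n) with hv
  have key : nv (v - (bg κ₀ c p - bg κ₀ c p')) ≤ 2 * C * δ * √n := by
    have hδ0 : 0 ≤ δ := le_trans ENNReal.toReal_nonneg hδ
    refine nv_le_sqrt (by have := h.pos; (clear * - this hδ0; positivity)) fun j => ?_
    have i1 := intOn_U h hp j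
    have i2 := intOn_U h hp' j
    have e4 : v j = ∫ g' in S, Ug κ₀ p g' j ∂(disorder n)
        - ∫ g' in S, Ug κ₀ p' g' j ∂(disorder n) := by
      rw [← integral_sub (i1.mono_set Set.inter_subset_left)
        (i2.mono_set Set.inter_subset_right)]
      rfl
    have e5 : bg κ₀ c p j = ∫ g' in S, Ug κ₀ p g' j ∂(disorder n)
        + ∫ g' in Sr c p \ S, Ug κ₀ p g' j ∂(disorder n) := by
      rw [setIntegral_sdiff mS i1 Set.inter_subset_left]
      unfold bg
      ring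
    have e6 : bg κ₀ c p' j = ∫ g' in S, Ug κ₀ p' g' j ∂(disorder n)
        + ∫ g' in Sr c p' \ S, Ug κ₀ p' g' j ∂(disorder n) := by
      rw [setIntegral_sdiff mS i2 Set.inter_subset_right]
      unfold bg
      ring
    have b1 : |∫ g' in Sr c p \ S, Ug κ₀ p g' j ∂(disorder n)| ≤ C * δ := by
      have h3 := norm_setIntegral_le_of_norm_le_const (μ := disorder n)
        (s := Sr c p \ S) (f := fun g' => Ug κ₀ p g' j) (C := C) (measure_lt_top _ _)
        (fun g' hg' => by rw [Real.norm_eq_abs]; exact h.bd p hp g' hg'.1 j)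
      rw [Real.norm_eq_abs] at h3
      refine h3.trans (mul_le_mul_of_nonneg_left ?_ h.pos.le)
      refine le_trans (measureReal_mono ?_) hδ'
      rintro x ⟨hx1, hx2⟩ hx3
      exact hx2 ⟨hx1, hx3⟩
    have b2 : |∫ g' in Sr c p' \ S, Ug κ₀ p' g' j ∂(disorder n)| ≤ C * δ := by
      have h3 := norm_setIntegral_le_of_norm_le_const (μ := disorder n)
        (s := Sr c p' \ S) (f := fun g' => Ug κ₀ p' g' j) (C := C) (measure_lt_top _ _)
        (fun g' hg' => by rw [Real.norm_eq_abs]; exact h.bd p' hp' g' hg'.1 j)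
      rw [Real.norm_eq_abs] at h3
      refine h3.trans (mul_le_mul_of_nonneg_left ?_ h.pos.le)
      refine le_trans (measureReal_mono ?_) hδ
      rintro x ⟨hx1, hx2⟩ hx3
      exact hx2 ⟨hx3, hx1⟩
    have e7 : (v - (bg κ₀ c p - bg κ₀ c p')) j
        = ∫ g' in Sr c p' \ S, Ug κ₀ p' g' j ∂(disorder n)
          - ∫ g' in Sr c p \ S, Ug κ₀ p g' j ∂(disorder n) := by
      simp only [Pi.sub_apply]
      rw [e4, e5, e6]
      ring
    rw [e7]
    exact (abs_sub _ _).trans (by linarith only [b2, b1])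
  have tri : nv (V g - (bg κ₀ c p - bg κ₀ c p')) ≤ nv (V g - v)
      + nv (v - (bg κ₀ c p - bg κ₀ c p')) := by
    have e8 : V g - (bg κ₀ c p - bg κ₀ c p') = (V g - v) + (v - (bg κ₀ c p - bg κ₀ c p')) := by
      abel
    rw [e8]
    exact nv_add_le _ _
  have hg3 : 2 * √2 * C * ε + C * ε * s + 14 * C * √n * δ
      ≤ nv (V g - (bg κ₀ c p - bg κ₀ c p')) := hg2
  have e9 : 2 * √2 * C * ε + 3 * (2 * C) * √n * (2 * δ) + C * ε * s
      = (2 * √2 * C * ε + C * ε * s + 14 * C * √n * δ) - 2 * C * δ * √n := by ring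
  rw [e9]
  linarith only [key, tri, hg3]

end

end G6

end Vale.Agent.P150.F
end

section

/-! Module G6d: finite nets of the parameter space. -/

open MeasureTheory ProbabilityTheory Filter Topology
open scoped Matrix

namespace Vale.Agent.P150.F

/-- number of `j : Fin n → ℕ` with sum at most `n R` -/
theorem card_simplex (n R : ℕ) (hR : 1 ≤ R) :
    (((Fintype.piFinset (fun _ : Fin n => Finset.range (n * R + 1))).filter
      (fun j => ∑ i, j i ≤ n * R)).card : ℝ) ≤ (Real.exp 1 * (R + 1)) ^ n := by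
  set S := (Fintype.piFinset (fun _ : Fin n => Finset.range (n * R + 1))).filter
      (fun j => ∑ i, j i ≤ n * R) with hS
  have hR0 : (0 : ℝ) < R := by exact_mod_cast hR
  set t : ℝ := R / (R + 1) with ht
  have ht0 : 0 < t := by positivity
  have ht1 : t ≤ 1 := by rw [ht, div_le_one (by positivity)]; linarith only []
  have h1 : (S.card : ℝ) * t ^ (n * R) ≤ ∑ j ∈ S, t ^ (∑ i, j i) := by
    rw [← nsmul_eq_mul]
    refine Finset.card_nsmul_le_sum _ _ _ fun j hj => ?_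
    rw [hS, Finset.mem_filter] at hj
    exact pow_le_pow_of_le_one ht0.le ht1 hj.2
  have h2 : ∑ j ∈ S, t ^ (∑ i, j i) ≤
      ∑ j ∈ Fintype.piFinset (fun _ : Fin n => Finset.range (n * R + 1)), ∏ i, t ^ (j i) := by
    rw [hS]
    refine (Finset.sum_le_sum_of_subset_of_nonneg (Finset.filter_subset _ _)
      fun j _ _ => by positivity).trans (le_of_eq ?_)
    refine Finset.sum_congr rfl fun j _ => ?_
    rw [Finset.prod_pow_eq_pow_sum]
  have h3 : ∑ j ∈ Fintype.piFinset (fun _ : Fin n => Finset.range (n * R + 1)), ∏ i, t ^ (j i)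
      = (∑ m ∈ Finset.range (n * R + 1), t ^ m) ^ n := by
    rw [Finset.sum_prod_piFinset, Finset.prod_const, Finset.card_univ, Fintype.card_fin]
  have h4 : ∑ m ∈ Finset.range (n * R + 1), t ^ m ≤ R + 1 := by
    have h5 := geom_sum_mul_neg t (n * R + 1)
    have h6 : 1 - t = 1 / (R + 1) := by rw [ht]; field_simp; ring
    have h7 : (0 : ℝ) ≤ t ^ (n * R + 1) := by positivity
    rw [h6, mul_one_div, div_eq_iff (by positivity)] at h5
    nlinarith
  have h8 : Real.exp (-1) ^ n ≤ t ^ (n * R) := by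
    rw [mul_comm, pow_mul]
    refine pow_le_pow_left₀ (Real.exp_pos _).le ?_ _
    have h9 : Real.exp (-(1 / R)) ≤ t := by
      have h10 := Real.add_one_le_exp (1 / (R : ℝ))
      rw [Real.exp_neg, ht, inv_le_comm₀ (Real.exp_pos _) (by positivity), inv_div]
      refine le_trans (le_of_eq ?_) h10
      field_simp
      ring
    calc Real.exp (-1) = Real.exp (-(1 / R)) ^ R := by
          rw [← Real.exp_nat_mul]; congr 1; field_simp
      _ ≤ t ^ R := pow_le_pow_left₀ (Real.exp_pos _).le h9 _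
  have h11 : (S.card : ℝ) * Real.exp (-1) ^ n ≤ (R + 1) ^ n := by
    calc (S.card : ℝ) * Real.exp (-1) ^ n ≤ (S.card : ℝ) * t ^ (n * R) :=
          mul_le_mul_of_nonneg_left h8 (by (clear * -; positivity))
      _ ≤ _ := h1
      _ ≤ _ := h2
      _ = _ := h3
      _ ≤ _ := pow_le_pow_left₀ (Finset.sum_nonneg fun _ _ => by positivity) h4 _
  have h12 : Real.exp 1 ^ n * Real.exp (-1) ^ n = 1 := by
    rw [← mul_pow, ← Real.exp_add]; simp
  calc (S.card : ℝ) = Real.exp 1 ^ n * ((S.card : ℝ) * Real.exp (-1) ^ n) := by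
        rw [mul_left_comm, h12, mul_one]
    _ ≤ Real.exp 1 ^ n * (R + 1) ^ n := mul_le_mul_of_nonneg_left h11 (by positivity)
    _ = _ := by rw [mul_pow]

/-- grid point with signs `s` and absolute values `j h` -/
noncomputable def gval {n : ℕ} (h : ℝ) (s : Fin n → Bool) (j : Fin n → ℕ) : Vec n :=
  fun i => (if s i then 1 else -1) * (j i * h)

theorem exists_round {n : ℕ} (h : ℝ) (hh : 0 < h) (v : Vec n) :
    ∃ (s : Fin n → Bool) (j : Fin n → ℕ), ∀ i, |gval h s j i| ≤ |v i| ∧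
      |v i - gval h s j i| ≤ h ∧ (j i : ℝ) * h ≤ |v i| := by
  refine ⟨fun i => decide (0 ≤ v i), fun i => ⌊|v i| / h⌋₊, fun i => ?_⟩
  have h1 : ((⌊|v i| / h⌋₊ : ℕ) : ℝ) * h ≤ |v i| := by
    have := Nat.floor_le (a := |v i| / h) (by positivity)
    rwa [le_div_iff₀ hh] at this
  have h2 : |v i| ≤ ((⌊|v i| / h⌋₊ : ℕ) : ℝ) * h + h := by
    have := (Nat.lt_floor_add_one (|v i| / h)).le
    rw [div_le_iff₀ hh] at this
    linarith only [this]
  have h3 : (0 : ℝ) ≤ ((⌊|v i| / h⌋₊ : ℕ) : ℝ) * h := by positivity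
  refine ⟨?_, ?_, h1⟩
  · unfold gval
    rw [abs_mul, abs_of_nonneg h3]
    have : |(if decide (0 ≤ v i) = true then (1 : ℝ) else -1)| = 1 := by
      split_ifs <;> simp
    rw [this, one_mul]
    exact h1
  · unfold gval
    by_cases h0 : 0 ≤ v i
    · simp only [h0, decide_true, if_true, one_mul]
      rw [abs_of_nonneg h0] at h1 h2 ⊢
      rw [abs_le]; constructor <;> linarith
    · simp only [h0, decide_false, Bool.false_eq_true, if_false]
      push Not at h0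
      rw [abs_of_neg h0] at h1 h2 ⊢
      rw [abs_le]; constructor <;> linarith

/-- G6d: nets of the parameter space -/
theorem G6d_net (β K : ℝ) (d : ℕ) (hβ0 : 0 ≤ β) (hβ : β ≤ 1) (hK : 0 ≤ K) :
    ∃ C₀ : ℝ, 0 < C₀ ∧ ∀ n : ℕ, 1 ≤ n → ∀ k : ℕ, ∃ N : Finset (Par n d),
      (∀ p ∈ N, p.Ok β K) ∧ (∀ p : Par n d, p.Ok β K → ∃ p' ∈ N, p.Near ((1 / 2) ^ k) p') ∧
      (N.card : ℝ) ≤ Real.exp (C₀ * (k + 1) * n) := by
  classical
  set K' : ℕ := ⌈Real.sqrt K⌉₊ + 1 with hK'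
  have hK'1 : (1 : ℝ) ≤ K' := by rw [hK']; push_cast; linarith only [Nat.cast_nonneg (α := ℝ) ⌈Real.sqrt K⌉₊]
  have hKK' : Real.sqrt K ≤ K' := by rw [hK']; push_cast; linarith only [Nat.le_ceil (Real.sqrt K)]
  have hlog : 0 ≤ Real.log K' := Real.log_nonneg hK'1
  refine ⟨3 + d * (3 + Real.log K'), by (clear * -; positivity), fun n hn k => ?_⟩
  have hn0 : (0 : ℝ) < n := by exact_mod_cast hn
  set ε : ℝ := (1 / 2) ^ k with hε
  have hε0 : 0 < ε := by positivity
  have hεP : ε * (2 : ℝ) ^ k = 1 := by rw [hε, ← mul_pow]; norm_num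
  set P : ℕ := 2 ^ k with hP
  have hPr : (P : ℝ) = 2 ^ k := by rw [hP]; push_cast; rfl
  set R : ℕ := P * K' with hR
  have hR1 : 1 ≤ R := by
    rw [hR]; exact Nat.mul_pos (by positivity) (by omega)
  set S := (Fintype.piFinset (fun _ : Fin n => Finset.range (n * R + 1))).filter
      (fun j => ∑ i, j i ≤ n * R) with hS
  set D : Finset ((Fin n → Bool) × (Fin n → ℕ) × ℕ × (Fin d → (Fin n → Bool) × (Fin n → ℕ))) :=
    (Finset.univ : Finset (Fin n → Bool)) ×ˢ
      (Fintype.piFinset (fun _ : Fin n => Finset.range (P + 1))) ×ˢ Finset.range (P + 1) ×ˢ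
      Fintype.piFinset (fun _ : Fin d => (Finset.univ : Finset (Fin n → Bool)) ×ˢ S) with hD
  set f : ((Fin n → Bool) × (Fin n → ℕ) × ℕ × (Fin d → (Fin n → Bool) × (Fin n → ℕ))) → Par n d :=
    fun x => ⟨gval ε x.1 x.2.1, x.2.2.1 * ε, fun a =>
      gval (ε / Real.sqrt n) (x.2.2.2 a).1 (x.2.2.2 a).2⟩ with hf
  refine ⟨(D.image f).filter (fun p => p.Ok β K), fun p hp => (Finset.mem_filter.1 hp).2,
    fun p hp => ?_, ?_⟩
  · obtain ⟨hm, ⟨hr0, hr1⟩, hw⟩ := hp
    obtain ⟨s, j, hsj⟩ := exists_round ε hε0 p.m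
    have hh : 0 < ε / Real.sqrt n := by (clear * - hn; positivity)
    choose s' j' hsj' using fun a => exists_round (ε / Real.sqrt n) hh (p.w a)
    set l : ℕ := ⌊p.r / ε⌋₊ with hl
    have hl1 : (l : ℝ) * ε ≤ p.r := by
      have := Nat.floor_le (a := p.r / ε) (by (clear * - hr0; positivity))
      rwa [le_div_iff₀ hε0] at this
    have hl2 : p.r ≤ (l : ℝ) * ε + ε := by
      have := (Nat.lt_floor_add_one (p.r / ε)).le
      rw [div_le_iff₀ hε0] at this
      linarith only [this]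
    refine ⟨f (s, j, l, fun a => (s' a, j' a)), ?_, ?_⟩
    · rw [Finset.mem_filter]
      constructor
      · refine Finset.mem_image_of_mem f ?_
        rw [hD]
        simp only [Finset.mem_product, Finset.mem_univ, true_and, Fintype.mem_piFinset,
          Finset.mem_range]
        refine ⟨fun i => ?_, ?_, fun a => ?_⟩
        · have h1 := (hsj i).2.2
          have h2 := hm i
          have h3 : (j i : ℝ) * ε < 1 := lt_of_le_of_lt h1 h2
          have h4 : (j i : ℝ) < P := by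
            rw [hPr]
            by_contra hcon
            push Not at hcon
            have := mul_le_mul_of_nonneg_right hcon hε0.le
            linarith only [hεP, h3, this]
          have : j i < P := by exact_mod_cast h4
          omega
        · have h3 : (l : ℝ) * ε ≤ 1 := by linarith only [hβ, hr1, hl1]
          have h4 : (l : ℝ) ≤ P := by
            rw [hPr]
            by_contra hcon
            push Not at hcon
            have := mul_lt_mul_of_pos_right hcon hε0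
            linarith only [this, h3, hεP]
          have : l ≤ P := by exact_mod_cast h4
          omega
        · rw [hS, Finset.mem_filter, Fintype.mem_piFinset]
          have hsum : ∑ i, j' a i ≤ n * R := by
            have h1 : ∑ i, |p.w a i| ≤ Real.sqrt n * Real.sqrt K := by
              have h2 : (∑ i, |p.w a i|) ^ 2 ≤ n * K := by
                have h3 := sq_sum_le_card_mul_sum_sq (s := Finset.univ) (f := fun i => |p.w a i|)
                simp only [Finset.card_univ, Fintype.card_fin, sq_abs] at h3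
                refine h3.trans (mul_le_mul_of_nonneg_left (hw a) hn0.le)
              rw [← Real.sqrt_mul hn0.le]
              exact Real.le_sqrt_of_sq_le h2
            have h4 : (∑ i, (j' a i : ℝ)) * (ε / Real.sqrt n) ≤ Real.sqrt n * Real.sqrt K := by
              rw [Finset.sum_mul]
              exact (Finset.sum_le_sum fun i _ => (hsj' a i).2.2).trans h1
            have h5 : (∑ i, (j' a i : ℝ)) ≤ n * R := by
              have hsn : 0 < Real.sqrt n := Real.sqrt_pos.2 hn0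
              have hsn2 : Real.sqrt n * Real.sqrt n = n := Real.mul_self_sqrt hn0.le
              have h6 : (∑ i, (j' a i : ℝ)) = (∑ i, (j' a i : ℝ)) * (ε / Real.sqrt n) *
                  (Real.sqrt n * 2 ^ k) := by
                field_simp
                rw [mul_assoc, hεP, mul_one]
              rw [h6, hR]
              calc (∑ i, (j' a i : ℝ)) * (ε / Real.sqrt n) * (Real.sqrt n * 2 ^ k)
                  ≤ (Real.sqrt n * Real.sqrt K) * (Real.sqrt n * 2 ^ k) :=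
                    mul_le_mul_of_nonneg_right h4 (by positivity)
                _ = (Real.sqrt n * Real.sqrt n) * (2 ^ k * Real.sqrt K) := by ring
                _ = n * (2 ^ k * Real.sqrt K) := by rw [hsn2]
                _ ≤ n * (2 ^ k * K') := by gcongr
                _ = _ := by push_cast; rw [hPr]
            exact_mod_cast h5
          refine ⟨fun i => ?_, hsum⟩
          rw [Finset.mem_range]
          have := Finset.single_le_sum (f := fun i => j' a i) (fun _ _ => Nat.zero_le _)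
            (Finset.mem_univ i)
          omega
      · refine ⟨fun i => lt_of_le_of_lt (hsj i).1 (hm i), ⟨?_, ?_⟩, fun a => ?_⟩
        · show (0 : ℝ) ≤ (l : ℝ) * ε
          (clear * -; positivity)
        · exact hl1.trans hr1
        · refine le_trans ?_ (hw a)
          unfold sq
          refine Finset.sum_le_sum fun i _ => ?_
          rw [← sq_abs, ← sq_abs (p.w a i)]
          exact pow_le_pow_left₀ (abs_nonneg _) (hsj' a i).1 2
    · refine ⟨fun i => (hsj i).2.1, ?_, fun a => ?_⟩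
      · show |p.r - (l : ℝ) * ε| ≤ ε
        rw [abs_le]; constructor <;> linarith
      · unfold sq
        have h1 : ∀ i, (p.w a - (f (s, j, l, fun a => (s' a, j' a))).w a) i ^ 2 ≤
            (ε / Real.sqrt n) ^ 2 := by
          intro i
          rw [← sq_abs]
          exact pow_le_pow_left₀ (abs_nonneg _) (hsj' a i).2.1 2
        refine (Finset.sum_le_sum fun i _ => h1 i).trans ?_
        rw [Finset.sum_const, Finset.card_univ, Fintype.card_fin, nsmul_eq_mul, div_pow,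
          Real.sq_sqrt hn0.le]
        apply le_of_eq
        field_simp
  · have h1 : (((D.image f).filter (fun p => p.Ok β K)).card : ℝ) ≤ D.card := by
      exact_mod_cast (Finset.card_filter_le _ _).trans Finset.card_image_le
    have h2 : (D.card : ℝ) = 2 ^ n * ((P + 1) ^ n * ((P + 1) * (2 ^ n * (S.card : ℝ)) ^ d)) := by
      rw [hD]
      simp only [Finset.card_product, Fintype.card_piFinset, Finset.card_univ, Finset.prod_const,
        Fintype.card_fin, Finset.card_range, Fintype.card_pi, Fintype.card_bool]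
      push_cast
      rfl
    have hS' := card_simplex n R hR1
    rw [← hS] at hS'
    have e2 : (2 : ℝ) ≤ Real.exp 1 := by
      have := Real.add_one_le_exp (1 : ℝ)
      linarith only [this]
    have a1 : (2 : ℝ) ^ n ≤ Real.exp ((k + 1) * n) := by
      calc (2 : ℝ) ^ n ≤ Real.exp 1 ^ n := pow_le_pow_left₀ (by norm_num) e2 _
        _ = Real.exp n := by rw [← Real.exp_nat_mul, mul_one]
        _ ≤ _ := Real.exp_le_exp.2 (by linarith only [mul_nonneg (le_of_lt (sub_pos.2 hn0)) (sub_nonneg.2 (Nat.cast_nonneg (α := ℝ) k))])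
    have a2 : (P + 1 : ℝ) ≤ Real.exp (k + 1) := by
      calc (P + 1 : ℝ) ≤ 2 ^ (k + 1) := by
            rw [hPr, pow_succ]
            have : (1 : ℝ) ≤ 2 ^ k := one_le_pow₀ (by norm_num)
            linarith only [this]
        _ ≤ Real.exp 1 ^ (k + 1) := pow_le_pow_left₀ (by norm_num) e2 _
        _ = _ := by rw [← Real.exp_nat_mul]; push_cast; ring_nf
    have a3 : (P + 1 : ℝ) ^ n ≤ Real.exp ((k + 1) * n) := by
      calc (P + 1 : ℝ) ^ n ≤ Real.exp (k + 1) ^ n := pow_le_pow_left₀ (by positivity) a2 _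
        _ = _ := by rw [← Real.exp_nat_mul]; ring_nf
    have a4 : (P + 1 : ℝ) ≤ Real.exp ((k + 1) * n) := by
      refine a2.trans (Real.exp_le_exp.2 ?_)
      have : (1 : ℝ) ≤ n := by exact_mod_cast hn
      linarith only [mul_nonneg (sub_nonneg.2 this) (sub_nonneg.2 (Nat.cast_nonneg (α := ℝ) k)), mul_nonneg (sub_nonneg.2 hβ) (sub_nonneg.2 this), mul_nonneg (sub_nonneg.2 hβ0) (sub_nonneg.2 this)]
    have a5 : (S.card : ℝ) ≤ Real.exp ((k + 1) * n * (2 + Real.log K')) := by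
      refine hS'.trans ?_
      have h3 : Real.exp 1 * (R + 1) ≤ Real.exp (1 + (k + 1) + Real.log K') := by
        rw [Real.exp_add, Real.exp_add, Real.exp_log (by linarith only [hK'1]), mul_assoc]
        refine mul_le_mul_of_nonneg_left ?_ (Real.exp_pos _).le
        calc (R + 1 : ℝ) ≤ (P + 1) * K' := by rw [hR]; push_cast; linarith only [hK'1]
          _ ≤ _ := mul_le_mul_of_nonneg_right a2 (by linarith only [hK'1])
      calc (Real.exp 1 * (R + 1)) ^ n ≤ Real.exp (1 + (k + 1) + Real.log K') ^ n :=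
            pow_le_pow_left₀ (by (clear * -; positivity)) h3 _
        _ = Real.exp (n * (1 + (k + 1) + Real.log K')) := by rw [← Real.exp_nat_mul]
        _ ≤ _ := Real.exp_le_exp.2 (by
            have hk : (0 : ℝ) ≤ k := Nat.cast_nonneg k
            have h5 : 0 ≤ (n : ℝ) * k := by (clear * - hn; positivity)
            have h6 : 0 ≤ (n : ℝ) * k * Real.log K' := by (clear * - hn; positivity)
            linarith only [h5, h6])
    have a6 : 2 ^ n * (S.card : ℝ) ≤ Real.exp ((k + 1) * n * (3 + Real.log K')) := by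
      calc 2 ^ n * (S.card : ℝ) ≤ Real.exp ((k + 1) * n) *
            Real.exp ((k + 1) * n * (2 + Real.log K')) :=
            mul_le_mul a1 a5 (by (clear * -; positivity)) (Real.exp_pos _).le
        _ = _ := by rw [← Real.exp_add]; congr 1; ring
    refine h1.trans ?_
    rw [h2]
    calc 2 ^ n * ((P + 1 : ℝ) ^ n * ((P + 1) * (2 ^ n * (S.card : ℝ)) ^ d))
        ≤ Real.exp ((k + 1) * n) * (Real.exp ((k + 1) * n) * (Real.exp ((k + 1) * n) *
          (Real.exp ((k + 1) * n * (3 + Real.log K'))) ^ d)) := by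
          gcongr
      _ = _ := by
          rw [← Real.exp_nat_mul, ← Real.exp_add, ← Real.exp_add, ← Real.exp_add]
          congr 1
          ring

end Vale.Agent.P150.F
end

section

/-! Module G6c (Lemma C): assembly. -/

open MeasureTheory ProbabilityTheory Filter Topology
open scoped Matrix

namespace Vale.Agent.P150.F.G6c

variable {n : ℕ}

/-! ### closed sets of matrices -/

lemma continuous_skM_entry (i j : Fin n) : Continuous fun g : Pairs n → ℝ => skM g i j := by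
  unfold skM
  exact (continuous_gsym i j).div_const _

lemma continuous_skM : Continuous fun g : Pairs n → ℝ => skM g :=
  continuous_matrix fun i j => continuous_skM_entry i j

lemma continuous_sq_mulVec {X : Type*} [TopologicalSpace X] {A : X → Mat n} (hA : Continuous A)
    (v : Vec n) : Continuous fun x => sq ((A x).mulVec v) := by
  have h : Continuous fun x => (A x).mulVec v := hA.matrix_mulVec continuous_const
  unfold sq
  exact continuous_finsetSum _ fun i _ => ((continuous_apply i).comp h).pow 2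

lemma continuous_qf {X : Type*} [TopologicalSpace X] {A : X → Mat n} (hA : Continuous A)
    (v : Vec n) : Continuous fun x => qf (A x) v := by
  have h : Continuous fun x => (A x).mulVec v := hA.matrix_mulVec continuous_const
  unfold qf ip
  exact continuous_finsetSum _ fun i _ => continuous_const.mul ((continuous_apply i).comp h)

lemma isClosed_opLe {X : Type*} [TopologicalSpace X] {A : X → Mat n} (hA : Continuous A) (C : ℝ) :
    IsClosed {x | OpLe (A x) C} := by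
  have : {x | OpLe (A x) C} = ⋂ v : Vec n, {x | sq ((A x).mulVec v) ≤ C ^ 2 * sq v} := by
    ext x; simp [OpLe]
  rw [this]
  exact isClosed_iInter fun v => isClosed_le (continuous_sq_mulVec hA v) continuous_const

lemma isClosed_coer {X : Type*} [TopologicalSpace X] {A : X → Mat n} (hA : Continuous A) (c : ℝ) :
    IsClosed {x | ∀ v, c * sq v ≤ qf (A x) v} := by
  have : {x | ∀ v, c * sq v ≤ qf (A x) v} = ⋂ v : Vec n, {x | c * sq v ≤ qf (A x) v} := by
    ext x; simp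
  rw [this]
  exact isClosed_iInter fun v => isClosed_le continuous_const (continuous_qf hA v)

lemma isClosed_symm {X : Type*} [TopologicalSpace X] {A : X → Mat n} (hA : Continuous A) :
    IsClosed {x | (A x).IsSymm} := by
  unfold Matrix.IsSymm
  exact isClosed_eq hA.matrix_transpose hA

lemma measurableSet_Reg {d : ℕ} (p : Par n d) (c : ℝ) :
    MeasurableSet {g : Pairs n → ℝ | p.Reg c (skM g)} := by
  have h : Continuous fun g : Pairs n → ℝ => p.H (skM g) := by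
    unfold Par.H Hess
    have hJ := continuous_skM (n := n)
    fun_prop
  exact (((isClosed_symm continuous_skM).inter ((isClosed_opLe continuous_skM 3).inter
    (isClosed_coer h c)))).measurableSet

lemma measurableSet_S0 (c r : ℝ) (m : Vec n) : MeasurableSet (S0 c r m) := by
  have h : Continuous fun g : Pairs n → ℝ => dg (aa r m) - r • skM g := by
    have hJ := continuous_skM (n := n)
    fun_prop
  exact ((isClosed_opLe continuous_skM 3).inter (isClosed_coer h c)).measurableSet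

lemma S0_subset_SJ (c r : ℝ) (m : Vec n) (j : Fin n) : S0 c r m ⊆ SJ c r m j := by
  rintro g ⟨h1, h2⟩
  exact ⟨opLe_mn h1 j, h2.mn (fun i => skM_diag g i) j⟩

/-! ### crude bound -/

theorem crude (β κ₀ c K : ℝ) (d : ℕ) (hβ : β ≤ 1) (hc : 0 < c) :
    ∃ C : ℝ, 0 ≤ C ∧ ∀ n : ℕ, 1 ≤ n → ∀ (p : Par n d) (J : Mat n), p.Ok β K → p.Reg c J →
      sq (fun j => p.U κ₀ J j) ≤ C * n := by
  have hg : 0 ≤ 1 / c := by positivity
  have hB0 := (g6k_CB_pos d K).le
  set b : ℝ := 1 + g6k_CB d K * (1 / c) with hb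
  have hb0 : 0 ≤ b := by positivity
  set q : ℝ := 3 + |κ₀| * 1 with hq
  have hq0 : 0 ≤ q := by positivity
  set M : ℝ := |κ₀| + 2 + b * q * b + 1 / c * q * (1 / c) with hM
  have hM0 : 0 ≤ M := by (clear * - hB0 hc; positivity)
  refine ⟨M ^ 2, by positivity, fun n hn p J hp hR => ?_⟩
  have hr0 := hp.2.1.1
  have hr1 : p.r ≤ 1 := hp.2.1.2.trans hβ
  have hr2 : p.r ^ 2 ≤ 1 := pow_le_one₀ hr0 hr1
  obtain ⟨hq1, hq2⟩ := g6k_qq hp
  have hcoer : Coer c (p.H J) := hR.2.2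
  have hG : OpLe (p.G J) (1 / c) := hcoer.opLe_inv hc
  have hB := g6k_opLe_B hn hβ hp hR.2.1
  have hE : OpLe (1 - p.B J * p.G J) b :=
    opLe_sub zero_le_one (by (clear * - hB0 hc; positivity)) OpLe.one (hB.mul hG)
  have hE' : OpLe (1 - p.G J * p.B J) b := by
    have h := opLe_sub zero_le_one (by (clear * - hc hB0; positivity)) OpLe.one (hG.mul hB)
    rwa [mul_comm (1 / c)] at h
  have hQ : OpLe (J + κ₀ • (1 : Mat n)) q :=
    opLe_add (by norm_num) (by (clear * -; positivity)) hR.2.1 (opLe_smul OpLe.one κ₀)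
  have hu : ∀ j, |p.U κ₀ J j| ≤ M := by
    intro j
    have h1 := entry_le (by (clear * - hB0 hc; positivity)) ((hE.mul hQ).mul hE') j j
    have h2 := abs_trN_le_of_opLe (by positivity) ((hG.mul hQ).mul hG)
    have h3 : |p.m j| ≤ 1 := (hp.1 j).le
    have h4 : |2 * p.r * (1 - qq p.m)| ≤ 2 := by
      rw [abs_of_nonneg (mul_nonneg (by positivity) (by linarith only [hq2]))]
      have : p.r * (1 - qq p.m) ≤ 1 * 1 :=
        mul_le_mul hr1 (by linarith only [hq1]) (by linarith only [hq2]) zero_le_one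
      linarith only [this]
    have h5 : |p.r ^ 2 * trN (p.G J * (J + κ₀ • (1 : Mat n)) * p.G J)| ≤ 1 / c * q * (1 / c) := by
      rw [abs_mul, abs_of_nonneg (sq_nonneg p.r)]
      exact (mul_le_of_le_one_left (abs_nonneg _) hr2).trans h2
    unfold Par.U
    rw [abs_mul]
    refine (mul_le_of_le_one_left (abs_nonneg _) h3).trans ?_
    set x1 := ((1 - p.B J * p.G J) * (J + κ₀ • (1 : Mat n)) * (1 - p.G J * p.B J)) j j
    set x2 := p.r ^ 2 * trN (p.G J * (J + κ₀ • (1 : Mat n)) * p.G J)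
    have e1 := abs_add_le (κ₀ + 2 * p.r * (1 - qq p.m) - x1) x2
    have e2 := abs_sub (κ₀ + 2 * p.r * (1 - qq p.m)) x1
    have e3 := abs_add_le κ₀ (2 * p.r * (1 - qq p.m))
    rw [hM]
    linarith only [e3, e2, e1, h5, h1, h4]
  unfold sq
  calc ∑ j, p.U κ₀ J j ^ 2 ≤ ∑ _j : Fin n, M ^ 2 := Finset.sum_le_sum fun j _ => by
        rw [← sq_abs]; exact pow_le_pow_left₀ (abs_nonneg _) (hu j) 2
    _ = M ^ 2 * n := by simp [mul_comm]

/-! ### probability of the good event -/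

lemma qf_p0 (r : ℝ) (m v : Vec n) (J : Mat n) :
    qf (dg (aa r m) - r • J) v = qf (Hess r J 0 m) v + 2 * r ^ 2 / n * ip m v ^ 2 := by
  have e1 : dg (aa r m) = dg (fun i => 1 / (1 - m i ^ 2)) + (r ^ 2 * (1 - qq m)) • (1 : Mat n) := by
    ext i j
    simp only [dg, aa, Matrix.diagonal_apply, Matrix.add_apply, Matrix.smul_apply, smul_eq_mul,
      Matrix.one_apply]
    split_ifs <;> ring
  have e2 : dg (aa r m) - r • J = Hess r J 0 m + (2 * r ^ 2 / n) • Matrix.vecMulVec m m := by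
    unfold Hess
    rw [e1]; abel
  rw [e2, g6k_qf_matAdd]
  congr 1
  unfold qf
  rw [Matrix.smul_mulVec, ip_smul_r, vecMulVec_mulVec, ip_smul_r, ip_comm v m]
  ring

lemma reg_sub_S0 {d : ℕ} (p : Par n d) (c₀ : ℝ) (hA : p.A = 0) :
    {g : Pairs n → ℝ | p.Reg c₀ (skM g)} ⊆ S0 c₀ p.r p.m := by
  rintro g ⟨-, h1, h2⟩
  refine ⟨h1, fun v => ?_⟩
  rw [qf_p0]
  have h3 := h2 v
  unfold Par.H at h3
  rw [hA] at h3
  have : 0 ≤ 2 * p.r ^ 2 / n * ip p.m v ^ 2 := by (clear * -; positivity)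
  linarith

lemma S0_mono {c c' r : ℝ} {m : Vec n} (h : c ≤ c') : S0 c' r m ⊆ S0 c r m := by
  rintro g ⟨h1, h2⟩
  exact ⟨h1, fun v => (mul_le_mul_of_nonneg_right h (sq_nn v)).trans (h2 v)⟩

theorem prob_S0 (β : ℝ) (hβ0 : 0 ≤ β) (hβ : β < 1) :
    ∃ c₀ a : ℝ, 0 < c₀ ∧ 0 < a ∧ ∃ n₀ : ℕ, ∀ n : ℕ, n₀ ≤ n → ∀ r : ℝ, 0 ≤ r → r ≤ β →
      ∀ m : Vec n, (∀ i, |m i| < 1) →
        (disorder n (S0 c₀ r m)ᶜ).toReal ≤ Real.exp (-(a * n)) := by
  obtain ⟨c₀, a, hc, ha, H⟩ := G6b β hβ0 hβ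
  obtain ⟨n₀, hn₀⟩ := H 0 0
  refine ⟨c₀, a, hc, ha, n₀, fun n hn r hr hrβ m hm => ?_⟩
  set p : Par n 0 := ⟨m, r, fun a => a.elim0⟩ with hp
  have hok : p.Ok β 0 := ⟨hm, ⟨hr, hrβ⟩, fun a => a.elim0⟩
  have hA : p.A = 0 := by simp [Par.A]
  have h1 := hn₀ n hn p hok
  refine le_trans ?_ h1
  have : IsProbabilityMeasure (disorder n) := by
    unfold disorder; infer_instance
  refine ENNReal.toReal_mono (measure_ne_top _ _) (measure_mono ?_)
  intro g hg h
  exact hg (reg_sub_S0 p c₀ hA h)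

/-! ### assembly -/

theorem G6c_of (hD : DetStatement) (hP : ProbStatement) (hF : FinStatement) (β κ₀ c K : ℝ)
    (d : ℕ) (hβ0 : 0 ≤ β) (hβ : β < 1) (hc : 0 < c) :
    ∃ C : ℝ, ∃ n₀ : ℕ, ∀ n : ℕ, n₀ ≤ n → ∀ p : Par n d, p.Ok β K →
      ∫ g in {g | p.Reg c (skM g)}, sq (fun j => p.U κ₀ (skM g) j) ∂(disorder n) ≤ C := by
  obtain ⟨c₀, a, hc₀, ha, n₀, hS⟩ := prob_S0 β hβ0 hβ
  set c₁ := min c c₀ with hc₁
  have hc₁0 : 0 < c₁ := lt_min hc hc₀
  obtain ⟨CD, hCD, D⟩ := hD β κ₀ c₁ hβ hc₁0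
  obtain ⟨CP, hCP, P⟩ := hP c₁ hc₁0
  obtain ⟨CF, hCF, Fi⟩ := hF β κ₀ c₁ K d hβ.le hc₁0
  obtain ⟨CU, hCU, Cr⟩ := crude β κ₀ c₁ K d hβ.le hc₁0
  refine ⟨3 * (CD * (1 + 3 * CP)) + CF + CU * (1 / a), max n₀ 1, fun n hn p hp => ?_⟩
  have hn1 : 1 ≤ n := (le_max_right _ _).trans hn
  have hn0 : n₀ ≤ n := (le_max_left _ _).trans hn
  have hn' : (0 : ℝ) < n := by exact_mod_cast hn1
  have hr0 := hp.2.1.1
  have hrβ := hp.2.1.2
  have : IsProbabilityMeasure (disorder n) := by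
    unfold disorder; infer_instance
  set R := {g : Pairs n → ℝ | p.Reg c (skM g)} with hR
  set S := S0 c₁ p.r p.m with hSdef
  have hSm : MeasurableSet S := measurableSet_S0 _ _ _
  set X : Fin n → Fin 3 → (Pairs n → ℝ) → ℝ := fun j k =>
    (SJ c₁ p.r p.m j).indicator fun g => xi p.r p.m (skM g) j k ^ 2 with hX
  have hXi : ∀ j k, Integrable (X j k) (disorder n) := fun j k =>
    (P n hn1 p.r hr0 (hrβ.trans hβ.le) p.m hp.1 j k).2.1.integrable_indicator
      (P n hn1 p.r hr0 (hrβ.trans hβ.le) p.m hp.1 j k).1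
  have hXint : ∀ j k, ∫ g, X j k g ∂(disorder n) ≤ CP / n := fun j k => by
    rw [hX]
    simp only
    rw [integral_indicator (P n hn1 p.r hr0 (hrβ.trans hβ.le) p.m hp.1 j k).1]
    exact (P n hn1 p.r hr0 (hrβ.trans hβ.le) p.m hp.1 j k).2.2
  have hX0 : ∀ j k g, 0 ≤ X j k g := fun j k g =>
    Set.indicator_nonneg (fun _ _ => sq_nonneg _) g
  set h : (Pairs n → ℝ) → ℝ := fun g =>
    (3 * (CD * (1 + ∑ j, ∑ k, X j k g)) + CF) + (Sᶜ).indicator (fun _ => CU * n) g with hh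
  have hi1 : Integrable (fun g => ∑ j, ∑ k, X j k g) (disorder n) :=
    integrable_finsetSum _ fun j _ => integrable_finsetSum _ fun k _ => hXi j k
  have hi2 : Integrable (fun g => 3 * (CD * (1 + ∑ j, ∑ k, X j k g)) + CF) (disorder n) :=
    ((((integrable_const 1).add hi1).const_mul CD).const_mul 3).add (integrable_const CF)
  have hi3 : Integrable ((Sᶜ).indicator (fun _ => CU * n)) (disorder n) :=
    (integrable_const _).indicator hSm.compl
  have hhi : Integrable h (disorder n) := hi2.add hi3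
  have hXs : ∀ g, 0 ≤ ∑ j, ∑ k, X j k g := fun g =>
    Finset.sum_nonneg fun j _ => Finset.sum_nonneg fun k _ => hX0 j k g
  have hh0 : ∀ g, 0 ≤ h g := fun g => by
    have h1 : 0 ≤ (Sᶜ).indicator (fun _ => CU * (n : ℝ)) g :=
      Set.indicator_nonneg (fun _ _ => by (clear * - hCU hn1; positivity)) g
    have h2 := hXs g
    have h3 : 0 ≤ 3 * (CD * (1 + ∑ j, ∑ k, X j k g)) + CF := by (clear * - hCD h2 hCF; positivity)
    exact add_nonneg h3 h1
  -- pointwise bound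
  have hpt : ∀ g ∈ R, sq (fun j => p.U κ₀ (skM g) j) ≤ h g := by
    intro g hg
    have hg1 : p.Reg c₁ (skM g) := ⟨hg.1, hg.2.1, fun v =>
      (mul_le_mul_of_nonneg_right (min_le_left _ _) (sq_nn v)).trans (hg.2.2 v)⟩
    by_cases hgS : g ∈ S
    · have e1 : (Sᶜ).indicator (fun _ => CU * (n : ℝ)) g = 0 :=
        Set.indicator_of_notMem (fun h' : g ∈ Sᶜ => h' hgS) _
      have e2 := Fi n hn1 p (skM g) hp hg1 (fun i => skM_diag g i) hgS.2
      have e3 := D n hn1 p.r hr0 hrβ p.m hp.1 (skM g) (skM_transpose g) (fun i => skM_diag g i)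
        hgS.1 hgS.2
      have e4 : ∑ j, ∑ k, xi p.r p.m (skM g) j k ^ 2 = ∑ j, ∑ k, X j k g := by
        refine Finset.sum_congr rfl fun j _ => Finset.sum_congr rfl fun k _ => ?_
        rw [hX]
        simp only
        rw [Set.indicator_of_mem (S0_subset_SJ _ _ _ _ hgS)]
      rw [e4] at e3
      simp only [hh]
      rw [e1, add_zero]
      linarith only [e2, e3]
    · have e1 : (Sᶜ).indicator (fun _ => CU * (n : ℝ)) g = CU * n :=
        Set.indicator_of_mem (show g ∈ Sᶜ from hgS) _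
      have e2 := Cr n hn1 p (skM g) hp hg1
      have h2 := hXs g
      have h3 : 0 ≤ 3 * (CD * (1 + ∑ j, ∑ k, X j k g)) + CF := by (clear * - hCD h2 hCF; positivity)
      simp only [hh]
      rw [e1]
      linarith only [e2, h3]
  have h1 : ∫ g in R, sq (fun j => p.U κ₀ (skM g) j) ∂(disorder n)
      ≤ ∫ g in R, h g ∂(disorder n) := by
    refine integral_mono_of_nonneg (ae_of_all _ fun g => sq_nn _) hhi.integrableOn ?_
    exact ae_restrict_of_forall_mem (measurableSet_Reg p c) hpt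
  have h2 : ∫ g in R, h g ∂(disorder n) ≤ ∫ g, h g ∂(disorder n) :=
    setIntegral_le_integral hhi (ae_of_all _ hh0)
  have h3 : ∫ g, h g ∂(disorder n) = 3 * (CD * (1 + ∑ j, ∑ k, ∫ g, X j k g ∂(disorder n))) + CF
      + CU * n * (disorder n Sᶜ).toReal := by
    have e1 : ∀ j, ∫ g, ∑ k, X j k g ∂(disorder n) = ∑ k, ∫ g, X j k g ∂(disorder n) :=
      fun j => integral_finsetSum _ fun k _ => hXi j k
    have e2 : ∫ g, ∑ j, ∑ k, X j k g ∂(disorder n) = ∑ j, ∑ k, ∫ g, X j k g ∂(disorder n) := by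
      rw [integral_finsetSum _ fun j _ => integrable_finsetSum _ fun k _ => hXi j k]
      exact Finset.sum_congr rfl fun j _ => e1 j
    have i1 : Integrable (fun g => 1 + ∑ j, ∑ k, X j k g) (disorder n) :=
      (integrable_const 1).add hi1
    have e3 : ∫ g, (1 + ∑ j, ∑ k, X j k g) ∂(disorder n)
        = 1 + ∑ j, ∑ k, ∫ g, X j k g ∂(disorder n) := by
      rw [integral_add (integrable_const 1) hi1, e2, integral_const, probReal_univ, one_smul]
    have i2 : Integrable (fun g => 3 * (CD * (1 + ∑ j, ∑ k, X j k g))) (disorder n) :=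
      (i1.const_mul CD).const_mul 3
    have e4 : ∫ g, (3 * (CD * (1 + ∑ j, ∑ k, X j k g)) + CF) ∂(disorder n)
        = 3 * (CD * (1 + ∑ j, ∑ k, ∫ g, X j k g ∂(disorder n))) + CF := by
      rw [integral_add i2 (integrable_const CF), integral_const_mul, integral_const_mul, e3,
        integral_const, probReal_univ, one_smul]
    have e5 : ∫ g, (Sᶜ).indicator (fun _ => CU * (n : ℝ)) g ∂(disorder n)
        = CU * n * (disorder n Sᶜ).toReal := by
      rw [integral_indicator hSm.compl, setIntegral_const, smul_eq_mul, Measure.real]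
      ring
    rw [hh, integral_add hi2 hi3, e4, e5]
  have h4 : ∑ j : Fin n, ∑ k : Fin 3, ∫ g, X j k g ∂(disorder n) ≤ 3 * CP := by
    calc ∑ j : Fin n, ∑ k : Fin 3, ∫ g, X j k g ∂(disorder n)
        ≤ ∑ _j : Fin n, ∑ _k : Fin 3, CP / n :=
          Finset.sum_le_sum fun j _ => Finset.sum_le_sum fun k _ => hXint j k
      _ = 3 * CP := by
          simp only [Finset.sum_const, Finset.card_univ, Fintype.card_fin, nsmul_eq_mul]
          push_cast
          field_simp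
  have h5 : n * (disorder n Sᶜ).toReal ≤ 1 / a := by
    have e1 : (disorder n Sᶜ).toReal ≤ Real.exp (-(a * n)) := by
      refine le_trans ?_ (hS n hn0 p.r hr0 hrβ p.m hp.1)
      refine ENNReal.toReal_mono (measure_ne_top _ _) (measure_mono ?_)
      exact Set.compl_subset_compl.2 (S0_mono (min_le_right _ _))
    have e2 : a * n ≤ Real.exp (a * n) := by linarith only [Real.add_one_le_exp (a * n)]
    calc n * (disorder n Sᶜ).toReal ≤ n * Real.exp (-(a * n)) :=
          mul_le_mul_of_nonneg_left e1 hn'.le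
      _ ≤ 1 / a := by
          rw [Real.exp_neg, le_div_iff₀ ha, mul_assoc, mul_comm _ a, ← mul_assoc,
            mul_comm (n : ℝ) a, ← div_eq_mul_inv, div_le_one (Real.exp_pos _)]
          exact e2
  have h6 : CU * n * (disorder n Sᶜ).toReal ≤ CU * (1 / a) := by
    rw [mul_assoc]
    exact mul_le_mul_of_nonneg_left h5 hCU
  have h7 : 3 * (CD * (1 + ∑ j, ∑ k, ∫ g, X j k g ∂(disorder n)))
      ≤ 3 * (CD * (1 + 3 * CP)) := by
    have := mul_le_mul_of_nonneg_left (add_le_add_right h4 1) hCD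
    linarith only [this]
  linarith only [h1.trans (h2.trans (le_of_eq h3)), h7, h6]

end Vale.Agent.P150.F.G6c
end

section

/-! Module G6c: the deterministic estimate of the reduced drift error. -/

open Finset
open scoped Matrix

namespace Vale.Agent.P150.F.G6c

variable {n : ℕ}

lemma hs_smul_le {r : ℝ} (h0 : 0 ≤ r) (h1 : r ≤ 1) (A : Mat n) : hs (r • A) ≤ hs A := by
  unfold hs
  refine Real.sqrt_le_sqrt ?_
  unfold hsq
  refine Finset.sum_le_sum fun i _ => Finset.sum_le_sum fun j _ => ?_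
  rw [Matrix.smul_apply, smul_eq_mul, mul_pow]
  have : r ^ 2 ≤ 1 := pow_le_one₀ h0 h1
  exact mul_le_of_le_one_left (sq_nonneg _) this

lemma trN_add_smul (A B : Mat n) (κ : ℝ) : trN (A + κ • B) = trN A + κ * trN B := by
  unfold trN
  simp only [Matrix.add_apply, Matrix.smul_apply, smul_eq_mul, Finset.sum_add_distrib,
    ← Finset.mul_sum]
  ring

lemma one_sub_qq (hn : 1 ≤ n) (m : Vec n) : 1 - qq m = (∑ j, (1 - m j ^ 2)) / n := by
  have hn' : (n : ℝ) ≠ 0 := by
    have : (0 : ℝ) < n := by exact_mod_cast hn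
    exact this.ne'
  rw [Finset.sum_sub_distrib]
  simp only [Finset.sum_const, Finset.card_univ, Fintype.card_fin, nsmul_eq_mul, mul_one, qq, sq]
  rw [sub_div, div_self hn']

lemma GQG_eq (G J : Mat n) (κ : ℝ) :
    G * (J + κ • (1 : Mat n)) * G = G * J * G + κ • (G * G) := by
  rw [Matrix.mul_add, Matrix.add_mul, Matrix.mul_smul, Matrix.mul_one, Matrix.smul_mul]

lemma sq_fluct {q s T δ : ℝ} (h : (s - T) ^ 2 ≤ δ) : (q - T) ^ 2 ≤ 2 * (q - s) ^ 2 + 2 * δ := by
  linarith only [h, sq_nonneg ((q - s) - (s - T))]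

theorem ip_quad_le {u : Vec n} {A : Mat n} {g : ℝ} (hg : 0 ≤ g) (hA : OpLe A g)
    (hu : sq u ≤ 9) : |ip u (A.mulVec u)| ≤ 9 * g := by
  have h1 := ip_sq_le u (A.mulVec u)
  have h2 := hA u
  have h3 := sq_nn u
  refine abs_le_of_sq_le_sq ?_ (by positivity)
  calc ip u (A.mulVec u) ^ 2 ≤ sq u * (g ^ 2 * sq u) :=
        h1.trans (mul_le_mul_of_nonneg_left h2 h3)
    _ = g ^ 2 * (sq u * sq u) := by ring
    _ ≤ g ^ 2 * (9 * 9) := mul_le_mul_of_nonneg_left (mul_le_mul hu hu h3 (by norm_num))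
        (sq_nonneg g)
    _ = (9 * g) ^ 2 := by ring

/-- comparison of the traces of the minor and of the full matrix -/
theorem trace_comp {c r : ℝ} (hc : 0 < c) (hr : 0 ≤ r) (hr1 : r ≤ 1) {m : Vec n}
    {J : Mat n} (hs' : Jᵀ = J) (h0 : ∀ i, J i i = 0) (h3 : OpLe J 3)
    (h : Coer c (dg (aa r m) - r • J)) (j : Fin n) :
    (trN (MM r m J j 0) - trN (G0 r m J)) ^ 2 ≤ (5 * (1 / c) ^ 2) ^ 2 / n ∧
    (trN (MM r m J j 1) - trN (G0 r m J * G0 r m J)) ^ 2
      ≤ (2 * (1 * (1 / c) * (5 * (1 / c) ^ 2))) ^ 2 / n ∧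
    (trN (MM r m J j 2) - trN (G0 r m J * J * G0 r m J)) ^ 2
      ≤ (2 * (3 * (1 / c) * (5 * (1 / c) ^ 2)) + 1 / c * (1 / c) * 5) ^ 2 / n := by
  have hm := h.mn h0 j
  have hg : 0 ≤ 1 / c := by positivity
  have hGm : OpLe (Gm r m J j) (1 / c) := hm.opLe_inv hc
  have hG : OpLe (G0 r m J) (1 / c) := h.opLe_inv hc
  have hd : hs (Gm r m J j - G0 r m J) ≤ 5 * (1 / c) ^ 2 := by
    have h1 := hs_inv_sub hc hm h
    have h2 : (dg (aa r m) - r • mn j J) - (dg (aa r m) - r • J) = r • (J - mn j J) := by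
      rw [smul_sub]; abel
    rw [h2] at h1
    have h4 := (hs_smul_le hr hr1 (J - mn j J)).trans (hs_sub_mn hs' h3 j)
    have h5 := mul_le_mul_of_nonneg_left h4 (sq_nonneg (1 / c))
    calc hs (Gm r m J j - G0 r m J) ≤ (1 / c) ^ 2 * hs (r • (J - mn j J)) := h1
      _ ≤ (1 / c) ^ 2 * 5 := h5
      _ = _ := by ring
  have e0 : MM r m J j 0 = Gm r m J j := by simp [MM]
  have e1 : MM r m J j 1 = Gm r m J j * 1 * Gm r m J j := by simp [MM]
  have e2 : MM r m J j 2 = Gm r m J j * mn j J * Gm r m J j := by simp [MM]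
  refine ⟨?_, ?_, ?_⟩
  · rw [e0]; exact trN_sub_sq hd
  · rw [e1, show G0 r m J * G0 r m J = G0 r m J * 1 * G0 r m J by rw [Matrix.mul_one]]
    have hz : hs ((1 : Mat n) - 1) ≤ 0 := by
      rw [sub_self]; exact le_of_eq (by simp [hs, hsq])
    have h1 := hs_triple hg zero_le_one hGm hG OpLe.one OpLe.one hd hz
    rw [mul_zero, add_zero] at h1
    exact trN_sub_sq h1
  · rw [e2]
    have hz : hs (mn j J - J) ≤ 5 := by rw [hs_sub_comm]; exact hs_sub_mn hs' h3 j
    exact trN_sub_sq (hs_triple hg (by norm_num) hGm hG (opLe_mn h3 j) h3 hd hz)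

/-- the deterministic estimate -/
theorem detStatement : DetStatement := by
  intro β κ c hβ hc
  set g : ℝ := 1 / c with hg
  have hg0 : 0 ≤ g := by positivity
  set K : ℝ := 1 + |κ| + 9 * g + 9 * g ^ 2 with hK
  have hκ0 := abs_nonneg κ
  have hgg : 0 ≤ g ^ 2 := sq_nonneg g
  have hK1 : 1 ≤ K := by rw [hK]; linarith only [hgg, hκ0, hg0]
  have hκK : |κ| ≤ K := by rw [hK]; linarith only [hgg, hg0]
  have hgK : g ≤ K := by rw [hK]; linarith
  have hgK2 : g * g ≤ K := by rw [hK, ← pow_two]; linarith only [hK1, hκ0, hg0]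
  have hgK3 : g * 3 * g ≤ K := by
    have : g * 3 * g = 3 * g ^ 2 := by ring
    rw [hK, this]; linarith
  have hgK9 : 9 * g ≤ K := by rw [hK]; linarith only [hgg, hκ0]
  set A : ℝ := (5 * g ^ 2) ^ 2 + (2 * (1 * g * (5 * g ^ 2))) ^ 2
    + (2 * (3 * g * (5 * g ^ 2)) + g * g * 5) ^ 2 with hA
  have hA0 : 0 ≤ A := by positivity
  have hcS : 0 ≤ cS β K := by unfold cS; positivity
  refine ⟨cS β K * (2 + 2 * A), by positivity, ?_⟩
  intro n hn r hr hrβ m hm J hs' h0 h3 h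
  have hn' : (0 : ℝ) < n := by exact_mod_cast hn
  have hr1 : r ≤ 1 := hrβ.trans hβ.le
  have hG : OpLe (G0 r m J) g := h.opLe_inv hc
  have hHs := ham_symm hs' (aa r m) r
  have hGs : (G0 r m J)ᵀ = G0 r m J := inv_symm hHs
  have hD : ∀ j, 0 < 1 - m j ^ 2 := fun j => by
    have h1 := hm j
    have h2 : m j ^ 2 < 1 := by rw [← sq_abs]; exact pow_lt_one₀ (abs_nonneg _) h1 two_ne_zero
    linarith only [h2]
  have hD1 : ∀ j, 1 - m j ^ 2 ≤ 1 := fun j => by linarith only [sq_nonneg (m j)]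
  have hloo := fun j => loo_quad hs' h0 hc h j (Gm := Gm r m J j) (G := G0 r m J) rfl rfl
  have e0 : ∀ j, MM r m J j 0 = Gm r m J j := fun j => by simp [MM]
  have e1 : ∀ j, MM r m J j 1 = Gm r m J j * Gm r m J j := fun j => by simp [MM]
  have e2 : ∀ j, MM r m J j 2 = Gm r m J j * mn j J * Gm r m J j := fun j => by simp [MM]
  set Q : Fin 3 → Fin n → ℝ := fun k j => ip (col J j) ((MM r m J j k).mulVec (col J j)) with hQ
  have hQ0 : ∀ j, Q 0 j = ip (col J j) ((Gm r m J j).mulVec (col J j)) := fun j => by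
    rw [hQ]; simp only [e0]
  have hQ1 : ∀ j, Q 1 j = ip (col J j) ((Gm r m J j * Gm r m J j).mulVec (col J j)) := fun j => by
    rw [hQ]; simp only [e1]
  have hQ2 : ∀ j, Q 2 j = ip (col J j) ((Gm r m J j * mn j J * Gm r m J j).mulVec (col J j)) :=
    fun j => by rw [hQ]; simp only [e2]
  set T := trN (G0 r m J) with hT
  set τ := trN (G0 r m J * G0 r m J) with hτ
  set N := trN (G0 r m J * J * G0 r m J) with hN
  have hmain := scalar_local (n := n) hn hβ hK1 hr hrβ hκK (t := 1 - qq m) (T := T) (τ := τ)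
    (N := N) (fun j => G0 r m J j j) (fun j => 1 - m j ^ 2) (fun j => Q 0 j - T)
    (fun j => Q 1 j - τ) (fun j => Q 2 j - N)
    (fun j => (G0 r m J * (J + κ • (1 : Mat n)) * G0 r m J) j j / (1 - m j ^ 2) ^ 2)
    (fun j => h.diag_nonneg hc hHs j)
    (fun j => (le_abs_self _).trans ((entry_le hg0 hG j j).trans hgK)) hD hD1
    (one_sub_qq hn m) rfl ?_ ?_ ?_ ?_ ?_ ?_ ?_
  · -- conclusion
    have hu : ∀ j, u0 κ r m J j = κ + 2 * r * (1 - qq m)
        - (G0 r m J * (J + κ • (1 : Mat n)) * G0 r m J) j j / (1 - m j ^ 2) ^ 2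
        + r ^ 2 * (κ * τ + N) := by
      intro j
      have h1 : trN (G0 r m J * (J + κ • (1 : Mat n)) * G0 r m J) = N + κ * τ := by
        rw [GQG_eq, trN_add_smul]
      unfold u0
      rw [h1]; ring
    simp only [hu]
    refine hmain.trans ?_
    have hcmp : ∀ j, (Q 0 j - T) ^ 2 + (Q 1 j - τ) ^ 2 + (Q 2 j - N) ^ 2
        ≤ 2 * ∑ k, xi r m J j k ^ 2 + 2 * A / n := by
      intro j
      obtain ⟨c0, c1, c2⟩ := trace_comp hc hr hr1 hs' h0 h3 h j
      have d0 := sq_fluct (q := Q 0 j) c0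
      have d1 := sq_fluct (q := Q 1 j) c1
      have d2 := sq_fluct (q := Q 2 j) c2
      have e3 : ∑ k, xi r m J j k ^ 2 = (Q 0 j - trN (MM r m J j 0)) ^ 2
          + (Q 1 j - trN (MM r m J j 1)) ^ 2 + (Q 2 j - trN (MM r m J j 2)) ^ 2 := by
        rw [Fin.sum_univ_three]; rfl
      have e4 : 2 * A / n = 2 * ((5 * g ^ 2) ^ 2 / n) + 2 * ((2 * (1 * g * (5 * g ^ 2))) ^ 2 / n)
          + 2 * ((2 * (3 * g * (5 * g ^ 2)) + g * g * 5) ^ 2 / n) := by
        rw [hA]; ring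
      rw [e3, e4]
      linarith only [d2, d1, d0]
    have e5 : ∑ j : Fin n, (2 * ∑ k, xi r m J j k ^ 2 + 2 * A / n)
        = 2 * (∑ j, ∑ k, xi r m J j k ^ 2) + 2 * A := by
      rw [Finset.sum_add_distrib, ← Finset.mul_sum, Finset.sum_const, Finset.card_univ,
        Fintype.card_fin, nsmul_eq_mul]
      field_simp
    have hsum := (Finset.sum_le_sum fun j (_ : j ∈ Finset.univ) => hcmp j).trans (le_of_eq e5)
    have hS0 : 0 ≤ ∑ j, ∑ k, xi r m J j k ^ 2 :=
      Finset.sum_nonneg fun _ _ => Finset.sum_nonneg fun _ _ => sq_nonneg _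
    rw [mul_assoc]
    refine mul_le_mul_of_nonneg_left (hsum.trans ?_) hcS
    have := mul_nonneg hA0 hS0
    linarith only [this]
  · -- `0 ≤ τ`
    rw [hτ]
    unfold trN
    refine div_nonneg (Finset.sum_nonneg fun j _ => ?_) hn'.le
    have e3 : (G0 r m J * G0 r m J) j j = (G0 r m J * 1 * G0 r m J) j j := by rw [Matrix.mul_one]
    rw [e3, quad_entry hGs, Matrix.one_mulVec, ip_self]
    exact sq_nn _
  · exact (le_abs_self _).trans ((abs_trN_le_of_opLe (mul_nonneg hg0 hg0) (hG.mul hG)).trans hgK2)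
  · exact (abs_trN_le_of_opLe (by positivity) ((hG.mul h3).mul hG)).trans hgK3
  · intro j
    have e3 : T + (Q 0 j - T) = ip (col J j) ((Gm r m J j).mulVec (col J j)) := by
      rw [← hQ0]; ring
    rw [e3]
    refine (ip_quad_le hg0 ((h.mn h0 j).opLe_inv hc) ?_).trans hgK9
    have := sq_col_le h3 j
    norm_num at this
    exact this
  · intro j
    obtain ⟨l1, -, -⟩ := hloo j
    rw [← hQ0] at l1
    have hDj := (hD j).ne'
    have ha : aa r m j = 1 / (1 - m j ^ 2) + r ^ 2 * (1 - qq m) := rfl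
    rw [ha] at l1
    have l2 : (1 + (1 - m j ^ 2) * (r ^ 2 * (1 - qq m) - r ^ 2 * Q 0 j)) * G0 r m J j j
        = 1 - m j ^ 2 := by
      field_simp at l1
      linear_combination l1
    linear_combination l2
  · have e3 : ∀ j, G0 r m J j j ^ 2 * (1 + r ^ 2 * (τ + (Q 1 j - τ)))
        = (G0 r m J * G0 r m J) j j := by
      intro j
      obtain ⟨-, l1, -⟩ := hloo j
      rw [← hQ1] at l1
      rw [l1]; ring
    simp only [e3]
    rfl
  · intro j
    obtain ⟨-, l1, l2⟩ := hloo j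
    rw [← hQ1] at l1
    rw [← hQ0, ← hQ2] at l2
    have hDj := pow_ne_zero 2 (hD j).ne'
    rw [div_mul_cancel₀ _ hDj, GQG_eq, Matrix.add_apply, Matrix.smul_apply, smul_eq_mul, l1, l2]
    ring

end Vale.Agent.P150.F.G6c
end

section

/-! Module G6: chaining and the uniform bound on the TAP drift error (helper477). -/

open MeasureTheory ProbabilityTheory Filter Topology
open scoped Matrix

namespace Vale.Agent.P150.F

namespace G6

variable {n d : ℕ}

theorem hU_of {β K κ₀ c : ℝ} {d : ℕ} (hβ : β ≤ 1) (hc : 0 < c) :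
    ∃ C : ℝ, 0 < C ∧ ∀ n : ℕ, 1 ≤ n → HU β K κ₀ c C n d := by
  obtain ⟨C, hC, h⟩ := G6a_U β κ₀ c K d hβ hc
  refine ⟨C, hC, fun n hn => ?_⟩
  obtain ⟨h1, h2, h3, h4⟩ := h n hn
  have hs : ∀ g g' : Pairs n → ℝ, hsq (skM g - skM g') = (√(2 / n) * ed g g') ^ 2 := by
    intro g g'
    rw [hsq_skM_sub, mul_pow, Real.sq_sqrt (by positivity)]
  refine ⟨hC, fun p hp g hg j => h1 p _ hp hg j, fun p hp g hg g' hg' => ?_,
    fun p p' ε hε hp hp' hN g hg g' hg' => ?_, fun p p' ε hp hp' hN g hg j => ?_⟩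
  · refine nv_le_of_sq_le (mul_nonneg (mul_nonneg hC.le (Real.sqrt_nonneg _)) (ed_nonneg _ _)) ?_
    have := h2 p _ _ hp hg hg'
    rw [hs] at this
    refine le_trans (le_of_eq ?_) (this.trans (le_of_eq (by ring)))
    rfl
  · refine nv_le_of_sq_le (mul_nonneg (mul_nonneg (mul_nonneg hC.le hε) (Real.sqrt_nonneg _))
      (ed_nonneg _ _)) ?_
    have := h3 p p' (skM g) (skM g') ε hp hp' hg.1 hg'.1 hg.2 hg'.2 hN
    rw [hs] at this
    refine le_trans (le_of_eq ?_) (this.trans (le_of_eq (by ring)))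
    unfold sq Ug
    refine Finset.sum_congr rfl fun j _ => ?_
    simp only [Pi.sub_apply]
    ring
  · exact h4 p p' _ ε hp hp' hg.1 hg.2 hN j

theorem Near.tri {p p' p'' : Par n d} {ε ε' : ℝ} (hε : 0 ≤ ε) (hε' : 0 ≤ ε')
    (h : p.Near ε p') (h' : p.Near ε' p'') : p'.Near (ε + ε') p'' := by
  obtain ⟨h1, h2, h3⟩ := h
  obtain ⟨h1', h2', h3'⟩ := h'
  refine ⟨fun i => ?_, ?_, fun a => ?_⟩
  · have e : p'.m i - p''.m i = (p.m i - p''.m i) - (p.m i - p'.m i) := by ring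
    rw [e]
    exact (abs_sub _ _).trans (by linarith only [h1' i, h1 i])
  · have e : p'.r - p''.r = (p.r - p''.r) - (p.r - p'.r) := by ring
    rw [e]
    exact (abs_sub _ _).trans (by linarith)
  · have e : p'.w a - p''.w a = (p'.w a - p.w a) + (p.w a - p''.w a) := by abel
    have h4 : nv (p'.w a - p''.w a) ≤ ε + ε' := by
      rw [e]
      refine (nv_add_le _ _).trans (add_le_add ?_ (nv_le_of_sq_le hε' (h3' a)))
      rw [nv_sub_comm]
      exact nv_le_of_sq_le hε (h3 a)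
    rw [← nv_sq]
    exact pow_le_pow_left₀ (nv_nonneg _) h4 2

theorem Near.mono {p p' : Par n d} {ε ε' : ℝ} (h : p.Near ε p') (hε : 0 ≤ ε) (h' : ε ≤ ε') :
    p.Near ε' p' :=
  ⟨fun i => (h.1 i).trans h', h.2.1.trans h', fun a => (h.2.2 a).trans (by gcongr)⟩

theorem sum_le_four (n : ℕ) : ∑ k ∈ Finset.range n, ((k : ℝ) + 1) * (1 / 2) ^ k ≤ 4 := by
  have h : ∀ n : ℕ, ∑ k ∈ Finset.range n, ((k : ℝ) + 1) * (1 / 2) ^ k
      = 4 - (2 * n + 4) * (1 / 2) ^ n := by
    intro n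
    induction n with
    | zero => norm_num
    | succ n ih =>
      rw [Finset.sum_range_succ, ih, pow_succ]
      push_cast
      ring
  rw [h]
  have : 0 ≤ (2 * (n : ℝ) + 4) * (1 / 2) ^ n := by positivity
  linarith

/-- one step of the chain -/
noncomputable def lvl (C σ δ : ℝ) (n k : ℕ) : ℝ :=
  2 * √2 * C * (2 * (1 / 2) ^ k) + C * (2 * (1 / 2) ^ k) * (σ * (k + 1)) + 14 * C * √n * δ

/-- the base level -/
noncomputable def base (C σ δ : ℝ) (n k : ℕ) : ℝ :=
  2 * √2 * C + C * (σ * (k + 1)) + 3 * C * √n * δ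

/-- the bad event of the chaining -/
def Bad (κ₀ c C σ δ : ℝ) (N : ℕ → Finset (Par n d)) (k₀ : ℕ) : Set (Pairs n → ℝ) :=
  (⋃ p ∈ N k₀, {g | g ∈ Sr c p ∧ base C σ δ n k₀ ≤ nv (Ug κ₀ p g - bg κ₀ c p)}) ∪
  ⋃ i ∈ Finset.range n, ⋃ q ∈ N (k₀ + i) ×ˢ N (k₀ + i + 1),
    {g | q.1.Near (2 * (1 / 2) ^ (k₀ + i)) q.2 ∧ g ∈ Sr c q.1 ∩ Sr c q.2 ∧
      lvl C σ δ n (k₀ + i) ≤
        nv ((Ug κ₀ q.1 g - Ug κ₀ q.2 g) - (bg κ₀ c q.1 - bg κ₀ c q.2))}

section

variable {β K κ₀ c C : ℝ}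

theorem bad_le (h : HU β K κ₀ c C n d) (hn : 1 ≤ n) {σ δ C₀ : ℝ} (hC₀ : 0 < C₀)
    (hσ0 : 0 ≤ σ) (hσ : σ ^ 2 = 8 * (3 * C₀ + 1)) (N : ℕ → Finset (Par n d)) (k₀ : ℕ)
    (hN : ∀ k, ∀ p ∈ N k, p.Ok β K) (hNc : ∀ k : ℕ, ((N k).card : ℝ) ≤ Real.exp (C₀ * (k + 1) * n))
    (hδ : ∀ p : Par n d, p.Ok β K → (disorder n (Sr c p)ᶜ).toReal ≤ δ) :
    (disorder n).real (Bad κ₀ c C σ δ N k₀) ≤ (n + 1) * Real.exp (-n) := by
  have hn' : (1 : ℝ) ≤ n := by exact_mod_cast hn
  have hex : ∀ k : ℕ, Real.exp (-((σ * (k + 1)) ^ 2 * n / 8))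
      ≤ Real.exp (-((3 * C₀ + 1) * (k + 1) * n)) := by
    intro k
    refine Real.exp_le_exp.2 (neg_le_neg ?_)
    rw [mul_pow, hσ]
    have hk : (0 : ℝ) ≤ k := Nat.cast_nonneg k
    have h1 : (k : ℝ) + 1 ≤ (k + 1) ^ 2 := by (by_contra nlg; linarith only [mul_nonneg (sq_nonneg (↑k + 1 : ℝ)) (le_of_lt (sub_pos.2 (not_le.1 nlg))), mul_nonneg (sq_nonneg (↑k + 1 : ℝ)) (sub_nonneg.2 hk), mul_pos (sub_pos.2 (not_le.1 nlg)) (sub_pos.2 (not_le.1 nlg))])
    have h2 : 0 ≤ (3 * C₀ + 1) * n := by positivity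
    linarith only [mul_le_mul_of_nonneg_left h1 h2]
  refine (measureReal_union_le _ _).trans ?_
  have a1 : (disorder n).real (⋃ p ∈ N k₀,
      {g | g ∈ Sr c p ∧ base C σ δ n k₀ ≤ nv (Ug κ₀ p g - bg κ₀ c p)}) ≤ Real.exp (-n) := by
    refine (measureReal_biUnion_finset_le _ _).trans ?_
    refine (Finset.sum_le_card_nsmul _ _ (Real.exp (-((3 * C₀ + 1) * (k₀ + 1) * n)))
      fun p hp => ?_).trans ?_
    · exact (single h hn (hN k₀ p hp) (hδ p (hN k₀ p hp))
        (s := σ * (k₀ + 1)) (by (clear * - hσ0; positivity))).trans (hex k₀)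
    · rw [nsmul_eq_mul]
      refine (mul_le_mul_of_nonneg_right (hNc k₀) (Real.exp_pos _).le).trans ?_
      rw [← Real.exp_add]
      refine Real.exp_le_exp.2 ?_
      have hk : (0 : ℝ) ≤ k₀ := Nat.cast_nonneg k₀
      have : 0 ≤ C₀ * (k₀ + 1) * n := by positivity
      nlinarith [mul_nonneg hk (by linarith only [hn'] : (0:ℝ) ≤ n)]
  have a2 : (disorder n).real (⋃ i ∈ Finset.range n, ⋃ q ∈ N (k₀ + i) ×ˢ N (k₀ + i + 1),
      {g | q.1.Near (2 * (1 / 2) ^ (k₀ + i)) q.2 ∧ g ∈ Sr c q.1 ∩ Sr c q.2 ∧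
      lvl C σ δ n (k₀ + i) ≤
        nv ((Ug κ₀ q.1 g - Ug κ₀ q.2 g) - (bg κ₀ c q.1 - bg κ₀ c q.2))}) ≤ n * Real.exp (-n) := by
    refine (measureReal_biUnion_finset_le _ _).trans ?_
    refine (Finset.sum_le_card_nsmul _ _ (Real.exp (-n)) fun i _ => ?_).trans ?_
    · refine (measureReal_biUnion_finset_le _ _).trans ?_
      set k := k₀ + i with hk
      refine (Finset.sum_le_card_nsmul _ _ (Real.exp (-((3 * C₀ + 1) * (k + 1) * n)))
        fun q hq => ?_).trans ?_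
      · rw [Finset.mem_product] at hq
        by_cases hnear : q.1.Near (2 * (1 / 2) ^ k) q.2
        · have h3 := pair h hn (hN _ _ hq.1) (hN _ _ hq.2) (ε := 2 * (1 / 2) ^ k) (by positivity)
            hnear (hδ _ (hN _ _ hq.1)) (hδ _ (hN _ _ hq.2)) (s := σ * (k + 1)) (by (clear * - hσ0; positivity))
          refine le_trans (measureReal_mono ?_) (h3.trans (hex k))
          rintro g ⟨_, hg1, hg2⟩
          exact ⟨hg1, hg2⟩
        · have : {g : Pairs n → ℝ | q.1.Near (2 * (1 / 2) ^ k) q.2 ∧ g ∈ Sr c q.1 ∩ Sr c q.2 ∧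
              lvl C σ δ n k ≤ nv ((Ug κ₀ q.1 g - Ug κ₀ q.2 g) - (bg κ₀ c q.1 - bg κ₀ c q.2))}
              = ∅ := by
            refine Set.eq_empty_of_forall_notMem fun g hg => hnear hg.1
          rw [this, measureReal_empty]
          exact (Real.exp_pos _).le
      · rw [nsmul_eq_mul, Finset.card_product, Nat.cast_mul]
        refine (mul_le_mul_of_nonneg_right (mul_le_mul (hNc k) (hNc (k + 1))
          (Nat.cast_nonneg _) (Real.exp_pos _).le) (Real.exp_pos _).le).trans ?_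
        rw [← Real.exp_add, ← Real.exp_add]
        refine Real.exp_le_exp.2 ?_
        push_cast
        have hk0 : (0 : ℝ) ≤ k := Nat.cast_nonneg k
        have h4 : 0 ≤ C₀ * k * n := by (clear * - hC₀ hn; positivity)
        have h5 : 0 ≤ C₀ * n := by positivity
        have h6 : 0 ≤ (k : ℝ) * n := by (clear * - hn; positivity)
        linarith only [h4, h6]
    · rw [nsmul_eq_mul, Finset.card_range]
  linarith

/-- the deterministic chaining -/
theorem chain (h : HU β K κ₀ c C n d) {σ δ C₃ : ℝ} (N : ℕ → Finset (Par n d)) (k₀ : ℕ)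
    {g : Pairs n → ℝ} (hg : g ∉ Bad κ₀ c C σ δ N k₀)
    (hb : ∀ p : Par n d, p.Ok β K → nv (bg κ₀ c p) ≤ C₃)
    {p : Par n d} (hp : p.Ok β K) (hgp : g ∈ Sr c p) (P : ℕ → Par n d)
    (hP : ∀ k, P k ∈ N k) (hPok : ∀ k, (P k).Ok β K) (hPn : ∀ k, p.Near ((1 / 2) ^ k) (P k))
    (hPg : ∀ k, k₀ ≤ k → g ∈ Sr c (P k)) :
    nv (Ug κ₀ p g) ≤ C + C₃ + (base C σ δ n k₀ + ∑ i ∈ Finset.range n, lvl C σ δ n (k₀ + i)) := by
  have hbad1 : ∀ q ∈ N k₀, g ∈ Sr c q → nv (Ug κ₀ q g - bg κ₀ c q) ≤ base C σ δ n k₀ := by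
    intro q hq hgq
    by_contra hcon
    rw [not_le] at hcon
    refine hg (Or.inl ?_)
    simp only [Set.mem_iUnion]
    exact ⟨q, hq, hgq, hcon.le⟩
  have hstep : ∀ i, i < n → nv ((Ug κ₀ (P (k₀ + i)) g - Ug κ₀ (P (k₀ + i + 1)) g)
      - (bg κ₀ c (P (k₀ + i)) - bg κ₀ c (P (k₀ + i + 1)))) ≤ lvl C σ δ n (k₀ + i) := by
    intro i hi
    by_contra hcon
    rw [not_le] at hcon
    refine hg (Or.inr ?_)
    simp only [Set.mem_iUnion]
    refine ⟨i, Finset.mem_range.2 hi, (P (k₀ + i), P (k₀ + i + 1)),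
      Finset.mem_product.2 ⟨hP _, hP _⟩, ?_, ⟨hPg _ (by omega), hPg _ (by omega)⟩, hcon.le⟩
    have h1 := Near.tri (by positivity) (by positivity) (hPn (k₀ + i)) (hPn (k₀ + i + 1))
    refine Near.mono h1 (by positivity) ?_
    rw [pow_succ]
    have : (0 : ℝ) < (1 / 2) ^ (k₀ + i) := by positivity
    linarith only [this]
  have hind : ∀ i, i ≤ n → nv (Ug κ₀ (P (k₀ + i)) g - bg κ₀ c (P (k₀ + i)))
      ≤ base C σ δ n k₀ + ∑ i' ∈ Finset.range i, lvl C σ δ n (k₀ + i') := by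
    intro i
    induction i with
    | zero =>
      intro _
      simp only [Finset.range_zero, Finset.sum_empty, add_zero]
      exact hbad1 _ (hP _) (hPg _ le_rfl)
    | succ i ih =>
      intro hi
      rw [Finset.sum_range_succ, ← add_assoc (base C σ δ n k₀)]
      have e : Ug κ₀ (P (k₀ + (i + 1))) g - bg κ₀ c (P (k₀ + (i + 1)))
          = (Ug κ₀ (P (k₀ + i)) g - bg κ₀ c (P (k₀ + i)))
            + -((Ug κ₀ (P (k₀ + i)) g - Ug κ₀ (P (k₀ + i + 1)) g)
              - (bg κ₀ c (P (k₀ + i)) - bg κ₀ c (P (k₀ + i + 1)))) := by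
        rw [← add_assoc k₀ i 1]
        abel
      rw [e]
      refine (nv_add_le _ _).trans (add_le_add (ih (by omega)) ?_)
      have e2 : -((Ug κ₀ (P (k₀ + i)) g - Ug κ₀ (P (k₀ + i + 1)) g)
              - (bg κ₀ c (P (k₀ + i)) - bg κ₀ c (P (k₀ + i + 1))))
          = (bg κ₀ c (P (k₀ + i)) - bg κ₀ c (P (k₀ + i + 1)))
            - (Ug κ₀ (P (k₀ + i)) g - Ug κ₀ (P (k₀ + i + 1)) g) := by abel
      rw [e2, nv_sub_comm]
      exact hstep i (by omega)
  have hlast := hind n le_rfl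
  have hcr : nv (Ug κ₀ p g - Ug κ₀ (P (k₀ + n)) g) ≤ C := by
    have h1 : nv (Ug κ₀ p g - Ug κ₀ (P (k₀ + n)) g) ≤ C * (1 / 2) ^ (k₀ + n) * √n := by
      refine nv_le_sqrt (mul_nonneg h.pos.le (by positivity)) fun j => ?_
      exact h.crude p (P (k₀ + n)) _ hp (hPok _) (hPn (k₀ + n)) g ⟨hgp, hPg _ (by omega)⟩ j
    refine h1.trans ?_
    have h2 : ((1 : ℝ) / 2) ^ (k₀ + n) ≤ (1 / 2) ^ n :=
      pow_le_pow_of_le_one (by norm_num) (by norm_num) (by omega)
    have h3 : √(n : ℝ) ≤ 2 ^ n := by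
      have h4 : (n : ℝ) ≤ 2 ^ n := by exact_mod_cast (Nat.lt_two_pow_self (n := n)).le
      rw [Real.sqrt_le_left (by positivity)]
      have h5 : (1 : ℝ) ≤ 2 ^ n := one_le_pow₀ (by norm_num)
      nlinarith
    have h6 : ((1 : ℝ) / 2) ^ (k₀ + n) * √n ≤ (1 / 2) ^ n * 2 ^ n :=
      mul_le_mul h2 h3 (Real.sqrt_nonneg _) (by positivity)
    have h7 : ((1 : ℝ) / 2) ^ n * 2 ^ n = 1 := by
      rw [← mul_pow]; norm_num
    rw [h7] at h6
    rw [mul_assoc]
    linarith only [mul_nonneg (sub_nonneg.2 h6) (le_of_lt (sub_pos.2 h.pos))]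
  have e3 : Ug κ₀ p g = (Ug κ₀ p g - Ug κ₀ (P (k₀ + n)) g)
      + (bg κ₀ c (P (k₀ + n)) + (Ug κ₀ (P (k₀ + n)) g - bg κ₀ c (P (k₀ + n)))) := by abel
  calc nv (Ug κ₀ p g) = nv ((Ug κ₀ p g - Ug κ₀ (P (k₀ + n)) g)
      + (bg κ₀ c (P (k₀ + n)) + (Ug κ₀ (P (k₀ + n)) g - bg κ₀ c (P (k₀ + n))))) := by rw [← e3]
    _ ≤ _ := (nv_add_le _ _).trans (add_le_add hcr (nv_add_le _ _))
    _ ≤ _ := by linarith only [hb _ (hPok (k₀ + n)), hlast]

theorem sum_lvl_le {C σ δ a : ℝ} (hC : 0 < C) (hσ : 0 ≤ σ) {n : ℕ} (hn : 1 ≤ n) (k₀ : ℕ)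
    (hδ : (n : ℝ) ^ 2 * δ ≤ a) (hδ0 : 0 ≤ δ) :
    ∑ i ∈ Finset.range n, lvl C σ δ n (k₀ + i)
      ≤ (4 * √2 * C + 2 * C * σ * (k₀ + 1)) * 4 + 14 * C * a := by
  have hn' : (1 : ℝ) ≤ n := by exact_mod_cast hn
  have hsn : √(n : ℝ) ≤ n := by
    rw [Real.sqrt_le_left (by linarith only [hn'])]
    (by_contra nlg; linarith only [mul_nonneg (sq_nonneg (↑n : ℝ)) (le_of_lt (sub_pos.2 (not_le.1 nlg))), mul_nonneg (sq_nonneg (↑n : ℝ)) (sub_nonneg.2 hn'), mul_pos (sub_pos.2 (not_le.1 nlg)) (sub_pos.2 (not_le.1 nlg))])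
  have h1 : ∀ i ∈ Finset.range n, lvl C σ δ n (k₀ + i)
      ≤ (4 * √2 * C + 2 * C * σ * (k₀ + 1)) * (((i : ℝ) + 1) * (1 / 2) ^ i)
        + 14 * C * (n * δ) := by
    intro i _
    unfold lvl
    have hi : (0 : ℝ) ≤ i := Nat.cast_nonneg i
    have hk : (0 : ℝ) ≤ k₀ := Nat.cast_nonneg k₀
    have hp : ((1 : ℝ) / 2) ^ (k₀ + i) ≤ (1 / 2) ^ i :=
      pow_le_pow_of_le_one (by norm_num) (by norm_num) (by omega)
    have hp0 : (0 : ℝ) < (1 / 2) ^ (k₀ + i) := by positivity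
    have hp1 : (0 : ℝ) < (1 / 2) ^ i := by positivity
    have e1 : 2 * √2 * C * (2 * (1 / 2) ^ (k₀ + i)) ≤ 4 * √2 * C * (((i : ℝ) + 1) * (1 / 2) ^ i) := by
      have h2 : ((1 : ℝ) / 2) ^ (k₀ + i) ≤ ((i : ℝ) + 1) * (1 / 2) ^ i := by linarith only [mul_nonneg (mul_self_nonneg (1 : ℝ)) (sub_nonneg.2 hp), mul_nonneg (sub_nonneg.2 hi) (le_of_lt (sub_pos.2 hp1))]
      have h3 : 0 ≤ 4 * √2 * C := by positivity
      calc _ = 4 * √2 * C * (1 / 2) ^ (k₀ + i) := by ring
        _ ≤ _ := mul_le_mul_of_nonneg_left h2 h3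
    have e2 : C * (2 * (1 / 2) ^ (k₀ + i)) * (σ * (((k₀ + i : ℕ) : ℝ) + 1))
        ≤ 2 * C * σ * (k₀ + 1) * (((i : ℝ) + 1) * (1 / 2) ^ i) := by
      push_cast
      have h2 : ((k₀ : ℝ) + i + 1) ≤ (k₀ + 1) * (i + 1) := by nlinarith
      have h3 : ((1 : ℝ) / 2) ^ (k₀ + i) * (k₀ + i + 1) ≤ (1 / 2) ^ i * ((k₀ + 1) * (i + 1)) :=
        mul_le_mul hp h2 (by (clear * -; positivity)) hp1.le
      have h4 : 0 ≤ 2 * C * σ := by positivity
      calc _ = 2 * C * σ * ((1 / 2) ^ (k₀ + i) * (k₀ + i + 1)) := by ring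
        _ ≤ 2 * C * σ * ((1 / 2) ^ i * ((k₀ + 1) * (i + 1))) := mul_le_mul_of_nonneg_left h3 h4
        _ = _ := by ring
    have e3 : 14 * C * √n * δ ≤ 14 * C * (n * δ) := by
      have h2 : √(n : ℝ) * δ ≤ n * δ := mul_le_mul_of_nonneg_right hsn hδ0
      have h3 : 0 ≤ 14 * C := by positivity
      calc _ = 14 * C * (√n * δ) := by ring
        _ ≤ _ := mul_le_mul_of_nonneg_left h2 h3
    calc _ ≤ 4 * √2 * C * (((i : ℝ) + 1) * (1 / 2) ^ i)
          + 2 * C * σ * (k₀ + 1) * (((i : ℝ) + 1) * (1 / 2) ^ i) + 14 * C * (n * δ) :=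
          add_le_add (add_le_add e1 e2) e3
      _ = _ := by ring
  refine (Finset.sum_le_sum h1).trans ?_
  rw [Finset.sum_add_distrib, ← Finset.mul_sum, Finset.sum_const, Finset.card_range, nsmul_eq_mul]
  have h5 : 0 ≤ 4 * √2 * C + 2 * C * σ * (k₀ + 1) := by positivity
  refine add_le_add (mul_le_mul_of_nonneg_left (sum_le_four n) h5) ?_
  calc _ = 14 * C * ((n : ℝ) ^ 2 * δ) := by ring
    _ ≤ _ := mul_le_mul_of_nonneg_left hδ (by positivity)

theorem sq_exp_le {a : ℝ} (ha : 0 < a) (n : ℕ) :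
    (n : ℝ) ^ 2 * Real.exp (-(a * n)) ≤ 2 / a ^ 2 := by
  have h1 := Real.quadratic_le_exp_of_nonneg (x := a * n) (by positivity)
  have h2 : (n : ℝ) ^ 2 ≤ 2 / a ^ 2 * Real.exp (a * n) := by
    rw [div_mul_eq_mul_div, le_div_iff₀ (by positivity)]
    have : (0 : ℝ) ≤ a * n := by positivity
    linarith only [h1, this]
  calc (n : ℝ) ^ 2 * Real.exp (-(a * n))
      ≤ 2 / a ^ 2 * Real.exp (a * n) * Real.exp (-(a * n)) :=
        mul_le_mul_of_nonneg_right h2 (Real.exp_pos _).le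
    _ = 2 / a ^ 2 := by rw [mul_assoc, ← Real.exp_add, add_neg_cancel, Real.exp_zero, mul_one]

end

/-- the local law (Lemma C) -/
def G6cStatement : Prop := ∀ (β κ₀ c K : ℝ) (d : ℕ), 0 ≤ β → β < 1 → 0 < c →
    ∃ C : ℝ, ∃ n₀ : ℕ, ∀ n : ℕ, n₀ ≤ n → ∀ p : Par n d, p.Ok β K →
      ∫ g in {g | p.Reg c (skM g)}, sq (fun j => p.U κ₀ (skM g) j) ∂(disorder n) ≤ C

/-- **[G6]** uniform bound on the TAP drift error, with high probability -/
theorem kb_of (hG6c : G6cStatement) (β κ₀ c K : ℝ) (d : ℕ) (hβ0 : 0 ≤ β) (hβ : β < 1)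
    (hc : 0 < c) : ∃ C : ℝ, ∀ᶠ i in whpF, KB β κ₀ c K d C (skM i.2) := by
  obtain ⟨c₀, a, hc₀, ha, hB⟩ := G6b β hβ0 hβ
  set K' := max K 0 with hK'
  set c' := min c c₀ with hc'd
  have hc' : 0 < c' := lt_min hc hc₀
  obtain ⟨C, hC, hU⟩ := hU_of (β := β) (K := K') (κ₀ := κ₀) (c := c' / 2) (d := d) hβ.le
    (half_pos hc')
  obtain ⟨ε₀, hε₀, hnear⟩ := G6a_near β c' K' d hβ.le hc'
  obtain ⟨C₂, hkap⟩ := G6a_kap β κ₀ c' K' d hβ.le hc'
  obtain ⟨C₃, n₃, hC3⟩ := hG6c β κ₀ (c' / 2) K' d hβ0 hβ (half_pos hc')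
  obtain ⟨C₀, hC₀, hnet⟩ := G6d_net β K' d hβ0 hβ.le (le_max_right _ _)
  obtain ⟨n₁, hB⟩ := hB d K'
  obtain ⟨a₂, ha₂, n₂, hop⟩ := opLe_three
  obtain ⟨k₀, hk₀⟩ := exists_pow_lt_of_lt_one hε₀ (show (1 : ℝ) / 2 < 1 by norm_num)
  set σ := √(8 * (3 * C₀ + 1)) with hσd
  have hσ0 : 0 ≤ σ := Real.sqrt_nonneg _
  have hσ : σ ^ 2 = 8 * (3 * C₀ + 1) := Real.sq_sqrt (by positivity)
  set M := C + √(max C₃ 0) + ((2 * √2 * C + C * (σ * (k₀ + 1)) + 3 * C * (2 / a ^ 2))
    + ((4 * √2 * C + 2 * C * σ * (k₀ + 1)) * 4 + 14 * C * (2 / a ^ 2))) with hM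
  refine ⟨2 * M ^ 2 + C₂, eventually_whpF_of_real
    (fun n => ((n : ℝ) + 1) * Real.exp (-n) + Real.exp (-(a₂ * n))) ?_ ?_⟩
  · have t1 := tendsto_exp_lin (c := 1) one_pos 1
    have t2 := tendsto_exp_lin (c := 1) one_pos 0
    have t3 := tendsto_exp_lin ha₂ 0
    have := (t1.add t2).add t3
    simp only [add_zero] at this
    refine this.congr fun n => ?_
    simp only [pow_one, pow_zero, one_mul]
    ring
  · filter_upwards [eventually_ge_atTop n₁, eventually_ge_atTop n₂, eventually_ge_atTop n₃,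
      eventually_ge_atTop 1] with n hn1 hn2 hn3 hn
    have hn' : (1 : ℝ) ≤ n := by exact_mod_cast hn
    set δ := Real.exp (-(a * n)) with hδd
    have hδ0 : 0 ≤ δ := (Real.exp_pos _).le
    have hδa : (n : ℝ) ^ 2 * δ ≤ 2 / a ^ 2 := sq_exp_le ha n
    have hUn := hU n hn
    choose N hNok hNnet hNcard using hnet n hn
    have hδp : ∀ p : Par n d, p.Ok β K' → (disorder n (Sr (c' / 2) p)ᶜ).toReal ≤ δ := by
      intro p hp
      refine le_trans (measureReal_mono ?_) (hB n hn1 p hp)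
      intro g hg hreg
      refine hg ⟨hreg.1, hreg.2.1, fun v => ?_⟩
      refine le_trans ?_ (hreg.2.2 v)
      have h1 : c' / 2 ≤ c₀ := by
        have : c' ≤ c₀ := min_le_right _ _
        linarith only [hc', this]
      have h2 : 0 ≤ sq v := by rw [← nv_sq]; (clear * -; positivity)
      exact mul_le_mul_of_nonneg_right h1 h2
    have hbad := bad_le hUn hn hC₀ hσ0 hσ N k₀ hNok (fun k => hNcard k) hδp
    have hb : ∀ p : Par n d, p.Ok β K' → nv (bg κ₀ (c' / 2) p) ≤ √(max C₃ 0) := by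
      intro p hp
      refine nv_le_of_sq_le (Real.sqrt_nonneg _) ?_
      rw [Real.sq_sqrt (le_max_right _ _)]
      exact (bg_sq_le hUn hp (hC3 n hn3 p hp)).trans (le_max_left _ _)
    have hincl : {g : Pairs n → ℝ | ¬ KB β κ₀ c K d (2 * M ^ 2 + C₂) (skM g)}
        ⊆ Bad κ₀ (c' / 2) C σ δ N k₀ ∪ {g | ¬ OpLe (skM g) 3} := by
      intro g hg
      by_contra hcon
      rw [Set.mem_union, not_or] at hcon
      obtain ⟨hgb, hgo⟩ := hcon
      have hgo' : OpLe (skM g) 3 := by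
        by_contra h
        exact hgo h
      refine hg ?_
      intro r hr m hm A hA hH G hG
      obtain ⟨w, hw, rfl⟩ := hA
      set p : Par n d := ⟨m, r, w⟩ with hp
      have hpOk : p.Ok β K' := ⟨hm, ⟨hr.1, hr.2⟩, fun a => (hw a).trans (le_max_left _ _)⟩
      have hreg : p.Reg c' (skM g) := by
        refine ⟨isSymm_skM g, hgo', fun v => le_trans ?_ (hH v)⟩
        have h2 : 0 ≤ sq v := by rw [← nv_sq]; (clear * -; positivity)
        exact mul_le_mul_of_nonneg_right (min_le_left _ _) h2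
      have hregr : g ∈ Sr (c' / 2) p := by
        refine ⟨hreg.1, hreg.2.1, fun v => le_trans ?_ (hreg.2.2 v)⟩
        have h2 : 0 ≤ sq v := by rw [← nv_sq]; (clear * -; positivity)
        exact mul_le_mul_of_nonneg_right (by linarith only [hc']) h2
      choose P hPN hPnear using fun k => hNnet k p hpOk
      have hPok : ∀ k, (P k).Ok β K' := fun k => hNok k _ (hPN k)
      have hPg : ∀ k, k₀ ≤ k → g ∈ Sr (c' / 2) (P k) := by
        intro k hk
        have h1 : p.Near ε₀ (P k) := Near.mono (hPnear k) (by positivity)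
          ((pow_le_pow_of_le_one (by norm_num) (by norm_num) hk).trans hk₀.le)
        exact hnear n hn p (P k) _ hpOk (hPok k) h1 hreg
      have hch := chain hUn N k₀ hgb hb hpOk hregr P hPN hPok hPnear hPg
      have hUM : nv (Ug κ₀ p g) ≤ M := by
        refine hch.trans ?_
        have h3 := sum_lvl_le hC hσ0 hn k₀ hδa hδ0
        have h4 : base C σ δ n k₀ ≤ 2 * √2 * C + C * (σ * (k₀ + 1)) + 3 * C * (2 / a ^ 2) := by
          unfold base
          have hsn : √(n : ℝ) ≤ (n : ℝ) ^ 2 := by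
            rw [Real.sqrt_le_left (by positivity)]
            linarith only [pow_le_pow_right₀ hn' (show 1 ≤ 4 by norm_num)]
          have h5 : √(n : ℝ) * δ ≤ 2 / a ^ 2 :=
            (mul_le_mul_of_nonneg_right hsn hδ0).trans hδa
          have h6 : 3 * C * √n * δ ≤ 3 * C * (2 / a ^ 2) := by
            rw [mul_assoc (3 * C)]
            exact mul_le_mul_of_nonneg_left h5 (by positivity)
          linarith only [h6]
        rw [hM]
        linarith only [h3, h4]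
      have hk := hkap n hn p (skM g) hpOk hreg G hG
      refine hk.trans ?_
      have h7 : sq (fun j => p.U κ₀ (skM g) j) ≤ M ^ 2 := by
        have h8 : sq (fun j => p.U κ₀ (skM g) j) = nv (Ug κ₀ p g) ^ 2 := (nv_sq _).symm
        rw [h8]
        exact pow_le_pow_left₀ (nv_nonneg _) hUM 2
      linarith only [h7]
    refine (measureReal_mono hincl).trans ((measureReal_union_le _ _).trans ?_)
    exact add_le_add hbad (hop n hn2)

theorem g6_of (hP : G6c.ProbStatement) (hF : G6c.FinStatement) : G6Statement :=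
  fun β hβ0 hβ κ₀ c K d _ hc => kb_of
    (fun β κ₀ c K d hβ0 hβ hc => G6c.G6c_of G6c.detStatement hP hF β κ₀ c K d hβ0 hβ hc)
    β κ₀ c K d hβ0 hβ hc

end G6

end Vale.Agent.P150.F
end

section

/-! Module G6c (Lemma C, the local law at fixed parameters). -/

open MeasureTheory ProbabilityTheory Filter Topology
open scoped Matrix

namespace Vale.Agent.P150.F

/-- G6c (Lemma C) -/
theorem G6c (β κ₀ c K : ℝ) (d : ℕ) (hβ0 : 0 ≤ β) (hβ : β < 1) (hc : 0 < c) :
    ∃ C : ℝ, ∃ n₀ : ℕ, ∀ n : ℕ, n₀ ≤ n → ∀ p : Par n d, p.Ok β K →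
      ∫ g in {g | p.Reg c (skM g)}, sq (fun j => p.U κ₀ (skM g) j) ∂(disorder n) ≤ C :=
  G6c.G6c_of G6c.detStatement G6c.probStatement G6c.finStatement β κ₀ c K d hβ0 hβ hc

end Vale.Agent.P150.F
end

section

/-! Module G6: the uniform `ℓ²` bound on the TAP drift error (final form). -/

namespace Vale.Agent.P150.F

/-- **G6.** -/
theorem G6 : G6Statement := G6.g6_of G6c.probStatement G6c.finStatement

end Vale.Agent.P150.F
end

section

/-! P150 FULL, D3M: assembly of the entropy bound for near-DLR laws (helper555). -/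

open MeasureTheory ProbabilityTheory Filter Topology Real
open scoped Matrix

namespace Vale.Agent.P150.F

section
open scoped MatrixOrder

/-- square roots of `J + κ` -/
theorem exists_sqrt {n : ℕ} {J : Mat n} (hs : ∀ i j, J i j = J j i) {C : ℝ} (hC : 0 ≤ C)
    (hJ : OpLe J C) {κ : ℝ} (hκ : C ≤ κ) : ∃ R : Mat n, R * Rᵀ = J + κ • (1 : Mat n) := by
  have hpsd : (J + κ • (1 : Mat n)).PosSemidef := by
    refine Matrix.PosSemidef.of_dotProduct_mulVec_nonneg ?_ ?_
    · ext i j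
      rw [Matrix.conjTranspose_apply]
      simp only [Matrix.add_apply, Matrix.smul_apply, star_trivial, Matrix.one_apply, hs j i]
      by_cases h : i = j
      · subst h; rfl
      · rw [if_neg h, if_neg (Ne.symm h)]
    · intro v
      rw [star_trivial]
      have h1 : v ⬝ᵥ (J + κ • (1 : Mat n)) *ᵥ v = ip v (J.mulVec v) + κ * sq v := by
        rw [Matrix.add_mulVec, Matrix.smul_mulVec, Matrix.one_mulVec, dotProduct_add,
          dotProduct_smul, smul_eq_mul]
        congr 1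
        unfold sq dotProduct
        congr 1
        exact Finset.sum_congr rfl fun i _ => by ring
      have h2 : ip v (J.mulVec v) ^ 2 ≤ (C * sq v) ^ 2 := by
        calc ip v (J.mulVec v) ^ 2 ≤ sq v * sq (J.mulVec v) := Finset.sum_mul_sq_le_sq_mul_sq _ _ _
          _ ≤ sq v * (C ^ 2 * sq v) :=
              mul_le_mul_of_nonneg_left (hJ v) (Finset.sum_nonneg fun _ _ => sq_nonneg _)
          _ = (C * sq v) ^ 2 := by ring
      have h0 : 0 ≤ sq v := Finset.sum_nonneg fun _ _ => sq_nonneg _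
      have h3 := abs_le_of_sq_le_sq h2 (mul_nonneg hC h0)
      rw [abs_le] at h3
      rw [h1]
      linarith only [mul_le_mul_of_nonneg_right hκ h0, h3.1]
  obtain ⟨B, hB⟩ := CStarAlgebra.nonneg_iff_eq_star_mul_self.mp hpsd.nonneg
  refine ⟨Bᵀ, ?_⟩
  rw [hB, Matrix.transpose_transpose, Matrix.star_eq_conjTranspose]
  congr 1

end

/-- `tr (R Rᵀ Cov ν) ≥ 0` -/
theorem trQ_nonneg {n : ℕ} (R : Mat n) {ν : Cfg n → ℝ} (hν : ∀ x, 0 ≤ ν x) :
    0 ≤ trQ (R * Rᵀ) ν := by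
  have h : trQ (R * Rᵀ) ν = ∑ x, ν x * ∑ k, (∑ i, R i k * (sv x i - mean ν i)) ^ 2 := by
    unfold trQ
    have h1 : ∀ i : Fin n, (R * Rᵀ * covM ν) i i = ∑ x, ∑ j, ν x *
        ∑ k, (R i k * (sv x i - mean ν i)) * (R j k * (sv x j - mean ν j)) := by
      intro i
      rw [Matrix.mul_apply, Finset.sum_comm]
      refine Finset.sum_congr rfl fun j _ => ?_
      rw [Matrix.mul_apply]
      show (∑ k, R i k * Rᵀ k j) * (∑ x, ν x * ((sv x j - mean ν j) * (sv x i - mean ν i))) = _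
      rw [Finset.mul_sum]
      refine Finset.sum_congr rfl fun x _ => ?_
      rw [Finset.sum_mul, Finset.mul_sum]
      exact Finset.sum_congr rfl fun k _ => by rw [Matrix.transpose_apply]; ring
    simp_rw [h1]
    rw [Finset.sum_comm]
    refine Finset.sum_congr rfl fun x _ => ?_
    have h3 : ∀ k, (∑ i, R i k * (sv x i - mean ν i)) ^ 2
        = ∑ i, ∑ j, (R i k * (sv x i - mean ν i)) * (R j k * (sv x j - mean ν j)) := by
      intro k
      rw [pow_two, Finset.sum_mul_sum]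
    have h4 : ∑ k, (∑ i, R i k * (sv x i - mean ν i)) ^ 2 = ∑ i, ∑ j, ∑ k,
        (R i k * (sv x i - mean ν i)) * (R j k * (sv x j - mean ν j)) := by
      rw [Finset.sum_congr rfl fun k _ => h3 k, Finset.sum_comm]
      refine Finset.sum_congr rfl fun i _ => ?_
      rw [Finset.sum_comm]
    rw [h4, Finset.mul_sum]
    refine Finset.sum_congr rfl fun i _ => ?_
    rw [Finset.mul_sum]
  rw [h]
  exact Finset.sum_nonneg fun x _ => mul_nonneg (hν x) (Finset.sum_nonneg fun _ _ => sq_nonneg _)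

theorem EC_nonneg {n m : ℕ} {ν : Cfg n → ℝ} (hν : ∀ x, 0 ≤ ν x)
    (R : Matrix (Fin n) (Fin m) ℝ) (δ : ℝ) {Φ : Cfg n → Vec n → ℝ} (h : ∀ x z, 0 ≤ Φ x z) :
    0 ≤ EC ν R δ Φ :=
  Finset.sum_nonneg fun x _ => mul_nonneg (hν x) (integral_nonneg fun _ => h x _)

/-- relative entropy with respect to the zero field Gibbs measure -/
theorem KL_gM {n : ℕ} (M : Mat n) {ν : Cfg n → ℝ} (hν : IsProb ν) (hpos : ∀ x, 0 < ν x) :
    KL ν (gM M 0) = Real.log (∑ x : Cfg n, Real.exp (qf M (sv x) / 2))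
      - Ex ν (fun x => qf M (sv x)) / 2 - HS ν := by
  have hZ : 0 < ∑ x : Cfg n, Real.exp (qf M (sv x) / 2) :=
    Finset.sum_pos (fun _ _ => Real.exp_pos _) ⟨fun _ => true, Finset.mem_univ _⟩
  have h0 : ∀ x : Cfg n, ip 0 (sv x) = 0 := fun x => by simp [ip]
  have h1 : ∀ x : Cfg n, gM M 0 x = Real.exp (qf M (sv x) / 2) /
      ∑ x : Cfg n, Real.exp (qf M (sv x) / 2) := by
    intro x
    unfold gM
    simp only [h0, add_zero]
  unfold KL
  have h2 : ∀ x : Cfg n, ν x * Real.log (ν x / gM M 0 x) =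
      ν x * Real.log (ν x) - ν x * qf M (sv x) / 2
        + ν x * Real.log (∑ x : Cfg n, Real.exp (qf M (sv x) / 2)) := by
    intro x
    rw [h1, Real.log_div (hpos x).ne' (div_pos (Real.exp_pos _) hZ).ne',
      Real.log_div (Real.exp_pos _).ne' hZ.ne', Real.log_exp]
    ring
  simp_rw [h2]
  rw [Finset.sum_add_distrib, Finset.sum_sub_distrib, ← Finset.sum_mul, hν.2, one_mul,
    ← Finset.sum_div]
  unfold HS Ex
  ring

/-- the pieces of the path with small `β - s` have small total weight -/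
theorem sum_cut {β r₀ : ℝ} (hβ : 0 ≤ β) (hr : 0 ≤ r₀) (N : ℕ) (hN : 1 ≤ N) :
    ∑ j ∈ Finset.range N, β / N * (if (j : ℝ) * (β / N) ≤ β - r₀ then (0 : ℝ) else 1) ≤ r₀ := by
  have hN' : (0 : ℝ) < N := by exact_mod_cast hN
  set g : ℝ → ℝ := fun s => max (β - r₀) s with hg
  have h1 : ∀ j ∈ Finset.range N, β / N * (if (j : ℝ) * (β / N) ≤ β - r₀ then (0 : ℝ) else 1)
      ≤ g (((j + 1 : ℕ) : ℝ) * (β / N)) - g ((j : ℝ) * (β / N)) := by
    intro j _
    have hb : 0 ≤ β / N := by positivity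
    have e : ((j + 1 : ℕ) : ℝ) * (β / N) = j * (β / N) + β / N := by push_cast; ring
    rw [e]
    split_ifs with h
    · rw [mul_zero, sub_nonneg]
      exact max_le_max le_rfl (by linarith only [hb])
    · push Not at h
      rw [hg]
      simp only
      rw [max_eq_right h.le, max_eq_right (by linarith only [h, hb])]
      linarith only []
  refine (Finset.sum_le_sum h1).trans ?_
  rw [Finset.sum_range_sub (fun j : ℕ => g ((j : ℝ) * (β / N)))]
  have e1 : (N : ℝ) * (β / N) = β := by field_simp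
  rw [e1]
  have h2 : g β = β := max_eq_right (by linarith only [hr])
  have h3 : β - r₀ ≤ g ((0 : ℕ) * (β / N)) := le_max_left _ _
  rw [h2]
  linarith only [h3]

/-- the contribution of the whole path -/
theorem path_sum {β r₀ ε₁ nn : ℝ} (hβ0 : 0 ≤ β) (hβ1 : β < 1) (hr₀0 : 0 ≤ r₀) (hε₁0 : 0 ≤ ε₁)
    (hnn : 0 ≤ nn) {N : ℕ} (hN1 : 1 ≤ N) (e : ℕ → ℝ) (he : ∀ j, 0 ≤ e j)
    (hA : ∀ j : ℕ, (j : ℝ) * (β / N) ≤ β - r₀ →
      nn * (4 * (1 - qF β 4 (j * (β / N))) +
        (β - j * (β / N)) * (1 - qF β 4 (j * (β / N))) ^ 2 - ε₁) ≤ e j) :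
    nn * (iS (β ^ 2 + β * 4) - β ^ 2 / 4 - β / 2 * ε₁ - 5 / 2 * r₀) ≤
      ∑ j ∈ Finset.range N, β / N / 2 * e j := by
  have hNR : (0 : ℝ) < N := by exact_mod_cast hN1
  have hterm : ∀ j ∈ Finset.range N,
      nn * (β / N / 2 * (4 * (1 - qF β 4 (j * (β / N))) +
        (β - j * (β / N)) * (1 - qF β 4 (j * (β / N))) ^ 2)
        - β / N / 2 * ε₁
        - 5 / 2 * (β / N * (if (j : ℝ) * (β / N) ≤ β - r₀ then (0 : ℝ) else 1)))
      ≤ β / N / 2 * e j := by
    intro j hj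
    have hjN : (j : ℝ) ≤ N := by exact_mod_cast (Finset.mem_range.1 hj).le
    have hs0 : 0 ≤ (j : ℝ) * (β / N) := by positivity
    have hsβ : (j : ℝ) * (β / N) ≤ β := by
      rw [mul_div_assoc', div_le_iff₀ hNR]
      (by_contra nlg; linarith only [mul_nonneg (le_of_lt (sub_pos.2 (not_le.1 nlg))) (sub_nonneg.2 hβ0), mul_pos (sub_pos.2 (not_le.1 nlg)) (sub_pos.2 hβ1), mul_nonneg (sub_nonneg.2 hβ0) (sub_nonneg.2 hjN)])
    have hb : 0 ≤ β / N / 2 := by positivity
    split_ifs with h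
    · have h2 := mul_le_mul_of_nonneg_left (hA j h) hb
      refine le_trans (le_of_eq ?_) h2
      ring
    · have hq := qF_spec hs0 hsβ (by norm_num : (0 : ℝ) ≤ 4)
      have hf : 4 * (1 - qF β 4 (j * (β / N))) +
        (β - j * (β / N)) * (1 - qF β 4 (j * (β / N))) ^ 2 ≤ 5 := by
        have h2 : (1 - qF β 4 (j * (β / N))) ^ 2 ≤ 1 := by
          have := hq.1
          have := hq.2.1
          nlinarith
        have h3 : (β - j * (β / N)) * (1 - qF β 4 (j * (β / N))) ^ 2 ≤ 1 * 1 :=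
          mul_le_mul (by linarith only [hβ1, hs0]) h2 (sq_nonneg _) (by norm_num)
        have := hq.1
        linarith only [this, h3]
      have h6 : 0 ≤ β / N / 2 * e j := mul_nonneg hb (he j)
      refine le_trans ?_ h6
      have h7 : β / N / 2 * (4 * (1 - qF β 4 (j * (β / N))) +
        (β - j * (β / N)) * (1 - qF β 4 (j * (β / N))) ^ 2) ≤ β / N / 2 * 5 :=
        mul_le_mul_of_nonneg_left hf hb
      have h8 : 0 ≤ β / N / 2 * ε₁ := mul_nonneg hb hε₁0
      have h9 : β / N / 2 * (4 * (1 - qF β 4 (j * (β / N))) +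
        (β - j * (β / N)) * (1 - qF β 4 (j * (β / N))) ^ 2)
        - β / N / 2 * ε₁ - 5 / 2 * (β / N * 1) ≤ 0 := by linarith only [h8, h7]
      exact mul_nonpos_of_nonneg_of_nonpos hnn h9
  have hsum := Finset.sum_le_sum hterm
  rw [← Finset.mul_sum, Finset.sum_sub_distrib, Finset.sum_sub_distrib] at hsum
  have hrs := rs_calc hβ0 hβ1 (by norm_num : (0 : ℝ) ≤ 4) hN1
  have hcut : ∑ j ∈ Finset.range N,
      5 / 2 * (β / N * (if (j : ℝ) * (β / N) ≤ β - r₀ then (0 : ℝ) else 1)) ≤ 5 / 2 * r₀ := by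
    rw [← Finset.mul_sum]
    exact mul_le_mul_of_nonneg_left (sum_cut hβ0 hr₀0 N hN1) (by norm_num)
  have hconst : ∑ _j ∈ Finset.range N, β / N / 2 * ε₁ = β / 2 * ε₁ := by
    rw [Finset.sum_const, Finset.card_range, nsmul_eq_mul]
    field_simp
  rw [hconst] at hsum
  refine le_trans ?_ hsum
  refine mul_le_mul_of_nonneg_left ?_ hnn
  linarith only [hcut, hrs]

theorem d3m_arith {N β ε₁ H E Z L : ℝ} (hN : 1 ≤ N) (hβ1 : β ≤ 1) (hε : 0 < ε₁)
    (hH : N * (L - β ^ 2 / 4 - β / 2 * ε₁ - 5 / 2 * (ε₁ / 5) - ε₁) - ε₁ ≤ H)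
    (hZ : Z ≤ N * (L + β ^ 2 / 4 + ε₁)) (hE : -(ε₁ * N) ≤ E - β ^ 2 * N) :
    Z - E / 2 - H ≤ 10 * ε₁ * N := by
  have h11 : N * (β / 2 * ε₁) ≤ N * (1 / 2 * ε₁) :=
    mul_le_mul_of_nonneg_left (mul_le_mul_of_nonneg_right (by linarith only [hβ1]) hε.le) (by linarith only [hN])
  have h12 : ε₁ ≤ N * ε₁ := by linarith only [mul_nonneg (sub_nonneg.2 hN) (le_of_lt (sub_pos.2 hε))]
  have e1 : N * (L - β ^ 2 / 4 - β / 2 * ε₁ - 5 / 2 * (ε₁ / 5) - ε₁) =
    N * L - N * β ^ 2 / 4 - N * (β / 2 * ε₁) - 3 / 2 * (N * ε₁) := by ring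
  have e2 : N * (L + β ^ 2 / 4 + ε₁) = N * L + N * β ^ 2 / 4 + N * ε₁ := by ring
  have e3 : β ^ 2 * N = N * β ^ 2 := by ring
  have e4 : ε₁ * N = N * ε₁ := by ring
  have e5 : 10 * ε₁ * N = 10 * (N * ε₁) := by ring
  rw [e1] at hH
  rw [e2] at hZ
  rw [e3, e4] at hE
  rw [e5]
  have h13 : 0 < N * ε₁ := by positivity
  linarith only [h13, h12, h11, hE, hZ, hH]

theorem d3m_of (h1 : D3M1) (h23 : D3M23) (h4 : D3M4) (h5 : D3M5) (hd : CH5d) :
    D3MStatement := by
  intro β hβ0 hβ1 I F n J hG ε hε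
  set ε₁ : ℝ := ε / 10 with hε₁
  have hε₁0 : 0 < ε₁ := by positivity
  have hr₀0 : 0 < ε₁ / 5 := by positivity
  obtain ⟨η1, hη1, hA⟩ := h23 β hβ0 hβ1 4 le_rfl F n J hG (ε₁ / 5) hr₀0 ε₁ hε₁0
  obtain ⟨η2, hη2, hB⟩ := h4 β hβ0 hβ1 4 le_rfl F n J hG ε₁ hε₁0
  obtain ⟨η3, hη3, hC⟩ := h5 β hβ0 hβ1 F n J hG ε₁ hε₁0
  refine ⟨min η1 (min η2 (η3 / 4)), lt_min hη1 (lt_min hη2 (by positivity)), ?_⟩
  have hn1 : ∀ᶠ i in F, 1 ≤ n i := hG.hn.eventually_ge_atTop 1
  filter_upwards [hA, hB, hC, hG.logZ ε₁ hε₁0, hG.op 1 one_pos, hn1] with i hA hB hC hZ hop hn1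
  intro ν hν hpos hI
  have hnR : (1 : ℝ) ≤ n i := by exact_mod_cast hn1
  have hnn : (0 : ℝ) ≤ n i := by linarith only [hnR]
  have hI1 : IP' ν (gM (β • J i) 0) ≤ η1 * n i :=
    hI.trans (mul_le_mul_of_nonneg_right (min_le_left _ _) hnn)
  have hI2 : IP' ν (gM (β • J i) 0) ≤ η2 * n i :=
    hI.trans (mul_le_mul_of_nonneg_right ((min_le_right _ _).trans (min_le_left _ _)) hnn)
  have hI3 : IP' ν (gM (β • J i) 0) ≤ η3 / 4 * n i :=
    hI.trans (mul_le_mul_of_nonneg_right ((min_le_right _ _).trans (min_le_right _ _)) hnn)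
  have hsymm : ∀ a b, (β • J i) a b = (β • J i) b a := fun a b => by
    rw [Matrix.smul_apply, Matrix.smul_apply, hG.symm i a b]
  have hdlr : dlr (β • J i) 0 ν ≤ η3 * n i := by
    have := hd (n i) (β • J i) 0 hsymm ν hν hpos
    linarith only [hI3, this]
  have hen := hC ν hν hdlr
  obtain ⟨R, hR⟩ := exists_sqrt (hG.symm i) (by norm_num : (0 : ℝ) ≤ 2 + 1) hop
    (by norm_num : (2 + 1 : ℝ) ≤ 4)
  obtain ⟨N₀, hN₀⟩ := h1 (n i) (n i) R β hβ0 ν hν ε₁ hε₁0
  have hpath := hN₀ (max N₀ 1) (le_max_left _ _) (le_max_right _ _)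
  have hend := hB R hR ν hν hpos hI2
  have hsum2 := path_sum hβ0 hβ1 hr₀0.le hε₁0.le hnn (le_max_right N₀ 1)
    (fun j => EC ν R (j * (β / (max N₀ 1 : ℕ)))
      (fun _ y => trQ (R * Rᵀ) (pst ν (R * Rᵀ) (j * (β / (max N₀ 1 : ℕ))) y)))
    (fun j => EC_nonneg hν.1 R _ fun x z => trQ_nonneg R (pst_isProb hν _ _ z).1)
    (fun j hj => hA _ (by (clear * - hβ0; positivity)) hj R hR ν hν hpos hI1)
  have hHS : n i * (Real.log 2 - β ^ 2 / 4 - β / 2 * ε₁ - 5 / 2 * (ε₁ / 5) - ε₁) - ε₁ ≤ HS ν := by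
    have e : n i * (Real.log 2 - β ^ 2 / 4 - β / 2 * ε₁ - 5 / 2 * (ε₁ / 5) - ε₁) =
      n i * (iS (β ^ 2 + β * 4) - β ^ 2 / 4 - β / 2 * ε₁ - 5 / 2 * (ε₁ / 5)) +
      n i * (Real.log 2 - iS (β ^ 2 + β * 4) - ε₁) := by ring
    rw [e]
    linarith only [hsum2, hend, hpath]
  have hqf : ∀ x : Cfg (n i), qf (β • J i) (sv x) = β * qf (J i) (sv x) := by
    intro x
    unfold qf
    rw [Matrix.smul_mulVec]
    unfold ip
    rw [Finset.mul_sum]
    exact Finset.sum_congr rfl fun a _ => by rw [Pi.smul_apply, smul_eq_mul]; ring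
  have hZ2 : Real.log (∑ x : Cfg (n i), Real.exp (qf (β • J i) (sv x) / 2)) ≤
      n i * (Real.log 2 + β ^ 2 / 4 + ε₁) := by
    have : ∀ x : Cfg (n i), qf (β • J i) (sv x) / 2 = β / 2 * qf (J i) (sv x) := by
      intro x; rw [hqf]; ring
    simp_rw [this]
    exact hZ
  have hE2 : Ex ν (fun x => qf (β • J i) (sv x)) = β * Ex ν (fun x => qf (J i) (sv x)) := by
    unfold Ex
    rw [Finset.mul_sum]
    exact Finset.sum_congr rfl fun x _ => by simp only [hqf]; ring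
  rw [KL_gM (β • J i) hν hpos, hE2]
  have e11 : ε = 10 * ε₁ := by rw [hε₁]; ring
  rw [e11]
  exact d3m_arith hnR hβ1.le hε₁0 hHS hZ2 (abs_le.1 hen).1

end Vale.Agent.P150.F
end

section

/-! P150 FULL, D3M5: the energy of near-DLR laws in zero field (helper460). -/

open MeasureTheory ProbabilityTheory Filter Topology Real
open scoped Matrix

namespace Vale.Agent.P150.F

namespace M5

/-- the hypotheses of D3b at `s = 0` for a product law -/
theorem jhyp_zero {β κ : ℝ} (hκ : 0 ≤ κ) {I : Type} {F : Filter I} {n : I → ℕ}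
    {J : ∀ i, Mat (n i)} (hG : Good β F n J) {η : ℝ} (hη : 0 < η) :
    ∀ᶠ i in F, ∀ (m : ℕ) (R : Matrix (Fin (n i)) (Fin m) ℝ) (ν : Cfg (n i) → ℝ),
      R * Rᵀ = J i + κ • (1 : Mat (n i)) → IsProb ν → dlr (β • J i) 0 ν ≤ η * n i →
      D3.JHyp β κ (J i) R 0 κ η (fun x _ => ν x) := by
  have hlim : Tendsto (fun i => 2 * ((1 / η * √(3 + κ) + 1) / √(n i : ℝ))) F (𝓝 0) := by
    have h1 : Tendsto (fun i => √(n i : ℝ)) F atTop :=
      Real.tendsto_sqrt_atTop.comp (tendsto_natCast_atTop_atTop.comp hG.hn)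
    have h2 := (tendsto_const_nhds (x := 1 / η * √(3 + κ) + 1)).div_atTop h1
    simpa using h2.const_mul 2
  filter_upwards [hG.op 1 one_pos, hlim.eventually (ge_mem_nhds hη), hG.hn.eventually_gt_atTop 0]
    with i hop hsmall hn m R ν hR hν hd
  have hop' : OpLe (R * Rᵀ) (3 + κ) := by
    rw [hR]
    have : (2 : ℝ) + 1 = 3 := by norm_num
    rw [this] at hop
    exact D3.opLe_add_smul_one (by norm_num) hκ hop
  have hdiag : ∀ j, (R * Rᵀ) j j = κ := by
    intro j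
    rw [hR]
    simp [hG.diag i j]
  have hd2 : ∫ ξ, dlr ((β - 0) • J i) (√0 • R.mulVec ξ) (fun x => D3.shw R 0
      (fun x (_ : Fin m → ℝ) => ν x) x ξ) ∂(gpi (Fin m)) ≤ η * n i := by
    have h1 : ∀ ξ : Fin m → ℝ, dlr ((β - 0) • J i) (√0 • R.mulVec ξ) (fun x => D3.shw R 0
        (fun x (_ : Fin m → ℝ) => ν x) x ξ) = dlr (β • J i) 0 ν := by
      intro ξ
      have h2 : (fun x => D3.shw R 0 (fun x (_ : Fin m → ℝ) => ν x) x ξ) = ν := by
        funext x
        simp [D3.shw]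
      rw [h2, Real.sqrt_zero, zero_smul, sub_zero]
    simp_rw [h1]
    simpa using hd
  exact
    { law := D3.JL.pw (m := m) hν
      hR := hR
      J1 := by simpa using hd
      J2 := hd2
      J3c := fun θ ε hθ hε =>
        ((D3.J3_pw hop' (by positivity) hdiag hn hν hε hθ).1).trans hsmall
      J3s := fun θ ε hθ hε =>
        ((D3.J3_pw hop' (by positivity) hdiag hn hν hε hθ).2).trans hsmall
      J4i := fun x => (TP.integrable_sq_R R).const_mul _
      J4 := (D3.J4_pw hdiag hν).le }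

/-- the test function: `f σ a = σ a` for `|σ| ≤ 1` -/
noncomputable def tf (σ a : ℝ) : ℝ := max (-1) (min 1 σ) * a

theorem tf_cont (σ : ℝ) : Continuous (tf σ) := by
  unfold tf
  fun_prop

theorem tf_bd (σ a : ℝ) : |tf σ a| ≤ 1 * (1 + |a|) := by
  unfold tf
  rw [abs_mul]
  have h1 : |max (-1) (min 1 σ)| ≤ 1 := by
    rw [abs_le]
    exact ⟨le_max_left _ _, max_le (by norm_num) (min_le_left _ _)⟩
  have := mul_le_mul_of_nonneg_right h1 (abs_nonneg a)
  linarith

theorem tf_eq {σ : ℝ} (hσ : σ = 1 ∨ σ = -1) (a : ℝ) : tf σ a = σ * a := by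
  unfold tf
  rcases hσ with rfl | rfl <;> norm_num

theorem NEs_tf {σ : ℝ} (hσ : σ = 1 ∨ σ = -1) (g : ℝ) : D3.NEs tf g σ = g := by
  unfold D3.NEs
  simp_rw [tf_eq hσ]
  have h1 : Integrable (fun z : ℝ => z) gm1 := by
    have := (memLp_id_gaussianReal (μ := 0) (v := 1) 1).integrable le_rfl
    exact this
  have h2 : ∫ z : ℝ, z ∂gm1 = 0 := integral_id_gaussianReal
  rw [integral_const_mul, integral_add (integrable_const _) (h1.const_mul _),
    integral_const_mul (√g), h2]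
  rcases hσ with rfl | rfl <;> simp

end M5

/-- D3M5 from D3bH at `s = 0` -/
theorem d3m5_of_H (hb : ∀ β κ : ℝ, 0 ≤ β → β < 1 → 4 ≤ κ → D3.D3bH β κ) : D3M5 := by
  intro β hβ0 hβ1 I F n J hG ε hε
  obtain ⟨η, hη, h⟩ := hb β 4 hβ0 hβ1 le_rfl F n J hG M5.tf 1 M5.tf_cont M5.tf_bd 4 ε hε
  refine ⟨η, hη, ?_⟩
  filter_upwards [h, M5.jhyp_zero (κ := 4) (by norm_num) hG hη, hG.op 1 one_pos,
    hG.hn.eventually_gt_atTop 0] with i hi hj hop hn ν hν hd
  have hn' : (0 : ℝ) < n i := by exact_mod_cast hn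
  obtain ⟨R, hR⟩ := exists_sqrt (hG.symm i) (C := 3) (by norm_num) (by
    have : (2 : ℝ) + 1 = 3 := by norm_num
    rwa [this] at hop) (κ := 4) (by norm_num)
  have h1 := hi (n i) R 0 (fun x _ => ν x) ⟨le_rfl, hβ0⟩ (hj (n i) R ν hR hν hd)
  have h2 : D3.EJ (m := n i) (fun x _ => ν x) (fun x _ => |(∑ j, (M5.tf (sv x j)
      ((β • J i).mulVec (sv x) j) - D3.NEs M5.tf (β ^ 2) (sv x j))) / n i|) =
      ∑ x, ν x * |(β * qf (J i) (sv x) - β ^ 2 * n i) / n i| := by
    unfold D3.EJ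
    apply Finset.sum_congr rfl
    intro x _
    rw [integral_const]
    simp only [measureReal_def, measure_univ, ENNReal.toReal_one, one_smul]
    congr 3
    have h3 : ∀ j, M5.tf (sv x j) ((β • J i).mulVec (sv x) j) - D3.NEs M5.tf (β ^ 2) (sv x j) =
        β * (sv x j * (J i).mulVec (sv x) j) - β ^ 2 := by
      intro j
      have hs : sv x j = 1 ∨ sv x j = -1 := by
        unfold sv sp
        cases x j <;> simp
      rw [M5.NEs_tf hs, M5.tf_eq hs, Matrix.smul_mulVec, Pi.smul_apply, smul_eq_mul]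
      ring
    rw [Finset.sum_congr rfl fun j _ => h3 j, Finset.sum_sub_distrib, ← Finset.mul_sum]
    simp only [Finset.sum_const, Finset.card_univ, Fintype.card_fin, nsmul_eq_mul]
    unfold qf ip
    ring
  rw [h2] at h1
  have h4 : β * Ex ν (fun x => qf (J i) (sv x)) - β ^ 2 * n i =
      n i * ∑ x, ν x * ((β * qf (J i) (sv x) - β ^ 2 * n i) / n i) := by
    unfold Ex
    have h5 : ∀ x, ν x * ((β * qf (J i) (sv x) - β ^ 2 * n i) / n i) =
        (β / n i) * (ν x * qf (J i) (sv x)) - β ^ 2 * ν x := by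
      intro x
      field_simp
    rw [Finset.sum_congr rfl fun x _ => h5 x, Finset.sum_sub_distrib, ← Finset.mul_sum,
      ← Finset.mul_sum, hν.2]
    field_simp
  rw [h4, abs_mul, abs_of_pos hn', mul_comm]
  apply mul_le_mul_of_nonneg_right _ hn'.le
  refine (Finset.abs_sum_le_sum_abs _ _).trans (le_trans (le_of_eq ?_) h1)
  apply Finset.sum_congr rfl
  intro x _
  rw [abs_mul, abs_of_nonneg (hν.1 x)]

/-- D3M5 from D3b -/
theorem d3m5_of (hb : D3.D3bStatement) : D3M5 :=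
  d3m5_of_H fun β κ h0 h1 h2 => (hb β κ h0 h1 h2).2.2.1

end Vale.Agent.P150.F
end
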