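import Mathlib
import Vale.Agent.P150.Bdl.B1
import Vale.Agent.P150.Bdl.B27
import Vale.Agent.P150.Bdl.B15
import Vale.Agent.P150.Bdl.B3
import Vale.Agent.P150.Bdl.B11
import Vale.Agent.P150.Bdl.B19
import Vale.Agent.P150.Bdl.B9
import Vale.Agent.P150.Bdl.B8

set_option linter.all false

section

open Finset

namespace Vale.Agent.P150

/-- linear observable -/
noncomputable def linObs {n : ℕ} (v : Fin n → ℝ) (x : Cfg n) : ℝ := ∑ i, v i * sp (x i)

lemma energy_add_field {n : ℕ} (J : Fin n → Fin n → ℝ) (b v : Fin n → ℝ) (x : Cfg n) :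
    energy J (fun i => b i + v i) x = energy J b x + linObs v x := by
  unfold energy linObs
  simp only [add_mul, Finset.sum_add_distrib]
  ring

/-- Gibbs weights with tilted field -/
lemma gibbs_tilt {n : ℕ} (J : Fin n → Fin n → ℝ) (b v : Fin n → ℝ) (r : ℝ) (x : Cfg n) :
    gibbs J (fun i => b i + r * v i) x
      = Real.exp (energy J b x + r * linObs v x)
        / ∑ y, Real.exp (energy J b y + r * linObs v y) := by
  unfold gibbs
  have : ∀ y, energy J (fun i => b i + r * v i) y = energy J b y + r * linObs v y := by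
    intro y
    rw [energy_add_field J b (fun i => r * v i) y]
    unfold linObs
    rw [Finset.mul_sum]
    congr 1
    apply Finset.sum_congr rfl; intro i _; ring
  simp only [this]

lemma var_eq {n : ℕ} (J : Fin n → Fin n → ℝ) (b : Fin n → ℝ) (g : Cfg n → ℝ) :
    var J b g = ex J b (fun x => g x ^ 2) - (ex J b g) ^ 2 := by
  unfold var ex
  set m := ∑ x, gibbs J b x * g x with hm
  have h1 : ∀ x, gibbs J b x * (g x - m) ^ 2
      = gibbs J b x * g x ^ 2 - 2 * m * (gibbs J b x * g x) + m ^ 2 * gibbs J b x := by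
    intro x; ring
  simp only [h1, Finset.sum_add_distrib, Finset.sum_sub_distrib, ← Finset.mul_sum, gibbs_sum,
    ← hm]
  ring

/-- quadratic upper bound of the log moment generating function under a uniform variance bound -/
theorem log_mgf_le {n : ℕ} (J : Fin n → Fin n → ℝ) (b v : Fin n → ℝ) (C : ℝ)
    (hC : ∀ r : ℝ, var J (fun i => b i + r * v i) (linObs v) ≤ C) {r : ℝ} (hr : 0 ≤ r) :
    Real.log (ex J b (fun x => Real.exp (r * linObs v x)))
      ≤ r * ex J b (linObs v) + 1 / 2 * C * r ^ 2 := by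
  let S0 : ℝ → ℝ := fun r => ∑ x, Real.exp (energy J b x + r * linObs v x)
  let S1 : ℝ → ℝ := fun r => ∑ x, linObs v x * Real.exp (energy J b x + r * linObs v x)
  let S2 : ℝ → ℝ := fun r => ∑ x, linObs v x ^ 2 * Real.exp (energy J b x + r * linObs v x)
  have hS0pos : ∀ r, 0 < S0 r := fun r =>
    Finset.sum_pos (fun _ _ => Real.exp_pos _) Finset.univ_nonempty
  have hd : ∀ (x : Cfg n) (r : ℝ), HasDerivAt (fun r => Real.exp (energy J b x + r * linObs v x))
      (Real.exp (energy J b x + r * linObs v x) * linObs v x) r := by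
    intro x r
    have h := (((hasDerivAt_id r).mul_const (linObs v x)).const_add (energy J b x)).exp
    refine h.congr_deriv ?_
    simp
  have hS0 : ∀ r, HasDerivAt S0 (S1 r) r := by
    intro r
    refine (HasDerivAt.fun_sum (u := Finset.univ) (fun x _ => hd x r)).congr_deriv ?_
    apply Finset.sum_congr rfl; intro x _; ring
  have hS1 : ∀ r, HasDerivAt S1 (S2 r) r := by
    intro r
    refine (HasDerivAt.fun_sum (u := Finset.univ)
      (fun x _ => (hd x r).const_mul (linObs v x))).congr_deriv ?_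
    apply Finset.sum_congr rfl; intro x _; ring
  have hex : ∀ (φ : Cfg n → ℝ) r, ex J (fun i => b i + r * v i) φ
      = (∑ x, φ x * Real.exp (energy J b x + r * linObs v x)) / S0 r := by
    intro φ r
    unfold ex
    rw [Finset.sum_div]
    apply Finset.sum_congr rfl; intro x _
    rw [gibbs_tilt]; ring
  have hvar : ∀ r, var J (fun i => b i + r * v i) (linObs v) = S2 r / S0 r - (S1 r / S0 r) ^ 2 := by
    intro r
    rw [var_eq, hex, hex]
  have hψ1 : ∀ r, HasDerivAt (fun r => S1 r / S0 r)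
      (var J (fun i => b i + r * v i) (linObs v)) r := by
    intro r
    rw [hvar]
    refine ((hS1 r).div (hS0 r) (hS0pos r).ne').congr_deriv ?_
    have := (hS0pos r).ne'
    field_simp
  -- θ' ≥ 0
  have hθ1 : ∀ r, 0 ≤ r → S1 r / S0 r ≤ S1 0 / S0 0 + C * r := by
    intro r hr
    have hder : ∀ t, HasDerivAt (fun r => C * r - S1 r / S0 r)
        (C - var J (fun i => b i + t * v i) (linObs v)) t := by
      intro t
      refine (((hasDerivAt_id t).const_mul C).sub (hψ1 t)).congr_deriv ?_
      simp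
    have hmono : MonotoneOn (fun r => C * r - S1 r / S0 r) (Set.Ici 0) := by
      apply monotoneOn_of_deriv_nonneg (convex_Ici _)
      · intro t _
        exact (hder t).continuousAt.continuousWithinAt
      · intro t _
        exact (hder t).differentiableAt.differentiableWithinAt
      · intro t _
        rw [(hder t).deriv]
        have := hC t
        linarith
    have := hmono (Set.mem_Ici.2 (le_refl _)) (Set.mem_Ici.2 hr) hr
    simp only [mul_zero, zero_sub] at this
    linarith
  have hlog : ∀ r, HasDerivAt (fun r => Real.log (S0 r)) (S1 r / S0 r) r := fun r =>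
    (hS0 r).log (hS0pos r).ne'
  have hmono2 : MonotoneOn (fun r => (S1 0 / S0 0) * r + 1 / 2 * C * r ^ 2 - Real.log (S0 r))
      (Set.Ici 0) := by
    have hder : ∀ t, HasDerivAt (fun r => (S1 0 / S0 0) * r + 1 / 2 * C * r ^ 2 - Real.log (S0 r))
        (S1 0 / S0 0 + C * t - S1 t / S0 t) t := by
      intro t
      have h1 := (((hasDerivAt_id t).const_mul (S1 0 / S0 0)).add
        (((hasDerivAt_id t).pow 2).const_mul (1 / 2 * C))).sub (hlog t)
      refine h1.congr_deriv ?_
      simp
      ring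
    apply monotoneOn_of_deriv_nonneg (convex_Ici _)
    · intro t _
      exact (hder t).continuousAt.continuousWithinAt
    · intro t _
      exact (hder t).differentiableAt.differentiableWithinAt
    · intro t ht
      rw [interior_Ici] at ht
      rw [(hder t).deriv]
      have := hθ1 t (le_of_lt ht)
      linarith only [this]
  have h2 := hmono2 (Set.mem_Ici.2 (le_refl _)) (Set.mem_Ici.2 hr) hr
  simp only [mul_zero, zero_add] at h2
  have hlogex : Real.log (ex J b (fun x => Real.exp (r * linObs v x)))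
      = Real.log (S0 r) - Real.log (S0 0) := by
    have h3 : ex J b (fun x => Real.exp (r * linObs v x)) = S0 r / S0 0 := by
      have h4 := hex (fun x => Real.exp (r * linObs v x)) 0
      simp only [zero_mul, add_zero] at h4
      rw [h4]
      congr 1
      apply Finset.sum_congr rfl; intro x _
      rw [← Real.exp_add]; congr 1; ring
    rw [h3, Real.log_div (hS0pos r).ne' (hS0pos 0).ne']
  have hex0 : ex J b (linObs v) = S1 0 / S0 0 := by
    have h4 := hex (linObs v) 0
    simp only [zero_mul, add_zero] at h4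
    rw [h4]
    simp [S1]
  rw [hlogex, hex0]
  linarith only [h2]

/-- Gibbs variational principle -/
theorem gibbs_variational {n : ℕ} (J : Fin n → Fin n → ℝ) (b : Fin n → ℝ) (f h : Cfg n → ℝ)
    (hf : ∀ x, 0 < f x) :
    ex J b (fun x => f x * h x) ≤ (ex J b (fun x => f x * Real.log (f x))
      - ex J b f * Real.log (ex J b f)) + ex J b f * Real.log (ex J b (fun x => Real.exp (h x))) := by
  have hexf : 0 < ex J b f := Finset.sum_pos (fun x _ => mul_pos (gibbs_pos J b x) (hf x))
    Finset.univ_nonempty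
  have hM : 0 < ex J b (fun x => Real.exp (h x)) :=
    Finset.sum_pos (fun x _ => mul_pos (gibbs_pos J b x) (Real.exp_pos _)) Finset.univ_nonempty
  set F := ex J b f with hF
  set M := ex J b (fun x => Real.exp (h x)) with hMdef
  have key : ∀ x, f x - F * Real.exp (h x) / M
      ≤ f x * Real.log (f x) - f x * Real.log F - f x * h x + f x * Real.log M := by
    intro x
    have hw : 0 < F * Real.exp (h x) / M := by positivity
    have h1 := Real.one_sub_inv_le_log_of_pos (div_pos (hf x) hw)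
    have h2 := mul_le_mul_of_nonneg_left h1 (hf x).le
    have h3 : f x * (1 - (f x / (F * Real.exp (h x) / M))⁻¹) = f x - F * Real.exp (h x) / M := by
      have := (hf x).ne'
      field_simp
    have h4 : Real.log (f x / (F * Real.exp (h x) / M))
        = Real.log (f x) - (Real.log F + h x - Real.log M) := by
      rw [Real.log_div (hf x).ne' hw.ne', Real.log_div (by positivity) hM.ne',
        Real.log_mul hexf.ne' (Real.exp_pos _).ne', Real.log_exp]
    rw [h3, h4] at h2
    linarith only [h2]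
  have hsum := Finset.sum_le_sum (fun x (_ : x ∈ Finset.univ) =>
    mul_le_mul_of_nonneg_left (key x) (gibbs_pos J b x).le)
  have hL : ∑ x, gibbs J b x * (f x - F * Real.exp (h x) / M) = 0 := by
    have : ∀ x, gibbs J b x * (f x - F * Real.exp (h x) / M)
        = gibbs J b x * f x - F / M * (gibbs J b x * Real.exp (h x)) := by intro x; ring
    simp only [this, Finset.sum_sub_distrib, ← Finset.mul_sum]
    have e1 : ∑ x, gibbs J b x * f x = F := rfl
    have e2 : ∑ x, gibbs J b x * Real.exp (h x) = M := rfl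
    rw [e1, e2]
    field_simp
    ring
  have hR : ∑ x, gibbs J b x * (f x * Real.log (f x) - f x * Real.log F - f x * h x
      + f x * Real.log M)
      = ex J b (fun x => f x * Real.log (f x)) - F * Real.log F
        - ex J b (fun x => f x * h x) + F * Real.log M := by
    have : ∀ x, gibbs J b x * (f x * Real.log (f x) - f x * Real.log F - f x * h x
      + f x * Real.log M)
      = gibbs J b x * (f x * Real.log (f x)) - Real.log F * (gibbs J b x * f x)
        - gibbs J b x * (f x * h x) + Real.log M * (gibbs J b x * f x) := by intro x; ring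
    simp only [this, Finset.sum_add_distrib, Finset.sum_sub_distrib, ← Finset.mul_sum]
    have e1 : ∑ x, gibbs J b x * f x = F := rfl
    rw [e1]
    unfold ex
    ring
  rw [hL, hR] at hsum
  linarith only [hsum]

/-- entropic stability -/
theorem mean_shift_le {n : ℕ} (J : Fin n → Fin n → ℝ) (b : Fin n → ℝ) (K : ℝ) (hK0 : 0 < K)
    (hK : ∀ (b' v : Fin n → ℝ), var J b' (linObs v) ≤ K * ∑ i, v i ^ 2)
    (f : Cfg n → ℝ) (hf : ∀ x, 0 < f x) :
    ex J b f * ∑ i, (ex J b (fun x => f x * sp (x i)) / ex J b f - ex J b (fun x => sp (x i))) ^ 2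
      ≤ 2 * K * (ex J b (fun x => f x * Real.log (f x)) - ex J b f * Real.log (ex J b f)) := by
  have hexf : 0 < ex J b f := Finset.sum_pos (fun x _ => mul_pos (gibbs_pos J b x) (hf x))
    Finset.univ_nonempty
  set F := ex J b f with hF
  let v : Fin n → ℝ := fun i => ex J b (fun x => f x * sp (x i)) / F - ex J b (fun x => sp (x i))
  have h1 := gibbs_variational J b f (fun x => (1 / K) * linObs v x) hf
  have h2 := log_mgf_le J b v (K * ∑ i, v i ^ 2) (fun r => hK _ v) (r := 1 / K) (by positivity)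
  rw [← hF] at h1
  have h3 := mul_le_mul_of_nonneg_left h2 hexf.le
  have e1 : ex J b (linObs v) = ∑ i, v i * ex J b (fun x => sp (x i)) := by
    unfold ex linObs
    simp only [Finset.mul_sum]
    rw [Finset.sum_comm]
    apply Finset.sum_congr rfl; intro i _
    apply Finset.sum_congr rfl; intro x _; ring
  have e2 : ex J b (fun x => f x * (1 / K * linObs v x))
      = 1 / K * ∑ i, v i * ex J b (fun x => f x * sp (x i)) := by
    unfold ex linObs
    simp only [Finset.mul_sum]
    rw [Finset.sum_comm]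
    apply Finset.sum_congr rfl; intro i _
    apply Finset.sum_congr rfl; intro x _; ring
  have e3 : ∑ i, v i ^ 2 * F = ∑ i, v i * ex J b (fun x => f x * sp (x i))
      - F * ∑ i, v i * ex J b (fun x => sp (x i)) := by
    rw [Finset.mul_sum, ← Finset.sum_sub_distrib]
    apply Finset.sum_congr rfl; intro i _
    have : v i * F = ex J b (fun x => f x * sp (x i)) - F * ex J b (fun x => sp (x i)) := by
      simp only [v]
      field_simp
    calc v i ^ 2 * F = v i * (v i * F) := by ring
      _ = _ := by rw [this]; ring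
  rw [e2] at h1
  rw [e1] at h3
  have e4 : F * ∑ i, v i ^ 2 = ∑ i, v i ^ 2 * F := by
    rw [Finset.mul_sum]; apply Finset.sum_congr rfl; intro i _; ring
  change F * ∑ i, v i ^ 2 ≤ _
  rw [e4, e3]
  rw [← e4] at e3
  set a := ∑ i, v i * ex J b (fun x => f x * sp (x i))
  set c := ∑ i, v i * ex J b (fun x => sp (x i))
  set q := ∑ i, v i ^ 2
  set E := ex J b (fun x => f x * Real.log (f x)) - F * Real.log F
  set L := Real.log (ex J b (fun x => Real.exp (1 / K * linObs v x)))
  have h5 : 1 / K * a ≤ E + F * (1 / K * c + 1 / 2 * (K * q) * (1 / K) ^ 2) := by linarith only [h1, h3]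
  have h6 := mul_le_mul_of_nonneg_left h5 hK0.le
  have h7 : K * (1 / K * a) = a := by field_simp
  have h8 : K * (E + F * (1 / K * c + 1 / 2 * (K * q) * (1 / K) ^ 2))
      = K * E + F * c + 1 / 2 * (F * q) := by
    field_simp
    ring
  rw [h7, h8, e3] at h6
  linarith only [h6]

end Vale.Agent.P150
end

section

open Finset

namespace Vale.Agent.P150

/-- entropy of a positive function under the Gibbs measure -/
noncomputable def entG {n : ℕ} (J : Fin n → Fin n → ℝ) (b : Fin n → ℝ) (f : Cfg n → ℝ) : ℝ :=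
  ex J b (fun x => f x * Real.log (f x)) - ex J b f * Real.log (ex J b f)

namespace Chan

variable {n : ℕ}

noncomputable def xiB (B : Fin n → Fin n → ℝ) (x : Cfg n) (k : Fin n) : ℝ := ∑ i, B i k * sp (x i)

noncomputable def cB (b : Fin n → ℝ) (x : Cfg n) : ℝ := Real.exp (∑ i, b i * sp (x i))

noncomputable def bB (B : Fin n → Fin n → ℝ) (b y : Fin n → ℝ) (i : Fin n) : ℝ :=
  b i + ∑ k, B i k * y k

lemma wt_eq (J : Fin n → Fin n → ℝ) (hJ : ∀ i j, J i j = J j i) (B : Fin n → Fin n → ℝ)
    (hB : ∀ i j, i ≠ j → ∑ k, B i k * B j k = J i j) (b : Fin n → ℝ) (s : ℝ) (y : Fin n → ℝ)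
    (x : Cfg n) :
    wt (xiB B) (cB b) s y x = Real.exp (s / 2 * ∑ i, ∑ k, B i k ^ 2)
      * Real.exp (energy (fun i j => s * J i j) (bB B b y) x) := by
  unfold wt cB
  rw [← Real.exp_add, ← Real.exp_add]
  congr 1
  rw [energy_eq (fun i j => by rw [hJ])]
  have h1 : ∑ k, xiB B x k ^ 2 = ∑ i, ∑ k, B i k ^ 2
      + ∑ i, ∑ j, Jo J i j * sp (x i) * sp (x j) := by
    have e1 : ∀ k, xiB B x k ^ 2 = ∑ i, ∑ j, (B i k * B j k) * (sp (x i) * sp (x j)) := by
      intro k
      unfold xiB
      rw [sq, Finset.sum_mul_sum]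
      apply Finset.sum_congr rfl; intro i _
      apply Finset.sum_congr rfl; intro j _
      ring
    simp only [e1]
    rw [Finset.sum_comm, ← Finset.sum_add_distrib]
    apply Finset.sum_congr rfl; intro i _
    rw [Finset.sum_comm]
    have e2 : ∀ j, ∑ k, (B i k * B j k) * (sp (x i) * sp (x j))
        = Jo J i j * sp (x i) * sp (x j) + (if j = i then ∑ k, B i k ^ 2 else 0) := by
      intro j
      rw [← Finset.sum_mul]
      by_cases h : j = i
      · subst h
        simp only [Jo, if_true, sp_sq, mul_one, zero_mul, zero_add]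
        apply Finset.sum_congr rfl; intro k _; ring
      · rw [hB i j (Ne.symm h)]
        simp [Jo, h]; ring
    rw [Finset.sum_congr rfl (fun j _ => e2 j), Finset.sum_add_distrib, Finset.sum_ite_eq']
    simp [add_comm]
  have h2 : ∑ k, y k * xiB B x k = ∑ i, (∑ k, B i k * y k) * sp (x i) := by
    unfold xiB
    simp only [Finset.mul_sum, Finset.sum_mul]
    rw [Finset.sum_comm]
    apply Finset.sum_congr rfl; intro i _
    apply Finset.sum_congr rfl; intro k _; ring
  have h3 : ∑ i, ∑ j, Jo (fun i j => s * J i j) i j * sp (x i) * sp (x j)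
      = s * ∑ i, ∑ j, Jo J i j * sp (x i) * sp (x j) := by
    rw [Finset.mul_sum]
    apply Finset.sum_congr rfl; intro i _
    rw [Finset.mul_sum]
    apply Finset.sum_congr rfl; intro j _
    unfold Jo
    split_ifs <;> ring
  rw [h1, h2, h3]
  unfold bB
  simp only [add_mul, Finset.sum_add_distrib]
  ring

lemma wt_eq_gibbs (J : Fin n → Fin n → ℝ) (hJ : ∀ i j, J i j = J j i) (B : Fin n → Fin n → ℝ)
    (hB : ∀ i j, i ≠ j → ∑ k, B i k * B j k = J i j) (b : Fin n → ℝ) (s : ℝ)
    (y : Fin n → ℝ) (x : Cfg n) :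
    wt (xiB B) (cB b) s y x = lin (xiB B) (cB b) (fun _ => 1) s y
      * gibbs (fun i j => s * J i j) (bB B b y) x := by
  unfold lin gibbs
  simp only [wt_eq J hJ B hB, one_mul]
  have hZ : 0 < ∑ y_1 : Cfg n, Real.exp (energy (fun i j => s * J i j) (bB B b y) y_1) :=
    Finset.sum_pos (fun _ _ => Real.exp_pos _) Finset.univ_nonempty
  rw [← Finset.mul_sum]
  field_simp

/-- the linear functionals are the Gibbs expectations up to the partition function -/
lemma lin_eq (J : Fin n → Fin n → ℝ) (hJ : ∀ i j, J i j = J j i) (B : Fin n → Fin n → ℝ)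
    (hB : ∀ i j, i ≠ j → ∑ k, B i k * B j k = J i j) (b : Fin n → ℝ) (φ : Cfg n → ℝ) (s : ℝ)
    (y : Fin n → ℝ) :
    lin (xiB B) (cB b) φ s y = lin (xiB B) (cB b) (fun _ => 1) s y
      * ex (fun i j => s * J i j) (bB B b y) φ := by
  conv_lhs => unfold lin
  unfold ex
  rw [Finset.mul_sum]
  apply Finset.sum_congr rfl; intro x _
  rw [wt_eq_gibbs J hJ B hB]
  ring

lemma entU_eq (J : Fin n → Fin n → ℝ) (hJ : ∀ i j, J i j = J j i) (B : Fin n → Fin n → ℝ)
    (hB : ∀ i j, i ≠ j → ∑ k, B i k * B j k = J i j) (b : Fin n → ℝ) (f : Cfg n → ℝ)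
    (hf : ∀ x, 0 < f x) (s : ℝ) (y : Fin n → ℝ) :
    entU (xiB B) (cB b) f s y = lin (xiB B) (cB b) (fun _ => 1) s y
      * entG (fun i j => s * J i j) (bB B b y) f := by
  have hZ : 0 < lin (xiB B) (cB b) (fun _ => 1) s y :=
    lin_pos _ _ (fun x => Real.exp_pos _) _ (fun _ => one_pos) _ _
  have hexf : 0 < ex (fun i j => s * J i j) (bB B b y) f :=
    Finset.sum_pos (fun x _ => mul_pos (gibbs_pos _ _ x) (hf x)) Finset.univ_nonempty
  unfold entU entG
  rw [lin_eq J hJ B hB b (fun x => f x * Real.log (f x)), lin_eq J hJ B hB b f,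
    Real.log_mul hZ.ne' hexf.ne']
  ring

/-- edge coefficients -/
noncomputable def edgeA (f : Cfg n → ℝ) (x x' : Cfg n) : ℝ :=
  ∑ i, if x' = flip x i then
    (1 / 2) * ((f x' - f x) * (Real.log (f x') - Real.log (f x))) else 0

lemma edgeA_nonneg (f : Cfg n → ℝ) (hf : ∀ x, 0 < f x) (x x' : Cfg n) : 0 ≤ edgeA f x x' := by
  unfold edgeA
  apply Finset.sum_nonneg; intro i _
  split_ifs
  · apply mul_nonneg (by norm_num)
    rcases le_total (f x) (f x') with h | h
    · exact mul_nonneg (sub_nonneg.2 h) (sub_nonneg.2 (Real.log_le_log (hf x) h))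
    · exact mul_nonneg_of_nonpos_of_nonpos (sub_nonpos.2 h)
        (sub_nonpos.2 (Real.log_le_log (hf x') h))
  · exact le_refl _

lemma dirU_eq (J : Fin n → Fin n → ℝ) (hJ : ∀ i j, J i j = J j i) (B : Fin n → Fin n → ℝ)
    (hB : ∀ i j, i ≠ j → ∑ k, B i k * B j k = J i j) (b : Fin n → ℝ) (f : Cfg n → ℝ)
    (s : ℝ) (y : Fin n → ℝ) :
    dirU (xiB B) (cB b) (edgeA f) s y = lin (xiB B) (cB b) (fun _ => 1) s y
      * dir (fun i j => s * J i j) (bB B b y) f (fun x => Real.log (f x)) := by
  have hZ : 0 < lin (xiB B) (cB b) (fun _ => 1) s y :=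
    lin_pos _ _ (fun x => Real.exp_pos _) _ (fun _ => one_pos) _ _
  rw [dir_eq (fun i j => by rw [hJ])]
  unfold dirU edgeA
  rw [Finset.sum_comm (s := univ (α := Fin n)), ← mul_assoc, Finset.mul_sum]
  apply Finset.sum_congr rfl; intro x _
  simp only [Finset.sum_mul]
  rw [Finset.sum_comm, Finset.mul_sum]
  apply Finset.sum_congr rfl; intro i _
  rw [Finset.sum_eq_single (flip x i)]
  · rw [if_pos rfl, wt_eq_gibbs J hJ B hB, wt_eq_gibbs J hJ B hB]
    have g1 := gibbs_pos (fun i j => s * J i j) (bB B b y) x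
    have g2 := gibbs_pos (fun i j => s * J i j) (bB B b y) (flip x i)
    field_simp
  · intro x' _ hx'; rw [if_neg hx', zero_mul]
  · simp

end Chan

open Chan in
/-- Modified log-Sobolev inequality from a uniform covariance bound along `t * J`, given the
product case. -/
theorem mlsi_of_prod {n : ℕ}
    (hprod : ∀ (b f : _), (∀ x, 0 < f x) →
      entG (n := n) (fun _ _ => 0) b f ≤ dir (fun _ _ => 0) b f (fun x => Real.log (f x)))
    (J : Fin n → Fin n → ℝ) (hJ : ∀ i j, J i j = J j i)
    (B : Fin n → Fin n → ℝ) (hB : ∀ i j, i ≠ j → ∑ k, B i k * B j k = J i j) (α K : ℝ)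
    (hα : 0 ≤ α) (hK0 : 0 < K)
    (hBa : ∀ v : Fin n → ℝ, ∑ k, (∑ i, B i k * v i) ^ 2 ≤ α * ∑ i, v i ^ 2)
    (hK : ∀ t ∈ Set.Icc (0:ℝ) 1, ∀ b' v : Fin n → ℝ,
      var (fun i j => t * J i j) b' (fun x => ∑ i, v i * sp (x i)) ≤ K * ∑ i, v i ^ 2)
    (b : Fin n → ℝ) (f : Cfg n → ℝ) (hf : ∀ x, 0 < f x) :
    entG J b f ≤ Real.exp (K * α) * dir J b f (fun x => Real.log (f x)) := by
  have hZ : ∀ s y, 0 < Vale.Agent.P150.Chan.lin (xiB B) (cB b) (fun _ => 1) s y := fun s y =>
    lin_pos _ _ (fun x => Real.exp_pos _) _ (fun _ => one_pos) _ _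
  have hmain := super (xiB B) (cB b) (fun x => Real.exp_pos _) (edgeA f)
    (edgeA_nonneg f hf) f hf (K * α) (mul_nonneg hK0.le hα) ?_ ?_ 1 (by simp) 0
  · rw [entU_eq J hJ B hB b f hf, dirU_eq J hJ B hB] at hmain
    have h1 : (fun i j => 1 * J i j) = J := by funext i j; rw [one_mul]
    have h2 : bB B b 0 = b := by funext i; unfold bB; simp
    rw [h1, h2, mul_one] at hmain
    have := hZ 1 0
    rw [mul_left_comm] at hmain
    exact le_of_mul_le_mul_left hmain this
  · intro y
    rw [entU_eq J hJ B hB b f hf, dirU_eq J hJ B hB]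
    apply mul_le_mul_of_nonneg_left _ (hZ 0 y).le
    have h1 : (fun i j => 0 * J i j) = fun _ _ => 0 := by funext i j; rw [zero_mul]
    rw [h1]
    exact hprod _ f hf
  · intro s hs y
    set J' : Fin n → Fin n → ℝ := fun i j => s * J i j with hJ'
    set b' := bB B b y with hb'
    have hexf : 0 < ex J' b' f :=
      Finset.sum_pos (fun x _ => mul_pos (gibbs_pos _ _ x) (hf x)) Finset.univ_nonempty
    have hZs := hZ s y
    rw [entU_eq J hJ B hB b f hf]
    have hmean := mean_shift_le J' b' K hK0 (fun b'' v => hK s hs b'' v) f hf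
    have hsum : ∑ k, (Vale.Agent.P150.Chan.lin (xiB B) (cB b) (fun x => f x * xiB B x k) s y / Vale.Agent.P150.Chan.lin (xiB B) (cB b) f s y
        - Vale.Agent.P150.Chan.lin (xiB B) (cB b) (fun x => 1 * xiB B x k) s y
          / Vale.Agent.P150.Chan.lin (xiB B) (cB b) (fun _ => 1) s y) ^ 2
        ≤ α * ∑ i, (ex J' b' (fun x => f x * sp (x i)) / ex J' b' f
          - ex J' b' (fun x => sp (x i))) ^ 2 := by
      refine le_trans (le_of_eq ?_) (hBa _)
      apply Finset.sum_congr rfl; intro k _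
      congr 1
      rw [lin_eq J hJ B hB b (fun x => f x * xiB B x k), lin_eq J hJ B hB b f,
        lin_eq J hJ B hB b (fun x => 1 * xiB B x k), mul_div_mul_left _ _ hZs.ne',
        mul_div_cancel_left₀ _ hZs.ne']
      have e1 : ex J' b' (fun x => f x * xiB B x k)
          = ∑ i, B i k * ex J' b' (fun x => f x * sp (x i)) := by
        unfold ex xiB
        simp only [Finset.mul_sum]
        rw [Finset.sum_comm]
        apply Finset.sum_congr rfl; intro i _
        apply Finset.sum_congr rfl; intro x _; ring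
      have e2 : ex J' b' (fun x => 1 * xiB B x k)
          = ∑ i, B i k * ex J' b' (fun x => sp (x i)) := by
        unfold ex xiB
        simp only [Finset.mul_sum]
        rw [Finset.sum_comm]
        apply Finset.sum_congr rfl; intro i _
        apply Finset.sum_congr rfl; intro x _; ring
      rw [e1, e2, Finset.sum_div, ← Finset.sum_sub_distrib]
      apply Finset.sum_congr rfl; intro i _
      ring
    rw [lin_eq J hJ B hB b f]
    have hU0 : 0 < Vale.Agent.P150.Chan.lin (xiB B) (cB b) (fun _ => 1) s y * ex J' b' f := mul_pos hZs hexf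
    calc _ ≤ Vale.Agent.P150.Chan.lin (xiB B) (cB b) (fun _ => 1) s y * ex J' b' f
          * (α * ∑ i, (ex J' b' (fun x => f x * sp (x i)) / ex J' b' f
          - ex J' b' (fun x => sp (x i))) ^ 2) := by
          rw [lin_eq J hJ B hB b f] at hsum
          exact mul_le_mul_of_nonneg_left hsum hU0.le
      _ = Vale.Agent.P150.Chan.lin (xiB B) (cB b) (fun _ => 1) s y * α * (ex J' b' f
          * ∑ i, (ex J' b' (fun x => f x * sp (x i)) / ex J' b' f
          - ex J' b' (fun x => sp (x i))) ^ 2) := by ring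
      _ ≤ Vale.Agent.P150.Chan.lin (xiB B) (cB b) (fun _ => 1) s y * α * (2 * K * entG J' b' f) :=
          mul_le_mul_of_nonneg_left hmean (mul_nonneg hZs.le hα)
      _ = _ := by ring

end Vale.Agent.P150
end

section

open Finset

namespace Vale.Agent.P150

/-- Modified log-Sobolev inequality from a uniform covariance bound along `t * J`. -/
theorem mlsi {n : ℕ} (J : Fin n → Fin n → ℝ) (hJ : ∀ i j, J i j = J j i)
    (B : Fin n → Fin n → ℝ) (hB : ∀ i j, i ≠ j → ∑ k, B i k * B j k = J i j) (α K : ℝ)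
    (hα : 0 ≤ α) (hK0 : 0 < K)
    (hBa : ∀ v : Fin n → ℝ, ∑ k, (∑ i, B i k * v i) ^ 2 ≤ α * ∑ i, v i ^ 2)
    (hK : ∀ t ∈ Set.Icc (0:ℝ) 1, ∀ b' v : Fin n → ℝ,
      var (fun i j => t * J i j) b' (fun x => ∑ i, v i * sp (x i)) ≤ K * ∑ i, v i ^ 2)
    (b : Fin n → ℝ) (f : Cfg n → ℝ) (hf : ∀ x, 0 < f x) :
    ex J b (fun x => f x * Real.log (f x)) - ex J b f * Real.log (ex J b f)
      ≤ Real.exp (K * α) * dir J b f (fun x => Real.log (f x)) :=
  mlsi_of_prod (fun b f hf => Prod.prod_mlsi b f hf) J hJ B hB α K hα hK0 hBa hK b f hf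

end Vale.Agent.P150
end

section

open MeasureTheory ProbabilityTheory Filter Topology

namespace Vale.Agent.P150

namespace Asm

open scoped MatrixOrder Matrix.Norms.L2Operator in
/-- Square root of a positive semidefinite form. -/
lemma exists_sqrt {n : ℕ} (A : Fin n → Fin n → ℝ) (hs : ∀ i j, A i j = A j i)
    (hpsd : ∀ v : Fin n → ℝ, 0 ≤ ∑ i, ∑ j, A i j * v i * v j) :
    ∃ B : Fin n → Fin n → ℝ, ∀ i j, ∑ k, B i k * B j k = A i j := by
  have hA : (Matrix.of A).PosSemidef := by
    rw [Matrix.posSemidef_iff_dotProduct_mulVec]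
    constructor
    · ext i j
      simp [Matrix.conjTranspose, hs i j]
    · intro x
      have := hpsd x
      have e : star x ⬝ᵥ (Matrix.of A).mulVec x = ∑ i, ∑ j, A i j * x i * x j := by
        simp only [dotProduct, Matrix.mulVec, Finset.mul_sum]
        apply Finset.sum_congr rfl; intro i _
        apply Finset.sum_congr rfl; intro j _
        simp; ring
      rw [e]; exact this
  obtain ⟨B, hB⟩ := CStarAlgebra.nonneg_iff_eq_star_mul_self.mp hA.nonneg
  refine ⟨fun i k => B k i, fun i j => ?_⟩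
  have := congrFun (congrFun hB i) j
  simp only [Matrix.of_apply, Matrix.mul_apply, Matrix.star_apply] at this
  rw [this]
  apply Finset.sum_congr rfl; intro k _
  simp

lemma sum_sp_sq {n : ℕ} (x : Cfg n) : ∑ i, sp (x i) ^ 2 = n := by
  simp [Poinc.sp_sq]

/-- Bound on the energy with zero field. -/
lemma abs_energy_le {n : ℕ} {J : Fin n → Fin n → ℝ} (hJs : ∀ i j, J i j = J j i)
    (hJ0 : ∀ i, J i i = 0) {lam : ℝ}
    (hlam : ∀ v : Fin n → ℝ, |∑ i, ∑ j, J i j * v i * v j| ≤ lam * ∑ i, v i ^ 2) (x : Cfg n) :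
    |energy J (fun _ => 0) x| ≤ lam * n / 2 := by
  have h1 : ∑ i, ∑ j, J i j * sp (x i) * sp (x j) = 2 * energy J (fun _ => 0) x := by
    unfold energy
    simp only [zero_mul, Finset.sum_const_zero, add_zero]
    have h1 : ∑ i, ∑ j, J i j * sp (x i) * sp (x j)
        = (∑ i, ∑ j, if i < j then J i j * sp (x i) * sp (x j) else 0)
          + ∑ i, ∑ j, if j < i then J i j * sp (x i) * sp (x j) else 0 := by
      rw [← Finset.sum_add_distrib]
      apply Finset.sum_congr rfl; intro i _
      rw [← Finset.sum_add_distrib]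
      apply Finset.sum_congr rfl; intro j _
      rcases lt_trichotomy i j with h | h | h
      · simp [h, not_lt.2 h.le]
      · subst h; simp [hJ0]
      · simp [h, not_lt.2 h.le]
    have h2 : (∑ i, ∑ j, if j < i then J i j * sp (x i) * sp (x j) else 0)
        = ∑ i, ∑ j, if i < j then J i j * sp (x i) * sp (x j) else 0 := by
      rw [Finset.sum_comm]
      apply Finset.sum_congr rfl; intro i _
      apply Finset.sum_congr rfl; intro j _
      rw [hJs j i]
      split_ifs <;> ring
    rw [h1, h2]; ring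
  have h2 := hlam (fun i => sp (x i))
  rw [h1, sum_sp_sq, abs_mul, abs_of_pos (two_pos : (0:ℝ) < 2)] at h2
  linarith only [h2]

/-- The `L²`-Bochner inequality (to be proved in `Bochner.lean`). -/
def BochnerHyp : Prop :=
  ∀ {n : ℕ} (J : Fin n → Fin n → ℝ), (∀ i j, J i j = J j i) → (∀ i, J i i = 0) →
    ∀ (lam r eta : ℝ), (∀ v : Fin n → ℝ, ∑ i, ∑ j, J i j * v i * v j ≤ lam * ∑ i, v i ^ 2) →
    (∀ i, ∑ j, J i j ^ 2 ≤ r) → 2 * r ≤ lam → (∀ i j, |J i j| ≤ eta) → eta ≤ 1 / 2000 →
    ∀ (b : Fin n → ℝ) (f : Cfg n → ℝ),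
      (1 - lam - 100000 * eta * r) * dir J b f f ≤ ex J b (fun x => (gen J b f x) ^ 2)

/-- The modified log-Sobolev inequality (to be proved in the `Chan` files). -/
def MlsiHyp : Prop :=
  ∀ {n : ℕ} (J : Fin n → Fin n → ℝ), (∀ i j, J i j = J j i) →
    ∀ (B : Fin n → Fin n → ℝ), (∀ i j, i ≠ j → ∑ k, B i k * B j k = J i j) →
    ∀ (alpha K : ℝ), 0 ≤ alpha → 0 < K →
    (∀ v : Fin n → ℝ, ∑ k, (∑ i, B i k * v i) ^ 2 ≤ alpha * ∑ i, v i ^ 2) →
    (∀ t ∈ Set.Icc (0:ℝ) 1, ∀ (b' v : Fin n → ℝ),
      var (fun i j => t * J i j) b' (fun x => ∑ i, v i * sp (x i)) ≤ K * ∑ i, v i ^ 2) →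
    ∀ (b : Fin n → ℝ) (f : Cfg n → ℝ), (∀ x, 0 < f x) →
      ex J b (fun x => f x * Real.log (f x)) - ex J b f * Real.log (ex J b f)
        ≤ Real.exp (K * alpha) * dir J b f (fun x => Real.log (f x))

/-- Mixing time bound (to be proved in the `Semi` files). -/
def TmixHyp : Prop :=
  ∀ {n : ℕ} (J : Fin n → Fin n → ℝ), (∀ i j, J i j = J j i) → ∀ (b : Fin n → ℝ) (C m : ℝ),
    0 < C → 1 ≤ 8 * m →
    (∀ f : Cfg n → ℝ, (∀ x, 0 < f x) →
      ex J b (fun x => f x * Real.log (f x)) - ex J b f * Real.log (ex J b f)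
        ≤ C * dir J b f (fun x => Real.log (f x))) →
    (∀ x, Real.exp (-m) ≤ gibbs J b x) → tmix J b ≤ C * Real.log (8 * m) ∧
      ∀ t, C * Real.log (8 * m) ≤ t → ∀ x, tvDist J b t x ≤ 1 / 4

lemma skJ_symm {n : ℕ} (β : ℝ) (g : Pairs n → ℝ) (i j : Fin n) : skJ β g i j = skJ β g j i := by
  unfold skJ
  rw [gsym_comm]

lemma skJ_diag {n : ℕ} (β : ℝ) (g : Pairs n → ℝ) (i : Fin n) : skJ β g i i = 0 := by
  unfold skJ
  rw [gsym_self, mul_zero]

lemma continuous_gsym {n : ℕ} (i j : Fin n) : Continuous (fun g : Pairs n → ℝ => gsym g i j) := by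
  unfold gsym
  by_cases h : i < j
  · simp only [h, dif_pos]; exact continuous_apply _
  · by_cases h' : j < i
    · simp only [h, h', dif_pos, dif_neg, not_false_iff]; exact continuous_apply _
    · simp only [h, h', dif_neg, not_false_iff]; exact continuous_const

lemma tendsto_compl {A : (n : ℕ) → Set (Pairs n → ℝ)} (hm : ∀ n, MeasurableSet (A n))
    (hA : Tendsto (fun n => disorder n (A n)) atTop (𝓝 1)) :
    Tendsto (fun n => (disorder n).real (A n)ᶜ) atTop (𝓝 0) := by
  have h1 : ∀ n, (disorder n).real (A n)ᶜ = 1 - (disorder n (A n)).toReal := by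
    intro n
    have : IsProbabilityMeasure (disorder n) := by unfold disorder; infer_instance
    rw [measureReal_compl (hm n)]
    simp [Measure.real]
  simp only [h1]
  have h2 : Tendsto (fun n => (disorder n (A n)).toReal) atTop (𝓝 1) := by
    have := (ENNReal.tendsto_toReal (a := 1) ENNReal.one_ne_top).comp hA
    simpa [Function.comp_def] using this
  have := h2.const_sub 1
  simpa using this

/-- Same with the complement of the fourth event: its measure tends to zero. -/
lemma tendsto_zero_of_inter {A B C D : (n : ℕ) → Set (Pairs n → ℝ)}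
    (hmA : ∀ n, MeasurableSet (A n)) (hmB : ∀ n, MeasurableSet (B n))
    (hmC : ∀ n, MeasurableSet (C n))
    (hA : Tendsto (fun n => disorder n (A n)) atTop (𝓝 1))
    (hB : Tendsto (fun n => disorder n (B n)) atTop (𝓝 1))
    (hC : Tendsto (fun n => disorder n (C n)) atTop (𝓝 1))
    (hD : ∀ᶠ n in atTop, A n ∩ B n ∩ C n ⊆ D n) :
    Tendsto (fun n => disorder n (D n)ᶜ) atTop (𝓝 0) := by
  have h := ((tendsto_compl hmA hA).add (tendsto_compl hmB hB)).add (tendsto_compl hmC hC)
  rw [add_zero, add_zero] at h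
  have h' := ENNReal.tendsto_ofReal h
  rw [ENNReal.ofReal_zero] at h'
  refine tendsto_of_tendsto_of_tendsto_of_le_of_le' tendsto_const_nhds h'
    (Eventually.of_forall fun n => zero_le) ?_
  filter_upwards [hD] with n hn
  have : IsProbabilityMeasure (disorder n) := by unfold disorder; infer_instance
  have h1 : (D n)ᶜ ⊆ (A n)ᶜ ∪ (B n)ᶜ ∪ (C n)ᶜ := by
    rw [← Set.compl_inter, ← Set.compl_inter]
    exact Set.compl_subset_compl.mpr hn
  have h2 : (disorder n).real (D n)ᶜ ≤
      (disorder n).real (A n)ᶜ + (disorder n).real (B n)ᶜ + (disorder n).real (C n)ᶜ := by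
    refine (measureReal_mono h1).trans ?_
    refine (measureReal_union_le _ _).trans ?_
    exact add_le_add (measureReal_union_le _ _) le_rfl
  calc disorder n (D n)ᶜ = ENNReal.ofReal ((disorder n).real (D n)ᶜ) :=
        (ENNReal.ofReal_toReal (measure_ne_top _ _)).symm
    _ ≤ _ := ENNReal.ofReal_le_ofReal h2

lemma skJ_form {n : ℕ} (β : ℝ) (g : Pairs n → ℝ) (v : Fin n → ℝ) :
    ∑ i, ∑ j, skJ β g i j * v i * v j = β / √n * ∑ i, ∑ j, gsym g i j * v i * v j := by
  unfold skJ
  rw [Finset.mul_sum]; apply Finset.sum_congr rfl; intro i _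
  rw [Finset.mul_sum]; apply Finset.sum_congr rfl; intro j _
  ring

end Asm

end Vale.Agent.P150
end

section

open MeasureTheory ProbabilityTheory Filter Topology

namespace Vale.Agent.P150

open Asm in
theorem bochnerHyp : BochnerHyp := by
  intro n J hJs hJ0 lam r eta hlam hr h2r heta heta1 b f
  rcases Nat.eq_zero_or_pos n with hn | hn
  · subst hn
    have h1 : dir J b f f = 0 := by
      unfold dir ex gen; simp
    rw [h1, mul_zero]
    exact Poinc.ex_nonneg J b fun x => sq_nonneg _
  · have hr0 : 0 ≤ r := le_trans (Finset.sum_nonneg fun j _ => sq_nonneg _) (hr ⟨0, hn⟩)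
    have heta0 : 0 ≤ eta := le_trans (abs_nonneg _) (heta ⟨0, hn⟩ ⟨0, hn⟩)
    exact bochner J hJs hJ0 lam r eta hlam hr hr0 h2r heta heta0 heta1 b f

open Asm in
theorem mlsiHyp : MlsiHyp := by
  intro n J hJs B hB alpha K ha hK0 hBa hK b f hf
  exact mlsi J hJs B hB alpha K ha hK0 hBa hK b f hf

end Vale.Agent.P150
end

section

open Finset

namespace Vale.Agent.P150.Low

/-- total variation lower bound from first and second moments -/
lemma tv_lower {X : Type*} [Fintype X] (p q f : X → ℝ) (hp : ∀ x, 0 ≤ p x) (hq : ∀ x, 0 ≤ q x)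
    (hp1 : ∑ x, p x = 1) (hq1 : ∑ x, q x = 1) {m : ℝ} (hm : 0 < m) :
    1 - 4 / m ^ 2 * (∑ x, p x * (f x - m) ^ 2) - 4 / m ^ 2 * (∑ x, q x * f x ^ 2)
      ≤ (1 / 2) * ∑ x, |p x - q x| := by
  have hpt : ∀ x, p x - 4 / m ^ 2 * (p x * (f x - m) ^ 2) - 4 / m ^ 2 * (q x * f x ^ 2)
      ≤ (1 / 2) * |p x - q x| + (1 / 2) * (p x - q x) := by
    intro x
    have hpx := hp x
    have hqx := hq x
    have habs := le_abs_self (p x - q x)
    have habs' := neg_abs_le (p x - q x)
    have h4 : 0 < 4 / m ^ 2 := by positivity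
    rcases le_or_gt (f x) (m / 2) with h | h
    · have h1 : 1 ≤ 4 / m ^ 2 * (f x - m) ^ 2 := by
        rw [div_mul_eq_mul_div, le_div_iff₀ (by positivity)]
        linarith only [mul_nonneg (le_of_lt (sub_pos.2 hm)) (sub_nonneg.2 h), mul_nonneg (sub_nonneg.2 h) (sub_nonneg.2 h)]
      have h2 : p x * 1 ≤ p x * (4 / m ^ 2 * (f x - m) ^ 2) := mul_le_mul_of_nonneg_left h1 hpx
      have h3 : 0 ≤ 4 / m ^ 2 * (q x * f x ^ 2) := by (clear * - hm hqx; positivity)
      have h5 : 4 / m ^ 2 * (p x * (f x - m) ^ 2) = p x * (4 / m ^ 2 * (f x - m) ^ 2) := by ring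
      linarith only [h3, h2, habs']
    · have h1 : 1 ≤ 4 / m ^ 2 * f x ^ 2 := by
        rw [div_mul_eq_mul_div, le_div_iff₀ (by positivity)]
        linarith only [mul_pos (sub_pos.2 hm) (sub_pos.2 h), mul_pos (sub_pos.2 h) (sub_pos.2 h)]
      have h2 : q x * 1 ≤ q x * (4 / m ^ 2 * f x ^ 2) := mul_le_mul_of_nonneg_left h1 hqx
      have h3 : 0 ≤ 4 / m ^ 2 * (p x * (f x - m) ^ 2) := by (clear * - hm hpx; positivity)
      have h5 : 4 / m ^ 2 * (q x * f x ^ 2) = q x * (4 / m ^ 2 * f x ^ 2) := by ring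
      linarith only [h3, h2, habs]
  have hsum := Finset.sum_le_sum fun x (_ : x ∈ Finset.univ) => hpt x
  simp only [Finset.sum_sub_distrib, Finset.sum_add_distrib, ← Finset.mul_sum, hp1, hq1] at hsum
  linarith

variable {n : ℕ} {J : Fin n → Fin n → ℝ}

lemma Pt_lin (b : Fin n → ℝ) (t : ℝ) (v : Fin n → ℝ) (x : Cfg n) :
    Pt J b t (fun y => ∑ i, v i * sp (y i)) x = ∑ i, v i * Pt J b t (fun y => sp (y i)) x := by
  unfold Pt
  simp only [Finset.mul_sum]
  rw [Finset.sum_comm]
  apply Finset.sum_congr rfl; intro i _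
  apply Finset.sum_congr rfl; intro y _
  ring

lemma sqg_lin (x y : Cfg n) : sqg (fun y => ∑ i, sp (x i) * sp (y i)) y = n := by
  unfold sqg
  have h : ∀ i, (∑ j, sp (x j) * sp (flip y i j)) - ∑ j, sp (x j) * sp (y j)
      = -(2 * (sp (x i) * sp (y i))) := by
    intro i
    rw [← Finset.sum_sub_distrib, Finset.sum_eq_single i]
    · rw [sp_flip_self]; ring
    · intro j _ hj
      rw [sp_flip_ne y hj]; ring
    · simp
  simp only [h]
  have h2 : ∀ i, (-(2 * (sp (x i) * sp (y i)))) ^ 2 = 4 := by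
    intro i
    calc (-(2 * (sp (x i) * sp (y i)))) ^ 2
        = 4 * (sp (x i) * sp (x i)) * (sp (y i) * sp (y i)) := by ring
      _ = 4 := by rw [sp_sq, sp_sq]; ring
  simp only [h2]
  rw [Finset.sum_const, Finset.card_univ, Fintype.card_fin, nsmul_eq_mul]
  ring

/-- the deterministic inequality behind the lower bound on the mixing time -/
theorem mixing_ineq (hn : 0 < n) (hJ : ∀ i j, J i j = J j i) {lam r : ℝ}
    (hlam : ∀ v : Fin n → ℝ, |∑ i, ∑ j, Jo J i j * v i * v j| ≤ lam * ∑ i, v i ^ 2)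
    (hr : ∀ i, ∑ j, Jo J i j ^ 2 ≤ r) (hs : ∀ i j, |Jo J i j| ≤ 1 / 4)
    {C : ℝ} (hC : 0 < C) (hCl : 2 * (lam + 80 * r) ≤ C) (t : ℝ) (ht : 0 ≤ t)
    (htv : ∀ x, tvDist J (fun _ => 0) t x ≤ 1 / 4) :
    3 / 4 * n * Real.exp (-(2 * t)) ≤ 16 / C * Real.exp (C * t) + 4 / Real.log 2 * t := by
  set b : Fin n → ℝ := fun _ => 0 with hb
  have hn' : (0 : ℝ) < n := by exact_mod_cast hn
  -- the starting point
  obtain ⟨x, hx⟩ : ∃ x : Cfg n, (n : ℝ) * Real.exp (-t)
      ≤ ∑ i, sp (x i) * Pt J b t (fun y => sp (y i)) x := by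
    by_contra hcon
    push Not at hcon
    have h1 : ex J b (fun x => ∑ i, sp (x i) * Pt J b t (fun y => sp (y i)) x)
        < (n : ℝ) * Real.exp (-t) := by
      calc ex J b (fun x => ∑ i, sp (x i) * Pt J b t (fun y => sp (y i)) x)
          < ∑ x, gibbs J b x * ((n : ℝ) * Real.exp (-t)) := by
            unfold ex
            apply Finset.sum_lt_sum_of_nonempty Finset.univ_nonempty
            intro x _
            exact mul_lt_mul_of_pos_left (hcon x) (gibbs_pos J b x)
        _ = (n : ℝ) * Real.exp (-t) := by rw [← Finset.sum_mul, gibbs_sum, one_mul]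
    have h2 : ex J b (fun x => ∑ i, sp (x i) * Pt J b t (fun y => sp (y i)) x)
        = ∑ i, ex J b (fun x => sp (x i) * Pt J b t (fun y => sp (y i)) x) := by
      unfold ex
      rw [Finset.sum_comm]
      apply Finset.sum_congr rfl; intro x _
      rw [Finset.mul_sum]
    have h3 : (n : ℝ) * Real.exp (-t)
        ≤ ∑ i, ex J b (fun x => sp (x i) * Pt J b t (fun y => sp (y i)) x) := by
      calc (n : ℝ) * Real.exp (-t) = ∑ _i : Fin n, Real.exp (-t) := by
            rw [Finset.sum_const, Finset.card_univ, Fintype.card_fin, nsmul_eq_mul]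
        _ ≤ _ := Finset.sum_le_sum fun i _ => auto_spin b hJ t ht i
    linarith only [h3, h2, h1]
  set f : Cfg n → ℝ := fun y => ∑ i, sp (x i) * sp (y i) with hf
  set m : ℝ := Pt J b t f x with hm
  have hmx : (n : ℝ) * Real.exp (-t) ≤ m := by
    rw [hm, hf, Pt_lin b t (fun i => sp (x i)) x]; exact hx
  have hmpos : 0 < m := lt_of_lt_of_le (by positivity) hmx
  -- the variance at time t
  have hu := var_flow b hJ hlam hr hs hC hCl f (S := n) (fun y => (sqg_lin x y).le) t ht x
  have hvar : ∑ y, kernel J b t x y * (f y - m) ^ 2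
      = Pt J b t (fun z => f z ^ 2) x - Pt J b t f x ^ 2 := by
    have h1 : ∀ y, kernel J b t x y * (f y - m) ^ 2 = kernel J b t x y * f y ^ 2
        - 2 * m * (kernel J b t x y * f y) + m ^ 2 * kernel J b t x y := by
      intro y; ring
    simp only [h1, Finset.sum_add_distrib, Finset.sum_sub_distrib, ← Finset.mul_sum]
    rw [Semi.kernel_row]
    have h2 : ∑ y, kernel J b t x y * f y = m := rfl
    rw [h2]
    have h3 : ∑ y, kernel J b t x y * f y ^ 2 = Pt J b t (fun z => f z ^ 2) x := rfl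
    rw [h3]
    ring
  -- the second moment under the Gibbs measure
  have hmean : ex J b f = 0 := by
    have h1 : ex J b f = ∑ i, sp (x i) * ex J b (fun y => sp (y i)) := by
      unfold ex
      simp only [hf, Finset.mul_sum]
      rw [Finset.sum_comm]
      apply Finset.sum_congr rfl; intro i _
      apply Finset.sum_congr rfl; intro y _
      ring
    rw [h1]
    apply Finset.sum_eq_zero; intro i _
    rw [hb, Poinc.ex_sp_zero, mul_zero]
  have hW : ex J b (fun y => f y ^ 2) * Real.log 2 ≤ n * t := by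
    have h1 := Semi.gap_mul_var_le (J := J) b hJ f
    rw [Semi.var_eq, hmean] at h1
    have h2 := Poinc.dir_lin_le J b hJ (fun i => sp (x i))
    have h3 : ∑ i, sp (x i) ^ 2 = (n : ℝ) := by
      have : ∀ i, sp (x i) ^ 2 = 1 := fun i => by rw [pow_two]; exact sp_sq (x i)
      simp only [this, Finset.sum_const, Finset.card_univ, Fintype.card_fin, nsmul_eq_mul, mul_one]
    rw [h3] at h2
    have h4 : gap J b * ex J b (fun y => f y ^ 2) ≤ n := by
      have : (0 : ℝ) ^ 2 = 0 := by norm_num
      rw [this, sub_zero] at h1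
      exact h1.trans h2
    have h5 := Semi.log_two_le_of_mem (J := J) b hJ hn t htv
    have hW0 : 0 ≤ ex J b (fun y => f y ^ 2) := Semi.ex_nonneg b fun _ => sq_nonneg _
    calc ex J b (fun y => f y ^ 2) * Real.log 2
        ≤ ex J b (fun y => f y ^ 2) * (gap J b * t) := mul_le_mul_of_nonneg_left h5 hW0
      _ = (gap J b * ex J b (fun y => f y ^ 2)) * t := by ring
      _ ≤ n * t := mul_le_mul_of_nonneg_right h4 ht
  have hlog : 0 < Real.log 2 := Real.log_pos (by norm_num)
  have hW2 : ex J b (fun y => f y ^ 2) ≤ n * t / Real.log 2 := by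
    rw [le_div_iff₀ hlog]; exact hW
  have htv2 := tv_lower (fun y => kernel J b t x y) (fun y => gibbs J b y) f
    (fun y => Semi.kernel_nonneg J b ht x y) (fun y => (gibbs_pos J b y).le)
    (Semi.kernel_row J b t x) (gibbs_sum J b) hmpos
  have htv3 : (1 / 2 : ℝ) * ∑ y, |kernel J b t x y - gibbs J b y| ≤ 1 / 4 := htv x
  rw [hvar] at htv2
  have hexf : ∑ y, gibbs J b y * f y ^ 2 = ex J b (fun y => f y ^ 2) := rfl
  rw [hexf] at htv2
  have h34 : 3 / 4 * m ^ 2 ≤ 4 * ((Pt J b t (fun z => f z ^ 2) x - Pt J b t f x ^ 2)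
      + ex J b (fun y => f y ^ 2)) := by
    have h1 : 3 / 4 ≤ 4 / m ^ 2 * ((Pt J b t (fun z => f z ^ 2) x - Pt J b t f x ^ 2)
      + ex J b (fun y => f y ^ 2)) := by linarith only [htv3, htv2]
    rw [div_mul_eq_mul_div, le_div_iff₀ (by positivity)] at h1
    exact h1
  have hm2 : ((n : ℝ) * Real.exp (-t)) ^ 2 ≤ m ^ 2 :=
    pow_le_pow_left₀ (by positivity) hmx 2
  have he : ((n : ℝ) * Real.exp (-t)) ^ 2 = n * (n * Real.exp (-(2 * t))) := by
    have : Real.exp (-(2 * t)) = Real.exp (-t) * Real.exp (-t) := by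
      rw [← Real.exp_add]; congr 1; ring
    rw [this]; ring
  rw [he] at hm2
  have hfin : n * (3 / 4 * n * Real.exp (-(2 * t)))
      ≤ n * (16 / C * Real.exp (C * t) + 4 / Real.log 2 * t) := by
    have h1 : 4 * (4 * (n : ℝ) / C * Real.exp (C * t)) = n * (16 / C * Real.exp (C * t)) := by
      ring
    have h2 : 4 * (n * t / Real.log 2) = n * (4 / Real.log 2 * t) := by ring
    have h3 : n * (3 / 4 * n * Real.exp (-(2 * t))) = 3 / 4 * (n * (n * Real.exp (-(2 * t)))) := by
      ring
    rw [mul_add, h3]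
    linarith only [h2, h1, hm2, h34, hW2, hu]
  exact le_of_mul_le_mul_left hfin hn'

/-- deterministic lower bound on the mixing time -/
theorem tmix_lower (hn : 0 < n) (hJ : ∀ i j, J i j = J j i) {lam r : ℝ}
    (hlam : ∀ v : Fin n → ℝ, |∑ i, ∑ j, Jo J i j * v i * v j| ≤ lam * ∑ i, v i ^ 2)
    (hr : ∀ i, ∑ j, Jo J i j ^ 2 ≤ r) (hs : ∀ i j, |Jo J i j| ≤ 1 / 4)
    {C : ℝ} (hC : 1 ≤ C) (hCl : 2 * (lam + 80 * r) ≤ C) :
    Real.log (n / 30) / (C + 2) ≤ tmix J (fun _ => 0) := by
  unfold tmix
  apply le_csInf (Semi.tmix_set_nonempty _ hJ hn)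
  rintro t ⟨ht, htv⟩
  have h1 := mixing_ineq hn hJ hlam hr hs (by linarith only [hC]) hCl t ht htv
  have hn' : (0 : ℝ) < n := by exact_mod_cast hn
  have hlog : (2 / 3 : ℝ) ≤ Real.log 2 := by have := Real.log_two_gt_d9; linarith only [this]
  have h2 : 16 / C * Real.exp (C * t) ≤ 16 * Real.exp (C * t) := by
    apply mul_le_mul_of_nonneg_right _ (Real.exp_pos _).le
    rw [div_le_iff₀ (by linarith only [hC])]; linarith only [hC]
  have h3 : 4 / Real.log 2 * t ≤ 6 * Real.exp (C * t) := by
    have h4 : 4 / Real.log 2 ≤ 6 := by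
      rw [div_le_iff₀ (by linarith only [hlog])]; linarith only [hlog]
    have h5 : t ≤ Real.exp (C * t) := by
      have h6 := Real.add_one_le_exp (C * t)
      linarith only [h6, mul_nonneg (sub_nonneg.2 hC) (sub_nonneg.2 ht)]
    exact mul_le_mul h4 h5 ht (by norm_num)
  have h4 : 3 / 4 * n * Real.exp (-(2 * t)) ≤ 22 * Real.exp (C * t) := by linarith only [h3, h2, h1]
  have h5 : 3 / 4 * n ≤ 22 * Real.exp ((C + 2) * t) := by
    have h6 := mul_le_mul_of_nonneg_right h4 (Real.exp_pos (2 * t)).le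
    rw [mul_assoc, ← Real.exp_add, neg_add_cancel, Real.exp_zero, mul_one, mul_assoc,
      ← Real.exp_add] at h6
    rw [show (C + 2) * t = C * t + 2 * t by ring]
    exact h6
  have h6 : n / 30 ≤ Real.exp ((C + 2) * t) := by linarith only [h5, hn']
  rw [div_le_iff₀ (by linarith only [hC]), mul_comm t]
  rw [Real.log_le_iff_le_exp (by positivity)]
  exact h6

end Vale.Agent.P150.Low
end

section

open MeasureTheory ProbabilityTheory Filter Topology

namespace Vale.Agent.P150

open Asm in
/-- For every `β` the mixing time of the SK model is at least of order `log n`. -/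
theorem log_lower (β : ℝ) (hβ0 : 0 ≤ β) :
    ∃ c : ℝ, 0 < c ∧ WHP (fun n => {g |
      c * Real.log n ≤ tmix (skJ β g) (fun _ => 0)}) := by
  set C : ℝ := 2 * (β * 3 + 80 * (β ^ 2 * 2)) + 1 with hC
  have hC1 : 1 ≤ C := by
    have : 0 ≤ β * 3 + 80 * (β ^ 2 * 2) := by (clear * - hβ0; positivity)
    linarith [this]
  refine ⟨1 / (2 * (C + 2)), by positivity, ?_⟩
  set e : ℝ := 1 / (4 * (β + 1)) with he
  have he0 : 0 < e := by positivity
  have heβ : β * e ≤ 1 / 4 := by
    rw [he, mul_one_div, div_le_iff₀ (by positivity)]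
    linarith only []
  refine tendsto_zero_of_inter (A := fun n => {g | ∀ v : Fin n → ℝ,
      |∑ i, ∑ j, gsym g i j * v i * v j| ≤ (2 + 1) * √n * ∑ i, v i ^ 2})
    (B := fun n => {g | ∀ i : Fin n, ∑ j, gsym g i j ^ 2 ≤ (1 + 1) * n})
    (C := fun n => {g | ∀ i j : Fin n, |gsym g i j| ≤ e * √n}) ?_ ?_ ?_
    (goe_norm one_pos) (goe_rows one_pos) (goe_max he0) ?_
  · intro n
    apply IsClosed.measurableSet
    simp only [Set.ofPred_forall]
    refine isClosed_iInter fun v => isClosed_le ?_ continuous_const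
    refine (continuous_finsetSum _ fun i _ => continuous_finsetSum _ fun j _ => ?_).abs
    exact ((continuous_gsym i j).mul continuous_const).mul continuous_const
  · intro n
    apply IsClosed.measurableSet
    simp only [Set.ofPred_forall]
    refine isClosed_iInter fun i => isClosed_le ?_ continuous_const
    exact continuous_finsetSum _ fun j _ => (continuous_gsym i j).pow 2
  · intro n
    apply IsClosed.measurableSet
    simp only [Set.ofPred_forall]
    refine isClosed_iInter fun i => isClosed_iInter fun j => isClosed_le ?_ continuous_const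
    exact (continuous_gsym i j).abs
  filter_upwards [eventually_ge_atTop 900] with n hn
  rintro g ⟨⟨hA, hB'⟩, hC'⟩
  simp only [Set.mem_ofPred_eq] at hA hB' hC' ⊢
  have hn0 : 0 < n := by omega
  have hn1 : (900:ℝ) ≤ n := by exact_mod_cast hn
  have hsq : 0 < √(n:ℝ) := Real.sqrt_pos.mpr (by positivity)
  have hsq2 : √(n:ℝ) ^ 2 = n := Real.sq_sqrt (by positivity)
  have hb0 : 0 ≤ β / √n := div_nonneg hβ0 hsq.le
  have hJo : ∀ i j, Jo (skJ β g) i j = skJ β g i j := by
    intro i j
    unfold Jo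
    by_cases h : j = i
    · subst h; rw [if_pos rfl, skJ_diag]
    · rw [if_neg h]
  have key := Low.tmix_lower hn0 (skJ_symm β g) (lam := β * 3) (r := β ^ 2 * 2)
    (by
      intro v
      simp only [hJo]
      rw [skJ_form, abs_mul, abs_of_nonneg hb0]
      calc β / √n * |∑ i, ∑ j, gsym g i j * v i * v j|
          ≤ β / √n * ((2 + 1) * √n * ∑ i, v i ^ 2) := mul_le_mul_of_nonneg_left (hA v) hb0
        _ = β * 3 * ∑ i, v i ^ 2 := by field_simp; ring)
    (by
      intro i
      simp only [hJo]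
      have h1 : ∑ j, skJ β g i j ^ 2 = β ^ 2 / n * ∑ j, gsym g i j ^ 2 := by
        unfold skJ
        rw [Finset.mul_sum]; apply Finset.sum_congr rfl; intro j _
        rw [mul_pow, div_pow, hsq2]
      rw [h1]
      calc β ^ 2 / n * ∑ j, gsym g i j ^ 2 ≤ β ^ 2 / n * ((1 + 1) * n) :=
            mul_le_mul_of_nonneg_left (hB' i) (by (clear * - hn; positivity))
        _ = β ^ 2 * 2 := by field_simp; ring)
    (by
      intro i j
      rw [hJo]
      unfold skJ
      rw [abs_mul, abs_of_nonneg hb0]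
      calc β / √n * |gsym g i j| ≤ β / √n * (e * √n) :=
            mul_le_mul_of_nonneg_left (hC' i j) hb0
        _ = β * e := by field_simp
        _ ≤ 1 / 4 := heβ)
    hC1 (by linarith only [])
  refine le_trans ?_ key
  rw [div_mul_eq_mul_div, one_mul, div_le_div_iff₀ (by (clear * - hβ0; positivity)) (by (clear * - hβ0; positivity))]
  have h1 : Real.log (n / 30) = Real.log n - Real.log 30 :=
    Real.log_div (by positivity) (by norm_num)
  have h2 : 2 * Real.log 30 ≤ Real.log n := by
    have h3 : 2 * Real.log 30 = Real.log (30 ^ 2) := by rw [Real.log_pow]; norm_num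
    rw [h3]
    apply Real.log_le_log (by norm_num)
    linarith only [hn1]
  rw [h1]
  have h4 : Real.log n * (C + 2) ≤ (2 * (Real.log n - Real.log 30)) * (C + 2) :=
    mul_le_mul_of_nonneg_right (by linarith only [h2]) (by linarith only [hC1])
  linarith only [h4]

end Vale.Agent.P150
end

section

/-! Sign symmetry of the disorder: flipping row and column `i`. -/

open MeasureTheory ProbabilityTheory Set

namespace Vale.Agent.P150.F

variable {n : ℕ}

/-- the sign at `a` when flipping `i` -/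
def fs (i a : Fin n) : ℝ := if a = i then -1 else 1

lemma fs_mul_self (i a : Fin n) : fs i a * fs i a = 1 := by
  unfold fs; split_ifs <;> norm_num

/-- flipping row and column `i` of the disorder -/
def flipD (i : Fin n) (g : Pairs n → ℝ) : Pairs n → ℝ := fun p => (fs i p.1.1 * fs i p.1.2) * g p

lemma gsym_flipD (i : Fin n) (g : Pairs n → ℝ) (a b : Fin n) :
    gsym (flipD i g) a b = fs i a * fs i b * gsym g a b := by
  unfold gsym flipD
  split_ifs with h1 h2
  · rfl
  · ring
  · ring

lemma skM_flipD (i : Fin n) (g : Pairs n → ℝ) (a b : Fin n) :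
    skM (flipD i g) a b = fs i a * fs i b * skM g a b := by
  unfold skM
  rw [gsym_flipD]
  ring

lemma word_flipD (i : Fin n) (g : Pairs n → ℝ) (as : List (Vec n)) (a b : Fin n) :
    word (skM (flipD i g)) as a b = fs i a * fs i b * word (skM g) as a b := by
  induction as generalizing a b with
  | nil =>
    simp only [word_nil, Matrix.one_apply]
    by_cases h : a = b
    · subst h
      simp [fs_mul_self]
    · simp [h]
  | cons v as ih =>
    rw [word_cons, word_cons]
    unfold dg
    rw [Matrix.mul_apply, Matrix.mul_apply, Finset.mul_sum]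
    refine Finset.sum_congr rfl fun c _ => ?_
    rw [Matrix.mul_diagonal, Matrix.mul_diagonal, skM_flipD, ih]
    linear_combination (fs i a * skM g a c * v c * fs i b * word (skM g) as c b) * fs_mul_self i c

lemma opLe_flipD (i : Fin n) (g : Pairs n → ℝ) {C : ℝ} (h : OpLe (skM g) C) :
    OpLe (skM (flipD i g)) C := by
  intro v
  have h1 := h (fun a => fs i a * v a)
  have h2 : sq (fun a => fs i a * v a) = sq v := by
    unfold sq
    refine Finset.sum_congr rfl fun a _ => ?_
    linear_combination (v a ^ 2) * fs_mul_self i a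
  have h3 : sq ((skM (flipD i g)).mulVec v) = sq ((skM g).mulVec fun a => fs i a * v a) := by
    unfold sq
    refine Finset.sum_congr rfl fun a _ => ?_
    have h4 : (skM (flipD i g)).mulVec v a
        = fs i a * (skM g).mulVec (fun a => fs i a * v a) a := by
      unfold Matrix.mulVec dotProduct
      rw [Finset.mul_sum]
      refine Finset.sum_congr rfl fun c _ => ?_
      have h5 := skM_flipD i g a c
      simp only
      rw [h5]; ring
    rw [h4]
    linear_combination ((skM g).mulVec (fun a => fs i a * v a) a ^ 2) * fs_mul_self i a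
  rw [h3, ← h2]
  exact h1

lemma flipD_flipD (i : Fin n) (g : Pairs n → ℝ) : flipD i (flipD i g) = g := by
  ext p
  unfold flipD
  linear_combination (g p * fs i p.1.2 * fs i p.1.2) * fs_mul_self i p.1.1
    + g p * fs_mul_self i p.1.2

lemma opLe_flipD_iff (i : Fin n) (g : Pairs n → ℝ) {C : ℝ} :
    OpLe (skM (flipD i g)) C ↔ OpLe (skM g) C := by
  refine ⟨fun h => ?_, opLe_flipD i g⟩
  have := opLe_flipD i _ h
  rwa [flipD_flipD] at this

lemma fs_cases (i a b : Fin n) : fs i a * fs i b = 1 ∨ fs i a * fs i b = -1 := by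
  unfold fs; split_ifs <;> norm_num

lemma measurePreserving_flipD (i : Fin n) :
    MeasurePreserving (flipD i) (gpi (Pairs n)) (gpi (Pairs n)) := by
  have h := measurePreserving_pi (fun _ : Pairs n => gaussianReal 0 1)
    (fun _ : Pairs n => gaussianReal 0 1)
    (f := fun p (x : ℝ) => (fs i p.1.1 * fs i p.1.2) * x) (fun p => ?_)
  · exact h
  · refine ⟨by fun_prop, ?_⟩
    rcases fs_cases i p.1.1 p.1.2 with h | h
    · rw [h]
      simp
    · rw [h]
      have h1 := gaussianReal_map_const_mul (μ := 0) (v := 1) (-1 : ℝ)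
      rw [h1]
      congr 1
      · simp
      · ext; simp

/-- off-diagonal word entries have mean zero on every flip-invariant event -/
lemma integral_word_eq_zero (as : List (Vec n)) {i j : Fin n} (hij : i ≠ j)
    (S : Set (Pairs n → ℝ)) (hSm : MeasurableSet S) (hS : ∀ g, flipD i g ∈ S ↔ g ∈ S) :
    ∫ g in S, word (skM g) as i j ∂gpi (Pairs n) = 0 := by
  have h1 : ∫ g in S, word (skM g) as i j ∂gpi (Pairs n)
      = ∫ g, S.indicator (fun g => word (skM g) as i j) g ∂gpi (Pairs n) :=
    (integral_indicator hSm).symm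
  have hinv : Function.Involutive (flipD i : (Pairs n → ℝ) → Pairs n → ℝ) := flipD_flipD i
  have hme : MeasurableEmbedding (flipD i : (Pairs n → ℝ) → Pairs n → ℝ) :=
    (MeasurableEquiv.mk (hinv.toPerm) (measurePreserving_flipD i).measurable
      (measurePreserving_flipD i).measurable).measurableEmbedding
  have h2 := (measurePreserving_flipD (n := n) i).integral_comp hme
    (S.indicator (fun g => word (skM g) as i j))
  have h3 : ∀ g, S.indicator (fun g => word (skM g) as i j) (flipD i g)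
      = - S.indicator (fun g => word (skM g) as i j) g := by
    intro g
    by_cases hg : g ∈ S
    · rw [Set.indicator_of_mem hg, Set.indicator_of_mem ((hS g).2 hg), word_flipD]
      simp [fs, hij.symm]
    · rw [Set.indicator_of_notMem hg, Set.indicator_of_notMem (fun h => hg ((hS g).1 h))]
      simp
  simp only [h3, integral_neg] at h2
  rw [h1]
  linarith

end Vale.Agent.P150.F
end

section

/-! The off-diagonal `ℓ⁴` functional of a word: Lipschitz bound, mean and concentration. -/

open MeasureTheory ProbabilityTheory Real Set Filter Topology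

namespace Vale.Agent.P150.F

variable {n : ℕ}

/-- off-diagonal entries of a word, as an element of `ℓ⁴` -/
noncomputable def offv (J : Mat n) (as : List (Vec n)) : PiLp 4 (fun _ : Fin n × Fin n => ℝ) :=
  WithLp.toLp 4 fun p => if p.1 = p.2 then 0 else word J as p.1 p.2

instance factFour : Fact (1 ≤ (4 : ENNReal)) := ⟨by norm_num⟩

lemma norm_pow_four {κ : Type*} [Fintype κ] (x : PiLp 4 (fun _ : κ => ℝ)) :
    ‖x‖ ^ 4 = ∑ i, x i ^ 4 := by
  have h4 : (4 : ENNReal).toReal = 4 := by norm_num
  rw [PiLp.norm_eq_sum (by rw [h4]; norm_num), h4]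
  have h0 : 0 ≤ ∑ i, ‖x i‖ ^ (4 : ℝ) := Finset.sum_nonneg fun i _ => by positivity
  rw [← Real.rpow_natCast, ← Real.rpow_mul h0]
  norm_num
  refine Finset.sum_congr rfl fun i _ => ?_
  have : |x i| ^ 4 = (|x i| ^ 2) ^ 2 := by ring
  rw [this, sq_abs]; ring

/-- the off-diagonal `ℓ⁴` norm -/
noncomputable def y4 (J : Mat n) (as : List (Vec n)) : ℝ := ‖offv J as‖

lemma y4_pow (J : Mat n) (as : List (Vec n)) : y4 J as ^ 4 = odf J as := by
  unfold y4 odf
  rw [norm_pow_four, Fintype.sum_prod_type]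
  refine Finset.sum_congr rfl fun i _ => Finset.sum_congr rfl fun j _ => ?_
  unfold offv
  by_cases h : i = j
  · simp [h]
  · simp [h]

lemma y4_nn (J : Mat n) (as : List (Vec n)) : 0 ≤ y4 J as := norm_nonneg _

lemma y4_sub_le (J K : Mat n) (as : List (Vec n)) :
    |y4 J as - y4 K as| ≤ hs (word J as - word K as) := by
  refine (abs_norm_sub_norm_le _ _).trans ?_
  have h1 : ‖offv J as - offv K as‖ ^ 4 ≤ hs (word J as - word K as) ^ 4 := by
    rw [norm_pow_four]
    have h2 : hs (word J as - word K as) ^ 4 = hsq (word J as - word K as) ^ 2 := by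
      rw [← hs_sq]; ring
    rw [h2]
    have h3 : ∀ p : Fin n × Fin n, (offv J as - offv K as) p ^ 2
        ≤ (word J as p.1 p.2 - word K as p.1 p.2) ^ 2 := by
      intro p
      unfold offv
      by_cases h : p.1 = p.2
      · simp [h, sq_nonneg]
      · simp [h]
    have h4 : ∑ p, (offv J as - offv K as) p ^ 4
        ≤ (∑ p : Fin n × Fin n, (word J as p.1 p.2 - word K as p.1 p.2) ^ 2) ^ 2 := by
      calc ∑ p, (offv J as - offv K as) p ^ 4
          ≤ ∑ p : Fin n × Fin n, ((word J as p.1 p.2 - word K as p.1 p.2) ^ 2) ^ 2 := by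
            refine Finset.sum_le_sum fun p _ => ?_
            have : (offv J as - offv K as) p ^ 4 = ((offv J as - offv K as) p ^ 2) ^ 2 := by ring
            rw [this]
            exact pow_le_pow_left₀ (sq_nonneg _) (h3 p) 2
        _ ≤ _ := Finset.sum_sq_le_sq_sum_of_nonneg fun p _ => sq_nonneg _
    refine h4.trans (le_of_eq ?_)
    congr 1
    rw [Fintype.sum_prod_type]
    rfl
  exact le_of_pow_le_pow_left₀ (by norm_num) (hs_nn _) h1

/-- the good set -/
def GS (n : ℕ) : Set (Pairs n → ℝ) := {g | OpLe (skM g) 3}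

lemma continuous_skM_entry (i j : Fin n) : Continuous fun g : Pairs n → ℝ => skM g i j := by
  unfold skM
  exact (continuous_gsym i j).div_const _

lemma measurableSet_GS (n : ℕ) : MeasurableSet (GS n) := by
  have h : GS n = ⋂ v : Vec n, {g | sq ((skM g).mulVec v) ≤ 3 ^ 2 * sq v} := by
    ext g
    simp [GS, OpLe]
  rw [h]
  refine (isClosed_iInter fun v => ?_).measurableSet
  refine isClosed_le ?_ continuous_const
  unfold sq Matrix.mulVec dotProduct
  exact continuous_finsetSum _ fun i _ => (continuous_finsetSum _ fun j _ =>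
    (continuous_skM_entry i j).mul continuous_const).pow 2

lemma skM_zero : skM (0 : Pairs n → ℝ) = 0 := by
  ext i j
  show gsym 0 i j / Real.sqrt n = 0
  have : gsym (0 : Pairs n → ℝ) i j = 0 := by
    unfold gsym; split_ifs <;> rfl
  rw [this, zero_div]

lemma zero_mem_GS : (0 : Pairs n → ℝ) ∈ GS n := by
  show OpLe (skM 0) 3
  intro v
  rw [skM_zero, Matrix.zero_mulVec]
  have : sq (0 : Vec n) = 0 := (sq_eq_zero_iff 0).2 rfl
  rw [this]
  have := sq_nn v
  positivity

lemma abs_entry_le_hs (A : Mat n) (i j : Fin n) : |A i j| ≤ hs A := by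
  rw [← Real.sqrt_sq_eq_abs]
  unfold hs hsq
  refine Real.sqrt_le_sqrt ?_
  refine le_trans ?_ (Finset.single_le_sum (f := fun i => ∑ j, A i j ^ 2)
    (fun i _ => Finset.sum_nonneg fun j _ => sq_nonneg _) (Finset.mem_univ i))
  exact Finset.single_le_sum (f := fun j => A i j ^ 2) (fun j _ => sq_nonneg _)
    (Finset.mem_univ j)

/-- Lipschitz constant of words of length `m` on the good set -/
noncomputable def LL (m n : ℕ) : ℝ := m * 3 ^ m * Real.sqrt (2 / n)

lemma LL_nn (m n : ℕ) : 0 ≤ LL m n := by unfold LL; positivity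

lemma LL_pos {m n : ℕ} (hm : 1 ≤ m) (hn : 1 ≤ n) : 0 < LL m n := by
  unfold LL
  have h1 : (0 : ℝ) < m := by exact_mod_cast hm
  have h2 : (0 : ℝ) < n := by exact_mod_cast hn
  positivity

lemma hs_word_skM {as : List (Vec n)} (hb : Bdd as) {g g' : Pairs n → ℝ} (hg : g ∈ GS n)
    (hg' : g' ∈ GS n) :
    hs (word (skM g) as - word (skM g') as) ≤ LL as.length n * ed g g' := by
  refine (hs_word_sub (by norm_num) hg hg' hb).trans (le_of_eq ?_)
  rw [hs_skM_sub]
  unfold LL ed
  ring

lemma word_zero {as : List (Vec n)} (h : 1 ≤ as.length) :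
    word (skM (0 : Pairs n → ℝ)) as = 0 := by
  cases as with
  | nil => simp at h
  | cons a as => rw [word_cons, skM_zero, Matrix.zero_mul, Matrix.zero_mul]

/-- the bound of the bad event -/
noncomputable def bd (m n : ℕ) (s : ℝ) : ℝ :=
  (s * (LL m n ^ 2 * Fintype.card (Pairs n)) + (gpi (Pairs n)).real (GS n)ᶜ / s) / 2

lemma four_le_eight (a b : ℝ) : a ^ 4 ≤ 8 * ((a - b) ^ 4 + b ^ 4) := by
  linarith only [sq_nonneg ((a - b) ^ 2 - b ^ 2), sq_nonneg ((a - b) ^ 2 - (a - b) * b), sq_nonneg (b ^ 2 - (a - b) * b)]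

/-- fourth moment of an off-diagonal word entry on the good set -/
lemma word_four {as : List (Vec n)} (hn : 1 ≤ n) (h1 : 1 ≤ as.length) (hb : Bdd as)
    {i j : Fin n} (hij : i ≠ j) {s : ℝ} (hs0 : 0 < s) :
    IntegrableOn (fun g => word (skM g) as i j ^ 4) (GS n) (gpi (Pairs n)) ∧
    ∫ g in GS n, word (skM g) as i j ^ 4 ∂gpi (Pairs n)
      ≤ 8 * (144 * LL as.length n ^ 4 + bd as.length n s ^ 4) := by
  set L := LL as.length n with hL
  have hL0 : 0 < L := LL_pos h1 hn
  obtain ⟨f, hf, hfe⟩ := exists_lip_ext (S := GS n) hL0.le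
    (f := fun g => word (skM g) as i j) (fun g hg g' hg' => by
      have h2 := abs_entry_le_hs (word (skM g) as - word (skM g') as) i j
      rw [Matrix.sub_apply] at h2
      exact h2.trans (hs_word_skM hb hg hg'))
  have hf0 : f 0 = 0 := by
    rw [hfe 0 zero_mem_GS, word_zero h1]; rfl
  have hm := measurableSet_GS n
  set E := ∫ g, f g ∂gpi (Pairs n) with hE
  have hEle : |E| ≤ bd as.length n s := by
    have h3 : E = ∫ g in (GS n)ᶜ, f g ∂gpi (Pairs n) := by
      rw [hE, ← integral_add_compl hm hf.integrable]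
      have h4 : ∫ g in GS n, f g ∂gpi (Pairs n) = 0 := by
        rw [setIntegral_congr_fun hm hfe]
        exact integral_word_eq_zero as hij _ hm fun g => opLe_flipD_iff i g
      rw [h4, zero_add]
    rw [h3]
    have h5 := hf.bad_le hf0 hm.compl hs0
    refine le_trans ?_ h5
    have := norm_integral_le_integral_norm (μ := (gpi (Pairs n)).restrict (GS n)ᶜ) f
    simpa [Real.norm_eq_abs] using this
  have hi4 := hf.integrable_four hL0
  rw [← hE] at hi4
  have hif : Integrable (fun g => f g ^ 4) (gpi (Pairs n)) := by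
    refine ((hi4.add (integrable_const (E ^ 4))).const_mul 8).mono'
      (hf.measurable.pow_const 4).aestronglyMeasurable (ae_of_all _ fun g => ?_)
    rw [Real.norm_eq_abs, abs_of_nonneg (by (clear * -; positivity))]
    exact four_le_eight _ _
  have hbd : 0 ≤ bd as.length n s := (abs_nonneg _).trans hEle
  have hEq : ∀ g ∈ GS n, word (skM g) as i j ^ 4 = f g ^ 4 := fun g hg => by rw [hfe g hg]
  constructor
  · exact (hif.integrableOn).congr_fun (fun g hg => (hEq g hg).symm) hm
  · rw [setIntegral_congr_fun hm hEq]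
    calc ∫ g in GS n, f g ^ 4 ∂gpi (Pairs n) ≤ ∫ g, f g ^ 4 ∂gpi (Pairs n) :=
          setIntegral_le_integral hif (ae_of_all _ fun g => by (clear * -; positivity))
      _ ≤ ∫ g, 8 * ((f g - E) ^ 4 + E ^ 4) ∂gpi (Pairs n) :=
          integral_mono hif ((hi4.add (integrable_const (E ^ 4))).const_mul 8)
            fun g => four_le_eight _ _
      _ = 8 * ((∫ g, (f g - E) ^ 4 ∂gpi (Pairs n)) + E ^ 4) := by
          rw [integral_const_mul, integral_add hi4 (integrable_const _)]
          simp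
      _ ≤ 8 * (144 * L ^ 4 + bd as.length n s ^ 4) := by
          have h6 := hf.four_le hL0
          rw [← hE] at h6
          have h7 : E ^ 4 ≤ bd as.length n s ^ 4 := by
            have h8 : E ^ 4 = |E| ^ 4 := by
              have : |E| ^ 4 = (|E| ^ 2) ^ 2 := by ring
              rw [this, sq_abs]; ring
            rw [h8]
            exact pow_le_pow_left₀ (abs_nonneg _) hEle 4
          linarith only [h6, h7]

/-- the mean bound -/
noncomputable def MB (m n : ℕ) (s : ℝ) : ℝ :=
  1 + n ^ 2 * (8 * (144 * LL m n ^ 4 + bd m n s ^ 4)) + bd m n s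

lemma le_one_add_pow_four (y : ℝ) : y ≤ 1 + y ^ 4 := by
  linarith only [sq_nonneg (y ^ 2 - 1 / 2), sq_nonneg (y - 1 / 2)]

/-- concentration of the `ℓ⁴` functional on the good set -/
lemma y4_tail {as : List (Vec n)} (hn : 1 ≤ n) (h1 : 1 ≤ as.length) (hb : Bdd as) {s : ℝ}
    (hs0 : 0 < s) {t : ℝ} (ht : 0 ≤ t) :
    (gpi (Pairs n)).real {g | g ∈ GS n ∧ MB as.length n s + t ≤ y4 (skM g) as}
      ≤ Real.exp (-(t ^ 2 / (4 * LL as.length n ^ 2))) := by
  set L := LL as.length n with hL
  have hL0 : 0 < L := LL_pos h1 hn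
  have hm := measurableSet_GS n
  obtain ⟨f, hf, hfe⟩ := exists_lip_ext (S := GS n) hL0.le
    (f := fun g => y4 (skM g) as) (fun g hg g' hg' =>
      (y4_sub_le _ _ _).trans (hs_word_skM hb hg hg'))
  have hf0 : f 0 = 0 := by
    rw [hfe 0 zero_mem_GS]
    have h2 : y4 (skM (0 : Pairs n → ℝ)) as ^ 4 = 0 := by
      rw [y4_pow]
      unfold odf
      rw [word_zero h1]
      refine Finset.sum_eq_zero fun i _ => Finset.sum_eq_zero fun j _ => ?_
      split_ifs <;> simp
    exact pow_eq_zero_iff (by norm_num) |>.1 h2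
  have hmean : ∫ g, f g ∂gpi (Pairs n) ≤ MB as.length n s := by
    rw [← integral_add_compl hm hf.integrable]
    have h3 : ∫ g in (GS n)ᶜ, f g ∂gpi (Pairs n) ≤ bd as.length n s :=
      (integral_mono (hf.integrable.integrableOn) (hf.integrable.abs.integrableOn)
        fun g => le_abs_self _).trans (hf.bad_le hf0 hm.compl hs0)
    have hint : ∀ i ∈ (Finset.univ : Finset (Fin n)), Integrable (fun g => ∑ j, (if i = j then 0
        else word (skM g) as i j ^ 4)) ((gpi (Pairs n)).restrict (GS n)) := by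
      intro i _
      refine integrable_finsetSum _ fun j _ => ?_
      by_cases hij : i = j
      · simp only [hij, if_true]; exact integrable_zero _ _ _
      · simp only [hij, if_false]; exact (word_four hn h1 hb hij hs0).1
    have hint2 : Integrable (fun g => odf (skM g) as) ((gpi (Pairs n)).restrict (GS n)) := by
      unfold odf
      exact integrable_finsetSum _ hint
    have hB : 0 ≤ 8 * (144 * LL as.length n ^ 4 + bd as.length n s ^ 4) := by
      have := LL_nn as.length n
      (clear * - hL0; positivity)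
    have h4 : ∫ g in GS n, odf (skM g) as ∂gpi (Pairs n)
        ≤ n ^ 2 * (8 * (144 * L ^ 4 + bd as.length n s ^ 4)) := by
      unfold odf
      rw [integral_finsetSum _ hint]
      have h5 : ∀ i ∈ (Finset.univ : Finset (Fin n)), ∫ g in GS n, ∑ j, (if i = j then 0
          else word (skM g) as i j ^ 4) ∂gpi (Pairs n)
          ≤ n * (8 * (144 * L ^ 4 + bd as.length n s ^ 4)) := by
        intro i _
        rw [integral_finsetSum]
        · have h6 : ∀ j ∈ (Finset.univ : Finset (Fin n)), ∫ g in GS n, (if i = j then 0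
              else word (skM g) as i j ^ 4) ∂gpi (Pairs n)
              ≤ 8 * (144 * L ^ 4 + bd as.length n s ^ 4) := by
            intro j _
            by_cases hij : i = j
            · simp only [hij, if_true, integral_zero]; exact hB
            · simp only [hij, if_false]; exact (word_four hn h1 hb hij hs0).2
          refine (Finset.sum_le_sum h6).trans (le_of_eq ?_)
          simp
        · intro j _
          by_cases hij : i = j
          · simp only [hij, if_true]; exact integrable_zero _ _ _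
          · simp only [hij, if_false]; exact (word_four hn h1 hb hij hs0).1
      refine (Finset.sum_le_sum h5).trans (le_of_eq ?_)
      simp; ring
    have h7 : ∫ g in GS n, f g ∂gpi (Pairs n) ≤ ∫ g in GS n, (1 + odf (skM g) as)
        ∂gpi (Pairs n) := by
      refine setIntegral_mono_on hf.integrable.integrableOn
        ((integrable_const 1).add hint2) hm fun g hg => ?_
      rw [hfe g hg, ← y4_pow]
      exact le_one_add_pow_four _
    have h8 : ∫ g in GS n, (1 + odf (skM g) as) ∂gpi (Pairs n)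
        ≤ 1 + n ^ 2 * (8 * (144 * L ^ 4 + bd as.length n s ^ 4)) := by
      rw [integral_add (integrable_const 1) hint2]
      refine add_le_add ?_ h4
      simp only [integral_const, smul_eq_mul, mul_one, measureReal_restrict_apply_univ]
      exact measureReal_le_one
    unfold MB
    linarith only [h3, h7, h8]
  refine le_trans (measureReal_mono fun g hg => ?_) (hf.tail hL0 ht)
  obtain ⟨h9, h10⟩ := hg
  show (∫ w', f w' ∂gpi (Pairs n)) + t ≤ f g
  rw [hfe g h9]
  linarith only [h10, hmean]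

end Vale.Agent.P150.F
end

section

/-! Module G2: off-diagonal entries of words are small in `ℓ⁴`, uniformly over diagonals. -/

open MeasureTheory ProbabilityTheory Real Set Filter Topology

namespace Vale.Agent.P150.F

lemma card_pairs_real (n : ℕ) : (Fintype.card (Pairs n) : ℝ) ≤ n ^ 2 := by
  exact_mod_cast card_pairs n

lemma LL_sq {m n : ℕ} : LL m n ^ 2 = ((m : ℝ) * 3 ^ m) ^ 2 * (2 / n) := by
  unfold LL
  rw [mul_pow, Real.sq_sqrt (by positivity)]

/-- uniform bound of the `ℓ⁴` functional over sign lists of length `m` -/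
theorem y4_signs (m : ℕ) (hm : 1 ≤ m) : ∃ M : ℝ, 0 ≤ M ∧ ∀ᶠ n : ℕ in atTop,
    (gpi (Pairs n)).real {g | g ∈ GS n ∧ ∃ as : List (Vec n), as.length = m ∧ Signs as ∧
      M ≤ y4 (skM g) as} ≤ Real.exp (-n) := by
  obtain ⟨a, ha, N, hN⟩ := opLe_three
  set Cm : ℝ := (m : ℝ) * 3 ^ m with hCm
  have hm' : (1 : ℝ) ≤ m := by exact_mod_cast hm
  have hCm1 : 1 ≤ Cm := by
    have : (1 : ℝ) ≤ 3 ^ m := one_le_pow₀ (by norm_num)
    linarith only [hm', mul_nonneg (sub_nonneg.2 hm') (sub_nonneg.2 this), this]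
  set t : ℝ := 4 * Cm * (m + 1) with ht
  refine ⟨4608 * Cm ^ 4 + 10 + t, by positivity, ?_⟩
  have hlim : Tendsto (fun n : ℕ => (2 * Cm ^ 2 + 1) * ((n : ℝ) ^ 2 * Real.exp (-(a / 2 * n))))
      atTop (𝓝 0) := by
    simpa using (tendsto_exp_lin (c := a / 2) (by positivity) 2).const_mul (2 * Cm ^ 2 + 1)
  filter_upwards [eventually_ge_atTop N, eventually_ge_atTop 1,
    hlim.eventually (gt_mem_nhds (zero_lt_one))] with n hnN hn1 hlt
  have hn0 : (0 : ℝ) < n := by exact_mod_cast hn1
  have hn1' : (1 : ℝ) ≤ n := by exact_mod_cast hn1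
  set s : ℝ := Real.exp (-(a / 2 * n)) with hs
  have hs0 : 0 < s := Real.exp_pos _
  -- the bad event
  have hbd0 : 0 ≤ bd m n s := by
    unfold bd
    have := LL_nn m n
    (clear * -; positivity)
  have hbd : bd m n s ≤ 1 / n := by
    have h1 : (gpi (Pairs n)).real (GS n)ᶜ ≤ s * s := by
      refine (hN n hnN).trans (le_of_eq ?_)
      rw [hs, ← Real.exp_add]
      congr 1; ring
    have h2 : (gpi (Pairs n)).real (GS n)ᶜ / s ≤ s := by
      rw [div_le_iff₀ hs0]; exact h1
    have h3 : LL m n ^ 2 * Fintype.card (Pairs n) ≤ 2 * Cm ^ 2 * n := by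
      rw [LL_sq, ← hCm]
      calc Cm ^ 2 * (2 / n) * (Fintype.card (Pairs n) : ℝ) ≤ Cm ^ 2 * (2 / n) * n ^ 2 :=
            mul_le_mul_of_nonneg_left (card_pairs_real n) (by positivity)
        _ = 2 * Cm ^ 2 * n := by field_simp
    have h4 : bd m n s ≤ (s * (2 * Cm ^ 2 * n) + s) / 2 := by
      unfold bd
      have := mul_le_mul_of_nonneg_left h3 hs0.le
      linarith only [h2, this]
    have h5 : (s * (2 * Cm ^ 2 * n) + s) / 2 ≤ (2 * Cm ^ 2 + 1) * (n * s) := by
      have h6 : s ≤ n * s := by (by_contra nlg; linarith only [mul_nonneg (mul_self_nonneg (s : ℝ)) (sub_nonneg.2 hn1'), mul_pos (sub_pos.2 (not_le.1 nlg)) (sub_pos.2 hs0)])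
      linarith only [mul_nonneg (sq_nonneg Cm) (mul_nonneg hn0.le hs0.le), h6, hs0]
    rw [le_div_iff₀ hn0]
    have h7 : bd m n s * n ≤ (2 * Cm ^ 2 + 1) * (n * s) * n :=
      mul_le_mul_of_nonneg_right (h4.trans h5) hn0.le
    have h8 : (2 * Cm ^ 2 + 1) * (n * s) * n = (2 * Cm ^ 2 + 1) * ((n : ℝ) ^ 2 * s) := by ring
    rw [h8] at h7
    exact h7.trans hlt.le
  have hMB : MB m n s ≤ 4608 * Cm ^ 4 + 10 := by
    unfold MB
    have h1 : LL m n ^ 4 = Cm ^ 4 * (4 / n ^ 2) := by
      have : LL m n ^ 4 = (LL m n ^ 2) ^ 2 := by ring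
      rw [this, LL_sq, ← hCm]
      ring
    have h2 : bd m n s ^ 4 ≤ 1 / n ^ 2 := by
      calc bd m n s ^ 4 ≤ (1 / n : ℝ) ^ 4 := pow_le_pow_left₀ hbd0 hbd 4
        _ = 1 / n ^ 4 := by rw [one_div_pow]
        _ ≤ 1 / n ^ 2 := by
            apply one_div_le_one_div_of_le (by positivity)
            exact pow_le_pow_right₀ hn1' (by norm_num)
    have h3 : bd m n s ≤ 1 := hbd.trans (by
      rw [div_le_one hn0]; exact hn1')
    have h4 : (n : ℝ) ^ 2 * (8 * (144 * LL m n ^ 4 + bd m n s ^ 4))
        ≤ n ^ 2 * (8 * (144 * (Cm ^ 4 * (4 / n ^ 2)) + 1 / n ^ 2)) := by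
      rw [h1]
      have : 0 ≤ (n : ℝ) ^ 2 := by positivity
      refine mul_le_mul_of_nonneg_left ?_ this
      linarith only [h2]
    have h5 : (n : ℝ) ^ 2 * (8 * (144 * (Cm ^ 4 * (4 / n ^ 2)) + 1 / n ^ 2))
        = 4608 * Cm ^ 4 + 8 := by
      field_simp
      ring
    linarith only [h5, h4, h3]
  -- the union over sign lists
  have hsub : {g | g ∈ GS n ∧ ∃ as : List (Vec n), as.length = m ∧ Signs as ∧
      4608 * Cm ^ 4 + 10 + t ≤ y4 (skM g) as} ⊆
      ⋃ b : Fin m → Fin n → Bool, {g | g ∈ GS n ∧ MB m n s + t ≤ y4 (skM g) (sgl b)} := by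
    rintro g ⟨hg, as, hlen, hsg, hle⟩
    obtain ⟨b, hb⟩ := exists_sgl hsg
    subst hlen
    rw [Set.mem_iUnion]
    refine ⟨b, hg, ?_⟩
    rw [← hb]
    linarith only [hle, hMB]
  have hone : ∀ b : Fin m → Fin n → Bool,
      (gpi (Pairs n)).real {g | g ∈ GS n ∧ MB m n s + t ≤ y4 (skM g) (sgl b)}
        ≤ Real.exp (-(2 * (m + 1) ^ 2 * n)) := by
    intro b
    have h1 := y4_tail (n := n) (as := sgl b) hn1 (by rw [length_sgl]; exact hm)
      (signs_sgl b).bdd hs0 (t := t) (by positivity)
    rw [length_sgl] at h1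
    refine h1.trans (le_of_eq ?_)
    congr 1
    rw [LL_sq, ← hCm, ht]
    field_simp
    ring
  refine (measureReal_mono hsub).trans ((measureReal_iUnion_fintype_le _).trans ?_)
  refine (Finset.sum_le_sum fun b _ => hone b).trans ?_
  rw [Finset.sum_const, Finset.card_univ, nsmul_eq_mul]
  have hcard : (Fintype.card (Fin m → Fin n → Bool) : ℝ) ≤ Real.exp (m * n) := by
    simp only [Fintype.card_pi, Fintype.card_bool, Finset.prod_const, Finset.card_univ,
      Fintype.card_fin]
    push_cast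
    have h2 : (2 : ℝ) ≤ Real.exp 1 := by
      have := Real.add_one_le_exp (1 : ℝ)
      linarith only [this]
    calc ((2 : ℝ) ^ n) ^ m ≤ (Real.exp 1 ^ n) ^ m :=
          pow_le_pow_left₀ (by positivity) (pow_le_pow_left₀ (by norm_num) h2 n) m
      _ = Real.exp (m * n) := by
          rw [← Real.exp_nat_mul, ← Real.exp_nat_mul]
          congr 1; ring
  refine (mul_le_mul_of_nonneg_right hcard (Real.exp_pos _).le).trans ?_
  rw [← Real.exp_add]
  refine Real.exp_le_exp.2 ?_
  nlinarith [mul_pos (by linarith only [hm'] : (0 : ℝ) < m) hn0]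

/-- **[G2]** -/
theorem od_whp (ℓ : ℕ) {ε : ℝ} (hε : 0 < ε) : ∀ᶠ i in whpF, OD (skM i.2) ℓ ε := by
  obtain ⟨a, ha, N, hN⟩ := opLe_three
  have hex : ∀ m : ℕ, ∃ M : ℝ, 0 ≤ M ∧ (1 ≤ m → ∀ᶠ n : ℕ in atTop,
      (gpi (Pairs n)).real {g | g ∈ GS n ∧ ∃ as : List (Vec n), as.length = m ∧ Signs as ∧
        M ≤ y4 (skM g) as} ≤ Real.exp (-n)) := by
    intro m
    by_cases hm : 1 ≤ m
    · obtain ⟨M, h1, h2⟩ := y4_signs m hm
      exact ⟨M, h1, fun _ => h2⟩
    · exact ⟨0, le_rfl, fun h => absurd h hm⟩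
  choose M hM0 hM using hex
  have hall : ∀ᶠ n : ℕ in atTop, ∀ m ∈ Finset.Icc 1 ℓ,
      (gpi (Pairs n)).real {g | g ∈ GS n ∧ ∃ as : List (Vec n), as.length = m ∧ Signs as ∧
        M m ≤ y4 (skM g) as} ≤ Real.exp (-n) ∧ M m ^ 4 ≤ ε * n := by
    rw [Filter.eventually_all_finset]
    intro m hm
    have h1 := hM m (Finset.mem_Icc.1 hm).1
    have h2 : ∀ᶠ n : ℕ in atTop, M m ^ 4 ≤ ε * n :=
      (tendsto_natCast_atTop_atTop.const_mul_atTop hε).eventually_ge_atTop (M m ^ 4)
    exact h1.and h2
  have hlim : Tendsto (fun n : ℕ => Real.exp (-(a * n)) + ℓ * Real.exp (-(1 * (n : ℝ))))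
      atTop (𝓝 0) := by
    have h1 := tendsto_exp_lin ha 0
    have h2 := (tendsto_exp_lin one_pos 0).const_mul (ℓ : ℝ)
    simpa using h1.add h2
  refine eventually_whpF_of_real _ hlim ?_
  filter_upwards [hall, eventually_ge_atTop N] with n hn hnN
  have hsub : {g : Pairs n → ℝ | ¬ OD (skM g) ℓ ε} ⊆ {g | ¬ OpLe (skM g) 3} ∪
      ⋃ m ∈ Finset.Icc 1 ℓ, {g | g ∈ GS n ∧ ∃ as : List (Vec n), as.length = m ∧ Signs as ∧
        M m ≤ y4 (skM g) as} := by
    intro g hg
    by_contra hcon
    rw [Set.mem_union, not_or] at hcon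
    obtain ⟨h1, h2⟩ := hcon
    simp only [Set.mem_iUnion, not_exists] at h2
    have h3 : OpLe (skM g) 3 := not_not.1 h1
    refine hg (od_of_signs fun as h4 h5 h6 => ?_)
    have h7 := h2 as.length (Finset.mem_Icc.2 ⟨h4, h5⟩)
    have h8 : y4 (skM g) as < M as.length := by
      by_contra h9
      exact h7 ⟨h3, as, rfl, h6, not_lt.1 h9⟩
    rw [← y4_pow]
    exact (pow_le_pow_left₀ (y4_nn _ _) h8.le 4).trans
      (hn as.length (Finset.mem_Icc.2 ⟨h4, h5⟩)).2
  show (gpi (Pairs n)).real _ ≤ _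
  refine (measureReal_mono hsub).trans ((measureReal_union_le _ _).trans ?_)
  refine add_le_add (hN n hnN) ?_
  refine (measureReal_biUnion_finset_le _ _).trans ?_
  refine (Finset.sum_le_sum fun m hm => (hn m hm).1).trans (le_of_eq ?_)
  rw [Finset.sum_const, Nat.card_Icc, nsmul_eq_mul]
  simp

end Vale.Agent.P150.F
end
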