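import Mathlib
import Vale.Agent.P150.Bdl.B1
import Vale.Agent.P150.Bdl.B20
import Vale.Agent.P150.Bdl.B12
import Vale.Agent.P150.Bdl.B11
import Vale.Agent.P150.Bdl.B8
import Vale.Agent.P150.Bdl.B14
import Vale.Agent.P150.Bdl.B15
import Vale.Agent.P150.Bdl.B24

set_option linter.all false

section

/-! D7: Efron–Stein (Poincaré) inequality for product measures on the cube. -/

open MeasureTheory ProbabilityTheory Filter Topology Real
open scoped Matrix

namespace Vale.Agent.P150.F

/-- product weights -/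
noncomputable def prodW {n : ℕ} (p : Fin n → Bool → ℝ) (x : Cfg n) : ℝ := ∏ i, p i (x i)

namespace D7P

lemma sum_cons {n : ℕ} (f : Cfg (n + 1) → ℝ) :
    ∑ x, f x = ∑ b : Bool, ∑ x : Cfg n, f (Fin.cons b x : Cfg (n + 1)) := by
  rw [← Fintype.sum_prod_type', ← Equiv.sum_comp (Fin.consEquiv fun _ : Fin (n + 1) => Bool)]
  rfl

lemma prodW_cons {n : ℕ} (p : Fin (n + 1) → Bool → ℝ) (b : Bool) (x : Cfg n) :
    prodW p (Fin.cons b x : Cfg (n + 1)) = p 0 b * prodW (fun i => p i.succ) x := by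
  unfold prodW
  rw [Fin.prod_univ_succ]
  simp

lemma flip_cons_zero {n : ℕ} (b : Bool) (x : Cfg n) :
    flip (Fin.cons b x : Cfg (n + 1)) 0 = (Fin.cons (!b) x : Cfg (n + 1)) := by
  unfold flip
  simp

lemma flip_cons_succ {n : ℕ} (b : Bool) (x : Cfg n) (i : Fin n) :
    flip (Fin.cons b x : Cfg (n + 1)) i.succ = (Fin.cons b (flip x i) : Cfg (n + 1)) := by
  unfold flip
  simp

lemma prodW_pos {n : ℕ} {p : Fin n → Bool → ℝ} (hp : ∀ i b, 0 < p i b) (x : Cfg n) :
    0 < prodW p x := Finset.prod_pos fun i _ => hp i _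

lemma prodW_sum {n : ℕ} {p : Fin n → Bool → ℝ} (h1 : ∀ i, p i true + p i false = 1) :
    ∑ x, prodW p x = 1 := by
  unfold prodW
  rw [← Fintype.prod_sum]
  refine Finset.prod_eq_one fun i _ => ?_
  rw [Fintype.sum_bool, h1]

/-- variance as a difference -/
lemma VarX_eq {n : ℕ} {μ : Cfg n → ℝ} (hμ : ∑ x, μ x = 1) (F : Cfg n → ℝ) :
    VarX μ F = (∑ x, μ x * F x ^ 2) - (∑ x, μ x * F x) ^ 2 := by
  have h : VarX μ F = ∑ x, (μ x * F x ^ 2 - 2 * Ex μ F * (μ x * F x) + Ex μ F ^ 2 * μ x) := by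
    have e : VarX μ F = ∑ x, μ x * (F x - Ex μ F) ^ 2 := rfl
    rw [e]
    exact Finset.sum_congr rfl fun x _ => by ring
  rw [h, Finset.sum_add_distrib, Finset.sum_sub_distrib, ← Finset.mul_sum, ← Finset.mul_sum, hμ]
  have e : ∑ x, μ x * F x = Ex μ F := rfl
  rw [e]
  ring

/-- edge sum of the Dirichlet form in one direction -/
noncomputable def edg {n : ℕ} (μ : Cfg n → ℝ) (i : Fin n) (F : Cfg n → ℝ) : ℝ :=
  ∑ x, μ x * μ (flip x i) / (μ x + μ (flip x i)) * ((F (flip x i) - F x) * (F (flip x i) - F x))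

lemma DirW_eq {n : ℕ} (μ F : Cfg n → ℝ) : DirW μ F F = (1 / 2) * ∑ i, edg μ i F := rfl

lemma edg_zero {n : ℕ} {p : Fin (n + 1) → Bool → ℝ} (hp : ∀ i b, 0 < p i b)
    (h1 : ∀ i, p i true + p i false = 1) (F : Cfg (n + 1) → ℝ) :
    edg (prodW p) 0 F = 2 * ∑ x : Cfg n, prodW (fun i => p i.succ) x *
      (p 0 true * p 0 false *
        (F (Fin.cons true x : Cfg (n + 1)) - F (Fin.cons false x : Cfg (n + 1))) ^ 2) := by
  have hw : ∀ (x : Cfg n), 0 < prodW (fun i => p i.succ) x := fun x =>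
    prodW_pos (fun i b => hp _ b) x
  unfold edg
  rw [sum_cons]
  simp only [flip_cons_zero, prodW_cons, Fintype.sum_bool, Bool.not_true, Bool.not_false]
  rw [← Finset.sum_add_distrib, Finset.mul_sum]
  refine Finset.sum_congr rfl fun x _ => ?_
  have h2 := hw x
  set w := prodW (fun i => p i.succ) x
  have h3 := h1 0
  have e1 : p 0 true * w + p 0 false * w = w := by rw [← add_mul, h3, one_mul]
  have e2 : p 0 false * w + p 0 true * w = w := by rw [add_comm, e1]
  rw [e1, e2]
  have hw' : w ≠ 0 := h2.ne'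
  field_simp
  ring

lemma edg_succ {n : ℕ} {p : Fin (n + 1) → Bool → ℝ} (hp : ∀ i b, 0 < p i b) (i : Fin n)
    (F : Cfg (n + 1) → ℝ) :
    edg (prodW p) i.succ F = ∑ b : Bool, p 0 b *
      edg (prodW fun i => p i.succ) i (fun x => F (Fin.cons b x : Cfg (n + 1))) := by
  unfold edg
  rw [sum_cons]
  refine Finset.sum_congr rfl fun b _ => ?_
  rw [Finset.mul_sum]
  refine Finset.sum_congr rfl fun x _ => ?_
  rw [flip_cons_succ, prodW_cons, prodW_cons]
  have hb := hp 0 b
  have h1 : 0 < prodW (fun i => p i.succ) x := prodW_pos (fun i b => hp _ b) x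
  have h2 : 0 < prodW (fun i => p i.succ) (flip x i) := prodW_pos (fun i b => hp _ b) _
  set w := prodW (fun i => p i.succ) x
  set w' := prodW (fun i => p i.succ) (flip x i)
  rw [← mul_add]
  field_simp

/-- convexity of the edge sum -/
lemma edg_convex {n : ℕ} {μ : Cfg n → ℝ} (hμ : ∀ x, 0 ≤ μ x) (i : Fin n) {a b : ℝ} (ha : 0 ≤ a)
    (hb : 0 ≤ b) (hab : a + b = 1) (F G : Cfg n → ℝ) :
    edg μ i (fun x => a * F x + b * G x) ≤ a * edg μ i F + b * edg μ i G := by
  unfold edg
  rw [Finset.mul_sum, Finset.mul_sum, ← Finset.sum_add_distrib]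
  refine Finset.sum_le_sum fun x _ => ?_
  have hw : 0 ≤ μ x * μ (flip x i) / (μ x + μ (flip x i)) :=
    div_nonneg (mul_nonneg (hμ _) (hμ _)) (add_nonneg (hμ _) (hμ _))
  set w := μ x * μ (flip x i) / (μ x + μ (flip x i))
  set u := F (flip x i) - F x
  set v := G (flip x i) - G x
  have e : a * F (flip x i) + b * G (flip x i) - (a * F x + b * G x) = a * u + b * v := by
    simp only [u, v]; ring
  rw [e]
  have h : (a * u + b * v) * (a * u + b * v) ≤ a * (u * u) + b * (v * v) := by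
    have : a * (u * u) + b * (v * v) - (a * u + b * v) * (a * u + b * v) = a * b * (u - v) ^ 2 := by
      have hb' : b = 1 - a := by linarith
      rw [hb']; ring
    have h2 : 0 ≤ a * b * (u - v) ^ 2 := by (clear * - ha hb; positivity)
    linarith only [this, h2]
  calc w * ((a * u + b * v) * (a * u + b * v)) ≤ w * (a * (u * u) + b * (v * v)) :=
        mul_le_mul_of_nonneg_left h hw
    _ = _ := by ring

/-- **Efron–Stein** -/
theorem var_le_dir : ∀ {n : ℕ} {p : Fin n → Bool → ℝ}, (∀ i b, 0 < p i b) →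
    (∀ i, p i true + p i false = 1) → ∀ F : Cfg n → ℝ,
      VarX (prodW p) F ≤ DirW (prodW p) F F := by
  intro n
  induction n with
  | zero =>
    intro p hp h1 F
    rw [VarX_eq (prodW_sum h1), DirW_eq]
    have hx : ∀ f : Cfg 0 → ℝ, ∑ x, f x = f default := fun f =>
      Fintype.sum_eq_single default fun x hx' => absurd (Subsingleton.elim _ _) hx'
    rw [hx, hx]
    have h2 : prodW p default = 1 := by unfold prodW; simp
    rw [h2]
    simp
  | succ n ih =>
    intro p hp h1 F
    set q : Fin n → Bool → ℝ := fun i => p i.succ with hq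
    have hq0 : ∀ i b, 0 < q i b := fun i b => hp _ b
    have hq1 : ∀ i, q i true + q i false = 1 := fun i => h1 _
    set a := p 0 true with ha
    set b := p 0 false with hb
    have hab : a + b = 1 := h1 0
    have ha0 : 0 ≤ a := (hp 0 true).le
    have hb0 : 0 ≤ b := (hp 0 false).le
    set U : Cfg n → ℝ := fun x => F (Fin.cons true x : Cfg (n + 1)) with hU
    set V : Cfg n → ℝ := fun x => F (Fin.cons false x : Cfg (n + 1)) with hV
    have hI := ih hq0 hq1 (fun x => a * U x + b * V x)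
    rw [VarX_eq (prodW_sum hq1), DirW_eq] at hI
    rw [VarX_eq (prodW_sum h1), DirW_eq, Fin.sum_univ_succ, edg_zero hp h1]
    simp only [edg_succ hp, Fintype.sum_bool]
    rw [sum_cons, sum_cons]
    simp only [prodW_cons, Fintype.sum_bool]
    have hc : ∑ i, edg (prodW q) i (fun x => a * U x + b * V x)
        ≤ ∑ i, (a * edg (prodW q) i U + b * edg (prodW q) i V) :=
      Finset.sum_le_sum fun i _ =>
        edg_convex (fun x => (prodW_pos hq0 x).le) i ha0 hb0 hab U V
    have e1 : (∑ x : Cfg n, a * prodW q x * F (Fin.cons true x : Cfg (n + 1)) ^ 2)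
        + ∑ x : Cfg n, b * prodW q x * F (Fin.cons false x : Cfg (n + 1)) ^ 2
        = (∑ x, prodW q x * (a * U x + b * V x) ^ 2)
          + ∑ x, prodW q x * (a * b * (U x - V x) ^ 2) := by
      rw [← Finset.sum_add_distrib, ← Finset.sum_add_distrib]
      refine Finset.sum_congr rfl fun x _ => ?_
      have hb' : b = 1 - a := by linarith
      simp only [hU, hV]
      rw [hb']; ring
    have e2 : (∑ x : Cfg n, a * prodW q x * F (Fin.cons true x : Cfg (n + 1)))
        + ∑ x : Cfg n, b * prodW q x * F (Fin.cons false x : Cfg (n + 1))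
        = ∑ x, prodW q x * (a * U x + b * V x) := by
      rw [← Finset.sum_add_distrib]
      exact Finset.sum_congr rfl fun x _ => by simp only [hU, hV]; ring
    rw [e1, e2]
    simp only [hU, hV] at hI hc ⊢
    linarith only [hI, hc]

end D7P

/-- Poincaré inequality for Gibbs measures without interaction -/
theorem prod_poincare (n : ℕ) (M : Mat n) (y : Vec n) (hM : ∀ i j, i ≠ j → M i j = 0)
    (F : Cfg n → ℝ) : VarX (gM M y) F ≤ DirW (gM M y) F F := by
  set p : Fin n → Bool → ℝ := fun i b =>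
    Real.exp (y i * sp b) / (Real.exp (y i * sp true) + Real.exp (y i * sp false)) with hp
  have hp0 : ∀ i b, 0 < p i b := fun i b => by positivity
  have hp1 : ∀ i, p i true + p i false = 1 := fun i => by
    simp only [hp]
    rw [← add_div]
    exact div_self (by positivity)
  have hqf : ∀ x : Cfg n, qf M (sv x) = ∑ i, M i i := by
    intro x
    unfold qf ip Matrix.mulVec dotProduct
    refine Finset.sum_congr rfl fun i _ => ?_
    rw [Finset.sum_eq_single i]
    · have : sv x i * sv x i = 1 := sp_sq (x i)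
      calc sv x i * (M i i * sv x i) = M i i * (sv x i * sv x i) := by ring
        _ = M i i := by rw [this, mul_one]
    · intro j _ hj
      have : M i j = 0 := hM i j (Ne.symm hj)
      show M i j * sv x j = 0
      rw [this, zero_mul]
    · intro h; exact absurd (Finset.mem_univ i) h
  set c : ℝ := Real.exp ((∑ i, M i i) / 2) with hc
  set Z : ℝ := ∏ i, (Real.exp (y i * sp true) + Real.exp (y i * sp false)) with hZ
  have hZ0 : 0 < Z := Finset.prod_pos fun i _ => by positivity
  have hnum : ∀ x : Cfg n, Real.exp (qf M (sv x) / 2 + ip y (sv x)) = c * Z * prodW p x := by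
    intro x
    rw [hqf, Real.exp_add]
    have h1 : Real.exp (ip y (sv x)) = ∏ i, Real.exp (y i * sp (x i)) := by
      unfold ip
      rw [Real.exp_sum]
      rfl
    have h2 : Z * prodW p x = ∏ i, Real.exp (y i * sp (x i)) := by
      unfold prodW
      rw [hZ, ← Finset.prod_mul_distrib]
      refine Finset.prod_congr rfl fun i _ => ?_
      simp only [hp]
      have : 0 < Real.exp (y i * sp true) + Real.exp (y i * sp false) := by positivity
      field_simp
    rw [h1, ← h2]
    ring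
  have hg : gM M y = prodW p := by
    funext x
    unfold gM
    simp only [hnum]
    rw [← Finset.mul_sum, D7P.prodW_sum hp1]
    have : 0 < c := Real.exp_pos _
    field_simp
  rw [hg]
  exact D7P.var_le_dir hp0 hp1 F

end Vale.Agent.P150.F
end

section

/-! D7: the assembly of the gap theorem. -/

open MeasureTheory ProbabilityTheory Filter Topology Real
open scoped Matrix

namespace Vale.Agent.P150.F

/-- D7 -/
theorem gapStatement_of (h1 : CH1) (hG : CHG) (h2 : CH2) (h5 : CH5a) (h6a : CH6a)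
    (h6 : D6Statement) (h3 : D3MStatement) : GapStatement := by
  intro β hβ0 hβ1 I F n J hg
  refine gap_of_rec hg.hn hg.symm hg.diag (h3 β hβ0 hβ1 F n J hg) ?_
  obtain ⟨C, T, c, hC, hT, hc, hev⟩ := h6 β hβ0 hβ1 F n J hg
  set C2 : ℝ := 2 * Real.exp (2 * trC C T) with hC2d
  have hC2 : 0 ≤ C2 := by positivity
  refine ⟨Real.exp (2 * (C * C2 + 1) * T), Real.exp_pos _, c / 2, by (clear * - hc; positivity), ?_⟩
  filter_upwards [hev, hg.hn.eventually (D7T.tendsto_small hc)] with i hi hsm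
  obtain ⟨δ₁, hδ₁, hrec⟩ := D7R.d7_var h1 hG h2 h5 prod_poincare (n i) hC.le hC2
  obtain ⟨δ₂, hδ₂, hδ₂'⟩ : ∃ δ₂ > 0, C * δ₂ ≤ 1 / 2 := ⟨1 / (2 * C), by (clear * - hC; positivity), by field_simp; rfl⟩
  obtain ⟨D⟩ := hi (min δ₁ δ₂) (lt_min hδ₁ hδ₂)
  set θ : ℝ := Real.exp (-(c / 2 * n i)) with hθ
  set B : ℕ → Set D.S := D.P.badSet (fun _ => D.Exit) θ with hB
  have hBm : ∀ k, MeasurableSet (B k) := fun k =>
    D.P.meas_badSet _ (fun _ => D.measExit) θ k
  have hlaw : D.P.law D.s0 = gM (β • J i) 0 := by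
    unfold Proc.law; rw [D.M0, D.y0]
  have hθ1 : θ ≤ 1 := by
    rw [hθ]; apply Real.exp_le_one_iff.2
    have : 0 ≤ c / 2 * (n i : ℝ) := by (clear * - hc; positivity)
    linarith only [this]
  refine ⟨fun x => D.P.hit B D.N D.s0 x, fun x => D.P.hit_nonneg B _ _ x,
    fun x => D.P.hit_le_one B _ _ x, ?_, ?_⟩
  · have h7 := D.P.hitE_badSet_le h1 hG (fun _ => D.Exit) (fun _ => D.measExit)
      (Real.exp_pos (-(c / 2 * n i))) hθ1 D.N D.s0
    have h8 := D.exit_le
    have e : Ex (gM (β • J i) 0) (fun x => D.P.hit B D.N D.s0 x) = D.P.hitE B D.N D.s0 := by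
      unfold Proc.hitE Proc.avg Ex; rw [hlaw]
    rw [e]
    refine h7.trans ?_
    rw [div_le_iff₀ (Real.exp_pos _), ← Real.exp_add]
    refine h8.trans (le_of_eq ?_)
    congr 1; ring
  · intro G
    have h9 := hrec β T c (J i) (min δ₁ δ₂) (min_le_left _ _) D B hBm
      (fun k s hk hs hsB F => D.covF_nonbad h1 hG h6a hC hsm
        ((mul_le_mul_of_nonneg_left (min_le_right _ _) hC.le).trans hδ₂') hk hs hsB F)
      D.N D.s0 le_rfl D.inv0 G
    rw [hlaw] at h9
    have h10 : Real.exp (2 * (C * C2 + 1) * ∑ j ∈ Finset.range D.N, D.dur j)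
        ≤ Real.exp (2 * (C * C2 + 1) * T) :=
      Real.exp_le_exp.2 (mul_le_mul_of_nonneg_left D.dur_sum (by positivity))
    have hμ := gM_isProb (β • J i) 0
    have h11 : 0 ≤ DirW (gM (β • J i) 0) G G
        + ∑ x, gM (β • J i) 0 x * (G x ^ 2 * D.P.hit B D.N D.s0 x) :=
      add_nonneg (D7R.DirW_nonneg hμ G) (Finset.sum_nonneg fun x _ =>
        mul_nonneg (hμ.1 x) (mul_nonneg (sq_nonneg _) (D.P.hit_nonneg B _ _ x)))
    have h12 : 0 ≤ Ex (gM (β • J i) 0) fun x => G x ^ 2 :=
      Finset.sum_nonneg fun x _ => mul_nonneg (hμ.1 x) (sq_nonneg _)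
    calc VarX (gM (β • J i) 0) G ≤ _ := h9
      _ ≤ Real.exp (2 * (C * C2 + 1) * T) * (DirW (gM (β • J i) 0) G G
        + ∑ x, gM (β • J i) 0 x * (G x ^ 2 * D.P.hit B D.N D.s0 x)) :=
          mul_le_mul_of_nonneg_right h10 h11
      _ = Real.exp (2 * (C * C2 + 1) * T) * (DirW (gM (β • J i) 0) G G
        + Ex (gM (β • J i) 0) fun x => G x ^ 2 * D.P.hit B D.N D.s0 x) := by unfold Ex; rfl
      _ ≤ _ := by linarith only [h12]

end Vale.Agent.P150.F
end

section

/-! CH2, CH3, CH4: variance, entropy and relative entropy in one Gaussian channel step. -/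

open MeasureTheory ProbabilityTheory Filter Topology Real
open scoped Matrix

namespace Vale.Agent.P150.F

open P245 (gsn EG1)

namespace CHC

variable {n m : ℕ}

theorem integral_coord_mul (k l : Fin m) :
    ∫ ξ : Fin m → ℝ, ξ k * ξ l ∂gpi (Fin m) = if k = l then 1 else 0 := by
  by_cases h : k = l
  · subst h
    simp only [← pow_two, if_true]
    exact integral_sq_coord k
  · rw [if_neg h]
    have hmp := mp_flip (ι := Fin m) (fun i => if i = k then (-1 : ℝ) else 1) (fun i => by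
      by_cases hi : i = k <;> simp [hi])
    have h1 : ∫ ξ : Fin m → ℝ, ξ k * ξ l ∂gpi (Fin m) = ∫ ξ : Fin m → ℝ, -(ξ k * ξ l) ∂gpi (Fin m) := by
      conv_lhs => rw [← hmp.map_eq]
      rw [integral_map hmp.measurable.aemeasurable (by exact Continuous.aestronglyMeasurable (by fun_prop))]
      apply integral_congr_ae
      filter_upwards with ξ
      simp [Ne.symm h]
    rw [integral_neg] at h1
    linarith

theorem integral_lin_sq (c : Fin m → ℝ) :
    ∫ g : Fin m → ℝ, (∑ k, g k * c k) ^ 2 ∂gsn m = ∑ k, c k ^ 2 := by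
  have e : ∀ ξ : Fin m → ℝ, (∑ k, ξ k * c k) ^ 2 = ∑ k, ∑ l, (c k * c l) * (ξ k * ξ l) := by
    intro ξ
    rw [pow_two, Finset.sum_mul_sum]
    apply Finset.sum_congr rfl; intro k _
    apply Finset.sum_congr rfl; intro l _
    ring
  simp_rw [e]
  have hi : ∀ k l : Fin m, Integrable (fun ξ : Fin m → ℝ => (c k * c l) * (ξ k * ξ l)) (gsn m) :=
    fun k l => (eg1_cmul (eg1_mul (eg1_coord k) (eg1_coord l)) _).integrable (by exact Continuous.aestronglyMeasurable (by fun_prop))
  rw [integral_finsetSum _ fun k _ => integrable_finsetSum _ fun l _ => hi k l]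
  apply Finset.sum_congr rfl
  intro k _
  rw [integral_finsetSum _ fun l _ => hi k l]
  have := fun l => integral_coord_mul k l
  simp_rw [integral_const_mul, ← gpi_eq_gsn, this]
  simp [pow_two]

variable {ν : Cfg n → ℝ} {δ C : ℝ} {R : Matrix (Fin n) (Fin m) ℝ}

/-- `ℓ` -/
noncomputable def el (R : Matrix (Fin n) (Fin m) ℝ) (g : Fin m → ℝ) (x : Cfg n) : ℝ :=
  ∑ k, g k * chv R x k
/-- `q` -/
noncomputable def qu (R : Matrix (Fin n) (Fin m) ℝ) (x : Cfg n) : ℝ := (∑ k, chv R x k ^ 2) / 2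

theorem lk_eq_W (hδ : 0 ≤ δ) (g : Fin m → ℝ) (x : Cfg n) :
    lk δ (chv R x) g = CHP.W (el R g) (qu R) (√δ) x := by
  unfold lk CHP.W el qu
  rw [sq_sqrt hδ]; congr 1; ring

theorem mlk_eq_Z (hδ : 0 ≤ δ) (g : Fin m → ℝ) :
    mlk ν (chv R) δ g = CHP.Z ν (el R g) (qu R) (√δ) := by
  unfold mlk CHP.Z
  apply Finset.sum_congr rfl; intro x _; rw [lk_eq_W hδ]

/-- the growth function -/
noncomputable def SS1 (n m : ℕ) (C : ℝ) (g : Fin m → ℝ) : ℝ := 1 + Bd1 m (n * |C|) g

theorem R0_nonneg (n : ℕ) (C : ℝ) : 0 ≤ n * |C| := by positivity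

theorem one_le_SS1 (g : Fin m → ℝ) : 1 ≤ SS1 n m C g := by
  have := Bd1_nonneg (R0_nonneg n C) g; unfold SS1; linarith

theorem abs_sg' (hR : ∀ i j, |R i j| ≤ C) (x : Cfg n) (k : Fin m) : |chv R x k| ≤ n * |C| :=
  abs_sg (fun i j => (hR i j).trans (le_abs_self C)) x k

theorem abs_el (hR : ∀ i j, |R i j| ≤ C) (g : Fin m → ℝ) (x : Cfg n) :
    |el R g x| ≤ SS1 n m C g := by
  have h1 := abs_inner_le (fun k => abs_sg' hR x k) g
  have h2 : (0:ℝ) ≤ m * (n * |C|) ^ 2 := by (clear * -; positivity)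
  unfold SS1 Bd1 el; linarith only [h2, h1]

theorem abs_qu (hR : ∀ i j, |R i j| ≤ C) (g : Fin m → ℝ) (x : Cfg n) :
    |qu R x| ≤ SS1 n m C g := by
  have h1 := sq_sum_le (fun k => abs_sg' hR x k)
  have h2 : (0:ℝ) ≤ m * (n * |C|) ^ 2 := by positivity
  have h3 : 0 ≤ (∑ k, chv R x k ^ 2) := Finset.sum_nonneg fun _ _ => sq_nonneg _
  have h4 : 0 ≤ (n * |C|) * S1 g := mul_nonneg (R0_nonneg n C) (S1_nonneg g)
  unfold SS1 Bd1 qu
  rw [abs_of_nonneg (by (clear * -; positivity))]
  linarith [h4, h2, h1]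

theorem exp_SS1 (c : ℝ) (g : Fin m → ℝ) :
    Real.exp (c * SS1 n m C g) = Real.exp c * Real.exp (c * Bd1 m (n * |C|) g) := by
  rw [← Real.exp_add]; congr 1; unfold SS1; ring

theorem integrable_exp_SS1 (c : ℝ) :
    Integrable (fun g : Fin m → ℝ => Real.exp (c * SS1 n m C g)) (gsn m) := by
  simp_rw [exp_SS1]
  exact (integrable_exp_Bd1 _ _).const_mul _

/-- the error constant -/
noncomputable def KK (n m : ℕ) (C : ℝ) : ℝ := ∫ g, Real.exp (12 * SS1 n m C g) ∂(gsn m)

theorem KK_nonneg (n m : ℕ) (C : ℝ) : 0 ≤ KK n m C := integral_nonneg fun _ => (Real.exp_pos _).le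

theorem eg1_lk (R : Matrix (Fin n) (Fin m) ℝ) (x : Cfg n) : EG1 fun g => lk δ (chv R x) g := by
  have h : EG1 fun g : Fin m → ℝ => Real.exp (√δ * ∑ k, |chv R x k| * |g k|) := by
    refine eg1_of_le (C := 1) (c := √δ * ∑ k, |chv R x k|) fun z => ?_
    rw [abs_of_pos (Real.exp_pos _), one_mul, mul_assoc]
    apply Real.exp_le_exp.2
    apply mul_le_mul_of_nonneg_left _ (Real.sqrt_nonneg _)
    unfold S1
    rw [Finset.sum_mul]
    apply Finset.sum_le_sum; intro k _
    exact mul_le_mul_of_nonneg_left (Finset.single_le_sum (f := fun k => |z k|)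
      (fun _ _ => abs_nonneg _) (Finset.mem_univ k)) (abs_nonneg _)
  have h2 := eg1_cmul h (Real.exp (|δ / 2 * ∑ k, chv R x k ^ 2|))
  refine eg1_mono h2 fun g => ?_
  rw [abs_of_pos (lk_pos _ _ _), abs_of_pos (by positivity), ← Real.exp_add]
  unfold lk
  apply Real.exp_le_exp.2
  have h3 : ∑ k, g k * chv R x k ≤ ∑ k, |chv R x k| * |g k| := by
    apply Finset.sum_le_sum; intro k _
    rw [← abs_mul, mul_comm]; exact le_abs_self _
  have h4 := mul_le_mul_of_nonneg_left h3 (Real.sqrt_nonneg δ)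
  have h5 := neg_abs_le (δ / 2 * ∑ k, chv R x k ^ 2)
  linarith

theorem integrable_lk_mul (R : Matrix (Fin n) (Fin m) ℝ) (x : Cfg n) {φ : (Fin m → ℝ) → ℝ}
    (hc : Continuous φ) (hφ : EG1 φ) : Integrable (fun g => lk δ (chv R x) g * φ g) (gsn m) :=
  (eg1_mul (eg1_lk R x) hφ).integrable ((continuous_lk _ _).mul hc).aestronglyMeasurable

theorem continuous_mlk (ν : Cfg n → ℝ) (R : Matrix (Fin n) (Fin m) ℝ) (δ : ℝ) :
    Continuous fun g => mlk ν (chv R) δ g := by
  unfold mlk
  exact continuous_finsetSum _ fun x _ => continuous_const.mul (continuous_lk _ _)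

theorem eg1_bdd {φ : (Fin m → ℝ) → ℝ} {B : ℝ} (h : ∀ g, |φ g| ≤ B) : EG1 φ :=
  eg1_of_le (C := B) (c := 0) fun g => by simpa using h g

theorem continuous_pst_lb (hν : IsProb ν) (R : Matrix (Fin n) (Fin m) ℝ) (δ : ℝ) (x : Cfg n) :
    Continuous fun g => pst ν (R * Rᵀ) δ (lb R δ g) x := by
  simp_rw [pst_lb]
  exact (continuous_const.mul (continuous_lk _ _)).div (continuous_mlk ν R δ) fun g =>
    (mlk_pos hν.1 hν.2 _ _ _).ne'

theorem isProb_pst_lb (hν : IsProb ν) (R : Matrix (Fin n) (Fin m) ℝ) (δ : ℝ) (g : Fin m → ℝ) :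
    IsProb (pst ν (R * Rᵀ) δ (lb R δ g)) := by
  have h := mlk_pos (m := m) hν.1 hν.2 (chv R) δ g
  constructor
  · intro x
    rw [pst_lb]
    exact div_nonneg (mul_nonneg (hν.1 x) (lk_pos _ _ _).le) h.le
  · simp_rw [pst_lb]
    rw [← Finset.sum_div]
    exact div_self h.ne'

theorem isProb_le_one {μ : Cfg n → ℝ} (h : IsProb μ) (x : Cfg n) : μ x ≤ 1 := by
  rw [← h.2]
  exact Finset.single_le_sum (fun x _ => h.1 x) (Finset.mem_univ x)

theorem integral_el_sq (R : Matrix (Fin n) (Fin m) ℝ) (c : Cfg n → ℝ) :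
    ∫ g, (∑ x, c x * el R g x) ^ 2 ∂(gsn m)
      = qf (R * Rᵀ) (fun i => ∑ x, c x * sv x i) := by
  have e : ∀ g : Fin m → ℝ, ∑ x, c x * el R g x = ∑ k, g k * ∑ x, c x * chv R x k := by
    intro g
    unfold el
    simp only [Finset.mul_sum]
    rw [Finset.sum_comm]
    apply Finset.sum_congr rfl; intro k _
    apply Finset.sum_congr rfl; intro x _
    ring
  simp_rw [e, integral_lin_sq]
  have h1 : qf (R * Rᵀ) (fun i => ∑ x, c x * sv x i)
      = (fun i => ∑ x, c x * sv x i) ⬝ᵥ (R * Rᵀ).mulVec (fun i => ∑ x, c x * sv x i) := rfl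
  rw [h1, ← Matrix.mulVec_mulVec, Matrix.dotProduct_mulVec, ← Matrix.mulVec_transpose]
  unfold dotProduct
  apply Finset.sum_congr rfl; intro k _
  have h2 : Rᵀ.mulVec (fun i => ∑ x, c x * sv x i) k = ∑ x, c x * chv R x k := by
    unfold chv Matrix.mulVec dotProduct
    simp only [Finset.mul_sum]
    rw [Finset.sum_comm]
    apply Finset.sum_congr rfl; intro x _
    apply Finset.sum_congr rfl; intro i _
    ring
  rw [h2]; ring

theorem VarX_eq {μ : Cfg n → ℝ} (hμ : IsProb μ) (F : Cfg n → ℝ) (a : ℝ) :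
    VarX μ F = (∑ x, μ x * (F x - a) ^ 2) - (∑ x, μ x * (F x - a)) ^ 2 := by
  unfold VarX Ex
  set e := ∑ x, μ x * F x with he
  have h1 : ∑ x, μ x * (F x - a) = e - a := by
    simp only [mul_sub, Finset.sum_sub_distrib, ← Finset.sum_mul, hμ.2, one_mul, he]
  rw [h1]
  have h2 : ∀ x, μ x * (F x - e) ^ 2
      = μ x * (F x - a) ^ 2 - 2 * (e - a) * (μ x * (F x - a)) + (e - a) ^ 2 * μ x := by
    intro x; ring
  simp_rw [h2]
  rw [Finset.sum_add_distrib, Finset.sum_sub_distrib, ← Finset.mul_sum, ← Finset.mul_sum, h1, hμ.2]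
  ring

end CHC

open CHC

theorem thCH2 : CH2 := by
  intro n m C
  refine ⟨43 * Vale.Agent.P150.F.CHC.KK n m C, mul_nonneg (by norm_num) (KK_nonneg _ _ _), ?_⟩
  intro R hR δ hδ hδ1 ν hν F
  have hpos := fun g => mlk_pos (m := m) hν.1 hν.2 (chv R) δ g
  have hu0 := Real.sqrt_nonneg δ
  have hu1 : √δ ≤ 1 := Real.sqrt_le_one.2 hδ1
  have hu2 : √δ ^ 2 = δ := Real.sq_sqrt hδ
  set Fc : Cfg n → ℝ := fun x => F x - Ex ν F with hFc
  have hF0 : ∑ x, ν x * Fc x = 0 := by
    simp only [hFc, mul_sub, Finset.sum_sub_distrib, ← Finset.sum_mul, hν.2, one_mul]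
    exact sub_self _
  -- pointwise formula
  have hv : ∀ g, VarX (pst ν (R * Rᵀ) δ (lb R δ g)) F
      = (∑ x, ν x * lk δ (chv R x) g * Fc x ^ 2) / mlk ν (chv R) δ g
        - ((∑ x, ν x * (Fc x * lk δ (chv R x) g)) / mlk ν (chv R) δ g) ^ 2 := by
    intro g
    rw [VarX_eq (isProb_pst_lb hν R δ g) F (Ex ν F)]
    simp_rw [pst_lb]
    congr 1
    · rw [Finset.sum_div]; apply Finset.sum_congr rfl; intro x _; ring
    · rw [Finset.sum_div]; congr 1; apply Finset.sum_congr rfl; intro x _; ring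
  have hcont : Continuous fun g => VarX (pst ν (R * Rᵀ) δ (lb R δ g)) F := by
    unfold VarX Ex
    have := fun x => continuous_pst_lb hν R δ x
    fun_prop
  have hVb : ∀ g, |VarX (pst ν (R * Rᵀ) δ (lb R δ g)) F| ≤ ∑ x, Fc x ^ 2 := by
    intro g
    have hp := isProb_pst_lb hν R δ g
    have h0 : 0 ≤ VarX (pst ν (R * Rᵀ) δ (lb R δ g)) F :=
      Finset.sum_nonneg fun x _ => mul_nonneg (hp.1 x) (sq_nonneg _)
    rw [abs_of_nonneg h0, VarX_eq hp F (Ex ν F)]
    have h1 : ∑ x, pst ν (R * Rᵀ) δ (lb R δ g) x * (F x - Ex ν F) ^ 2 ≤ ∑ x, Fc x ^ 2 := by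
      apply Finset.sum_le_sum; intro x _
      have := isProb_le_one hp x
      linarith only [mul_nonneg (sub_nonneg.2 this) (sq_nonneg (F x - Ex ν F))]
    linarith only [sq_nonneg (∑ x, pst ν (R * Rᵀ) δ (lb R δ g) x * (F x - Ex ν F)), h1]
  have hEC := EC_label ν R hδ (fun z => VarX (pst ν (R * Rᵀ) δ z) F) (fun x =>
    integrable_lk_mul R x hcont (eg1_bdd hVb))
  rw [hEC]
  -- the integrand
  have hint : ∀ g, mlk ν (chv R) δ g * VarX (pst ν (R * Rᵀ) δ (lb R δ g)) F
      = (∑ x, ν x * Fc x ^ 2 * lk δ (chv R x) g)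
        - (∑ x, ν x * (Fc x * lk δ (chv R x) g)) ^ 2 / mlk ν (chv R) δ g := by
    intro g
    rw [hv g]
    have := (hpos g).ne'
    have e : ∑ x, ν x * lk δ (chv R x) g * Fc x ^ 2 = ∑ x, ν x * Fc x ^ 2 * lk δ (chv R x) g := by
      apply Finset.sum_congr rfl; intro x _; ring
    rw [e]; field_simp
  -- pointwise bound
  have hpt : ∀ g, (∑ x, ν x * (Fc x * lk δ (chv R x) g)) ^ 2 / mlk ν (chv R) δ g
      ≤ δ * (∑ x, (ν x * Fc x) * el R g x) ^ 2
        + 43 * (δ * √δ) * Real.exp (12 * SS1 n m C g) * VarX ν F := by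
    intro g
    have key := CHP.sq_div_le (F := Fc) (ν := ν) (u := √δ) (S := SS1 n m C g) hν.1 hν.2 hu0 hu1
      (one_le_SS1 g) (abs_el hR g) (abs_qu hR g) hF0
    simp_rw [← lk_eq_W hδ, ← mlk_eq_Z hδ] at key
    have e1 : √δ ^ 3 = δ * √δ := by rw [pow_succ, hu2]
    rw [hu2, e1] at key
    have e2 : ∑ x, ν x * (Fc x * el R g x) = ∑ x, (ν x * Fc x) * el R g x := by
      apply Finset.sum_congr rfl; intro x _; ring
    rw [e2] at key
    exact key
  have hL : Integrable (fun g : Fin m → ℝ => (∑ x, (ν x * Fc x) * el R g x) ^ 2) (gsn m) := by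
    have : EG1 fun g : Fin m → ℝ => (∑ x, (ν x * Fc x) * el R g x) := by
      refine eg1_sum _ fun x _ => eg1_cmul ?_ _
      unfold el
      exact eg1_sum _ fun k _ => by
        simpa [mul_comm] using eg1_cmul (eg1_coord k) (chv R x k)
    have h2 := eg1_mul this this
    simp_rw [pow_two]
    refine h2.integrable ?_
    unfold el; exact Continuous.aestronglyMeasurable (by fun_prop)
  have hI1 : Integrable (fun g => ∑ x, ν x * Fc x ^ 2 * lk δ (chv R x) g) (gsn m) :=
    integrable_finsetSum _ fun x _ =>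
      ((Vale.Agent.P150.F.CHC.eg1_lk R x).integrable (continuous_lk _ _).aestronglyMeasurable).const_mul _
  have hR2 : Integrable (fun g : Fin m → ℝ => δ * (∑ x, (ν x * Fc x) * el R g x) ^ 2
        + 43 * (δ * √δ) * Real.exp (12 * SS1 n m C g) * VarX ν F) (gsn m) :=
    (hL.const_mul _).add ((((integrable_exp_SS1 (n := n) (m := m) (C := C) 12).const_mul
      (43 * (δ * √δ)))).mul_const _)
  have hI2 : Integrable (fun g => (∑ x, ν x * (Fc x * lk δ (chv R x) g)) ^ 2 / mlk ν (chv R) δ g)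
      (gsn m) := by
    refine hR2.mono' ?_ (Eventually.of_forall fun g => ?_)
    · refine Continuous.aestronglyMeasurable ?_
      refine Continuous.div ?_ (continuous_mlk ν R δ) fun g => (hpos g).ne'
      have := fun x => continuous_lk (m := m) δ (chv R x)
      fun_prop
    · rw [Real.norm_of_nonneg (div_nonneg (sq_nonneg _) (hpos g).le)]
      exact hpt g
  have h1 : ∫ g, mlk ν (chv R) δ g * VarX (pst ν (R * Rᵀ) δ (lb R δ g)) F ∂(gsn m)
      = VarX ν F - ∫ g, (∑ x, ν x * (Fc x * lk δ (chv R x) g)) ^ 2 / mlk ν (chv R) δ g ∂(gsn m) := by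
    simp_rw [hint]
    rw [integral_sub hI1 hI2]
    congr 1
    rw [integral_finsetSum _ fun x _ =>
      ((Vale.Agent.P150.F.CHC.eg1_lk R x).integrable (continuous_lk _ _).aestronglyMeasurable).const_mul _]
    unfold VarX Ex
    apply Finset.sum_congr rfl; intro x _
    rw [integral_const_mul, integral_lk_one hδ, mul_one]
    rfl
  have h2 : ∫ g, (∑ x, ν x * (Fc x * lk δ (chv R x) g)) ^ 2 / mlk ν (chv R) δ g ∂(gsn m)
      ≤ δ * qf (R * Rᵀ) (covF ν F) + 43 * Vale.Agent.P150.F.CHC.KK n m C * (δ * √δ) * VarX ν F := by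
    refine (integral_mono hI2 hR2 hpt).trans (le_of_eq ?_)
    rw [integral_add (hL.const_mul _) ((((integrable_exp_SS1 (n := n) (m := m) (C := C) 12).const_mul
      (43 * (δ * √δ)))).mul_const _), integral_const_mul, integral_el_sq, integral_mul_const,
      integral_const_mul]
    have e3 : (fun i => ∑ x, ν x * Fc x * sv x i) = covF ν F := by
      funext i
      unfold covF
      have : ∀ x, ν x * ((F x - Ex ν F) * (sv x i - mean ν i))
          = ν x * Fc x * sv x i - mean ν i * (ν x * Fc x) := by intro x; simp only [hFc]; ring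
      simp_rw [this]
      rw [Finset.sum_sub_distrib, ← Finset.mul_sum, hF0, mul_zero, sub_zero]
    rw [e3]
    unfold Vale.Agent.P150.F.CHC.KK; ring
  rw [h1]; linarith only [h2]

namespace CHC

variable {n m : ℕ} {ν : Cfg n → ℝ} {δ C : ℝ} {R : Matrix (Fin n) (Fin m) ℝ}

theorem integral_coord (k : Fin m) : ∫ g : Fin m → ℝ, g k ∂gsn m = 0 := by
  rw [← gpi_eq_gsn]
  have hmp : MeasurePreserving (Function.eval k) (gpi (Fin m)) (gaussianReal 0 1) :=
    measurePreserving_eval (fun _ : Fin m => gaussianReal 0 1) k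
  have h1 : ∫ w : Fin m → ℝ, w k ∂gpi (Fin m) = ∫ x, x ∂gaussianReal 0 1 := by
    rw [← hmp.map_eq, integral_map hmp.measurable.aemeasurable (by fun_prop)]
  rw [h1, integral_id_gaussianReal]

theorem integrable_coord (k : Fin m) : Integrable (fun g : Fin m → ℝ => g k) (gsn m) :=
  (eg1_coord k).integrable (continuous_apply k).aestronglyMeasurable

theorem integral_lin (c : Fin m → ℝ) : ∫ g : Fin m → ℝ, (∑ k, g k * c k) ∂gsn m = 0 := by
  rw [integral_finsetSum _ fun k _ => (integrable_coord k).mul_const _]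
  apply Finset.sum_eq_zero
  intro k _
  rw [integral_mul_const, integral_coord, zero_mul]

theorem integrable_lin (c : Fin m → ℝ) : Integrable (fun g : Fin m → ℝ => ∑ k, g k * c k) (gsn m) :=
  integrable_finsetSum _ fun k _ => (integrable_coord k).mul_const _

/-- the tilted mean of a linear function -/
theorem integral_lk_lin (hδ : 0 ≤ δ) (v c : Fin m → ℝ) :
    ∫ g : Fin m → ℝ, lk δ v g * (∑ k, g k * c k) ∂gsn m = √δ * ∑ k, v k * c k := by
  rw [integral_lk hδ v (fun g => ∑ k, g k * c k)]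
  have e : ∀ g : Fin m → ℝ, ∑ k, (g + √δ • v) k * c k = (∑ k, g k * c k) + √δ * ∑ k, v k * c k := by
    intro g
    rw [Finset.mul_sum, ← Finset.sum_add_distrib]
    apply Finset.sum_congr rfl; intro k _
    simp only [Pi.add_apply, Pi.smul_apply, smul_eq_mul]; ring
  simp_rw [e]
  rw [integral_add (integrable_lin c) (integrable_const _), integral_lin]
  simp

/-- relative entropy of the tilt -/
theorem integral_lk_log (hδ : 0 ≤ δ) (v : Fin m → ℝ)
    (h1 : Integrable (fun g : Fin m → ℝ => lk δ v g * (∑ k, g k * v k)) (gsn m))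
    (h2 : Integrable (fun g : Fin m → ℝ => lk δ v g) (gsn m)) :
    ∫ g : Fin m → ℝ, lk δ v g * Real.log (lk δ v g) ∂gsn m = δ / 2 * ∑ k, v k ^ 2 := by
  have e : ∀ g : Fin m → ℝ, lk δ v g * Real.log (lk δ v g)
      = √δ * (lk δ v g * (∑ k, g k * v k)) - δ / 2 * (∑ k, v k ^ 2) * lk δ v g := by
    intro g
    have : Real.log (lk δ v g) = √δ * ∑ k, g k * v k - δ / 2 * ∑ k, v k ^ 2 := by
      unfold lk; rw [Real.log_exp]
    rw [this]; ring
  simp_rw [e]
  rw [integral_sub (h1.const_mul _) (h2.const_mul _), integral_const_mul, integral_const_mul,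
    integral_lk_lin hδ, integral_lk_one hδ]
  have h3 : ∑ k, v k * v k = ∑ k, v k ^ 2 := Finset.sum_congr rfl fun k _ => by ring
  have h4 := Real.mul_self_sqrt hδ
  rw [h3]
  linear_combination (∑ k, v k ^ 2) * h4

theorem integrable_lk (R : Matrix (Fin n) (Fin m) ℝ) (x : Cfg n) :
    Integrable (fun g => lk δ (chv R x) g) (gsn m) :=
  (eg1_lk R x).integrable (continuous_lk _ _).aestronglyMeasurable

theorem eg1_lin (c : Fin m → ℝ) : EG1 fun g : Fin m → ℝ => ∑ k, g k * c k :=
  eg1_sum _ fun k _ => by simpa [mul_comm] using eg1_cmul (eg1_coord k) (c k)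

theorem integrable_lk_lin (R : Matrix (Fin n) (Fin m) ℝ) (x : Cfg n) (c : Fin m → ℝ) :
    Integrable (fun g => lk δ (chv R x) g * (∑ k, g k * c k)) (gsn m) :=
  integrable_lk_mul R x (by fun_prop) (eg1_lin c)

theorem integrable_lk_log (R : Matrix (Fin n) (Fin m) ℝ) (x : Cfg n) :
    Integrable (fun g => lk δ (chv R x) g * Real.log (lk δ (chv R x) g)) (gsn m) := by
  have e : ∀ g : Fin m → ℝ, lk δ (chv R x) g * Real.log (lk δ (chv R x) g)
      = √δ * (lk δ (chv R x) g * (∑ k, g k * chv R x k))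
        - δ / 2 * (∑ k, chv R x k ^ 2) * lk δ (chv R x) g := by
    intro g
    have : Real.log (lk δ (chv R x) g) = √δ * ∑ k, g k * chv R x k - δ / 2 * ∑ k, chv R x k ^ 2 := by
      unfold lk; rw [Real.log_exp]
    rw [this]; ring
  simp_rw [e]
  exact ((integrable_lk_lin R x _).const_mul _).sub ((integrable_lk R x).const_mul _)

theorem continuous_log_mlk (hν : IsProb ν) (R : Matrix (Fin n) (Fin m) ℝ) (δ : ℝ) :
    Continuous fun g => Real.log (mlk ν (chv R) δ g) :=
  (continuous_mlk ν R δ).log fun _ => (mlk_pos hν.1 hν.2 _ _ _).ne'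

theorem abs_log_mlk (hν : IsProb ν) (hδ : 0 ≤ δ) (hδ1 : δ ≤ 1) (hR : ∀ i j, |R i j| ≤ C)
    (g : Fin m → ℝ) : |Real.log (mlk ν (chv R) δ g)| ≤ 2 * SS1 n m C g := by
  have hu0 := Real.sqrt_nonneg δ
  have hu1 : √δ ≤ 1 := Real.sqrt_le_one.2 hδ1
  have hS := one_le_SS1 (n := n) (C := C) g
  have h1 := CHP.Z_le (ν := ν) (u := √δ) (S := SS1 n m C g) hν.1 hν.2 hu0 hu1 (by linarith)
    (abs_el hR g) (abs_qu hR g)
  have h2 := CHP.le_Z (ν := ν) (u := √δ) (S := SS1 n m C g) hν.1 hν.2 hu0 hu1 (by linarith only [hS])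
    (abs_el hR g) (abs_qu hR g)
  rw [← mlk_eq_Z hδ] at h1 h2
  have hp := mlk_pos (m := m) hν.1 hν.2 (chv R) δ g
  rw [abs_le]
  constructor
  · rw [Real.le_log_iff_exp_le hp]; exact h2
  · rw [Real.log_le_iff_le_exp hp]; exact h1

theorem eg1_SS1 (n : ℕ) (C : ℝ) : EG1 (SS1 n m C) := by
  have h := eg1_exp_Bd1 (m := m) 1 (n * |C|)
  have h2 := eg1_add (eg1_const (m := m) 1) h
  refine eg1_mono h2 fun g => ?_
  have h3 := Bd1_nonneg (R0_nonneg n C) g
  have h4 := CHP.le_exp_self' (Bd1 m (n * |C|) g)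
  unfold SS1
  have a1 : |1 + Bd1 m (n * |C|) g| = 1 + Bd1 m (n * |C|) g := abs_of_nonneg (by linarith)
  have a2 : |1 + Real.exp (1 * Bd1 m (n * |C|) g)| = 1 + Real.exp (1 * Bd1 m (n * |C|) g) :=
    abs_of_nonneg (by positivity)
  rw [a1, a2, one_mul]
  linarith

theorem eg1_log_mlk (hν : IsProb ν) (hδ : 0 ≤ δ) (hδ1 : δ ≤ 1) (R : Matrix (Fin n) (Fin m) ℝ) :
    EG1 fun g => Real.log (mlk ν (chv R) δ g) := by
  have hR : ∀ i j, |R i j| ≤ ∑ i, ∑ j, |R i j| := fun i j =>
    (Finset.single_le_sum (f := fun j => |R i j|) (fun _ _ => abs_nonneg _)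
    (Finset.mem_univ j)).trans (Finset.single_le_sum (f := fun i => ∑ j, |R i j|)
    (fun _ _ => Finset.sum_nonneg fun _ _ => abs_nonneg _) (Finset.mem_univ i))
  refine eg1_mono (eg1_cmul (eg1_SS1 n (∑ i, ∑ j, |R i j|)) 2) fun g => ?_
  rw [abs_of_nonneg (by have := one_le_SS1 (n := n) (C := ∑ i, ∑ j, |R i j|) g; positivity :
    (0:ℝ) ≤ 2 * SS1 n m (∑ i, ∑ j, |R i j|) g)]
  exact abs_log_mlk hν hδ hδ1 hR g

theorem integrable_mlk_log (hν : IsProb ν) (hδ : 0 ≤ δ) (hδ1 : δ ≤ 1)
    (R : Matrix (Fin n) (Fin m) ℝ) :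
    Integrable (fun g => mlk ν (chv R) δ g * Real.log (mlk ν (chv R) δ g)) (gsn m) := by
  have e : ∀ g, mlk ν (chv R) δ g * Real.log (mlk ν (chv R) δ g)
      = ∑ x, ν x * (lk δ (chv R x) g * Real.log (mlk ν (chv R) δ g)) := by
    intro g
    conv_lhs => rw [mlk, Finset.sum_mul]
    apply Finset.sum_congr rfl; intro x _
    rw [mul_assoc]
    rfl
  simp_rw [e]
  exact integrable_finsetSum _ fun x _ => (integrable_lk_mul R x (continuous_log_mlk hν R δ)
    (eg1_log_mlk hν hδ hδ1 R)).const_mul _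

/-- `∫ Z log Z ≤ δ/2 ⟨m, Q m⟩ + O(δ^{3/2})` -/
theorem integral_mlk_log_le (hν : IsProb ν) (hδ : 0 ≤ δ) (hδ1 : δ ≤ 1)
    (hR : ∀ i j, |R i j| ≤ C) :
    ∫ g, mlk ν (chv R) δ g * Real.log (mlk ν (chv R) δ g) ∂gsn m
      ≤ δ / 2 * qf (R * Rᵀ) (mean ν) + 22 * KK n m C * (δ * √δ) := by
  have hu0 := Real.sqrt_nonneg δ
  have hu1 : √δ ≤ 1 := Real.sqrt_le_one.2 hδ1
  have hu2 : √δ ^ 2 = δ := Real.sq_sqrt hδ
  have hpt : ∀ g, mlk ν (chv R) δ g * Real.log (mlk ν (chv R) δ g)
      ≤ (∑ x, ν x * lk δ (chv R x) g - 1) + δ / 2 * (∑ x, ν x * el R g x) ^ 2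
        + 22 * (δ * √δ) * Real.exp (12 * SS1 n m C g) := by
    intro g
    have key := CHP.Z_log_le (ν := ν) (u := √δ) (S := SS1 n m C g) hν.1 hν.2 hu0 hu1
      (one_le_SS1 g) (abs_el hR g) (abs_qu hR g)
    rw [← mlk_eq_Z hδ] at key
    have e1 : √δ ^ 3 = δ * √δ := by rw [pow_succ, hu2]
    rw [hu2, e1] at key
    exact key
  have hL : Integrable (fun g : Fin m → ℝ => (∑ x, ν x * el R g x) ^ 2) (gsn m) := by
    have : EG1 fun g : Fin m → ℝ => (∑ x, ν x * el R g x) :=
      eg1_sum _ fun x _ => eg1_cmul (eg1_lin _) _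
    have h2 := eg1_mul this this
    simp_rw [pow_two]
    refine h2.integrable ?_
    unfold el; exact Continuous.aestronglyMeasurable (by fun_prop)
  have hI1 : Integrable (fun g => ∑ x, ν x * lk δ (chv R x) g - 1) (gsn m) :=
    (integrable_finsetSum _ fun x _ => (integrable_lk R x).const_mul _).sub (integrable_const _)
  have hI3 : Integrable (fun g : Fin m → ℝ => 22 * (δ * √δ) * Real.exp (12 * SS1 n m C g)) (gsn m) :=
    (integrable_exp_SS1 (n := n) (m := m) (C := C) 12).const_mul _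
  have hA : Integrable (fun g => (∑ x, ν x * lk δ (chv R x) g - 1)
      + δ / 2 * (∑ x, ν x * el R g x) ^ 2) (gsn m) := hI1.add (hL.const_mul _)
  refine (integral_mono (integrable_mlk_log hν hδ hδ1 R) (hA.add hI3)
    hpt).trans (le_of_eq ?_)
  simp only [Pi.add_apply]
  rw [integral_add hA hI3, integral_add hI1 (hL.const_mul _), integral_sub (integrable_finsetSum _ fun x _ =>
      (integrable_lk R x).const_mul _) (integrable_const _), integral_finsetSum _ fun x _ =>
      (integrable_lk R x).const_mul _, integral_const_mul, integral_const_mul, integral_el_sq]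
  simp_rw [integral_const_mul, integral_lk_one hδ, mul_one]
  rw [hν.2]
  simp only [integral_const, probReal_univ, smul_eq_mul, mul_one, sub_self, zero_add]
  unfold KK
  have : (fun i => ∑ x, ν x * sv x i) = mean ν := rfl
  rw [this]; ring

end CHC

theorem CHC.qf_sub_symm {n m : ℕ} (R : Matrix (Fin n) (Fin m) ℝ) (u v : Vec n) :
    qf (R * Rᵀ) (fun i => u i - v i)
      = qf (R * Rᵀ) u - 2 * ip u ((R * Rᵀ).mulVec v) + qf (R * Rᵀ) v := by
  have h : ∀ a b : Vec n, ip a ((R * Rᵀ).mulVec b) = ∑ k, Rᵀ.mulVec a k * Rᵀ.mulVec b k := by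
    intro a b
    have h1 : ip a ((R * Rᵀ).mulVec b) = a ⬝ᵥ (R * Rᵀ).mulVec b := rfl
    rw [h1, ← Matrix.mulVec_mulVec, Matrix.dotProduct_mulVec, ← Matrix.mulVec_transpose]
    rfl
  have h2 : (fun i => u i - v i) = u - v := rfl
  unfold qf
  rw [h, h, h, h, h2, Matrix.mulVec_sub, Finset.mul_sum, ← Finset.sum_sub_distrib,
    ← Finset.sum_add_distrib]
  apply Finset.sum_congr rfl; intro k _
  simp only [Pi.sub_apply]; ring

theorem thCH3 : CH3 := by
  intro n m C
  refine ⟨22 * Vale.Agent.P150.F.CHC.KK n m C, mul_nonneg (by norm_num) (KK_nonneg _ _ _), ?_⟩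
  intro R hR δ hδ hδ1 ν hν
  have hpos := fun g => mlk_pos (m := m) hν.1 hν.2 (chv R) δ g
  have hHc : Continuous fun g => HS (pst ν (R * Rᵀ) δ (lb R δ g)) := by
    unfold HS
    refine Continuous.neg (continuous_finsetSum _ fun x _ => ?_)
    exact Real.continuous_mul_log.comp (continuous_pst_lb hν R δ x)
  have hHb : EG1 fun g => HS (pst ν (R * Rᵀ) δ (lb R δ g)) := by
    refine eg1_bdd (B := ∑ _x : Cfg n, (1:ℝ)) fun g => ?_
    unfold HS
    rw [abs_neg]
    refine (Finset.abs_sum_le_sum_abs _ _).trans (Finset.sum_le_sum fun x _ => ?_)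
    have hp := isProb_pst_lb hν R δ g
    have h0 := hp.1 x
    have h1 := isProb_le_one hp x
    set p := pst ν (R * Rᵀ) δ (lb R δ g) x
    rcases h0.eq_or_lt with h | h
    · rw [← h]; simp
    · have h2 : Real.log p ≤ 0 := Real.log_nonpos h0 h1
      have h3 := Real.one_sub_inv_le_log_of_pos h
      rw [abs_of_nonpos (mul_nonpos_of_nonneg_of_nonpos h0 h2)]
      have h4 := mul_le_mul_of_nonneg_left h3 h0
      have h5 : p * (1 - p⁻¹) = p - 1 := by field_simp
      linarith only [h5, h4, h]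
  rw [EC_label ν R hδ (fun z => HS (pst ν (R * Rᵀ) δ z)) (fun x => integrable_lk_mul R x hHc hHb)]
  have hint : ∀ g, mlk ν (chv R) δ g * HS (pst ν (R * Rᵀ) δ (lb R δ g))
      = mlk ν (chv R) δ g * Real.log (mlk ν (chv R) δ g)
        - ∑ x, (ν x * Real.log (ν x)) * lk δ (chv R x) g
        - ∑ x, ν x * (lk δ (chv R x) g * Real.log (lk δ (chv R x) g)) := by
    intro g
    have hZ := hpos g
    unfold HS
    have h1 : ∀ x, mlk ν (chv R) δ g * (pst ν (R * Rᵀ) δ (lb R δ g) x
          * Real.log (pst ν (R * Rᵀ) δ (lb R δ g) x))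
        = (ν x * Real.log (ν x)) * lk δ (chv R x) g
          + ν x * (lk δ (chv R x) g * Real.log (lk δ (chv R x) g))
          - (ν x * lk δ (chv R x) g) * Real.log (mlk ν (chv R) δ g) := by
      intro x
      rw [pst_lb]
      rcases (hν.1 x).eq_or_lt with h | h
      · rw [← h]; simp
      · have hl := lk_pos δ (chv R x) g
        rw [Real.log_div (by (clear * - h hl; positivity)) hZ.ne', Real.log_mul h.ne' hl.ne']
        field_simp
    rw [mul_neg, Finset.mul_sum]
    simp_rw [h1]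
    rw [Finset.sum_sub_distrib, Finset.sum_add_distrib, ← Finset.sum_mul]
    have : ∑ x, ν x * lk δ (chv R x) g = mlk ν (chv R) δ g := rfl
    rw [this]; ring
  simp_rw [hint]
  have hI1 := integrable_mlk_log hν hδ hδ1 R
  have hI2 : Integrable (fun g => ∑ x, (ν x * Real.log (ν x)) * lk δ (chv R x) g) (gsn m) :=
    integrable_finsetSum _ fun x _ => (Vale.Agent.P150.F.CHC.integrable_lk R x).const_mul _
  have hI3 : Integrable (fun g => ∑ x, ν x * (lk δ (chv R x) g * Real.log (lk δ (chv R x) g)))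
      (gsn m) := integrable_finsetSum _ fun x _ => (integrable_lk_log R x).const_mul _
  have hA : Integrable (fun g => mlk ν (chv R) δ g * Real.log (mlk ν (chv R) δ g)
        - ∑ x, (ν x * Real.log (ν x)) * lk δ (chv R x) g) (gsn m) := hI1.sub hI2
  rw [integral_sub hA hI3, integral_sub hI1 hI2,
    integral_finsetSum _ fun x _ => (Vale.Agent.P150.F.CHC.integrable_lk R x).const_mul _,
    integral_finsetSum _ fun x _ => (integrable_lk_log R x).const_mul _]
  simp_rw [integral_const_mul, integral_lk_one hδ, mul_one]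
  have e4 : ∀ x, ∫ g, lk δ (chv R x) g * Real.log (lk δ (chv R x) g) ∂gsn m
      = δ / 2 * ∑ k, chv R x k ^ 2 := fun x =>
    integral_lk_log hδ _ (integrable_lk_lin R x _) (Vale.Agent.P150.F.CHC.integrable_lk R x)
  simp_rw [e4]
  have h5 := integral_mlk_log_le hν hδ hδ1 hR
  have h6 : ∑ i, (R * Rᵀ * covM ν) i i = (∑ x, ν x * ∑ k, chv R x k ^ 2) - qf (R * Rᵀ) (mean ν) := by
    have e6 : ∀ i, (R * Rᵀ * covM ν) i i
        = ∑ x, ν x * ((∑ j, (R * Rᵀ) i j * (sv x j - mean ν j)) * (sv x i - mean ν i)) := by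
      intro i
      rw [Matrix.mul_apply]
      unfold covM
      simp only [Finset.mul_sum, Finset.sum_mul]
      rw [Finset.sum_comm]
      apply Finset.sum_congr rfl; intro x _
      apply Finset.sum_congr rfl; intro j _
      ring
    simp_rw [e6]
    rw [Finset.sum_comm]
    have e7 : ∀ x, ∑ i, ν x * ((∑ j, (R * Rᵀ) i j * (sv x j - mean ν j)) * (sv x i - mean ν i))
        = ν x * qf (R * Rᵀ) (fun i => sv x i - mean ν i) := by
      intro x
      rw [← Finset.mul_sum]
      congr 1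
      unfold qf ip Matrix.mulVec dotProduct
      apply Finset.sum_congr rfl; intro i _; ring
    simp_rw [e7, qf_sub_symm, qf_sg]
    have e8 : ∀ x, ν x * (∑ k, chv R x k ^ 2 - 2 * ip (sv x) ((R * Rᵀ).mulVec (mean ν))
        + qf (R * Rᵀ) (mean ν))
        = ν x * ∑ k, chv R x k ^ 2 - 2 * (ν x * ip (sv x) ((R * Rᵀ).mulVec (mean ν)))
          + ν x * qf (R * Rᵀ) (mean ν) := fun x => by ring
    simp_rw [e8]
    rw [Finset.sum_add_distrib, Finset.sum_sub_distrib, ← Finset.mul_sum, ← Finset.sum_mul, hν.2]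
    have e9 : ∑ x, ν x * ip (sv x) ((R * Rᵀ).mulVec (mean ν)) = qf (R * Rᵀ) (mean ν) := by
      unfold qf ip
      simp only [Finset.mul_sum]
      rw [Finset.sum_comm]
      apply Finset.sum_congr rfl; intro i _
      unfold mean
      rw [Finset.sum_mul]
      apply Finset.sum_congr rfl; intro x _
      ring
    rw [e9]; ring
  have h7 : ∑ x, ν x * (δ / 2 * ∑ k, chv R x k ^ 2) = δ / 2 * ∑ x, ν x * ∑ k, chv R x k ^ 2 := by
    rw [Finset.mul_sum]; apply Finset.sum_congr rfl; intro x _; ring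
  rw [h6, h7]
  unfold HS
  linarith only [h5]

end Vale.Agent.P150.F
end

section

namespace Vale.Agent.P150.F

/-- D7 -/
theorem gapStatement (h6 : D6Statement) (h3 : D3MStatement) : GapStatement :=
  gapStatement_of thCH1 thCHG thCH2 thCH5a thCH6a h6 h3

end Vale.Agent.P150.F
end

section

/-! P150 FULL, D3M step (4), deterministic part (helper812): the entropy of a law on the cube is at
least the sum of the entropies of the single spins given all the others, and comparison of the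
latter with `log (2 cosh a) - a tanh a` through the DLR defect. -/

open MeasureTheory ProbabilityTheory Filter Topology Set
open scoped Matrix

namespace Vale.Agent.P150.F

set_option linter.all false

/-- unnormalised entropy of positive weights -/
noncomputable def Hu {n : ℕ} (F : Cfg n → ℝ) : ℝ :=
  (∑ x, F x) * Real.log (∑ x, F x) - ∑ x, F x * Real.log (F x)

/-- unnormalised conditional entropy of spin `i` given the others -/
noncomputable def Ku {n : ℕ} (F : Cfg n → ℝ) (i : Fin n) : ℝ :=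
  ∑ x, F x * (Real.log (F x + F (flip x i)) - Real.log (F x))

theorem log_sum_bool {a b c d : ℝ} (ha : 0 < a) (hb : 0 < b) (hc : 0 < c) (hd : 0 < d) :
    a * (Real.log c - Real.log a) + b * (Real.log d - Real.log b)
      ≤ (a + b) * (Real.log (c + d) - Real.log (a + b)) := by
  have h := Vale.Agent.P150.Prod.log_sum (ι := Bool) (fun _ => 1) (fun s => if s then a else b)
    (fun s => if s then c else d) (fun _ => one_pos) (fun s => by cases s <;> simp [ha, hb])
    (fun s => by cases s <;> simp [hc, hd])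
  simp only [Fintype.sum_bool, one_mul, if_true, Bool.false_eq_true, if_false] at h
  linarith only [h]

theorem Ku_sum_le (n : ℕ) : ∀ F : Cfg n → ℝ, (∀ x, 0 < F x) → ∑ i, Ku F i ≤ Hu F := by
  induction n with
  | zero =>
    intro F hF
    unfold Hu
    simp
  | succ n ih =>
    intro F hF
    let Fs : Bool → Cfg n → ℝ := fun s x => F (Fin.cons s x : Cfg (n + 1))
    have hFs : ∀ s x, 0 < Fs s x := fun s x => hF _
    let G : Cfg n → ℝ := fun x => Fs true x + Fs false x
    have hG : ∀ x, 0 < G x := fun x => add_pos (hFs _ _) (hFs _ _)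
    have h1 := ih G hG
    have hK0 : Ku F 0 = ∑ x, (Fs true x * (Real.log (G x) - Real.log (Fs true x))
        + Fs false x * (Real.log (G x) - Real.log (Fs false x))) := by
      unfold Ku
      rw [Vale.Agent.P150.Prod.sum_cons, Fintype.sum_bool, ← Finset.sum_add_distrib]
      refine Finset.sum_congr rfl fun x _ => ?_
      rw [Vale.Agent.P150.Prod.flip_cons_zero, Vale.Agent.P150.Prod.flip_cons_zero]
      simp only [Bool.not_true, Bool.not_false]
      change Fs true x * (Real.log (Fs true x + Fs false x) - Real.log (Fs true x))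
        + Fs false x * (Real.log (Fs false x + Fs true x) - Real.log (Fs false x)) = _
      rw [add_comm (Fs false x) (Fs true x)]
    have hH : Hu F = Hu G + Ku F 0 := by
      rw [hK0]
      unfold Hu
      rw [Vale.Agent.P150.Prod.sum_cons (fun x => F x * Real.log (F x)),
        Vale.Agent.P150.Prod.sum_cons F, Fintype.sum_bool, Fintype.sum_bool]
      change ((∑ x, Fs true x) + ∑ x, Fs false x) * Real.log ((∑ x, Fs true x) + ∑ x, Fs false x)
        - ((∑ x, Fs true x * Real.log (Fs true x)) + ∑ x, Fs false x * Real.log (Fs false x)) = _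
      have e1 : ∑ x, G x = (∑ x, Fs true x) + ∑ x, Fs false x := Finset.sum_add_distrib
      rw [e1]
      have e2 : ∑ x, (Fs true x * (Real.log (G x) - Real.log (Fs true x))
          + Fs false x * (Real.log (G x) - Real.log (Fs false x)))
          = ∑ x, G x * Real.log (G x) - ((∑ x, Fs true x * Real.log (Fs true x))
            + ∑ x, Fs false x * Real.log (Fs false x)) := by
        rw [← Finset.sum_add_distrib, ← Finset.sum_sub_distrib]
        refine Finset.sum_congr rfl fun x _ => ?_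
        change _ = (Fs true x + Fs false x) * Real.log (G x) - _
        ring
      rw [e2]
      ring
    have hKs : ∀ j : Fin n, Ku F j.succ ≤ Ku G j := by
      intro j
      unfold Ku
      rw [Vale.Agent.P150.Prod.sum_cons, Fintype.sum_bool, ← Finset.sum_add_distrib]
      refine Finset.sum_le_sum fun x _ => ?_
      rw [Vale.Agent.P150.Prod.flip_cons_succ, Vale.Agent.P150.Prod.flip_cons_succ]
      have h := log_sum_bool (hFs true x) (hFs false x)
        (add_pos (hFs true x) (hFs true (flip x j))) (add_pos (hFs false x) (hFs false (flip x j)))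
      have e : Fs true x + Fs true (flip x j) + (Fs false x + Fs false (flip x j))
          = G x + G (flip x j) := by
        change _ = (Fs true x + Fs false x) + (Fs true (flip x j) + Fs false (flip x j))
        ring
      rw [e] at h
      exact h
    rw [Fin.sum_univ_succ, hH]
    have h2 : ∑ j : Fin n, Ku F j.succ ≤ ∑ j, Ku G j := Finset.sum_le_sum fun j _ => hKs j
    linarith only [h2, h1]

theorem HS_eq_Hu {n : ℕ} {ν : Cfg n → ℝ} (h : ∑ x, ν x = 1) : HS ν = Hu ν := by
  unfold HS Hu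
  rw [h]
  simp

/-- binary entropy as a function of the mean -/
noncomputable def hb (c : ℝ) : ℝ := Real.binEntropy ((1 + c) / 2)

theorem hb_neg (c : ℝ) : hb (-c) = hb c := by
  unfold hb
  rw [← Real.binEntropy_one_sub]
  congr 1
  ring

theorem hb_div {a b : ℝ} (ha : 0 < a) (hb' : 0 < b) :
    (a + b) * hb ((a - b) / (a + b)) = a * (Real.log (a + b) - Real.log a)
      + b * (Real.log (a + b) - Real.log b) := by
  have hs : 0 < a + b := add_pos ha hb'
  unfold hb
  rw [Real.binEntropy]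
  have e1 : (1 + (a - b) / (a + b)) / 2 = a / (a + b) := by field_simp; ring
  have e2 : 1 - a / (a + b) = b / (a + b) := by field_simp; ring
  rw [e1, e2, Real.log_inv, Real.log_inv, Real.log_div ha.ne' hs.ne', Real.log_div hb'.ne' hs.ne']
  field_simp
  ring

theorem flip_true_eq {n : ℕ} (i : Fin n) (x : Cfg n) (h : x i = true) :
    Function.update x i true = x ∧ Function.update x i false = flip x i := by
  constructor
  · rw [← h, Function.update_eq_self]
  · unfold flip
    rw [h]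
    rfl

theorem flip_false_eq {n : ℕ} (i : Fin n) (x : Cfg n) (h : x i = false) :
    Function.update x i false = x ∧ Function.update x i true = flip x i := by
  constructor
  · rw [← h, Function.update_eq_self]
  · unfold flip
    rw [h]
    rfl

/-- conditional entropy through the conditional mean -/
theorem Ku_eq {n : ℕ} {ν : Cfg n → ℝ} (hν : ∀ x, 0 < ν x) (i : Fin n) :
    Ku ν i = Ex ν (fun x => hb (condMean ν i x)) := by
  have h1 : ∀ x, (ν x + ν (flip x i)) * hb (condMean ν i x)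
      = ν x * (Real.log (ν x + ν (flip x i)) - Real.log (ν x))
        + ν (flip x i) * (Real.log (ν x + ν (flip x i)) - Real.log (ν (flip x i))) := by
    intro x
    unfold condMean
    rcases hx : x i with _ | _
    · obtain ⟨e1, e2⟩ := flip_false_eq i x hx
      rw [e1, e2, ← hb_neg, ← neg_div, neg_sub, add_comm (ν (flip x i)) (ν x)]
      exact hb_div (hν _) (hν _)
    · obtain ⟨e1, e2⟩ := flip_true_eq i x hx
      rw [e1, e2]
      exact hb_div (hν _) (hν _)
  have hc : ∀ x, condMean ν i (flip x i) = condMean ν i x := by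
    intro x
    unfold condMean flip
    simp only [Function.update_idem]
  have h2 : ∑ x, (ν x + ν (flip x i)) * hb (condMean ν i x)
      = 2 * Ex ν (fun x => hb (condMean ν i x)) := by
    have e1 : ∑ x, ν (flip x i) * hb (condMean ν i x) = ∑ x, ν x * hb (condMean ν i x) := by
      rw [← sum_flip i (fun x => ν x * hb (condMean ν i x))]
      refine Finset.sum_congr rfl fun x _ => ?_
      rw [hc]
    have e2 : ∑ x, (ν x + ν (flip x i)) * hb (condMean ν i x)
        = ∑ x, ν x * hb (condMean ν i x) + ∑ x, ν (flip x i) * hb (condMean ν i x) := by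
      rw [← Finset.sum_add_distrib]
      exact Finset.sum_congr rfl fun x _ => by ring
    rw [e2, e1]
    unfold Ex
    ring
  have h3 : ∑ x, (ν x + ν (flip x i)) * hb (condMean ν i x) = 2 * Ku ν i := by
    rw [Finset.sum_congr rfl fun x _ => h1 x, Finset.sum_add_distrib]
    have e1 : ∑ x, ν (flip x i) * (Real.log (ν x + ν (flip x i)) - Real.log (ν (flip x i)))
        = Ku ν i := by
      unfold Ku
      rw [← sum_flip i (fun x => ν x * (Real.log (ν x + ν (flip x i)) - Real.log (ν x)))]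
      refine Finset.sum_congr rfl fun x _ => ?_
      rw [flip_flip, add_comm (ν (flip x i))]
    rw [e1]
    unfold Ku
    ring
  linarith

/-- **entropy is at least the sum of the conditional entropies** -/
theorem HS_ge {n : ℕ} {ν : Cfg n → ℝ} (hν : ∀ x, 0 < ν x) (h1 : ∑ x, ν x = 1) :
    ∑ i, Ex ν (fun x => hb (condMean ν i x)) ≤ HS ν := by
  rw [HS_eq_Hu h1]
  have := Ku_sum_le n ν hν
  rw [Finset.sum_congr rfl fun i _ => Ku_eq hν i] at this
  exact this

theorem condMean_abs_le {n : ℕ} {ν : Cfg n → ℝ} (hν : ∀ x, 0 < ν x) (i : Fin n) (x : Cfg n) :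
    |condMean ν i x| ≤ 1 := by
  unfold condMean
  have h1 := hν (Function.update x i true)
  have h2 := hν (Function.update x i false)
  rw [abs_div, abs_of_pos (add_pos h1 h2), div_le_one (add_pos h1 h2), abs_le]
  constructor <;> linarith

/-- entropy of a spin with field `a` -/
noncomputable def eb (a : ℝ) : ℝ := Real.log (2 * Real.cosh a) - a * Real.tanh a

theorem hb_tanh (a : ℝ) : hb (Real.tanh a) = eb a := by
  have hp : 0 < Real.exp a := Real.exp_pos a
  have hm : 0 < Real.exp (-a) := Real.exp_pos _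
  have h := hb_div hp hm
  have e1 : (Real.exp a - Real.exp (-a)) / (Real.exp a + Real.exp (-a)) = Real.tanh a :=
    (Real.tanh_eq a).symm
  have e2 : Real.exp a + Real.exp (-a) = 2 * Real.cosh a := by
    rw [Real.cosh_eq]; ring
  rw [e1, e2, Real.log_exp, Real.log_exp] at h
  have hc := Real.cosh_pos a
  have hs : Real.exp a - Real.exp (-a) = 2 * Real.sinh a := by
    rw [Real.sinh_eq]; ring
  have h2 : 2 * Real.cosh a * hb (Real.tanh a)
      = 2 * Real.cosh a * Real.log (2 * Real.cosh a) - a * (2 * Real.sinh a) := by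
    rw [h, ← hs]
    have : Real.exp a * (Real.log (2 * Real.cosh a) - a)
        + Real.exp (-a) * (Real.log (2 * Real.cosh a) - -a)
        = (Real.exp a + Real.exp (-a)) * Real.log (2 * Real.cosh a)
          - a * (Real.exp a - Real.exp (-a)) := by ring
    rw [this, e2]
  unfold eb
  have h3 : 2 * Real.cosh a * (Real.log (2 * Real.cosh a) - a * Real.tanh a)
      = 2 * Real.cosh a * Real.log (2 * Real.cosh a) - a * (2 * Real.sinh a) := by
    rw [Real.tanh_eq_sinh_div_cosh]
    field_simp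
  have h4 : (2 * Real.cosh a) ≠ 0 := by positivity
  exact mul_left_cancel₀ h4 (h2.trans h3.symm)

/-- uniform continuity of the binary entropy in quadratic form -/
theorem hb_modulus {ε : ℝ} (hε : 0 < ε) :
    ∃ C, 0 ≤ C ∧ ∀ c t : ℝ, |c| ≤ 1 → |t| ≤ 1 → |hb c - hb t| ≤ ε + C * (c - t) ^ 2 := by
  have hcont : Continuous hb := by
    unfold hb
    exact Real.binEntropy_continuous.comp (by fun_prop)
  have huc : UniformContinuousOn hb (Icc (-1) 1) :=
    isCompact_Icc.uniformContinuousOn_of_continuous hcont.continuousOn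
  rw [Metric.uniformContinuousOn_iff] at huc
  obtain ⟨δ, hδ, hh⟩ := huc ε hε
  refine ⟨Real.log 2 / δ ^ 2, div_nonneg (Real.log_nonneg (by norm_num)) (sq_nonneg _),
    fun c t hc ht => ?_⟩
  have hc' : c ∈ Icc (-1 : ℝ) 1 := abs_le.1 hc
  have ht' : t ∈ Icc (-1 : ℝ) 1 := abs_le.1 ht
  by_cases hd : |c - t| < δ
  · have := hh c hc' t ht' (by rw [Real.dist_eq]; exact hd)
    rw [Real.dist_eq] at this
    have h0 : 0 ≤ Real.log 2 / δ ^ 2 * (c - t) ^ 2 :=
      mul_nonneg (div_nonneg (Real.log_nonneg (by norm_num)) (sq_nonneg _)) (sq_nonneg _)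
    linarith only [h0, this]
  · push Not at hd
    have hb0 : ∀ u : ℝ, u ∈ Icc (-1 : ℝ) 1 → 0 ≤ hb u ∧ hb u ≤ Real.log 2 := by
      intro u hu
      unfold hb
      exact ⟨Real.binEntropy_nonneg (by linarith only [hu.1]) (by linarith [hu.2]),
        Real.binEntropy_le_log_two⟩
    have h1 := hb0 c hc'
    have h2 := hb0 t ht'
    have h3 : |hb c - hb t| ≤ Real.log 2 := by
      rw [abs_le]
      constructor <;> linarith
    have h4 : Real.log 2 ≤ Real.log 2 / δ ^ 2 * (c - t) ^ 2 := by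
      rw [div_mul_eq_mul_div, le_div_iff₀ (by positivity)]
      refine mul_le_mul_of_nonneg_left ?_ (Real.log_nonneg (by norm_num))
      have := pow_le_pow_left₀ hδ.le hd 2
      rwa [sq_abs] at this
    linarith only [hε, h3, h4]

/-- **comparison with the local fields**: `HS ν` is at least the mean of the entropies of the spins
with the DLR fields, up to `ε n + C dlr`. -/
theorem HS_ge_field {ε : ℝ} (hε : 0 < ε) :
    ∃ C, 0 ≤ C ∧ ∀ (n : ℕ) (ν : Cfg n → ℝ), (∀ x, 0 < ν x) → ∑ x, ν x = 1 →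
      ∀ (M : Mat n) (y : Vec n),
        Ex ν (fun x => ∑ i, eb (M.mulVec (sv x) i - M i i * sv x i + y i))
          - ε * n - C * dlr M y ν ≤ HS ν := by
  obtain ⟨C, hC0, hC⟩ := hb_modulus hε
  refine ⟨C, hC0, fun n ν hν h1 M y => ?_⟩
  refine le_trans ?_ (HS_ge hν h1)
  have key : ∀ x i, eb (M.mulVec (sv x) i - M i i * sv x i + y i) ≤ hb (condMean ν i x) + (ε
      + C * (condMean ν i x - Real.tanh (M.mulVec (sv x) i - M i i * sv x i + y i)) ^ 2) := by
    intro x i
    have h := hC (condMean ν i x) (Real.tanh (M.mulVec (sv x) i - M i i * sv x i + y i))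
      (condMean_abs_le hν i x) (Real.abs_tanh_lt_one _).le
    rw [hb_tanh] at h
    have := (abs_le.1 h).1
    linarith
  have h2 : Ex ν (fun x => ∑ i, eb (M.mulVec (sv x) i - M i i * sv x i + y i))
      ≤ Ex ν (fun x => ∑ i, (hb (condMean ν i x) + (ε
      + C * (condMean ν i x - Real.tanh (M.mulVec (sv x) i - M i i * sv x i + y i)) ^ 2))) := by
    unfold Ex
    exact Finset.sum_le_sum fun x _ => mul_le_mul_of_nonneg_left
      (Finset.sum_le_sum fun i _ => key x i) (hν x).le
  have h3 : Ex ν (fun x => ∑ i, (hb (condMean ν i x) + (ε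
      + C * (condMean ν i x - Real.tanh (M.mulVec (sv x) i - M i i * sv x i + y i)) ^ 2)))
      = (∑ i, Ex ν (fun x => hb (condMean ν i x))) + ε * n + C * dlr M y ν := by
    unfold Ex dlr
    rw [Finset.sum_comm, Finset.mul_sum]
    have e1 : ∀ x, ν x * ∑ i, (hb (condMean ν i x) + (ε
        + C * (condMean ν i x - Real.tanh (M.mulVec (sv x) i - M i i * sv x i + y i)) ^ 2))
        = ∑ i, ν x * hb (condMean ν i x) + (ν x * (ε * n) + C * (ν x * ∑ i, (condMean ν i x
          - Real.tanh (M.mulVec (sv x) i - M i i * sv x i + y i)) ^ 2)) := by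
      intro x
      rw [Finset.sum_add_distrib, Finset.sum_add_distrib, Finset.sum_const, Finset.card_univ,
        Fintype.card_fin, nsmul_eq_mul, ← Finset.mul_sum, mul_add, mul_add, Finset.mul_sum]
      ring
    rw [Finset.sum_congr rfl fun x _ => e1 x, Finset.sum_add_distrib, Finset.sum_add_distrib,
      ← Finset.sum_mul, h1]
    ring
  linarith

end Vale.Agent.P150.F
end

section

/-! D3M, step (4): the entropy at the end of the `J`-killing path (helper760). -/

open MeasureTheory ProbabilityTheory Filter Topology Real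
open scoped Matrix

namespace Vale.Agent.P150.F.DM

variable {n m : ℕ}

/-! ### the spin entropy `eb` -/

theorem eb_eq_hb (a : ℝ) : eb a = hb (Real.tanh a) := (hb_tanh a).symm

theorem continuous_eb : Continuous eb := by
  have hc : Continuous hb := by
    unfold hb
    exact Real.binEntropy_continuous.comp (by fun_prop)
  have : eb = fun a => hb (Real.tanh a) := funext eb_eq_hb
  rw [this]
  exact hc.comp rs_tanh_cont

theorem eb_bd (a : ℝ) : 0 ≤ eb a ∧ eb a ≤ Real.log 2 := by
  rw [eb_eq_hb]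
  unfold hb
  have h := abs_le.1 (rs_tanh_abs_le a)
  exact ⟨Real.binEntropy_nonneg (by linarith only [h.1]) (by linarith only [h.2]),
    Real.binEntropy_le_log_two⟩

theorem log_two_le_one : Real.log 2 ≤ 1 := by
  have := Real.log_two_lt_d9
  linarith only [this]

theorem abs_eb_le (a : ℝ) : |eb a| ≤ 1 := by
  rw [abs_of_nonneg (eb_bd a).1]
  exact (eb_bd a).2.trans log_two_le_one

theorem eb_neg (a : ℝ) : eb (-a) = eb a := by
  rw [eb_eq_hb, eb_eq_hb, Real.tanh_neg, hb_neg]

/-- the mean spin entropy in the field `g ε + √g N` -/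
theorem NEs_eb {g ε : ℝ} (hg : 0 ≤ g) (hε : ε = 1 ∨ ε = -1) :
    D3.NEs (fun _ a => eb a) g ε = Real.log 2 - iRS g := by
  have h1 : D3.NEs (fun _ a => eb a) g 1 = Real.log 2 - iRS g := by
    rw [← NE_entropy hg]
    unfold D3.NEs NE eb
    simp only [mul_one]
  rcases hε with rfl | rfl
  · exact h1
  · rw [← h1]
    unfold D3.NEs
    rw [← sg_map_neg]
    refine integral_congr_ae (Eventually.of_forall fun z => ?_)
    show eb (g * -1 + √g * -z) = eb (g * 1 + √g * z)
    rw [← eb_neg]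
    congr 1
    ring

/-! ### product weights -/

theorem EJ_prod (ν : Cfg n → ℝ) (R : Matrix (Fin n) (Fin m) ℝ) (s : ℝ) (Φ : Cfg n → Vec n → ℝ) :
    D3.EJ (m := m) (fun x _ => ν x) (fun x ξ => Φ x (obs R s x ξ)) = EC ν R s Φ := by
  unfold D3.EJ EC
  refine Finset.sum_congr rfl fun x _ => ?_
  rw [integral_const_mul]

theorem measurable_HS_pst {ν : Cfg n → ℝ} (hν : IsProb ν) (Q : Mat n) (δ : ℝ) :
    Measurable fun z => HS (pst ν Q δ z) := by
  unfold HS
  have hp := measurable_pst hν Q δ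
  exact (Finset.measurable_fun_sum _ fun x _ => (hp x).mul (hp x).log).neg

/-- the Shannon entropy of weights on the cube is between `0` and `2 ^ n` -/
theorem HS_bd {ν : Cfg n → ℝ} (hν : IsProb ν) : 0 ≤ HS ν ∧ HS ν ≤ Fintype.card (Cfg n) := by
  have h1 : ∀ x, ν x ≤ 1 := fun x => by
    rw [← hν.2]
    exact Finset.single_le_sum (fun y _ => hν.1 y) (Finset.mem_univ x)
  have h2 : ∀ x, 0 ≤ -(ν x * Real.log (ν x)) ∧ -(ν x * Real.log (ν x)) ≤ 1 := by
    intro x
    have h0 := hν.1 x
    constructor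
    · have := Real.log_nonpos h0 (h1 x)
      rw [Left.nonneg_neg_iff]
      exact mul_nonpos_of_nonneg_of_nonpos h0 this
    · rcases h0.eq_or_lt with h | h
      · rw [← h]; simp
      · have h3 := Real.log_le_sub_one_of_pos (inv_pos.2 h)
        rw [Real.log_inv] at h3
        have h4 := mul_le_mul_of_nonneg_left h3 h.le
        rw [mul_sub, mul_inv_cancel₀ h.ne', mul_one] at h4
        linarith only [h4, h]
  unfold HS
  rw [← Finset.sum_neg_distrib]
  constructor
  · exact Finset.sum_nonneg fun x _ => (h2 x).1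
  · refine (Finset.sum_le_sum fun x _ => (h2 x).2).trans (le_of_eq ?_)
    simp [Finset.card_univ]

theorem integrable_sum_eb (R : Matrix (Fin n) (Fin m) ℝ) {δ : ℝ} (hδ : 0 ≤ δ) (x : Cfg n) :
    Integrable (fun ξ => ∑ i, eb (obs R δ x ξ i)) (gpi (Fin m)) := by
  refine integrable_obs_bdd R hδ x (Φ := fun z => ∑ i, eb (z i)) ?_ (C := n) fun z => ?_
  · exact Finset.measurable_fun_sum _ fun i _ =>
      continuous_eb.measurable.comp (measurable_pi_apply i)
  · refine (Finset.abs_sum_le_sum_abs _ _).trans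
      ((Finset.sum_le_sum fun i _ => abs_eb_le _).trans (le_of_eq ?_))
    simp

/-- entropy at the end of the path, for a fixed size -/
theorem end_ge {δ C : ℝ} (hC0 : 0 ≤ C)
    (hC : ∀ (n : ℕ) (ν : Cfg n → ℝ), (∀ x, 0 < ν x) → ∑ x, ν x = 1 →
      ∀ (M : Mat n) (y : Vec n),
        Ex ν (fun x => ∑ i, eb (M.mulVec (sv x) i - M i i * sv x i + y i))
          - δ * n - C * dlr M y ν ≤ HS ν)
    {β κ : ℝ} (hβ : 0 ≤ β) {J : Mat n} (hd : ∀ i, J i i = 0)
    {R : Matrix (Fin n) (Fin m) ℝ} (hR : R * Rᵀ = J + κ • (1 : Mat n))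
    {ν : Cfg n → ℝ} (hν : IsProb ν) (hp : ∀ x, 0 < ν x) :
    EC ν R β (fun _ z => ∑ i, eb (z i)) - δ * n - C * (4 * IP' ν (gM (β • J) 0))
      ≤ EC ν R β (fun _ z => HS (pst ν (R * Rᵀ) β z)) := by
  have i1 := fun x => integrable_sum_eb R hβ x
  have i2 : ∀ x : Cfg n, Integrable (fun ξ => dlr (0 : Mat n) (obs R β x ξ)
      (pst ν (R * Rᵀ) β (obs R β x ξ))) (gpi (Fin m)) := fun x =>
    integrable_obs_bdd R hβ x (measurable_dlr_pst hν _ _ _) (C := 4 * n) fun z => by
      rw [abs_of_nonneg (dlr_nonneg (pst_isProb hν _ _ _).1 _ _)]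
      exact dlr_le (pst_isProb hν _ _ _) _ _
  have i3 : ∀ x : Cfg n, Integrable (fun ξ => HS (pst ν (R * Rᵀ) β (obs R β x ξ)))
      (gpi (Fin m)) := fun x =>
    integrable_obs_bdd R hβ x (measurable_HS_pst hν _ _) (C := Fintype.card (Cfg n))
      fun z => by
      obtain ⟨h1, h2⟩ := HS_bd (pst_isProb hν (R * Rᵀ) β z)
      rw [abs_of_nonneg h1]
      exact h2
  have h1 := EC_mono hν.1 R β
    (Φ := fun _ z => (∑ i, eb (z i)) + (-(δ * n) + (-C) * dlr (0 : Mat n) z
      (pst ν (R * Rᵀ) β z)))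
    (Ψ := fun _ z => HS (pst ν (R * Rᵀ) β z))
    (fun x => (i1 x).add ((integrable_const _).add ((i2 x).const_mul _))) i3 (fun _ z => by
      have h2 := hC n (pst ν (R * Rᵀ) β z) (pst_pos hν hp (R * Rᵀ) β z)
        (pst_isProb hν (R * Rᵀ) β z).2 0 z
      have h3 : Ex (pst ν (R * Rᵀ) β z) (fun x => ∑ i, eb ((0 : Mat n).mulVec (sv x) i
          - (0 : Mat n) i i * sv x i + z i)) = ∑ i, eb (z i) := by
        simp only [Matrix.zero_mulVec, Pi.zero_apply, Matrix.zero_apply, zero_mul, sub_zero,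
          zero_add]
        unfold Ex
        rw [← Finset.sum_mul, (pst_isProb hν (R * Rᵀ) β z).2, one_mul]
      rw [h3] at h2
      linarith only [h2])
  rw [EC_add R β i1 (fun x => (integrable_const _).add ((i2 x).const_mul _)),
    EC_add R β (Φ := fun _ _ => -(δ * n)) (fun x => integrable_const _)
      (fun x => (i2 x).const_mul _), EC_const hν.2, EC_const_mul] at h1
  have h2 := dlr_path (β := β) (s := β) hd hR hβ hν hp
  rw [sub_self, zero_smul] at h2
  have h3 := mul_le_mul_of_nonneg_left h2 hC0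
  linarith only [h1, h3]

/-- the mean of the spin entropies at the end of the path -/
theorem sum_eb_ge {β κ : ℝ} (hβ : 0 ≤ β) (hκ : 0 ≤ κ) {J : Mat n}
    {R : Matrix (Fin n) (Fin m) ℝ} {ν : Cfg n → ℝ} (hν : IsProb ν) {e : ℝ}
    (hn : 0 < n)
    (h : D3.EJ (m := m) (fun x _ => ν x) (fun x ξ => |(∑ j, ((fun _ a => eb a) (sv x j)
        (ampA ((β - β) • J) (β - β) (obs R β x ξ) x 0 j)
        - D3.NEs (fun _ a => eb a) (gam β κ β 0) (sv x j))) / n|) ≤ e) :
    (Real.log 2 - iRS (β ^ 2 + β * κ) - e) * n ≤ EC ν R β (fun _ z => ∑ i, eb (z i)) := by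
  have hn' : (0 : ℝ) < n := Nat.cast_pos.2 hn
  set c : ℝ := Real.log 2 - iRS (β ^ 2 + β * κ) with hc
  have hg : 0 ≤ β ^ 2 + β * κ := add_nonneg (sq_nonneg _) (mul_nonneg hβ hκ)
  have e1 : (fun (x : Cfg n) (ξ : Fin m → ℝ) => |(∑ j, ((fun _ a => eb a) (sv x j)
        (ampA ((β - β) • J) (β - β) (obs R β x ξ) x 0 j)
        - D3.NEs (fun _ a => eb a) (gam β κ β 0) (sv x j))) / n|)
      = fun (x : Cfg n) (ξ : Fin m → ℝ) =>
        (fun (_ : Cfg n) (z : Vec n) => |(∑ j, eb (z j)) / n - c|) x (obs R β x ξ) := by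
    funext x ξ
    have e2 : ∀ j, ((fun (_ : ℝ) a => eb a) (sv x j)
        (ampA ((β - β) • J) (β - β) (obs R β x ξ) x 0 j)
        - D3.NEs (fun _ a => eb a) (gam β κ β 0) (sv x j)) = eb (obs R β x ξ j) - c := by
      intro j
      have hsv : sv x j = 1 ∨ sv x j = -1 := by
        unfold sv sp
        cases x j <;> simp
      rw [gam_zero, NEs_eb hg hsv]
      show eb (((β - β) • J).mulVec (sv x) j + obs R β x ξ j) - c = _
      rw [sub_self, zero_smul, Matrix.zero_mulVec, Pi.zero_apply, zero_add]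
    rw [Finset.sum_congr rfl fun j _ => e2 j, Finset.sum_sub_distrib, Finset.sum_const,
      Finset.card_univ, Fintype.card_fin, nsmul_eq_mul]
    show |_| = |_|
    congr 1
    field_simp
  rw [e1] at h
  have h := (le_of_eq (EJ_prod ν R β (fun _ z => |(∑ j, eb (z j)) / n - c|)).symm).trans h
  have i1 := fun x => integrable_sum_eb R hβ x
  have i0 : ∀ x : Cfg n, Integrable (fun ξ => (∑ j, eb (obs R β x ξ j)) / n - c)
      (gpi (Fin m)) := fun x => ((i1 x).div_const _).sub (integrable_const _)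
  have h1 := EC_mono hν.1 R β (Φ := fun _ z => (1 / n : ℝ) * (∑ j, eb (z j)) + (-c))
    (Ψ := fun _ z => (∑ j, eb (z j)) / n - c)
    (fun x => ((i1 x).const_mul _).add (integrable_const _)) i0
    (fun _ z => by rw [one_div, inv_mul_eq_div]; exact le_of_eq (sub_eq_add_neg _ _).symm)
  have h2 := EC_mono hν.1 R β (Φ := fun _ _ => (0 : ℝ)) (Ψ := fun _ z =>
    |(∑ j, eb (z j)) / n - c| + ((1 / n : ℝ) * (∑ j, eb (z j)) + (-c)))
    (fun x => integrable_const _)
    (fun x => (i0 x).abs.add (((i1 x).const_mul _).add (integrable_const _)))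
    (fun _ z => by
      have h3 := neg_abs_le ((∑ j, eb (z j)) / n - c)
      have h4 : (1 / n : ℝ) * (∑ j, eb (z j)) = (∑ j, eb (z j)) / n := by
        rw [one_div, inv_mul_eq_div]
      rw [h4]
      linarith only [h3])
  rw [EC_const hν.2, EC_add R β (fun x => (i0 x).abs)
    (fun x => ((i1 x).const_mul _).add (integrable_const _)),
    EC_add R β (Ψ := fun _ _ => -c) (fun x => (i1 x).const_mul _) (fun x => integrable_const _),
    EC_const hν.2, EC_const_mul] at h2
  have h5 : (1 / n : ℝ) * EC ν R β (fun _ z => ∑ j, eb (z j)) * n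
      = EC ν R β (fun _ z => ∑ j, eb (z j)) := by
    field_simp
  have h6 : c - e ≤ (1 / n : ℝ) * EC ν R β (fun _ z => ∑ j, eb (z j)) := by
    linarith only [h2, h]
  have h7 := mul_le_mul_of_nonneg_right h6 hn'.le
  rw [h5] at h7
  exact h7

/-- **D3M-4**: lower bound on the entropy at the end of the path -/
theorem d3m4_of (hb : D3.D3bStatement) : D3M4 := by
  intro β hβ0 hβ1 κ hκ I F n J hG ε hε
  obtain ⟨C, hC0, hC⟩ := HS_ge_field (show (0 : ℝ) < ε / 3 by positivity)
  have hA := (hb β κ hβ0 hβ1 hκ).2.1 F n J hG (fun _ a => eb a) 1 (fun _ => continuous_eb)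
    (fun _ a => (abs_eb_le a).trans (by linarith only [abs_nonneg a])) κ 0 (ε / 3) (by positivity)
  obtain ⟨η, hη, h1⟩ := hA
  obtain ⟨η', hη', h2⟩ := D3.jhyp_prod hκ hG hη
  refine ⟨min η' (ε / (12 * (C + 1))), lt_min hη' (by positivity), ?_⟩
  filter_upwards [h1, h2, hG.hn.eventually_gt_atTop 0] with i h3 h4 hn R hR ν hν hp hI
  have hn' : (0 : ℝ) ≤ n i := Nat.cast_nonneg _
  have hs : β ∈ Set.Icc (0 : ℝ) β := ⟨hβ0, le_refl _⟩
  have h5 := h4 (n i) R β ν hs hR hν hp
    (hI.trans (mul_le_mul_of_nonneg_right (min_le_left _ _) hn'))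
  have h6 := h3 (n i) R β (fun x _ => ν x) hs h5
  have h7 := sum_eb_ge hβ0 (by linarith only [hκ]) hν hn h6
  have h8 := end_ge hC0 hC hβ0 (hG.diag i) hR hν hp
  have h9 : IP' ν (gM (β • J i) 0) ≤ ε / (12 * (C + 1)) * n i :=
    hI.trans (mul_le_mul_of_nonneg_right (min_le_right _ _) hn')
  have h10 : C * (4 * IP' ν (gM (β • J i) 0)) ≤ ε / 3 * n i := by
    have h6 : C * (4 * IP' ν (gM (β • J i) 0)) ≤ C * (4 * (ε / (12 * (C + 1)) * n i)) :=
      mul_le_mul_of_nonneg_left (mul_le_mul_of_nonneg_left h9 (by norm_num)) hC0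
    have h7 : C * (4 * (ε / (12 * (C + 1)) * n i)) = C / (C + 1) * (ε / 3 * n i) := by
      field_simp
      ring
    have h8 : C / (C + 1) ≤ 1 := by
      rw [div_le_one (by positivity)]
      linarith only
    have h9 : 0 ≤ ε / 3 * (n i : ℝ) := by positivity
    have h10 := mul_le_mul_of_nonneg_right h8 h9
    rw [one_mul] at h10
    linarith only [h6, h7, h10]
  rw [iS_eq_iRS]
  linarith only [h7, h8, h10]

end Vale.Agent.P150.F.DM
end
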