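import Mathlib

set_option linter.all false

section

/-! Exact polynomial certificates (Bernstein form) for the scalar inequality SS1 of the
star-shapedness of the TAP free energy. The Bernstein coefficients are computed and checked to be
nonnegative by the kernel (`chk`), soundness of the check is `chk_sound`. -/

namespace Vale.Agent.P150.F

/-- the certificate polynomial, `Ly` stands for `(1-u) * artanh √u / √u` -/
noncomputable def PL (Ly u t : ℝ) : ℝ :=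
  (1 - 2 * t * (1 - u) ^ 2) * (u * ((Ly + 1) / 2 - 2 * t * (1 - u)) *
    (6 / 5 * u + 33 / 10 * t * u - 21 / 5 * t) + (1 - u) * (1 + 2 * t - 2 * u))
    - (t * (18 / 5 * u + 99 / 10 * t * u - 21 / 5 * t) + 1) * (1 - u) ^ 3

/-- lower bound of `Ly` -/
noncomputable def Llo (u : ℝ) : ℝ := (1 - u) * (1 + u / 3)
/-- upper bound of `Ly` -/
noncomputable def Lup (u : ℝ) : ℝ := (1 - u) * (1 + u / 3) + u ^ 2 / 5

namespace Bern

/-- value of the polynomial with coefficient list `l` (constant term first) at `u` -/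
def ev : List ℤ → ℝ → ℝ
  | [], _ => 0
  | c :: l, u => c + u * ev l u

/-- value of the homogeneous polynomial `∑ l_k x^k y^(n-k)` -/
def hev : List ℤ → ℝ → ℝ → ℝ
  | [], _, _ => 0
  | c :: l, x, y => c * y ^ l.length + x * hev l x y

/-- multiplication of a homogeneous polynomial by `α y + β x` -/
def mulLin (α β : ℤ) : ℤ → List ℤ → List ℤ
  | c, [] => [β * c]
  | c, a :: l => (β * c + α * a) :: mulLin α β a l

/-- `(d (x + y))^k` -/
def powS (d : ℤ) : ℕ → List ℤ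
  | 0 => [1]
  | k + 1 => mulLin d d 0 (powS d k)

/-- `c l₁ + l₂` -/
def addS (c : ℤ) : List ℤ → List ℤ → List ℤ
  | p :: l₁, q :: l₂ => (c * p + q) :: addS c l₁ l₂
  | _, _ => []

/-- homogeneous form of a polynomial at `u = (α y + β x) / (d (x + y))` -/
def conv (α β d : ℤ) : List ℤ → List ℤ
  | [] => []
  | c :: l => addS c (powS d l.length) (mulLin α β 0 (conv α β d l))

/-- all entries are nonnegative -/
def nn : List ℤ → Bool
  | [] => true
  | Int.ofNat _ :: l => nn l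
  | Int.negSucc _ :: _ => false

lemma length_mulLin (α β : ℤ) : ∀ (l : List ℤ) (c : ℤ), (mulLin α β c l).length = l.length + 1
  | [], c => rfl
  | a :: l, c => by rw [mulLin, List.length_cons, length_mulLin α β l a, List.length_cons]

lemma hev_mulLin (α β : ℤ) (x y : ℝ) : ∀ (l : List ℤ) (c : ℤ),
    hev (mulLin α β c l) x y = β * c * y ^ l.length + (α * y + β * x) * hev l x y
  | [], c => by simp [mulLin, hev]
  | a :: l, c => by
    rw [mulLin, hev, hev_mulLin α β x y l a, length_mulLin, hev, List.length_cons]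
    push_cast; ring

lemma length_powS (d : ℤ) : ∀ k, (powS d k).length = k + 1
  | 0 => rfl
  | k + 1 => by rw [powS, length_mulLin, length_powS d k]

lemma hev_powS (d : ℤ) (x y : ℝ) : ∀ k, hev (powS d k) x y = (d * (x + y)) ^ k
  | 0 => by simp [powS, hev]
  | k + 1 => by rw [powS, hev_mulLin, hev_powS d x y k]; push_cast; ring

lemma length_addS (c : ℤ) : ∀ (l₁ l₂ : List ℤ), l₁.length = l₂.length →
    (addS c l₁ l₂).length = l₂.length
  | [], [], _ => rfl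
  | [], _ :: _, h => by simp at h
  | _ :: _, [], h => by simp at h
  | p :: l₁, q :: l₂, h => by
    rw [addS, List.length_cons, List.length_cons,
      length_addS c l₁ l₂ (by simpa using h)]

lemma hev_addS (c : ℤ) (x y : ℝ) : ∀ (l₁ l₂ : List ℤ), l₁.length = l₂.length →
    hev (addS c l₁ l₂) x y = c * hev l₁ x y + hev l₂ x y
  | [], [], _ => by simp [addS, hev]
  | [], _ :: _, h => by simp at h
  | _ :: _, [], h => by simp at h
  | p :: l₁, q :: l₂, h => by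
    have h' : l₁.length = l₂.length := by simpa using h
    rw [addS, hev, hev, hev, length_addS c l₁ l₂ h', h', hev_addS c x y l₁ l₂ h']
    push_cast; ring

lemma ev_addS (c : ℤ) (u : ℝ) : ∀ (l₁ l₂ : List ℤ), l₁.length = l₂.length →
    ev (addS c l₁ l₂) u = c * ev l₁ u + ev l₂ u
  | [], [], _ => by simp [addS, ev]
  | [], _ :: _, h => by simp at h
  | _ :: _, [], h => by simp at h
  | p :: l₁, q :: l₂, h => by
    have h' : l₁.length = l₂.length := by simpa using h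
    rw [addS, ev, ev, ev, ev_addS c u l₁ l₂ h']
    push_cast; ring

lemma length_conv (α β d : ℤ) : ∀ l : List ℤ, (conv α β d l).length = l.length
  | [] => rfl
  | c :: l => by
    rw [conv, length_addS, length_mulLin, length_conv α β d l, List.length_cons]
    rw [length_powS, length_mulLin, length_conv α β d l]

lemma hev_conv (α β d : ℤ) (x y u : ℝ) (h : (d : ℝ) * (x + y) * u = α * y + β * x) :
    ∀ l : List ℤ, (d : ℝ) * (x + y) * hev (conv α β d l) x y =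
      (d * (x + y)) ^ l.length * ev l u
  | [] => by simp [conv, hev, ev]
  | c :: l => by
    have ih := hev_conv α β d x y u h l
    rw [conv, hev_addS _ _ _ _ _ (by rw [length_powS, length_mulLin, length_conv]), hev_powS,
      hev_mulLin, ev, List.length_cons, ← h]
    have e : (d : ℝ) * (x + y) * (c * (d * (x + y)) ^ l.length + ((β : ℝ) * ((0 : ℤ) : ℝ) *
        y ^ (conv α β d l).length + d * (x + y) * u * hev (conv α β d l) x y)) =
        d * (x + y) * (c * (d * (x + y)) ^ l.length) +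
          d * (x + y) * u * (d * (x + y) * hev (conv α β d l) x y) := by
      push_cast; ring
    rw [e, ih]; ring

lemma hev_nonneg {x y : ℝ} (hx : 0 ≤ x) (hy : 0 ≤ y) : ∀ l : List ℤ, nn l = true →
    0 ≤ hev l x y
  | [], _ => le_refl _
  | Int.ofNat n :: l, h => by
    rw [hev]
    have h1 := hev_nonneg hx hy l h
    have h2 : (0 : ℝ) ≤ ((Int.ofNat n : ℤ) : ℝ) := by
      rw [Int.ofNat_eq_natCast, Int.cast_natCast]; exact Nat.cast_nonneg n
    exact add_nonneg (mul_nonneg h2 (pow_nonneg hy _)) (mul_nonneg hx h1)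
  | Int.negSucc n :: l, h => by simp [nn] at h

lemma ev_nonneg {α β d : ℤ} {u : ℝ} (hd : 0 < d) (hab : α < β) (l : List ℤ)
    (hl : nn (conv α β d l) = true) (h1 : (α : ℝ) / d ≤ u) (h2 : u ≤ (β : ℝ) / d) :
    0 ≤ ev l u := by
  have hd' : (0 : ℝ) < d := by exact_mod_cast hd
  have hab' : (0 : ℝ) < (β : ℝ) - α := by
    have : (α : ℝ) < β := by exact_mod_cast hab
    linarith
  have hs : (d : ℝ) * ((u - α / d) + (β / d - u)) = β - α := by field_simp; ring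
  have h := hev_conv α β d (u - α / d) (β / d - u) u (by rw [hs]; field_simp; ring) l
  have h3 := hev_nonneg (sub_nonneg.2 h1) (sub_nonneg.2 h2) _ hl
  rw [hs] at h
  have h4 : 0 ≤ ((β : ℝ) - α) ^ l.length * ev l u := by
    rw [← h]; exact mul_nonneg hab'.le h3
  exact nonneg_of_mul_nonneg_right h4 (pow_pos hab' _)

/-- linear combination of four lists of length 7 -/
def comb (C₀ C₁ C₂ C₃ : List ℤ) (m₀ m₁ m₂ m₃ : ℤ) : List ℤ :=
  addS m₀ C₀ (addS m₁ C₁ (addS m₂ C₂ (addS m₃ C₃ [0, 0, 0, 0, 0, 0, 0])))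

lemma ev_comb {C₀ C₁ C₂ C₃ : List ℤ} (h₀ : C₀.length = 7) (h₁ : C₁.length = 7)
    (h₂ : C₂.length = 7) (h₃ : C₃.length = 7) (m₀ m₁ m₂ m₃ : ℤ) (u : ℝ) :
    ev (comb C₀ C₁ C₂ C₃ m₀ m₁ m₂ m₃) u =
      m₀ * ev C₀ u + m₁ * ev C₁ u + m₂ * ev C₂ u + m₃ * ev C₃ u := by
  have a3 : (addS m₃ C₃ [0, 0, 0, 0, 0, 0, 0]).length = 7 := length_addS _ _ _ h₃
  have a2 : (addS m₂ C₂ (addS m₃ C₃ [0, 0, 0, 0, 0, 0, 0])).length = 7 := by
    rw [length_addS _ _ _ (by rw [h₂, a3]), a3]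
  have a1 : (addS m₁ C₁ (addS m₂ C₂ (addS m₃ C₃ [0, 0, 0, 0, 0, 0, 0]))).length = 7 := by
    rw [length_addS _ _ _ (by rw [h₁, a2]), a2]
  rw [comb, ev_addS _ _ _ _ (by rw [h₀, a1]), ev_addS _ _ _ _ (by rw [h₁, a2]),
    ev_addS _ _ _ _ (by rw [h₂, a3]), ev_addS _ _ _ _ h₃]
  simp only [ev]
  push_cast; ring

/-- the kernel check for the box `[U₀/d, U₁/d] × [T₀/e, T₁/e]` -/
def chk (C₀ C₁ C₂ C₃ : List ℤ) (U₀ U₁ d T₀ T₁ e : ℤ) : Bool :=
  nn (conv U₀ U₁ d (comb C₀ C₁ C₂ C₃ (e * e * e) (T₀ * (e * e)) (T₀ * T₀ * e) (T₀ * T₀ * T₀))) &&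
  nn (conv U₀ U₁ d (comb C₀ C₁ C₂ C₃ (3 * (e * e * e)) ((2 * T₀ + T₁) * (e * e))
    ((2 * T₀ * T₁ + T₀ * T₀) * e) (3 * (T₀ * T₀ * T₁)))) &&
  nn (conv U₀ U₁ d (comb C₀ C₁ C₂ C₃ (3 * (e * e * e)) ((T₀ + 2 * T₁) * (e * e))
    ((T₁ * T₁ + 2 * T₀ * T₁) * e) (3 * (T₀ * T₁ * T₁)))) &&
  nn (conv U₀ U₁ d (comb C₀ C₁ C₂ C₃ (e * e * e) (T₁ * (e * e)) (T₁ * T₁ * e) (T₁ * T₁ * T₁)))

lemma chk_sound {C₀ C₁ C₂ C₃ : List ℤ} (h₀ : C₀.length = 7) (h₁ : C₁.length = 7)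
    (h₂ : C₂.length = 7) (h₃ : C₃.length = 7) {U₀ U₁ d T₀ T₁ e : ℤ} {u t : ℝ}
    (hd : 0 < d) (hU : U₀ < U₁) (he : 0 < e) (hT : T₀ < T₁)
    (hc : chk C₀ C₁ C₂ C₃ U₀ U₁ d T₀ T₁ e = true)
    (h1 : (U₀ : ℝ) / d ≤ u) (h2 : u ≤ (U₁ : ℝ) / d)
    (h3 : (T₀ : ℝ) / e ≤ t) (h4 : t ≤ (T₁ : ℝ) / e) :
    0 ≤ ev C₀ u + ev C₁ u * t + ev C₂ u * t ^ 2 + ev C₃ u * t ^ 3 := by
  simp only [chk, Bool.and_eq_true] at hc
  obtain ⟨⟨⟨c0, c1⟩, c2⟩, c3⟩ := hc
  have b0 := ev_nonneg hd hU _ c0 h1 h2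
  have b1 := ev_nonneg hd hU _ c1 h1 h2
  have b2 := ev_nonneg hd hU _ c2 h1 h2
  have b3 := ev_nonneg hd hU _ c3 h1 h2
  rw [ev_comb h₀ h₁ h₂ h₃] at b0 b1 b2 b3
  have he' : (0 : ℝ) < e := by exact_mod_cast he
  have hT' : (0 : ℝ) < (T₁ : ℝ) - T₀ := by
    have : (T₀ : ℝ) < T₁ := by exact_mod_cast hT
    linarith only [this]
  have hx : 0 ≤ e * t - T₀ := by
    rw [div_le_iff₀ he'] at h3; linarith only [h3]
  have hy : 0 ≤ T₁ - e * t := by
    rw [le_div_iff₀ he'] at h4; linarith only [h4]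
  push_cast at b0 b1 b2 b3
  have key : 0 ≤ (e * ((T₁ : ℝ) - T₀)) ^ 3 *
      (ev C₀ u + ev C₁ u * t + ev C₂ u * t ^ 2 + ev C₃ u * t ^ 3) := by
    have p0 := mul_nonneg b0 (pow_nonneg hy 3)
    have p1 := mul_nonneg b1 (mul_nonneg hx (pow_nonneg hy 2))
    have p2 := mul_nonneg b2 (mul_nonneg (pow_nonneg hx 2) hy)
    have p3 := mul_nonneg b3 (pow_nonneg hx 3)
    refine (add_nonneg (add_nonneg p0 p1) (add_nonneg p2 p3)).trans_eq ?_
    ring
  exact nonneg_of_mul_nonneg_right key (pow_pos (mul_pos he' hT') 3)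

end Bern

open Bern

lemma PL_lo (u t : ℝ) : PL (Llo u) u t = 1 / 20 * (ev [0, 0, 4, 12, -4, 0, 0] u +
    ev [0, 4, -146, 216, -91, 0, 8] u * t + ev [4, 126, -122, -194, 288, -124, 22] u * t ^ 2 +
    ev [0, -336, 1272, -1800, 1128, -264, 0] u * t ^ 3) := by
  simp only [ev, PL, Llo]; push_cast; ring

lemma PL_up (u t : ℝ) : PL (Lup u) u t = 1 / 50 * (ev [0, 0, 10, 30, -4, 0, 0] u +
    ev [0, 10, -365, 519, -223, 24, 8] u * t + ev [10, 315, -305, -443, 603, -202, 22] u * t ^ 2 +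
    ev [0, -840, 3180, -4500, 2820, -660, 0] u * t ^ 3) := by
  simp only [ev, PL, Lup]; push_cast; ring

lemma PL_lo_nonneg (U₀ U₁ d T₀ T₁ e : ℤ) {u t : ℝ} (hd : 0 < d) (hU : U₀ < U₁) (he : 0 < e)
    (hT : T₀ < T₁) (hc : chk [0, 0, 4, 12, -4, 0, 0] [0, 4, -146, 216, -91, 0, 8]
      [4, 126, -122, -194, 288, -124, 22] [0, -336, 1272, -1800, 1128, -264, 0]
      U₀ U₁ d T₀ T₁ e = true)
    (h1 : (U₀ : ℝ) / d ≤ u) (h2 : u ≤ (U₁ : ℝ) / d)
    (h3 : (T₀ : ℝ) / e ≤ t) (h4 : t ≤ (T₁ : ℝ) / e) : 0 ≤ PL (Llo u) u t := by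
  rw [PL_lo]
  exact mul_nonneg (by norm_num) (chk_sound rfl rfl rfl rfl hd hU he hT hc h1 h2 h3 h4)

lemma PL_up_nonneg (U₀ U₁ d T₀ T₁ e : ℤ) {u t : ℝ} (hd : 0 < d) (hU : U₀ < U₁) (he : 0 < e)
    (hT : T₀ < T₁) (hc : chk [0, 0, 10, 30, -4, 0, 0] [0, 10, -365, 519, -223, 24, 8]
      [10, 315, -305, -443, 603, -202, 22] [0, -840, 3180, -4500, 2820, -660, 0]
      U₀ U₁ d T₀ T₁ e = true)
    (h1 : (U₀ : ℝ) / d ≤ u) (h2 : u ≤ (U₁ : ℝ) / d)
    (h3 : (T₀ : ℝ) / e ≤ t) (h4 : t ≤ (T₁ : ℝ) / e) : 0 ≤ PL (Lup u) u t := by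
  rw [PL_up]
  exact mul_nonneg (by norm_num) (chk_sound rfl rfl rfl rfl hd hU he hT hc h1 h2 h3 h4)

lemma box0lo' {u t : ℝ} (h1 : 0 ≤ u) (h2 : u ≤ 1/4) (h3 : 0 ≤ t) (h4 : t ≤ 3/25) :
    0 ≤ PL (Llo u) u t :=
  PL_lo_nonneg 0 1 4 0 3 25 (by decide) (by decide) (by decide) (by decide)
    (by decide +kernel) (le_trans (by norm_num) h1) (h2.trans (by norm_num))
    (le_trans (by norm_num) h3) (h4.trans (by norm_num))

lemma box0up' {u t : ℝ} (h1 : 0 ≤ u) (h2 : u ≤ 1/4) (h3 : 0 ≤ t) (h4 : t ≤ 3/25) :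
    0 ≤ PL (Lup u) u t :=
  PL_up_nonneg 0 1 4 0 3 25 (by decide) (by decide) (by decide) (by decide)
    (by decide +kernel) (le_trans (by norm_num) h1) (h2.trans (by norm_num))
    (le_trans (by norm_num) h3) (h4.trans (by norm_num))

lemma box1up' {u t : ℝ} (h1 : 0 ≤ u) (h2 : u ≤ 1/4) (h3 : 3/25 ≤ t) (h4 : t ≤ 6/25) :
    0 ≤ PL (Lup u) u t :=
  PL_up_nonneg 0 1 4 3 6 25 (by decide) (by decide) (by decide) (by decide)
    (by decide +kernel) (le_trans (by norm_num) h1) (h2.trans (by norm_num))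
    (le_trans (by norm_num) h3) (h4.trans (by norm_num))

lemma box2lo' {u t : ℝ} (h1 : 1/4 ≤ u) (h2 : u ≤ 1/2) (h3 : 0 ≤ t) (h4 : t ≤ 6/25) :
    0 ≤ PL (Llo u) u t :=
  PL_lo_nonneg 1 2 4 0 6 25 (by decide) (by decide) (by decide) (by decide)
    (by decide +kernel) (le_trans (by norm_num) h1) (h2.trans (by norm_num))
    (le_trans (by norm_num) h3) (h4.trans (by norm_num))

lemma box2up' {u t : ℝ} (h1 : 1/4 ≤ u) (h2 : u ≤ 1/2) (h3 : 0 ≤ t) (h4 : t ≤ 6/25) :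
    0 ≤ PL (Lup u) u t :=
  PL_up_nonneg 1 2 4 0 6 25 (by decide) (by decide) (by decide) (by decide)
    (by decide +kernel) (le_trans (by norm_num) h1) (h2.trans (by norm_num))
    (le_trans (by norm_num) h3) (h4.trans (by norm_num))

lemma box3up' {u t : ℝ} (h1 : 0 ≤ u) (h2 : u ≤ 1/2) (h3 : 6/25 ≤ t) (h4 : t ≤ 12/25) :
    0 ≤ PL (Lup u) u t :=
  PL_up_nonneg 0 1 2 6 12 25 (by decide) (by decide) (by decide) (by decide)
    (by decide +kernel) (le_trans (by norm_num) h1) (h2.trans (by norm_num))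
    (le_trans (by norm_num) h3) (h4.trans (by norm_num))

lemma box4lo' {u t : ℝ} (h1 : 1/2 ≤ u) (h2 : u ≤ 1) (h3 : 0 ≤ t) (h4 : t ≤ 12/25) :
    0 ≤ PL (Llo u) u t :=
  PL_lo_nonneg 1 2 2 0 12 25 (by decide) (by decide) (by decide) (by decide)
    (by decide +kernel) (le_trans (by norm_num) h1) (h2.trans (by norm_num))
    (le_trans (by norm_num) h3) (h4.trans (by norm_num))

lemma box4up' {u t : ℝ} (h1 : 1/2 ≤ u) (h2 : u ≤ 1) (h3 : 0 ≤ t) (h4 : t ≤ 12/25) :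
    0 ≤ PL (Lup u) u t :=
  PL_up_nonneg 1 2 2 0 12 25 (by decide) (by decide) (by decide) (by decide)
    (by decide +kernel) (le_trans (by norm_num) h1) (h2.trans (by norm_num))
    (le_trans (by norm_num) h3) (h4.trans (by norm_num))

lemma box5up' {u t : ℝ} (h1 : 0 ≤ u) (h2 : u ≤ 1/8) (h3 : 12/25 ≤ t) (h4 : t ≤ 3/5) :
    0 ≤ PL (Lup u) u t :=
  PL_up_nonneg 0 1 8 12 15 25 (by decide) (by decide) (by decide) (by decide)
    (by decide +kernel) (le_trans (by norm_num) h1) (h2.trans (by norm_num))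
    (le_trans (by norm_num) h3) (h4.trans (by norm_num))

lemma box6up' {u t : ℝ} (h1 : 1/8 ≤ u) (h2 : u ≤ 1/4) (h3 : 12/25 ≤ t) (h4 : t ≤ 3/5) :
    0 ≤ PL (Lup u) u t :=
  PL_up_nonneg 1 2 8 12 15 25 (by decide) (by decide) (by decide) (by decide)
    (by decide +kernel) (le_trans (by norm_num) h1) (h2.trans (by norm_num))
    (le_trans (by norm_num) h3) (h4.trans (by norm_num))

lemma box7up' {u t : ℝ} (h1 : 7/32 ≤ u) (h2 : u ≤ 1/4) (h3 : 3/5 ≤ t) (h4 : t ≤ 63/100) :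
    0 ≤ PL (Lup u) u t :=
  PL_up_nonneg 7 8 32 60 63 100 (by decide) (by decide) (by decide) (by decide)
    (by decide +kernel) (le_trans (by norm_num) h1) (h2.trans (by norm_num))
    (le_trans (by norm_num) h3) (h4.trans (by norm_num))

lemma box8up' {u t : ℝ} (h1 : 1/4 ≤ u) (h2 : u ≤ 1/2) (h3 : 12/25 ≤ t) (h4 : t ≤ 3/5) :
    0 ≤ PL (Lup u) u t :=
  PL_up_nonneg 1 2 4 12 15 25 (by decide) (by decide) (by decide) (by decide)
    (by decide +kernel) (le_trans (by norm_num) h1) (h2.trans (by norm_num))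
    (le_trans (by norm_num) h3) (h4.trans (by norm_num))

lemma box9up' {u t : ℝ} (h1 : 1/4 ≤ u) (h2 : u ≤ 3/8) (h3 : 3/5 ≤ t) (h4 : t ≤ 33/50) :
    0 ≤ PL (Lup u) u t :=
  PL_up_nonneg 2 3 8 30 33 50 (by decide) (by decide) (by decide) (by decide)
    (by decide +kernel) (le_trans (by norm_num) h1) (h2.trans (by norm_num))
    (le_trans (by norm_num) h3) (h4.trans (by norm_num))

lemma box10up' {u t : ℝ} (h1 : 5/16 ≤ u) (h2 : u ≤ 3/8) (h3 : 33/50 ≤ t) (h4 : t ≤ 18/25) :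
    0 ≤ PL (Lup u) u t :=
  PL_up_nonneg 5 6 16 33 36 50 (by decide) (by decide) (by decide) (by decide)
    (by decide +kernel) (le_trans (by norm_num) h1) (h2.trans (by norm_num))
    (le_trans (by norm_num) h3) (h4.trans (by norm_num))

lemma box11up' {u t : ℝ} (h1 : 3/8 ≤ u) (h2 : u ≤ 1/2) (h3 : 3/5 ≤ t) (h4 : t ≤ 18/25) :
    0 ≤ PL (Lup u) u t :=
  PL_up_nonneg 3 4 8 15 18 25 (by decide) (by decide) (by decide) (by decide)
    (by decide +kernel) (le_trans (by norm_num) h1) (h2.trans (by norm_num))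
    (le_trans (by norm_num) h3) (h4.trans (by norm_num))

lemma box12up' {u t : ℝ} (h1 : 3/8 ≤ u) (h2 : u ≤ 1/2) (h3 : 18/25 ≤ t) (h4 : t ≤ 21/25) :
    0 ≤ PL (Lup u) u t :=
  PL_up_nonneg 3 4 8 18 21 25 (by decide) (by decide) (by decide) (by decide)
    (by decide +kernel) (le_trans (by norm_num) h1) (h2.trans (by norm_num))
    (le_trans (by norm_num) h3) (h4.trans (by norm_num))

lemma box13lo' {u t : ℝ} (h1 : 1/2 ≤ u) (h2 : u ≤ 1) (h3 : 12/25 ≤ t) (h4 : t ≤ 18/25) :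
    0 ≤ PL (Llo u) u t :=
  PL_lo_nonneg 1 2 2 12 18 25 (by decide) (by decide) (by decide) (by decide)
    (by decide +kernel) (le_trans (by norm_num) h1) (h2.trans (by norm_num))
    (le_trans (by norm_num) h3) (h4.trans (by norm_num))

lemma box13up' {u t : ℝ} (h1 : 1/2 ≤ u) (h2 : u ≤ 1) (h3 : 12/25 ≤ t) (h4 : t ≤ 18/25) :
    0 ≤ PL (Lup u) u t :=
  PL_up_nonneg 1 2 2 12 18 25 (by decide) (by decide) (by decide) (by decide)
    (by decide +kernel) (le_trans (by norm_num) h1) (h2.trans (by norm_num))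
    (le_trans (by norm_num) h3) (h4.trans (by norm_num))

lemma box14up' {u t : ℝ} (h1 : 1/2 ≤ u) (h2 : u ≤ 3/4) (h3 : 18/25 ≤ t) (h4 : t ≤ 24/25) :
    0 ≤ PL (Lup u) u t :=
  PL_up_nonneg 2 3 4 18 24 25 (by decide) (by decide) (by decide) (by decide)
    (by decide +kernel) (le_trans (by norm_num) h1) (h2.trans (by norm_num))
    (le_trans (by norm_num) h3) (h4.trans (by norm_num))

lemma box15lo' {u t : ℝ} (h1 : 3/4 ≤ u) (h2 : u ≤ 1) (h3 : 18/25 ≤ t) (h4 : t ≤ 24/25) :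
    0 ≤ PL (Llo u) u t :=
  PL_lo_nonneg 3 4 4 18 24 25 (by decide) (by decide) (by decide) (by decide)
    (by decide +kernel) (le_trans (by norm_num) h1) (h2.trans (by norm_num))
    (le_trans (by norm_num) h3) (h4.trans (by norm_num))

lemma box15up' {u t : ℝ} (h1 : 3/4 ≤ u) (h2 : u ≤ 1) (h3 : 18/25 ≤ t) (h4 : t ≤ 24/25) :
    0 ≤ PL (Lup u) u t :=
  PL_up_nonneg 3 4 4 18 24 25 (by decide) (by decide) (by decide) (by decide)
    (by decide +kernel) (le_trans (by norm_num) h1) (h2.trans (by norm_num))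
    (le_trans (by norm_num) h3) (h4.trans (by norm_num))

end Vale.Agent.P150.F
end
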