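import Mathlib
import Vale.Agent.P150.Bdl.B5
import Vale.Agent.P150.Bdl.B22
import Vale.Agent.P150.Bdl.B17
import Vale.Agent.P150.Bdl.B15
import Vale.Agent.P150.Bdl.B9
import Vale.Agent.P150.Bdl.B1
import Vale.Agent.P150.Bdl.B19
import Vale.Agent.P150.Bdl.B20
import Vale.Agent.P150.Bdl.B10
import Vale.Agent.P150.Bdl.B21

set_option linter.all false

section

/-! Pointwise certificate for the scalar inequality SS1. -/

namespace Vale.Agent.P150.F

open Real

private lemma boxes_up {u t : ℝ} (hu0 : 0 ≤ u) (hu1 : u ≤ 1) (ht0 : 0 ≤ t) (ht1 : t ≤ 24 / 25)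
    (hT : 4 * t * (1 - u) ≤ 2 - 2 / 3 * u) : 0 ≤ PL (Lup u) u t := by
  rcases le_total t (12 / 25) with h | h
  · rcases le_total u (1 / 2) with h2 | h2
    · rcases le_total t (6 / 25) with h3 | h3
      · rcases le_total u (1 / 4) with h4 | h4
        · rcases le_total t (3 / 25) with h5 | h5
          · exact box0up' hu0 h4 ht0 h5
          · exact box1up' hu0 h4 h5 h3
        · exact box2up' h4 h2 ht0 h3
      · exact box3up' hu0 h2 h3 h
    · exact box4up' h2 hu1 ht0 h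
  · rcases le_total u (1 / 2) with h2 | h2
    · rcases le_total t (3 / 5) with h3 | h3
      · rcases le_total u (1 / 4) with h4 | h4
        · rcases le_total u (1 / 8) with h5 | h5
          · exact box5up' hu0 h5 h h3
          · exact box6up' h5 h4 h h3
        · exact box8up' h4 h2 h h3
      · -- u ≥ 7/32
        have hu7 : 7 / 32 ≤ u := by
          linarith only [hT, mul_nonneg (sub_nonneg.2 h3) (sub_nonneg.2 hu1)]
        rcases le_total u (1 / 4) with h4 | h4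
        · refine box7up' hu7 h4 h3 ?_
          by_contra hc
          rw [not_le] at hc
          linarith only [hT, h4, mul_nonneg (sub_nonneg.2 hc.le) (sub_nonneg.2 hu1)]
        · rcases le_total u (3 / 8) with h5 | h5
          · rcases le_total t (33 / 50) with h6 | h6
            · exact box9up' h4 h5 h3 h6
            · refine box10up' (by linarith only [mul_nonneg (sub_nonneg.2 h6) (sub_nonneg.2 hu1), hT]) h5 h6 ?_
              by_contra hc
              rw [not_le] at hc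
              linarith only [hT, h5, mul_nonneg (sub_nonneg.2 hc.le) (sub_nonneg.2 hu1)]
          · rcases le_total t (18 / 25) with h6 | h6
            · exact box11up' h5 h2 h3 h6
            · refine box12up' h5 h2 h6 ?_
              by_contra hc
              rw [not_le] at hc
              linarith only [mul_nonneg (sub_nonneg.2 hc.le) (sub_nonneg.2 hu1), h2, hT]
    · rcases le_total t (18 / 25) with h3 | h3
      · exact box13up' h2 hu1 h h3
      · rcases le_total u (3 / 4) with h4 | h4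
        · exact box14up' h2 h4 h3 ht1
        · exact box15up' h4 hu1 h3 ht1

private lemma boxes_lo {u t : ℝ} (hu0 : 0 ≤ u) (hu1 : u ≤ 1) (ht0 : 0 ≤ t) (ht1 : t ≤ 24 / 25)
    (hg : 0 ≤ 6 / 5 * u + 33 / 10 * t * u - 21 / 5 * t) : 0 ≤ PL (Llo u) u t := by
  rcases le_total t (12 / 25) with h | h
  · rcases le_total u (1 / 2) with h2 | h2
    · rcases le_total t (6 / 25) with h3 | h3
      · rcases le_total u (1 / 4) with h4 | h4
        · have h5 : t ≤ 3 / 25 := by linarith only [mul_nonneg ht0 (sub_nonneg.2 h4), h4, hg]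
          exact box0lo' hu0 h4 ht0 h5
        · exact box2lo' h4 h2 ht0 h3
      · exfalso; linarith [mul_nonneg ht0 (sub_nonneg.2 h2)]
    · exact box4lo' h2 hu1 ht0 h
  · have h2 : 1 / 2 ≤ u := by linarith [mul_nonneg (sub_nonneg.2 h) (sub_nonneg.2 hu1)]
    rcases le_total t (18 / 25) with h3 | h3
    · exact box13lo' h2 hu1 h h3
    · have h4 : 3 / 4 ≤ u := by linarith only [mul_nonneg (sub_nonneg.2 h3) (sub_nonneg.2 hu1), h3, hg]
      exact box15lo' h4 hu1 h3 ht1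

/-- nonnegativity of the certificate for every admissible value of `L = artanh √u / √u` -/
lemma PL_nonneg {u t Ly : ℝ} (hu0 : 0 ≤ u) (hu1 : u ≤ 1) (ht0 : 0 ≤ t) (ht1 : t ≤ 24 / 25)
    (hT : 4 * t * (1 - u) ≤ Ly + 1) (hL1 : Llo u ≤ Ly) (hL2 : Ly ≤ Lup u) :
    0 ≤ PL Ly u t := by
  have hup : Lup u = 1 - 2 / 3 * u - 2 / 15 * u ^ 2 := by unfold Lup; ring
  have hT' : 4 * t * (1 - u) ≤ 2 - 2 / 3 * u := by
    have := sq_nonneg u
    rw [hup] at hL2
    linarith only [this, hL2, hT]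
  have hw : 0 ≤ 1 - 2 * t * (1 - u) ^ 2 := by
    have h1 : 0 ≤ 1 - u := by linarith only [hu1]
    have h2 : 4 * t * (1 - u) ^ 2 ≤ (2 - 2 / 3 * u) * (1 - u) := by
      rw [pow_two, ← mul_assoc]
      exact mul_le_mul_of_nonneg_right hT' h1
    linarith only [hu0, h2, mul_nonneg hu0 h1]
  rcases le_total (6 / 5 * u + 33 / 10 * t * u - 21 / 5 * t) 0 with hg | hg
  · have h := boxes_up hu0 hu1 ht0 ht1 hT'
    have e : PL Ly u t = PL (Lup u) u t +
        (1 - 2 * t * (1 - u) ^ 2) * (u / 2) * (Lup u - Ly) *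
          (-(6 / 5 * u + 33 / 10 * t * u - 21 / 5 * t)) := by unfold PL; ring
    rw [e]
    refine add_nonneg h (mul_nonneg (mul_nonneg (mul_nonneg hw (by linarith only [hu0])) (by linarith only [hL2]))
      (by linarith only [hg]))
  · have h := boxes_lo hu0 hu1 ht0 ht1 hg
    have e : PL Ly u t = PL (Llo u) u t +
        (1 - 2 * t * (1 - u) ^ 2) * (u / 2) * (Ly - Llo u) *
          (6 / 5 * u + 33 / 10 * t * u - 21 / 5 * t) := by unfold PL; ring
    rw [e]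
    refine add_nonneg h (mul_nonneg (mul_nonneg (mul_nonneg hw (by linarith only [hu0])) (by linarith only [hL1]))
      hg)

/-! ### bounds for `artanh` -/

lemma artanh_hasSum' {m : ℝ} (hm : |m| < 1) :
    HasSum (fun k : ℕ => m ^ (2 * k + 1) / (2 * k + 1)) (artanh m) := by
  have h := Real.hasSum_log_sub_log_of_abs_lt_one hm
  have hb := abs_lt.1 hm
  have e : artanh m = (1 / 2) * (log (1 + m) - log (1 - m)) := by
    rw [Real.artanh_eq_half_log ⟨hb.1.le, hb.2.le⟩, Real.log_div (by linarith) (by linarith)]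
  rw [e]
  have h2 := h.mul_left (1 / 2)
  have e2 : (fun k : ℕ => m ^ (2 * k + 1) / (2 * k + 1)) =
      fun k : ℕ => 1 / 2 * ((2 : ℝ) * (1 / (2 * k + 1)) * m ^ (2 * k + 1)) := by
    funext k
    ring
  rw [e2]
  exact h2

lemma artanh_lower {m : ℝ} (h0 : 0 ≤ m) (h1 : m < 1) : m + m ^ 3 / 3 ≤ artanh m := by
  have h := artanh_hasSum' (m := m) (by rwa [abs_of_nonneg h0])
  have h2 := sum_le_hasSum (Finset.range 2) (fun k _ => by (clear * - h0; positivity)) h
  simp only [Finset.sum_range_succ, Finset.sum_range_zero] at h2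
  norm_num at h2
  linarith only [h2]

lemma artanh_upper {m : ℝ} (h0 : 0 ≤ m) (h1 : m < 1) :
    artanh m ≤ m + m ^ 3 / 3 + m ^ 5 / 5 * (1 - m ^ 2)⁻¹ := by
  have h := artanh_hasSum' (m := m) (by rwa [abs_of_nonneg h0])
  have h2 := (hasSum_nat_add_iff' 2).2 h
  simp only [Finset.sum_range_succ, Finset.sum_range_zero] at h2
  have h3 : HasSum (fun k : ℕ => m ^ 5 / 5 * (m ^ 2) ^ k) (m ^ 5 / 5 * (1 - m ^ 2)⁻¹) :=
    (hasSum_geometric_of_lt_one (by positivity) (by nlinarith)).mul_left _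
  have h4 := hasSum_le (fun k : ℕ => ?_) h2 h3
  · norm_num at h4
    linarith only [h4]
  · have hk : (0 : ℝ) ≤ k := Nat.cast_nonneg k
    have e : m ^ (2 * (k + 2) + 1) = m ^ 5 * (m ^ 2) ^ k := by ring
    rw [e]
    push_cast
    have h5 : (0 : ℝ) ≤ m ^ 5 * (m ^ 2) ^ k := by (clear * - h0; positivity)
    rw [div_mul_eq_mul_div]
    exact div_le_div_of_nonneg_left h5 (by norm_num) (by linarith only [hk])

/-! ### the certificate -/

/-- `x` as a function of the maximiser `m` -/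
noncomputable def SX (t m : ℝ) : ℝ := (artanh m + m / (1 - m ^ 2)) / 2 - 2 * t * m
/-- derivative of `SX` in `m` -/
noncomputable def SX' (t m : ℝ) : ℝ := 1 / (1 - m ^ 2) ^ 2 - 2 * t
/-- the Stein certificate function -/
noncomputable def Sf (t m : ℝ) : ℝ := -(21 / 5) * t * m + (6 / 5 + 33 / 10 * t) * m ^ 3
/-- derivative of `Sf` in `m` -/
noncomputable def Sf' (t m : ℝ) : ℝ := -(21 / 5) * t + 3 * (6 / 5 + 33 / 10 * t) * m ^ 2

lemma four_t_le {t m : ℝ} (h0 : 0 < m) (h1 : m < 1) (hX : 0 ≤ SX t m) :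
    4 * t * (1 - m ^ 2) ≤ (1 - m ^ 2) * (artanh m / m) + 1 := by
  have hm2 : 0 < 1 - m ^ 2 := by nlinarith
  unfold SX at hX
  have e : (1 - m ^ 2) * (artanh m / m) + 1 - 4 * t * (1 - m ^ 2) =
      2 * ((1 - m ^ 2) / m) * ((artanh m + m / (1 - m ^ 2)) / 2 - 2 * t * m) := by
    field_simp
    ring
  have h : 0 ≤ 2 * ((1 - m ^ 2) / m) * ((artanh m + m / (1 - m ^ 2)) / 2 - 2 * t * m) := by
    positivity
  linarith only [h, e]

lemma Ly_bounds {m : ℝ} (h0 : 0 < m) (h1 : m < 1) :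
    Llo (m ^ 2) ≤ (1 - m ^ 2) * (artanh m / m) ∧ (1 - m ^ 2) * (artanh m / m) ≤ Lup (m ^ 2) := by
  have hm2 : 0 < 1 - m ^ 2 := by nlinarith
  have hl := artanh_lower h0.le h1
  have hu := artanh_upper h0.le h1
  constructor
  · unfold Llo
    refine mul_le_mul_of_nonneg_left ?_ hm2.le
    rw [le_div_iff₀ h0]
    linarith only [hl]
  · have e : Lup (m ^ 2) = (1 - m ^ 2) * ((m + m ^ 3 / 3 + m ^ 5 / 5 * (1 - m ^ 2)⁻¹) / m) := by
      unfold Lup
      field_simp
    rw [e]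
    refine mul_le_mul_of_nonneg_left ?_ hm2.le
    exact div_le_div_of_nonneg_right hu h0.le

theorem SX'_pos {t m : ℝ} (h0 : 0 < m) (h1 : m < 1) (hX : 0 ≤ SX t m) : 0 < SX' t m := by
  have hm2 : 0 < 1 - m ^ 2 := by nlinarith
  have h4 := four_t_le h0 h1 hX
  have h5 := (Ly_bounds h0 h1).2
  have hup : Lup (m ^ 2) ≤ 1 := by
    unfold Lup
    linarith only [sq_nonneg (m ^ 2), sq_nonneg m]
  unfold SX'
  have h6 : 2 * t * (1 - m ^ 2) ≤ 1 := by linarith
  have h7 : 2 * t * (1 - m ^ 2) ^ 2 < 1 := by (by_contra nlg; linarith only [mul_nonneg (sub_nonneg.2 (not_lt.1 nlg)) (le_of_lt (sub_pos.2 h0)), mul_nonneg (sub_nonneg.2 (not_lt.1 nlg)) (le_of_lt (sub_pos.2 h1)), mul_pos (sub_pos.2 h0) (sub_pos.2 h0), mul_nonneg (le_of_lt (sub_pos.2 hm2)) (sub_nonneg.2 h6)])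
  have : 2 * t < 1 / (1 - m ^ 2) ^ 2 := by
    rw [lt_div_iff₀ (by positivity)]
    exact h7
  linarith only [this]

theorem cert {t m : ℝ} (ht0 : 0 ≤ t) (ht1 : t ≤ 24 / 25) (h0 : 0 < m) (h1 : m < 1)
    (hX : 0 ≤ SX t m) :
    2 * m ^ 2 + 1 / SX' t m - 1 - 2 * t ≤ SX t m * Sf t m - t * Sf' t m / SX' t m := by
  have hm2 : 0 < 1 - m ^ 2 := by (by_contra nlg; linarith only [nlg, mul_pos (sub_pos.2 h1) (sub_pos.2 h1), mul_pos (sub_pos.2 h0) (sub_pos.2 h1), mul_nonneg (sub_nonneg.2 (not_lt.1 nlg)) (le_of_lt (sub_pos.2 h1)), mul_nonneg (sub_nonneg.2 (not_lt.1 nlg)) (le_of_lt (sub_pos.2 h0))])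
  have hp := SX'_pos h0 h1 hX
  have hP := PL_nonneg (u := m ^ 2) (t := t) (Ly := (1 - m ^ 2) * (artanh m / m))
    (by positivity) (by linarith only [hm2]) ht0 ht1 (four_t_le h0 h1 hX) (Ly_bounds h0 h1).1
    (Ly_bounds h0 h1).2
  have e : PL ((1 - m ^ 2) * (artanh m / m)) (m ^ 2) t =
      (1 - m ^ 2) ^ 3 * SX' t m * (SX t m * Sf t m - t * Sf' t m / SX' t m -
        (2 * m ^ 2 + 1 / SX' t m - 1 - 2 * t)) := by
    have e1 : SX' t m * (SX t m * Sf t m - t * Sf' t m / SX' t m -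
        (2 * m ^ 2 + 1 / SX' t m - 1 - 2 * t)) = SX' t m * (SX t m * Sf t m) - t * Sf' t m -
        SX' t m * (2 * m ^ 2 - 1 - 2 * t) - 1 := by
      field_simp
      ring
    rw [mul_assoc, e1]
    unfold PL SX' SX Sf Sf'
    field_simp
    ring
  rw [e] at hP
  have h3 : 0 < (1 - m ^ 2) ^ 3 * SX' t m := by (clear * - hm2 hp; positivity)
  have := nonneg_of_mul_nonneg_right hP h3
  linarith only [this]

theorem cert_bd {t m : ℝ} (ht1 : t ≤ 24 / 25) (h0 : 0 < m) (h1 : m < 1)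
    (hX : SX t m = 0) : t * Sf t m + m ≤ 0 := by
  have hm2 : 0 < 1 - m ^ 2 := by (by_contra nlg; linarith only [nlg, mul_pos (sub_pos.2 h1) (sub_pos.2 h1), mul_pos (sub_pos.2 h0) (sub_pos.2 h1), mul_nonneg (sub_nonneg.2 (not_lt.1 nlg)) (le_of_lt (sub_pos.2 h1)), mul_nonneg (sub_nonneg.2 (not_lt.1 nlg)) (le_of_lt (sub_pos.2 h0))])
  have hl := artanh_lower h0.le h1
  -- `t ≥ T = N / (4 (1-u))`
  have hT : (2 - 2 / 3 * m ^ 2 - (m ^ 2) ^ 2 / 3) ≤ 4 * t * (1 - m ^ 2) := by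
    unfold SX at hX
    have h2 : 2 * t * m = (artanh m + m / (1 - m ^ 2)) / 2 := by linarith
    have h3 : (m + m ^ 3 / 3 + m / (1 - m ^ 2)) ≤ 4 * t * m := by linarith only [hl, h2]
    have h4 : (m + m ^ 3 / 3 + m / (1 - m ^ 2)) * ((1 - m ^ 2) / m) ≤
        4 * t * m * ((1 - m ^ 2) / m) := mul_le_mul_of_nonneg_right h3 (by positivity)
    have e1 : (m + m ^ 3 / 3 + m / (1 - m ^ 2)) * ((1 - m ^ 2) / m) =
        (2 - 2 / 3 * m ^ 2 - (m ^ 2) ^ 2 / 3) := by
      field_simp; ring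
    have e2 : 4 * t * m * ((1 - m ^ 2) / m) = 4 * t * (1 - m ^ 2) := by
      field_simp
    rw [e1, e2] at h4
    exact h4
  set u := m ^ 2 with hu
  have hu0 : 0 < u := by positivity
  have hu1 : u < 1 := by linarith only [hm2]
  have huc : u ≤ 63 / 100 := by
    by_contra hc
    rw [not_le] at hc
    nlinarith
  suffices hs : (33 / 10 * u - 21 / 5) * t ^ 2 + 6 / 5 * u * t + 1 ≤ 0 by
    have e : t * Sf t m + m = m * ((33 / 10 * u - 21 / 5) * t ^ 2 + 6 / 5 * u * t + 1) := by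
      unfold Sf; rw [hu]; ring
    rw [e]
    exact mul_nonpos_of_nonneg_of_nonpos h0.le hs
  set N := 2 - 2 / 3 * u - u ^ 2 / 3 with hN
  have hv : 0 < 1 - u := by linarith only [hu1]
  set T := N / (4 * (1 - u)) with hTd
  have hTt : T ≤ t := by
    rw [hTd, div_le_iff₀ (by (clear * - hu1; positivity))]
    linarith only [hT]
  have hT2 : 1 / 2 ≤ T := by
    rw [hTd, le_div_iff₀ (by positivity), hN]
    (by_contra nlg; linarith only [mul_pos (sub_pos.2 (not_le.1 nlg)) (sub_pos.2 hu0), mul_pos (sub_pos.2 (not_le.1 nlg)) (sub_pos.2 hv), mul_pos (sub_pos.2 hu0) (sub_pos.2 hu0), mul_pos (sub_pos.2 hu0) (sub_pos.2 hv)])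
  have hTv : (33 / 10 * u - 21 / 5) * T ^ 2 + 6 / 5 * u * T + 1 ≤ 0 := by
    have e : (33 / 10 * u - 21 / 5) * T ^ 2 + 6 / 5 * u * T + 1 =
        ((33 / 10 * u - 21 / 5) * N ^ 2 + 24 / 5 * u * (1 - u) * N + 16 * (1 - u) ^ 2) /
          (16 * (1 - u) ^ 2) := by
      rw [hTd]; field_simp; ring
    rw [e]
    refine div_nonpos_of_nonpos_of_nonneg ?_ (by positivity)
    rw [hN]
    (by_contra nlg; linarith only [mul_nonneg (le_of_lt (sub_pos.2 (not_le.1 nlg))) (sub_nonneg.2 (mul_nonneg hu0.le (sub_nonneg.2 huc))), mul_nonneg (le_of_lt (sub_pos.2 (not_le.1 nlg))) (sub_nonneg.2 (mul_nonneg (mul_nonneg hu0.le hu0.le) (sub_nonneg.2 huc))), mul_nonneg (sub_nonneg.2 ht1) (le_of_lt (sub_pos.2 hu0)), mul_nonneg (sub_nonneg.2 ht1) (sub_nonneg.2 (mul_nonneg hu0.le (sub_nonneg.2 huc))), mul_nonneg (le_of_lt (sub_pos.2 hu0)) (sub_nonneg.2 hT), mul_pos (sub_pos.2 hu0) (sub_pos.2 hv), mul_nonneg (le_of_lt (sub_pos.2 hu0)) (sub_nonneg.2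 (mul_nonneg (mul_nonneg (mul_nonneg hu0.le hu0.le) hu0.le) (sub_nonneg.2 huc))), mul_eq_zero_of_left (sub_eq_zero.2 hN) (63 / 100 - (u)), mul_nonneg (sub_nonneg.2 huc) (sub_nonneg.2 (mul_nonneg hu0.le (sub_nonneg.2 huc))), mul_eq_zero_of_left (sub_eq_zero.2 hN) (1 - u - (0)), mul_nonneg (sub_nonneg.2 (mul_nonneg (mul_nonneg hu0.le hu0.le) (sub_nonneg.2 huc))) (sub_nonneg.2 (mul_nonneg (mul_nonneg hu0.le hu0.le) (sub_nonneg.2 huc))), mul_nonneg (sub_nonneg.2 (mul_nonneg (mul_nonneg hu0.le hu0.le) (sub_nonneg.2 huc))) (sub_nonneg.2 (mul_nonneg (mul_nonneg (mul_nonneg hu0.le hu0.le) hu0.le) (sub_nonneg.2 huc))), mul_nonneg (sub_nonneg.2 (mul_nonneg (mul_nonneg (mul_nonneg hu0.le hu0.le) hu0.le) (sub_nonneg.2 huc))) (sub_nonneg.2 (mul_nonneg (mul_nonneg (mul_nonneg hu0.le hu0.le) hu0.le) (sub_nonneg.2 huc)))])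
  have ht0 : 1 / 2 ≤ t := hT2.trans hTt
  (by_contra nlg; linarith only [mul_pos (sub_pos.2 (not_le.1 nlg)) (sub_pos.2 hv), mul_nonneg (le_of_lt (sub_pos.2 (not_le.1 nlg))) (sub_nonneg.2 ht0), mul_nonneg (sub_nonneg.2 ht1) (sub_nonneg.2 (mul_nonneg (sub_nonneg.2 hTt) (sub_nonneg.2 huc))), mul_nonneg (le_of_lt (sub_pos.2 hu0)) (sub_nonneg.2 (mul_nonneg (sub_nonneg.2 hTt) (sub_nonneg.2 hT2))), mul_nonneg (sub_nonneg.2 huc) (sub_nonneg.2 (mul_nonneg (sub_nonneg.2 hTt) (sub_nonneg.2 huc))), mul_nonneg (sub_nonneg.2 hT) (sub_nonneg.2 (mul_nonneg (sub_nonneg.2 hTt) (sub_nonneg.2 hT2))), mul_eq_zero_of_left (sub_eq_zero.2 hN) ((t - T) * (T - 1 / 2) - (0)), mul_nonneg (le_of_lt (sub_pos.2 hv)) (sub_nonneg.2 hTt), mul_nonneg (le_of_lt (sub_pos.2 hv)) (sub_nonneg.2 hTv), mul_nonneg (sub_nonneg.2 hTt) (sub_nonneg.2 ht0), mul_nonneg (sub_nonneg.2 hTt) (sub_nonneg.2 (mul_nonneg (sub_nonneg.2 hTt) (sub_nonneg.2 ht0))), mul_nonneg (sub_nonneg.2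 hT2) (sub_nonneg.2 (mul_nonneg (sub_nonneg.2 hTt) (sub_nonneg.2 huc))), mul_nonneg (sub_nonneg.2 hTv) (sub_nonneg.2 ht0), mul_nonneg (sub_nonneg.2 ht0) (sub_nonneg.2 (mul_nonneg (sub_nonneg.2 hTt) (sub_nonneg.2 ht0))), mul_nonneg (sub_nonneg.2 ht0) (sub_nonneg.2 (mul_nonneg (sub_nonneg.2 hTt) (sub_nonneg.2 huc))), mul_nonneg (sub_nonneg.2 (mul_nonneg (sub_nonneg.2 hTt) (sub_nonneg.2 ht0))) (sub_nonneg.2 (mul_nonneg (sub_nonneg.2 hTt) (sub_nonneg.2 huc))), mul_nonneg (sub_nonneg.2 (mul_nonneg (sub_nonneg.2 hTt) (sub_nonneg.2 huc))) (sub_nonneg.2 (mul_nonneg (sub_nonneg.2 hTt) (sub_nonneg.2 huc)))])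

end Vale.Agent.P150.F
end

section

/-! The scalar inequality for the star-shapedness of the TAP free energy. -/

open MeasureTheory ProbabilityTheory Filter Topology Set

namespace Vale.Agent.P150.F

lemma SSI.PT_holds : SSI.PT := by
  intro t m ht0 ht1 h0 h1 hX
  have hX' : 0 ≤ SX t m := hX
  have h := cert ht0.le ht1 h0 h1 hX'
  have hp := SX'_pos h0 h1 hX'
  have e1 : SSI.X' t m = SX' t m := rfl
  have e2 : SSI.X t m = SX t m := rfl
  have e3 : SSI.cf t m = Sf t m := by rw [SSI.cf, Sf]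
  have e4 : SSI.cf' t m = Sf' t m := by rw [SSI.cf', Sf']
  rw [e1, e2, e3, e4]
  have h2 := mul_le_mul_of_nonneg_right h hp.le
  have e5 : (2 * m ^ 2 + 1 / SX' t m - 1 - 2 * t) * SX' t m
      = (2 * m ^ 2 - 1 - 2 * t) * SX' t m + 1 := by
    field_simp
    ring
  have e6 : (SX t m * Sf t m - t * Sf' t m / SX' t m) * SX' t m
      = Sf t m * SX t m * SX' t m - t * Sf' t m := by
    field_simp
  rw [e5, e6] at h2
  exact h2

lemma SSI.BD_holds : SSI.BD := by
  intro t m ht1 h0 h1 hX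
  have := cert_bd ht1 h0 h1 hX
  have e3 : SSI.cf t m = Sf t m := by rw [SSI.cf, Sf]
  rw [e3]
  exact this

/-- The scalar inequality, explicit form: `E sup_m (2√q g m + 2 q m² - m artanh m) ≤ q + q²`. -/
theorem ss_scalar {q : ℝ} (hq0 : 0 < q) (hq : q ≤ 24/25) :
    ∫ g, SSI.Psi q (√q * g) ∂(gaussianReal 0 1) ≤ q + q^2 :=
  SSI.ss_scalar SSI.PT_holds SSI.BD_holds hq0 hq

/-- The scalar inequality SS1. -/
theorem ssineq : ∀ q : ℝ, 0 < q → q ≤ 24/25 → ∃ (lam : ℝ) (Psi : ℝ → ℝ), Continuous Psi ∧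
    (∃ C : ℝ, ∀ x, |Psi x| ≤ C * (1 + x^2)) ∧
    (∀ x m : ℝ, |m| < 1 → 2*x*m - m*Real.artanh m - lam*m^2 ≤ Psi x) ∧
    (∫ g, Psi (Real.sqrt q * g) ∂(gaussianReal 0 1)) + lam*q ≤ q*(1-q) := by
  intro q hq0 hq
  refine ⟨-2*q, SSI.Psi q, SSI.Psi_continuous hq0.le, ⟨4, fun x => ?_⟩, ?_, ?_⟩
  · rw [abs_of_nonneg (SSI.Psi_nonneg hq0.le x)]
    refine (SSI.Psi_le hq0.le x).trans ?_
    have h1 : |x| ≤ (1 + x^2) / 2 := by
      rw [← sq_abs]
      linarith only [sq_nonneg (|x| - 1)]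
    linarith only [hq0, hq, h1, sq_nonneg x]
  · intro x m hm
    have := SSI.le_Psi (q := q) (x := x) hq0.le hm
    rw [SSI.ph] at this
    linarith only [this]
  · have := ss_scalar hq0 hq
    linarith only [this]

end Vale.Agent.P150.F
end

section

/-! G3 (star-shapedness), part B: the deterministic lower bound for the comparison process. -/

open MeasureTheory ProbabilityTheory Real Set Filter Topology

namespace Vale.Agent.P150.F

variable {n : ℕ}

/-- normalized entropy-like term -/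
noncomputable def aM (m : Vec n) : ℝ := (∑ i, m i * Real.artanh (m i)) / n

/-- the reduced functional -/
noncomputable def redF (β : ℝ) (h m : Vec n) : ℝ :=
  aM m + β ^ 2 * (qq m * (1 - qq m)) - 2 * β * √(qq m) * (ip h m / n)

lemma g3_qq_nonneg (m : Vec n) : 0 ≤ qq m := div_nonneg (sq_nonneg' m) (Nat.cast_nonneg n)

lemma g3_qq_le_one {m : Vec n} (hm : ∀ i, |m i| < 1) : qq m ≤ 1 := by
  rcases Nat.eq_zero_or_pos n with rfl | hn
  · simp [qq, sq]
  have hn' : (0 : ℝ) < n := by exact_mod_cast hn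
  unfold qq
  rw [div_le_one hn']
  have : sq m ≤ ∑ _i : Fin n, (1 : ℝ) := by
    refine Finset.sum_le_sum fun i _ => ?_
    have := (sq_le_sq₀ (abs_nonneg _) zero_le_one).2 (hm i).le
    rwa [sq_abs, one_pow] at this
  simpa using this

lemma qq_le_aM {m : Vec n} (hm : ∀ i, |m i| < 1) : qq m ≤ aM m := by
  unfold qq aM sq
  refine div_le_div_of_nonneg_right (Finset.sum_le_sum fun i _ => sq_le_S (hm i))
    (Nat.cast_nonneg n)

/-- Cauchy–Schwarz for the field term -/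
lemma abs_ip_div_le (hn : 0 < n) {h m : Vec n} (hh : sq h ≤ (101 / 100) ^ 2 * n) :
    |ip h m / n| ≤ 101 / 100 * √(qq m) := by
  have hn' : (0 : ℝ) < n := by exact_mod_cast hn
  have h1 := g3_abs_ip_le h m hn
  have h2 : √(qq h) ≤ 101 / 100 := by
    rw [Real.sqrt_le_left (by norm_num)]
    unfold qq
    rw [div_le_iff₀ hn']
    exact hh
  rw [abs_div, abs_of_pos hn', div_le_iff₀ hn']
  refine h1.trans ?_
  have := mul_le_mul_of_nonneg_right h2 (Real.sqrt_nonneg (qq m))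
  nlinarith

lemma det_point {lam th : ℝ} {Ψ : ℝ → ℝ}
    (hΨ : ∀ x m : ℝ, |m| < 1 → 2 * x * m - m * Real.artanh m - lam * m ^ 2 ≤ Ψ x)
    (h : Vec n) {m : Vec n} (hm : ∀ i, |m i| < 1) :
    2 * √th * (ip h m / n) - aM m - lam * qq m ≤ (∑ i, Ψ (√th * h i)) / n := by
  have h1 : ∑ i, (2 * (√th * h i) * m i - m i * Real.artanh (m i) - lam * m i ^ 2) ≤
      ∑ i, Ψ (√th * h i) := Finset.sum_le_sum fun i _ => hΨ _ _ (hm i)
  have h2 : 2 * √th * (ip h m / n) - aM m - lam * qq m =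
      (∑ i, (2 * (√th * h i) * m i - m i * Real.artanh (m i) - lam * m i ^ 2)) / n := by
    unfold ip aM qq sq
    rw [Finset.sum_sub_distrib, Finset.sum_sub_distrib, ← Finset.mul_sum]
    have : ∑ i, 2 * (√th * h i) * m i = 2 * √th * ∑ i, h i * m i := by
      rw [Finset.mul_sum]
      exact Finset.sum_congr rfl fun i _ => by ring
    rw [this]
    ring
  rw [h2]
  exact div_le_div_of_nonneg_right h1 (Nat.cast_nonneg n)

/-- `f(1) ≥ -η` near a reference overlap `th` -/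
lemma det_one (hn : 0 < n) {lam th E ε η : ℝ} {Ψ : ℝ → ℝ}
    (hΨ : ∀ x m : ℝ, |m| < 1 → 2 * x * m - m * Real.artanh m - lam * m ^ 2 ≤ Ψ x)
    (hE : E + lam * th ≤ th * (1 - th))
    {h : Vec n} (hh : sq h ≤ (101 / 100) ^ 2 * n)
    (hsum : ∑ i, Ψ (√th * h i) ≤ (E + ε) * n)
    {m : Vec n} (hm : ∀ i, |m i| < 1)
    (hη : 202 / 100 * |√(qq m) - √th| + |lam| * |qq m - th|
      + |qq m * (1 - qq m) - th * (1 - th)| ≤ η) :
    -(η + ε) ≤ redF 1 h m := by
  have hn' : (0 : ℝ) < n := by exact_mod_cast hn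
  have h1 := det_point hΨ h hm (th := th)
  have h2 : (∑ i, Ψ (√th * h i)) / n ≤ E + ε := by
    rw [div_le_iff₀ hn']; exact hsum
  have h3 := abs_ip_div_le hn (h := h) (m := m) hh
  have hq1 : √(qq m) ≤ 1 := by
    rw [Real.sqrt_le_left zero_le_one]; simpa using g3_qq_le_one hm
  have h4 : |ip h m / n| ≤ 101 / 100 := by
    refine h3.trans ?_
    linarith only [hq1]
  have h5 : |2 * (√(qq m) - √th) * (ip h m / n)| ≤ 202 / 100 * |√(qq m) - √th| := by
    rw [abs_mul, abs_mul, abs_two]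
    linarith only [mul_nonneg (sub_nonneg.2 h4) (sub_nonneg.2 (abs_nonneg (√(qq m) - √th)))]
  have h6 : |lam * (qq m - th)| = |lam| * |qq m - th| := abs_mul _ _
  have a1 := (abs_le.1 h5)
  have a2 := neg_abs_le (lam * (qq m - th))
  have a2' := le_abs_self (lam * (qq m - th))
  have a3 := neg_abs_le (qq m * (1 - qq m) - th * (1 - th))
  rw [h6] at a2 a2'
  unfold redF
  set s := ip h m / n
  have e1 : 2 * (√(qq m) - √th) * s = 2 * √(qq m) * s - 2 * √th * s := by ring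
  have e2 : lam * (qq m - th) = lam * qq m - lam * th := by ring
  rw [e1] at a1
  rw [e2] at a2 a2'
  linarith only [a1.2, h1, a3, a2', h2, hη, hE]

/-- from `β = 1` to `β < 1` -/
lemma det_beta {β a : ℝ} (hβ0 : 0 ≤ β) (hβ1 : β < 1) {h m : Vec n}
    (hm : ∀ i, |m i| < 1) (ha0 : 0 < a) (ha : a ≤ qq m) (hq : qq m ≤ 19 / 20)
    (h1 : -((1 - β) ^ 2 * a / 40) ≤ redF 1 h m) :
    min ((1 - β) ^ 2 * a / 40) (a ^ 2) ≤ redF β h m := by
  have hA := qq_le_aM hm
  unfold redF at *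
  set q := qq m
  set s := ip h m / n
  set A := aM m
  have hb : 0 < (1 - β) ^ 2 := by
    have : 0 < 1 - β := by linarith only [hβ1]
    positivity
  rcases le_total (q * (1 - q)) (√q * s) with hs | hs
  · refine (min_le_left _ _).trans ?_
    have e1 : A + β ^ 2 * (q * (1 - q)) - 2 * β * √q * s =
        (A + 1 ^ 2 * (q * (1 - q)) - 2 * 1 * √q * s) + (2 * (1 - β)) * (√q * s - q * (1 - q))
          + (1 - β) ^ 2 * (q * (1 - q)) := by ring
    have h2 : 0 ≤ (2 * (1 - β)) * (√q * s - q * (1 - q)) :=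
      mul_nonneg (by linarith only [hβ1]) (by linarith only [hs])
    have h3 : a / 20 ≤ q * (1 - q) := by (by_contra nlg; linarith only [mul_pos (sub_pos.2 (not_le.1 nlg)) (sub_pos.2 ha0), mul_nonneg (le_of_lt (sub_pos.2 (not_le.1 nlg))) (sub_nonneg.2 ha), mul_nonneg (le_of_lt (sub_pos.2 (not_le.1 nlg))) (sub_nonneg.2 hq), mul_nonneg (le_of_lt (sub_pos.2 ha0)) (sub_nonneg.2 ha), mul_nonneg (le_of_lt (sub_pos.2 ha0)) (sub_nonneg.2 hq), mul_nonneg (sub_nonneg.2 ha) (sub_nonneg.2 ha), mul_nonneg (sub_nonneg.2 ha) (sub_nonneg.2 hq)])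
    have h4 := mul_le_mul_of_nonneg_left h3 hb.le
    rw [e1]
    linarith
  · refine (min_le_right _ _).trans ?_
    have h2 : β * (√q * s) ≤ β * (q * (1 - q)) := mul_le_mul_of_nonneg_left hs hβ0
    have h3 : 0 ≤ q * (1 - q) := mul_nonneg (by linarith only [ha, ha0]) (by linarith only [ha0, ha, hq])
    have h4 : 0 ≤ (1 - β) ^ 2 * (q * (1 - q)) := mul_nonneg hb.le h3
    have e1 : A + β ^ 2 * (q * (1 - q)) - 2 * β * √q * s =
        A - q * (1 - q) + (1 - β) ^ 2 * (q * (1 - q)) + 2 * (β * (q * (1 - q)) - β * (√q * s)) := by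
      ring
    rw [e1]
    have h5 : a ^ 2 ≤ q ^ 2 := pow_le_pow_left₀ ha0.le ha 2
    linarith only [hA, h2, h4, h5]

lemma det_high (hn : 0 < n) {β : ℝ} (hβ0 : 0 ≤ β) (hβ1 : β < 1) {h m : Vec n}
    (hh : sq h ≤ (101 / 100) ^ 2 * n)
    (hm : ∀ i, |m i| < 1) (hq : 19 / 20 ≤ qq m) :
    1 / 20 ≤ redF β h m := by
  have h1 := S_jensen hm (by simpa [qq, sq] using hq)
  have h2 := abs_ip_div_le hn (h := h) (m := m) hh
  have h3 := (abs_le.1 h2).2
  have hq1 := g3_qq_le_one hm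
  have e1 : (∑ i, m i ^ 2) / n = qq m := rfl
  have e2 : (∑ i, m i * artanh (m i)) / n = aM m := rfl
  rw [e1, e2] at h1
  unfold redF
  set q := qq m
  set s := ip h m / n
  set A := aM m
  have hq0 : 0 ≤ q := by linarith only [hq]
  have h4 : √q * s ≤ 101 / 100 * q := by
    have := mul_le_mul_of_nonneg_left h3 (Real.sqrt_nonneg q)
    have e : √q * (101 / 100 * √q) = 101 / 100 * q := by
      have := Real.mul_self_sqrt hq0
      linear_combination (101 / 100) * this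
    linarith only [e, this]
  have h5 : β * (√q * s) ≤ β * (101 / 100 * q) := mul_le_mul_of_nonneg_left h4 hβ0
  have h6 : 0 ≤ q * (1 - q) := mul_nonneg hq0 (by linarith only [hq1])
  have h7 : 0 ≤ (1 - β) * (q * (202 / 100 - (1 - q) * (1 + β))) := by
    refine mul_nonneg (by linarith only [hβ1]) (mul_nonneg hq0 ?_)
    (by_contra nlg; linarith only [nlg, mul_nonneg (sub_nonneg.2 hq0) (sub_nonneg.2 hq0), mul_nonneg (sub_nonneg.2 hq) (sub_nonneg.2 hq1), mul_nonneg (le_of_lt (sub_pos.2 hβ1)) (sub_nonneg.2 h6), mul_nonneg (le_of_lt (sub_pos.2 (not_le.1 nlg))) (sub_nonneg.2 hq0)])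
  linarith only [h7, h5, h1]

/-- compactness: finitely many reference overlaps -/
theorem exists_cover {a η : ℝ} (ha : 0 < a) (hη : 0 < η) :
    ∃ (T : Finset ℝ) (lam : ℝ → ℝ) (Ψ : ℝ → ℝ → ℝ),
      (∀ t ∈ T, 0 < t ∧ Continuous (Ψ t) ∧ (∃ C : ℝ, ∀ x, |Ψ t x| ≤ C * (1 + x ^ 2)) ∧
        (∀ x m : ℝ, |m| < 1 → 2 * x * m - m * Real.artanh m - lam t * m ^ 2 ≤ Ψ t x) ∧
        (∫ g, Ψ t (√t * g) ∂(gaussianReal 0 1)) + lam t * t ≤ t * (1 - t)) ∧
      ∀ q ∈ Icc a (19 / 20), ∃ t ∈ T, 202 / 100 * |√q - √t| + |lam t| * |q - t|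
        + |q * (1 - q) - t * (1 - t)| ≤ η := by
  have hex : ∀ t : ℝ, ∃ (lam : ℝ) (Psi : ℝ → ℝ), (0 < t → t ≤ 24 / 25 → Continuous Psi ∧
    (∃ C : ℝ, ∀ x, |Psi x| ≤ C * (1 + x^2)) ∧
    (∀ x m : ℝ, |m| < 1 → 2*x*m - m*Real.artanh m - lam*m^2 ≤ Psi x) ∧
    (∫ g, Psi (Real.sqrt t * g) ∂(gaussianReal 0 1)) + lam*t ≤ t*(1-t)) := by
    intro t
    by_cases h : 0 < t ∧ t ≤ 24 / 25
    · obtain ⟨lam, Psi, h1⟩ := ssineq t h.1 h.2
      exact ⟨lam, Psi, fun _ _ => h1⟩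
    · exact ⟨0, fun _ => 0, fun h1 h2 => absurd ⟨h1, h2⟩ h⟩
  choose lam Ψ hlΨ using hex
  set U : ℝ → Set ℝ := fun t => {q | 202 / 100 * |√q - √t| + |lam t| * |q - t|
        + |q * (1 - q) - t * (1 - t)| < η} with hU
  have hUn : ∀ t ∈ Icc a (19 / 20), U t ∈ 𝓝 t := by
    intro t _
    have hc : Continuous fun q : ℝ => 202 / 100 * |√q - √t| + |lam t| * |q - t|
        + |q * (1 - q) - t * (1 - t)| := by fun_prop
    refine (isOpen_lt hc continuous_const).mem_nhds ?_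
    simp [hη]
  obtain ⟨T, hT1, hT2⟩ := isCompact_Icc.elim_nhds_subcover U hUn
  refine ⟨T, lam, Ψ, fun t ht => ?_, fun q hq => ?_⟩
  · have h := hT1 t ht
    have h0 : 0 < t := ha.trans_le h.1
    exact ⟨h0, hlΨ t h0 (h.2.trans (by norm_num))⟩
  · obtain ⟨t, ht, hqt⟩ := Set.mem_iUnion₂.1 (hT2 hq)
    exact ⟨t, ht, le_of_lt hqt⟩

/-- The deterministic lower bound. -/
theorem det_main {β a : ℝ} (hβ0 : 0 ≤ β) (hβ1 : β < 1) (ha : 0 < a) :
    ∃ (T : Finset (ℝ → ℝ)), (∀ φ ∈ T, Continuous φ ∧ ∃ C : ℝ, ∀ x, |φ x| ≤ C * (1 + x ^ 2)) ∧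
      ∃ ε > 0, ∃ c > 0, c ≤ 1 / 20 ∧ ∀ n : ℕ, 0 < n → ∀ h : Vec n,
        (∀ φ ∈ T, |∑ i, φ (h i) - n * ∫ x, φ x ∂(gaussianReal 0 1)| ≤ ε * n) →
        sq h ≤ (101 / 100) ^ 2 * n ∧
        ∀ m : Vec n, (∀ i, |m i| < 1) → a ≤ qq m → c ≤ redF β h m := by
  classical
  set η : ℝ := (1 - β) ^ 2 * a / 80 with hη
  have hb : 0 < (1 - β) ^ 2 := by
    have : 0 < 1 - β := by linarith only [hβ1]
    positivity
  have hη0 : 0 < η := by positivity
  obtain ⟨T0, lam, Ψ, hT, hcov⟩ := exists_cover ha hη0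
  refine ⟨insert (fun x => x ^ 2) (T0.image fun t => fun x => Ψ t (√t * x)), ?_,
    min η (1 / 100), by positivity, min (min ((1 - β) ^ 2 * a / 40) (a ^ 2)) (1 / 20),
    by positivity, min_le_right _ _, ?_⟩
  · intro φ hφ
    rcases Finset.mem_insert.1 hφ with rfl | hφ
    · refine ⟨by fun_prop, 1, fun x => ?_⟩
      rw [abs_of_nonneg (sq_nonneg x)]
      linarith only []
    · obtain ⟨t, ht, rfl⟩ := Finset.mem_image.1 hφ
      obtain ⟨h0, h1, ⟨C, hC⟩, -, -⟩ := hT t ht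
      refine ⟨h1.comp (by fun_prop), |C| * (1 + t), fun x => ?_⟩
      refine (hC _).trans ?_
      have e : (√t * x) ^ 2 = t * x ^ 2 := by rw [mul_pow, Real.sq_sqrt h0.le]
      rw [e]
      have h2 : 1 + t * x ^ 2 ≤ (1 + t) * (1 + x ^ 2) := by linarith only [h0, sq_nonneg x]
      calc C * (1 + t * x ^ 2) ≤ |C| * (1 + t * x ^ 2) :=
            mul_le_mul_of_nonneg_right (le_abs_self C) (by (clear * - h0; positivity))
        _ ≤ |C| * ((1 + t) * (1 + x ^ 2)) := mul_le_mul_of_nonneg_left h2 (abs_nonneg C)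
        _ = _ := by ring
  · intro n hn h hh
    have hn' : (0 : ℝ) < n := by exact_mod_cast hn
    have hsq : sq h ≤ (101 / 100) ^ 2 * n := by
      have h1 := hh (fun x => x ^ 2) (Finset.mem_insert_self _ _)
      have e1 : ∫ x : ℝ, x ^ 2 ∂(gaussianReal 0 1) = 1 := by
        have := integral_sq_coord (ι := Unit) ()
        have h2 := variance_id_gaussianReal (μ := 0) (v := 1)
        rw [variance_eq_integral measurable_id.aemeasurable] at h2
        simpa using h2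
      simp only [e1, mul_one] at h1
      have h2 := (abs_le.1 h1).2
      have h3 : min η (1 / 100) * (n : ℝ) ≤ 1 / 100 * n :=
        mul_le_mul_of_nonneg_right (min_le_right _ _) hn'.le
      unfold sq
      linarith only [h3, h2, hn']
    refine ⟨hsq, fun m hm hq => ?_⟩
    rcases le_total (qq m) (19 / 20) with hq2 | hq2
    · refine (min_le_left _ _).trans (det_beta hβ0 hβ1 hm ha hq hq2 ?_)
      obtain ⟨t, ht, hη2⟩ := hcov (qq m) ⟨hq, hq2⟩
      obtain ⟨h0, h1, -, h3, h4⟩ := hT t ht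
      have h5 := hh (fun x => Ψ t (√t * x)) (Finset.mem_insert_of_mem
        (Finset.mem_image_of_mem _ ht))
      have h6 : ∑ i, Ψ t (√t * h i) ≤
          ((∫ g, Ψ t (√t * g) ∂(gaussianReal 0 1)) + min η (1 / 100)) * n := by
        have := (abs_le.1 h5).2
        linarith only [this]
      have h7 := det_one hn h3 h4 hsq h6 hm hη2
      have h8 : min η (1 / 100) ≤ η := min_le_left _ _
      have e : (1 - β) ^ 2 * a / 40 = η + η := by rw [hη]; ring
      rw [e]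
      linarith only [h7, h8]
    · exact (min_le_right _ _).trans (det_high hn hβ0 hβ1 hsq hm hq2)

end Vale.Agent.P150.F
end

section

/-! G3 (star-shapedness), part C: the net, the comparison, the concentration. -/

open MeasureTheory ProbabilityTheory Real Set Filter Topology

namespace Vale.Agent.P150.F

variable {n : ℕ}

/-- the net of magnetizations with values in `ℤ/(N+1)`, `|·| ≤ N/(N+1)` -/
noncomputable def g3nv (N : ℕ) (s : Fin n → Fin (2 * N + 1)) : Vec n :=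
  fun i => (((s i : ℕ) : ℝ) - N) / (N + 1)

lemma abs_nv_lt (N : ℕ) (s : Fin n → Fin (2 * N + 1)) (i : Fin n) : |g3nv N s i| < 1 := by
  have h0 : (0 : ℝ) < (N : ℝ) + 1 := by positivity
  unfold g3nv
  rw [abs_div, abs_of_pos h0, div_lt_one h0, abs_lt]
  have h1 : ((s i : ℕ) : ℝ) < 2 * N + 1 := by exact_mod_cast (s i).2
  have h2 : (0 : ℝ) ≤ ((s i : ℕ) : ℝ) := Nat.cast_nonneg _
  constructor <;> linarith

/-- rounding toward zero -/
lemma g3_exists_round (N : ℕ) {x : ℝ} (hx : |x| < 1) :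
    ∃ k : Fin (2 * N + 1), |(((k : ℕ) : ℝ) - N) / (N + 1)| ≤ |x| ∧
      |x - (((k : ℕ) : ℝ) - N) / (N + 1)| ≤ 1 / (N + 1) := by
  have h0 : (0 : ℝ) < (N : ℝ) + 1 := by positivity
  set j : ℕ := ⌊|x| * (N + 1)⌋₊ with hj
  have hj1 : (j : ℝ) ≤ |x| * (N + 1) := Nat.floor_le (by (clear * -; positivity))
  have hj2 : |x| * (N + 1) < j + 1 := Nat.lt_floor_add_one _
  have hjN : j ≤ N := by
    have : (j : ℝ) < N + 1 := by nlinarith
    have h : j < N + 1 := by exact_mod_cast this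
    omega
  have e0 : 0 ≤ (j : ℝ) / (N + 1) := by (clear * -; positivity)
  have e1 : (j : ℝ) / (N + 1) ≤ |x| := by rw [div_le_iff₀ h0]; exact hj1
  have e2 : |x| - (j : ℝ) / (N + 1) ≤ 1 / (N + 1) := by
    rw [sub_le_iff_le_add, ← add_div, le_div_iff₀ h0]
    linarith only [hj2]
  rcases le_total 0 x with hx0 | hx0
  · refine ⟨⟨N + j, by omega⟩, ?_⟩
    have e : ((((⟨N + j, by omega⟩ : Fin (2 * N + 1)) : ℕ) : ℝ) - N) / (N + 1) = j / (N + 1) := by
      push_cast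
      ring
    rw [e]
    rw [abs_of_nonneg hx0] at *
    rw [abs_of_nonneg e0, abs_of_nonneg (by linarith only [e1])]
    exact ⟨e1, e2⟩
  · refine ⟨⟨N - j, by omega⟩, ?_⟩
    have e : ((((⟨N - j, by omega⟩ : Fin (2 * N + 1)) : ℕ) : ℝ) - N) / (N + 1) =
        -(j / (N + 1)) := by
      rw [Nat.cast_sub hjN]
      ring
    rw [e]
    rw [abs_of_nonpos hx0] at *
    rw [abs_neg, abs_of_nonneg e0]
    refine ⟨e1, ?_⟩
    rw [abs_of_nonpos (by linarith only [e1])]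
    linarith only [e2]

lemma exists_nv (N : ℕ) {m : Vec n} (hm : ∀ i, |m i| < 1) :
    ∃ s : Fin n → Fin (2 * N + 1), ∀ i, |g3nv N s i| ≤ |m i| ∧ |m i - g3nv N s i| ≤ 1 / (N + 1) := by
  choose s hs using fun i => g3_exists_round N (hm i)
  exact ⟨s, hs⟩

/-- the penalty -/
noncomputable def pen (β a : ℝ) (m : Vec n) : ℝ :=
  if a ≤ qq m then aM m + β ^ 2 * (qq m * (1 - qq m)) else 10

/-- the supremum over the net, disorder side -/
noncomputable def FA (β a : ℝ) (N : ℕ) (g : Pairs n → ℝ) : ℝ :=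
  ⨆ s : Fin n → Fin (2 * N + 1), ((∑ p, cA β (g3nv N s) p * g p) - pen β a (g3nv N s))

/-- the supremum over the net, comparison side -/
noncomputable def FB (β a : ℝ) (N : ℕ) (h : Vec n) : ℝ :=
  ⨆ s : Fin n → Fin (2 * N + 1), ((∑ i, cB β (g3nv N s) i * h i) - pen β a (g3nv N s))

lemma FA_le_FB (hn : 0 < n) (β a : ℝ) (N : ℕ) :
    ∫ g, FA β a N g ∂(gpi (Pairs n)) ≤ ∫ h, FB β a N h ∂(gpi (Fin n)) :=
  sup_le_pen (fun s : Fin n → Fin (2 * N + 1) => cA β (g3nv N s)) (fun s => cB β (g3nv N s))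
    (fun s => pen β a (g3nv N s)) fun _ _ => incr_le hn β _ _

lemma lip_FA (hn : 0 < n) {β : ℝ} (hβ0 : 0 ≤ β) (hβ1 : β ≤ 1) (a : ℝ) (N : ℕ) :
    Lip (2 / √n) (FA (n := n) β a N) := by
  refine Lip.iSup_fin fun s => ?_
  have h1 := (Lip.lin (cA β (g3nv N s))).add_const (-(pen β a (g3nv N s)))
  refine (h1.mono ?_).congr fun w => by ring
  refine (sum_cA_sq hn hβ0 hβ1 (g3_qq_le_one (abs_nv_lt N s))).trans ?_
  refine div_le_div_of_nonneg_right ?_ (Real.sqrt_nonneg _)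
  rw [Real.sqrt_le_left (by norm_num)]
  norm_num

lemma lip_FB (hn : 0 < n) {β : ℝ} (hβ0 : 0 ≤ β) (hβ1 : β ≤ 1) (a : ℝ) (N : ℕ) :
    Lip (2 / √n) (FB (n := n) β a N) := by
  refine Lip.iSup_fin fun s => ?_
  have h1 := (Lip.lin (cB β (g3nv N s))).add_const (-(pen β a (g3nv N s)))
  refine (h1.mono ?_).congr fun w => by ring
  exact sum_cB_sq hn hβ0 hβ1 (g3_qq_le_one (abs_nv_lt N s))

/-- on the good event the comparison supremum is at most `-c` -/
lemma FB_le (hn : 0 < n) {β a c : ℝ} (hβ0 : 0 ≤ β) (hβ1 : β ≤ 1) (hc : c ≤ 1 / 20) (N : ℕ)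
    {h : Vec n} (hh : sq h ≤ (101 / 100) ^ 2 * n)
    (hm : ∀ m : Vec n, (∀ i, |m i| < 1) → a ≤ qq m → c ≤ redF β h m) :
    FB β a N h ≤ -c := by
  refine ciSup_le fun s => ?_
  rw [sum_cB]
  unfold pen
  split_ifs with hq
  · have := hm (g3nv N s) (abs_nv_lt N s) hq
    unfold redF at this
    linarith [this]
  · have h1 := (abs_le.1 (abs_ip_div_le hn (m := g3nv N s) hh)).2
    have hq1 : √(qq (g3nv N s)) ≤ 1 := by
      rw [Real.sqrt_le_left zero_le_one]; simpa using g3_qq_le_one (abs_nv_lt N s)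
    have hq0 := Real.sqrt_nonneg (qq (g3nv N s))
    set r := √(qq (g3nv N s))
    set t := ip h (g3nv N s) / n
    have h2 : 0 ≤ β * r := mul_nonneg hβ0 hq0
    have h3 : β * r ≤ 1 := by linarith only [mul_nonneg (sub_nonneg.2 hβ1) (sub_nonneg.2 hq0), mul_nonneg (sub_nonneg.2 hq1) (sub_nonneg.2 hq1), mul_nonneg (sub_nonneg.2 hq1) (sub_nonneg.2 hq0)]
    have h4 : (β * r) * t ≤ (β * r) * (101 / 100 * r) := mul_le_mul_of_nonneg_left h1 h2
    have h5 : (β * r) * (101 / 100 * r) ≤ 101 / 100 := by linarith only [mul_nonneg (sub_nonneg.2 h3) (sub_nonneg.2 h3), mul_nonneg (sub_nonneg.2 h2) (sub_nonneg.2 h3), mul_nonneg (sub_nonneg.2 hq1) (sub_nonneg.2 h2)]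
    linarith only [h5, h4, hc]

/-- deterministic passage from the net to all magnetizations -/
lemma ss_of_FA (hn : 0 < n) {β a c : ℝ} (hβ0 : 0 ≤ β) (hβ1 : β ≤ 1) {N : ℕ}
    (hN : 32 / ((N : ℝ) + 1) ≤ c) (hNa : 2 / ((N : ℝ) + 1) ≤ a)
    {g : Pairs n → ℝ} (hop : OpLe (skM g) 3) (hF : FA β a N g ≤ -(c / 2)) :
    SS β (2 * a) (c / 4) (skM g) := by
  intro m hm hq
  have hn' : (0 : ℝ) < n := by exact_mod_cast hn
  have hN0 : (0 : ℝ) < (N : ℝ) + 1 := by positivity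
  set δ : ℝ := 1 / ((N : ℝ) + 1) with hδ
  have hδ0 : 0 ≤ δ := by positivity
  have hδc : 32 * δ ≤ c := by rw [hδ]; rw [mul_one_div]; exact hN
  have hδa : 2 * δ ≤ a := by rw [hδ]; rw [mul_one_div]; exact hNa
  obtain ⟨s, hs⟩ := exists_nv N hm
  set m' := g3nv N s with hm'
  have hm'1 : ∀ i, |m' i| < 1 := abs_nv_lt N s
  -- entropies
  have hA : aM m' ≤ aM m := by
    unfold aM
    refine div_le_div_of_nonneg_right (Finset.sum_le_sum fun i _ => S_mono (hs i).1 (hm i)) hn'.le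
  -- overlaps
  have hqd : |qq m - qq m'| ≤ 2 * δ := by
    have e : qq m - qq m' = (∑ i, (m i - m' i) * (m i + m' i)) / n := by
      unfold qq sq
      rw [← sub_div, ← Finset.sum_sub_distrib]
      congr 1
      exact Finset.sum_congr rfl fun i _ => by ring
    rw [e, abs_div, abs_of_pos hn', div_le_iff₀ hn']
    refine (Finset.abs_sum_le_sum_abs _ _).trans ?_
    have h1 : ∀ i, |(m i - m' i) * (m i + m' i)| ≤ 2 * δ := by
      intro i
      rw [abs_mul]
      have h2 : |m i + m' i| ≤ 2 := by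
        refine (abs_add_le _ _).trans ?_
        linarith only [hm'1 i, hm i]
      have h3 := (hs i).2
      linarith only [mul_nonneg (sub_nonneg.2 h2) (sub_nonneg.2 h3), mul_nonneg (sub_nonneg.2 h2) (sub_nonneg.2 (abs_nonneg (m i - m' i))), mul_nonneg (sub_nonneg.2 h3) (sub_nonneg.2 (abs_nonneg (m i + m' i)))]
    refine (Finset.sum_le_sum fun i _ => h1 i).trans ?_
    simp only [Finset.sum_const, Finset.card_univ, Fintype.card_fin, nsmul_eq_mul]
    linarith only []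
  have hq' : a ≤ qq m' := by
    have := (abs_le.1 hqd).2
    linarith only [this, hδa, hq]
  have hq0 := g3_qq_nonneg m
  have hq0' := g3_qq_nonneg m'
  have hq1 := g3_qq_le_one hm
  have hq1' := g3_qq_le_one hm'1
  have hqq : |qq m * (1 - qq m) - qq m' * (1 - qq m')| ≤ 2 * δ := by
    have e : qq m * (1 - qq m) - qq m' * (1 - qq m') =
        (qq m - qq m') * (1 - qq m - qq m') := by ring
    rw [e, abs_mul]
    have h2 : |1 - qq m - qq m'| ≤ 1 := by rw [abs_le]; constructor <;> linarith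
    linarith only [mul_nonneg (sub_nonneg.2 hqd) (sub_nonneg.2 h2), mul_nonneg (sub_nonneg.2 hqd) (sub_nonneg.2 (abs_nonneg (1 - qq m - qq m'))), mul_nonneg (sub_nonneg.2 h2) (sub_nonneg.2 (abs_nonneg (qq m - qq m')))]
  -- quadratic forms
  have hQ : |qf (skM g) m - qf (skM g) m'| ≤ 6 * δ * n := by
    have hsym := skM_symm g
    set J := skM g
    have e : qf J m - qf J m' = ip (m - m') (J.mulVec (m + m')) := by
      unfold qf
      have h1 : ip (m - m') (J.mulVec (m + m')) = ip m (J.mulVec m) + ip m (J.mulVec m')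
          - ip m' (J.mulVec m) - ip m' (J.mulVec m') := by
        rw [Matrix.mulVec_add]
        unfold ip
        rw [← Finset.sum_add_distrib, ← Finset.sum_sub_distrib, ← Finset.sum_sub_distrib]
        refine Finset.sum_congr rfl fun i _ => ?_
        simp only [Pi.sub_apply, Pi.add_apply]
        ring
      rw [h1, ip_mulVec_symm hsym m m']
      ring
    have h1 : sq (m - m') ≤ δ ^ 2 * n := by
      unfold sq
      have : ∀ i, (m - m') i ^ 2 ≤ δ ^ 2 := by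
        intro i
        have h3 := (hs i).2
        rw [← sq_abs]
        exact pow_le_pow_left₀ (abs_nonneg _) h3 2
      refine (Finset.sum_le_sum fun i _ => this i).trans ?_
      simp only [Finset.sum_const, Finset.card_univ, Fintype.card_fin, nsmul_eq_mul]
      linarith only []
    have h2 : sq (m + m') ≤ 4 * n := by
      unfold sq
      have : ∀ i, (m + m') i ^ 2 ≤ 4 := by
        intro i
        have h2 : |m i + m' i| ≤ 2 := by
          refine (abs_add_le _ _).trans ?_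
          linarith only [hm'1 i, hm i]
        have h3 := pow_le_pow_left₀ (abs_nonneg _) h2 2
        rw [sq_abs] at h3
        simp only [Pi.add_apply]
        linarith only [h3]
      refine (Finset.sum_le_sum fun i _ => this i).trans ?_
      simp only [Finset.sum_const, Finset.card_univ, Fintype.card_fin, nsmul_eq_mul]
      linarith only []
    have h3 : sq (J.mulVec (m + m')) ≤ 36 * n := by
      have := hop (m + m')
      linarith only [this, h2]
    have h4 : ip (m - m') (J.mulVec (m + m')) ^ 2 ≤ (6 * δ * n) ^ 2 := by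
      have h5 : ip (m - m') (J.mulVec (m + m')) ^ 2 ≤ sq (m - m') * sq (J.mulVec (m + m')) :=
        Finset.sum_mul_sq_le_sq_mul_sq _ _ _
      have h6 := mul_le_mul h1 h3 (sq_nonneg' _) (by positivity)
      refine h5.trans (h6.trans (le_of_eq ?_))
      ring
    rw [e]
    exact abs_le_of_sq_le_sq h4 (by (clear * - hn; positivity))
  -- the supremum
  have hsup : (∑ p, cA β m' p * g p) - pen β a m' ≤ -(c / 2) :=
    (le_ciSup (f := fun s : Fin n → Fin (2 * N + 1) =>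
      (∑ p, cA β (g3nv N s) p * g p) - pen β a (g3nv N s)) (Set.finite_range _).bddAbove s).trans hF
  rw [sum_cA] at hsup
  unfold pen at hsup
  rw [if_pos hq'] at hsup
  have hβ2 : β ^ 2 ≤ 1 := by linarith only [mul_nonneg (sub_nonneg.2 hβ1) (sub_nonneg.2 hq1'), mul_nonneg (sub_nonneg.2 hβ1) (sub_nonneg.2 hq0'), mul_nonneg (sub_nonneg.2 hβ0) (sub_nonneg.2 hβ1)]
  have k1 : β ^ 2 * (qq m' * (1 - qq m')) ≤ β ^ 2 * (qq m * (1 - qq m)) + 2 * δ := by
    have := (abs_le.1 hqq).1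
    have h2 : β ^ 2 * (qq m' * (1 - qq m') - qq m * (1 - qq m)) ≤ 2 * δ := by
      rcases le_total 0 (qq m' * (1 - qq m') - qq m * (1 - qq m)) with h | h
      · linarith only [mul_nonneg (sub_nonneg.2 hβ2) (sub_nonneg.2 h), mul_nonneg (sub_nonneg.2 hq1') (sub_nonneg.2 this), mul_nonneg (sub_nonneg.2 hq0') (sub_nonneg.2 this)]
      · have := mul_nonpos_of_nonneg_of_nonpos (sq_nonneg β) h
        linarith only [this, hδ0]
    linarith only [h2]
  have k2 : β * qf (skM g) m / n ≤ β * qf (skM g) m' / n + 6 * δ := by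
    rw [← sub_le_iff_le_add', ← sub_div, div_le_iff₀ hn', ← mul_sub]
    have h1 := (abs_le.1 hQ).2
    rcases le_total 0 (qf (skM g) m - qf (skM g) m') with h | h
    · linarith only [mul_nonneg (sub_nonneg.2 hq1') (sub_nonneg.2 h1), mul_nonneg (sub_nonneg.2 hq0') (sub_nonneg.2 h1), mul_nonneg (sub_nonneg.2 hβ1) (sub_nonneg.2 h)]
    · have h2 := mul_nonpos_of_nonneg_of_nonpos hβ0 h
      have h3 : 0 ≤ 6 * δ * n := by (clear * - hn; positivity)
      linarith only [h3, h2]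
  have key : c / 4 ≤ aM m + β ^ 2 * (qq m * (1 - qq m)) - β * qf (skM g) m / n := by
    linarith only [k2, k1, hsup, hA, hδc]
  have e1 : (∑ i, m i * Real.artanh (m i)) = aM m * n := by unfold aM; field_simp
  have e2 : sq m = qq m * n := by unfold qq; field_simp
  have e3 : β * qf (skM g) m = β * qf (skM g) m / n * n := by field_simp
  rw [e1, e2, e3]
  have := mul_le_mul_of_nonneg_right key hn'.le
  linarith only [this]

end Vale.Agent.P150.F
end

section

/-! **[G3]** star-shapedness of the TAP free energy away from `0`, with high probability. -/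

open MeasureTheory ProbabilityTheory Real Set Filter Topology

namespace Vale.Agent.P150.F

/-- concentration for the suprema over the net -/
lemma tail_const {n : ℕ} (hn : 0 < n) (c : ℝ) :
    (c / 4) ^ 2 / (4 * (2 / √(n : ℝ)) ^ 2) = c ^ 2 / 256 * n := by
  have hn' : (0 : ℝ) < n := by exact_mod_cast hn
  rw [div_pow 2, Real.sq_sqrt hn'.le]
  field_simp
  ring

/-- the expectation of the comparison supremum is negative -/
lemma integral_FB_le {β a c : ℝ} (hβ0 : 0 ≤ β) (hβ1 : β < 1) (hc : 0 < c) (hc20 : c ≤ 1 / 20)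
    {T : Finset (ℝ → ℝ)} (hT : ∀ φ ∈ T, Continuous φ ∧ ∃ C : ℝ, ∀ x, |φ x| ≤ C * (1 + x ^ 2))
    {ε : ℝ} (hε : 0 < ε)
    (hdet : ∀ n : ℕ, 0 < n → ∀ h : Vec n,
        (∀ φ ∈ T, |∑ i, φ (h i) - n * ∫ x, φ x ∂(gaussianReal 0 1)| ≤ ε * n) →
        sq h ≤ (101 / 100) ^ 2 * n ∧
        ∀ m : Vec n, (∀ i, |m i| < 1) → a ≤ qq m → c ≤ redF β h m) (N : ℕ) :
    ∀ᶠ n : ℕ in atTop, ∫ h, FB β a N h ∂(gpi (Fin n)) ≤ -(3 * c / 4) := by
  have hbad : Tendsto (fun n : ℕ => ∑ φ ∈ T, (gpi (Fin n)).real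
      {h | ε * n < |∑ i, φ (h i) - n * ∫ x, φ x ∂gaussianReal 0 1|}) atTop (𝓝 0) := by
    have := tendsto_finsetSum T (fun φ hφ => by
      obtain ⟨h1, C, hC⟩ := hT φ hφ
      exact lln h1 hC hε)
    simpa using this
  have hexp := tendsto_exp_lin (c := c ^ 2 / 256) (by positivity) 0
  simp only [pow_zero, one_mul] at hexp
  filter_upwards [(tendsto_order.1 hbad).2 (1 / 2) (by norm_num),
    (tendsto_order.1 hexp).2 (1 / 2) (by norm_num), eventually_gt_atTop 0] with n h1 h2 hn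
  by_contra hcon
  rw [not_le] at hcon
  have htail := (lip_FB hn hβ0 hβ1.le a N).tail_lower (t := c / 4) (by positivity) (by positivity)
  rw [tail_const hn] at htail
  set E := ∫ h, FB β a N h ∂(gpi (Fin n)) with hE
  set B : (ℝ → ℝ) → Set (Vec n) := fun φ =>
    {h | ε * n < |∑ i, φ (h i) - n * ∫ x, φ x ∂gaussianReal 0 1|} with hB
  have hcover : (univ : Set (Vec n)) ⊆ (⋃ φ ∈ T, B φ) ∪ {h | FB β a N h ≤ E - c / 4} := by
    intro h _
    by_cases hh : h ∈ ⋃ φ ∈ T, B φ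
    · exact Or.inl hh
    · right
      have hh2 : ∀ φ ∈ T, |∑ i, φ (h i) - n * ∫ x, φ x ∂(gaussianReal 0 1)| ≤ ε * n := by
        intro φ hφ
        by_contra hcon2
        exact hh (Set.mem_iUnion₂.2 ⟨φ, hφ, not_le.1 hcon2⟩)
      obtain ⟨h3, h4⟩ := hdet n hn h hh2
      have h5 := FB_le hn hβ0 hβ1.le hc20 N h3 h4
      show FB β a N h ≤ E - c / 4
      linarith only [hcon, h5]
  have h6 : (1 : ℝ) ≤ (gpi (Fin n)).real ((⋃ φ ∈ T, B φ) ∪ {h | FB β a N h ≤ E - c / 4}) := by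
    have := measureReal_mono (μ := gpi (Fin n)) hcover
    simpa using this
  have h7 := measureReal_union_le (μ := gpi (Fin n)) (⋃ φ ∈ T, B φ) {h | FB β a N h ≤ E - c / 4}
  have h8 : (gpi (Fin n)).real (⋃ φ ∈ T, B φ) ≤ ∑ φ ∈ T, (gpi (Fin n)).real (B φ) :=
    measureReal_biUnion_finset_le T B
  linarith only [h1, h2, htail, h6, h7, h8]

/-- **[G3]** -/
theorem G3_star {β : ℝ} (hβ0 : 0 ≤ β) (hβ1 : β < 1) :
    ∀ q₀ > 0, ∃ c > 0, ∀ᶠ i in whpF, SS β q₀ c (skM i.2) := by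
  intro q₀ hq₀
  have ha : 0 < q₀ / 2 := by positivity
  obtain ⟨T, hT, ε, hε, c, hc, hc20, hdet⟩ := det_main hβ0 hβ1 ha
  obtain ⟨N, hN⟩ := exists_nat_ge (max (32 / c) (2 / (q₀ / 2)))
  have hN1 : 32 / ((N : ℝ) + 1) ≤ c := by
    have h1 : 32 / c ≤ (N : ℝ) + 1 := (le_max_left _ _).trans (hN.trans (by linarith only [hc20, hc]))
    rw [div_le_iff₀ hc] at h1
    rw [div_le_iff₀ (by positivity)]
    linarith only [h1]
  have hN2 : 2 / ((N : ℝ) + 1) ≤ q₀ / 2 := by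
    have h1 : 2 / (q₀ / 2) ≤ (N : ℝ) + 1 := (le_max_right _ _).trans (hN.trans (by linarith only [hc, hc20]))
    rw [div_le_iff₀ ha] at h1
    rw [div_le_iff₀ (by positivity)]
    linarith only [h1]
  refine ⟨c / 4, by positivity, ?_⟩
  obtain ⟨b, hb, N1, hop⟩ := opLe_three
  have t1 := tendsto_exp_lin hb 0
  have t2 := tendsto_exp_lin (c := c ^ 2 / 256) (by positivity) 0
  refine eventually_whpF_of_real
    (fun n : ℕ => Real.exp (-(b * n)) + Real.exp (-(c ^ 2 / 256 * n))) ?_ ?_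
  · have := t1.add t2
    simpa using this
  filter_upwards [eventually_ge_atTop N1, eventually_gt_atTop 0,
    integral_FB_le hβ0 hβ1 hc hc20 hT hε hdet N] with n hnN hn hEB
  have htail := (lip_FA hn hβ0 hβ1.le (q₀ / 2) N).tail (t := c / 4) (by (clear * - hn; positivity)) (by positivity)
  rw [tail_const hn] at htail
  have hEA := (FA_le_FB hn β (q₀ / 2) N).trans hEB
  set E := ∫ g, FA β (q₀ / 2) N g ∂(gpi (Pairs n)) with hE
  have hsub : {g : Pairs n → ℝ | ¬ SS β q₀ (c / 4) (skM g)} ⊆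
      {g | ¬ OpLe (skM g) 3} ∪ {g | E + c / 4 ≤ FA β (q₀ / 2) N g} := by
    intro g hg
    by_contra hcon
    rw [Set.mem_union, not_or] at hcon
    obtain ⟨h1, h2⟩ := hcon
    have h1' : OpLe (skM g) 3 := not_not.1 h1
    have h2' : FA β (q₀ / 2) N g < E + c / 4 := not_le.1 h2
    apply hg
    have h3 := ss_of_FA hn hβ0 hβ1.le hN1 hN2 h1' (by linarith only [hEA, h2'])
    have e : 2 * (q₀ / 2) = q₀ := by ring
    rwa [e] at h3
  have h4 : (disorder n).real {g : Pairs n → ℝ | ¬ SS β q₀ (c / 4) (skM g)} ≤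
      (disorder n).real {g | ¬ OpLe (skM g) 3} +
        (gpi (Pairs n)).real {g | E + c / 4 ≤ FA β (q₀ / 2) N g} := by
    refine (measureReal_mono (μ := gpi (Pairs n)) hsub).trans ?_
    exact measureReal_union_le _ _
  linarith only [htail, h4, hop n hnN]

end Vale.Agent.P150.F
end

section

/-! P150 FULL, D6: matrix lemmas on the schedule: the recursion of the couplings, symmetry, bounds
(helper486). -/

open MeasureTheory ProbabilityTheory Filter Topology
open scoped Matrix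

namespace Vale.Agent.P150.F

namespace SPar

variable {n : ℕ} (p : SPar n)

/-! ### rank one matrices -/

/-- the rank one matrix of direction `a` of window `i` -/
noncomputable def VV (P : p.Ctr) (i : Fin p.Nw) (a : Fin p.d) : Mat n :=
  Matrix.vecMulVec (p.vd P i a) (p.vd P i a)

theorem vd_cases (P : p.Ctr) (i : Fin p.Nw) (a : Fin p.d) :
    p.vd P i a = 0 ∨ sq (p.vd P i a) = 1 := p.hdirs i _ a

theorem sq_vd_le (P : p.Ctr) (i : Fin p.Nw) (a : Fin p.d) : sq (p.vd P i a) ≤ 1 := by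
  rcases p.vd_cases P i a with h | h
  · rw [h]; unfold sq; simp
  · exact h.le

theorem nv_vd_le (P : p.Ctr) (i : Fin p.Nw) (a : Fin p.d) : nv (p.vd P i a) ≤ 1 :=
  nv_le_of_sq_le zero_le_one (by rw [one_pow]; exact p.sq_vd_le P i a)

theorem VV_transpose (P : p.Ctr) (i : Fin p.Nw) (a : Fin p.d) : (p.VV P i a)ᵀ = p.VV P i a := by
  unfold VV
  rw [Matrix.transpose_vecMulVec]

theorem VV_mul (P : p.Ctr) (i : Fin p.Nw) (a : Fin p.d) :
    p.VV P i a * (p.VV P i a)ᵀ = p.VV P i a := by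
  rw [VV_transpose]
  unfold VV
  rw [Matrix.vecMulVec_mul_vecMulVec]
  rcases p.vd_cases P i a with h | h
  · rw [h]; simp
  · have e : (p.vd P i a) ⬝ᵥ (p.vd P i a) = 1 := by
      rw [← h]; unfold sq dotProduct
      exact Finset.sum_congr rfl fun j _ => by ring
    rw [e, one_smul]

theorem qf_VV (P : p.Ctr) (i : Fin p.Nw) (a : Fin p.d) (v : Vec n) :
    qf (p.VV P i a) v = ip (p.vd P i a) v ^ 2 := Win.qf_vecMulVec _ _

theorem qf_VV_le (P : p.Ctr) (i : Fin p.Nw) (a : Fin p.d) (v : Vec n) :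
    qf (p.VV P i a) v ≤ sq v := by
  rw [qf_VV]
  have h1 := abs_ip_le (p.vd P i a) v
  have h2 : nv (p.vd P i a) * nv v ≤ 1 * nv v :=
    mul_le_mul_of_nonneg_right (p.nv_vd_le P i a) (nv_nonneg v)
  rw [← nv_sq, ← sq_abs]
  exact pow_le_pow_left₀ (abs_nonneg _) (by linarith) 2

theorem nv_VV_mulVec (P : p.Ctr) (i : Fin p.Nw) (a : Fin p.d) (v : Vec n) :
    nv ((p.VV P i a).mulVec v) ≤ nv v := by
  have h := (opLe_vecMulVec (p.vd P i a) (p.vd P i a)).nv_le
    (mul_nonneg (nv_nonneg _) (nv_nonneg _)) v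
  have h1 := p.nv_vd_le P i a
  have h0 := nv_nonneg (p.vd P i a)
  refine h.trans ?_
  have : nv (p.vd P i a) * nv (p.vd P i a) ≤ 1 := by linarith only [mul_nonneg (sub_nonneg.2 h1) (sub_nonneg.2 h1), mul_nonneg (sub_nonneg.2 h1) (sub_nonneg.2 h0)]
  calc _ ≤ 1 * nv v := mul_le_mul_of_nonneg_right this (nv_nonneg v)
    _ = nv v := one_mul _

/-! ### the steering matrix without the final killing -/

/-- the steering matrix at level `k`, without the final killing -/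
noncomputable def sumA (k : ℕ) (P : p.Ctr) : Mat n :=
  ∑ i : Fin p.Nw, ∑ a : Fin p.d, (p.th (i * (p.d + 1) + a) k * p.Ks) • p.VV P i a

theorem AA_eq_sumA (k : ℕ) (P : p.Ctr) :
    p.AA k P = (1 - p.th (p.Nw * (p.d + 1)) k) • p.sumA k P := rfl

theorem Atot_eq (P : p.Ctr) :
    p.Atot P = ∑ i : Fin p.Nw, ∑ a : Fin p.d, p.Ks • p.VV P i a := rfl

theorem idx_inj {i i' : Fin p.Nw} {a a' : ℕ} (ha : a ≤ p.d) (ha' : a' ≤ p.d)
    (h : (i : ℕ) * (p.d + 1) + a = i' * (p.d + 1) + a') : i = i' ∧ a = a' := by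
  have h1 := p.idx_div (i := i) ha
  have h2 := p.idx_div (i := i') ha'
  have h3 := p.idx_mod (i := i) ha
  have h4 := p.idx_mod (i := i') ha'
  rw [h] at h1 h3
  exact ⟨Fin.ext (h1.symm.trans h2), h3.symm.trans h4⟩

theorem sumA_succ (k : ℕ) (P : p.Ctr) : p.sumA (k + 1) P = p.sumA k P +
    match p.kind k with
    | .steer i a => (p.dl * p.Ks) • p.VV P i a
    | .kill _ => 0
    | .last => 0
    | .idle => 0 := by
  have h0 : p.sumA (k + 1) P = p.sumA k P + ∑ i : Fin p.Nw, ∑ a : Fin p.d,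
      ((if k / p.q = i * (p.d + 1) + a then p.dl else 0) * p.Ks) • p.VV P i a := by
    unfold sumA
    rw [← Finset.sum_add_distrib]
    refine Finset.sum_congr rfl fun i _ => ?_
    rw [← Finset.sum_add_distrib]
    refine Finset.sum_congr rfl fun a _ => ?_
    rw [p.th_succ, add_mul, add_smul]
  rw [h0]
  congr 1
  rcases p.kind_cases k with ⟨i, a, h, h'⟩ | ⟨i, h, h'⟩ | ⟨h, h'⟩ | ⟨h, h'⟩
  · rw [h]
    simp only
    rw [Finset.sum_eq_single i, Finset.sum_eq_single a]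
    · rw [if_pos h']
    · intro b _ hb
      rw [if_neg, zero_mul, zero_smul]
      intro h1
      rw [h'] at h1
      exact hb (Fin.ext (p.idx_inj a.2.le b.2.le h1).2.symm)
    · intro h1; exact absurd (Finset.mem_univ _) h1
    · intro j _ hj
      refine Finset.sum_eq_zero fun b _ => ?_
      rw [if_neg, zero_mul, zero_smul]
      intro h1
      rw [h'] at h1
      exact hj (p.idx_inj a.2.le b.2.le h1).1.symm
    · intro h1; exact absurd (Finset.mem_univ _) h1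
  · rw [h]
    simp only
    refine Finset.sum_eq_zero fun j _ => Finset.sum_eq_zero fun b _ => ?_
    rw [if_neg, zero_mul, zero_smul]
    intro h1
    rw [h'] at h1
    have := (p.idx_inj le_rfl b.2.le h1).2
    exact absurd b.2 (by omega)
  · rw [h]
    simp only
    refine Finset.sum_eq_zero fun j _ => Finset.sum_eq_zero fun b _ => ?_
    rw [if_neg, zero_mul, zero_smul]
    have := p.idx_lt j.2 b.2.le
    omega
  · rw [h]
    simp only
    refine Finset.sum_eq_zero fun j _ => Finset.sum_eq_zero fun b _ => ?_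
    rw [if_neg, zero_mul, zero_smul]
    have := p.idx_lt j.2 b.2.le
    omega

theorem sumA_end (P : p.Ctr) {k : ℕ} (h : p.Nw * (p.d + 1) ≤ k / p.q) :
    p.sumA k P = p.Atot P := by
  unfold sumA
  rw [Atot_eq]
  refine Finset.sum_congr rfl fun i _ => Finset.sum_congr rfl fun a _ => ?_
  rw [p.th_eq_one_of_lt (lt_of_lt_of_le (p.idx_lt i.2 a.2.le) h), one_mul]

theorem AA_succ (k : ℕ) (P : p.Ctr) : p.AA (k + 1) P = p.AA k P +
    match p.kind k with
    | .steer i a => (p.dl * p.Ks) • p.VV P i a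
    | .kill _ => 0
    | .last => -(p.dl • p.Atot P)
    | .idle => 0 := by
  rw [AA_eq_sumA, AA_eq_sumA, sumA_succ, th_last_succ]
  rcases p.kind_cases k with ⟨i, a, h, h'⟩ | ⟨i, h, h'⟩ | ⟨h, h'⟩ | ⟨h, h'⟩
  · rw [h]
    simp only
    have h1 : p.th (p.Nw * (p.d + 1)) k = 0 := by
      refine p.th_eq_zero_of_lt ?_
      rw [h']; exact p.idx_lt i.2 a.2.le
    rw [h1, add_zero, sub_zero, one_smul, one_smul]
  · rw [h]
    simp only
    rw [add_zero, add_zero, add_zero]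
  · rw [h]
    simp only
    rw [p.sumA_end P (le_of_eq (p.div_eq_of_last h).symm), add_zero, sub_add_eq_sub_sub, sub_smul]
    abel
  · rw [h]
    simp only
    rw [add_zero, add_zero, add_zero]

/-- new centres do not change the steering matrix -/
theorem sumA_upd (k : ℕ) (P : p.Ctr) (m : Vec n) :
    p.sumA k (p.updC k P m) = p.sumA k P := by
  unfold sumA
  refine Finset.sum_congr rfl fun i _ => Finset.sum_congr rfl fun a _ => ?_
  by_cases hk : k = i * (p.d + 1) * p.q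
  · have h1 : p.th (i * (p.d + 1) + a) k = 0 := by
      refine p.th_eq_zero ?_
      rw [hk]
      exact Nat.mul_le_mul_right _ (Nat.le_add_right _ _)
    rw [h1, zero_mul, zero_smul, zero_smul]
  · have h1 : p.VV (p.updC k P m) i a = p.VV P i a := by
      unfold VV vd ctr updC
      simp only [if_neg hk]
    rw [h1]

theorem AA_upd (k : ℕ) (P : p.Ctr) (m : Vec n) : p.AA k (p.updC k P m) = p.AA k P := by
  rw [AA_eq_sumA, AA_eq_sumA, sumA_upd]

theorem MM_upd (k : ℕ) (P : p.Ctr) (m : Vec n) : p.MM k (p.updC k P m) = p.MM k P := by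
  unfold MM
  rw [AA_upd]

/-! ### the total steering matrix and its root -/

theorem Ks_le_Kp : p.Ks ≤ p.Kp := by
  refine le_trans ?_ p.hKp
  have h1 : (1 : ℝ) ≤ p.Nw := by exact_mod_cast p.hNw
  have h2 : (1 : ℝ) ≤ p.d := by exact_mod_cast p.hd
  have h3 := p.hKs
  have h4 : (1 : ℝ) ≤ p.Nw * p.d := by linarith only [h2, mul_nonneg (sub_nonneg.2 h1) (sub_nonneg.2 h2), h1]
  linarith only [mul_nonneg (sub_nonneg.2 h3) (sub_nonneg.2 h4)]

theorem Kp_nonneg : 0 ≤ p.Kp := p.hKs.trans p.Ks_le_Kp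

theorem qf_sum {ι : Type*} (s : Finset ι) (f : ι → Mat n) (v : Vec n) :
    qf (∑ i ∈ s, f i) v = ∑ i ∈ s, qf (f i) v := by
  unfold qf
  rw [Matrix.sum_mulVec, ip_sum_right]

/-- quadratic form of a weighted sum -/
theorem qf_wsum (w : Fin p.Nw → Fin p.d → ℝ) (P : p.Ctr) (v : Vec n) :
    qf (∑ i, ∑ a, w i a • p.VV P i a) v = ∑ i, ∑ a, w i a * ip (p.vd P i a) v ^ 2 := by
  rw [qf_sum]
  refine Finset.sum_congr rfl fun i _ => ?_
  rw [qf_sum]
  refine Finset.sum_congr rfl fun a _ => ?_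
  rw [Win.qf_smul, qf_VV]

theorem qf_wsum_le {w : Fin p.Nw → Fin p.d → ℝ} (hw0 : ∀ i a, 0 ≤ w i a)
    (hw : ∀ i a, w i a ≤ p.Ks) (P : p.Ctr) (v : Vec n) :
    qf (∑ i, ∑ a, w i a • p.VV P i a) v ≤ p.Nw * p.d * p.Ks * sq v := by
  rw [qf_wsum]
  calc ∑ i, ∑ a, w i a * ip (p.vd P i a) v ^ 2 ≤ ∑ _i : Fin p.Nw, ∑ _a : Fin p.d, p.Ks * sq v := by
        refine Finset.sum_le_sum fun i _ => Finset.sum_le_sum fun a _ => ?_
        have := p.qf_VV_le P i a v
        rw [qf_VV] at this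
        exact mul_le_mul (hw i a) this (sq_nonneg _) p.hKs
    _ = p.Nw * p.d * p.Ks * sq v := by
        simp only [Finset.sum_const, Finset.card_univ, Fintype.card_fin, nsmul_eq_mul]
        ring

theorem qf_wsum_nonneg {w : Fin p.Nw → Fin p.d → ℝ} (hw0 : ∀ i a, 0 ≤ w i a) (P : p.Ctr)
    (v : Vec n) : 0 ≤ qf (∑ i, ∑ a, w i a • p.VV P i a) v := by
  rw [qf_wsum]
  exact Finset.sum_nonneg fun i _ => Finset.sum_nonneg fun a _ =>
    mul_nonneg (hw0 i a) (sq_nonneg _)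

theorem nv_wsum_le {w : Fin p.Nw → Fin p.d → ℝ} (hw0 : ∀ i a, 0 ≤ w i a)
    (hw : ∀ i a, w i a ≤ p.Ks) (P : p.Ctr) (v : Vec n) :
    nv ((∑ i, ∑ a, w i a • p.VV P i a).mulVec v) ≤ p.Nw * p.d * p.Ks * nv v := by
  rw [Matrix.sum_mulVec]
  refine (nv_sum_le _ _).trans ?_
  calc ∑ i, nv ((∑ a, w i a • p.VV P i a).mulVec v)
      ≤ ∑ _i : Fin p.Nw, ∑ _a : Fin p.d, p.Ks * nv v := by
        refine Finset.sum_le_sum fun i _ => ?_
        rw [Matrix.sum_mulVec]
        refine (nv_sum_le _ _).trans ?_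
        refine Finset.sum_le_sum fun a _ => ?_
        rw [Matrix.smul_mulVec, nv_smul, abs_of_nonneg (hw0 i a)]
        exact mul_le_mul (hw i a) (p.nv_VV_mulVec P i a v) (nv_nonneg _) p.hKs
    _ = p.Nw * p.d * p.Ks * nv v := by
        simp only [Finset.sum_const, Finset.card_univ, Fintype.card_fin, nsmul_eq_mul]
        ring

theorem wsum_symm (w : Fin p.Nw → Fin p.d → ℝ) (P : p.Ctr) :
    (∑ i, ∑ a, w i a • p.VV P i a).IsSymm := by
  unfold Matrix.IsSymm
  rw [Matrix.transpose_sum]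
  refine Finset.sum_congr rfl fun i _ => ?_
  rw [Matrix.transpose_sum]
  refine Finset.sum_congr rfl fun a _ => ?_
  rw [Matrix.transpose_smul, VV_transpose]

theorem Atot_symm (P : p.Ctr) : (p.Atot P).IsSymm := p.wsum_symm (fun _ _ => p.Ks) P

theorem qf_Atot_nonneg (P : p.Ctr) (v : Vec n) : 0 ≤ qf (p.Atot P) v :=
  p.qf_wsum_nonneg (w := fun _ _ => p.Ks) (fun _ _ => p.hKs) P v

theorem qf_Atot_le (P : p.Ctr) (v : Vec n) : qf (p.Atot P) v ≤ p.Kp * sq v :=
  (p.qf_wsum_le (w := fun _ _ => p.Ks) (fun _ _ => p.hKs) (fun _ _ => le_rfl) P v).trans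
    (mul_le_mul_of_nonneg_right p.hKp (sqN_nonneg v))

theorem exists_rootF (P : p.Ctr) : ∃ B : Mat n, B * Bᵀ = p.Kp • (1 : Mat n) - p.Atot P := by
  have hs : (p.Kp • (1 : Mat n) - p.Atot P).IsSymm := by
    unfold Matrix.IsSymm
    rw [Matrix.transpose_sub, Matrix.transpose_smul, Matrix.transpose_one, p.Atot_symm P]
  obtain ⟨S, _, hS⟩ := D6Par.exists_root_of_qf hs fun v => by
    rw [Win.qf_sub, Win.qf_smul, Win.qf_one]
    linarith [p.qf_Atot_le P v]
  exact ⟨S, hS⟩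

theorem rootF_mul (P : p.Ctr) :
    p.rootF P * (p.rootF P)ᵀ = p.Kp • (1 : Mat n) - p.Atot P := by
  unfold rootF
  rw [dif_pos (p.exists_rootF P)]
  exact (p.exists_rootF P).choose_spec

/-- the driving covariance of a level -/
theorem RR_mul (k : ℕ) (P : p.Ctr) : p.RR k P * (p.RR k P)ᵀ =
    match p.kind k with
    | .steer i a => p.Ks • p.VV P i a
    | .kill _ => p.τ • (p.J + p.κ₀ • (1 : Mat n))
    | .last => p.Kp • (1 : Mat n) - p.Atot P
    | .idle => 0 := by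
  unfold RR
  rcases p.kind k with ⟨i, a⟩ | i
  · simp only
    rw [Matrix.transpose_smul, Matrix.smul_mul, Matrix.mul_smul, smul_smul,
      Real.mul_self_sqrt p.hKs]
    congr 1
    exact p.VV_mul P i a
  · simp only
    rw [Matrix.transpose_smul, Matrix.smul_mul, Matrix.mul_smul, smul_smul,
      Real.mul_self_sqrt p.τ_nonneg, p.hS0]
  · simp only
    exact p.rootF_mul P
  · simp

/-- **recursion of the couplings** -/
theorem MM_succ (k : ℕ) (P : p.Ctr) :
    p.MM (k + 1) P = p.MM k P - p.dl • (p.RR k P * (p.RR k P)ᵀ) := by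
  unfold MM
  rw [RR_mul, AA_succ, rr_succ, cc_succ]
  unfold rho kapc
  rcases p.kind k with ⟨i, a⟩ | i
  · simp only
    rw [mul_zero, sub_zero, add_zero, smul_smul]
    abel
  · simp only
    rw [add_zero, sub_smul, add_smul, smul_add, smul_add, smul_smul, smul_smul, smul_smul,
      mul_assoc p.dl p.τ p.κ₀]
    abel
  · simp only
    rw [mul_zero, sub_zero, add_smul, smul_sub, smul_smul]
    abel
  · simp

/-- **recursion of the couplings**, with new centres -/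
theorem MM_succ_upd (k : ℕ) (P : p.Ctr) (m : Vec n) :
    p.MM (k + 1) (p.updC (k + 1) P m) = p.MM k P - p.dl • (p.RR k P * (p.RR k P)ᵀ) := by
  rw [MM_upd, MM_succ]

/-! ### symmetry and bounds -/

/-- coefficients of the steering matrix -/
noncomputable def wA (k : ℕ) (i : Fin p.Nw) (a : Fin p.d) : ℝ :=
  (1 - p.th (p.Nw * (p.d + 1)) k) * (p.th (i * (p.d + 1) + a) k * p.Ks)

theorem wA_nonneg (k : ℕ) (i : Fin p.Nw) (a : Fin p.d) : 0 ≤ p.wA k i a :=
  mul_nonneg (by linarith [p.th_le_one (p.Nw * (p.d + 1)) k])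
    (mul_nonneg (p.th_nonneg _ _) p.hKs)

theorem wA_le (k : ℕ) (i : Fin p.Nw) (a : Fin p.d) : p.wA k i a ≤ p.Ks := by
  unfold wA
  have h1 := p.th_nonneg (p.Nw * (p.d + 1)) k
  have h2 := p.th_le_one (p.Nw * (p.d + 1)) k
  have h3 := p.th_nonneg (i * (p.d + 1) + a) k
  have h4 := p.th_le_one (i * (p.d + 1) + a) k
  have h5 : p.th (i * (p.d + 1) + a) k * p.Ks ≤ p.Ks := by linarith only [mul_nonneg (sub_nonneg.2 h4) (sub_nonneg.2 p.hKs)]
  have h6 : 0 ≤ p.th (i * (p.d + 1) + a) k * p.Ks := mul_nonneg h3 p.hKs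
  linarith [mul_nonneg (sub_nonneg.2 h1) (sub_nonneg.2 h6), mul_nonneg (sub_nonneg.2 h4) (sub_nonneg.2 h5), mul_nonneg (sub_nonneg.2 h4) (sub_nonneg.2 h6)]

theorem AA_eq_wsum (k : ℕ) (P : p.Ctr) :
    p.AA k P = ∑ i, ∑ a, p.wA k i a • p.VV P i a := by
  rw [AA_eq_sumA]
  unfold sumA wA
  rw [Finset.smul_sum]
  refine Finset.sum_congr rfl fun i _ => ?_
  rw [Finset.smul_sum]
  exact Finset.sum_congr rfl fun a _ => by rw [smul_smul]

theorem AA_symm (k : ℕ) (P : p.Ctr) : (p.AA k P).IsSymm := by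
  rw [AA_eq_wsum]; exact p.wsum_symm _ P

theorem MM_symm (k : ℕ) (P : p.Ctr) : (p.MM k P).IsSymm := by
  unfold MM Matrix.IsSymm
  rw [Matrix.transpose_sub, Matrix.transpose_sub, Matrix.transpose_smul, Matrix.transpose_smul,
    Matrix.transpose_one, p.AA_symm k P, p.hJ]

theorem qf_AA_nonneg (k : ℕ) (P : p.Ctr) (v : Vec n) : 0 ≤ qf (p.AA k P) v := by
  rw [AA_eq_wsum]; exact p.qf_wsum_nonneg (p.wA_nonneg k) P v

theorem opLe_AA (k : ℕ) (P : p.Ctr) : OpLe (p.AA k P) (p.Nw * p.d * p.Ks) := by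
  refine opLe_of_nv fun v => ?_
  rw [AA_eq_wsum]; exact p.nv_wsum_le (p.wA_nonneg k) (p.wA_le k) P v

theorem opLe_AA_Kp (k : ℕ) (P : p.Ctr) : OpLe (p.AA k P) p.Kp :=
  (p.opLe_AA k P).monoN (mul_nonneg (by positivity) p.hKs) p.hKp

/-- the steering matrix dominates the directions of a completely steered window -/
theorem steered (k : ℕ) (P : p.Ctr) (i : Fin p.Nw) (h1 : (i * (p.d + 1) + p.d) * p.q ≤ k)
    (h2 : k ≤ p.Nw * (p.d + 1) * p.q) (v : Vec n) :
    p.Ks * ∑ a, ip (p.vd P i a) v ^ 2 ≤ qf (p.AA k P) v := by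
  rw [AA_eq_wsum, qf_wsum]
  calc p.Ks * ∑ a, ip (p.vd P i a) v ^ 2 = ∑ a, p.wA k i a * ip (p.vd P i a) v ^ 2 := by
        rw [Finset.mul_sum]
        refine Finset.sum_congr rfl fun a _ => ?_
        unfold wA
        rw [p.th_last_eq_zero h2, sub_zero, one_mul, p.th_eq_one, one_mul]
        refine le_trans (Nat.mul_le_mul_right _ ?_) h1
        have := a.2
        omega
    _ ≤ _ := Finset.single_le_sum
        (f := fun i => ∑ a, p.wA k i a * ip (p.vd P i a) v ^ 2)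
        (fun j _ => Finset.sum_nonneg fun a _ => mul_nonneg (p.wA_nonneg k j a) (sq_nonneg _))
        (Finset.mem_univ i)

/-- the steering matrix is a steering matrix in the sense of `Steer` -/
theorem steer_AA (k : ℕ) (P : p.Ctr) : Steer (p.Nw * p.d) p.Ks (p.AA k P) := by
  refine ⟨fun b => √(p.wA k (finProdFinEquiv.symm b).1 (finProdFinEquiv.symm b).2) •
    p.vd P (finProdFinEquiv.symm b).1 (finProdFinEquiv.symm b).2, fun b => ?_, ?_⟩
  · rw [← nv_sq, nv_smul, mul_pow, sq_abs, Real.sq_sqrt (p.wA_nonneg k _ _), nv_sq]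
    have h1 := p.wA_le k (finProdFinEquiv.symm b).1 (finProdFinEquiv.symm b).2
    have h2 := p.sq_vd_le P (finProdFinEquiv.symm b).1 (finProdFinEquiv.symm b).2
    calc _ ≤ p.Ks * 1 := mul_le_mul h1 h2 (sqN_nonneg _) p.hKs
      _ = p.Ks := mul_one _
  · rw [AA_eq_wsum, ← Fintype.sum_prod_type' (f := fun i a => p.wA k i a • p.VV P i a)]
    rw [← Equiv.sum_comp finProdFinEquiv.symm]
    refine Finset.sum_congr rfl fun b _ => ?_
    rw [Matrix.smul_vecMulVec, Matrix.vecMulVec_smul, smul_smul,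
      Real.mul_self_sqrt (p.wA_nonneg k _ _)]
    rfl

/-! ### the driving matrices -/

/-- bounds for `B` from the quadratic form of `B Bᵀ` -/
theorem root_bounds {B : Mat n} {c : ℝ} (hc : 0 ≤ c) (h : ∀ v, qf (B * Bᵀ) v ≤ c * sq v) :
    OpLe Bᵀ √c ∧ OpLe B √c ∧ OpLe (B * Bᵀ) c ∧ ∀ i j, |B i j| ≤ √c := by
  have hc0 := Real.sqrt_nonneg c
  have h1 : OpLe Bᵀ √c := by
    intro v
    rw [Real.sq_sqrt hc]
    refine le_trans (le_of_eq ?_) (h v)
    unfold qf
    rw [← Matrix.mulVec_mulVec, ← ipN_self]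
    unfold ip
    show (Bᵀ *ᵥ v) ⬝ᵥ (Bᵀ *ᵥ v) = v ⬝ᵥ (B *ᵥ Bᵀ *ᵥ v)
    rw [Matrix.dotProduct_mulVec v, ← Matrix.mulVec_transpose]
  have h2 : OpLe B √c := by
    refine opLe_of_nv fun v => ?_
    have e : nv (B.mulVec v) ^ 2 = ip v (Bᵀ.mulVec (B.mulVec v)) := by
      rw [nv_sq, ← ipN_self]
      unfold ip
      show (B *ᵥ v) ⬝ᵥ (B *ᵥ v) = v ⬝ᵥ (Bᵀ *ᵥ B *ᵥ v)
      rw [Matrix.dotProduct_mulVec v, ← Matrix.mulVec_transpose, Matrix.transpose_transpose]
    have h3 : nv (B.mulVec v) ^ 2 ≤ nv v * (√c * nv (B.mulVec v)) := by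
      rw [e]
      exact (ip_le _ _).trans (mul_le_mul_of_nonneg_left (h1.nv_le hc0 _) (nv_nonneg v))
    rcases (nv_nonneg (B.mulVec v)).eq_or_lt with h4 | h4
    · rw [← h4]; exact mul_nonneg hc0 (nv_nonneg v)
    · by_contra h5
      push Not at h5
      linarith only [h3, mul_pos (sub_pos.2 h4) (sub_pos.2 h5)]
  have h3 : OpLe (B * Bᵀ) c := by
    have := h2.mulN h1 hc0 hc0
    rwa [Real.mul_self_sqrt hc] at this
  refine ⟨h1, h2, h3, fun i j => ?_⟩
  have h4 := h2.nv_le hc0 (Pi.single j 1)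
  have h5 : B.mulVec (Pi.single j 1) i = B i j := by simp
  have h6 := abs_le_nv (B.mulVec (Pi.single j 1)) i
  rw [h5] at h6
  have h7 : nv (Pi.single j 1 : Vec n) = 1 := by rw [Win.nv_single, abs_one]
  rw [h7, mul_one] at h4
  exact h6.trans h4

/-- a common bound for the driving covariances -/
noncomputable def CQ : ℝ := 3 + p.κ₀ + p.Kp

theorem CQ_nonneg : 0 ≤ p.CQ := by
  have h1 := p.hκ
  have h2 := p.Kp_nonneg
  unfold CQ; linarith [h2, h1]

theorem one_le_CQ : 1 ≤ p.CQ := by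
  have h1 := p.hκ
  have h2 := p.Kp_nonneg
  unfold CQ; linarith

theorem abs_qf_J_le (v : Vec n) : |qf p.J v| ≤ 3 * sq v := by
  have h1 := abs_ip_le v (p.J.mulVec v)
  have h2 := p.hJ3.nv_le (by norm_num) v
  calc |qf p.J v| ≤ nv v * nv (p.J.mulVec v) := h1
    _ ≤ nv v * (3 * nv v) := mul_le_mul_of_nonneg_left h2 (nv_nonneg _)
    _ = 3 * nv v ^ 2 := by ring
    _ = 3 * sq v := by rw [nv_sq]

theorem qf_Q_le (k : ℕ) (P : p.Ctr) (v : Vec n) :
    qf (p.RR k P * (p.RR k P)ᵀ) v ≤ p.CQ * sq v := by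
  have hv := sqN_nonneg v
  have h1 := p.hκ
  have h2 := p.Kp_nonneg
  have h3 := p.Ks_le_Kp
  rw [RR_mul]
  unfold CQ
  rcases p.kind k with ⟨i, a⟩ | i
  · simp only
    rw [Win.qf_smul]
    have h4 := p.qf_VV_le P i a v
    have h5 := mul_le_mul_of_nonneg_left h4 p.hKs
    have h6 := mul_le_mul_of_nonneg_right h3 hv
    have h7 : 0 ≤ (3 + p.κ₀) * sq v := mul_nonneg (by linarith only [h1]) hv
    linarith only [h7, h6, h5]
  · simp only
    rw [Win.qf_smul, Win.qf_add, Win.qf_smul, Win.qf_one]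
    have h4 := (abs_le.1 (p.abs_qf_J_le v)).2
    have h5 : 0 ≤ (3 + p.κ₀) * sq v := mul_nonneg (by linarith) hv
    have h6 : p.τ * (qf p.J v + p.κ₀ * sq v) ≤ p.τ * ((3 + p.κ₀) * sq v) :=
      mul_le_mul_of_nonneg_left (by linarith) p.τ_nonneg
    have h7 : p.τ * ((3 + p.κ₀) * sq v) ≤ 1 * ((3 + p.κ₀) * sq v) :=
      mul_le_mul_of_nonneg_right p.τ_le_one h5
    have h8 : 0 ≤ p.Kp * sq v := mul_nonneg h2 hv
    linarith
  · simp only
    rw [Win.qf_sub, Win.qf_smul, Win.qf_one]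
    have h4 := p.qf_Atot_nonneg P v
    have h5 : 0 ≤ (3 + p.κ₀) * sq v := mul_nonneg (by linarith) hv
    linarith
  · simp only
    have h4 : qf (0 : Mat n) v = 0 := by unfold qf ip; simp
    rw [h4]
    exact mul_nonneg (by linarith only [h2, h1]) hv

theorem opLe_RR (k : ℕ) (P : p.Ctr) : OpLe (p.RR k P) √p.CQ :=
  (root_bounds p.CQ_nonneg (p.qf_Q_le k P)).2.1

theorem opLe_Q (k : ℕ) (P : p.Ctr) : OpLe (p.RR k P * (p.RR k P)ᵀ) p.CQ :=
  (root_bounds p.CQ_nonneg (p.qf_Q_le k P)).2.2.1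

theorem abs_RR_le (k : ℕ) (P : p.Ctr) (i j : Fin n) : |p.RR k P i j| ≤ √p.CQ :=
  (root_bounds p.CQ_nonneg (p.qf_Q_le k P)).2.2.2 i j

theorem sqrt_CQ_le : √p.CQ ≤ p.CQ := by
  have h := p.one_le_CQ
  rw [Real.sqrt_le_left (by linarith)]
  (by_contra nlg; linarith only [mul_nonneg (sq_nonneg (p.CQ : ℝ)) (le_of_lt (sub_pos.2 (not_le.1 nlg))), mul_nonneg (sq_nonneg (p.CQ : ℝ)) (sub_nonneg.2 h), mul_pos (sub_pos.2 (not_le.1 nlg)) (sub_pos.2 (not_le.1 nlg))])

end SPar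

end Vale.Agent.P150.F
end

section

/-! P150 FULL, D6: the drift of the tracked mean for the concrete scheme (helper123). -/

open MeasureTheory ProbabilityTheory Filter Topology
open scoped Matrix

namespace Vale.Agent.P150.F

/-- the continuation facts at a non-exit state (helper287, F/Cont.lean) -/
def SPar.ContAt {n : ℕ} (p : SPar n) (c e₁ : ℝ) (s : p.St) : Prop :=
  Tap (p.rr s.1) p.J (p.AA s.1 s.2.1) s.2.2 (p.mh c s.1 s.2.1 s.2.2) ∧
  (∀ v, c * sq v ≤ qf (Hess (p.rr (s.1 + 1)) p.J (p.AA (s.1 + 1) s.2.1)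
    (p.mh c s.1 s.2.1 s.2.2)) v) ∧
  ∀ z, nv (tapG (p.rr (s.1 + 1)) p.J (p.AA (s.1 + 1) s.2.1) (s.2.2 + z)
      (p.mh c s.1 s.2.1 s.2.2)) ≤ e₁ →
    Tap (p.rr (s.1 + 1)) p.J (p.AA (s.1 + 1) s.2.1) (s.2.2 + z)
      (p.mh c (p.nxtS c s z).1 (p.nxtS c s z).2.1 (p.nxtS c s z).2.2) ∧
    c * nv (p.mh c (p.nxtS c s z).1 (p.nxtS c s z).2.1 (p.nxtS c s z).2.2
      - p.mh c s.1 s.2.1 s.2.2)
      ≤ nv (tapG (p.rr (s.1 + 1)) p.J (p.AA (s.1 + 1) s.2.1) (s.2.2 + z)
          (p.mh c s.1 s.2.1 s.2.2))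

/-- parameters of one micro step: `ρ₁ κ₁` -/
structure SPar.StepData {n : ℕ} (p : SPar n) (C : ℝ) (rho kapc : ℕ → ℝ) : Prop where
  rr_mem : ∀ k, p.rr k ∈ Set.Icc (0 : ℝ) 1
  rho_le : ∀ k, |rho k| ≤ C
  kapc_le : ∀ k, |kapc k| ≤ C
  AA_symm : ∀ k P, (p.AA k P).IsSymm
  AA_le : ∀ k P, OpLe (p.AA k P) C
  RR_le : ∀ k P, OpLe (p.RR k P) C
  rr_succ : ∀ k, p.rr (k + 1) = p.rr k - p.dl * rho k
  cc_succ : ∀ k, p.cc (k + 1) = p.cc k + p.dl * kapc k
  M_succ : ∀ k P, p.rr (k + 1) • p.J - p.AA (k + 1) P - p.cc (k + 1) • (1 : Mat n)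
    = p.rr k • p.J - p.AA k P - p.cc k • (1 : Mat n) - p.dl • (p.RR k P * (p.RR k P)ᵀ)

theorem loc_drift (h1 : TapDisp2) (h2 : DriftCore) (h3 : EffEq) (n : ℕ) (c C e₁ : ℝ)
    (hc : 0 < c) (he₁ : 0 < e₁) (hC : 1 ≤ C) :
    ∃ K : ℝ, ∀ (p : SPar n) (rho kapc : ℕ → ℝ) (hM : p.MMSucc) (hm : p.MhMeas c),
      p.StepData C rho kapc →
      (∀ s : p.St, s.1 < p.N → s ∉ p.exitS c → p.ContAt c e₁ s) →
      (∀ k P m (G : Mat n), k < p.N → (∀ i, |m i| < 1) →
        (∀ v, c * sq v ≤ qf (Hess (p.rr (k + 1)) p.J (p.AA (k + 1) P) m) v) →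
        Hess (p.rr (k + 1)) p.J (p.AA (k + 1) P) m * G = 1 →
        nv (kap (p.rr (k + 1)) (rho k) (kapc k) (p.RR k P * (p.RR k P)ᵀ) G m) ≤ C) →
      (p.loc c hM hm).Drift (C + c⁻¹) K := by
  obtain ⟨K, hK⟩ := step_drift h1 h2 h3 n c C e₁ hc he₁ hC
  refine ⟨K, fun p rho kapc hM hm hd hcont hkap s hs hex => ?_⟩
  obtain ⟨c1, c2, c3⟩ := hcont s hs hex
  have hci : 0 < c⁻¹ := inv_pos.2 hc
  have hy : ∀ i, Measurable fun z : Vec n =>
      p.mh c (p.nxtS c s z).1 (p.nxtS c s z).2.1 (p.nxtS c s z).2.2 i := by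
    intro i
    have h4 : Measurable fun z : Vec n => (p.loc c hM hm).P.nxt s z :=
      (p.loc c hM hm).P.measnxt.comp (measurable_const.prodMk measurable_id)
    have h5 : Measurable fun z : Vec n => p.nxtS c s z := h4
    have h6 := p.meas_sec (f := fun k P (z : Vec n) => p.mh c k P (s.2.2 + z))
      (fun k P => (hm k P).comp (measurable_const.add measurable_id)) h5
    exact (measurable_pi_apply i).comp h6
  obtain ⟨G, hG, hGs, hGo, hG2⟩ := hK p.dl p.dl_pos p.dl_le_one (p.rr s.1) (p.rr (s.1 + 1))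
    (rho s.1) (kapc s.1) (p.cc s.1) (p.cc (s.1 + 1)) p.J (p.AA s.1 s.2.1)
    (p.AA (s.1 + 1) s.2.1) (p.RR s.1 s.2.1) s.2.2 (p.mh c s.1 s.2.1 s.2.2)
    (fun z => p.mh c (p.nxtS c s z).1 (p.nxtS c s z).2.1 (p.nxtS c s z).2.2)
    (hd.rr_mem _) (hd.rho_le _) (hd.kapc_le _) p.hJ (hd.AA_symm _ _) (hd.RR_le _ _) p.hJ3
    (hd.AA_le _ _) (hd.rr_succ _) (hd.cc_succ _) (hd.M_succ _ _) c1 c2 hy
    (fun z i => p.abs_mh_le _ _ _ _ _) c3
  refine ⟨G, kap (p.rr (s.1 + 1)) (rho s.1) (kapc s.1) (p.RR s.1 s.2.1 * (p.RR s.1 s.2.1)ᵀ) G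
    (p.mh c s.1 s.2.1 s.2.2), hGo.monoN hci.le (by linarith only [hC]),
    (hkap s.1 s.2.1 _ G hs c1.abs_lt c2 hG).trans (by linarith only [hci]), fun ν hν => hG2 ν hν⟩

end Vale.Agent.P150.F
end

section

/-! P150 FULL, D6: DriftStatement (helper123). -/

open MeasureTheory ProbabilityTheory Filter Topology
open scoped Matrix

namespace Vale.Agent.P150.F

theorem tapDisp2 : TapDisp2 := fun _ _ hC _ _ _ _ _ _ _ hr hm hm' h hHG hG hB hloc hε =>
  tap_disp2 hC hr hm hm' h hHG hG hB hloc hε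

theorem dr_withQ {n : ℕ} {p : SPar n} {K : Cst} (h : p.Adm K) (q : ℕ) (hq : 0 < q) :
    (p.withQ q hq).Adm K :=
  { ok := h.ok
    β_eq := h.β_eq
    κ_eq := h.κ_eq
    Nw_eq := h.Nw_eq
    d_eq := h.d_eq
    Ks_eq := h.Ks_eq
    Kp_eq := h.Kp_eq
    ρ_eq := h.ρ_eq
    ℓ_eq := h.ℓ_eq
    op := h.op
    zd := h.zd
    kb := h.kb
    dirs_orth := h.dirs_orth
    dirs_hl := h.dirs_hl }

theorem dr_c_pos {K : Cst} (h : K.OK) : 0 < K.c := by
  have h1 := h.hc₁
  have h2 : 0 < 1 - K.β := by linarith [h.hβ1]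
  exact lt_min (lt_min (by positivity) (by positivity)) one_pos

theorem nv_zero_dim {v : Vec 0} : nv v = 0 := by
  have : v = 0 := Subsingleton.elim _ _
  rw [this]; exact nv_zero

/-- the bounds on the data of one micro step -/
def StepBds : Prop := ∀ K : Cst, K.OK → ∃ C : ℝ, 1 ≤ C ∧ ∀ {n : ℕ} (p : SPar n), p.Adm K →
  p.StepData C p.rho p.kapc

def KapBds : Prop := ∀ K : Cst, K.OK → ∃ C : ℝ, 0 ≤ C ∧ ∀ {n : ℕ} (p : SPar n), p.Adm K →
  ∀ k P m (G : Mat n), k < p.N → (∀ i, |m i| < 1) →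
    (∀ v, K.c * sq v ≤ qf (Hess (p.rr (k + 1)) p.J (p.AA (k + 1) P) m) v) →
    Hess (p.rr (k + 1)) p.J (p.AA (k + 1) P) m * G = 1 →
    nv (kap (p.rr (k + 1)) (p.rho k) (p.kapc k) (p.RR k P * (p.RR k P)ᵀ) G m) ≤ C

def ContSt : Prop := ∀ K : Cst, K.OK → ∀ {n : ℕ} (p : SPar n), 0 < n → p.Adm K →
  ∀ s : p.St, s.1 < p.N → s ∉ p.exitS K.c → p.ContAt K.c (K.c * K.ρ * √n / 4) s

theorem driftStatement_of (h2 : DriftCore) (h3 : StepBds) (h4 : KapBds) (h5 : ContSt) :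
    DriftStatement := by
  intro K hK
  have hc := dr_c_pos hK
  have hci : 0 < K.c⁻¹ := inv_pos.2 hc
  obtain ⟨C1, hC1, hs⟩ := h3 K hK
  obtain ⟨C2, hC2, hk⟩ := h4 K hK
  refine ⟨C1 + C2 + K.c⁻¹, by linarith only [hC2, hC1, hci], fun {n} p hp => ?_⟩
  rcases Nat.eq_zero_or_pos n with rfl | hn
  · refine ⟨0, le_rfl, fun q hq hM hm s _ _ => ⟨0, 0, ?_, ?_, fun ν _ => ?_⟩⟩
    · exact opLe_of_nv fun v => by rw [nv_zero_dim, nv_zero_dim]; simp
    · rw [nv_zero_dim]; linarith only [hC2, hC1, hci]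
    · rw [nv_zero_dim]; simp
  have he : 0 < K.c * K.ρ * √(n : ℝ) / 4 := by
    have h1 : 0 < √(n : ℝ) := Real.sqrt_pos.2 (by exact_mod_cast hn)
    have h2 := hK.hρ
    positivity
  obtain ⟨E, hE⟩ := loc_drift tapDisp2 h2 effEq n K.c (C1 + C2) _ hc he (by linarith only [hC2, hC1])
  refine ⟨max E 0, le_max_right _ _, fun q hq hM hm => ?_⟩
  have hpq := dr_withQ hp q hq
  have hd := hs (p.withQ q hq) hpq
  have hd' : (p.withQ q hq).StepData (C1 + C2) (p.withQ q hq).rho (p.withQ q hq).kapc :=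
    { rr_mem := hd.rr_mem
      rho_le := fun k => (hd.rho_le k).trans (by linarith only [hC2])
      kapc_le := fun k => (hd.kapc_le k).trans (by linarith only [hC2])
      AA_symm := hd.AA_symm
      AA_le := fun k P => (hd.AA_le k P).monoN (by linarith only [hC1]) (by linarith only [hC2])
      RR_le := fun k P => (hd.RR_le k P).monoN (by linarith only [hC1]) (by linarith only [hC2])
      rr_succ := hd.rr_succ
      cc_succ := hd.cc_succ
      M_succ := hd.M_succ }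
  have h6 := hE (p.withQ q hq) _ _ hM hm hd'
    (fun s h7 h8 => h5 K hK (p.withQ q hq) hn hpq s h7 h8)
    (fun k P m G h7 h8 h9 h10 => (hk (p.withQ q hq) hpq k P m G h7 h8 h9 h10).trans (by linarith only [hC1]))
  intro s h7 h8
  obtain ⟨G, κ, h9, h10, h11⟩ := h6 s h7 h8
  refine ⟨G, κ, h9, h10, fun ν hν => (h11 ν hν).trans ?_⟩
  refine mul_le_mul_of_nonneg_right (le_max_left _ _) ?_
  exact mul_nonneg (p.withQ q hq).dl_pos.le (Real.sqrt_nonneg _)

end Vale.Agent.P150.F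
end

section

/-! P150 FULL, D6: the continuation facts for admissible parameters (helper287). -/

open MeasureTheory ProbabilityTheory Filter Topology
open scoped Matrix

namespace Vale.Agent.P150.F

/-- the continuation facts, from the monotonicity on the windows -/
theorem contSt_of (hW : ∀ K : Cst, K.OK → ∀ {n : ℕ} (p : SPar n), p.Adm K →
    ∀ k P, p.Valid k P → p.Mono K.c k P) : ContSt := by
  intro K hK n p hn hp s _ hex
  have hc := dr_c_pos hK
  have h1 := hW K hK p hp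
  have h2 := p.cont_step hn hc h1 hex
  refine ⟨(h2 0).1, (h2 0).2.1, fun z hz => (h2 z).2.2 ?_⟩
  rwa [hp.ρ_eq]

end Vale.Agent.P150.F
end

section

/-! P150 FULL, D6: strong monotonicity of the TAP equation on all windows of an admissible schedule
(helper900). -/

open MeasureTheory ProbabilityTheory Filter Topology
open scoped Matrix

namespace Vale.Agent.P150.F

theorem Cst.OK.c_le {K : Cst} : K.c ≤ K.c₁ / 4 := by
  unfold Cst.c
  exact (min_le_left _ _).trans (min_le_left _ _)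

theorem Cst.OK.c_le' {K : Cst} : K.c ≤ (1 - K.β) ^ 2 / 2 := by
  unfold Cst.c
  exact (min_le_left _ _).trans (min_le_right _ _)

theorem Cst.OK.c_le_one {K : Cst} : K.c ≤ 1 := by
  unfold Cst.c
  exact min_le_right _ _

namespace SPar

variable {n : ℕ} (p : SPar n)

theorem Adm.τ_eq {p : SPar n} {K : Cst} (hp : p.Adm K) : p.τ = K.τ := by
  unfold τ Cst.τ
  rw [hp.β_eq, hp.Nw_eq]

theorem Adm.τ_le {p : SPar n} {K : Cst} (hp : p.Adm K) : p.τ ≤ K.c₁ / 36 := by
  rw [hp.τ_eq]; exact hp.ok.hτ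

/-- after the steering of window `i` the TAP equation is strongly monotone about its centre, as long
as `r` is close to the value at the beginning of the window -/
theorem Adm.mono_core {p : SPar n} {K : Cst} (hp : p.Adm K) {k : ℕ} {P : p.Ctr} {i : Fin p.Nw}
    (hP : ∀ j, |p.ctr P i j| ≤ 1) (h1 : (i * (p.d + 1) + p.d) * p.q ≤ k)
    (h2 : k ≤ p.Nw * (p.d + 1) * p.q) (hr : |p.rr k - (p.β - p.τ * i)| ≤ p.τ) :
    ∀ m ∈ Win.window (p.ctr P i) (p.ρ * √n), ∀ v,
      K.c * sq v ≤ qf (Hess (p.rr k) p.J (p.AA k P) m) v := by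
  intro m hm v
  rw [Win.mem_window_sqrt p.hρ.le] at hm
  have hr1 : p.rr k ∈ Set.Icc (0 : ℝ) 1 := ⟨p.rr_nonneg k, p.rr_le_one k⟩
  have hi : ((i : ℕ) : ℝ) ≤ p.Nw := by exact_mod_cast i.2.le
  have hr₀ : p.β - p.τ * i ∈ Set.Icc (0 : ℝ) 1 := by
    have h3 := mul_le_mul_of_nonneg_left hi p.τ_nonneg
    have h4 := p.Nw_mul_τ
    have h5 : 0 ≤ p.τ * i := mul_nonneg p.τ_nonneg (Nat.cast_nonneg _)
    constructor
    · linarith only [h4, h3]
    · linarith only [p.hβ1, h5]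
  have hW := hp.dirs_orth i i.2 (p.ctr P i) hP
  have hH := hp.dirs_hl i i.2 (p.ctr P i) hP m hm.1 hm.2
  have hA : ∀ v, Win.Ks K.c₁ K.L * ∑ a : Fin p.d, ip (p.dirs i (p.ctr P i) a) v ^ 2
      ≤ qf (p.AA k P) v := by
    intro v
    have h3 := p.steered k P i h1 h2 v
    rw [hp.Ks_eq, hp.ok.hKs] at h3
    exact h3
  have h3 := Win.hess_steer hp.ok.hc₁ hp.ok.hL.le hr₀ p.hJ p.hJ3 hm.1 hW hH hA v
  have h4 := (abs_le.1 (Win.hess_r hr1 hr₀ p.hJ3 (p.AA k P) hm.1 v)).1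
  have hτ := hp.τ_le
  have h5 : 9 * |p.rr k - (p.β - p.τ * i)| * sq v ≤ K.c₁ / 4 * sq v :=
    mul_le_mul_of_nonneg_right (by linarith only [hr, hτ]) (sqN_nonneg v)
  have h6 : K.c * sq v ≤ K.c₁ / 4 * sq v :=
    mul_le_mul_of_nonneg_right Cst.OK.c_le (sqN_nonneg v)
  linarith only [h6, h5, h4, h3]

/-- the first window: a ball about the origin -/
theorem Adm.mono_init {p : SPar n} {K : Cst} (hp : p.Adm K) (k : ℕ) (P : p.Ctr) :
    ∀ m ∈ Win.window 0 (p.ρ * √n), ∀ v,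
      K.c * sq v ≤ qf (Hess (p.rr k) p.J (p.AA k P) m) v := by
  intro m hm v
  have hρ : K.ε + 3 * p.ρ ^ 2 ≤ (1 - p.β) ^ 2 / 2 := by
    rw [hp.ρ_eq, hp.β_eq]; exact hp.ok.hερ
  have h1 := Win.window_init p.hβ1 hp.op hp.ok.hε.le p.hρ.le hρ (p.rr_mem k)
    (A := p.AA k P) (p.qf_AA_nonneg k P) m hm v
  refine le_trans (mul_le_mul_of_nonneg_right ?_ (sqN_nonneg v)) h1
  rw [hp.β_eq]
  exact Cst.OK.c_le'

/-- strong monotonicity on all windows -/
theorem winOK {p : SPar n} {K : Cst} (hp : p.Adm K) (k : ℕ) (P : p.Ctr) (hv : p.Valid k P) :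
    p.Mono K.c k P := by
  have hq := p.hq
  rcases p.kind_cases k with ⟨i, a, h, h'⟩ | ⟨i, h, h'⟩ | ⟨h, h'⟩ | ⟨h, h'⟩
  · -- steering
    have e1 : p.cen k P = p.ctrPrev P i := by unfold cen; rw [h]
    have e2 : p.rad k = p.ρ * √n := by unfold rad; rw [h]
    have hk := Nat.div_mul_le_self k p.q
    have hk2 : k < (k / p.q + 1) * p.q := by
      have := Nat.lt_div_mul_add (a := k) hq
      rw [Nat.add_mul, one_mul]; exact this
    by_cases hi : 0 < (i : ℕ)
    · have hi' : (i : ℕ) - 1 < p.Nw := by omega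
      have e3 : p.ctrPrev P i = p.ctr P ⟨i - 1, hi'⟩ := by unfold ctrPrev; rw [dif_pos hi]
      have e4 : ((i : ℕ) - 1 + 1) = i := Nat.sub_add_cancel hi
      have e5 : ((i : ℕ) - 1) * (p.d + 1) + p.d + 1 = i * (p.d + 1) := by
        calc ((i : ℕ) - 1) * (p.d + 1) + p.d + 1 = ((i : ℕ) - 1 + 1) * (p.d + 1) := by ring
          _ = i * (p.d + 1) := by rw [e4]
      have hlow : (((i : ℕ) - 1) * (p.d + 1) + p.d) * p.q ≤ k := by
        refine le_trans (Nat.mul_le_mul_right _ ?_) hk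
        rw [h']; omega
      have hup : k ≤ p.Nw * (p.d + 1) * p.q := by
        refine hk2.le.trans (Nat.mul_le_mul_right _ ?_)
        rw [h']
        exact p.idx_lt i.2 a.2.le
      have hval : ∀ j, |p.ctr P ⟨i - 1, hi'⟩ j| ≤ 1 := by
        refine hv ⟨i - 1, hi'⟩ ?_
        refine le_trans (Nat.mul_le_mul_right _ ?_) hlow
        exact Nat.le_add_right _ _
      have hr : |p.rr k - (p.β - p.τ * ((i : ℕ) - 1 : ℕ))| ≤ p.τ := by
        rw [p.rr_steer h, Nat.cast_sub hi, Nat.cast_one]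
        have e6 : p.β - p.τ * (i : ℕ) - (p.β - p.τ * (((i : ℕ) : ℝ) - 1)) = -p.τ := by ring
        rw [e6, abs_neg, abs_of_nonneg p.τ_nonneg]
      intro m hm v
      rw [e1, e2, e3] at hm
      exact hp.mono_core (i := ⟨i - 1, hi'⟩) hval hlow hup hr m hm v
    · have e3 : p.ctrPrev P i = 0 := by unfold ctrPrev; rw [dif_neg hi]
      intro m hm v
      rw [e1, e2, e3] at hm
      exact hp.mono_init k P m hm v
  · -- killing
    have e1 : p.cen k P = p.ctr P i := by unfold cen; rw [h]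
    have e2 : p.rad k = p.ρ * √n := by unfold rad; rw [h]
    have hk := Nat.div_mul_le_self k p.q
    have hk2 : k < (k / p.q + 1) * p.q := by
      have := Nat.lt_div_mul_add (a := k) hq
      rw [Nat.add_mul, one_mul]; exact this
    have hlow : ((i : ℕ) * (p.d + 1) + p.d) * p.q ≤ k := by rw [← h']; exact hk
    have hup : k ≤ p.Nw * (p.d + 1) * p.q := by
      refine hk2.le.trans (Nat.mul_le_mul_right _ ?_)
      rw [h']
      exact p.idx_lt i.2 le_rfl
    have hval : ∀ j, |p.ctr P i j| ≤ 1 := by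
      refine hv i ?_
      refine le_trans (Nat.mul_le_mul_right _ ?_) hlow
      exact Nat.le_add_right _ _
    have hr : |p.rr k - (p.β - p.τ * (i : ℕ))| ≤ p.τ := by
      obtain ⟨h1, h2⟩ := p.rr_kill_mem h
      rw [abs_le]
      have := p.τ_nonneg
      constructor <;> linarith
    intro m hm v
    rw [e1, e2] at hm
    exact hp.mono_core hval hlow hup hr m hm v
  · exact p.mono_last Cst.OK.c_le_one (p.kind_eq_last_iff.1 h).1 P (p.qf_AA_nonneg k P)
  · refine p.mono_last Cst.OK.c_le_one ?_ P (p.qf_AA_nonneg k P)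
    have := p.kind_eq_idle_iff.1 h
    have h1 := p.N_eq
    omega

end SPar

/-- the continuation facts -/
theorem contSt : ContSt := contSt_of fun _ _ {_} _ hp k P hv => SPar.winOK hp k P hv

end Vale.Agent.P150.F
end

section

/-! P150 FULL, D6: the structural properties `Loc.OK` of the concrete scheme. -/

open MeasureTheory ProbabilityTheory Filter Topology
open scoped Matrix

namespace Vale.Agent.P150.F

namespace SPar

variable {n : ℕ} (p : SPar n)

/-- the structural properties of the scheme -/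
theorem loc_OK {c C : ℝ} (hc : 0 < c) (hc1 : c ≤ 1) (hM : p.MMSucc)
    (hsymm : ∀ k P, (p.MM k P).IsSymm)
    (hQ : ∀ k P, OpLe (p.RR k P * (p.RR k P)ᵀ) C) (hR : ∀ k P i j, |p.RR k P i j| ≤ C)
    (hnF : (p.nF : ℝ) ≤ C) : (p.loc c hM (p.mhMeas hc)).OK p.β p.J C where
  dl_pos := p.dl_pos
  step _ := rfl
  time := by
    show (p.N : ℝ) * p.dl ≤ C
    rw [p.N_mul_dl]
    exact hnF
  lev_s0 := rfl
  M_s0 := p.MM_zero 0
  y_s0 := rfl
  lev_next _ _ := rfl
  symm s := hsymm _ _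
  term s hs i j hij := by
    have h : s.1 = p.N := hs
    exact p.lt_MM h.ge _ hij
  term_mh s hs i := by
    have h : s.1 = p.N := hs
    show p.mh c s.1 s.2.1 s.2.2 i = Real.tanh (s.2.2 i)
    rw [p.mh_term hc hc1 h.ge]
  mh_le s i := p.abs_mh_le c _ _ _ i
  opQ s := hQ _ _
  bddR s i j := hR _ _ i j
  meas_lev := measurable_fst
  meas_mh i := p.meas_mhS hc i
  meas_exit := p.meas_exitS hc

end SPar

end Vale.Agent.P150.F
end

section

/-! P150 FULL, D6: the structural statements (helper486). -/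

open MeasureTheory ProbabilityTheory Filter Topology
open scoped Matrix

namespace Vale.Agent.P150.F

theorem mmStatement : MMStatement := fun p k P m => p.MM_succ_upd k P m

theorem okStatement : OKStatement := by
  intro K hK
  refine ⟨max (3 + K.κ₀ + K.Kp) (K.Nw * (K.d + 1) + 1), ?_, ?_⟩
  · exact le_max_of_le_right (by (clear * -; positivity))
  intro n p hp hM hm
  have hCQ : p.CQ ≤ max (3 + K.κ₀ + K.Kp) (K.Nw * (K.d + 1) + 1) := by
    unfold SPar.CQ; rw [hp.κ_eq, hp.Kp_eq]; exact le_max_left _ _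
  rw [← hp.β_eq]
  refine p.loc_OK hK.c_pos (min_le_right _ _) hM p.MM_symm
    (fun k P => (p.opLe_Q k P).monoN p.CQ_nonneg hCQ)
    (fun k P i j => ((p.abs_RR_le k P i j).trans p.sqrt_CQ_le).trans hCQ) ?_
  have h : (p.nF : ℝ) = K.Nw * (K.d + 1) + 1 := by
    unfold SPar.nF; push_cast; rw [hp.Nw_eq, hp.d_eq]
  rw [h]; exact le_max_right _ _

/-- D6 from the drift and the exit bound -/
theorem d6_of_drift_exit (hDr : DriftStatement) (hEx : ExitStatement) : D6Statement :=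
  d6_of mmStatement okStatement hDr hEx

end Vale.Agent.P150.F
end

section

/-! P150 FULL, D6: the bounds on the data of one micro step (helper123). -/

open MeasureTheory ProbabilityTheory Filter Topology
open scoped Matrix

namespace Vale.Agent.P150.F

theorem stepBds : StepBds := by
  intro K hK
  refine ⟨4 + K.κ₀ + |K.Kp|, by rw [hK.hκ]; linarith only [abs_nonneg K.Kp], fun {n} p hp => ?_⟩
  have hκ : p.κ₀ = 4 := by rw [hp.κ_eq, hK.hκ]
  have hKp0 := p.Kp_nonneg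
  have hKp : p.Kp ≤ |K.Kp| := by rw [← hp.Kp_eq]; exact le_abs_self _
  have hκ' : K.κ₀ = 4 := hK.hκ
  have hCQ : √p.CQ ≤ 4 + K.κ₀ + |K.Kp| := by
    refine p.sqrt_CQ_le.trans ?_
    unfold SPar.CQ
    rw [hκ, hκ']; linarith
  have hτ0 := p.τ_nonneg
  have hτ1 := p.τ_le_one
  refine
    { rr_mem := fun k => ⟨p.rr_nonneg k, p.rr_le_one k⟩
      rho_le := fun k => ?_
      kapc_le := fun k => ?_
      AA_symm := p.AA_symm
      AA_le := fun k P => (p.opLe_AA_Kp k P).monoN hKp0 (by rw [hκ']; linarith)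
      RR_le := fun k P => (p.opLe_RR k P).monoN (Real.sqrt_nonneg _) hCQ
      rr_succ := p.rr_succ
      cc_succ := p.cc_succ
      M_succ := fun k P => p.MM_succ k P }
  · have h1 : 0 ≤ p.rho k ∧ p.rho k ≤ 1 := by
      unfold SPar.rho
      rcases p.kind k with ⟨i, a⟩ | i
      · exact ⟨le_rfl, zero_le_one⟩
      · exact ⟨hτ0, hτ1⟩
      · exact ⟨le_rfl, zero_le_one⟩
      · exact ⟨le_rfl, zero_le_one⟩
    rw [abs_of_nonneg h1.1, hκ']
    linarith [h1.2]
  · have h1 : 0 ≤ p.kapc k ∧ p.kapc k ≤ 4 + |K.Kp| := by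
      unfold SPar.kapc
      rcases p.kind k with ⟨i, a⟩ | i
      · exact ⟨le_rfl, by linarith⟩
      · simp only
        rw [hκ]
        exact ⟨by positivity, by linarith only [hτ1, hKp, hKp0]⟩
      · exact ⟨hKp0, by simp only; linarith⟩
      · exact ⟨le_rfl, by simp only; linarith⟩
    rw [abs_of_nonneg h1.1, hκ']
    linarith [h1.2]

end Vale.Agent.P150.F
end

section

/-! P150 FULL, D6: bound of the drift error on the concrete schedule (`KapBds`, helper645). -/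

open MeasureTheory ProbabilityTheory Filter Topology
open scoped Matrix

namespace Vale.Agent.P150.F

/-- `kap` is linear in `(ρ, κ₀, Q)` -/
theorem kap_smul {n : ℕ} (t r ρ κ₀ : ℝ) (Q G : Mat n) (m : Vec n) :
    kap r (t * ρ) (t * κ₀) (t • Q) G m = t • kap r ρ κ₀ Q G m := by
  funext j
  have h1 : G * (t • Q) * G = t • (G * Q * G) := by
    rw [Matrix.mul_smul, Matrix.smul_mul]
  rw [Pi.smul_apply, smul_eq_mul]
  unfold kap
  rw [h1, Matrix.smul_mulVec]
  have h2 : trN (t • (G * Q * G)) = t * trN (G * Q * G) := by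
    unfold trN
    simp only [Matrix.smul_apply, smul_eq_mul, ← Finset.mul_sum, mul_div_assoc]
  rw [h2, Matrix.smul_apply, Pi.smul_apply, smul_eq_mul, smul_eq_mul]
  ring

namespace SPar

variable {n : ℕ} (p : SPar n)

/-- the total steering matrix is a steering matrix -/
theorem steer_Atot (P : p.Ctr) : Steer (p.Nw * p.d) p.Ks (p.Atot P) := by
  have h1 : p.AA (p.Nw * (p.d + 1) * p.q) P = p.Atot P := by
    rw [AA_eq_sumA, p.th_last_eq_zero le_rfl, sub_zero, one_smul]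
    exact p.sumA_end P (by rw [Nat.mul_div_cancel _ p.hq])
  rw [← h1]
  exact p.steer_AA _ P

end SPar

theorem kapBds : KapBds := by
  intro K hK
  have hc := dr_c_pos hK
  have hci : 0 ≤ K.c⁻¹ := (inv_pos.2 hc).le
  set C1 : ℝ := |K.Ks| * √(3 * ((1 + (6 + K.Kp) * K.c⁻¹) ^ 4 + 5 * K.c⁻¹ ^ 4)) with hC1
  set a : ℝ := ((K.Nw * K.d : ℕ) : ℝ) * K.Ks with ha
  set C2 : ℝ := |a + 2 * ((|K.Kp| + a) * (K.c⁻¹ * a)) + a * (K.c⁻¹ * ((|K.Kp| + a) * (K.c⁻¹ * a)))|
    with hC2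
  refine ⟨C1 + √K.C₀ + C2, ?_, fun {n} p hp k P m G hk hm hH hG => ?_⟩
  · have h1 : 0 ≤ C1 := mul_nonneg (abs_nonneg _) (Real.sqrt_nonneg _)
    have h2 : 0 ≤ C2 := abs_nonneg _
    have h3 := Real.sqrt_nonneg K.C₀
    linarith only [h3, h2, h1]
  have hC1n : 0 ≤ C1 := mul_nonneg (abs_nonneg _) (Real.sqrt_nonneg _)
  have hC2n : 0 ≤ C2 := abs_nonneg _
  have hC0n := Real.sqrt_nonneg K.C₀
  have hm' : ∀ i, |m i| ≤ 1 := fun i => (hm i).le
  rw [p.RR_mul]
  rcases p.kind_cases k with ⟨i, b, h, h'⟩ | ⟨i, h, h'⟩ | ⟨h, h'⟩ | ⟨h, h'⟩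
  · -- steering
    have e1 : p.rho k = 0 := by unfold SPar.rho; rw [h]
    have e2 : p.kapc k = 0 := by unfold SPar.kapc; rw [h]
    rw [e1, e2, h]
    simp only
    have e3 : kap (p.rr (k + 1)) 0 0 (p.Ks • p.VV P i b) G m =
        p.Ks • kap (p.rr (k + 1)) 0 0 (p.VV P i b) G m := by
      have := kap_smul p.Ks (p.rr (k + 1)) 0 0 (p.VV P i b) G m
      rwa [mul_zero] at this
    rw [e3, nv_smul, hp.Ks_eq]
    have h1 := kap_steer (J := p.J) (A := p.AA (k + 1) P) (G := G) (m := m) (v := p.vd P i b)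
      (a := p.Kp) hc (p.rr_nonneg (k + 1)) (p.rr_le_one (k + 1)) p.hJ p.hJ3 p.Kp_nonneg
      (p.AA_symm _ P) (p.opLe_AA_Kp _ P) hm' hH hG (p.sq_vd_le P i b)
    have h2 : nv (kap (p.rr (k + 1)) 0 0 (p.VV P i b) G m) ≤
        √(3 * ((1 + (6 + K.Kp) * K.c⁻¹) ^ 4 + 5 * K.c⁻¹ ^ 4)) := by
      refine nv_le_of_sq_le (Real.sqrt_nonneg _) ?_
      rw [Real.sq_sqrt (by
        have : 0 ≤ (1 + (6 + K.Kp) * K.c⁻¹) ^ 4 := by (clear * -; positivity)
        have : 0 ≤ K.c⁻¹ ^ 4 := by positivity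
        linarith)]
      rw [← hp.Kp_eq]
      exact h1
    have h3 : |K.Ks| * nv (kap (p.rr (k + 1)) 0 0 (p.VV P i b) G m) ≤ C1 :=
      mul_le_mul_of_nonneg_left h2 (abs_nonneg _)
    linarith only [h3, hC0n, hC2n]
  · -- killing
    have e1 : p.rho k = p.τ * 1 := by unfold SPar.rho; rw [h, mul_one]
    have e2 : p.kapc k = p.τ * p.κ₀ := by unfold SPar.kapc; rw [h]
    rw [e1, e2, h]
    simp only
    rw [kap_smul, nv_smul, abs_of_nonneg p.τ_nonneg]
    have h1 := hp.kb (p.rr (k + 1)) (p.rr_mem (k + 1)) m hm (p.AA (k + 1) P) (p.steer_AA _ P)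
      (fun v => by
        refine le_trans ?_ (hH v)
        have := sqN_nonneg v
        linarith only [mul_nonneg (le_of_lt (sub_pos.2 hc)) (sub_nonneg.2 this)]) G hG
    have h2 : nv (kap (p.rr (k + 1)) 1 p.κ₀ (p.J + p.κ₀ • (1 : Mat n)) G m) ≤ √K.C₀ := by
      refine nv_le_of_sq_le (Real.sqrt_nonneg _) ?_
      have h3 : 0 ≤ K.C₀ := le_trans (Finset.sum_nonneg fun j _ => sq_nonneg _) h1
      rw [Real.sq_sqrt h3]
      exact h1
    have h3 : p.τ * nv (kap (p.rr (k + 1)) 1 p.κ₀ (p.J + p.κ₀ • (1 : Mat n)) G m) ≤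
        1 * √K.C₀ := mul_le_mul p.τ_le_one h2 (nv_nonneg _) zero_le_one
    linarith only [h3, hC2n, hC1n]
  · -- last
    have e0 : p.rr (k + 1) = 0 := by
      refine p.rr_end ?_
      have h1 := (p.div_eq_iff_level.1 h').1
      omega
    have e1 : p.rho k = 0 := by unfold SPar.rho; rw [h]
    have e2 : p.kapc k = p.Kp := by unfold SPar.kapc; rw [h]
    rw [e0] at hH hG ⊢
    rw [e1, e2, h]
    simp only
    have hNd : ((p.Nw * p.d : ℕ) : ℝ) * p.Ks = a := by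
      rw [ha, hp.Nw_eq, hp.d_eq, hp.Ks_eq]
    have ha0 : 0 ≤ a := by
      rw [← hNd]
      exact mul_nonneg (Nat.cast_nonneg _) p.hKs
    have hA1 : OpLe (p.AA (k + 1) P) a := by
      have := (p.steer_AA (k + 1) P).opLe
      rwa [hNd] at this
    have hA2 : OpLe (p.Atot P) a := by
      have := (p.steer_Atot P).opLe
      rwa [hNd] at this
    have hA3 : hsq (p.AA (k + 1) P) ≤ a ^ 2 := by
      have := (p.steer_AA (k + 1) P).hsq_le
      rwa [hNd] at this
    have hA4 : hsq (p.Atot P) ≤ a ^ 2 := by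
      have := (p.steer_Atot P).hsq_le
      rwa [hNd] at this
    have h1 := kap_kill (κ' := p.Kp) (J := p.J) (A := p.AA (k + 1) P) (A₀ := p.Atot P) (G := G)
      (m := m) (a := a) hc ha0 (p.AA_symm _ P) hA1 (p.Atot_symm P) hA2 hA3 hA4 hm hH hG
    have h2 : nv (kap 0 0 p.Kp (p.Kp • (1 : Mat n) - p.Atot P) G m) ≤ C2 := by
      refine nv_le_of_sq_le hC2n ?_
      rw [hC2, sq_abs, ← hp.Kp_eq]
      exact h1
    linarith only [hC1n, hC0n, h2]
  · -- idle
    exact absurd hk (by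
      have := p.kind_eq_idle_iff.1 h
      omega)

end Vale.Agent.P150.F
end
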