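import Mathlib
import Vale.Agent.P150.Bdl.B1
import Vale.Agent.P150.Bdl.B28
import Vale.Agent.P150.Bdl.B8
import Vale.Agent.P150.Bdl.B24
import Vale.Agent.P150.Bdl.B19
import Vale.Agent.P150.Bdl.B15
import Vale.Agent.P150.Bdl.B27
import Vale.Agent.P150.Bdl.B18
import Vale.Agent.P150.Bdl.B21

set_option linter.all false

section

set_option linter.all false

/-!
P150-FULL, module G1: the uniform Schwinger-Dyson equations hold with high probability.
-/

open MeasureTheory ProbabilityTheory Filter Topology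
open scoped Matrix

namespace Vale.Agent.P150.F

variable {n : ℕ}

/-- the mean of the defect is `O(1/n)` -/
lemma abs_integral_sdf_le (hn : 0 < n) {l : ℕ} {as : List (Vec n)} (hl : as.length ≤ l)
    (h : Bdd as) : |∫ g, sdf (skM g) as ∂(gpi (Pairs n))| ≤
      3 * l / n * (9 ^ l + ∫ g in (SOp n)ᶜ, (1 + hsq (skM g)) ^ (2 * l) ∂(gpi (Pairs n))) := by
  have hn' : (0 : ℝ) < n := by exact_mod_cast hn
  have hT : 0 ≤ ∫ g in (SOp n)ᶜ, (1 + hsq (skM g)) ^ (2 * l) ∂(gpi (Pairs n)) :=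
    integral_nonneg fun g => pow_nonneg (add_nonneg zero_le_one (hsq_nn _)) _
  cases as with
  | nil =>
    simp only [sdf, integral_zero, abs_zero]
    (clear * - hn hT; positivity)
  | cons a as =>
    have hl2 : as.length ≤ l := by simp only [List.length_cons] at hl; omega
    rw [integral_sdf hn, abs_mul, abs_of_nonneg (by positivity)]
    set T := ∫ g in (SOp n)ᶜ, (1 + hsq (skM g)) ^ (2 * l) ∂(gpi (Pairs n)) with hTdef
    have key : ∀ k ∈ Finset.range as.length,
        |∫ g, remF (Ak (skM g) a as k) (Bk (skM g) as k) ∂(gpi (Pairs n))| ≤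
          3 * n * (9 ^ l + T) := by
      intro k _
      have hp : ∀ g : Pairs n → ℝ, ‖remF (Ak (skM g) a as k) (Bk (skM g) as k)‖ ≤
          3 * n * (9 ^ l + Set.indicator (SOp n)ᶜ (fun g => (1 + hsq (skM g)) ^ (2 * l)) g) := by
        intro g
        refine (abs_remF_le _ _).trans ?_
        have hsn : √(n : ℝ) * √n = n := Real.mul_self_sqrt hn'.le
        by_cases hg : g ∈ SOp n
        · have h1 := hs_Ak_le (by norm_num : (1 : ℝ) ≤ 3) hg h k
          have h2 := hs_Bk_le (by norm_num : (1 : ℝ) ≤ 3) hg h.of_cons k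
          rw [Set.indicator_of_notMem (by simpa using hg), add_zero]
          have h3 := mul_le_mul h1 h2 (hs_nn _) (by positivity)
          have h4 : (3 : ℝ) ^ as.length * √n * (3 ^ as.length * √n) ≤ 9 ^ l * n := by
            calc (3 : ℝ) ^ as.length * √n * (3 ^ as.length * √n)
                = (3 * 3) ^ as.length * (√n * √n) := by rw [mul_pow]; ring
              _ ≤ _ := by
                rw [hsn, show (3 : ℝ) * 3 = 9 by norm_num]
                exact mul_le_mul_of_nonneg_right (pow_le_pow_right₀ (by norm_num) hl2) hn'.le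
          linarith only [h4, h3]
        · have h1 := hs_Ak_crude (skM g) h k
          have h2 := hs_Bk_crude (skM g) h.of_cons k
          rw [Set.indicator_of_mem (by simpa using hg)]
          have h0 : 1 ≤ 1 + hsq (skM g) := le_add_of_nonneg_right (hsq_nn _)
          have h3 := mul_le_mul h1 h2 (hs_nn _) (by (clear * - h0 hn; positivity))
          have h4 : (1 + hsq (skM g)) ^ as.length * √n * ((1 + hsq (skM g)) ^ as.length * √n)
              ≤ (1 + hsq (skM g)) ^ (2 * l) * n := by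
            calc (1 + hsq (skM g)) ^ as.length * √n * ((1 + hsq (skM g)) ^ as.length * √n)
                = (1 + hsq (skM g)) ^ (2 * as.length) * (√n * √n) := by rw [two_mul, pow_add]; ring
              _ ≤ _ := by
                rw [hsn]
                exact mul_le_mul_of_nonneg_right (pow_le_pow_right₀ h0 (by omega)) hn'.le
          have h5 : (0 : ℝ) ≤ 9 ^ l := by positivity
          nlinarith
      have hi : Integrable (Set.indicator (SOp n)ᶜ (fun g : Pairs n → ℝ =>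
          (1 + hsq (skM g)) ^ (2 * l))) (gpi (Pairs n)) :=
        (PG_crude (2 * l)).integrable.indicator (measurableSet_SOp n).compl
      have hi2 : Integrable (fun g : Pairs n → ℝ => 9 ^ l +
          Set.indicator (SOp n)ᶜ (fun g => (1 + hsq (skM g)) ^ (2 * l)) g) (gpi (Pairs n)) :=
        (integrable_const _).add hi
      refine (norm_integral_le_of_norm_le (hi2.const_mul (3 * (n : ℝ)))
        (Eventually.of_forall hp)).trans (le_of_eq ?_)
      rw [integral_const_mul, integral_add (integrable_const _) hi, integral_const,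
        integral_indicator (measurableSet_SOp n).compl, probReal_univ, one_smul]
    have h2 : |∑ k ∈ Finset.range as.length,
        ∫ g, remF (Ak (skM g) a as k) (Bk (skM g) as k) ∂(gpi (Pairs n))|
        ≤ l * (3 * n * (9 ^ l + T)) := by
      refine (Finset.abs_sum_le_sum_abs _ _).trans ((Finset.sum_le_sum key).trans ?_)
      rw [Finset.sum_const, Finset.card_range, nsmul_eq_mul]
      exact mul_le_mul_of_nonneg_right (by exact_mod_cast hl2) (by (clear * - hn hT; positivity))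
    refine (mul_le_mul_of_nonneg_left h2 (by positivity)).trans (le_of_eq ?_)
    field_simp

/-- one fixed list of diagonals -/
theorem sdf_fixed (l : ℕ) {ε : ℝ} (hε : 0 < ε) : ∃ c : ℝ, 0 < c ∧ ∀ᶠ n : ℕ in atTop,
    ∀ as : List (Vec n), as.length ≤ l → Bdd as →
      (gpi (Pairs n)).real {g | g ∈ SOp n ∧ ε < |sdf (skM g) as|} ≤
        2 * Real.exp (-(c * (n : ℝ) ^ 2)) := by
  obtain ⟨T, hT, hT0, hTn⟩ := tail_crude (2 * l)
  obtain ⟨a, ha, N, hN⟩ := opLe_three
  have hK := KK_pos l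
  refine ⟨(ε / 2) ^ 2 / (8 * KK l ^ 2), by (clear * - hε hK; positivity), ?_⟩
  -- the error in the mean
  have hη : Tendsto (fun n : ℕ => 3 * l / (n : ℝ) * (9 ^ l + T n) + (l + 1) * T n
      + √(2 * (l + 1) ^ 2 + 4 * KK l ^ 2) * √(Real.exp (-(a * n)))) atTop (𝓝 0) := by
    have h1 : Tendsto (fun n : ℕ => (3 * l : ℝ) / (n : ℝ)) atTop (𝓝 0) :=
      tendsto_const_div_atTop_nhds_zero_nat _
    have h2 : Tendsto (fun n : ℕ => Real.exp (-(a * (n : ℝ)))) atTop (𝓝 0) := by
      have := tendsto_exp_lin (c := a) ha 0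
      simpa using this
    have h3 : Tendsto (fun n : ℕ => √(Real.exp (-(a * (n : ℝ))))) atTop (𝓝 0) := by
      have := h2.sqrt
      simpa using this
    have h4 := ((h1.mul (hT.const_add (9 ^ l))).add (hT.const_mul ((l : ℝ) + 1))).add
      (h3.const_mul (√(2 * (l + 1) ^ 2 + 4 * KK l ^ 2)))
    simpa using h4
  filter_upwards [hTn, eventually_ge_atTop (max N 1), hη.eventually (gt_mem_nhds (half_pos hε))]
    with n hTn' hn hηn as hl hb
  have hnN : N ≤ n := (le_max_left _ _).trans hn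
  have hn1 : 0 < n := (le_max_right _ _).trans hn
  have hn' : (0 : ℝ) < n := by exact_mod_cast hn1
  have hn1' : (1 : ℝ) ≤ n := by exact_mod_cast hn1
  have hS := measurableSet_SOp n
  have hlr : (as.length : ℝ) ≤ l := by exact_mod_cast hl
  set f : (Pairs n → ℝ) → ℝ := fun g => sdf (skM g) as with hf
  set L : ℝ := KK l * √2 / n with hL
  have hL0 : 0 < L := by (clear * - hK hn1; positivity)
  have hlip : ∀ w ∈ SOp n, ∀ w' ∈ SOp n, |f w - f w'| ≤ L * ed w w' := by
    intro w hw w' hw'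
    refine (sdf_lip hw hw' hl hb).trans (le_of_eq ?_)
    have e : hs (skM w - skM w') = √(2 / n) * ed w w' := sqrt_hsq_skM_sub w w'
    rw [e, hL, Real.sqrt_div zero_le_two]
    have hsn : √(n : ℝ) * √n = n := Real.mul_self_sqrt hn'.le
    have hsp : (0 : ℝ) < √n := Real.sqrt_pos.2 hn'
    rw [div_mul_eq_mul_div, div_div, hsn]
    ring
  obtain ⟨fe, hfe, hext⟩ := exists_ext hL0.le hlip
  -- value at zero
  have h0mem : (0 : Pairs n → ℝ) ∈ SOp n := by
    intro v
    have hz : skM (0 : Pairs n → ℝ) = 0 := by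
      ext i j
      simp [skM, gsym]
    rw [hz, Matrix.zero_mulVec]
    have : sq (0 : Vec n) = 0 := by simp [sq]
    rw [this]
    exact mul_nonneg (by norm_num) (sq_nn v)
  have hf0 : |fe 0| ≤ l + 1 := by
    rw [hext 0 h0mem]
    have hz : skM (0 : Pairs n → ℝ) = 0 := by
      ext i j
      simp [skM, gsym]
    refine (abs_sdf_crude _ hb).trans ?_
    rw [hz]
    have : hsq (0 : Mat n) = 0 := by simp [hsq]
    rw [this, add_zero, one_pow, mul_one]
    linarith only [hlr]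
  have hcrude : ∀ g : Pairs n → ℝ, |f g| ≤ (l + 1) * (1 + hsq (skM g)) ^ (2 * l) := by
    intro g
    refine (abs_sdf_crude _ hb).trans ?_
    have h0 : 1 ≤ 1 + hsq (skM g) := le_add_of_nonneg_right (hsq_nn _)
    exact mul_le_mul (by linarith only [hlr]) (pow_le_pow_right₀ h0 (by omega)) (by (clear * - h0; positivity))
      (by (clear * -; positivity))
  have hfi : Integrable f (gpi (Pairs n)) := (PG_sdf as).integrable
  -- mean of the extension
  have hmean : |∫ g, fe g ∂(gpi (Pairs n))| ≤ ε / 2 := by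
    have h1 := hfe.abs_integral_compl_le hS
    have h2 : ∫ g in SOp n, fe g ∂(gpi (Pairs n)) = ∫ g in SOp n, f g ∂(gpi (Pairs n)) :=
      setIntegral_congr_fun hS hext
    have h3 : ∫ g in SOp n, f g ∂(gpi (Pairs n)) = ∫ g, f g ∂(gpi (Pairs n))
        - ∫ g in (SOp n)ᶜ, f g ∂(gpi (Pairs n)) := by
      rw [← integral_add_compl hS hfi]; ring
    have h4 : |∫ g in (SOp n)ᶜ, f g ∂(gpi (Pairs n))| ≤ (l + 1) * T n := by
      refine (norm_integral_le_integral_norm (μ := (gpi (Pairs n)).restrict (SOp n)ᶜ) f).trans ?_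
      have h5 : ∫ g in (SOp n)ᶜ, ‖f g‖ ∂(gpi (Pairs n))
          ≤ ∫ g in (SOp n)ᶜ, (l + 1) * (1 + hsq (skM g)) ^ (2 * l) ∂(gpi (Pairs n)) :=
        setIntegral_mono hfi.norm.integrableOn
          ((PG_crude (2 * l)).integrable.const_mul _).integrableOn hcrude
      refine h5.trans ?_
      rw [integral_const_mul]
      exact mul_le_mul_of_nonneg_left hTn' (by (clear * -; positivity))
    have h6 : |∫ g, f g ∂(gpi (Pairs n))| ≤ 3 * l / (n : ℝ) * (9 ^ l + T n) :=
      (abs_integral_sdf_le hn1 hl hb).trans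
        (mul_le_mul_of_nonneg_left (by linarith only [hTn']) (by (clear * - hn1; positivity)))
    have h7 : √(2 * fe 0 ^ 2 + 2 * L ^ 2 * Fintype.card (Pairs n))
        * √((gpi (Pairs n)).real (SOp n)ᶜ)
        ≤ √(2 * (l + 1) ^ 2 + 4 * KK l ^ 2) * √(Real.exp (-(a * n))) := by
      refine mul_le_mul (Real.sqrt_le_sqrt ?_) (Real.sqrt_le_sqrt (hN n hnN))
        (Real.sqrt_nonneg _) (Real.sqrt_nonneg _)
      have h8 : fe 0 ^ 2 ≤ ((l : ℝ) + 1) ^ 2 := by
        rw [← sq_abs (fe 0)]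
        exact pow_le_pow_left₀ (abs_nonneg _) hf0 2
      have h9 : (Fintype.card (Pairs n) : ℝ) ≤ (n : ℝ) ^ 2 := by exact_mod_cast card_pairs n
      have h10 : L ^ 2 * Fintype.card (Pairs n) ≤ 2 * KK l ^ 2 := by
        calc L ^ 2 * Fintype.card (Pairs n) ≤ L ^ 2 * (n : ℝ) ^ 2 :=
              mul_le_mul_of_nonneg_left h9 (by positivity)
          _ = 2 * KK l ^ 2 := by
            rw [hL, div_pow, mul_pow, Real.sq_sqrt zero_le_two]
            field_simp
      linarith only [h8, h10]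
    have h11 := abs_le.1 h1
    have h12 := abs_le.1 h4
    have h13 := abs_le.1 h6
    rw [abs_le]
    constructor <;> linarith [h11.1, h11.2, h12.1, h12.2, h13.1, h13.2]
  have htail := hfe.tail_abs hL0 (t := ε / 2) (by positivity)
  have hc : (ε / 2) ^ 2 / (4 * L ^ 2) = (ε / 2) ^ 2 / (8 * KK l ^ 2) * (n : ℝ) ^ 2 := by
    have h1 : L ^ 2 = KK l ^ 2 * 2 / (n : ℝ) ^ 2 := by
      rw [hL, div_pow, mul_pow, Real.sq_sqrt zero_le_two]
    rw [h1]
    field_simp
    ring
  rw [hc] at htail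
  refine (measureReal_mono ?_).trans htail
  rintro g ⟨hg, hge⟩
  show ε / 2 ≤ |fe g - ∫ w', fe w' ∂gpi (Pairs n)|
  rw [hext g hg]
  have h1 : |f g| - |∫ w', fe w' ∂gpi (Pairs n)| ≤ |f g - ∫ w', fe w' ∂gpi (Pairs n)| :=
    abs_sub_abs_le_abs_sub _ _
  have h2 : ε < |f g| := hge
  linarith only [h2, h1, hmean]

/-- **module G1** -/
theorem G1 (l : ℕ) {ε : ℝ} (hε : 0 < ε) : WHP (fun n => {g | SD (skM g) l ε}) := by
  obtain ⟨c, hc, hfix⟩ := sdf_fixed l hε
  obtain ⟨a, ha, N, hN⟩ := opLe_three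
  unfold WHP
  have hbound : ∀ᶠ n : ℕ in atTop, disorder n {g | SD (skM g) l ε}ᶜ ≤
      ENNReal.ofReal (Real.exp (-(a * n)) + (l + 1) * (2 ^ n) ^ l *
        (2 * Real.exp (-(c * (n : ℝ) ^ 2)))) := by
    filter_upwards [hfix, eventually_ge_atTop N] with n hfix hn
    have hsub : {g | SD (skM g) l ε}ᶜ ⊆ (SOp n)ᶜ ∪ ⋃ m ∈ Finset.range (l + 1),
        ⋃ b : Fin m → Fin n → Bool, {g | g ∈ SOp n ∧ ε < |sdf (skM g) (sgl b)|} := by
      intro g hg
      by_contra hcon
      apply hg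
      simp only [Set.mem_union, Set.mem_compl_iff, Set.mem_iUnion, not_or, not_not,
        not_exists] at hcon
      refine sd_of_signs fun as h1 h2 h3 => ?_
      obtain ⟨b, hb⟩ := exists_sgl h3
      have := hcon.2 as.length (Finset.mem_range.2 (by omega)) b
      rw [hb]
      by_contra h4
      exact this ⟨hcon.1, not_le.1 h4⟩
    refine (measure_mono hsub).trans ((measure_union_le _ _).trans ?_)
    rw [ENNReal.ofReal_add (by positivity) (by positivity)]
    refine add_le_add ?_ ?_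
    · rw [← ENNReal.ofReal_toReal (measure_ne_top (disorder n) (SOp n)ᶜ)]
      exact ENNReal.ofReal_le_ofReal (hN n hn)
    · refine (measure_biUnion_finset_le _ _).trans ?_
      have h1 : ∀ m ∈ Finset.range (l + 1), disorder n (⋃ b : Fin m → Fin n → Bool,
          {g | g ∈ SOp n ∧ ε < |sdf (skM g) (sgl b)|}) ≤
          ENNReal.ofReal ((2 ^ n) ^ l * (2 * Real.exp (-(c * (n : ℝ) ^ 2)))) := by
        intro m hm
        have hml : m ≤ l := by have := Finset.mem_range.1 hm; omega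
        refine (measure_iUnion_fintype_le _ _).trans ?_
        have h2 : ∀ b ∈ (Finset.univ : Finset (Fin m → Fin n → Bool)),
            disorder n {g | g ∈ SOp n ∧ ε < |sdf (skM g) (sgl b)|} ≤
            ENNReal.ofReal (2 * Real.exp (-(c * (n : ℝ) ^ 2))) := by
          intro b _
          rw [← ENNReal.ofReal_toReal (measure_ne_top (disorder n) _)]
          exact ENNReal.ofReal_le_ofReal (hfix (sgl b) (by rw [length_sgl]; exact hml)
            (signs_sgl b).bdd)
        refine (Finset.sum_le_sum h2).trans ?_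
        rw [Finset.sum_const, Finset.card_univ, nsmul_eq_mul]
        rw [ENNReal.ofReal_mul (p := (2 ^ n) ^ l) (by positivity)]
        refine mul_le_mul' ?_ le_rfl
        rw [Fintype.card_fun, Fintype.card_fun, Fintype.card_bool, Fintype.card_fin,
          Fintype.card_fin, ← ENNReal.ofReal_natCast]
        refine ENNReal.ofReal_le_ofReal ?_
        push_cast
        exact pow_le_pow_right₀ (one_le_pow₀ (by norm_num)) hml
      refine (Finset.sum_le_sum h1).trans ?_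
      rw [Finset.sum_const, Finset.card_range, nsmul_eq_mul, ← ENNReal.ofReal_natCast,
        ← ENNReal.ofReal_mul (Nat.cast_nonneg _)]
      refine ENNReal.ofReal_le_ofReal (le_of_eq ?_)
      push_cast
      ring
  have hlim : Tendsto (fun n : ℕ => Real.exp (-(a * n)) + (l + 1) * (2 ^ n) ^ l *
      (2 * Real.exp (-(c * (n : ℝ) ^ 2)))) atTop (𝓝 0) := by
    have h1 : Tendsto (fun n : ℕ => Real.exp (-(a * (n : ℝ)))) atTop (𝓝 0) := by
      have := tendsto_exp_lin (c := a) ha 0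
      simpa using this
    have h2 : Tendsto (fun n : ℕ => Real.exp (-(1 * (n : ℝ)))) atTop (𝓝 0) := by
      have := tendsto_exp_lin (c := 1) one_pos 0
      simpa using this
    have h3 := h1.add (h2.const_mul (2 * ((l : ℝ) + 1)))
    simp only [mul_zero, add_zero] at h3
    refine squeeze_zero' (Eventually.of_forall fun n => by positivity) ?_ h3
    filter_upwards [eventually_ge_atTop (⌈((l : ℝ) * Real.log 2 + 1) / c⌉₊)] with n hn
    have hn2 : ((l : ℝ) * Real.log 2 + 1) / c ≤ n := (Nat.le_ceil _).trans (by exact_mod_cast hn)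
    have hn3 : (l : ℝ) * Real.log 2 + 1 ≤ c * n := by
      rw [div_le_iff₀ hc] at hn2; linarith only [hn2]
    have e1 : ((2 : ℝ) ^ n) ^ l = Real.exp (n * (l * Real.log 2)) := by
      rw [← pow_mul, ← Real.rpow_natCast, Real.rpow_def_of_pos two_pos]
      congr 1
      push_cast
      ring
    have e2 : ((2 : ℝ) ^ n) ^ l * Real.exp (-(c * (n : ℝ) ^ 2)) ≤ Real.exp (-(1 * (n : ℝ))) := by
      rw [e1, ← Real.exp_add]
      refine Real.exp_le_exp.2 ?_
      have hn0 : (0 : ℝ) ≤ n := Nat.cast_nonneg n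
      linarith only [mul_nonneg (sub_nonneg.2 hn3) (sub_nonneg.2 hn0)]
    have hl0 : (0 : ℝ) ≤ l := Nat.cast_nonneg l
    linarith only [mul_nonneg (sub_nonneg.2 e2) (sub_nonneg.2 hl0), e2]
  have hlim2 := (ENNReal.tendsto_ofReal hlim)
  rw [ENNReal.ofReal_zero] at hlim2
  exact tendsto_of_tendsto_of_tendsto_of_le_of_le' tendsto_const_nhds hlim2
    (Eventually.of_forall fun n => bot_le) hbound

/-- **module G1**, filter form -/
theorem sd_whp (l : ℕ) {ε : ℝ} (hε : 0 < ε) : ∀ᶠ i in whpF, SD (skM i.2) l ε := by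
  rw [eventually_whpF]
  exact G1 l hε

end Vale.Agent.P150.F
end

section

set_option linter.all false

/-!
P150-FULL, module G4: first moment bound of the partition function.
-/

open MeasureTheory ProbabilityTheory Filter Topology
open scoped Matrix

namespace Vale.Agent.P150.F

lemma two_card_pairs (n : ℕ) : 2 * (Fintype.card (Pairs n) : ℝ) ≤ (n : ℝ) ^ 2 := by
  have h := sum_pairs (n := n) fun _ _ => (1 : ℝ)
  simp only [Finset.sum_const, Finset.card_univ, Fintype.card_fin, nsmul_eq_mul, mul_one] at h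
  have hn : (0 : ℝ) ≤ n := Nat.cast_nonneg n
  linarith only [hn, h]

/-- Laplace transform of a linear form of a standard Gaussian vector -/
lemma integral_exp_lin {ι : Type*} [Fintype ι] (c : ι → ℝ) :
    Integrable (fun w : ι → ℝ => Real.exp (∑ k, c k * w k)) (gpi ι) ∧
    ∫ w, Real.exp (∑ k, c k * w k) ∂(gpi ι) = Real.exp ((∑ k, c k ^ 2) / 2) := by
  have e : ∀ w : ι → ℝ, Real.exp (∑ k, c k * w k) = ∏ k, Real.exp (c k * w k) :=
    fun w => Real.exp_sum _ _
  have hi : ∀ k, Integrable (fun x : ℝ => Real.exp (c k * x)) (gaussianReal 0 1) := fun k =>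
    integrable_exp_mul_gaussianReal (c k)
  constructor
  · simp only [e]
    exact Integrable.fintype_prod fun k => hi k
  · simp only [e]
    rw [integral_fintype_prod_eq_prod (fun k (x : ℝ) => Real.exp (c k * x))]
    have h : ∀ k, ∫ x, Real.exp (c k * x) ∂(gaussianReal 0 1) = Real.exp (c k ^ 2 / 2) := by
      intro k
      have := congrFun (mgf_id_gaussianReal (μ := 0) (v := 1)) (c k)
      simp only [mgf, id] at this
      rw [this]
      simp
    simp only [h]
    rw [← Real.exp_sum, Finset.sum_div]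

lemma half_qf_eq {n : ℕ} (β : ℝ) (g : Pairs n → ℝ) (x : Cfg n) :
    β / 2 * qf (skM g) (sv x) = ∑ p : Pairs n, (β / √n * (sp (x p.1.1) * sp (x p.1.2))) * g p := by
  rw [qf_skM, quad_eq, Finset.sum_div, Finset.mul_sum]
  refine Finset.sum_congr rfl fun p _ => ?_
  show β / 2 * (2 * (sp (x p.1.1) * sp (x p.1.2)) * g p / √n) = _
  ring

lemma integral_Z_le {n : ℕ} (hn : 0 < n) (β : ℝ) :
    Integrable (fun g : Pairs n → ℝ => ∑ x : Cfg n, Real.exp (β / 2 * qf (skM g) (sv x)))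
      (gpi (Pairs n)) ∧
    ∫ g : Pairs n → ℝ, ∑ x : Cfg n, Real.exp (β / 2 * qf (skM g) (sv x)) ∂(gpi (Pairs n))
      ≤ Real.exp (n * (Real.log 2 + β ^ 2 / 4)) := by
  have hn' : (0 : ℝ) < n := by exact_mod_cast hn
  have hi : ∀ x : Cfg n, Integrable (fun g : Pairs n → ℝ =>
      Real.exp (β / 2 * qf (skM g) (sv x))) (gpi (Pairs n)) := by
    intro x
    simp only [half_qf_eq]
    exact (integral_exp_lin _).1
  refine ⟨integrable_finsetSum _ fun x _ => hi x, ?_⟩
  rw [integral_finsetSum _ fun x _ => hi x]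
  have h : ∀ x : Cfg n, ∫ g : Pairs n → ℝ, Real.exp (β / 2 * qf (skM g) (sv x)) ∂(gpi (Pairs n))
      ≤ Real.exp (n * (β ^ 2 / 4)) := by
    intro x
    simp only [half_qf_eq]
    rw [(integral_exp_lin _).2]
    refine Real.exp_le_exp.2 ?_
    have h1 : ∀ p : Pairs n, (β / √n * (sp (x p.1.1) * sp (x p.1.2))) ^ 2 = β ^ 2 / n := by
      intro p
      have h2 := sp_sq (x p.1.1)
      have h3 := sp_sq (x p.1.2)
      have h4 : (sp (x p.1.1) * sp (x p.1.2)) ^ 2 = 1 := by
        calc _ = (sp (x p.1.1) * sp (x p.1.1)) * (sp (x p.1.2) * sp (x p.1.2)) := by ring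
          _ = 1 := by rw [h2, h3, one_mul]
      rw [mul_pow, h4, div_pow, Real.sq_sqrt hn'.le, mul_one]
    simp only [h1, Finset.sum_const, Finset.card_univ, nsmul_eq_mul]
    have h5 := two_card_pairs n
    have h6 : (Fintype.card (Pairs n) : ℝ) * (β ^ 2 / n) ≤ (n : ℝ) ^ 2 / 2 * (β ^ 2 / n) :=
      mul_le_mul_of_nonneg_right (by linarith only [h5]) (by (clear * - hn; positivity))
    have h7 : (n : ℝ) ^ 2 / 2 * (β ^ 2 / n) = n * β ^ 2 / 2 := by field_simp
    linarith only [h7, h6]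
  refine (Finset.sum_le_sum fun x _ => h x).trans (le_of_eq ?_)
  rw [Finset.sum_const, Finset.card_univ, Fintype.card_fun, Fintype.card_bool, Fintype.card_fin,
    nsmul_eq_mul]
  push_cast
  rw [mul_add, Real.exp_add, ← Real.rpow_natCast, Real.rpow_def_of_pos two_pos, mul_comm (Real.log 2)]

/-- [G4] -/
theorem g4 : G4Statement := by
  intro β _ _ ε hε
  refine eventually_whpF_of_real (fun n : ℕ => Real.exp (-(ε * n))) ?_ ?_
  · have := tendsto_exp_lin hε 0
    simpa using this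
  · filter_upwards [eventually_gt_atTop 0] with n hn
    obtain ⟨h1, h2⟩ := integral_Z_le hn β
    have hZ : ∀ g : Pairs n → ℝ, 0 < ∑ x : Cfg n, Real.exp (β / 2 * qf (skM g) (sv x)) :=
      fun g => Finset.sum_pos (fun _ _ => Real.exp_pos _) Finset.univ_nonempty
    have h3 := mul_meas_ge_le_integral_of_nonneg (μ := gpi (Pairs n))
      (Eventually.of_forall fun g => (hZ g).le) h1 (Real.exp (n * (Real.log 2 + β ^ 2 / 4 + ε)))
    have h4 : (disorder n).real {g | ¬ (Real.log (∑ x : Cfg n,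
        Real.exp (β / 2 * qf (skM g) (sv x))) ≤ n * (Real.log 2 + β ^ 2 / 4 + ε))}
        ≤ (gpi (Pairs n)).real {g | Real.exp (n * (Real.log 2 + β ^ 2 / 4 + ε)) ≤
          ∑ x : Cfg n, Real.exp (β / 2 * qf (skM g) (sv x))} := by
      refine measureReal_mono fun g hg => ?_
      have hg' : n * (Real.log 2 + β ^ 2 / 4 + ε) < Real.log (∑ x : Cfg n,
        Real.exp (β / 2 * qf (skM g) (sv x))) := not_le.1 hg
      exact ((Real.lt_log_iff_exp_lt (hZ g)).1 hg').le
    refine h4.trans ?_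
    have h5 : Real.exp (n * (Real.log 2 + β ^ 2 / 4 + ε))
        = Real.exp (n * (Real.log 2 + β ^ 2 / 4)) * Real.exp (ε * n) := by
      rw [← Real.exp_add]; congr 1; ring
    have h6 := h3.trans h2
    rw [h5] at h6 ⊢
    have h7 : 0 < Real.exp (n * (Real.log 2 + β ^ 2 / 4)) := Real.exp_pos _
    rw [mul_assoc] at h6
    have h8 := le_of_mul_le_mul_left (h6.trans (le_of_eq (mul_one _).symm)) h7
    rw [Real.exp_neg, ← one_div, le_div_iff₀ (Real.exp_pos _), mul_comm]
    exact h8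

end Vale.Agent.P150.F
end

section

/-! Module CH, statement CH4'' : relative entropy of two label laws (helper602). -/

open MeasureTheory ProbabilityTheory Filter Topology Real
open scoped Matrix

namespace Vale.Agent.P150.F

open P245 (gsn EG1)

namespace CH4pp

/-- `t log t ≤ (t-1) + (t-1)²/2 + |t-1|³/2` -/
theorem mul_log_le {t : ℝ} (ht : 0 < t) :
    t * Real.log t ≤ (t - 1) + (t - 1) ^ 2 / 2 + |t - 1| ^ 3 / 2 := by
  rcases le_total 1 t with h | h
  · have h1 : Real.log t ≤ (t - t⁻¹) / 2 := by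
      have h2 := Real.self_le_sinh_iff.2 (Real.log_nonneg h)
      rwa [Real.sinh_eq, Real.exp_neg, Real.exp_log ht] at h2
    have h3 : t * Real.log t ≤ t * ((t - t⁻¹) / 2) := mul_le_mul_of_nonneg_left h1 ht.le
    have h4 : t * ((t - t⁻¹) / 2) = (t - 1) + (t - 1) ^ 2 / 2 := by
      field_simp; ring
    have h5 : 0 ≤ |t - 1| ^ 3 / 2 := by (clear * -; positivity)
    linarith only [h5, h4, h3]
  · rcases h.eq_or_lt with h0 | h0
    · subst h0; simp
    set s := 1 - t with hs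
    have hs0 : 0 < s := by linarith only [h0]
    have hs1 : s < 1 := by linarith
    have h1 : s + s ^ 2 / 2 ≤ -Real.log (1 - s) := by
      have hsum := Real.hasSum_pow_div_log_of_abs_lt_one (x := s) (by rw [abs_of_pos hs0]; exact hs1)
      have h2 := sum_le_hasSum (Finset.range 2) (fun i _ => by positivity) hsum
      simp only [Finset.sum_range_succ, Finset.range_zero, Finset.sum_empty] at h2
      norm_num at h2
      linarith only [h2]
    have ht' : t = 1 - s := by rw [hs]; ring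
    have e1 : |t - 1| = s := by rw [ht', abs_of_neg (by linarith only [hs0])]; ring
    rw [e1, ht']
    have h3 : (1 - s) * Real.log (1 - s) ≤ (1 - s) * (-(s + s ^ 2 / 2)) :=
      mul_le_mul_of_nonneg_left (by linarith only [h1]) (by linarith only [hs1])
    refine h3.trans (le_of_eq ?_)
    ring

/-- pointwise bound of the integrand -/
theorem pw_le {p q s E : ℝ} (hp : 0 < p) (hs : 0 ≤ s) (hE : 1 ≤ E)
    (h1 : |p - 1| ≤ s * E ^ 2) (h2 : |q - 1| ≤ s * E ^ 2) (h3 : E⁻¹ ≤ q) :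
    p * (Real.log p - Real.log q) ≤ (p - q) + (p - q) ^ 2 / 2 + 6 * s ^ 3 * E ^ 8 := by
  have hE0 : 0 < E := by linarith only [hE]
  have hq : 0 < q := (inv_pos.2 hE0).trans_le h3
  have hpq : |p - q| ≤ 2 * (s * E ^ 2) := by
    have := abs_sub_le p 1 q
    rw [abs_sub_comm 1 q] at this
    linarith only [this, h2, h1]
  have e0 : p * (Real.log p - Real.log q) = q * (p / q * Real.log (p / q)) := by
    rw [Real.log_div hp.ne' hq.ne']; field_simp
  have h4 := mul_le_mul_of_nonneg_left (mul_log_le (div_pos hp hq)) hq.le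
  have e1 : p / q - 1 = (p - q) / q := by field_simp
  rw [e1, abs_div, abs_of_pos hq] at h4
  have e2 : q * ((p - q) / q + ((p - q) / q) ^ 2 / 2 + (|p - q| / q) ^ 3 / 2)
      = (p - q) + (p - q) ^ 2 / 2 + (p - q) ^ 2 * ((1 - q) * q⁻¹) / 2
        + |p - q| ^ 3 * (q⁻¹) ^ 2 / 2 := by
    field_simp; ring
  rw [e0]
  refine h4.trans ?_
  rw [e2]
  have hqi : q⁻¹ ≤ E := by
    rw [inv_le_comm₀ hq hE0]; exact h3
  have hqi0 : 0 ≤ q⁻¹ := (inv_pos.2 hq).le
  have hsE : 0 ≤ s * E ^ 2 := by positivity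
  have a1 : (p - q) ^ 2 ≤ (2 * (s * E ^ 2)) ^ 2 := by
    rw [← sq_abs]; exact pow_le_pow_left₀ (abs_nonneg _) hpq 2
  have a2 : (1 - q) * q⁻¹ ≤ s * E ^ 2 * E := by
    have h5 : 1 - q ≤ s * E ^ 2 := by
      have := neg_abs_le (q - 1); linarith only [this, h2]
    calc (1 - q) * q⁻¹ ≤ (s * E ^ 2) * q⁻¹ := mul_le_mul_of_nonneg_right h5 hqi0
      _ ≤ _ := mul_le_mul_of_nonneg_left hqi hsE
  have a3 : (p - q) ^ 2 * ((1 - q) * q⁻¹) ≤ (2 * (s * E ^ 2)) ^ 2 * (s * E ^ 2 * E) := by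
    have h6 : 0 ≤ s * E ^ 2 * E := by (clear * - hs hE; positivity)
    calc (p - q) ^ 2 * ((1 - q) * q⁻¹) ≤ (p - q) ^ 2 * (s * E ^ 2 * E) :=
          mul_le_mul_of_nonneg_left a2 (sq_nonneg _)
      _ ≤ _ := mul_le_mul_of_nonneg_right a1 h6
  have a4 : |p - q| ^ 3 * (q⁻¹) ^ 2 ≤ (2 * (s * E ^ 2)) ^ 3 * E ^ 2 :=
    mul_le_mul (pow_le_pow_left₀ (abs_nonneg _) hpq 3) (pow_le_pow_left₀ hqi0 hqi 2)
      (by positivity) (by (clear * - hs hE; positivity))
  have a5 : (2 * (s * E ^ 2)) ^ 2 * (s * E ^ 2 * E) ≤ 4 * s ^ 3 * E ^ 8 := by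
    have : s ^ 3 * E ^ 7 ≤ s ^ 3 * E ^ 8 := by
      apply mul_le_mul_of_nonneg_left _ (by (clear * - hs; positivity))
      exact pow_le_pow_right₀ hE (by norm_num)
    calc (2 * (s * E ^ 2)) ^ 2 * (s * E ^ 2 * E) = 4 * (s ^ 3 * E ^ 7) := by ring
      _ ≤ 4 * (s ^ 3 * E ^ 8) := by linarith only [this]
      _ = _ := by ring
  have a6 : (2 * (s * E ^ 2)) ^ 3 * E ^ 2 = 8 * s ^ 3 * E ^ 8 := by ring
  rw [a6] at a4
  linarith only [a5, a4, a3]

theorem exp_rem {t : ℝ} : |Real.exp t - 1 - t| ≤ t ^ 2 * Real.exp |t| := by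
  have h0 : 0 ≤ Real.exp t - 1 - t := by linarith [Real.add_one_le_exp t]
  rw [abs_of_nonneg h0]
  have h1 : Real.exp t - 1 - t ≤ t * (Real.exp t - 1) := by
    have h2 := Real.add_one_le_exp (-t)
    have h3 : Real.exp (-t) * Real.exp t = 1 := by rw [← Real.exp_add]; simp
    have h4 := Real.exp_pos t
    linarith only [h3, mul_nonneg (sub_nonneg.2 h2) (le_of_lt (sub_pos.2 h4))]
  calc Real.exp t - 1 - t ≤ t * (Real.exp t - 1) := h1
    _ ≤ |t| * |Real.exp t - 1| := by rw [← abs_mul]; exact le_abs_self _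
    _ ≤ |t| * (|t| * Real.exp |t|) := mul_le_mul_of_nonneg_left (abs_exp_sub_one_le' t) (abs_nonneg _)
    _ = _ := by rw [← mul_assoc, ← pow_two, sq_abs]

section abs

variable {X : Type*} [Fintype X] {m : ℕ} {δ R0 : ℝ} {V : X → Fin m → ℝ}

theorem continuous_mlk (w : X → ℝ) (V : X → Fin m → ℝ) (δ : ℝ) : Continuous (mlk w V δ) := by
  unfold mlk
  exact continuous_finsetSum _ fun x _ => continuous_const.mul (continuous_lk _ _)

theorem mlk_le (hδ : 0 ≤ δ) (hδ1 : δ ≤ 1) (hR : 0 ≤ R0) (hV : ∀ x k, |V x k| ≤ R0) {ν : X → ℝ}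
    (h0 : ∀ x, 0 ≤ ν x) (h1 : ∑ x, ν x = 1) (g : Fin m → ℝ) :
    mlk ν V δ g ≤ Real.exp (Bd1 m R0 g) := by
  unfold mlk
  calc ∑ x, ν x * lk δ (V x) g ≤ ∑ x, ν x * Real.exp (Bd1 m R0 g) :=
        Finset.sum_le_sum fun x _ => mul_le_mul_of_nonneg_left (lk_le hδ hδ1 hR (hV x) g) (h0 x)
    _ = _ := by rw [← Finset.sum_mul, h1, one_mul]

theorem le_mlk (hδ : 0 ≤ δ) (hδ1 : δ ≤ 1) (hR : 0 ≤ R0) (hV : ∀ x k, |V x k| ≤ R0) {ν : X → ℝ}
    (h0 : ∀ x, 0 ≤ ν x) (h1 : ∑ x, ν x = 1) (g : Fin m → ℝ) :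
    Real.exp (-Bd1 m R0 g) ≤ mlk ν V δ g := by
  unfold mlk
  calc Real.exp (-Bd1 m R0 g) = ∑ x, ν x * Real.exp (-Bd1 m R0 g) := by
        rw [← Finset.sum_mul, h1, one_mul]
    _ ≤ _ := Finset.sum_le_sum fun x _ => mul_le_mul_of_nonneg_left (le_lk hδ hδ1 hR (hV x) g) (h0 x)

theorem abs_mlk_sub_one (hδ : 0 ≤ δ) (hδ1 : δ ≤ 1) (hR : 0 ≤ R0) (hV : ∀ x k, |V x k| ≤ R0)
    {ν : X → ℝ} (h0 : ∀ x, 0 ≤ ν x) (h1 : ∑ x, ν x = 1) (g : Fin m → ℝ) :
    |mlk ν V δ g - 1| ≤ √δ * Real.exp (2 * Bd1 m R0 g) := by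
  have e : mlk ν V δ g - 1 = ∑ x, ν x * (lk δ (V x) g - 1) := by
    unfold mlk
    simp_rw [mul_sub, mul_one]
    rw [Finset.sum_sub_distrib, h1]
  rw [e]
  calc |∑ x, ν x * (lk δ (V x) g - 1)| ≤ ∑ x, |ν x * (lk δ (V x) g - 1)| :=
        Finset.abs_sum_le_sum_abs _ _
    _ ≤ ∑ x, ν x * (√δ * Real.exp (2 * Bd1 m R0 g)) := by
        refine Finset.sum_le_sum fun x _ => ?_
        rw [abs_mul, abs_of_nonneg (h0 x)]
        exact mul_le_mul_of_nonneg_left (abs_lk_sub_one hδ hδ1 hR (hV x) g) (h0 x)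
    _ = _ := by rw [← Finset.sum_mul, h1, one_mul]

theorem abs_log_mlk (hδ : 0 ≤ δ) (hδ1 : δ ≤ 1) (hR : 0 ≤ R0) (hV : ∀ x k, |V x k| ≤ R0)
    {ν : X → ℝ} (h0 : ∀ x, 0 ≤ ν x) (h1 : ∑ x, ν x = 1) (g : Fin m → ℝ) :
    |Real.log (mlk ν V δ g)| ≤ Bd1 m R0 g := by
  have a := le_mlk hδ hδ1 hR hV h0 h1 g
  have b := mlk_le hδ hδ1 hR hV h0 h1 g
  have hp : 0 < mlk ν V δ g := (Real.exp_pos _).trans_le a
  rw [abs_le]
  constructor
  · rwa [Real.le_log_iff_exp_le hp]
  · rwa [Real.log_le_iff_le_exp hp]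

theorem eg1_lk (hδ : 0 ≤ δ) (hδ1 : δ ≤ 1) (hR : 0 ≤ R0) {v : Fin m → ℝ} (hv : ∀ k, |v k| ≤ R0) :
    EG1 (lk δ v) :=
  eg1_mono (eg1_exp_Bd1 1 R0) fun g => by
    rw [abs_of_pos (lk_pos _ _ _), abs_of_pos (Real.exp_pos _), one_mul]
    exact lk_le hδ hδ1 hR hv g

theorem eg1_mlk (hδ : 0 ≤ δ) (hδ1 : δ ≤ 1) (hR : 0 ≤ R0) (hV : ∀ x k, |V x k| ≤ R0) (w : X → ℝ) :
    EG1 (mlk w V δ) := by
  have : EG1 fun g => ∑ x ∈ Finset.univ, w x * lk δ (V x) g :=
    eg1_sum _ fun x _ => eg1_cmul (eg1_lk hδ hδ1 hR (hV x)) _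
  exact this

theorem eg1_log_mlk (hδ : 0 ≤ δ) (hδ1 : δ ≤ 1) (hR : 0 ≤ R0) (hV : ∀ x k, |V x k| ≤ R0)
    {ν : X → ℝ} (h0 : ∀ x, 0 ≤ ν x) (h1 : ∑ x, ν x = 1) :
    EG1 fun g => Real.log (mlk ν V δ g) :=
  eg1_mono (eg1_exp_Bd1 1 R0) fun g => by
    rw [abs_of_pos (Real.exp_pos _), one_mul]
    refine (abs_log_mlk hδ hδ1 hR hV h0 h1 g).trans ?_
    linarith [Real.add_one_le_exp (Bd1 m R0 g)]

/-- second moment of a difference of marginal likelihoods -/
theorem integral_mlk_sq (hδ : 0 ≤ δ) (hδ1 : δ ≤ 1) (hR : 0 ≤ R0) (hV : ∀ x k, |V x k| ≤ R0)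
    (w : X → ℝ) :
    ∫ g, mlk w V δ g ^ 2 ∂(gsn m) =
      ∑ x, ∑ y, w x * w y * Real.exp (δ * ∑ k, V x k * V y k) := by
  have e : ∀ g, mlk w V δ g ^ 2 = ∑ x, ∑ y, w x * w y * (lk δ (V x) g * lk δ (V y) g) := by
    intro g
    unfold mlk
    rw [pow_two, Finset.sum_mul_sum]
    refine Finset.sum_congr rfl fun x _ => Finset.sum_congr rfl fun y _ => ?_
    ring
  have hI : ∀ x y, Integrable (fun g => lk δ (V x) g * lk δ (V y) g) (gsn m) := fun x y =>
    (eg1_mul (eg1_lk hδ hδ1 hR (hV x)) (eg1_lk hδ hδ1 hR (hV y))).integrable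
      ((continuous_lk δ (V x)).mul (continuous_lk δ (V y))).aestronglyMeasurable
  simp_rw [e]
  rw [integral_finsetSum _ fun x _ => integrable_finsetSum _ fun y _ => (hI x y).const_mul _]
  refine Finset.sum_congr rfl fun x _ => ?_
  rw [integral_finsetSum _ fun y _ => (hI x y).const_mul _]
  refine Finset.sum_congr rfl fun y _ => ?_
  rw [integral_const_mul, integral_lk_lk hδ]

theorem sum_exp_le (hδ : 0 ≤ δ) (hδ1 : δ ≤ 1) (hR : 0 ≤ R0) (hV : ∀ x k, |V x k| ≤ R0)
    {w : X → ℝ} (hw0 : ∑ x, w x = 0) (hw1 : ∑ x, |w x| ≤ 2) :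
    ∑ x, ∑ y, w x * w y * Real.exp (δ * ∑ k, V x k * V y k) ≤
      δ * ∑ k, (∑ x, w x * V x k) ^ 2
        + 4 * ((m * R0 ^ 2) ^ 2 * Real.exp (m * R0 ^ 2)) * (δ * √δ) := by
  set M : ℝ := m * R0 ^ 2 with hM
  have hM0 : 0 ≤ M := by (clear * -; positivity)
  have hb : ∀ x y, |∑ k, V x k * V y k| ≤ M := by
    intro x y
    refine (Finset.abs_sum_le_sum_abs _ _).trans ?_
    calc ∑ k, |V x k * V y k| ≤ ∑ _k : Fin m, R0 * R0 := by
          refine Finset.sum_le_sum fun k _ => ?_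
          rw [abs_mul]
          exact mul_le_mul (hV x k) (hV y k) (abs_nonneg _) hR
      _ = M := by rw [hM, Finset.sum_const, Finset.card_univ, Fintype.card_fin, nsmul_eq_mul]; ring
  have hs : δ ^ 2 ≤ δ * √δ := by
    have h1 : √δ ≤ 1 := Real.sqrt_le_one.2 hδ1
    have h2 : δ ≤ √δ := by (by_contra nlg; linarith only [mul_pos (sub_pos.2 (not_le.1 nlg)) (sub_pos.2 (not_le.1 nlg)), mul_nonneg (le_of_lt (sub_pos.2 (not_le.1 nlg))) (sub_nonneg.2 (Real.sqrt_nonneg δ)), mul_nonneg (sub_nonneg.2 hδ) (sub_nonneg.2 hδ1), mul_eq_zero_of_left (sub_eq_zero.2 (Real.mul_self_sqrt hδ)) (1 - (√δ)), mul_eq_zero_of_left (sub_eq_zero.2 (Real.mul_self_sqrt hδ)) (√δ - (0))])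
    linarith only [mul_nonneg (sub_nonneg.2 hδ) (sub_nonneg.2 h2)]
  have hrem : ∀ x y, |Real.exp (δ * ∑ k, V x k * V y k) - 1 - δ * ∑ k, V x k * V y k|
      ≤ (M ^ 2 * Real.exp M) * (δ * √δ) := by
    intro x y
    have ht : |δ * ∑ k, V x k * V y k| ≤ δ * M := by
      rw [abs_mul, abs_of_nonneg hδ]
      exact mul_le_mul_of_nonneg_left (hb x y) hδ
    have ht1 : |δ * ∑ k, V x k * V y k| ≤ M := ht.trans (by linarith only [mul_nonneg (sub_nonneg.2 hδ1) (sub_nonneg.2 hM0)])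
    refine exp_rem.trans ?_
    have h1 : (δ * ∑ k, V x k * V y k) ^ 2 ≤ (δ * M) ^ 2 := by
      rw [← sq_abs]; exact pow_le_pow_left₀ (abs_nonneg _) ht 2
    calc (δ * ∑ k, V x k * V y k) ^ 2 * Real.exp |δ * ∑ k, V x k * V y k|
        ≤ (δ * M) ^ 2 * Real.exp M :=
          mul_le_mul h1 (Real.exp_le_exp.2 ht1) (Real.exp_pos _).le (by (clear * -; positivity))
      _ = (M ^ 2 * Real.exp M) * δ ^ 2 := by ring
      _ ≤ _ := mul_le_mul_of_nonneg_left hs (by (clear * -; positivity))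
  have e0 : ∑ x, ∑ y, w x * w y * 1 = 0 := by
    simp_rw [mul_one]
    rw [← Finset.sum_mul_sum, hw0, zero_mul]
  have e1 : ∑ x, ∑ y, w x * w y * (δ * ∑ k, V x k * V y k)
      = δ * ∑ k, (∑ x, w x * V x k) ^ 2 := by
    have : ∀ k, (∑ x, w x * V x k) ^ 2 = ∑ x, ∑ y, w x * w y * (V x k * V y k) := by
      intro k
      rw [pow_two, Finset.sum_mul_sum]
      refine Finset.sum_congr rfl fun x _ => Finset.sum_congr rfl fun y _ => ?_
      ring
    simp_rw [this]
    rw [Finset.mul_sum]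
    simp_rw [Finset.mul_sum]
    rw [Finset.sum_comm]
    conv_rhs => rw [Finset.sum_comm]
    rw [Finset.sum_comm]
    refine Finset.sum_congr rfl fun x _ => ?_
    rw [Finset.sum_comm]
    refine Finset.sum_congr rfl fun k _ => Finset.sum_congr rfl fun y _ => ?_
    ring
  have e2 : ∑ x, ∑ y, w x * w y * Real.exp (δ * ∑ k, V x k * V y k)
      = ∑ x, ∑ y, w x * w y * 1 + ∑ x, ∑ y, w x * w y * (δ * ∑ k, V x k * V y k)
        + ∑ x, ∑ y, w x * w y *
          (Real.exp (δ * ∑ k, V x k * V y k) - 1 - δ * ∑ k, V x k * V y k) := by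
    rw [← Finset.sum_add_distrib, ← Finset.sum_add_distrib]
    refine Finset.sum_congr rfl fun x _ => ?_
    rw [← Finset.sum_add_distrib, ← Finset.sum_add_distrib]
    refine Finset.sum_congr rfl fun y _ => ?_
    ring
  rw [e2, e0, e1, zero_add]
  refine add_le_add le_rfl ?_
  set D := (M ^ 2 * Real.exp M) * (δ * √δ) with hD
  have hD0 : 0 ≤ D := by (clear * - hδ; positivity)
  calc ∑ x, ∑ y, w x * w y * (Real.exp (δ * ∑ k, V x k * V y k) - 1 - δ * ∑ k, V x k * V y k)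
      ≤ ∑ x, ∑ y, |w x| * |w y| * D := by
        refine Finset.sum_le_sum fun x _ => Finset.sum_le_sum fun y _ => ?_
        refine (le_abs_self _).trans ?_
        rw [abs_mul, abs_mul]
        exact mul_le_mul_of_nonneg_left (hrem x y) (by (clear * -; positivity))
    _ = (∑ x, |w x|) * (∑ y, |w y|) * D := by
        rw [Finset.sum_mul_sum, Finset.sum_mul]
        refine Finset.sum_congr rfl fun x _ => ?_
        rw [Finset.sum_mul]
    _ ≤ 4 * D := by
        have h0 : 0 ≤ ∑ x, |w x| := Finset.sum_nonneg fun x _ => abs_nonneg _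
        have : (∑ x, |w x|) * (∑ y, |w y|) ≤ 4 := by linarith only [mul_nonneg (sub_nonneg.2 hw1) (sub_nonneg.2 hw1), mul_nonneg (sub_nonneg.2 hw1) (sub_nonneg.2 h0)]
        exact mul_le_mul_of_nonneg_right this hD0
    _ = _ := by rw [hD]; ring

/-- relative entropy of two mixtures, abstract form -/
theorem kl_two (hδ : 0 ≤ δ) (hδ1 : δ ≤ 1) (hR : 0 ≤ R0) (hV : ∀ x k, |V x k| ≤ R0)
    {ν μ : X → ℝ} (hν0 : ∀ x, 0 ≤ ν x) (hν1 : ∑ x, ν x = 1) (hμ0 : ∀ x, 0 ≤ μ x)
    (hμ1 : ∑ x, μ x = 1) :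
    ∫ g, mlk ν V δ g * (Real.log (mlk ν V δ g) - Real.log (mlk μ V δ g)) ∂(gsn m) ≤
      δ / 2 * ∑ k, (∑ x, (ν x - μ x) * V x k) ^ 2
        + (2 * ((m * R0 ^ 2) ^ 2 * Real.exp (m * R0 ^ 2)) + 6 * KB1 m 8 R0) * (δ * √δ) := by
  set w : X → ℝ := fun x => ν x - μ x with hw
  have hmw : ∀ g, mlk ν V δ g - mlk μ V δ g = mlk w V δ g := by
    intro g
    unfold mlk
    rw [← Finset.sum_sub_distrib]
    refine Finset.sum_congr rfl fun x _ => ?_
    rw [hw]; ring
  have cν := continuous_mlk ν V δ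
  have cμ := continuous_mlk μ V δ
  have cw := continuous_mlk w V δ
  have pν := fun g => (Real.exp_pos _).trans_le (le_mlk hδ hδ1 hR hV hν0 hν1 g)
  have pμ := fun g => (Real.exp_pos _).trans_le (le_mlk hδ hδ1 hR hV hμ0 hμ1 g)
  -- integrability
  have iw : Integrable (mlk w V δ) (gsn m) :=
    (eg1_mlk hδ hδ1 hR hV w).integrable cw.aestronglyMeasurable
  have iw2 : Integrable (fun g => mlk w V δ g ^ 2) (gsn m) := by
    have := (eg1_mul (eg1_mlk hδ hδ1 hR hV w) (eg1_mlk hδ hδ1 hR hV w)).integrable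
      (cw.mul cw).aestronglyMeasurable
    refine this.congr (Eventually.of_forall fun g => ?_)
    simp only; ring
  have iE := integrable_exp_Bd1 (m := m) 8 R0
  have cl : Continuous fun g =>
      mlk ν V δ g * (Real.log (mlk ν V δ g) - Real.log (mlk μ V δ g)) :=
    cν.mul ((cν.log fun g => (pν g).ne').sub (cμ.log fun g => (pμ g).ne'))
  have il : Integrable (fun g =>
      mlk ν V δ g * (Real.log (mlk ν V δ g) - Real.log (mlk μ V δ g))) (gsn m) := by
    have h1 := eg1_log_mlk hδ hδ1 hR hV hν0 hν1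
    have h2 := eg1_cmul (eg1_log_mlk hδ hδ1 hR hV hμ0 hμ1) (-1)
    have h3 := eg1_mul (eg1_mlk hδ hδ1 hR hV ν) (eg1_add h1 h2)
    refine (h3.integrable ?_).congr (Eventually.of_forall fun g => ?_)
    · refine (cν.mul ((cν.log fun g => (pν g).ne').add
        (continuous_const.mul (cμ.log fun g => (pμ g).ne')))).aestronglyMeasurable
    · simp only; ring
  -- pointwise bound
  have hpt : ∀ g, mlk ν V δ g * (Real.log (mlk ν V δ g) - Real.log (mlk μ V δ g)) ≤
      mlk w V δ g + mlk w V δ g ^ 2 / 2 + 6 * (δ * √δ) * Real.exp (8 * Bd1 m R0 g) := by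
    intro g
    have hB := Bd1_nonneg hR g
    have e2 : Real.exp (2 * Bd1 m R0 g) = Real.exp (Bd1 m R0 g) ^ 2 := by
      rw [← Real.exp_nat_mul]; norm_num
    have e8 : Real.exp (8 * Bd1 m R0 g) = Real.exp (Bd1 m R0 g) ^ 8 := by
      rw [← Real.exp_nat_mul]; norm_num
    have h1 := abs_mlk_sub_one hδ hδ1 hR hV hν0 hν1 g
    have h2 := abs_mlk_sub_one hδ hδ1 hR hV hμ0 hμ1 g
    have h3 := le_mlk hδ hδ1 hR hV hμ0 hμ1 g
    rw [e2] at h1 h2
    rw [Real.exp_neg] at h3
    have := pw_le (pν g) (Real.sqrt_nonneg δ) (Real.one_le_exp hB) h1 h2 h3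
    rw [hmw g] at this
    have e3 : √δ ^ 3 = δ * √δ := by
      rw [pow_succ, Real.sq_sqrt hδ]
    rw [e3] at this
    rw [e8]
    exact this
  have hmain : ∫ g, mlk ν V δ g * (Real.log (mlk ν V δ g) - Real.log (mlk μ V δ g)) ∂(gsn m) ≤
      ∫ g, (mlk w V δ g + mlk w V δ g ^ 2 / 2
        + 6 * (δ * √δ) * Real.exp (8 * Bd1 m R0 g)) ∂(gsn m) :=
    integral_mono il ((iw.add (iw2.div_const 2)).add (iE.const_mul (6 * (δ * √δ)))) hpt
  refine hmain.trans ?_
  have i1 : ∫ g, mlk w V δ g ∂(gsn m) = 0 := by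
    have hI : ∀ x, Integrable (lk δ (V x)) (gsn m) := fun x =>
      (eg1_lk hδ hδ1 hR (hV x)).integrable (continuous_lk δ (V x)).aestronglyMeasurable
    have e : ∫ g, mlk w V δ g ∂(gsn m) = ∑ x, w x * ∫ g, lk δ (V x) g ∂(gsn m) := by
      unfold mlk
      rw [integral_finsetSum _ fun x _ => (hI x).const_mul _]
      refine Finset.sum_congr rfl fun x _ => ?_
      rw [integral_const_mul]
    rw [e]
    simp_rw [integral_lk_one hδ, mul_one, hw]
    rw [Finset.sum_sub_distrib, hν1, hμ1, sub_self]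
  have hw0 : ∑ x, w x = 0 := by
    rw [hw, Finset.sum_sub_distrib, hν1, hμ1, sub_self]
  have hw1 : ∑ x, |w x| ≤ 2 := by
    calc ∑ x, |w x| ≤ ∑ x, (ν x + μ x) := by
          refine Finset.sum_le_sum fun x _ => ?_
          rw [hw]
          refine (abs_sub _ _).trans ?_
          rw [abs_of_nonneg (hν0 x), abs_of_nonneg (hμ0 x)]
      _ = 2 := by rw [Finset.sum_add_distrib, hν1, hμ1]; norm_num
  have i2 := sum_exp_le hδ hδ1 hR hV hw0 hw1
  rw [← integral_mlk_sq hδ hδ1 hR hV w] at i2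
  have i3 : ∫ g, (mlk w V δ g + mlk w V δ g ^ 2 / 2
      + 6 * (δ * √δ) * Real.exp (8 * Bd1 m R0 g)) ∂(gsn m)
      = ∫ g, mlk w V δ g ∂(gsn m) + (∫ g, mlk w V δ g ^ 2 ∂(gsn m)) / 2
        + 6 * (δ * √δ) * KB1 m 8 R0 := by
    have q1 := integral_add (iw.add (iw2.div_const 2)) (iE.const_mul (6 * (δ * √δ)))
    have q2 := integral_add iw (iw2.div_const 2)
    simp only [Pi.add_apply] at q1 q2
    rw [q1, q2, integral_const_mul, integral_div]
    rfl
  have e5 : ∑ k, (∑ x, (ν x - μ x) * V x k) ^ 2 = ∑ k, (∑ x, w x * V x k) ^ 2 := rfl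
  rw [i3, i1, e5]
  linarith only [i2]

end abs

theorem mulVec_mean {n m : ℕ} (R : Matrix (Fin n) (Fin m) ℝ) (ν μ : Cfg n → ℝ) (k : Fin m) :
    Rᵀ.mulVec (fun i => mean ν i - mean μ i) k = ∑ x, (ν x - μ x) * chv R x k := by
  unfold chv mean Matrix.mulVec dotProduct
  simp_rw [Finset.mul_sum, ← Finset.sum_sub_distrib, Finset.mul_sum]
  rw [Finset.sum_comm]
  refine Finset.sum_congr rfl fun x _ => Finset.sum_congr rfl fun i _ => ?_
  ring

theorem qf_RRt {n m : ℕ} (R : Matrix (Fin n) (Fin m) ℝ) (v : Vec n) :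
    qf (R * Rᵀ) v = ∑ k, Rᵀ.mulVec v k ^ 2 := by
  have h1 : qf (R * Rᵀ) v = v ⬝ᵥ (R * Rᵀ).mulVec v := rfl
  rw [h1, ← Matrix.mulVec_mulVec, Matrix.dotProduct_mulVec, ← Matrix.mulVec_transpose]
  unfold dotProduct
  apply Finset.sum_congr rfl; intro k _; ring

/-- integrability of the log-ratio under the channel -/
theorem integrable_lk_log {n m : ℕ} {δ R0 : ℝ} (hδ : 0 ≤ δ) (hδ1 : δ ≤ 1) (hR : 0 ≤ R0)
    {V : Cfg n → Fin m → ℝ} (hV : ∀ x k, |V x k| ≤ R0) {ν μ : Cfg n → ℝ} (hν : IsProb ν)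
    (hμ : IsProb μ) (x : Cfg n) :
    Integrable (fun g => lk δ (V x) g *
      (Real.log (mlk ν V δ g) - Real.log (mlk μ V δ g))) (gsn m) := by
  have pν := fun g => mlk_pos (m := m) hν.1 hν.2 V δ g
  have pμ := fun g => mlk_pos (m := m) hμ.1 hμ.2 V δ g
  have h1 := eg1_log_mlk hδ hδ1 hR hV hν.1 hν.2
  have h2 := eg1_cmul (eg1_log_mlk hδ hδ1 hR hV hμ.1 hμ.2) (-1)
  have h3 := eg1_mul (eg1_lk hδ hδ1 hR (hV x)) (eg1_add h1 h2)
  have hc : Continuous fun g => lk δ (V x) g *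
      (Real.log (mlk ν V δ g) + -1 * Real.log (mlk μ V δ g)) :=
    (continuous_lk δ (V x)).mul
      (((continuous_mlk ν V δ).log fun g => (pν g).ne').add
        (continuous_const.mul ((continuous_mlk μ V δ).log fun g => (pμ g).ne')))
  refine (h3.integrable hc.aestronglyMeasurable).congr (Eventually.of_forall fun g => ?_)
  simp only
  ring

end CH4pp

open CH4pp

theorem thCH4'' : CH4'' := by
  intro n m C
  refine ⟨2 * ((m * (n * |C|) ^ 2) ^ 2 * Real.exp (m * (n * |C|) ^ 2)) + 6 * KB1 m 8 (n * |C|),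
    ?_, ?_⟩
  · exact add_nonneg (by positivity) (mul_nonneg (by norm_num) (KB1_nonneg m 8 _))
  intro R hR δ hδ hδ1 ν μ hν hμ
  have hR00 : (0 : ℝ) ≤ n * |C| := by positivity
  have hV : ∀ x k, |chv R x k| ≤ n * |C| := fun x k =>
    abs_sg (fun i j => (hR i j).trans (le_abs_self C)) x k
  have h0 := EC_label ν R hδ
    (fun z => Real.log (evd ν (R * Rᵀ) δ z) - Real.log (evd μ (R * Rᵀ) δ z)) (fun x => by
      simp only [evd_lb]
      exact integrable_lk_log hδ hδ1 hR00 hV hν hμ x)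
  simp only [evd_lb] at h0
  have h1 := kl_two hδ hδ1 hR00 hV hν.1 hν.2 hμ.1 hμ.2
  have h2 : ∑ k, (∑ x, (ν x - μ x) * chv R x k) ^ 2
      = qf (R * Rᵀ) (fun i => mean ν i - mean μ i) := by
    rw [qf_RRt]
    simp only [mulVec_mean]
  rw [h2] at h1
  exact h0.trans_le h1

end Vale.Agent.P150.F
end

section

/-! Module D3M (entropy), part (A): the semigroup property of the Gaussian channel and the
telescoped entropy inequality along the path. -/

open MeasureTheory ProbabilityTheory Filter Topology Real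
open scoped Matrix NNReal

namespace Vale.Agent.P150.F

variable {n m : ℕ}

/-! ### sums of independent Gaussians -/

/-- a linear combination of two independent standard Gaussians -/
theorem dp_mp1 (a b : ℝ) : MeasurePreserving (fun p : ℝ × ℝ => a * p.1 + b * p.2)
    ((gaussianReal 0 1).prod (gaussianReal 0 1))
    (gaussianReal 0 (⟨a ^ 2, sq_nonneg a⟩ + ⟨b ^ 2, sq_nonneg b⟩)) := by
  refine ⟨by fun_prop, ?_⟩
  have h1 := gaussianReal_map_const_mul (μ := 0) (v := 1) a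
  have h2 := gaussianReal_map_const_mul (μ := 0) (v := 1) b
  rw [mul_zero, mul_one] at h1 h2
  have e : (fun p : ℝ × ℝ => a * p.1 + b * p.2)
      = (fun p : ℝ × ℝ => p.1 + p.2) ∘ Prod.map (fun x => a * x) (fun x => b * x) := rfl
  rw [e, ← Measure.map_map (by fun_prop) (by fun_prop),
    ← Measure.map_prod_map _ _ (by fun_prop) (by fun_prop), h1, h2]
  have h3 := gaussianReal_conv_gaussianReal (m₁ := 0) (m₂ := 0) (v₁ := ⟨a ^ 2, sq_nonneg a⟩)
    (v₂ := ⟨b ^ 2, sq_nonneg b⟩)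
  rw [add_zero] at h3
  rw [← h3]
  rfl

/-- a multiple of a standard Gaussian -/
theorem dp_mp2 (c : ℝ) : MeasurePreserving (fun x : ℝ => c * x) (gaussianReal 0 1)
    (gaussianReal 0 ⟨c ^ 2, sq_nonneg c⟩) := by
  refine ⟨by fun_prop, ?_⟩
  have h1 := gaussianReal_map_const_mul (μ := 0) (v := 1) c
  rwa [mul_zero, mul_one] at h1

/-- two independent Gaussian vectors -/
theorem dp_integral_two {a b c : ℝ} (h : a ^ 2 + b ^ 2 = c ^ 2) {F : (Fin m → ℝ) → ℝ}
    (hF : Measurable F) {C : ℝ} (hb : ∀ g, |F g| ≤ C) :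
    ∫ ξ, ∫ ξ', F (fun k => a * ξ k + b * ξ' k) ∂(gpi (Fin m)) ∂(gpi (Fin m))
      = ∫ ζ, F (fun k => c * ζ k) ∂(gpi (Fin m)) := by
  set v : ℝ≥0 := ⟨a ^ 2, sq_nonneg a⟩ + ⟨b ^ 2, sq_nonneg b⟩ with hv
  have hvc : v = ⟨c ^ 2, sq_nonneg c⟩ := by
    apply NNReal.eq
    exact h
  have hm2 : Measurable fun p : (Fin m → ℝ) × (Fin m → ℝ) => fun k => a * p.1 k + b * p.2 k := by
    fun_prop
  rw [integral_integral (f := fun ξ ξ' : Fin m → ℝ => F (fun k => a * ξ k + b * ξ' k))]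
  · have e1 := (measurePreserving_arrowProdEquivProdArrow ℝ ℝ (Fin m)
      (fun _ => gaussianReal 0 1) (fun _ => gaussianReal 0 1))
    have e2 := measurePreserving_pi (fun _ : Fin m => (gaussianReal 0 1).prod (gaussianReal 0 1))
      (fun _ : Fin m => gaussianReal 0 v) (fun _ => dp_mp1 a b)
    have e3 := measurePreserving_pi (fun _ : Fin m => gaussianReal 0 1)
      (fun _ : Fin m => gaussianReal 0 v) (fun _ => hvc ▸ dp_mp2 c)
    have g1 : ∫ p, F (fun k => a * p.1 k + b * p.2 k)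
        ∂((gpi (Fin m)).prod (gpi (Fin m)))
        = ∫ w : Fin m → ℝ × ℝ, F (fun k => a * (w k).1 + b * (w k).2)
          ∂(Measure.pi fun _ : Fin m => (gaussianReal 0 1).prod (gaussianReal 0 1)) := by
      rw [← e1.map_eq, integral_map e1.measurable.aemeasurable]
      · rfl
      · exact (hF.comp hm2).aestronglyMeasurable
    have g2 : ∫ w : Fin m → ℝ × ℝ, F (fun k => a * (w k).1 + b * (w k).2)
          ∂(Measure.pi fun _ : Fin m => (gaussianReal 0 1).prod (gaussianReal 0 1))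
        = ∫ w, F w ∂(Measure.pi fun _ : Fin m => gaussianReal 0 v) := by
      rw [← e2.map_eq, integral_map e2.measurable.aemeasurable hF.aestronglyMeasurable]
    have g3 : ∫ ζ, F (fun k => c * ζ k) ∂(gpi (Fin m))
        = ∫ w, F w ∂(Measure.pi fun _ : Fin m => gaussianReal 0 v) := by
      rw [← e3.map_eq, integral_map e3.measurable.aemeasurable hF.aestronglyMeasurable]
    rw [g1, g2, g3]
  · refine Integrable.mono' (integrable_const C) (hF.comp hm2).aestronglyMeasurable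
      (Eventually.of_forall fun p => ?_)
    exact hb _

/-! ### semigroup property -/

theorem dp_obs_add (R : Matrix (Fin n) (Fin m) ℝ) (s δ : ℝ) (x : Cfg n) (ξ ξ' : Fin m → ℝ) :
    obs R s x ξ + obs R δ x ξ'
      = fun i => (s + δ) * (R * Rᵀ).mulVec (sv x) i
        + R.mulVec (fun k => √s * ξ k + √δ * ξ' k) i := by
  funext i
  have e : R.mulVec (fun k => √s * ξ k + √δ * ξ' k) i
      = √s * R.mulVec ξ i + √δ * R.mulVec ξ' i := by
    unfold Matrix.mulVec dotProduct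
    rw [Finset.mul_sum, Finset.mul_sum, ← Finset.sum_add_distrib]
    apply Finset.sum_congr rfl
    intro k _
    ring
  rw [e]
  unfold obs
  simp only [Pi.add_apply]
  ring

theorem dp_obs_one (R : Matrix (Fin n) (Fin m) ℝ) (s : ℝ) (x : Cfg n) (ζ : Fin m → ℝ) :
    (fun i => s * (R * Rᵀ).mulVec (sv x) i + R.mulVec (fun k => √s * ζ k) i) = obs R s x ζ := by
  funext i
  have e : R.mulVec (fun k => √s * ζ k) i = √s * R.mulVec ζ i := by
    unfold Matrix.mulVec dotProduct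
    rw [Finset.mul_sum]
    apply Finset.sum_congr rfl
    intro k _
    ring
  rw [e]
  rfl

/-- two observations in a row (signal fixed) -/
theorem dp_integral_obs_obs (R : Matrix (Fin n) (Fin m) ℝ) {s δ : ℝ} (hs : 0 ≤ s) (hδ : 0 ≤ δ)
    (x : Cfg n) {Φ : Vec n → ℝ} (hΦ : Measurable Φ) {C : ℝ} (hb : ∀ z, |Φ z| ≤ C) :
    ∫ ξ, ∫ ξ', Φ (obs R s x ξ + obs R δ x ξ') ∂(gpi (Fin m)) ∂(gpi (Fin m))
      = ∫ ζ, Φ (obs R (s + δ) x ζ) ∂(gpi (Fin m)) := by
  simp_rw [dp_obs_add, ← dp_obs_one R (s + δ) x]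
  have hm : Measurable fun g : Fin m → ℝ => fun i => (s + δ) * (R * Rᵀ).mulVec (sv x) i
      + R.mulVec g i := by
    unfold Matrix.mulVec dotProduct
    fun_prop
  exact dp_integral_two (F := fun g => Φ fun i => (s + δ) * (R * Rᵀ).mulVec (sv x) i
    + R.mulVec g i) (by rw [Real.sq_sqrt hs, Real.sq_sqrt hδ, Real.sq_sqrt (by linarith only [hδ, hs])])
    (hΦ.comp hm) fun g => hb _

/-- the posterior of the posterior -/
theorem pst_pst {ν : Cfg n → ℝ} (hν : IsProb ν) (Q : Mat n) (s δ : ℝ) (z z' : Vec n) :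
    pst (pst ν Q s z) Q δ z' = pst ν Q (s + δ) (z + z') := by
  have hE := (evd_pos hν Q s z).ne'
  have key : ∀ x, pst ν Q s z x * Real.exp (ip z' (sv x) - δ / 2 * qf Q (sv x))
      = ν x * Real.exp (ip (z + z') (sv x) - (s + δ) / 2 * qf Q (sv x)) / evd ν Q s z := by
    intro x
    rw [pst_eq, div_mul_eq_mul_div, mul_assoc, ← Real.exp_add]
    congr 3
    have : ip (z + z') (sv x) = ip z (sv x) + ip z' (sv x) := by
      unfold ip
      rw [← Finset.sum_add_distrib]
      apply Finset.sum_congr rfl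
      intro i _
      simp only [Pi.add_apply]
      ring
    rw [this]
    ring
  funext x
  have e : evd (pst ν Q s z) Q δ z' = evd ν Q (s + δ) (z + z') / evd ν Q s z := by
    unfold evd at *
    simp_rw [key]
    rw [Finset.sum_div]
  rw [pst_eq (pst ν Q s z), key x, e, pst_eq]
  have hE' := (evd_pos hν Q (s + δ) (z + z')).ne'
  field_simp

theorem dp_meas_inner (R : Matrix (Fin n) (Fin m) ℝ) (δ : ℝ) (x : Cfg n) {Φ : Vec n → ℝ}
    (hΦ : Measurable Φ) :
    Measurable fun z : Vec n => ∫ ξ', Φ (z + obs R δ x ξ') ∂(gpi (Fin m)) := by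
  have hm : Measurable fun p : Vec n × (Fin m → ℝ) => Φ (p.1 + obs R δ x p.2) := by
    refine hΦ.comp ?_
    unfold obs Matrix.mulVec dotProduct
    fun_prop
  exact (hm.stronglyMeasurable.integral_prod_right').measurable

/-- **semigroup property of the channel** -/
theorem EC_comp {ν : Cfg n → ℝ} (hν : IsProb ν) (R : Matrix (Fin n) (Fin m) ℝ) {s δ : ℝ}
    (hs : 0 ≤ s) (hδ : 0 ≤ δ) {Φ : Vec n → ℝ} (hΦ : Measurable Φ) {C : ℝ} (hb : ∀ z, |Φ z| ≤ C) :
    EC ν R s (fun _ z => EC (pst ν (R * Rᵀ) s z) R δ (fun _ z' => Φ (z + z')))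
      = EC ν R (s + δ) (fun _ z => Φ z) := by
  have hI : ∀ x z, |∫ ξ', Φ (z + obs R δ x ξ') ∂(gpi (Fin m))| ≤ C := fun x z => by
    have := norm_integral_le_of_norm_le_const (μ := gpi (Fin m))
      (f := fun ξ' => Φ (z + obs R δ x ξ')) (Eventually.of_forall fun ξ' => hb _)
    simpa using this
  have h1 := thCH1 n m R s hs ν hν (fun x z => ∫ ξ', Φ (z + obs R δ x ξ') ∂(gpi (Fin m)))
    (fun x => integrable_obs_bdd R hs x (dp_meas_inner R δ x hΦ) (hI x))
  have e1 : EC ν R s (fun _ z => EC (pst ν (R * Rᵀ) s z) R δ (fun _ z' => Φ (z + z')))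
      = EC ν R s (fun _ z => ∑ x', pst ν (R * Rᵀ) s z x' *
        ∫ ξ', Φ (z + obs R δ x' ξ') ∂(gpi (Fin m))) := rfl
  rw [e1, ← h1]
  unfold EC
  apply Finset.sum_congr rfl
  intro x _
  rw [dp_integral_obs_obs R hs hδ x hΦ hb]

theorem obs_zero (R : Matrix (Fin n) (Fin m) ℝ) (x : Cfg n) (ξ : Fin m → ℝ) :
    obs R 0 x ξ = 0 := by
  funext i
  simp [obs]

theorem pst_zero {ν : Cfg n → ℝ} (hν : IsProb ν) (Q : Mat n) : pst ν Q 0 0 = ν := by
  funext x
  have : ∀ x' : Cfg n, ip 0 (sv x') = 0 := fun x' => by simp [ip]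
  unfold pst
  simp [this, hν.2]

theorem EC_zero {ν : Cfg n → ℝ} (hν : IsProb ν) (R : Matrix (Fin n) (Fin m) ℝ)
    (Φ : Vec n → ℝ) : EC ν R 0 (fun _ z => Φ z) = Φ 0 := by
  unfold EC
  simp only [obs_zero, integral_const, probReal_univ, smul_eq_mul, one_mul]
  rw [← Finset.sum_mul, hν.2, one_mul]

/-! ### entropy and energy of the posterior -/

theorem dp_abs_mul_log {t : ℝ} (h0 : 0 ≤ t) (h1 : t ≤ 1) : |t * Real.log t| ≤ 1 := by
  rcases h0.eq_or_lt with h | h
  · rw [← h]; simp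
  · rw [mul_comm]; exact (Real.abs_log_mul_self_lt t h h1).le

theorem dp_abs_HS {ν : Cfg n → ℝ} (hν : IsProb ν) : |HS ν| ≤ Fintype.card (Cfg n) := by
  unfold HS
  rw [abs_neg]
  refine (Finset.abs_sum_le_sum_abs _ _).trans ?_
  have : ∑ x : Cfg n, |ν x * Real.log (ν x)| ≤ ∑ _x : Cfg n, (1 : ℝ) := by
    apply Finset.sum_le_sum
    intro x _
    refine dp_abs_mul_log (hν.1 x) ?_
    rw [← hν.2]
    exact Finset.single_le_sum (fun y _ => hν.1 y) (Finset.mem_univ x)
  refine this.trans ?_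
  simp

theorem dp_meas_HS {ν : Cfg n → ℝ} (hν : IsProb ν) (Q : Mat n) (s : ℝ) :
    Measurable fun z => HS (pst ν Q s z) := by
  unfold HS
  refine (Finset.measurable_sum _ fun x _ => ?_).neg
  exact (measurable_pst hν Q s x).mul (measurable_pst hν Q s x).log

theorem dp_abs_mean {ν : Cfg n → ℝ} (hν : IsProb ν) (i : Fin n) : |mean ν i| ≤ 1 := by
  unfold mean
  refine (Finset.abs_sum_le_sum_abs _ _).trans ?_
  rw [← hν.2]
  apply Finset.sum_le_sum
  intro x _
  rw [abs_mul, abs_sv, mul_one, abs_of_nonneg (hν.1 x)]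

theorem dp_abs_covM {ν : Cfg n → ℝ} (hν : IsProb ν) (i j : Fin n) : |covM ν i j| ≤ 4 := by
  unfold covM
  refine (Finset.abs_sum_le_sum_abs _ _).trans ?_
  have h4 : ∑ x, ν x * (4 : ℝ) = 4 := by rw [← Finset.sum_mul, hν.2, one_mul]
  rw [← h4]
  apply Finset.sum_le_sum
  intro x _
  rw [abs_mul, abs_of_nonneg (hν.1 x)]
  apply mul_le_mul_of_nonneg_left _ (hν.1 x)
  rw [abs_mul]
  have h : ∀ k, |sv x k - mean ν k| ≤ 2 := fun k => by
    refine (abs_sub _ _).trans ?_
    have := dp_abs_mean hν k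
    rw [abs_sv]
    linarith only [this]
  linarith only [mul_nonneg (sub_nonneg.2 (h i)) (sub_nonneg.2 (abs_nonneg (sv x j - mean ν j))), mul_nonneg (sub_nonneg.2 (h j)) (sub_nonneg.2 (h j)), mul_nonneg (sub_nonneg.2 (h j)) (sub_nonneg.2 (abs_nonneg (sv x j - mean ν j)))]

theorem dp_abs_trQ (Q : Mat n) {ν : Cfg n → ℝ} (hν : IsProb ν) :
    |trQ Q ν| ≤ ∑ i, ∑ j, |Q i j| * 4 := by
  unfold trQ
  refine (Finset.abs_sum_le_sum_abs _ _).trans (Finset.sum_le_sum fun i _ => ?_)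
  rw [Matrix.mul_apply]
  refine (Finset.abs_sum_le_sum_abs _ _).trans (Finset.sum_le_sum fun j _ => ?_)
  rw [abs_mul]
  exact mul_le_mul_of_nonneg_left (dp_abs_covM hν _ _) (abs_nonneg _)

theorem dp_meas_trQ {ν : Cfg n → ℝ} (hν : IsProb ν) (Q : Mat n) (s : ℝ) :
    Measurable fun z => trQ Q (pst ν Q s z) := by
  have hm : ∀ i, Measurable fun z => mean (pst ν Q s z) i := fun i => by
    unfold mean
    exact Finset.measurable_sum _ fun x _ => (measurable_pst hν Q s x).mul_const _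
  have hc : ∀ i j, Measurable fun z => covM (pst ν Q s z) i j := fun i j => by
    unfold covM
    refine Finset.measurable_sum _ fun x _ => (measurable_pst hν Q s x).mul ?_
    exact (measurable_const.sub (hm i)).mul (measurable_const.sub (hm j))
  unfold trQ
  simp_rw [Matrix.mul_apply]
  exact Finset.measurable_sum _ fun i _ => Finset.measurable_sum _ fun j _ =>
    measurable_const.mul (hc j i)

/-! ### the chain -/

/-- one step of the entropy chain, averaged over the past label -/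
theorem dp_step {K : ℝ} {R : Matrix (Fin n) (Fin m) ℝ} {δ : ℝ} (hδ : 0 ≤ δ)
    (hK : ∀ ν : Cfg n → ℝ, IsProb ν →
      δ / 2 * (∑ i, (R * Rᵀ * covM ν) i i) - K * (δ * √δ)
        ≤ HS ν - EC ν R δ (fun _ z => HS (pst ν (R * Rᵀ) δ z)))
    {ν : Cfg n → ℝ} (hν : IsProb ν) {s : ℝ} (hs : 0 ≤ s) :
    δ / 2 * EC ν R s (fun _ z => trQ (R * Rᵀ) (pst ν (R * Rᵀ) s z))
        + EC ν R (s + δ) (fun _ z => HS (pst ν (R * Rᵀ) (s + δ) z))
      ≤ EC ν R s (fun _ z => HS (pst ν (R * Rᵀ) s z)) + K * (δ * √δ) := by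
  set Q := R * Rᵀ with hQ
  have hmH := dp_meas_HS hν Q (s + δ)
  have hbH : ∀ z, |HS (pst ν Q (s + δ) z)| ≤ Fintype.card (Cfg n) := fun z =>
    dp_abs_HS (pst_isProb hν _ _ _)
  -- the averaged next entropy
  have hcomp := EC_comp hν R hs hδ hmH hbH
  rw [← hcomp]
  -- the pointwise inequality
  have hpt : ∀ z, δ / 2 * trQ Q (pst ν Q s z)
      + EC (pst ν Q s z) R δ (fun _ z' => HS (pst ν Q (s + δ) (z + z')))
      ≤ HS (pst ν Q s z) + K * (δ * √δ) := fun z => by
    have h := hK (pst ν Q s z) (pst_isProb hν _ _ _)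
    have e : (fun (_ : Cfg n) z' => HS (pst (pst ν Q s z) Q δ z'))
        = fun _ z' => HS (pst ν Q (s + δ) (z + z')) := by
      funext _ z'
      rw [pst_pst hν]
    rw [e] at h
    unfold trQ
    linarith only [h]
  -- integrability
  have i1 : ∀ x, Integrable (fun ξ => trQ Q (pst ν Q s (obs R s x ξ))) (gpi (Fin m)) := fun x =>
    integrable_obs_bdd R hs x (dp_meas_trQ hν Q s) fun z => dp_abs_trQ Q (pst_isProb hν _ _ _)
  have mI : Measurable fun z => EC (pst ν Q s z) R δ (fun _ z' => HS (pst ν Q (s + δ) (z + z'))) := by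
    unfold EC
    exact Finset.measurable_sum _ fun x _ => (measurable_pst hν Q s x).mul
      (dp_meas_inner R δ x hmH)
  have bI : ∀ z, |EC (pst ν Q s z) R δ (fun _ z' => HS (pst ν Q (s + δ) (z + z')))|
      ≤ Fintype.card (Cfg n) := fun z => by
    have hp := pst_isProb hν Q s z
    unfold EC
    refine (Finset.abs_sum_le_sum_abs _ _).trans ?_
    have : ∑ x, pst ν Q s z x * (Fintype.card (Cfg n) : ℝ) = Fintype.card (Cfg n) := by
      rw [← Finset.sum_mul, hp.2, one_mul]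
    rw [← this]
    apply Finset.sum_le_sum
    intro x _
    rw [abs_mul, abs_of_nonneg (hp.1 x)]
    apply mul_le_mul_of_nonneg_left _ (hp.1 x)
    have := norm_integral_le_of_norm_le_const (μ := gpi (Fin m))
      (f := fun ξ' => HS (pst ν Q (s + δ) (z + obs R δ x ξ'))) (Eventually.of_forall fun ξ' => hbH _)
    simpa using this
  have i2 : ∀ x, Integrable (fun ξ => EC (pst ν Q s (obs R s x ξ)) R δ
      (fun _ z' => HS (pst ν Q (s + δ) (obs R s x ξ + z')))) (gpi (Fin m)) := fun x =>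
    integrable_obs_bdd R hs x mI bI
  have i3 : ∀ x, Integrable (fun ξ => HS (pst ν Q s (obs R s x ξ))) (gpi (Fin m)) := fun x =>
    integrable_obs_bdd R hs x (dp_meas_HS hν Q s) fun z => dp_abs_HS (pst_isProb hν _ _ _)
  have h1 := EC_mono hν.1 R s
    (Φ := fun _ z => δ / 2 * trQ Q (pst ν Q s z)
      + EC (pst ν Q s z) R δ (fun _ z' => HS (pst ν Q (s + δ) (z + z'))))
    (Ψ := fun _ z => HS (pst ν Q s z) + K * (δ * √δ))
    (fun x => ((i1 x).const_mul _).add (i2 x)) (fun x => (i3 x).add (integrable_const _))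
    (fun _ z => hpt z)
  rw [EC_add R s (Φ := fun _ z => δ / 2 * trQ Q (pst ν Q s z))
      (Ψ := fun _ z => EC (pst ν Q s z) R δ (fun _ z' => HS (pst ν Q (s + δ) (z + z'))))
      (fun x => (i1 x).const_mul _) i2,
    EC_add R s (Φ := fun _ z => HS (pst ν Q s z)) (Ψ := fun _ _ => K * (δ * √δ)) i3
      (fun x => integrable_const _), EC_const hν.2] at h1
  rw [EC_const_mul ν R s (δ / 2) (fun _ z => trQ Q (pst ν Q s z))] at h1
  exact h1

/-- **the entropy chain**: `N` steps of length `δ` -/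
theorem dp_chain {K : ℝ} {R : Matrix (Fin n) (Fin m) ℝ} {δ : ℝ} (hδ : 0 ≤ δ)
    (hK : ∀ ν : Cfg n → ℝ, IsProb ν →
      δ / 2 * (∑ i, (R * Rᵀ * covM ν) i i) - K * (δ * √δ)
        ≤ HS ν - EC ν R δ (fun _ z => HS (pst ν (R * Rᵀ) δ z)))
    {ν : Cfg n → ℝ} (hν : IsProb ν) (N : ℕ) :
    (∑ j ∈ Finset.range N,
        δ / 2 * EC ν R (j * δ) (fun _ z => trQ (R * Rᵀ) (pst ν (R * Rᵀ) (j * δ) z)))
      + EC ν R (N * δ) (fun _ z => HS (pst ν (R * Rᵀ) (N * δ) z))
      ≤ HS ν + N * (K * (δ * √δ)) := by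
  induction N with
  | zero =>
    have h0 : EC ν R 0 (fun _ z => HS (pst ν (R * Rᵀ) 0 z)) = HS ν := by
      rw [EC_zero hν R (fun z => HS (pst ν (R * Rᵀ) 0 z)), pst_zero hν]
    simp [h0]
  | succ N ih =>
    rw [Finset.sum_range_succ]
    have hs : (0 : ℝ) ≤ N * δ := by (clear * - hδ; positivity)
    have h := dp_step hδ hK hν hs
    have e : ((N + 1 : ℕ) : ℝ) * δ = N * δ + δ := by push_cast; ring
    rw [e]
    push_cast
    linarith

/-- **(A)**: the entropy along the path `[0, s]`, uniform form -/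
theorem entropy_path (h3 : CH3) (n m : ℕ) (C s : ℝ) (hs0 : 0 ≤ s) (ε : ℝ) (hε : 0 < ε) :
    ∃ N0 : ℕ, ∀ N : ℕ, N0 ≤ N → 1 ≤ N → ∀ R : Matrix (Fin n) (Fin m) ℝ, (∀ i j, |R i j| ≤ C) →
      ∀ ν : Cfg n → ℝ, IsProb ν →
      (∑ j ∈ Finset.range N, s / N / 2 * EC ν R (j * (s / N))
          (fun _ z => trQ (R * Rᵀ) (pst ν (R * Rᵀ) (j * (s / N)) z)))
        + EC ν R s (fun _ z => HS (pst ν (R * Rᵀ) s z)) ≤ HS ν + ε := by
  obtain ⟨K, hK0, hK⟩ := h3 n m C
  have hlim : Tendsto (fun N : ℕ => K * (s * √(s * (1 / (N : ℝ))))) atTop (𝓝 0) := by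
    have h1 : Tendsto (fun N : ℕ => (1 : ℝ) / (N : ℝ)) atTop (𝓝 0) :=
      tendsto_one_div_atTop_nhds_zero_nat
    have h1' := h1.const_mul s
    rw [mul_zero] at h1'
    have h2 := (Real.continuous_sqrt.tendsto 0).comp h1'
    rw [Real.sqrt_zero] at h2
    have h3 := (h2.const_mul s).const_mul K
    rw [mul_zero, mul_zero] at h3
    exact h3
  obtain ⟨N0, hN0⟩ := (hlim.eventually (gt_mem_nhds hε)).exists_forall_of_atTop
  refine ⟨max N0 ⌈s⌉₊, fun N hN hNp R hR ν hν => ?_⟩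
  have hNp' : 0 < N := hNp
  have hN' : (0 : ℝ) < N := by exact_mod_cast hNp'
  have hδ0 : 0 ≤ s / N := by (clear * - hs0 hNp; positivity)
  have hδ1 : s / N ≤ 1 := by
    rw [div_le_one hN']
    exact (Nat.le_ceil s).trans (by exact_mod_cast (le_max_right _ _).trans hN)
  have h := dp_chain hδ0 (fun ν hν => hK R hR (s / N) hδ0 hδ1 ν hν) hν N
  have e : (N : ℝ) * (s / N) = s := by field_simp
  rw [e] at h
  have hb : (N : ℝ) * (K * (s / N * √(s / N))) = K * (s * √(s * (1 / (N : ℝ)))) := by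
    rw [mul_one_div]
    field_simp
  have := hN0 N ((le_max_left _ _).trans hN)
  linarith only [h, hb, this]

/-- D3M-1 from CH3 -/
theorem d3m1_of (h3 : CH3) : D3M1 := by
  intro n m R s hs ν hν ε hε
  obtain ⟨N0, hN0⟩ := entropy_path h3 n m (∑ i, ∑ j, |R i j|) s hs ε hε
  refine ⟨N0, fun N hN hN1 => hN0 N hN hN1 R (fun i j => ?_) ν hν⟩
  refine le_trans ?_ (Finset.single_le_sum (f := fun i => ∑ j, |R i j|)
    (fun i _ => Finset.sum_nonneg fun j _ => abs_nonneg _) (Finset.mem_univ i))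
  exact Finset.single_le_sum (f := fun j => |R i j|) (fun j _ => abs_nonneg _) (Finset.mem_univ j)

end Vale.Agent.P150.F
end

section

/-! P150 FULL, (O1) tracking, deterministic part 4: from the path of the concrete process to the
window hypotheses (helper739). -/

open MeasureTheory ProbabilityTheory Filter Topology
open scoped Matrix

namespace Vale.Agent.P150.F

variable {n : ℕ}

namespace Trk

variable {p : SPar n} {x : Cfg n} {ω : ℕ → Vec n} {P : ℕ → p.Ctr} {y m : ℕ → Vec n}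

/-- the couplings do not see the new centres -/
theorem AA_updC (k : ℕ) (Q : p.Ctr) (m : Vec n) : p.AA k (p.updC k Q m) = p.AA k Q := by
  unfold SPar.AA
  congr 1
  refine Finset.sum_congr rfl fun i _ => Finset.sum_congr rfl fun a _ => ?_
  by_cases h : k = i * (p.d + 1) * p.q
  · have h1 : p.th (i * (p.d + 1) + a) k = 0 := by
      refine p.th_eq_zero ?_
      rw [h]
      gcongr
      omega
    rw [h1, zero_mul, zero_smul, zero_smul]
  · have h1 : p.vd (p.updC k Q m) i a = p.vd Q i a := by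
      unfold SPar.vd SPar.ctr SPar.updC
      simp only [if_neg h]
    rw [h1]

/-- one step of the steering matrix -/
theorem AA_step (h : p.IsPath x ω P y m) {k : ℕ} (hk : k + 1 ≤ p.Nw * (p.d + 1) * p.q) :
    p.AA (k + 1) (P (k + 1)) = p.AA k (P k) + ∑ i : Fin p.Nw, ∑ a : Fin p.d,
      ((if k / p.q = i * (p.d + 1) + a then p.dl else 0) * p.Ks) •
        Matrix.vecMulVec (p.vd (P k) i a) (p.vd (P k) i a) := by
  rw [h.hP k, AA_updC]
  unfold SPar.AA
  rw [p.th_last_eq_zero hk, p.th_last_eq_zero (by omega : k ≤ _), sub_zero, one_smul, one_smul,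
    ← Finset.sum_add_distrib]
  refine Finset.sum_congr rfl fun i _ => ?_
  rw [← Finset.sum_add_distrib]
  refine Finset.sum_congr rfl fun a _ => ?_
  rw [← add_smul, p.th_succ, add_mul]

theorem AA_step_steer (h : p.IsPath x ω P y m) {k : ℕ} {i : Fin p.Nw} {a : Fin p.d}
    (hk : k / p.q = i * (p.d + 1) + a) :
    p.AA (k + 1) (P (k + 1)) = p.AA k (P k) + (p.dl * p.Ks) •
        Matrix.vecMulVec (p.vd (P k) i a) (p.vd (P k) i a) := by
  have hlt : k < p.Nw * (p.d + 1) * p.q := by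
    refine p.div_lt_Nw_iff.1 ?_
    rw [hk, p.idx_div a.2.le]
    exact i.2
  rw [AA_step h hlt]
  congr 1
  rw [Finset.sum_eq_single i, Finset.sum_eq_single a]
  · rw [if_pos hk]
  · intro b _ hb
    rw [if_neg, zero_mul, zero_smul]
    intro h4
    have := SPar.lp_inj (i := i) (i' := i) (a := b) (a' := a) b.2.le a.2.le (h4.symm.trans hk)
    exact hb (Fin.ext this.2)
  · simp
  · intro i' _ hi'
    refine Finset.sum_eq_zero fun b _ => ?_
    rw [if_neg, zero_mul, zero_smul]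
    intro h4
    have := SPar.lp_inj (i := i') (i' := i) (a := b) (a' := a) b.2.le a.2.le (h4.symm.trans hk)
    exact hi' this.1
  · simp

theorem AA_step_kill (h : p.IsPath x ω P y m) {k : ℕ} {i : Fin p.Nw}
    (hk : k / p.q = i * (p.d + 1) + p.d) :
    p.AA (k + 1) (P (k + 1)) = p.AA k (P k) := by
  have hlt : k < p.Nw * (p.d + 1) * p.q := by
    refine p.div_lt_Nw_iff.1 ?_
    rw [hk, p.idx_div le_rfl]
    exact i.2
  rw [AA_step h hlt, add_eq_left]
  refine Finset.sum_eq_zero fun i' _ => Finset.sum_eq_zero fun b _ => ?_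
  rw [if_neg, zero_mul, zero_smul]
  intro h4
  have := (SPar.lp_inj (i := i') (i' := i) (a := b) (a' := p.d) b.2.le le_rfl
    (h4.symm.trans hk)).2
  omega

theorem div_phase {f j : ℕ} (hj : j < p.q) : (f * p.q + j) / p.q = f := by
  rw [mul_comm, Nat.mul_add_div p.hq, Nat.div_eq_of_lt hj, add_zero]

theorem start_le (i : Fin p.Nw) (a j : ℕ) :
    (i : ℕ) * (p.d + 1) * p.q ≤ (i * (p.d + 1) + a) * p.q + j := by
  have : (i : ℕ) * (p.d + 1) * p.q ≤ (i * (p.d + 1) + a) * p.q := by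
    gcongr
    omega
  omega

/-- the noise of a phase before its start vanishes -/
theorem bS_start (v : Vec n) (i a : ℕ) :
    p.bS v ω i a ((i * (p.d + 1) + a) * p.q) = 0 := by
  unfold SPar.bS
  have : p.lvl (i * (p.d + 1) + a) ((i * (p.d + 1) + a) * p.q) = ∅ := by
    unfold SPar.lvl
    rw [Finset.filter_eq_empty_iff]
    intro j hj hj'
    rw [Finset.mem_range] at hj
    have h1 : (i * (p.d + 1) + a) * p.q ≤ j := by rw [← hj']; exact Nat.div_mul_le_self _ _
    omega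
  rw [this]
  simp [ip]

theorem bS_succ (v : Vec n) (i a k : ℕ) :
    p.bS v ω i a (k + 1) = p.bS v ω i a k
      + if k / p.q = i * (p.d + 1) + a then √p.Ks * ip v (√p.dl • ω k) else 0 := by
  unfold SPar.bS
  rw [p.lvl_succ]
  split_ifs with h
  · rw [Finset.sum_insert (p.not_mem_lvl _ k), ip_add_right]
    ring
  · ring

/-- the steering phases along a path -/
theorem steerPh (h : p.IsPath x ω P y m) (i : Fin p.Nw) (a : Fin p.d) {ε : ℝ}
    (hb : ∀ j ≤ p.q, |p.bS (p.vd (P ((i * (p.d + 1) + a) * p.q)) i a) ω i a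
      ((i * (p.d + 1) + a) * p.q + j)| ≤ ε * √n) :
    SteerPh p x P y (p.yJ x ω)
      (fun j => p.bS (p.vd (P ((i * (p.d + 1) + a) * p.q)) i a) ω i a
        ((i * (p.d + 1) + a) * p.q + j)) (i * (p.d + 1) + a) i a ε := by
  set f := (i : ℕ) * (p.d + 1) + a with hf
  have hq : (0 : ℝ) < p.q := by exact_mod_cast p.hq
  have hdiv : ∀ j < p.q, (f * p.q + j) / p.q = i * (p.d + 1) + a := fun j hj => div_phase hj
  have hnot : ∀ j < p.q, ¬ ∃ i' : Fin p.Nw, (f * p.q + j) / p.q = i' * (p.d + 1) + p.d := by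
    rintro j hj ⟨i', hi'⟩
    have := (SPar.lp_inj (i := i) (i' := i') (a := a) (a' := p.d) a.2.le le_rfl
      ((hdiv j hj).symm.trans hi')).2
    omega
  have hvd : ∀ j, p.vd (P (f * p.q + j)) i a = p.vd (P (f * p.q)) i a := fun j =>
    h.vd_eq i a (by simpa using start_le i a 0) (start_le i a j)
  refine ⟨?_, ?_, ?_, ?_, hb⟩
  · intro j
    induction j with
    | zero => intro _; rfl
    | succ j ih =>
      intro hj
      rw [← ih (by omega), ← add_assoc, p.rr_succ_not (hnot j (by omega))]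
  · intro j
    induction j with
    | zero => intro _; simp
    | succ j ih =>
      intro hj
      rw [← add_assoc, AA_step_steer h (hdiv j (by omega)), ih (by omega), hvd, add_assoc,
        ← add_smul]
      congr 2
      unfold SPar.dl
      push_cast
      ring
  · intro j
    induction j with
    | zero => intro _; rfl
    | succ j ih =>
      intro hj
      rw [← ih (by omega), ← add_assoc, p.yJ_succ_not (hnot j (by omega))]
  · intro j
    induction j with
    | zero =>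
      intro _
      simp only [add_zero]
      rw [bS_start]
      simp
    | succ j ih =>
      intro hj
      have h1 := h.hy (f * p.q + j)
      rw [p.obs_steer (hdiv j (by omega)), hvd] at h1
      rw [← add_assoc, h1, ih (by omega), add_assoc, ← add_smul]
      congr 2
      rw [bS_succ, if_pos (hdiv j (by omega))]
      unfold SPar.dl
      push_cast
      ring

/-- the parameter `r` during a killing phase -/
theorem rr_kill (i : Fin p.Nw) : ∀ j ≤ p.q, p.rr ((i * (p.d + 1) + p.d) * p.q + j)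
    = p.rr ((i * (p.d + 1) + p.d) * p.q) - j * (p.dl * p.τ) := by
  intro j
  induction j with
  | zero => intro _; simp
  | succ j ih =>
    intro hj
    rw [← add_assoc, p.rr_succ_kill (i := i) (div_phase (by omega)), ih (by omega)]
    push_cast
    ring

theorem yJ_sub (k k' : ℕ) : p.yJ x ω k' - p.yJ x ω k
    = (p.rr k - p.rr k') • (p.J + p.κ₀ • (1 : Mat n)).mulVec (sv x)
      + p.S0.mulVec (p.nJ ω k' - p.nJ ω k) := by
  unfold SPar.yJ
  rw [Matrix.mulVec_sub]
  funext i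
  simp only [Pi.sub_apply, Pi.add_apply, Pi.smul_apply, smul_eq_mul]
  ring

theorem nv_Qx : nv ((p.J + p.κ₀ • (1 : Mat n)).mulVec (sv x)) ≤ (3 + p.κ₀) * √n := by
  rw [Matrix.add_mulVec, Matrix.smul_mulVec, Matrix.one_mulVec]
  refine (nv_add_le _ _).trans ?_
  have h1 : nv (sv x) ≤ √n := nv_le_sqrt_n (ampM_abs_le (0 : Mat n) 0 0 x 0)
  have h2 := p.hJ3.nv_le (by norm_num) (sv x)
  rw [nv_smul, abs_of_nonneg p.hκ]
  have h3 := mul_le_mul_of_nonneg_left h1 p.hκ
  linarith [h3, h2, h1]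

theorem nv_yJ_sub {k k' : ℕ} {δ E : ℝ} (h1 : |p.rr k - p.rr k'| ≤ δ)
    (h2 : nv (p.S0.mulVec (p.nJ ω k' - p.nJ ω k)) ≤ E * √n) :
    nv (p.yJ x ω k' - p.yJ x ω k) ≤ (δ * (3 + p.κ₀) + E) * √n := by
  rw [yJ_sub]
  refine (nv_add_le _ _).trans ?_
  rw [nv_smul, add_mul]
  refine add_le_add ?_ h2
  have h3 := mul_le_mul h1 (nv_Qx (p := p) (x := x)) (nv_nonneg _) ((abs_nonneg _).trans h1)
  linarith

/-- the killing phases along a path -/
theorem killPh (h : p.IsPath x ω P y m) (i : Fin p.Nw) {Pm q' : ℕ} (hPm : Pm * q' = p.q)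
    {E E' : ℝ} (hJ : ∀ j ≤ p.q, nv (p.S0.mulVec (p.nJ ω ((i * (p.d + 1) + p.d) * p.q + j)
      - p.nJ ω ((i * (p.d + 1) + p.d) * p.q))) ≤ E * √n)
    (hJ' : ∀ l < Pm, nv (p.S0.mulVec (p.nJ ω ((i * (p.d + 1) + p.d) * p.q + (l + 1) * q')
      - p.nJ ω ((i * (p.d + 1) + p.d) * p.q + l * q'))) ≤ E' * √n) :
    KillPh p P y (p.yJ x ω) (i * (p.d + 1) + p.d) Pm q' p.τ (p.τ * (3 + p.κ₀) + E)
      (p.τ / Pm) (p.τ / Pm * (3 + p.κ₀) + E') := by
  have hq : (0 : ℝ) < p.q := by exact_mod_cast p.hq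
  have hτ := p.τ_nonneg
  have hdiv : ∀ j < p.q, ((i * (p.d + 1) + p.d) * p.q + j) / p.q = i * (p.d + 1) + p.d :=
    fun j hj => div_phase hj
  have hrr : ∀ j ≤ p.q, |p.rr ((i * (p.d + 1) + p.d) * p.q + j)
      - p.rr ((i * (p.d + 1) + p.d) * p.q)| ≤ p.τ := by
    intro j hj
    rw [rr_kill i j hj]
    have h1 : (j : ℝ) * p.dl ≤ 1 := by
      unfold SPar.dl
      rw [mul_one_div, div_le_one hq]
      exact_mod_cast hj
    have h2 : 0 ≤ (j : ℝ) * (p.dl * p.τ) :=
      mul_nonneg (Nat.cast_nonneg _) (mul_nonneg p.lp_dl_pos.le hτ)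
    rw [sub_sub_cancel_left, abs_neg, abs_of_nonneg h2, ← mul_assoc]
    exact mul_le_of_le_one_left hτ h1
  have hPm0 : (0 : ℝ) < Pm := by
    rcases Nat.eq_zero_or_pos Pm with h0 | h0
    · exfalso
      rw [h0, zero_mul] at hPm
      have := p.hq
      omega
    · exact_mod_cast h0
  have hrr' : ∀ l < Pm, |p.rr ((i * (p.d + 1) + p.d) * p.q + (l + 1) * q')
      - p.rr ((i * (p.d + 1) + p.d) * p.q + l * q')| ≤ p.τ / Pm := by
    intro l hl
    have h1 : (l + 1) * q' ≤ p.q := by rw [← hPm]; exact Nat.mul_le_mul_right _ hl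
    have h2 : l * q' ≤ p.q := by rw [← hPm]; exact Nat.mul_le_mul_right _ hl.le
    rw [rr_kill i _ h1, rr_kill i _ h2]
    have hq' : (p.q : ℝ) = Pm * q' := by exact_mod_cast hPm.symm
    have hq0' : (q' : ℝ) ≠ 0 := by
      intro h0
      rw [hq', h0, mul_zero] at hq
      exact lt_irrefl _ hq
    have e : p.rr ((i * (p.d + 1) + p.d) * p.q) - ((l + 1) * q' : ℕ) * (p.dl * p.τ)
        - (p.rr ((i * (p.d + 1) + p.d) * p.q) - (l * q' : ℕ) * (p.dl * p.τ))
        = -(p.τ / Pm) := by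
      unfold SPar.dl
      rw [hq']
      push_cast
      field_simp
      ring
    rw [e, abs_neg, abs_of_nonneg (div_nonneg hτ hPm0.le)]
  refine ⟨hPm, ?_, hrr, ?_, ?_, hrr', ?_⟩
  · intro j
    induction j with
    | zero => intro _; rfl
    | succ j ih =>
      intro hj
      rw [← ih (by omega), ← add_assoc, AA_step_kill h (hdiv j (by omega))]
  · intro j
    induction j with
    | zero => intro _; rfl
    | succ j ih =>
      intro hj
      rw [← ih (by omega), ← add_assoc,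
        p.yJ_succ_kill (hdiv j (by omega)) (P ((i * (p.d + 1) + p.d) * p.q + j)), h.hy]
      abel
  · intro j hj
    refine nv_yJ_sub ?_ (hJ j hj)
    rw [abs_sub_comm]
    exact hrr j hj
  · intro l hl
    refine nv_yJ_sub ?_ (hJ' l hl)
    rw [abs_sub_comm]
    exact hrr' l hl

/-- bound for the steering noises at all levels -/
theorem bS_le (h : p.IsPath x ω P y m) {ε : ℝ} (hε : 0 ≤ ε)
    (hb : ∀ (i : Fin p.Nw) (a : Fin p.d), ∀ j ≤ p.q,
      |p.bS (p.vd (P ((i * (p.d + 1) + a) * p.q)) i a) ω i a ((i * (p.d + 1) + a) * p.q + j)|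
        ≤ ε * √n) (i : Fin p.Nw) (a : Fin p.d) (k : ℕ) :
    |p.bS (p.vd (P k) i a) ω i a k| ≤ ε * √n := by
  set f := (i : ℕ) * (p.d + 1) + a with hf
  rcases le_or_gt k (f * p.q) with h1 | h1
  · have : p.bS (p.vd (P k) i a) ω i a k = 0 := by
      unfold SPar.bS
      have : p.lvl (i * (p.d + 1) + a) k = ∅ := by
        unfold SPar.lvl
        rw [Finset.filter_eq_empty_iff]
        intro j hj hj'
        rw [Finset.mem_range] at hj
        have h2 : f * p.q ≤ j := by rw [hf, ← hj']; exact Nat.div_mul_le_self _ _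
        omega
      rw [this]
      simp [ip]
    rw [this, abs_zero]
    (clear * - hε; positivity)
  · have hvd : p.vd (P k) i a = p.vd (P (f * p.q)) i a :=
      h.vd_eq i a (by simpa using start_le i a 0)
        ((by simpa using start_le i a 0 : (i : ℕ) * (p.d + 1) * p.q ≤ f * p.q).trans h1.le)
    rw [hvd]
    rcases le_or_gt k (f * p.q + p.q) with h2 | h2
    · obtain ⟨j, rfl⟩ := Nat.exists_eq_add_of_le h1.le
      exact hb i a j (by omega)
    · have : p.bS (p.vd (P (f * p.q)) i a) ω i a k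
          = p.bS (p.vd (P (f * p.q)) i a) ω i a (f * p.q + p.q) := by
        unfold SPar.bS
        have : p.lvl (i * (p.d + 1) + a) k = p.lvl (i * (p.d + 1) + a) (f * p.q + p.q) := by
          unfold SPar.lvl
          ext j
          simp only [Finset.mem_filter, Finset.mem_range]
          constructor
          · rintro ⟨h3, h4⟩
            refine ⟨?_, h4⟩
            have := Nat.lt_div_mul_add (a := j) p.hq
            rw [h4] at this
            exact this
          · rintro ⟨h3, h4⟩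
            exact ⟨by omega, h4⟩
        rw [this]
      rw [this]
      exact hb i a p.q le_rfl

/-- the static good event holds at the check levels -/
theorem chk_of_good (h : p.IsPath x ω P y m) {Pm q' K : ℕ} {e ε E E' : ℝ} (hε : 0 ≤ ε)
    (G : GoodEv p x ω P y Pm q' K e ε E E') {k : ℕ} (hk : p.IsChk Pm q' k)
    (hkN : k ≤ p.Nw * (p.d + 1) * p.q) :
    Chk p x P y (p.yJ x ω) K
      (7 * e + (p.Nw * p.d) * (p.Ks + 1) * ε * (1 + (p.Nw * p.d) * p.Ks * 7 ^ (K + 2)))
      (ε + 7 ^ (K + 2) * ((p.Nw * p.d) * (p.Ks + 1) * ε)) k := by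
  have hr := p.rr_mem k
  have hv : ∀ ia : Fin p.Nw × Fin p.d, nv (p.vd (P k) ia.1 ia.2) ≤ 1 := by
    intro ia
    refine nv_le_of_sq_le zero_le_one ?_
    rcases p.vd_sq_cases (P k) ia.1 ia.2 with h | h
    · rw [h]; simp [sq]
    · rw [h, one_pow]
  have hA : p.AA k (P k) = ∑ ia : Fin p.Nw × Fin p.d,
      (p.th (ia.1 * (p.d + 1) + ia.2) k * p.Ks) •
        Matrix.vecMulVec (p.vd (P k) ia.1 ia.2) (p.vd (P k) ia.1 ia.2) := by
    rw [Fintype.sum_prod_type]
    unfold SPar.AA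
    rw [p.th_last_eq_zero hkN, sub_zero, one_smul]
  have hy : y k = p.yJ x ω k + ∑ ia : Fin p.Nw × Fin p.d,
      (p.th (ia.1 * (p.d + 1) + ia.2) k * p.Ks * ip (p.vd (P k) ia.1 ia.2) (sv x)
        + p.bS (p.vd (P k) ia.1 ia.2) ω ia.1 ia.2 k) • p.vd (P k) ia.1 ia.2 := by
    rw [Fintype.sum_prod_type, h.y_eq hkN]
    rfl
  have h12 := G.t12 k hk
  have hst := static hr.1 (p.rr_le_one k) p.hJ3 x (p.yJ x ω k)
    (fun ia : Fin p.Nw × Fin p.d => p.th (ia.1 * (p.d + 1) + ia.2) k * p.Ks)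
    (fun ia => p.bS (p.vd (P k) ia.1 ia.2) ω ia.1 ia.2 k)
    (fun ia => p.vd (P k) ia.1 ia.2) (T := p.Ks) (ε := ε) (e := e) K p.hKs hε hv
    (fun ia => by
      rw [abs_of_nonneg (mul_nonneg (p.th_nonneg _ _) p.hKs)]
      exact mul_le_of_le_one_left p.hKs (p.th_le_one _ _))
    (fun ia => bS_le h hε G.noiseS ia.1 ia.2 k) hA rfl
    (fun ia j hj => by
      rw [← hy]
      exact G.t3 k hk ia.1 ia.2 j hj) h12.2 h12.1
  rw [← hy] at hst
  have hcard : (Fintype.card (Fin p.Nw × Fin p.d) : ℝ) = p.Nw * p.d := by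
    rw [Fintype.card_prod, Fintype.card_fin, Fintype.card_fin]
    push_cast
    ring
  rw [hcard] at hst
  exact ⟨hst.1, fun i a => hst.2 (i, a)⟩

end Trk

end Vale.Agent.P150.F
end

section

/-! P150 FULL, D6 tracking: maximal inequality for the noise in a fixed direction. -/

open MeasureTheory ProbabilityTheory Filter Topology Real
open scoped Matrix ENNReal

namespace Vale.Agent.P150.F

variable {n : ℕ}

/-- general maximal inequality for the noise walk: `V` is a nonnegative supermartingale which is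
at least one on the target sets. -/
theorem max_gen (N : ℕ) :
    ∀ (δ : ℕ → ℝ) (V : ℕ → Vec n → ℝ≥0∞) (B : ℕ → Set (Vec n)) (s : Vec n),
      (∀ j, MeasurableSet (B j)) → (∀ j ≤ N, ∀ s ∈ B j, 1 ≤ V j s) →
      (∀ j < N, ∀ s, ∫⁻ ξ, V (j + 1) (s + √(δ j) • ξ) ∂(gpi (Fin n)) ≤ V j s) →
      PN n {ω | ∃ t ≤ N, s + Wn δ ω t ∈ B t} ≤ V 0 s := by
  have hmeas : ∀ (δ : ℕ → ℝ) (B : ℕ → Set (Vec n)) (N : ℕ) (s : Vec n), (∀ j, MeasurableSet (B j)) →
      MeasurableSet {ω : ℕ → Vec n | ∃ t ≤ N, s + Wn δ ω t ∈ B t} := by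
    intro δ B N s hB
    have : {ω : ℕ → Vec n | ∃ t ≤ N, s + Wn δ ω t ∈ B t}
        = ⋃ t, ⋃ (_ : t ≤ N), {ω | s + Wn δ ω t ∈ B t} := by
      ext ω; simp
    rw [this]
    refine MeasurableSet.iUnion fun t => MeasurableSet.iUnion fun _ => ?_
    exact (measurable_const.add (measurable_Wn δ t)) (hB t)
  induction N with
  | zero =>
    intro δ V B s hB h1 h2
    by_cases hs : s ∈ B 0
    · exact prob_le_one.trans (h1 0 le_rfl s hs)
    · have : {ω : ℕ → Vec n | ∃ t ≤ 0, s + Wn δ ω t ∈ B t} = ∅ := by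
        ext ω
        simp only [Set.mem_ofPred_eq, Set.mem_empty_iff_false, iff_false, not_exists, not_and]
        intro t ht
        obtain rfl : t = 0 := by omega
        rw [Wn_zero, add_zero]
        exact hs
      rw [this]; simp
  | succ N ih =>
    intro δ V B s hB h1 h2
    by_cases hs : s ∈ B 0
    · exact prob_le_one.trans (h1 0 (Nat.zero_le _) s hs)
    · set E : Set (ℕ → Vec n) := {ω | ∃ t ≤ N + 1, s + Wn δ ω t ∈ B t} with hE
      set E' : Vec n → Set (ℕ → Vec n) := fun ξ =>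
        {ω | ∃ t ≤ N, (s + √(δ 0) • ξ) + Wn (fun j => δ (j + 1)) ω t ∈ B (t + 1)} with hE'
      have hpre : ∀ ξ ω, consS ξ ω ∈ E ↔ ω ∈ E' ξ := by
        intro ξ ω
        simp only [hE, hE', Set.mem_ofPred_eq]
        constructor
        · rintro ⟨t, ht, h⟩
          cases t with
          | zero => rw [Wn_zero, add_zero] at h; exact absurd h hs
          | succ t =>
            refine ⟨t, by omega, ?_⟩
            rw [Wn_consS, ← add_assoc] at h
            exact h
        · rintro ⟨t, ht, h⟩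
          refine ⟨t + 1, by omega, ?_⟩
          rw [Wn_consS, ← add_assoc]
          exact h
      have hm : MeasurableSet E := hmeas δ B (N + 1) s hB
      have hm' : ∀ ξ, MeasurableSet (E' ξ) := fun ξ =>
        hmeas (fun j => δ (j + 1)) (fun j => B (j + 1)) N (s + √(δ 0) • ξ) fun j => hB _
      have e1 : PN n E = ∫⁻ ω, E.indicator 1 ω ∂PN n := (lintegral_indicator_one hm).symm
      rw [e1, lintegral_consS (measurable_one.indicator hm)]
      refine (lintegral_mono fun ξ => ?_).trans (h2 0 (Nat.succ_pos _) s)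
      have e3 : ∀ ω, E.indicator (1 : (ℕ → Vec n) → ℝ≥0∞) (consS ξ ω) = (E' ξ).indicator 1 ω := by
        intro ω
        by_cases h : consS ξ ω ∈ E
        · rw [Set.indicator_of_mem h, Set.indicator_of_mem ((hpre ξ ω).1 h)]; rfl
        · rw [Set.indicator_of_notMem h, Set.indicator_of_notMem (fun h' => h ((hpre ξ ω).2 h'))]
      simp_rw [e3]
      rw [lintegral_indicator_one (hm' ξ)]
      exact ih (fun j => δ (j + 1)) (fun j => V (j + 1)) (fun j => B (j + 1)) (s + √(δ 0) • ξ)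
        (fun j => hB _) (fun j hj s hs => h1 (j + 1) (by omega) s hs)
        (fun j hj s => h2 (j + 1) (by omega) s)

/-- exponential moment of a linear functional -/
theorem lintegral_exp_ip (v : Vec n) :
    ∫⁻ ξ, ENNReal.ofReal (exp (ip v ξ)) ∂(gpi (Fin n)) = ENNReal.ofReal (exp (sq v / 2)) := by
  have hprod : ∀ ξ : Vec n, exp (ip v ξ) = ∏ i, exp (v i * ξ i) := by
    intro ξ; unfold ip; rw [exp_sum]
  have hi : ∀ i, Integrable (fun x => exp (v i * x)) (gaussianReal 0 1) :=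
    fun i => integrable_exp_mul_gaussianReal (v i)
  have hint : Integrable (fun ξ : Vec n => ∏ i, exp (v i * ξ i)) (gpi (Fin n)) :=
    Integrable.fintype_prod (μ := fun _ => gaussianReal 0 1) (f := fun i x => exp (v i * x)) hi
  simp_rw [hprod]
  rw [← ofReal_integral_eq_lintegral_ofReal hint
    (Eventually.of_forall fun ξ => Finset.prod_nonneg fun i _ => (exp_pos _).le)]
  congr 1
  have h := integral_fintype_prod_eq_prod (𝕜 := ℝ) (fun i (x : ℝ) => exp (v i * x))
    (μ := fun _ : Fin n => gaussianReal 0 1)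
  rw [h]
  have h2 : ∀ i, ∫ x, exp (v i * x) ∂(gaussianReal 0 1) = exp (v i ^ 2 / 2) := by
    intro i
    have h3 := mgf_gaussianReal (p := gaussianReal 0 1) (X := id) (μ := 0) (v := 1)
      (by rw [Measure.map_id]) (v i)
    simp only [mgf, id] at h3
    rw [h3]
    simp
  simp_rw [h2]
  rw [← exp_sum]
  congr 1
  unfold sq
  rw [Finset.sum_div]

theorem ip_add_smul (v s ξ : Vec n) (c : ℝ) : ip v (s + c • ξ) = ip v s + ip (c • v) ξ := by
  unfold ip
  rw [← Finset.sum_add_distrib]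
  refine Finset.sum_congr rfl fun i _ => ?_
  simp only [Pi.add_apply, Pi.smul_apply, smul_eq_mul]
  ring

theorem measurable_ip_right (v : Vec n) : Measurable fun s : Vec n => ip v s := by
  unfold ip
  exact Finset.measurable_fun_sum _ fun i _ => (measurable_pi_apply i).const_mul _

/-- one-sided maximal inequality for the noise in a fixed direction -/
theorem maxNoise_dir_one {v : Vec n} (hv : sq v ≤ 1) {δ : ℕ → ℝ} (hδ : ∀ j, 0 ≤ δ j) {N : ℕ}
    {τ b : ℝ} (hτ : 0 < τ) (hb : 0 ≤ b) (hsum : ∑ j ∈ Finset.range N, δ j ≤ τ) :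
    (PN n).real {ω | ∃ t ≤ N, b ≤ ip v (Wn δ ω t)} ≤ exp (-(b ^ 2 / (2 * τ))) := by
  set θ : ℝ := b / τ with hθ
  have hθ0 : 0 ≤ θ := div_nonneg hb hτ.le
  set V : ℕ → Vec n → ℝ≥0∞ := fun j s =>
    ENNReal.ofReal (exp (θ * ip v s - θ * b + θ ^ 2 / 2 * (τ - ∑ i ∈ Finset.range j, δ i))) with hV
  have hmono : ∀ j ≤ N, ∑ i ∈ Finset.range j, δ i ≤ τ := fun j hj =>
    (Finset.sum_le_sum_of_subset_of_nonneg (Finset.range_subset_range.2 hj)
      fun i _ _ => hδ i).trans hsum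
  have h := max_gen N δ V (fun _ => {s : Vec n | b ≤ ip v s}) 0
    (fun _ => measurableSet_le measurable_const (measurable_ip_right v)) ?_ ?_
  · have e1 : {ω | ∃ t ≤ N, (0 : Vec n) + Wn δ ω t ∈ {s : Vec n | b ≤ ip v s}}
        = {ω : ℕ → Vec n | ∃ t ≤ N, b ≤ ip v (Wn δ ω t)} := by
      simp only [zero_add, Set.mem_ofPred_eq]
    rw [e1] at h
    have e2 : V 0 0 = ENNReal.ofReal (exp (-(b ^ 2 / (2 * τ)))) := by
      simp only [hV, Finset.range_zero, Finset.sum_empty, sub_zero]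
      congr 2
      have : ip v (0 : Vec n) = 0 := by unfold ip; simp
      rw [this, hθ]
      field_simp
      ring
    rw [e2] at h
    exact ENNReal.toReal_le_of_le_ofReal (exp_pos _).le h
  · intro j hj s hs
    simp only [hV]
    rw [← ENNReal.ofReal_one]
    apply ENNReal.ofReal_le_ofReal
    rw [← exp_zero]
    apply exp_le_exp.2
    have h1 : θ * b ≤ θ * ip v s := mul_le_mul_of_nonneg_left hs hθ0
    have h2 : 0 ≤ θ ^ 2 / 2 * (τ - ∑ i ∈ Finset.range j, δ i) :=
      mul_nonneg (by (clear * -; positivity)) (by linarith only [hmono j hj])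
    linarith only [h2, h1]
  · intro j hj s
    simp only [hV]
    have e3 : ∀ ξ : Vec n, exp (θ * ip v (s + √(δ j) • ξ) - θ * b
        + θ ^ 2 / 2 * (τ - ∑ i ∈ Finset.range (j + 1), δ i))
        = exp (θ * ip v s - θ * b + θ ^ 2 / 2 * (τ - ∑ i ∈ Finset.range (j + 1), δ i))
          * exp (ip ((θ * √(δ j)) • v) ξ) := by
      intro ξ
      rw [← exp_add]
      congr 1
      rw [ip_add_smul]
      have : ip ((θ * √(δ j)) • v) ξ = θ * ip (√(δ j) • v) ξ := by
        unfold ip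
        rw [Finset.mul_sum]
        refine Finset.sum_congr rfl fun i _ => ?_
        simp only [Pi.smul_apply, smul_eq_mul]
        ring
      rw [this]
      ring
    have e4 : ∀ ξ : Vec n, ENNReal.ofReal (exp (θ * ip v (s + √(δ j) • ξ) - θ * b
        + θ ^ 2 / 2 * (τ - ∑ i ∈ Finset.range (j + 1), δ i)))
        = ENNReal.ofReal (exp (θ * ip v s - θ * b
            + θ ^ 2 / 2 * (τ - ∑ i ∈ Finset.range (j + 1), δ i)))
          * ENNReal.ofReal (exp (ip ((θ * √(δ j)) • v) ξ)) := by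
      intro ξ
      rw [e3 ξ, ENNReal.ofReal_mul (exp_pos _).le]
    simp_rw [e4]
    rw [lintegral_const_mul _ (by
      exact (ENNReal.measurable_ofReal.comp (Real.measurable_exp.comp (measurable_ip_right _)))),
      lintegral_exp_ip, ← ENNReal.ofReal_mul (exp_pos _).le, ← exp_add]
    apply ENNReal.ofReal_le_ofReal
    apply exp_le_exp.2
    have h5 : sq ((θ * √(δ j)) • v) = θ ^ 2 * δ j * sq v := by
      unfold sq
      rw [Finset.mul_sum]
      refine Finset.sum_congr rfl fun i _ => ?_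
      simp only [Pi.smul_apply, smul_eq_mul]
      rw [mul_pow, mul_pow, Real.sq_sqrt (hδ j)]
    rw [h5, Finset.sum_range_succ]
    have h6 : θ ^ 2 * δ j * sq v ≤ θ ^ 2 * δ j :=
      mul_le_of_le_one_right (mul_nonneg (sq_nonneg _) (hδ j)) hv
    linarith only [h6]

/-- two-sided maximal inequality for the noise in a fixed direction -/
theorem maxNoise_dir {v : Vec n} (hv : sq v ≤ 1) {δ : ℕ → ℝ} (hδ : ∀ j, 0 ≤ δ j) {N : ℕ}
    {τ b : ℝ} (hτ : 0 < τ) (hb : 0 ≤ b) (hsum : ∑ j ∈ Finset.range N, δ j ≤ τ) :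
    (PN n).real {ω | ∃ t ≤ N, b ≤ |ip v (Wn δ ω t)|} ≤ 2 * exp (-(b ^ 2 / (2 * τ))) := by
  have h1 := maxNoise_dir_one hv hδ hτ hb hsum
  have hv' : sq (-v) ≤ 1 := by
    have : sq (-v) = sq v := by unfold sq; simp
    rw [this]; exact hv
  have h2 := maxNoise_dir_one hv' hδ hτ hb hsum
  have hsub : {ω : ℕ → Vec n | ∃ t ≤ N, b ≤ |ip v (Wn δ ω t)|}
      ⊆ {ω | ∃ t ≤ N, b ≤ ip v (Wn δ ω t)} ∪ {ω | ∃ t ≤ N, b ≤ ip (-v) (Wn δ ω t)} := by
    rintro ω ⟨t, ht, hbt⟩
    have hneg : ip (-v) (Wn δ ω t) = - ip v (Wn δ ω t) := by unfold ip; simp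
    rcases le_abs.1 hbt with h | h
    · exact Or.inl ⟨t, ht, h⟩
    · exact Or.inr ⟨t, ht, by rw [hneg]; exact h⟩
  calc (PN n).real {ω | ∃ t ≤ N, b ≤ |ip v (Wn δ ω t)|}
      ≤ (PN n).real ({ω | ∃ t ≤ N, b ≤ ip v (Wn δ ω t)} ∪ {ω | ∃ t ≤ N, b ≤ ip (-v) (Wn δ ω t)}) :=
        measureReal_mono hsub (measure_ne_top _ _)
    _ ≤ _ := measureReal_union_le _ _
    _ ≤ _ := by linarith only [h1, h2]

end Vale.Agent.P150.F
end

section

/-! P150 FULL, D6 tracking: more forms of the maximal inequality (helper551). -/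

open MeasureTheory ProbabilityTheory Filter Topology Real
open scoped Matrix ENNReal

namespace Vale.Agent.P150.F

variable {n : ℕ}

theorem ip_Wn (v : Vec n) (δ : ℕ → ℝ) (ω : ℕ → Vec n) (t : ℕ) :
    ip v (Wn δ ω t) = ∑ j ∈ Finset.range t, √(δ j) * ip v (ω j) := by
  induction t with
  | zero => simp [ip]
  | succ t ih =>
    rw [Wn_succ, ip_add_smul, ih, Finset.sum_range_succ]
    congr 1
    unfold ip
    rw [Finset.mul_sum]
    refine Finset.sum_congr rfl fun i _ => ?_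
    simp only [Pi.smul_apply, smul_eq_mul]
    ring

/-- (P3') the steering noise -/
theorem maxNoise_ip {v : Vec n} (hv : sq v ≤ 1) {δ : ℕ → ℝ} (hδ : ∀ j, 0 ≤ δ j) {N : ℕ}
    {τ b : ℝ} (hτ : 0 < τ) (hb : 0 ≤ b) (hsum : ∑ j ∈ Finset.range N, δ j ≤ τ) :
    (PN n).real {ω | ∃ t ≤ N, b ≤ |∑ j ∈ Finset.range t, √(δ j) * ip v (ω j)|}
      ≤ 2 * exp (-(b ^ 2 / (2 * τ))) := by
  have h := maxNoise_dir hv hδ hτ hb hsum
  simp only [ip_Wn] at h
  exact h

theorem maxNoise_op_sh (k : ℕ) {R : Mat n} {C : ℝ} (hC : 0 < C) (hR : OpLe R C) {δ : ℕ → ℝ}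
    (hδ : ∀ j, 0 ≤ δ j) {N : ℕ} {τ A : ℝ} (hτ : 0 < τ) (hA : 0 ≤ A)
    (hsum : ∑ j ∈ Finset.range N, δ j ≤ τ) :
    (PN n).real {ω | ∃ t ≤ N, C ^ 2 * (A * n * τ) ≤ sq (R.mulVec (Wn δ (shS k ω) t))}
      ≤ exp (-((A / 4 - 1 / 2) * n)) := by
  refine le_trans (measureReal_mono ?_ (measure_ne_top _ _)) (maxNoise_vec_sh k hδ hτ hA hsum)
  rintro ω ⟨t, ht, h⟩
  exact ⟨t, ht, le_of_mul_le_mul_left (h.trans (hR _)) (by positivity)⟩

theorem maxNoise_op_nv_sh (k : ℕ) {R : Mat n} {C : ℝ} (hC : 0 < C) (hR : OpLe R C) {δ : ℕ → ℝ}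
    (hδ : ∀ j, 0 ≤ δ j) {N : ℕ} {τ A : ℝ} (hτ : 0 < τ) (hA : 0 ≤ A)
    (hsum : ∑ j ∈ Finset.range N, δ j ≤ τ) :
    (PN n).real {ω | ∃ t ≤ N, C * √(A * n * τ) ≤ nv (R.mulVec (Wn δ (shS k ω) t))}
      ≤ exp (-((A / 4 - 1 / 2) * n)) := by
  refine le_trans (measureReal_mono ?_ (measure_ne_top _ _)) (maxNoise_op_sh k hC hR hδ hτ hA hsum)
  rintro ω ⟨t, ht, h⟩
  refine ⟨t, ht, ?_⟩
  rw [← nv_sq]
  calc C ^ 2 * (A * n * τ) = (C * √(A * n * τ)) ^ 2 := by
        rw [mul_pow, Real.sq_sqrt (by (clear * - hA hτ; positivity))]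
    _ ≤ _ := pow_le_pow_left₀ (by (clear * - hC; positivity)) h 2

end Vale.Agent.P150.F
end

section

/-! P150 FULL, D6 (O1): noise events on the path space (helper551). -/

open MeasureTheory ProbabilityTheory Filter Topology Real
open scoped Matrix ENNReal

namespace Vale.Agent.P150.F

variable {n : ℕ} {S : Type} [MeasurableSpace S]

/-- an event of a state and of a noise path: the noise in the direction `v s` is large within the
first `N` steps -/
def EvDir (v : S → Vec n) (δ : ℕ → ℝ) (N : ℕ) (b : ℝ) (s : S) (ω : ℕ → Vec n) : Prop :=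
  ∃ t ≤ N, b ≤ |∑ j ∈ Finset.range t, √(δ j) * ip (v s) (ω j)|

theorem measurableSet_EvDir {v : S → Vec n} (hv : ∀ i, Measurable fun s => v s i) (δ : ℕ → ℝ)
    (N : ℕ) (b : ℝ) : MeasurableSet {p : S × (ℕ → Vec n) | EvDir v δ N b p.1 p.2} := by
  have : {p : S × (ℕ → Vec n) | EvDir v δ N b p.1 p.2}
      = ⋃ t, ⋃ (_ : t ≤ N), {p | b ≤ |∑ j ∈ Finset.range t, √(δ j) * ip (v p.1) (p.2 j)|} := by
    ext p; unfold EvDir; simp
  rw [this]
  refine MeasurableSet.iUnion fun t => MeasurableSet.iUnion fun _ => ?_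
  have hm : ∀ j, Measurable fun p : S × (ℕ → Vec n) => ip (v p.1) (p.2 j) := by
    intro j
    unfold ip
    refine Finset.measurable_fun_sum _ fun i _ => ?_
    exact ((hv i).comp measurable_fst).mul
      ((measurable_pi_apply i).comp ((measurable_pi_apply j).comp measurable_snd))
  have h2 : Measurable fun p : S × (ℕ → Vec n) =>
      ∑ j ∈ Finset.range t, √(δ j) * ip (v p.1) (p.2 j) :=
    Finset.measurable_fun_sum _ fun j _ => (hm j).const_mul _
  exact measurableSet_le measurable_const h2.abs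

/-- an event of a noise path: the noise, seen through the matrix `R`, is large within the first
`N` steps -/
def EvMat (R : Mat n) (δ : ℕ → ℝ) (N : ℕ) (b : ℝ) (ω : ℕ → Vec n) : Prop :=
  ∃ t ≤ N, b ≤ nv (R.mulVec (Wn δ ω t))

namespace Proc

variable (P : Proc n n S)

/-- the noise in a direction which depends on the state at the start of the phase -/
theorem PE_EvDir {v : S → Vec n} (hv : ∀ i, Measurable fun s => v s i) (hv1 : ∀ s, sq (v s) ≤ 1)
    {δ : ℕ → ℝ} (hδ : ∀ j, 0 ≤ δ j) {N : ℕ} {τ b : ℝ} (hτ : 0 < τ) (hb : 0 ≤ b)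
    (hsum : ∑ j ∈ Finset.range N, δ j ≤ τ) {μ : Cfg n → ℝ} (hμ : IsProb μ) (k : ℕ) (s : S) :
    PE μ (fun x ω => EvDir v δ N b (P.traj s x ω k) (shS k ω)) ≤ 2 * exp (-(b ^ 2 / (2 * τ))) :=
  P.PE_markov (E := EvDir v δ N b) (measurableSet_EvDir hv δ N b) (by positivity)
    (fun s => maxNoise_ip (hv1 s) hδ hτ hb hsum) hμ k s

end Proc

/-- the noise seen through a fixed matrix -/
theorem PE_EvMat {R : Mat n} {C : ℝ} (hC : 0 < C) (hR : OpLe R C) {δ : ℕ → ℝ}
    (hδ : ∀ j, 0 ≤ δ j) {N : ℕ} {τ A : ℝ} (hτ : 0 < τ) (hA : 0 ≤ A)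
    (hsum : ∑ j ∈ Finset.range N, δ j ≤ τ) {μ : Cfg n → ℝ} (hμ : IsProb μ) (k : ℕ) :
    PE μ (fun _ ω => EvMat R δ N (C * √(A * n * τ)) (shS k ω)) ≤ exp (-((A / 4 - 1 / 2) * n)) := by
  rw [PE_noise hμ]
  exact maxNoise_op_nv_sh k hC hR hδ hτ hA hsum

/-! ### the schedule -/

namespace SPar

variable (p : SPar n)

theorem en_dl_pos : 0 < p.dl := by
  unfold dl
  have : (0 : ℝ) < p.q := by exact_mod_cast p.hq
  positivity

theorem en_sum_dl : ∑ _j ∈ Finset.range p.q, p.dl ≤ 1 := by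
  rw [Finset.sum_const, Finset.card_range, nsmul_eq_mul]
  unfold dl
  have : (0 : ℝ) < p.q := by exact_mod_cast p.hq
  rw [mul_one_div, div_self this.ne']

theorem en_sq_vd_le (P : p.Ctr) (i : Fin p.Nw) (a : Fin p.d) : sq (p.vd P i a) ≤ 1 := by
  unfold vd
  rcases p.hdirs i (p.ctr P i) a with h | h
  · rw [h]; simp [sq]
  · exact h.le

/-- the steering noise of the phase `(i, a)` is large -/
def EvSt (cP : S → p.Ctr) (i : Fin p.Nw) (a : Fin p.d) (b : ℝ) (s : S) (ω : ℕ → Vec n) : Prop :=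
  ∃ t ≤ p.q, b ≤ |√p.dl * ∑ j ∈ Finset.range t, ip (p.vd (cP s) i a) (ω j)|

omit [MeasurableSpace S] in
theorem EvSt_iff (cP : S → p.Ctr) (i : Fin p.Nw) (a : Fin p.d) (b : ℝ) (s : S) (ω : ℕ → Vec n) :
    p.EvSt cP i a b s ω ↔ EvDir (fun s => p.vd (cP s) i a) (fun _ => p.dl) p.q b s ω := by
  unfold EvSt EvDir
  simp only [Finset.mul_sum]

/-- the steering noise of the phase `(i, a)` which starts at level `k` -/
theorem PE_EvSt (P : Proc n n S) (cP : S → p.Ctr) (hcP : Measurable cP) (i : Fin p.Nw)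
    (a : Fin p.d) {b : ℝ} (hb : 0 ≤ b) {μ : Cfg n → ℝ} (hμ : IsProb μ) (k : ℕ) (s : S) :
    PE μ (fun x ω => p.EvSt cP i a b (P.traj s x ω k) (shS k ω)) ≤ 2 * exp (-(b ^ 2 / 2)) := by
  simp only [EvSt_iff]
  have hm : ∀ j, Measurable fun s => p.vd (cP s) i a j := by
    intro j
    exact (measurable_of_countable fun P : p.Ctr => p.vd P i a j).comp hcP
  have h := P.PE_EvDir (v := fun s => p.vd (cP s) i a) hm (fun s => p.en_sq_vd_le _ i a)
    (δ := fun _ => p.dl) (fun _ => p.en_dl_pos.le) (N := p.q) one_pos hb p.en_sum_dl hμ k s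
  rwa [mul_one] at h

end SPar

end Vale.Agent.P150.F
end
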