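import Mathlib
import Vale.Agent.P150.Bdl.B35
import Vale.Agent.P150.Bdl.B30
import Vale.Agent.P150.Bdl.B1
import Vale.Agent.P150.Bdl.B37
import Vale.Agent.P150.Bdl.B38
import Vale.Agent.P150.Bdl.B25
import Vale.Agent.P150.Bdl.B34
import Vale.Agent.P150.Bdl.B12
import Vale.Agent.P150.Bdl.B28
import Vale.Agent.P150.Bdl.B24
import Vale.Agent.P150.Bdl.B13
import Vale.Agent.P150.Bdl.B36
import Vale.Agent.P150.Bdl.B31
import Vale.Agent.P150.Bdl.B29
import Vale.Agent.P150.Bdl.B32
import Vale.Agent.P150.Bdl.B33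
import Vale.Agent.P150.Bdl.B17
import Vale.Agent.P150.Bdl.B19
import Vale.Agent.P150.Bdl.B10

set_option linter.all false

section

open MeasureTheory ProbabilityTheory Filter Topology

namespace Vale.Agent.P150.MainThm

/-- two events of probability tending to one -/
lemma whp_inter {A B : (n : ℕ) → Set (Pairs n → ℝ)} (hA : WHP A) (hB : WHP B) :
    WHP (fun n => A n ∩ B n) := by
  unfold WHP at *
  have h := hA.add hB
  rw [add_zero] at h
  refine tendsto_of_tendsto_of_tendsto_of_le_of_le tendsto_const_nhds h (fun n => zero_le) ?_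
  intro n
  simp only [Set.compl_inter]
  exact measure_union_le _ _

lemma whp_mono {A B : (n : ℕ) → Set (Pairs n → ℝ)} (hA : WHP A)
    (h : ∀ᶠ n in atTop, A n ⊆ B n) : WHP B := by
  unfold WHP at *
  refine tendsto_of_tendsto_of_tendsto_of_le_of_le' tendsto_const_nhds hA
    (Eventually.of_forall fun n => zero_le) ?_
  filter_upwards [h] with n hn
  exact measure_mono (Set.compl_subset_compl.2 hn)

open Cav in
/-- low temperature: no fast mixing for `β > 1` -/
theorem low_slow (β : ℝ) (hβ : 1 < β) (a : ℕ → ℝ) (ha : Tendsto a atTop atTop) :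
    WHP (fun n => {g | gap (skJ β g) (fun _ => 0) ≤ a n / n ∧
      Real.log 2 * (n / a n) ≤ tmix (skJ β g) (fun _ => 0)}) := by
  obtain ⟨C, α, hC, hα, hT⟩ := overlap_tight β hβ
  -- smallness of the bad probability
  have hbad : Tendsto (fun n : ℕ => (disorder n).real {g | YY β g ≤ (a n)⁻¹}) atTop (𝓝 0) := by
    rw [Metric.tendsto_atTop]
    intro e he
    have h1 : Tendsto (fun ε : ℝ => C * ε ^ α) (𝓝[>] 0) (𝓝 0) := by
      have : Tendsto (fun ε : ℝ => C * ε ^ α) (𝓝 0) (𝓝 (C * 0 ^ α)) :=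
        (Real.continuousAt_rpow_const 0 α (Or.inr hα.le)).tendsto.const_mul C
      rw [Real.zero_rpow hα.ne', mul_zero] at this
      exact this.mono_left nhdsWithin_le_nhds
    have h2 : ∀ᶠ ε : ℝ in 𝓝[>] 0, C * ε ^ α < e := h1.eventually_lt_const he
    have h3 : ∀ᶠ ε : ℝ in 𝓝[>] 0, ε < 1 := by
      have : ∀ᶠ ε : ℝ in 𝓝 0, ε < 1 := gt_mem_nhds one_pos
      exact nhdsWithin_le_nhds this
    obtain ⟨ε, ⟨hε2, hε3⟩, hε0⟩ := ((h2.and h3).and self_mem_nhdsWithin).exists
    have hε0' : 0 < ε := hε0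
    have h4 := (hT ε hε0' hε3.le).and (ha.eventually_ge_atTop ε⁻¹)
    obtain ⟨N, hN⟩ := eventually_atTop.1 h4
    refine ⟨N, fun n hn => ?_⟩
    obtain ⟨h5, h6⟩ := hN n hn
    rw [Real.dist_eq, sub_zero, abs_of_nonneg measureReal_nonneg]
    refine lt_of_le_of_lt (measureReal_mono ?_) (lt_of_le_of_lt h5 hε2)
    intro g hg
    have hg' : YY β g ≤ (a n)⁻¹ := hg
    show YY β g ≤ ε
    refine hg'.trans ?_
    rw [inv_le_comm₀ (lt_of_lt_of_le (by positivity) h6) hε0']
    exact h6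
  have hbad2 : WHP (fun n => {g | YY β g ≤ (a n)⁻¹}ᶜ) := by
    unfold WHP
    simp only [compl_compl]
    have h := ENNReal.tendsto_ofReal hbad
    rw [ENNReal.ofReal_zero] at h
    refine h.congr fun n => ?_
    have : IsProbabilityMeasure (disorder n) := by unfold disorder; infer_instance
    exact ENNReal.ofReal_toReal (measure_ne_top _ _)
  refine whp_mono hbad2 ?_
  filter_upwards [eventually_gt_atTop 0, ha.eventually_gt_atTop 0] with n hn han
  intro g hg
  have hn' : (0 : ℝ) < n := by exact_mod_cast hn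
  have hY : (a n)⁻¹ < YY β g := not_le.1 hg
  have hJs : ∀ i j, skJ β g i j = skJ β g j i := by
    intro i j
    unfold skJ
    rw [gsym_symm]
  have h1 := gap_mul_YY_le hn β g
  have h2 := gap_pos hn hJs (fun _ => 0)
  have h3 : gap (skJ β g) (fun _ => 0) ≤ a n / n := by
    rw [le_div_iff₀ hn']
    have h4 : gap (skJ β g) (fun _ => 0) * n * (a n)⁻¹ ≤ 1 := by
      calc gap (skJ β g) (fun _ => 0) * n * (a n)⁻¹ ≤ gap (skJ β g) (fun _ => 0) * n * YY β g :=
            mul_le_mul_of_nonneg_left hY.le (by (clear * - h2 hn; positivity))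
        _ = gap (skJ β g) (fun _ => 0) * (n * YY β g) := by ring
        _ ≤ 1 := h1
    rw [← div_eq_mul_inv, div_le_one han] at h4
    exact h4
  refine ⟨h3, ?_⟩
  have h5 := tmix_ge hn hJs (fun _ => 0) (a := a n / n) (by positivity) h3
  refine le_trans (le_of_eq ?_) h5
  field_simp

end Vale.Agent.P150.MainThm
end

section

/-! Final assembly of the full `β < 1` theorem from the interface statements. -/

open MeasureTheory ProbabilityTheory Filter Topology

namespace Vale.Agent.P150.F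

/-- D8: the mixing time theorem in filter form. -/
def TmixStatement : Prop := ∀ (β : ℝ), 0 ≤ β → β < 1 →
  ∀ {I : Type} (F : Filter I) (n : I → ℕ) (J : ∀ i, Mat (n i)), Good β F n J →
    ∃ C > 0, ∀ᶠ i in F, ∀ t, C * Real.log (n i) ≤ t → ∀ x,
      tvDist (fun a b => β * J i a b) (fun _ => 0) t x ≤ 1 / 4

lemma skJ_eq {n : ℕ} (β : ℝ) (g : Pairs n → ℝ) :
    skJ β g = fun a b => β * skM g a b := by
  funext a b
  unfold skJ skM
  ring

/-- both orders for every `β < 1` -/
theorem high_full_of (hP : ProbStatement) (hG : GapStatement) (hT : TmixStatement)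
    (β : ℝ) (hβ0 : 0 ≤ β) (hβ : β < 1) :
    ∃ c C : ℝ, 0 < c ∧ 0 < C ∧ WHP (fun n => {g |
      c ≤ gap (skJ β g) (fun _ => 0) ∧ gap (skJ β g) (fun _ => 0) ≤ 1 ∧
      c * Real.log n ≤ tmix (skJ β g) (fun _ => 0) ∧
      tmix (skJ β g) (fun _ => 0) ≤ C * Real.log n ∧
      ∀ t, C * Real.log n ≤ t → ∀ x, tvDist (skJ β g) (fun _ => 0) t x ≤ 1 / 4}) := by
  have hgood := hP β hβ0 hβ
  obtain ⟨c1, hc1, h1⟩ := hG β hβ0 hβ whpF (fun i => i.1) (fun i => skM i.2) hgood
  obtain ⟨C, hC, h2⟩ := hT β hβ0 hβ whpF (fun i => i.1) (fun i => skM i.2) hgood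
  obtain ⟨c2, hc2, h3⟩ := log_lower β hβ0
  have h3' : ∀ᶠ i in whpF, c2 * Real.log i.1 ≤ tmix (skJ β i.2) (fun _ => 0) := h3
  have h4 : ∀ᶠ i in whpF, 1 ≤ i.1 := eventually_whpF_nat (eventually_ge_atTop 1)
  refine ⟨min c1 c2, C, lt_min hc1 hc2, hC, ?_⟩
  have key : ∀ᶠ i in whpF, min c1 c2 ≤ gap (skJ β i.2) (fun _ => 0) ∧
      gap (skJ β i.2) (fun _ => 0) ≤ 1 ∧
      min c1 c2 * Real.log i.1 ≤ tmix (skJ β i.2) (fun _ => 0) ∧
      tmix (skJ β i.2) (fun _ => 0) ≤ C * Real.log i.1 ∧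
      ∀ t, C * Real.log i.1 ≤ t → ∀ x, tvDist (skJ β i.2) (fun _ => 0) t x ≤ 1 / 4 := by
    filter_upwards [h1, h2, h3', h4] with i a1 a2 a3 a4
    have e : skJ β i.2 = fun a b => β * skM i.2 a b := skJ_eq β i.2
    have hlog : 0 ≤ Real.log i.1 := Real.log_natCast_nonneg _
    have a2' : ∀ t, C * Real.log i.1 ≤ t → ∀ x, tvDist (skJ β i.2) (fun _ => 0) t x ≤ 1 / 4 := by
      rw [e]; exact a2
    refine ⟨?_, ?_, ?_, ?_, a2'⟩
    · rw [e]; exact (min_le_left _ _).trans a1
    · refine gap_le_one a4 (fun a b => ?_)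
      simp only [skJ, gsym_comm]
    · exact (mul_le_mul_of_nonneg_right (min_le_right _ _) hlog).trans a3
    · unfold tmix
      refine csInf_le ⟨0, fun t ht => ht.1⟩ ⟨by (clear * - hC; positivity), a2' _ le_rfl⟩
  exact key

/-- The summary theorem. -/
theorem main_full_of (hP : ProbStatement) (hG : GapStatement) (hT : TmixStatement) :
    (∀ β : ℝ, 0 ≤ β → β < 1 → ∃ c C : ℝ, 0 < c ∧ 0 < C ∧ WHP (fun n => {g |
      c ≤ gap (skJ β g) (fun _ => 0) ∧ gap (skJ β g) (fun _ => 0) ≤ 1 ∧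
      c * Real.log n ≤ tmix (skJ β g) (fun _ => 0) ∧
      tmix (skJ β g) (fun _ => 0) ≤ C * Real.log n ∧
      ∀ t, C * Real.log n ≤ t → ∀ x, tvDist (skJ β g) (fun _ => 0) t x ≤ 1 / 4})) ∧
    (∀ β : ℝ, 0 ≤ β → ∃ c : ℝ, 0 < c ∧ WHP (fun n => {g |
      c * Real.log n ≤ tmix (skJ β g) (fun _ => 0)})) ∧
    (∀ β : ℝ, 1 < β → ∀ a : ℕ → ℝ, Tendsto a atTop atTop → WHP (fun n => {g |
      gap (skJ β g) (fun _ => 0) ≤ a n / n ∧
      Real.log 2 * (n / a n) ≤ tmix (skJ β g) (fun _ => 0)})) :=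
  ⟨fun β h0 h1 => high_full_of hP hG hT β h0 h1, log_lower, MainThm.low_slow⟩

end Vale.Agent.P150.F
end

section

/-! The probabilistic part: the disorder is good with probability tending to one. -/

open MeasureTheory ProbabilityTheory Filter Topology

namespace Vale.Agent.P150.F

/-- **The probabilistic part.** -/
theorem prob : ProbStatement :=
  prob_of (fun l _ hε => sd_whp l hε) (fun l _ hε => od_whp l hε)
    (fun _ h0 h1 => G3_star h0 h1) g4 (fun _ h0 h1 => uc_whp h0 h1) G6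

end Vale.Agent.P150.F
end

section

/-! D8: interface statements (captain helper157) and the assembly of the mixing time theorem. -/

open MeasureTheory ProbabilityTheory Filter Topology

namespace Vale.Agent.P150.F

/-- D8Rec: the defective entropy inequality for densities bounded by `8 e^{an}`. -/
def D8RecStatement : Prop := ∀ (β : ℝ), 0 ≤ β → β < 1 →
  ∀ {I : Type} (F : Filter I) (n : I → ℕ) (J : ∀ i, Mat (n i)), Good β F n J →
    ∃ a > 0, ∃ C₁ : ℝ, 0 ≤ C₁ ∧ ∀ᶠ i in F, ∀ ν : Cfg (n i) → ℝ, IsProb ν → (∀ x, 0 < ν x) →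
      (∀ x, ν x ≤ 8 * Real.exp (a * n i) * gM (β • J i) 0 x) →
        KL ν (gM (β • J i) 0) ≤ C₁ * (EP ν (gM (β • J i) 0) + 1)

/-- D8Mix: mixing from a defective entropy inequality and a spectral gap. -/
def D8MixStatement : Prop := ∀ (γ K B : ℝ), 0 < γ → 0 ≤ K → 0 ≤ B → ∃ C > 0,
  ∀ (n : ℕ), 2 ≤ n → ∀ (J : Fin n → Fin n → ℝ), (∀ i j, J i j = J j i) → ∀ b : Fin n → ℝ,
    γ ≤ gap J b →
    (∀ f : Cfg n → ℝ, (∀ x, 0 < f x) → ex J b f = 1 →
      ex J b (fun x => f x * Real.log (f x)) ≤ K * (dir J b f (fun x => Real.log (f x)) + 1)) →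
    (∀ x, - Real.log (gibbs J b x) ≤ B * n) →
    ∀ t, C * Real.log n ≤ t → ∀ x, tvDist J b t x ≤ 1 / 4

/-- D8Bridge: the objects of the localization part versus those of `P150/Defs`. -/
structure D8BridgeStatement : Prop where
  gibbs_eq : ∀ (n : ℕ) (J : Mat n) (β : ℝ), (∀ a b, J a b = J b a) → (∀ a, J a a = 0) →
    gibbs (fun a b => β * J a b) (fun _ => 0) = gM (β • J) 0
  dir_eq : ∀ (n : ℕ) (J : Fin n → Fin n → ℝ) (b : Fin n → ℝ), (∀ i j, J i j = J j i) →
    ∀ f g : Cfg n → ℝ, dir J b f g = DirW (gibbs J b) f g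
  log_le : ∀ (n : ℕ) (J : Mat n) (β : ℝ), (∀ a b, J a b = J b a) → OpLe J 3 → 0 ≤ β → β ≤ 1 →
    ∀ x, - Real.log (gM (β • J) 0 x) ≤ 4 * n

theorem tmix_of (h3 : D3MStatement) (hR : D8RecStatement) (hM : D8MixStatement)
    (hB : D8BridgeStatement) (hG : GapStatement) : TmixStatement := by
  intro β hβ0 hβ1 I F n J hgood
  obtain ⟨γ, hγ, hgap⟩ := hG β hβ0 hβ1 F n J hgood
  obtain ⟨a, ha, C₁, hC₁, hrec⟩ := hR β hβ0 hβ1 F n J hgood
  obtain ⟨η, hη, hent⟩ := h3 β hβ0 hβ1 F n J hgood (a / 2) (by positivity)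
  set K := 2 * C₁ + 2 * (1 + 4) / η + 4 * 4 / η with hK
  have hK0 : 0 ≤ K := by (clear * - hC₁ hη; positivity)
  obtain ⟨C, hC, hmix⟩ := hM γ K 4 hγ hK0 (by norm_num)
  refine ⟨C, hC, ?_⟩
  have hop := hgood.op 1 one_pos
  have hn2 : ∀ᶠ i in F, 2 ≤ n i := hgood.hn.eventually_ge_atTop 2
  filter_upwards [hgap, hrec, hent, hop, hn2] with i h1 h2 h3 h4 h5 t ht x
  have hop3 : OpLe (J i) 3 := by norm_num at h4; exact h4
  have hsymm : ∀ a b : Fin (n i), β * J i a b = β * J i b a := fun a b => by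
    rw [hgood.symm i a b]
  have hge := hB.gibbs_eq (n i) (J i) β (hgood.symm i) (hgood.diag i)
  have hn0 : 0 < n i := by omega
  set μ := gM (β • J i) 0 with hμdef
  have hμ : ∀ x, 0 < μ x := fun x => div_pos (Real.exp_pos _)
    (Finset.sum_pos (fun _ _ => Real.exp_pos _) Finset.univ_nonempty)
  have hμ1 : ∑ x, μ x = 1 := by
    rw [hμdef]; unfold gM
    rw [← Finset.sum_div]
    exact div_self (Finset.sum_pos (fun _ _ => Real.exp_pos _) Finset.univ_nonempty).ne'
  have hlog : ∀ x, - Real.log (μ x) ≤ 4 * n i :=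
    hB.log_le (n i) (J i) β (hgood.symm i) hop3 hβ0 hβ1.le
  have h3' := D8T.ext_pos hμ hμ1 h3
  have htr := D8T.truncation hn0 hμ hμ1 ha hη (by norm_num : (0:ℝ) ≤ 4) hC₁ hlog h3' h2
  refine hmix (n i) h5 (fun a b => β * J i a b) hsymm (fun _ => 0) h1 ?_ ?_ t ht x
  · intro f hf hf1
    have hf1' : ∑ x, μ x * f x = 1 := by
      rw [← hf1]; unfold ex; rw [hge]
    have hp : IsProb (fun x => μ x * f x) :=
      ⟨fun x => (mul_pos (hμ x) (hf x)).le, hf1'⟩
    have h6 := htr (fun x => μ x * f x) hp (fun x => mul_pos (hμ x) (hf x))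
    have e1 : ∀ x, μ x * f x / μ x = f x := fun x => by
      have := (hμ x).ne'
      field_simp
    have e2 : KL (fun x => μ x * f x) μ
        = ex (fun a b => β * J i a b) (fun _ => 0) (fun x => f x * Real.log (f x)) := by
      unfold KL ex
      rw [hge]
      refine Finset.sum_congr rfl fun x _ => ?_
      rw [e1]; ring
    rw [← e2, hB.dir_eq (n i) _ _ hsymm, hge]
    simpa only [e1] using h6
  · intro x
    rw [hge]
    exact hlog x

end Vale.Agent.P150.F
end

section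

/-! P150 FULL, module D8 (B): from the entropy recursion to `D8RecStatement` (helper686). -/

open MeasureTheory ProbabilityTheory Filter Topology Real
open scoped Matrix

namespace Vale.Agent.P150.F

theorem d8rec_large (A T c : ℝ) (hc : 0 < c) :
    ∀ᶠ k : ℕ in atTop, 4 * (k : ℝ) * Real.exp (-(c / 4 * k)) ≤ 1 ∧
      (4 * k * (A * T) + (Real.log 8 + c / 4 * k)) * (8 * Real.exp (-(c / 2 * k))) ≤ 1 := by
  have h0 : Tendsto (fun k : ℕ => (k : ℝ)) atTop atTop := tendsto_natCast_atTop_atTop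
  have hx : ∀ b : ℝ, 0 < b → Tendsto (fun k : ℕ => (k : ℝ) * Real.exp (-(b * k))) atTop (𝓝 0) := by
    intro b hb
    have h1 := Real.tendsto_pow_mul_exp_neg_atTop_nhds_zero 1
    have h2 : Tendsto (fun k : ℕ => b * (k : ℝ)) atTop atTop := h0.const_mul_atTop hb
    have h3 := (h1.comp h2).const_mul b⁻¹
    rw [mul_zero] at h3
    refine h3.congr fun k => ?_
    simp only [Function.comp]
    field_simp
  have he : ∀ b : ℝ, 0 < b → Tendsto (fun k : ℕ => Real.exp (-(b * k))) atTop (𝓝 0) := by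
    intro b hb
    exact Real.tendsto_exp_neg_atTop_nhds_zero.comp (h0.const_mul_atTop hb)
  have t1 : Tendsto (fun k : ℕ => 4 * (k : ℝ) * Real.exp (-(c / 4 * k))) atTop (𝓝 0) := by
    have h := (hx (c / 4) (by positivity)).const_mul 4
    rw [mul_zero] at h
    refine h.congr fun k => by ring
  have t2 : Tendsto (fun k : ℕ => (4 * k * (A * T) + (Real.log 8 + c / 4 * k)) *
      (8 * Real.exp (-(c / 2 * k)))) atTop (𝓝 0) := by
    have h := ((hx (c / 2) (by positivity)).const_mul (8 * (4 * (A * T) + c / 4))).add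
      ((he (c / 2) (by positivity)).const_mul (8 * Real.log 8))
    rw [mul_zero, mul_zero, add_zero] at h
    refine h.congr fun k => by ring
  exact (t1.eventually (eventually_le_nhds one_pos)).and
    (t2.eventually (eventually_le_nhds one_pos))

theorem d8rec_of (hD6 : D6Statement) (h1 : CH1) (hG : CHG) (h4 : CH4') (h4' : CH4'') (h5 : CH5)
    (h6 : CH6a) (he0 : D8End0) (he1 : D8End1) (he2 : D8End2) : D8RecStatement := by
  intro β hβ0 hβ1 I F n J hgood
  obtain ⟨C, T, c, hC, hT, hc, hD⟩ := hD6 β hβ0 hβ1 F n J hgood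
  set A := C * Real.exp (9 * C * T) + C * (3 * Real.exp (9 * C * T)) + 1 with hA
  have hA0 : 0 ≤ A := by (clear * - hC; positivity)
  refine ⟨c / 4, by positivity, 2 * (A * T) + 2, by (clear * - hC hT; positivity), ?_⟩
  filter_upwards [hD, hgood.hn.eventually (d8rec_large A T c hc)] with i hDi hn ν hν hνp hνle
  obtain ⟨hn1, hn2⟩ := hn
  obtain ⟨K, hK0, hK⟩ := h4' (n i) (n i) C
  -- the micro step
  set δ₀ := min (1 / (4 * C)) (1 / (K + 1) ^ 2) with hδ₀
  have hδ₀pos : 0 < δ₀ := lt_min (by positivity) (by positivity)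
  have hCδ : C * δ₀ ≤ 1 / 4 := by
    calc C * δ₀ ≤ C * (1 / (4 * C)) := mul_le_mul_of_nonneg_left (min_le_left _ _) hC.le
      _ = 1 / 4 := by field_simp
  have hKδ : K * √δ₀ ≤ 1 := by
    have h7 : √δ₀ ≤ 1 / (K + 1) := by
      calc √δ₀ ≤ √(1 / (K + 1) ^ 2) := Real.sqrt_le_sqrt (min_le_right _ _)
        _ = 1 / (K + 1) := by
            rw [Real.sqrt_div zero_le_one, Real.sqrt_one, Real.sqrt_sq (by (clear * - hK0; positivity))]
    calc K * √δ₀ ≤ K * (1 / (K + 1)) := mul_le_mul_of_nonneg_left h7 hK0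
      _ ≤ 1 := by
          rw [mul_one_div, div_le_one (by positivity)]
          linarith only []
  obtain ⟨D⟩ := hDi δ₀ hδ₀pos
  have hlaw : D.P.law D.s0 = gM (β • J i) 0 := by
    unfold Proc.law
    rw [D.M0, D.y0]
  set μ := gM (β • J i) 0 with hμ
  have hμp : ∀ x, 0 < μ x := fun x => gM_pos _ _ x
  set f : Cfg (n i) → ℝ := fun x => ν x / μ x with hfdef
  have hf : ∀ x, 0 < f x := fun x => div_pos (hνp x) (hμp x)
  have hwt : D.P.wt f D.s0 = 1 := by
    unfold Proc.wt Ex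
    rw [hlaw, ← hν.2]
    refine Finset.sum_congr rfl fun x _ => ?_
    rw [hfdef]
    have := (hμp x).ne'
    field_simp
  have hnuf : D.P.nuf f D.s0 = ν := by
    funext x
    unfold Proc.nuf
    rw [hwt, hlaw, hfdef]
    have := (hμp x).ne'
    field_simp
  have hent : D.P.ent f D.s0 = KL ν μ := by
    rw [D.P.ent_eq hf, hwt, hnuf, hlaw, one_mul]
  have hep : D.P.ep f D.s0 = EP ν μ := by
    unfold Proc.ep EP
    rw [hlaw]
  have hfle : ∀ x, f x ≤ 8 * Real.exp (c / 4 * n i) := fun x => by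
    rw [hfdef]
    exact (div_le_iff₀ (hμp x)).2 (hνle x)
  have hL : ∀ x, Real.log (f x) ≤ Real.log 8 + c / 4 * n i := fun x => by
    refine (Real.log_le_log (hf x) (hfle x)).trans (le_of_eq ?_)
    rw [Real.log_mul (by norm_num) (Real.exp_pos _).ne', Real.log_exp]
  have hL0 : 0 ≤ Real.log 8 + c / 4 * n i := by
    have : 0 ≤ Real.log 8 := Real.log_nonneg (by norm_num)
    (clear * - hc; positivity)
  set θ := Real.exp (-(c / 4 * n i)) with hθdef
  have hθ0 : 0 < θ := Real.exp_pos _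
  have hθ1 : θ ≤ 1 := by
    rw [hθdef]
    apply Real.exp_le_one_iff.2
    have : 0 ≤ c / 4 * n i := by (clear * - hc; positivity)
    linarith only [this]
  have hrec := D.ent_rec h1 hG h4 h5 h6 he0 he1 he2 hC.le hCδ hK0 hKδ hK hn1 hf hL0 hL D.N D.s0
    le_rfl D.inv0
  rw [← hA, hent, hep] at hrec
  unfold D6Out.Psi at hrec
  rw [hwt, hep] at hrec
  set B := D.P.badSet (fun _ => D.Exit) θ with hB
  have hhit : D.P.hitE B D.N D.s0 ≤ Real.exp (-(3 * c / 4 * n i)) := by
    have h7 := D.P.hitE_badSet_le h1 hG (fun _ => D.Exit) (fun _ => D.measExit) hθ0 hθ1 D.N D.s0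
    refine h7.trans ?_
    rw [div_le_iff₀ hθ0]
    refine D.exit_le.trans (le_of_eq ?_)
    rw [hθdef, ← Real.exp_add]
    congr 1
    ring
  have hhit0 := D.P.hitE_nonneg B D.N D.s0
  have hwh : D.P.wh f B D.N D.s0 ≤ 8 * Real.exp (-(c / 2 * n i)) := by
    have h7 : D.P.wh f B D.N D.s0 ≤ 8 * Real.exp (c / 4 * n i) * D.P.hitE B D.N D.s0 := by
      unfold Proc.wh Proc.hitE Proc.avg
      rw [Finset.mul_sum]
      refine Finset.sum_le_sum fun x _ => ?_
      have h8 := mul_le_mul_of_nonneg_right (hfle x) (D.P.hit_nonneg B D.N D.s0 x)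
      have h9 := mul_le_mul_of_nonneg_left h8 (D.P.law_pos D.s0 x).le
      linarith only [h9]
    have h8 := mul_le_mul_of_nonneg_left hhit
      (by positivity : 0 ≤ 8 * Real.exp (c / 4 * n i))
    refine h7.trans (h8.trans (le_of_eq ?_))
    rw [mul_assoc, ← Real.exp_add]
    congr 2
    ring
  have hwh0 := D.P.wh_nonneg hf B D.N D.s0
  have hhit1 : D.P.hitE B D.N D.s0 ≤ 1 := D.P.hitE_le_one B D.N D.s0
  have hclk := D.clk_le (le_refl D.N)
  have hclk0 := D.clk_nonneg D.N
  have hEP : 0 ≤ EP ν μ := hep ▸ D.P.ep_nonneg hf D.s0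
  have h10 : A * D.clk D.N * (2 * EP ν μ + 2 * 1 + 4 * (n i) * D.P.wh f B D.N D.s0)
      ≤ A * T * (2 * EP ν μ + 2 * 1 + 4 * (n i) * D.P.wh f B D.N D.s0) := by
    refine mul_le_mul_of_nonneg_right (mul_le_mul_of_nonneg_left hclk hA0) ?_
    (clear * - hEP hwh0; positivity)
  have h11 : (4 * (n i) * (A * T) + (Real.log 8 + c / 4 * n i)) * D.P.wh f B D.N D.s0 ≤ 1 := by
    refine le_trans (mul_le_mul_of_nonneg_left hwh ?_) hn2
    (clear * - hC hT hc; positivity)
  linarith only [h11, h10, hEP, hhit1, hrec]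

end Vale.Agent.P150.F
end

section

/-! D8Mix: the mixing time from a defective entropy inequality and a spectral gap. -/

open Finset Filter Topology Set

namespace Vale.Agent.P150.F

open Vale.Agent.P150.Semi

namespace D8M

variable {n : ℕ} {J : Fin n → Fin n → ℝ} (b : Fin n → ℝ)

lemma dir_log_nonneg (hJ : ∀ i j, J i j = J j i) {f : Cfg n → ℝ} (hf : ∀ x, 0 < f x) :
    0 ≤ dir J b f (fun x => Real.log (f x)) := by
  rw [dir_eq hJ]
  apply mul_nonneg (by norm_num)
  apply Finset.sum_nonneg; intro i _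
  apply Finset.sum_nonneg; intro x _
  have h1 := gibbs_pos J b x
  have h2 := gibbs_pos J b (flip x i)
  refine mul_nonneg (by positivity) ?_
  rcases le_total (f x) (f (flip x i)) with h | h
  · have := Real.log_le_log (hf x) h
    exact mul_nonneg (by linarith) (by linarith)
  · have := Real.log_le_log (hf _) h
    exact mul_nonneg_of_nonpos_of_nonpos (by linarith) (by linarith)

/-- entropy decay from a defective inequality, positive flows of mean one -/
lemma ent_decay (hJ : ∀ i j, J i j = J j i) {K : ℝ} (hK : 0 < K)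
    (hM : ∀ f : Cfg n → ℝ, (∀ x, 0 < f x) → ex J b f = 1 →
      ex J b (fun x => f x * Real.log (f x)) ≤ K * (dir J b f (fun x => Real.log (f x)) + 1))
    (u : ℝ → Cfg n → ℝ)
    (hu : ∀ t x, HasDerivAt (fun s => u s x) (gen J b (u t) x) t)
    (hpos : ∀ t, 0 ≤ t → ∀ x, 0 < u t x) (h1 : ∀ t, ex J b (u t) = 1) (t : ℝ) (ht : 0 ≤ t) :
    entg J b (u t) - K ≤ Real.exp (-(t / K)) * (entg J b (u 0) - K) := by
  set F : ℝ → ℝ := fun s => Real.exp (s / K) * (entg J b (u s) - K) with hF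
  have hd : ∀ s, 0 ≤ s → HasDerivAt F (Real.exp (s / K) * (1 / K) * (entg J b (u s) - K)
      + Real.exp (s / K) * (-dir J b (u s) (fun x => Real.log (u s x)))) s := by
    intro s hs
    exact (((hasDerivAt_id s).div_const K).exp).mul
      ((entg_deriv b hJ u hu s (hpos s hs)).sub_const K)
  have hanti : AntitoneOn F (Set.Ici 0) := by
    apply antitoneOn_of_deriv_nonpos (convex_Ici 0)
    · intro s hs
      exact (hd s hs).continuousAt.continuousWithinAt
    · intro s hs
      rw [interior_Ici] at hs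
      exact (hd s (le_of_lt hs)).differentiableAt.differentiableWithinAt
    · intro s hs
      rw [interior_Ici] at hs
      have hs0 : (0 : ℝ) ≤ s := le_of_lt hs
      rw [(hd s hs0).deriv]
      have h2 := hM (u s) (hpos s hs0) (h1 s)
      have h3 : entg J b (u s) = ex J b (fun x => u s x * Real.log (u s x)) := by
        unfold entg
        rw [h1 s, Real.log_one, mul_zero, sub_zero]
      rw [← h3] at h2
      have h4 : (1 / K) * (entg J b (u s) - K) ≤ dir J b (u s) (fun x => Real.log (u s x)) := by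
        rw [one_div, inv_mul_le_iff₀ hK]
        linarith only [h2]
      have h5 := mul_le_mul_of_nonneg_left h4 (Real.exp_pos (s / K)).le
      linarith only [h5]
  have h0 := hanti (Set.mem_Ici.2 le_rfl) (Set.mem_Ici.2 ht) ht
  have h6 : F t = Real.exp (t / K) * (entg J b (u t) - K) := rfl
  have h7 : F 0 = entg J b (u 0) - K := by simp [hF]
  rw [h6, h7] at h0
  have h8 : Real.exp (-(t / K)) * Real.exp (t / K) = 1 := by
    rw [← Real.exp_add]; simp
  calc entg J b (u t) - K = Real.exp (-(t / K)) * (Real.exp (t / K) * (entg J b (u t) - K)) := by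
        rw [← mul_assoc, h8, one_mul]
    _ ≤ Real.exp (-(t / K)) * (entg J b (u 0) - K) :=
        mul_le_mul_of_nonneg_left h0 (Real.exp_pos _).le

lemma ent_dens_decay (hJ : ∀ i j, J i j = J j i) {K : ℝ} (hK : 0 < K)
    (hM : ∀ f : Cfg n → ℝ, (∀ x, 0 < f x) → ex J b f = 1 →
      ex J b (fun x => f x * Real.log (f x)) ≤ K * (dir J b f (fun x => Real.log (f x)) + 1))
    (x : Cfg n) (t : ℝ) (ht : 0 ≤ t) :
    entg J b (dens J b x t) - K ≤ Real.exp (-(t / K)) * (entg J b (dens J b x 0) - K) := by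
  have key : ∀ ε : ℝ, 0 < ε → ε < 1 →
      entg J b (fun y => (1 - ε) * dens J b x t y + ε) - K
      ≤ Real.exp (-(t / K)) * (entg J b (fun y => (1 - ε) * dens J b x 0 y + ε) - K) := by
    intro ε h0 h1
    refine ent_decay b hJ hK hM (fun s y => (1 - ε) * dens J b x s y + ε) ?_ ?_ ?_ t ht
    · intro s y
      have h2 := ((dens_deriv b hJ x s y).const_mul (1 - ε)).add_const ε
      have h3 : gen J b (fun y => (1 - ε) * dens J b x s y + ε) y
          = (1 - ε) * gen J b (dens J b x s) y := by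
        rw [gen_add, gen_smul, gen_const, add_zero]
      rw [h3]
      exact h2
    · intro s hs y
      have := dens_nonneg (J := J) b x hs y
      have : 0 ≤ (1 - ε) * dens J b x s y := mul_nonneg (by linarith only [h1]) this
      linarith only [this, h0]
    · intro s
      have h2 := Semi.ex_add (J := J) b (fun y => (1 - ε) * dens J b x s y) (fun _ => ε)
      rw [Semi.ex_smul, ex_dens, Semi.ex_const] at h2
      rw [h2]; ring
  have l1 : Tendsto (fun ε : ℝ => entg J b (fun y => (1 - ε) * dens J b x t y + ε) - K)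
      (𝓝[>] 0) (𝓝 (entg J b (dens J b x t) - K)) := by
    have := ((continuous_entg_mix (J := J) b (dens J b x t)).tendsto 0)
    simp only [sub_zero, one_mul, add_zero] at this
    exact (this.mono_left nhdsWithin_le_nhds).sub_const K
  have l2 : Tendsto (fun ε : ℝ => Real.exp (-(t / K))
      * (entg J b (fun y => (1 - ε) * dens J b x 0 y + ε) - K))
      (𝓝[>] 0) (𝓝 (Real.exp (-(t / K)) * (entg J b (dens J b x 0) - K))) := by
    have := ((continuous_entg_mix (J := J) b (dens J b x 0)).tendsto 0)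
    simp only [sub_zero, one_mul, add_zero] at this
    exact ((this.mono_left nhdsWithin_le_nhds).sub_const K).const_mul _
  apply le_of_tendsto_of_tendsto l1 l2
  have : Set.Ioo (0 : ℝ) 1 ∈ 𝓝[>] (0 : ℝ) := Ioo_mem_nhdsGT one_pos
  filter_upwards [this] with ε hε
  exact key ε hε.1 hε.2

/-- Chapman–Kolmogorov for the densities -/
lemma dens_add (hJ : ∀ i j, J i j = J j i) (x : Cfg n) (t s : ℝ) (y : Cfg n) :
    dens J b x (t + s) y = Pt J b s (dens J b x t) y := by
  unfold Semi.dens Pt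
  rw [kernel_add, Matrix.mul_apply, Finset.sum_div]
  refine Finset.sum_congr rfl fun z _ => ?_
  have h := kernel_rev b hJ s z y
  have hy := (gibbs_pos J b y).ne'
  have hz := (gibbs_pos J b z).ne'
  field_simp
  linear_combination kernel J b t x z * h

/-- `L¹` contraction -/
lemma ex_abs_Pt_le (hJ : ∀ i j, J i j = J j i) {s : ℝ} (hs : 0 ≤ s) (w : Cfg n → ℝ) :
    ex J b (fun y => |Pt J b s w y|) ≤ ex J b (fun y => |w y|) := by
  rw [← ex_Pt b hJ s (fun y => |w y|)]
  refine Semi.ex_mono b fun y => ?_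
  unfold Pt
  refine (Finset.abs_sum_le_sum_abs _ _).trans (le_of_eq ?_)
  refine Finset.sum_congr rfl fun z _ => ?_
  rw [abs_mul, abs_of_nonneg (kernel_nonneg J b hs y z)]

lemma Pt_sub (s : ℝ) (f g : Cfg n → ℝ) (y : Cfg n) :
    Pt J b s (fun x => f x - g x) y = Pt J b s f y - Pt J b s g y := by
  unfold Pt
  rw [← Finset.sum_sub_distrib]
  exact Finset.sum_congr rfl fun z _ => by ring

/-- `L¹` norm is at most the `L²` norm -/
lemma sq_ex_abs_le (w : Cfg n → ℝ) :
    (ex J b fun y => |w y|) ^ 2 ≤ ex J b fun y => w y ^ 2 := by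
  have h := Semi.var_nonneg (J := J) b (fun y => |w y|)
  rw [Semi.var_eq] at h
  simp only [sq_abs] at h
  linarith only [h]

/-- `L²` decay of the centred semigroup -/
lemma l2_Pt (hJ : ∀ i j, J i j = J j i) {γ : ℝ}
    (hP : ∀ f : Cfg n → ℝ, γ * var J b f ≤ dir J b f f) (k : Cfg n → ℝ) {s : ℝ} (hs : 0 ≤ s) :
    ex J b (fun y => (Pt J b s k y - ex J b k) ^ 2)
      ≤ Real.exp (-(2 * γ * s)) * ex J b (fun y => k y ^ 2) := by
  have h := l2_decay b hJ γ hP (fun s y => Pt J b s k y - ex J b k) ?_ ?_ s hs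
  · refine h.trans (mul_le_mul_of_nonneg_left ?_ (Real.exp_pos _).le)
    have h2 : ex J b (fun x => (Pt J b 0 k x - ex J b k) ^ 2) = var J b k := by
      unfold var
      simp only [Pt_zero]
    rw [h2, Semi.var_eq]
    linarith only [sq_nonneg (ex J b k)]
  · intro t x
    have h2 := (Pt_deriv' (J := J) b k t x).sub_const (ex J b k)
    have h3 : gen J b (fun y => Pt J b t k y - ex J b k) x = gen J b (Pt J b t k) x := by
      have := gen_add J b (Pt J b t k) (fun _ => -ex J b k) x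
      rw [gen_const, add_zero] at this
      simpa only [sub_eq_add_neg] using this
    rw [h3]
    exact h2
  · intro t
    have h2 := Semi.ex_add (J := J) b (Pt J b t k) (fun _ => -ex J b k)
    rw [ex_Pt b hJ, Semi.ex_const] at h2
    simpa [sub_eq_add_neg] using h2

/-- pointwise truncation bound -/
lemma sub_min_le {h M : ℝ} (hh : 0 ≤ h) (hM : 0 < M) :
    h - min h (Real.exp M) ≤ (h * Real.log h + 1) / M := by
  rw [le_div_iff₀ hM]
  rcases le_total h (Real.exp M) with h1 | h1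
  · rw [min_eq_left h1, sub_self, zero_mul]
    have h2 := pinsker_pt_nonneg h hh
    have h3 : 0 ≤ h * Real.log h + 1 := by
      rcases le_total 1 h with h4 | h4
      · have := mul_nonneg hh (Real.log_nonneg h4)
        linarith
      · -- `h log h ≥ h - 1 ≥ -1`
        linarith
    exact h3
  · rw [min_eq_right h1]
    have h0 : 0 < h := (Real.exp_pos M).trans_le h1
    have h2 : M ≤ Real.log h := by
      rw [Real.le_log_iff_exp_le h0]; exact h1
    have h3 := mul_le_mul_of_nonneg_left h2 hh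
    have h4 : 0 < Real.exp M := Real.exp_pos M
    linarith only [mul_pos (sub_pos.2 hM) (sub_pos.2 h4), mul_nonneg (le_of_lt (sub_pos.2 h0)) (sub_nonneg.2 h2)]

end D8M

open D8M

/-- **D8Mix** -/
theorem d8mix : D8MixStatement := by
  intro γ K B hγ hK hB
  set K1 : ℝ := K + 1 with hK1
  set D : ℝ := K1 + B with hD
  set M : ℝ := 8 * (D + 1) with hM
  have hK1p : 0 < K1 := by linarith only [hK]
  have hDp : 0 < D := by linarith only [hK1p, hB]
  have hMp : 0 < M := by linarith only [hDp]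
  have hl2 : 0 < Real.log 2 := Real.log_pos one_lt_two
  refine ⟨K1 + (M + 2) / (γ * Real.log 2), by positivity, ?_⟩
  intro n hn J hJ b hgap hdef hmin t ht x
  have hnr : (2 : ℝ) ≤ n := by exact_mod_cast hn
  have hlogn : Real.log 2 ≤ Real.log n := Real.log_le_log two_pos hnr
  have hlogn0 : 0 < Real.log n := hl2.trans_le hlogn
  set t1 : ℝ := K1 * Real.log n with ht1
  have ht1p : 0 ≤ t1 := by (clear * - hK hlogn0; positivity)
  set s : ℝ := t - t1 with hs
  have hsM : M + 2 ≤ γ * s := by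
    have h1 : (M + 2) / (γ * Real.log 2) * Real.log n ≤ s := by
      rw [hs]
      have : (K1 + (M + 2) / (γ * Real.log 2)) * Real.log n
          = t1 + (M + 2) / (γ * Real.log 2) * Real.log n := by rw [ht1]; ring
      linarith only [ht]
    have h2 : (M + 2) / (γ * Real.log 2) * Real.log 2 ≤ s :=
      le_trans (mul_le_mul_of_nonneg_left hlogn (by (clear * - hK hB hγ; positivity))) h1
    have h3 : (M + 2) / (γ * Real.log 2) * Real.log 2 = (M + 2) / γ := by
      field_simp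
    rw [h3, div_le_iff₀ hγ] at h2
    linarith only [h2]
  have hsp : 0 ≤ s := by
    by_contra hc
    rw [not_le] at hc
    have := mul_neg_of_pos_of_neg hγ hc
    linarith only [hMp, hsM, this]
  have hP : ∀ f : Cfg n → ℝ, γ * var J b f ≤ dir J b f f := fun f =>
    (mul_le_mul_of_nonneg_right hgap (Semi.var_nonneg b f)).trans (gap_mul_var_le b hJ f)
  have hdef1 : ∀ f : Cfg n → ℝ, (∀ x, 0 < f x) → ex J b f = 1 →
      ex J b (fun x => f x * Real.log (f x))
        ≤ K1 * (dir J b f (fun x => Real.log (f x)) + 1) := by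
    intro f hf hf1
    refine (hdef f hf hf1).trans (mul_le_mul_of_nonneg_right (by linarith only []) ?_)
    have := dir_log_nonneg b hJ hf
    linarith only [this]
  -- Stage 1
  set h : Cfg n → ℝ := dens J b x t1 with hh
  have hh0 : ∀ y, 0 ≤ h y := fun y => dens_nonneg b x ht1p y
  have hh1 : ex J b h = 1 := ex_dens b x t1
  have hent : ex J b (fun y => h y * Real.log (h y)) ≤ D := by
    have h1 := ent_dens_decay b hJ hK1p hdef1 x t1 ht1p
    rw [entg_dens_zero] at h1
    have h2 : entg J b (dens J b x t1) = ex J b (fun y => h y * Real.log (h y)) := by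
      unfold entg
      rw [← hh, hh1, Real.log_one, mul_zero, sub_zero]
    rw [h2] at h1
    have h3 : t1 / K1 = Real.log n := by rw [ht1]; field_simp
    have hn0 : (0 : ℝ) < n := by linarith only [hnr]
    rw [h3, Real.exp_neg, Real.exp_log hn0] at h1
    have h4 : (n : ℝ)⁻¹ * (-Real.log (gibbs J b x) - K1) ≤ (n : ℝ)⁻¹ * (B * n) :=
      mul_le_mul_of_nonneg_left (by linarith only [hK1p, hmin x]) (by positivity)
    have h5 : (n : ℝ)⁻¹ * (B * n) = B := by field_simp
    linarith only [h1, h4, h5]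
  -- Stage 2
  set k : Cfg n → ℝ := fun y => min (h y) (Real.exp M) with hk
  have hk0 : ∀ y, 0 ≤ k y := fun y => le_min (hh0 y) (Real.exp_pos M).le
  have hdiff : ex J b (fun y => h y - k y) ≤ 1 / 8 := by
    have h1 : ex J b (fun y => h y - k y) ≤ ex J b (fun y => (1 / M) * (h y * Real.log (h y) + 1)) :=
      Semi.ex_mono b fun y => by
        have := sub_min_le (hh0 y) hMp
        rw [one_div, inv_mul_eq_div]
        exact this
    rw [Semi.ex_smul, Semi.ex_add, Semi.ex_const] at h1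
    refine h1.trans ?_
    rw [one_div, inv_mul_le_iff₀ hMp, hM]
    linarith only [hent]
  have hexk : ex J b k = 1 - ex J b (fun y => h y - k y) := by
    have h1 := Semi.ex_add (J := J) b (fun y => h y - k y) k
    simp only [sub_add_cancel] at h1
    have h2 : ex J b (fun y => h y) = 1 := hh1
    linarith
  have hdiff0 : 0 ≤ ex J b (fun y => h y - k y) :=
    Semi.ex_nonneg b fun y => by
      have : k y ≤ h y := min_le_left _ _
      linarith only [this]
  have hk2 : ex J b (fun y => k y ^ 2) ≤ Real.exp (2 * M) := by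
    have h1 : ex J b (fun y => k y ^ 2) ≤ ex J b (fun _ => Real.exp (2 * M)) :=
      Semi.ex_mono b fun y => by
        have h2 : k y ≤ Real.exp M := min_le_right _ _
        calc k y ^ 2 ≤ Real.exp M ^ 2 := pow_le_pow_left₀ (hk0 y) h2 2
          _ = Real.exp (2 * M) := by rw [← Real.exp_nat_mul]; norm_num
    rwa [Semi.ex_const] at h1
  have hL2 : ex J b (fun y => |Pt J b s k y - ex J b k|) ≤ 1 / 4 := by
    have h1 := sq_ex_abs_le (J := J) b (fun y => Pt J b s k y - ex J b k)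
    have h2 := l2_Pt b hJ hP k hsp
    have h3 : Real.exp (-(2 * γ * s)) * ex J b (fun y => k y ^ 2) ≤ (1 / 4) ^ 2 := by
      calc Real.exp (-(2 * γ * s)) * ex J b (fun y => k y ^ 2)
          ≤ Real.exp (-(2 * γ * s)) * Real.exp (2 * M) :=
            mul_le_mul_of_nonneg_left hk2 (Real.exp_pos _).le
        _ = Real.exp (-(2 * γ * s) + 2 * M) := by rw [← Real.exp_add]
        _ ≤ Real.exp (-4) := Real.exp_le_exp.2 (by linarith only [hsM])
        _ ≤ (1 / 4) ^ 2 := by
          have h5 : (16 : ℝ) ≤ Real.exp 4 := by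
            have h6 := Real.add_one_le_exp (1 : ℝ)
            have h7 : Real.exp 4 = Real.exp 1 ^ 4 := by rw [← Real.exp_nat_mul]; norm_num
            rw [h7]
            calc (16 : ℝ) = (1 + 1) ^ 4 := by norm_num
              _ ≤ Real.exp 1 ^ 4 := pow_le_pow_left₀ (by norm_num) h6 4
          rw [Real.exp_neg]
          rw [show ((1 : ℝ) / 4) ^ 2 = (16 : ℝ)⁻¹ by norm_num]
          exact inv_anti₀ (by norm_num) h5
    have h4 := abs_le_of_sq_le_sq' (h1.trans (h2.trans h3)) (by norm_num)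
    exact h4.2
  -- conclusion
  have hdens : ∀ y, dens J b x t y - 1
      = Pt J b s (fun z => h z - k z) y + (Pt J b s k y - ex J b k) + (ex J b k - 1) := by
    intro y
    have h1 : dens J b x t y = Pt J b s h y := by
      have := dens_add b hJ x t1 s y
      rw [hs] at this ⊢
      rw [add_sub_cancel] at this
      exact this
    rw [h1, Pt_sub]
    ring
  have htv : 2 * tvDist J b t x = ex J b (fun y => |dens J b x t y - 1|) := by
    rw [tvDist_eq]
    unfold ex
    ring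
  have hbound : ex J b (fun y => |dens J b x t y - 1|)
      ≤ ex J b (fun y => |h y - k y|) + 1 / 4 + 1 / 8 := by
    calc ex J b (fun y => |dens J b x t y - 1|)
        ≤ ex J b (fun y => (|Pt J b s (fun z => h z - k z) y| + |Pt J b s k y - ex J b k|)
            + |ex J b k - 1|) := Semi.ex_mono b fun y => by
              rw [hdens y]
              exact (abs_add_le _ _).trans (add_le_add (abs_add_le _ _) le_rfl)
      _ = ex J b (fun y => |Pt J b s (fun z => h z - k z) y|)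
          + ex J b (fun y => |Pt J b s k y - ex J b k|) + |ex J b k - 1| := by
            rw [Semi.ex_add, Semi.ex_add, Semi.ex_const]
      _ ≤ _ := by
            have h1 := ex_abs_Pt_le b hJ hsp (fun z => h z - k z)
            have h2 : |ex J b k - 1| ≤ 1 / 8 := by
              rw [hexk, abs_le]
              constructor <;> linarith
            linarith only [h2, h1, hL2]
  have habs : ex J b (fun y => |h y - k y|) = ex J b (fun y => h y - k y) := by
    congr 1
    funext y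
    exact abs_of_nonneg (by
      have : k y ≤ h y := min_le_left _ _
      linarith only [this])
  rw [habs] at hbound
  linarith only [hbound, htv, hdiff]

end Vale.Agent.P150.F
end

section

/-! D8: the bridge between the objects of the localization part and those of `P150/Defs`. -/

open MeasureTheory ProbabilityTheory Filter Topology

namespace Vale.Agent.P150.F

variable {n : ℕ}

theorem d8b_energy {J : Mat n} (β : ℝ) (hs : ∀ a b, J a b = J b a) (hd : ∀ a, J a a = 0)
    (x : Cfg n) :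
    energy (fun a b => β * J a b) (fun _ => 0) x = qf (β • J) (sv x) / 2 + ip 0 (sv x) := by
  rw [energy_eq (fun a b => by rw [hs a b])]
  have h1 : ∀ i j, Jo (fun a b => β * J a b) i j = β * J i j := by
    intro i j
    unfold Jo
    split_ifs with h
    · subst h
      rw [hd, mul_zero]
    · rfl
  have h2 : ip 0 (sv x) = 0 := by
    unfold ip
    simp
  have h3 : qf (β • J) (sv x) = ∑ i, ∑ j, β * J i j * sp (x i) * sp (x j) := by
    unfold qf ip Matrix.mulVec dotProduct sv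
    refine Finset.sum_congr rfl fun i _ => ?_
    rw [Finset.mul_sum]
    refine Finset.sum_congr rfl fun j _ => ?_
    simp only [Matrix.smul_apply, smul_eq_mul]
    ring
  simp only [h1, h2, h3, zero_mul, Finset.sum_const_zero]
  ring

theorem d8b_sq_sv (x : Cfg n) : sq (sv x) = n := by
  unfold sq sv
  have : ∀ i : Fin n, sp (x i) ^ 2 = 1 := fun i => by rw [pow_two, sp_sq]
  simp [this]

theorem d8b_abs_qf {J : Mat n} {β : ℝ} (hJ : OpLe J 3) (h0 : 0 ≤ β) (h1 : β ≤ 1) (x : Cfg n) :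
    |qf (β • J) (sv x)| ≤ 3 * n := by
  have e : qf (β • J) (sv x) = β * qf J (sv x) := by
    unfold qf
    rw [Matrix.smul_mulVec, ip_smul_right]
  rw [e, abs_mul, abs_of_nonneg h0]
  have h2 : |qf J (sv x)| ≤ 3 * n := by
    unfold qf
    refine (abs_ip_le _ _).trans ?_
    have h3 := hJ.nv_le (by norm_num) (sv x)
    calc nv (sv x) * nv (J.mulVec (sv x)) ≤ nv (sv x) * (3 * nv (sv x)) :=
          mul_le_mul_of_nonneg_left h3 (nv_nonneg _)
      _ = 3 * nv (sv x) ^ 2 := by ring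
      _ = 3 * n := by rw [nv_sq, d8b_sq_sv]
  calc β * |qf J (sv x)| ≤ 1 * (3 * n) := mul_le_mul h1 h2 (abs_nonneg _) (by norm_num)
    _ = _ := one_mul _

theorem d8Bridge : D8BridgeStatement where
  gibbs_eq := by
    intro n J β hs hd
    funext x
    unfold gibbs gM
    simp only [d8b_energy β hs hd]
  dir_eq := by
    intro n J b hJ f g
    exact Vale.Agent.P150.dir_eq hJ b f g
  log_le := by
    intro n J β hs hJ h0 h1 x
    have hz : ∀ y : Cfg n, ip 0 (sv y) = 0 := fun y => by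
      unfold ip
      simp
    have hq := fun y : Cfg n => abs_le.mp (d8b_abs_qf hJ h0 h1 y)
    unfold gM
    simp only [hz, add_zero]
    have hZ : 0 < ∑ x' : Cfg n, Real.exp (qf (β • J) (sv x') / 2) :=
      Finset.sum_pos (fun _ _ => Real.exp_pos _) Finset.univ_nonempty
    rw [Real.log_div (Real.exp_pos _).ne' hZ.ne', Real.log_exp]
    have hZle : ∑ x' : Cfg n, Real.exp (qf (β • J) (sv x') / 2) ≤
        2 ^ n * Real.exp (3 * n / 2) := by
      calc ∑ x' : Cfg n, Real.exp (qf (β • J) (sv x') / 2)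
          ≤ ∑ _x' : Cfg n, Real.exp (3 * n / 2) := by
            refine Finset.sum_le_sum fun y _ => Real.exp_le_exp.mpr ?_
            linarith only [(hq y).2]
        _ = _ := by
            rw [Finset.sum_const, Finset.card_univ, nsmul_eq_mul]
            simp
    have hlog : Real.log (∑ x' : Cfg n, Real.exp (qf (β • J) (sv x') / 2)) ≤
        n * Real.log 2 + 3 * n / 2 := by
      refine (Real.log_le_log hZ hZle).trans ?_
      rw [Real.log_mul (by positivity) (Real.exp_pos _).ne', Real.log_pow, Real.log_exp]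
    have hl2 : Real.log 2 ≤ 1 := by
      have := Real.log_two_lt_d9
      linarith only [this]
    have hn0 : (0 : ℝ) ≤ n := Nat.cast_nonneg n
    have h3 : n * Real.log 2 ≤ n := by
      calc n * Real.log 2 ≤ n * 1 := mul_le_mul_of_nonneg_left hl2 hn0
        _ = n := mul_one _
    linarith only [hlog, h3, (hq x).1]

end Vale.Agent.P150.F
end

section

namespace Vale.Agent.P150.F

/-- D8: the mixing time bound, from D6 and D3M -/
theorem tmixStatement (h6 : D6Statement) (h3 : D3MStatement) : TmixStatement :=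
  tmix_of h3 (d8rec_of h6 thCH1 thCHG thCH4' thCH4'' thCH5 thCH6a d8end0 d8end1 d8end2) d8mix
    d8Bridge (gapStatement h6 h3)

end Vale.Agent.P150.F
end

section

/-! The full theorem from the two remaining deterministic blocks. -/

open MeasureTheory ProbabilityTheory Filter Topology

namespace Vale.Agent.P150.F

/-- The summary theorem, given the blocks D6 and D3M. -/
theorem main_full_cond (h6 : D6Statement) (h3 : D3MStatement) :
    (∀ β : ℝ, 0 ≤ β → β < 1 → ∃ c C : ℝ, 0 < c ∧ 0 < C ∧ WHP (fun n => {g |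
      c ≤ gap (skJ β g) (fun _ => 0) ∧ gap (skJ β g) (fun _ => 0) ≤ 1 ∧
      c * Real.log n ≤ tmix (skJ β g) (fun _ => 0) ∧
      tmix (skJ β g) (fun _ => 0) ≤ C * Real.log n ∧
      ∀ t, C * Real.log n ≤ t → ∀ x, tvDist (skJ β g) (fun _ => 0) t x ≤ 1 / 4})) ∧
    (∀ β : ℝ, 0 ≤ β → ∃ c : ℝ, 0 < c ∧ WHP (fun n => {g |
      c * Real.log n ≤ tmix (skJ β g) (fun _ => 0)})) ∧
    (∀ β : ℝ, 1 < β → ∀ a : ℕ → ℝ, Tendsto a atTop atTop → WHP (fun n => {g |
      gap (skJ β g) (fun _ => 0) ≤ a n / n ∧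
      Real.log 2 * (n / a n) ≤ tmix (skJ β g) (fun _ => 0)})) :=
  main_full_of prob (gapStatement h6 h3) (tmixStatement h6 h3)

end Vale.Agent.P150.F
end

section

/-! D3M-1: entropy along the path. -/

namespace Vale.Agent.P150.F

theorem d3m1 : D3M1 := d3m1_of thCH3

end Vale.Agent.P150.F
end

section

/-!
# D3b: the one-step deconvolution in uniform form, from N2 of all families
-/

open Filter Topology

namespace Vale.Agent.P150.F.D3

open Vale.Agent.P150.F.D2

/-- N2 for trigonometric test functions, for all families -/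
def N2All : Prop := ∀ {ι : Type} (F : Filter ι) (d : ι → Dat), Hyp F d → ∀ k : ℕ, 1 ≤ k →
  ∀ s : Finset ℕ, k ∈ s → (∀ l ∈ s, k ≤ l) → N2T F d k s

theorem n2All : N2All := fun F d h k hk _ hks hs =>
  D2.n2t h.toHypJ h.prob h.toHypJ.derA h.toHypJ.opB h.toHypJ.l4 h.toHypJ.macT hk (h.n1 k)
    (h.ppLoc hk) hks hs

/-- the step variance in the two notations -/
theorem c_eq_cst (D : Dat) (hn : 0 < D.n) (k : ℕ) (x : Cfg D.n) :
    D.c x (k + 1) = cst D.M D.r D.y k x := by
  unfold Dat.c cst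
  rw [Nat.add_sub_cancel]
  congr 1
  rcases k with _ | k
  · rw [DF.t_succ' D x 0 hn, t_zero, sub_zero, qq_ampM_zero hn]
    rfl
  · rw [DF.t_sub]
    rfl

theorem MW.of_Macro {ι : Type} {F : Filter ι} {d : ι → Dat}
    (hn : Tendsto (fun i => (d i).n) F atTop) {φ : Scl d} {C : ℝ}
    (h : ∀ i, Macro C (φ i)) : MW F d φ := by
  refine MW.of_MS hn ⟨max C (C ^ 2), Eventually.of_forall fun i x => ⟨?_, ?_⟩⟩
  · exact ((h i).1 x).trans (le_max_left _ _)
  · exact ((h i).2 x).trans (le_max_right _ _)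

/-- the test data of `StepU` -/
structure TS (n : ℕ) (C : ℝ) where
  /-- test function -/
  φ : Cfg n → ℝ
  /-- phase -/
  α : ℝ
  mac : Macro C φ

theorem stepU_of (hN : N2All) (β : ℝ) : StepU β := by
  intro I F n J hG k θ ε C e hε he
  set T : I → Type := fun i => TS (n i) C with hT
  let E : ∀ i, ℝ → Mat (n i) → Vec (n i) → (Cfg (n i) → ℝ) → T i → ℝ := fun i r A y ν t =>
    Ex ν (fun x => t.φ x *
          (Real.exp (θ ^ 2 * cst (r • J i - A) r y k x / 2) *
              chr ε θ (t.α - θ * (cst (r • J i - A) r y k x * ε)) (ampA (r • J i - A) r y x k) x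
            - chr ε θ t.α (ampA (r • J i - A) r y x (k + 1)) x))
  have hH := hyp_par (CA := 0) (T := T) hG
  set G := filP F n J 0 T with hGdef
  set d := datP n J 0 T with hd
  have hJ := hH.toHypJ
  have hc : MW G d (fun i x => (d i).c x (k + 1)) := MW.c hJ hJ.macT (k + 1)
  have hφ0 : MW G d (fun i => (i.2.2.φ : Cfg (d i).n → ℝ)) :=
    MW.of_Macro hJ.n_top fun i => i.2.2.mac
  have hθ2 : ∀ i : IP n J 0 T, |θ ^ 2 / 2| ≤ θ ^ 2 / 2 := fun i => by
    rw [abs_of_nonneg (by (clear * -; positivity))]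
  have hE1 : MW G d (fun i x => Real.exp (θ ^ 2 / 2 * (d i).c x (k + 1))) := hc.exp hθ2
  have hε1 : |ε / 2| ≤ 1 / 2 := by rcases hε with rfl | rfl <;> norm_num
  have hM1 : (1 / 2 : ℝ) ≤ max 1 |θ| := (by norm_num : (1 / 2 : ℝ) ≤ 1).trans (le_max_left _ _)
  have key := charStep (F := G) (d := d) (k := k + 1) (s := {k + 1, k + 1 + 1})
    (by simp) (by simp)
    (hN G d hH (k + 1) (by omega) {k + 1, k + 1 + 1} (by simp) (by simp))
    hc (hφ0.mul hE1) hc.neg
    (u := fun _ _ => 1 / 2) (v := fun _ _ => ε / 2) (α := fun i _ => i.2.2.α)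
    (θ := fun _ => θ) (ω := fun _ _ => 0) (C := max 1 |θ|)
    (fun _ _ => by rw [abs_of_pos (by norm_num : (0 : ℝ) < 1 / 2)]; exact hM1)
    (fun _ _ => hε1.trans hM1) (fun _ => le_max_right _ _)
    (fun _ _ => by rw [abs_zero]; exact (abs_nonneg θ).trans (le_max_right _ _)) (fun _ => rfl)
  have hlim : Tendsto (fun j : IP n J 0 T => E j.1 j.2.1.r j.2.1.A j.2.1.y j.2.1.ν j.2.2) G
      (𝓝 0) := by
    refine key.congr' ?_
    filter_upwards [hJ.n_top.eventually_gt_atTop 0] with i hi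
    have main : ∀ (P c A1 A2 : ℝ), P * Real.exp (θ ^ 2 / 2 * c) *
        (A1 - Real.exp (-(θ ^ 2 * c / 2)) * A2) = P * (Real.exp (θ ^ 2 * c / 2) * A1 - A2) := by
      intro P c A1 A2
      have ee : Real.exp (θ ^ 2 * c / 2) * Real.exp (-(θ ^ 2 * c / 2)) = 1 := by
        rw [← Real.exp_add, ← Real.exp_zero]
        congr 1
        ring
      rw [show θ ^ 2 / 2 * c = θ ^ 2 * c / 2 by ring]
      linear_combination (-(P * A2)) * ee
    refine congrArg (Ex (n := n i.1) i.2.1.ν) (funext fun (x : Cfg (n i.1)) => ?_)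
    have ec : (d i).c x (k + 1) = cst (i.2.1.r • J i.1 - i.2.1.A) i.2.1.r i.2.1.y k x :=
      c_eq_cst (d i) hi k x
    have e1 : ∀ (a : Vec (n i.1)) (b c : ℝ),
        (∑ j, (1 / 2 + ε / 2 * sv x j) * Real.cos (θ * (a j + b * sv x j) + (0 + c))) / (n i.1)
        = chr ε θ (c + θ * (b * ε)) a x := by
      intro a b c
      unfold chr
      congr 1
      refine Finset.sum_congr rfl fun j _ => ?_
      have e2 : (1 / 2 + ε / 2 * sv x j : ℝ) = ind ε (sv x j) := by unfold ind; ring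
      rw [e2]
      rcases ind_eq hε x j with h | h
      · rw [h.1, zero_mul, zero_mul]
      · rw [h.1, h.2, one_mul, one_mul]
        congr 1
        ring
    have ph0 : ∀ j, ph d ({k + 1, k + 1 + 1} : Finset ℕ) (fun _ _ => 0)
        (fun i _ => i.2.2.α) i x j = 0 + i.2.2.α := by
      intro j
      unfold ph
      simp
    have hA : av1 d {k + 1, k + 1 + 1} (fun _ => θ) (fun _ _ => 0) (fun _ _ => 1 / 2)
        (fun _ _ => ε / 2) (fun i _ => i.2.2.α) (fun i x => -(d i).c x (k + 1)) (k + 1) i x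
        = chr ε θ (i.2.2.α - θ * ((d i).c x (k + 1) * ε))
          (ampA (i.2.1.r • J i.1 - i.2.1.A) i.2.1.r i.2.1.y x k) x := by
      unfold av1
      simp only [ph0]
      refine (e1 (ampA (i.2.1.r • J i.1 - i.2.1.A) i.2.1.r i.2.1.y x k)
        (-(d i).c x (k + 1)) i.2.2.α).trans ?_
      congr 1
      ring
    have hB : av1 d {k + 1, k + 1 + 1} (fun _ => θ) (fun _ _ => 0) (fun _ _ => 1 / 2)
        (fun _ _ => ε / 2) (fun i _ => i.2.2.α)
        (fun i x => -(d i).c x (k + 1) + (d i).c x (k + 1)) (k + 1 + 1) i x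
        = chr ε θ i.2.2.α
          (ampA (i.2.1.r • J i.1 - i.2.1.A) i.2.1.r i.2.1.y x (k + 1)) x := by
      unfold av1
      simp only [ph0]
      refine (e1 (ampA (i.2.1.r • J i.1 - i.2.1.A) i.2.1.r i.2.1.y x (k + 1))
        (-(d i).c x (k + 1) + (d i).c x (k + 1)) i.2.2.α).trans ?_
      congr 1
      ring
    refine (main (i.2.2.φ x) ((d i).c x (k + 1)) _ _).trans ?_
    refine congrArg (fun z => i.2.2.φ x * z) ?_
    refine congrArg₂ (fun z w => z - w) ?_ hB
    rw [ec] at hA ⊢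
    exact congrArg (fun z => Real.exp (θ ^ 2 *
      cst (i.2.1.r • J i.1 - i.2.1.A) i.2.1.r i.2.1.y k x / 2) * z) hA
  obtain ⟨η, hη, h⟩ := unif_par 0 T hG hlim he
  refine ⟨η, hη, ?_⟩
  filter_upwards [h] with i hi r y ν φ α hr hν hφ hd
  have h0 : (0 : Mat (n i)).IsSymm := Matrix.isSymm_zero
  have h1 : hsq (0 : Mat (n i)) ≤ 0 := by simp [hsq]
  have h2 : r • J i - 0 = r • J i := sub_zero _
  have h3 := hi r 0 y ν hr.1 hr.2 h0 h1 hν (by rw [h2]; exact hd) ⟨φ, α, hφ⟩
  simp only [E, h2] at h3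
  exact h3

/-- **StepU** -/
theorem stepU (β : ℝ) : StepU β := stepU_of n2All β

end Vale.Agent.P150.F.D3
end

section

/-! P150 FULL, final assembly of module D3, up to the law of the zero-field local fields
(helper555). -/

open MeasureTheory ProbabilityTheory Filter Topology Real
open scoped Matrix

namespace Vale.Agent.P150.F

/-- D3b from the law of the zero-field local fields -/
theorem d3b_of_baseU (hB : ∀ β : ℝ, 0 ≤ β → β < 1 → D3.BaseU β) : D3.D3bStatement :=
  D3.d3b_of (fun β _ _ => D3.stepU β) hB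
    (fun _ _ h0 h1 _ => D3.d3bH_of h0 h1 (hB _ h0 h1))

/-- D3M from `BaseU` -/
theorem d3m_all (hB : ∀ β : ℝ, 0 ≤ β → β < 1 → D3.BaseU β) : D3MStatement :=
  d3m_of d3m1
    (T23.d3m23_of (fun _ _ _ {_} _ _ _ h => h.u2) (fun _ _ _ {_} _ _ _ h => h.u3) (d3b_of_baseU hB))
    (DM.d3m4_of (d3b_of_baseU hB)) (d3m5_of (d3b_of_baseU hB)) thCH5d

/-- D3c from `BaseU` -/
theorem d3c_all (hB : ∀ β : ℝ, 0 ≤ β → β < 1 → D3.BaseU β) : D3.D3cStatement :=
  D3.d3c (fun _ _ _ {_} _ _ _ h => h.u3)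
    (fun β κ h0 h1 h2 => ((d3b_of_baseU hB) β κ h0 h1 h2).1)

end Vale.Agent.P150.F
end

section

/-!
# D3a': the law of the zero-field local fields, uniform form
-/

open Filter Topology

namespace Vale.Agent.P150.F.D3

open Vale.Agent.P150.F.D2

/-- test data of `BaseU` -/
structure TB {n : ℕ} (J : Mat n) (C : ℝ) where
  ν : Cfg n → ℝ
  φ : Cfg n → ℝ
  α : Vec n
  prob : IsProb ν
  mac : Macro C φ
  op : OpLe J 3

/-- the datum of D2 in zero field -/
def TB.dat {n : ℕ} {J : Mat n} {C : ℝ} (β : ℝ) (p : TB J C) : Dat := ⟨n, J, 0, β, 0, p.ν⟩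

/-- the error of `BaseU` -/
noncomputable def baseE {n : ℕ} (β θ e : ℝ) (M : Mat n) (ν φ : Cfg n → ℝ) (α : Vec n) : ℝ :=
  Ex ν (fun x => φ x *
    ((∑ j, ind e (sv x j) * Real.cos (α j + θ * M.mulVec (sv x) j)) / n
      - Real.exp (-(θ ^ 2 * β ^ 2 / 2)) *
        ((∑ j, ind e (sv x j) * Real.cos (α j + θ * (β ^ 2 * e))) / n)))

/-- the DLR defect per spin -/
noncomputable def TB.H {n : ℕ} {J : Mat n} {C : ℝ} (β : ℝ) (p : TB J C) : ℝ :=
  dlr (β • J - 0) 0 p.ν / n

/-- the error -/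
noncomputable def TB.E {n : ℕ} {J : Mat n} {C : ℝ} (β θ e : ℝ) (p : TB J C) : ℝ :=
  baseE β θ e (β • J - 0) p.ν p.φ p.α

theorem ind_eq_zero {ε σ : ℝ} (hε : ε = 1 ∨ ε = -1) (hσ : σ = 1 ∨ σ = -1) (h : σ ≠ ε) :
    ind ε σ = 0 := by
  unfold ind
  rcases hε with h1 | h1 <;> rcases hσ with h2 | h2 <;> subst h1 <;> subst h2 <;>
    simp at h ⊢

theorem baseE_eq (D : Dat) (e θ : ℝ) (he : e = 1 ∨ e = -1) (hy : D.y = 0) (φ : Cfg D.n → ℝ)
    (α : Vec D.n) :
    Ex D.ν (fun x => φ x *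
      ((∑ j, (1 / 2 + e / 2 * sv x j) * Real.cos (θ * D.a x 1 j + α j)) / D.n
      - Real.exp (-(θ ^ 2 * D.r ^ 2 / 2)) *
        ((∑ j, (1 / 2 + e / 2 * sv x j) * Real.cos (θ * (D.r ^ 2 * sv x j) + α j)) / D.n)))
    = baseE D.r θ e D.M D.ν φ α := by
  unfold baseE Ex
  refine Finset.sum_congr rfl fun x _ => ?_
  beta_reduce
  have e1 : ∀ j, 1 / 2 + e / 2 * sv x j = ind e (sv x j) := by
    intro j
    unfold ind
    ring
  have e2 : ∀ j, D.a x 1 j = D.M.mulVec (sv x) j := by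
    intro j
    show D.M.mulVec (sv x) j + D.y j = _
    rw [hy, Pi.zero_apply, add_zero]
  have e3 : ∀ j, ind e (sv x j) * Real.cos (θ * (D.r ^ 2 * sv x j) + α j)
      = ind e (sv x j) * Real.cos (α j + θ * (D.r ^ 2 * e)) := by
    intro j
    by_cases hj : sv x j = e
    · rw [hj, add_comm]
    · rw [ind_eq_zero he (sv_cases x j) hj]
      ring
  simp only [e1, e2, e3]
  congr 3
  congr 1
  refine Finset.sum_congr rfl fun j _ => ?_
  rw [add_comm]

theorem exU3 (D : Dat) {M : Mat D.n} (hM : D.M = M) (k : ℕ) :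
    Ex D.ν (fun x => |qq (D.m x k - D.m x (k + 1)) - (qq (D.m x k) - qq (D.m x (k + 1)))|)
    = Ex D.ν (fun x => |sq (ampM M D.r D.y x k - ampM M D.r D.y x (k + 1)) / D.n
      - (qq (ampM M D.r D.y x k) - qq (ampM M D.r D.y x (k + 1)))|) := by
  subst hM
  rfl

theorem exQk (D : Dat) {M : Mat D.n} (hM : D.M = M) (k : ℕ) :
    Ex D.ν (fun x => qq (D.m x k)) = Qk M D.r D.y D.ν k := by
  subst hM
  rfl

section

variable {β : ℝ} {I : Type} {F : Filter I} {n : I → ℕ} {J : ∀ i, Mat (n i)}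

/-- the filter of the zero-field data -/
noncomputable def filB (β : ℝ) (F : Filter I) (J : ∀ i, Mat (n i)) (C : ℝ) :
    Filter (Σ i, TB (J i) C) :=
  dataF F fun i (p : TB (J i) C) => p.H β

/-- the family of the zero-field data -/
def datB (β : ℝ) (J : ∀ i, Mat (n i)) (C : ℝ) (p : Σ i, TB (J i) C) : Dat := p.2.dat β

theorem filB_fst (C : ℝ) : Tendsto (fun p : Σ i, TB (J i) C => p.1) (filB β F J C) F :=
  dataF_fst F _

theorem hypB (hβ0 : 0 ≤ β) (hβ1 : β ≤ 1) (hG : Good β F n J) (C : ℝ) :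
    Hyp (filB β F J C) (datB β J C) where
  n_top := hG.hn.comp (filB_fst C)
  symm := fun p => by
    show (J p.1).IsSymm
    ext a b
    exact hG.symm p.1 b a
  diag := fun p a => hG.diag p.1 a
  op := fun p => p.2.op
  sd := fun l ε hε => (filB_fst C).eventually (hG.sd l ε hε)
  od := fun l ε hε => (filB_fst C).eventually (hG.od l ε hε)
  r0 := fun _ => hβ0
  r1 := fun _ => hβ1
  asymm := fun p => by
    show (0 : Mat (n p.1)).IsSymm
    exact Matrix.isSymm_zero
  hsA := ⟨0, fun p => by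
    show hsq (0 : Mat (n p.1)) ≤ 0
    unfold hsq
    simp⟩
  prob := fun p => p.2.prob
  dlr := dataF_H F fun i (p : TB (J i) C) => p.H β

theorem MB (C : ℝ) (p : Σ i, TB (J i) C) : (datB β J C p).M = β • J p.1 := by
  show β • J p.1 - 0 = _
  rw [sub_zero]

theorem opB (hβ0 : 0 ≤ β) (hβ1 : β ≤ 1) (C : ℝ) (p : Σ i, TB (J i) C) :
    OpLe (datB β J C p).M 3 := by
  rw [MB]
  have h1 := (p.2.op).smul (by norm_num : (0 : ℝ) ≤ 3) β
  refine h1.monoN (by positivity) ?_
  rw [abs_of_nonneg hβ0]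
  linarith only [hβ1]

theorem u3B (hβ0 : 0 ≤ β) (hβ1 : β ≤ 1) (hG : Good β F n J) (C : ℝ) (k : ℕ) :
    Tendsto (fun p : Σ i, TB (J i) C => Ex p.2.ν fun x =>
      |sq (ampM (β • J p.1) β 0 x k - ampM (β • J p.1) β 0 x (k + 1)) / n p.1
        - (qq (ampM (β • J p.1) β 0 x k) - qq (ampM (β • J p.1) β 0 x (k + 1)))|)
      (filB β F J C) (𝓝 0) := by
  have hH := hypB hβ0 hβ1 hG C
  have h1 := D2.Out.U3F hH hH.toHypJ.derA (hH.n1 k) (hH.n1 (k + 1))
  refine h1.congr fun p => ?_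
  exact exU3 (datB β J C p) (MB C p) k

theorem qB (hβ0 : 0 ≤ β) (hβ1 : β ≤ 1) (hG : Good β F n J) (C : ℝ) (ε : ℝ) (hε : 0 < ε) :
    ∃ K₀ : ℕ, ∀ K, K₀ ≤ K → ∀ᶠ p in filB β F J C,
      EE (datB β J C) (fun i x => qq ((datB β J C i).m x K)) p ≤ ε := by
  obtain ⟨K₀, hK⟩ := overlap_small (F := filB β F J C) (n := fun p => n p.1)
    (hG.hn.comp (filB_fst C)) (J := fun p => J p.1) (ν := fun p => p.2.ν) hβ0 hβ1
    (Eventually.of_forall fun p => p.2.op) (Eventually.of_forall fun p => p.2.prob)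
    (fun q₀ hq₀ => by
      obtain ⟨c, hc, h1⟩ := hG.ss q₀ hq₀
      exact ⟨c, hc, (filB_fst C).eventually h1⟩) (fun k _ => u3B hβ0 hβ1 hG C k) hε
  refine ⟨K₀, fun K hKK => ?_⟩
  filter_upwards [hK K hKK] with p hp
  exact le_trans (le_of_eq (exQk (datB β J C p) (MB C p) K)) hp

theorem baseE_tendsto (hβ0 : 0 ≤ β) (hβ1 : β ≤ 1) (hG : Good β F n J) (C θ : ℝ) {e : ℝ}
    (he : e = 1 ∨ e = -1) :
    Tendsto (fun p : Σ i, TB (J i) C => p.2.E β θ e) (filB β F J C) (𝓝 0) := by
  have hH := hypB hβ0 hβ1 hG C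
  have hJ := hH.toHypJ
  have hc : ∀ k, MW (filB β F J C) (datB β J C) (fun i x => (datB β J C i).c x k) :=
    fun k => MW.c hJ hJ.macT k
  have hφ : MW (filB β F J C) (datB β J C) (fun p => (p.2.φ : Cfg (datB β J C p).n → ℝ)) :=
    MW.of_Macro hJ.n_top fun p => p.2.mac
  have hεb : |e / 2| ≤ 1 / 2 := by rcases he with rfl | rfl <;> norm_num
  have hM1 : (1 / 2 : ℝ) ≤ max 1 |θ| := (by norm_num : (1 / 2 : ℝ) ≤ 1).trans (le_max_left _ _)
  have main := field_law_fam (F := filB β F J C) (d := datB β J C) hH.prob hJ.n_top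
    (opB hβ0 hβ1 C) (fun _ => rfl) hJ.r0 hJ.r1
    (fun k s hk hks hs => n2All _ _ hH k hk s hks hs) hc (qB hβ0 hβ1 hG C) hφ
    (u := fun _ _ => 1 / 2) (v := fun _ _ => e / 2) (α := fun p => p.2.α)
    (θ := fun _ => θ) (C := max 1 |θ|) ((abs_nonneg θ).trans (le_max_right _ _))
    (fun _ _ => by rw [abs_of_pos (by norm_num : (0 : ℝ) < 1 / 2)]; exact hM1)
    (fun _ _ => hεb.trans hM1) (fun _ => le_max_right _ _)
  refine main.congr fun p => ?_
  exact baseE_eq (datB β J C p) e θ he rfl p.2.φ p.2.α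

end

theorem baseU_aux {β : ℝ} (hβ0 : 0 ≤ β) (hβ1 : β ≤ 1) {I : Type} {F : Filter I} {n : I → ℕ}
    {J : ∀ i, Mat (n i)} (hG : Good β F n J) (C θ : ℝ) {e ε : ℝ} (he : e = 1 ∨ e = -1)
    (hε : 0 < ε) :
    ∃ η > 0, ∀ᶠ i in F, ∀ p : TB (J i) C, |p.H β| ≤ η → |p.E β θ e| ≤ ε :=
  unif_of_filter (D := fun i => TB (J i) C) (H := fun _ p => p.H β) (E := fun _ p => p.E β θ e)
    (baseE_tendsto hβ0 hβ1 hG C θ he) ε hε

theorem baseU_fix {β θ e ε C η : ℝ} {n : ℕ} {J : Mat n} (hn : 0 < n)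
    (h : ∀ p : TB J C, |p.H β| ≤ η → |p.E β θ e| ≤ ε)
    (ν φ : Cfg n → ℝ) (α : Vec n) (hν : IsProb ν) (hφ : Macro C φ) (hop : OpLe J 3)
    (hd : dlr (β • J) 0 ν ≤ η * n) : |baseE β θ e (β • J) ν φ α| ≤ ε := by
  have hn' : (0 : ℝ) < n := by exact_mod_cast hn
  have h3 := h ⟨ν, φ, α, hν, hφ, hop⟩
  unfold TB.H TB.E at h3
  rw [sub_zero] at h3
  refine h3 ?_
  rw [abs_of_nonneg (div_nonneg ?_ hn'.le), div_le_iff₀ hn']
  · exact hd
  · exact Finset.sum_nonneg fun x _ => mul_nonneg (hν.1 x)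
      (Finset.sum_nonneg fun _ _ => sq_nonneg _)

/-- D3a', uniform form -/
theorem baseU {β : ℝ} (hβ0 : 0 ≤ β) (hβ1 : β ≤ 1) : BaseU β := by
  intro I F n J hG θ ε C e hε he
  obtain ⟨η, hη, h1⟩ := baseU_aux hβ0 hβ1 hG C θ hε he
  refine ⟨η, hη, ?_⟩
  filter_upwards [h1, hG.op 1 one_pos, hG.hn.eventually (eventually_ge_atTop 1)]
    with i h2 hop hn
  have hop3 : OpLe (J i) 3 := by
    norm_num at hop
    exact hop
  intro ν φ α hν hφ hdlr
  exact baseU_fix hn h2 ν φ α hν hφ hop3 hdlr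

end Vale.Agent.P150.F.D3
end

section

/-! P150 FULL, module D3: the two outputs of the module, unconditional (helper555). -/

namespace Vale.Agent.P150.F

/-- D3M -/
theorem d3mStatement : D3MStatement :=
  d3m_all (fun _ h0 h1 => D3.baseU h0 h1.le)

/-- D3c -/
theorem d3cStatement : D3.D3cStatement :=
  d3c_all (fun _ h0 h1 => D3.baseU h0 h1.le)

end Vale.Agent.P150.F
end

section

/-! P150 FULL, (O1) tracking, deterministic part 5: **no exit along a path on which the good events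
hold** (helper739). -/

open MeasureTheory ProbabilityTheory Filter Topology
open scoped Matrix

namespace Vale.Agent.P150.F

variable {n : ℕ}

namespace Trk

variable {p : SPar n}

theorem AA_symm (k : ℕ) (Q : p.Ctr) : (p.AA k Q).IsSymm := by
  unfold SPar.AA Matrix.IsSymm
  rw [Matrix.transpose_smul, Matrix.transpose_sum]
  congr 1
  refine Finset.sum_congr rfl fun i _ => ?_
  rw [Matrix.transpose_sum]
  refine Finset.sum_congr rfl fun a _ => ?_
  rw [Matrix.transpose_smul, (vecMulVec_self_symm _).eq]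

theorem AA_nonneg (k : ℕ) (Q : p.Ctr) (v : Vec n) : 0 ≤ qf (p.AA k Q) v := by
  unfold SPar.AA
  rw [Win.qf_smul]
  refine mul_nonneg (sub_nonneg.2 (p.th_le_one _ _)) ?_
  unfold qf
  rw [Matrix.sum_mulVec, ip_sum_right]
  refine Finset.sum_nonneg fun i _ => ?_
  rw [Matrix.sum_mulVec, ip_sum_right]
  refine Finset.sum_nonneg fun a _ => ?_
  rw [Matrix.smul_mulVec, vecMulVec_mulVec, ip_smul_right, ip_smul_right, ipN_comm]
  exact mul_nonneg (mul_nonneg (p.th_nonneg (i * (p.d + 1) + a) k) p.hKs)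
    (mul_self_nonneg _)

theorem floor_bd {ℓ : ℕ} (hℓ : 0 < ℓ) {t : ℝ} (ht : |t| ≤ 1) :
    |((⌊(ℓ : ℝ) * t⌋ : ℤ) : ℝ) / ℓ| ≤ 1 := by
  have hℓ' : (0 : ℝ) < ℓ := by exact_mod_cast hℓ
  obtain ⟨h1, h2⟩ := abs_le.1 ht
  rw [abs_div, abs_of_pos hℓ', div_le_one hℓ', abs_le]
  constructor
  · have h3 : (-(ℓ : ℤ)) ≤ ⌊(ℓ : ℝ) * t⌋ := by
      rw [Int.le_floor]
      push_cast
      linarith only [mul_nonneg (le_of_lt (sub_pos.2 hℓ')) (sub_nonneg.2 h1)]
    exact_mod_cast h3
  · have h3 := Int.floor_le ((ℓ : ℝ) * t)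
    nlinarith

/-- centres along a path stay in the closed cube -/
theorem ctr_bd {P : ℕ → p.Ctr} {m' : ℕ → Vec n} (hP0 : P 0 = 0)
    (hP : ∀ k, P (k + 1) = p.updC (k + 1) (P k) (m' k)) (hm : ∀ k j, |m' k j| ≤ 1) (k : ℕ)
    (i : Fin p.Nw) (j : Fin n) : |p.ctr (P k) i j| ≤ 1 := by
  induction k with
  | zero =>
    rw [hP0]
    unfold SPar.ctr
    simp
  | succ k ih =>
    rw [hP k]
    unfold SPar.ctr SPar.updC
    by_cases h : k + 1 = i * (p.d + 1) * p.q
    · rw [if_pos h]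
      exact floor_bd p.hℓ (hm k j)
    · rw [if_neg h]
      exact ih

/-- at `r = 0` the TAP functional is convex on the whole cube -/
theorem mono_end {c : ℝ} (hc1 : c ≤ 1) (k : ℕ) (hr : p.rr k = 0) (Q : p.Ctr) {m : Vec n}
    (hm : ∀ i, |m i| < 1) (v : Vec n) : c * sq v ≤ qf (Hess (p.rr k) p.J (p.AA k Q) m) v := by
  have hv := sqN_nonneg v
  rw [Win.qf_Hess, hr]
  have h1 : sq v ≤ ∑ i, 1 / (1 - m i ^ 2) * v i ^ 2 := by
    refine Finset.sum_le_sum fun i _ => ?_
    have h0 : 0 < 1 - m i ^ 2 := by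
      have := abs_lt.1 (hm i); nlinarith
    have : 1 ≤ 1 / (1 - m i ^ 2) := by
      rw [le_div_iff₀ h0]; linarith only [sq_nonneg (m i)]
    (by_contra nlg; linarith only [nlg, mul_nonneg (sub_nonneg.2 this) (sq_nonneg (v i)), mul_pos (sub_pos.2 (not_le.1 nlg)) (sub_pos.2 h0), mul_nonneg (sq_nonneg (m i : ℝ)) (le_of_lt (sub_pos.2 (not_le.1 nlg)))])
  have h2 := AA_nonneg (p := p) k Q v
  have h3 : c * sq v ≤ 1 * sq v := mul_le_mul_of_nonneg_right hc1 hv
  have e : (∑ i, 1 / (1 - m i ^ 2) * v i ^ 2) + 0 ^ 2 * (1 - qq m) * sq v - 0 * qf p.J v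
      + qf (p.AA k Q) v - 2 * 0 ^ 2 / n * ip m v ^ 2
      = (∑ i, 1 / (1 - m i ^ 2) * v i ^ 2) + qf (p.AA k Q) v := by ring
  rw [e]
  linarith only [h3, h2, h1]

theorem cen_rad_end {k : ℕ} (hk : p.Nw * (p.d + 1) * p.q ≤ k) (Q : p.Ctr) :
    p.cen k Q = 0 ∧ p.rad k = √n ∧ ∀ m, ¬ p.far k Q m := by
  have hk' : ¬ k < p.Nw * (p.d + 1) * p.q := by omega
  have hkind : p.kind k = .last ∨ p.kind k = .idle := by
    rcases lt_or_ge k p.N with h | h
    · exact Or.inl (p.kind_eq_last_iff.2 ⟨hk, h⟩)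
    · exact Or.inr (p.kind_eq_idle_iff.2 h)
  unfold SPar.cen SPar.rad SPar.far
  rcases hkind with h | h <;> rw [h] <;> simp

/-- no exit in the last phase and afterwards -/
theorem no_exit_end {c : ℝ} (hc : 0 < c) (hc1 : c ≤ 1) {k : ℕ}
    (hk : p.Nw * (p.d + 1) * p.q ≤ k) {Q : p.Ctr} (hQ : ∀ i j, |p.ctr Q i j| ≤ 1) (y : Vec n) :
    ((k, Q, y) : p.St) ∉ p.exitS c := by
  obtain ⟨e1, e2, e3⟩ := cen_rad_end hk Q
  have hr := p.rr_end hk
  rintro (h | h | h | h)
  · exact h fun i _ j => hQ i j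
  · apply h
    intro m hm v
    exact mono_end hc1 k hr Q hm.1 v
  · apply h
    have hH : ∀ R, ∀ m ∈ Win.window (0 : Vec n) R, ∀ v,
        c * sq v ≤ qf (Hess (p.rr k) p.J (p.AA k Q) m) v :=
      fun R m hm v => mono_end hc1 k hr Q hm.1 v
    obtain ⟨m, hm1, hm2, -⟩ := Win.exists_tap (y := y) (m0 := 0)
      (R := nv (0 - 0 : Vec n) + nv (tapG (p.rr k) p.J (p.AA k Q) y 0) / c + 1) p.hJ
      (AA_symm k Q) hc (hH _) (fun i => by simp) (by linarith only [])
    refine ⟨m, ⟨hm1.1, ?_⟩, hm2⟩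
    simp only [e1, e2, sub_zero]
    exact nv_le_sqrt_n fun i => (hm1.1 i).le
  · exact e3 _ h

/-- the hypotheses on the path of the process -/
structure PPath (c : ℝ) (x : Cfg n) (ω : ℕ → Vec n) (P : ℕ → p.Ctr) (y : ℕ → Vec n) : Prop where
  P0 : P 0 = 0
  y0 : y 0 = 0
  hP : ∀ k, P (k + 1) = p.updC (k + 1) (P k) (p.mh c (k + 1) (P k) (y (k + 1)))
  hy : ∀ k, y (k + 1) = y k + obs (p.RR k (P k)) p.dl x (ω k)

section

variable {c : ℝ} {x : Cfg n} {ω : ℕ → Vec n} {P : ℕ → p.Ctr} {y : ℕ → Vec n}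

theorem PPath.isPath (h : PPath c x ω P y) :
    p.IsPath x ω P y (fun k => p.mh c k (P (k - 1)) (y k)) := ⟨h.P0, h.y0, h.hP, h.hy⟩

theorem PPath.ctr_bd (h : PPath c x ω P y) (k : ℕ) (i : Fin p.Nw) (j : Fin n) :
    |p.ctr (P k) i j| ≤ 1 :=
  Trk.ctr_bd h.P0 h.hP (fun _ _ => p.abs_mh_le _ _ _ _ _) k i j

/-- the centre of the window at its first level -/
theorem PPath.round (h : PPath c x ω P y) (hc : 0 < c) (i : Fin p.Nw)
    (hMono : ∀ Q, (∀ i j, |p.ctr Q i j| ≤ 1) → p.Mono c (i * (p.d + 1) * p.q) Q) :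
    ∀ m ∈ Win.window (p.ctrPrev (P (i * (p.d + 1) * p.q)) i) (p.ρ * √n),
    TapAt p P y (i * (p.d + 1) * p.q) m →
    (∀ m' ∈ Win.window (p.ctrPrev (P (i * (p.d + 1) * p.q)) i) (p.ρ * √n),
      TapAt p P y (i * (p.d + 1) * p.q) m' → m' = m) →
    nv (m - p.ctr (P (i * (p.d + 1) * p.q)) i) ≤ 1 / p.ℓ * √n := by
  intro m hm hT hu
  have hsn := Real.sqrt_nonneg (n : ℝ)
  rcases Nat.eq_zero_or_pos (i : ℕ) with hi | hi
  · have e0 : (i : ℕ) * (p.d + 1) * p.q = 0 := by rw [hi]; simp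
    rw [e0] at hm hT hu ⊢
    have hc0 : p.ctr (P 0) i = 0 := by
      rw [h.P0]
      funext j
      simp [SPar.ctr]
    have hcp : p.ctrPrev (P 0) i = 0 := by
      unfold SPar.ctrPrev
      rw [dif_neg (by omega)]
    rw [hcp] at hu
    have h0 := hu 0 ⟨fun i => by simp, by
      rw [sub_zero, nv_zero]
      exact mul_nonneg p.hρ.le hsn⟩ (by
        unfold TapAt
        rw [h.y0, p.AA_zero]
        intro j
        unfold tapB
        simp)
    rw [← h0, hc0, sub_zero, nv_zero]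
    (clear * -; positivity)
  · have hk0 : 0 < (i : ℕ) * (p.d + 1) * p.q :=
      Nat.mul_pos (Nat.mul_pos hi (Nat.succ_pos _)) p.hq
    obtain ⟨k', hk'⟩ := Nat.exists_eq_succ_of_ne_zero hk0.ne'
    rw [Nat.succ_eq_add_one] at hk'
    have hPs := h.isPath.P_start i rfl hk0
    have hkind : p.kind ((i : ℕ) * (p.d + 1) * p.q) = .steer i ⟨0, p.hd⟩ := by
      refine p.lp_kind_steer _ i ⟨0, p.hd⟩ ?_
      rw [Nat.mul_div_cancel _ p.hq]
      rfl
    -- the tracked solution at this level is `m`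
    have hmh : p.mh c (i * (p.d + 1) * p.q) (P (i * (p.d + 1) * p.q - 1))
        (y (i * (p.d + 1) * p.q)) = m := by
      have hcpe : p.ctrPrev (P (i * (p.d + 1) * p.q - 1)) i
          = p.ctrPrev (P (i * (p.d + 1) * p.q)) i := by
        unfold SPar.ctrPrev
        rw [dif_pos hi, dif_pos hi]
        unfold SPar.ctr
        have h1 : P (i * (p.d + 1) * p.q) ⟨i - 1, by omega⟩
            = P (i * (p.d + 1) * p.q - 1) ⟨i - 1, by omega⟩ := by
          have h2 := h.isPath.P_succ (⟨i - 1, by omega⟩ : Fin p.Nw) (k := k') (by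
            rw [← hk']
            intro h3
            have h4 : (i : ℕ) = i - 1 := by
              have h5 := Nat.eq_of_mul_eq_mul_right p.hq h3
              exact Nat.eq_of_mul_eq_mul_right (Nat.succ_pos p.d) h5
            omega)
          rw [hk', Nat.add_sub_cancel]
          exact h2
        rw [h1]
      refine p.mh_eq hc (hMono _ (h.ctr_bd _)) ⟨?_, ?_⟩
      · unfold SPar.cen SPar.rad
        rw [hkind]
        simp only []
        rw [hcpe]
        exact hm
      · have e : p.AA (i * (p.d + 1) * p.q) (P (i * (p.d + 1) * p.q - 1))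
            = p.AA (i * (p.d + 1) * p.q) (P (i * (p.d + 1) * p.q)) := by
          conv_rhs => rw [hk', h.hP k', ← hk', AA_updC]
          rw [hk', Nat.add_sub_cancel]
        rw [e]
        exact hT.grad
    have hz : ∀ j, p.ctr (P (i * (p.d + 1) * p.q)) i j = (⌊(p.ℓ : ℝ) * m j⌋ : ℝ) / p.ℓ := by
      intro j
      unfold SPar.ctr
      rw [hPs]
      simp only []
      rw [hmh]
    exact round_le p.hℓ hz

theorem Conv.of_mono {k : ℕ} {i : Fin p.Nw} {a : Fin p.d} (hk : p.kind k = .steer i a)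
    (h : p.Mono c k (P k)) : Conv p P c k (p.ctrPrev (P k) i) := by
  unfold SPar.Mono SPar.cen SPar.rad at h
  rw [hk] at h
  exact h

theorem Conv.of_mono' {k : ℕ} {i : Fin p.Nw} (hk : p.kind k = .kill i)
    (h : p.Mono c k (P k)) : Conv p P c k (p.ctr (P k) i) := by
  unfold SPar.Mono SPar.cen SPar.rad at h
  rw [hk] at h
  exact h

/-- the window hypotheses along a path of the process on which the good events hold -/
theorem PPath.winHyp (h : PPath c x ω P y) (hc : 0 < c) (hc1 : c ≤ 1)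
    (hMono : ∀ k < p.Nw * (p.d + 1) * p.q, ∀ Q, (∀ i j, |p.ctr Q i j| ≤ 1) → p.Mono c k Q)
    {Pm q' K : ℕ} {e ε E E' : ℝ} (hε : 0 ≤ ε) (hPm : Pm * q' = p.q)
    (G : GoodEv p x ω P y Pm q' K e ε E E') (i : Fin p.Nw) :
    WinHyp (x := x) P y (p.yJ x ω)
      (fun f j => if h : f % (p.d + 1) < p.d then
        p.bS (p.vd (P (f * p.q)) i ⟨f % (p.d + 1), h⟩) ω i (f % (p.d + 1)) (f * p.q + j) else 0)
      i Pm q' K c ε
      (7 * e + (p.Nw * p.d) * (p.Ks + 1) * ε * (1 + (p.Nw * p.d) * p.Ks * 7 ^ (K + 2)))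
      (ε + 7 ^ (K + 2) * ((p.Nw * p.d) * (p.Ks + 1) * ε)) p.τ (p.τ * (3 + p.κ₀) + E)
      (p.τ / Pm) (p.τ / Pm * (3 + p.κ₀) + E') := by
  have hpath := h.isPath
  have hNw : ∀ a ≤ p.d, ∀ j < p.q, (i * (p.d + 1) + a) * p.q + j < p.Nw * (p.d + 1) * p.q := by
    intro a ha j hj
    refine p.div_lt_Nw_iff.1 ?_
    rw [div_phase hj, p.idx_div ha]
    exact i.2
  have hNw' : ∀ a ≤ p.d, ∀ j ≤ p.q, (i * (p.d + 1) + a) * p.q + j ≤ p.Nw * (p.d + 1) * p.q := by
    intro a ha j hj
    have h1 := hNw a ha (p.q - 1) (by have := p.hq; omega)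
    have := p.hq
    omega
  refine ⟨p.hd, ?_, ?_, ?_, ?_, ?_, ?_, ?_, ?_⟩
  · intro k hk
    exact ⟨hpath.ctrPrev_eq i le_rfl hk, hpath.ctr_eq i le_rfl hk⟩
  · intro a
    have h1 : ((i : ℕ) * (p.d + 1) + a) % (p.d + 1) = a := p.idx_mod a.2.le
    have h2 := steerPh hpath i a (ε := ε) (G.noiseS i a)
    have e1 : (fun j => if h : ((i : ℕ) * (p.d + 1) + a) % (p.d + 1) < p.d then
        p.bS (p.vd (P ((i * (p.d + 1) + a) * p.q)) i ⟨((i : ℕ) * (p.d + 1) + a) % (p.d + 1), h⟩) ω i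
          (((i : ℕ) * (p.d + 1) + a) % (p.d + 1)) ((i * (p.d + 1) + a) * p.q + j) else 0)
        = fun j => p.bS (p.vd (P ((i * (p.d + 1) + a) * p.q)) i a) ω i a
        ((i * (p.d + 1) + a) * p.q + j) := by
      funext j
      rw [dif_pos (by rw [h1]; exact a.2)]
      have h3 : (⟨((i : ℕ) * (p.d + 1) + a) % (p.d + 1), by rw [h1]; exact a.2⟩ : Fin p.d) = a :=
        Fin.ext h1
      rw [h3, h1]
    rw [e1]
    exact h2
  · exact killPh hpath i hPm (G.noiseJ i) (G.noiseJ' i)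
  · intro a
    refine chk_of_good hpath hε G (Or.inl ⟨_, ?_, rfl⟩) ?_
    · exact (p.idx_lt i.2 a.2.le).le
    · have := hNw a a.2.le 0 p.hq
      omega
  · intro l hl
    have h2 : l * q' ≤ p.q := by rw [← hPm]; exact Nat.mul_le_mul_right _ hl
    exact chk_of_good hpath hε G (Or.inr ⟨i, l, hl, rfl⟩) (hNw' p.d le_rfl _ h2)
  · intro a j hj
    have hk := p.lp_kind_steer _ i a (div_phase (f := i * (p.d + 1) + a) hj)
    have h1 := Conv.of_mono hk (hMono _ (hNw a a.2.le j hj) _ (h.ctr_bd _))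
    rw [hpath.ctrPrev_eq i le_rfl (start_le i a j)] at h1
    exact h1
  · intro j hj
    rcases lt_or_eq_of_le hj with hj' | rfl
    · have hk := p.lp_kind_kill _ i (div_phase (f := i * (p.d + 1) + p.d) hj')
      have h1 := Conv.of_mono' hk (hMono _ (hNw p.d le_rfl j hj') _ (h.ctr_bd _))
      rw [hpath.ctr_eq i le_rfl (start_le i p.d j)] at h1
      exact h1
    · have hlev : ((i : ℕ) * (p.d + 1) + p.d) * p.q + p.q = (i + 1) * (p.d + 1) * p.q := by ring
      rw [hlev]
      rcases Nat.lt_or_ge (i + 1) p.Nw with hi | hi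
      · have hk := p.lp_kind_steer ((i + 1) * (p.d + 1) * p.q) ⟨i + 1, hi⟩ ⟨0, p.hd⟩
          (by rw [Nat.mul_div_cancel _ p.hq]; rfl)
        have h1 := Conv.of_mono hk (hMono _ (by
          have h3 : (i + 1 : ℕ) * (p.d + 1) < p.Nw * (p.d + 1) :=
            Nat.mul_lt_mul_of_pos_right hi (Nat.succ_pos _)
          exact Nat.mul_lt_mul_of_pos_right h3 p.hq) _ (h.ctr_bd _))
        have e1 : p.ctrPrev (P ((i + 1) * (p.d + 1) * p.q)) ⟨i + 1, hi⟩
            = p.ctr (P ((i + 1) * (p.d + 1) * p.q)) i := by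
          unfold SPar.ctrPrev
          rw [dif_pos (Nat.succ_pos _)]
          rfl
        rw [e1, hpath.ctr_eq i le_rfl (by
          rw [← hlev]; exact start_le i p.d p.q)] at h1
        exact h1
      · intro m hm v
        refine mono_end hc1 _ (p.rr_end ?_) _ hm.1 v
        gcongr
  · intro m hm hT hu
    exact h.round hc i (fun Q hQ => hMono _ (by simpa using hNw 0 (Nat.zero_le _) 0 p.hq) Q hQ)
      m hm hT hu

/-- **(O1), deterministic part: no exit along a path on which the good events hold.** -/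
theorem PPath.no_exit (h : PPath c x ω P y) (hn : 0 < n) (hc1 : c ≤ 1)
    (hMono : ∀ k < p.Nw * (p.d + 1) * p.q, ∀ Q, (∀ i j, |p.ctr Q i j| ≤ 1) → p.Mono c k Q)
    {Pm q' K : ℕ} {e ε E E' ρ1 ρ2 ρb ρc : ℝ} (hPm : Pm * q' = p.q)
    (C : Cst p.ρ p.ℓ p.Ks K c ρ1 ρ2 ρb ρc ε
      (7 * e + (p.Nw * p.d) * (p.Ks + 1) * ε * (1 + (p.Nw * p.d) * p.Ks * 7 ^ (K + 2)))
      (ε + 7 ^ (K + 2) * ((p.Nw * p.d) * (p.Ks + 1) * ε)) p.τ (p.τ * (3 + p.κ₀) + E)
      (p.τ / Pm) (p.τ / Pm * (3 + p.κ₀) + E')) (he : e ≤ ρ1)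
    (G : GoodEv p x ω P y Pm q' K e ε E E') (k : ℕ) : ((k, P k, y k) : p.St) ∉ p.exitS c := by
  have hc := C.hc
  have hpath := h.isPath
  have hsn := Real.sqrt_nonneg (n : ℝ)
  rcases le_or_gt (p.Nw * (p.d + 1) * p.q) k with hk | hk
  · exact no_exit_end hc hc1 hk (h.ctr_bd k) _
  have hW := fun i => h.winHyp hc hc1 hMono C.hε hPm G i
  have hstep := fun i => win_step (p := p) (x := x) (P := P) (y := y) (yJ := p.yJ x ω) hn
    (fun k => AA_symm k _) (fun k => ⟨p.rr_nonneg k, p.rr_le_one k⟩) C (hW i)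
  -- the invariant
  have hIV : ∀ (i : ℕ) (hi : i < p.Nw), nv (m0 p x (p.yJ x ω) (K + 2) (i * (p.d + 1) * p.q)
      - p.ctrPrev (P (i * (p.d + 1) * p.q)) ⟨i, hi⟩) ≤ ρ1 * √n := by
    intro i
    induction i with
    | zero =>
      intro hi
      have e0 : 0 * (p.d + 1) * p.q = 0 := by simp
      rw [e0]
      have h1 : p.ctrPrev (P 0) ⟨0, hi⟩ = 0 := by
        unfold SPar.ctrPrev
        rw [dif_neg (by simp)]
      rw [h1, sub_zero]
      exact G.init.trans (mul_le_mul_of_nonneg_right he hsn)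
    | succ i ih =>
      intro hi
      have h1 := (hstep ⟨i, by omega⟩ (ih (by omega))).2.2
      have e1 : p.ctrPrev (P ((i + 1) * (p.d + 1) * p.q)) ⟨i + 1, hi⟩
          = p.ctr (P ((i + 1) * (p.d + 1) * p.q)) ⟨i, by omega⟩ := by
        unfold SPar.ctrPrev
        rw [dif_pos (Nat.succ_pos _)]
        rfl
      have e2 : (i * (p.d + 1) + p.d + 1) * p.q = (i + 1) * (p.d + 1) * p.q := by ring
      have e3 : i * (p.d + 1) * p.q ≤ (i + 1) * (p.d + 1) * p.q := by
        gcongr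
        omega
      rw [e1, hpath.ctr_eq ⟨i, by omega⟩ le_rfl e3, ← e2]
      exact h1
  have hρ := p.hρ
  have hρw : p.ρ / 2 * √n ≤ p.ρ * √n := mul_le_mul_of_nonneg_right (by linarith only [hρ]) hsn
  have hM := hMono k hk (P k) (h.ctr_bd k)
  have hjq : k % p.q < p.q := Nat.mod_lt _ p.hq
  have hkq : k = k / p.q * p.q + k % p.q := (Nat.div_add_mod' _ _).symm
  rcases p.lp_cases hk with ⟨i, a, hf, hkind⟩ | ⟨i, hf, hkind⟩
  · obtain ⟨m, hm1, hm2, hm3, -⟩ := (hstep i (hIV i i.2)).1 a (k % p.q) hjq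
    rw [← hf, ← hkq] at hm2
    have hle := SPar.lp_start_le hf
    have e1 := hpath.ctrPrev_eq i le_rfl hle
    have e2 := hpath.ctr_eq i le_rfl hle
    rw [← e1] at hm1
    rw [← e2] at hm3
    have hsol : p.IsSol k (P k) (y k) m := by
      refine ⟨?_, hm2.grad⟩
      unfold SPar.cen SPar.rad
      rw [hkind]
      exact ⟨hm1.1, hm1.2.trans hρw⟩
    have hmh := p.mh_eq hc hM hsol
    rintro (h1 | h1 | h1 | h1)
    · exact h1 fun i _ j => h.ctr_bd k i j
    · exact h1 hM
    · exact h1 ⟨m, hsol⟩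
    · unfold SPar.far at h1
      rw [hkind] at h1
      simp only [hmh] at h1
      have h2 := hm1.2
      rcases h1 with h1 | h1 <;> linarith
  · obtain ⟨m, hm1, hm2, -⟩ := (hstep i (hIV i i.2)).2.1 (k % p.q) hjq.le
    rw [← hf, ← hkq] at hm2
    have hle : (i : ℕ) * (p.d + 1) * p.q ≤ k := by
      rw [hkq, hf]
      exact start_le i p.d _
    have e2 := hpath.ctr_eq i le_rfl hle
    rw [← e2] at hm1
    have hsol : p.IsSol k (P k) (y k) m := by
      refine ⟨?_, hm2.grad⟩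
      unfold SPar.cen SPar.rad
      rw [hkind]
      exact ⟨hm1.1, hm1.2.trans hρw⟩
    have hmh := p.mh_eq hc hM hsol
    rintro (h1 | h1 | h1 | h1)
    · exact h1 fun i _ j => h.ctr_bd k i j
    · exact h1 hM
    · exact h1 ⟨m, hsol⟩
    · unfold SPar.far at h1
      rw [hkind] at h1
      simp only [hmh] at h1
      have h2 := hm1.2
      linarith only [h2, h1]

end

end Trk

end Vale.Agent.P150.F
end

section

/-! P150 FULL, D6 (O1): the no-exit theorem for the concrete process. -/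

open MeasureTheory ProbabilityTheory Filter Topology
open scoped Matrix ENNReal

namespace Vale.Agent.P150.F

variable {n : ℕ}

theorem SPar.pPath {p : SPar n} {c : ℝ} (hM : p.MMSucc) (hm : p.MhMeas c) (x : Cfg n)
    (ω : ℕ → Vec n) :
    Trk.PPath (p := p) c x ω (fun k => (SPar.tr hM hm x ω k).2.1)
      (fun k => (SPar.tr hM hm x ω k).2.2) := by
  have hstep : ∀ k, SPar.tr hM hm x ω (k + 1)
      = p.nxtS c (SPar.tr hM hm x ω k)
          (obs (p.RR (SPar.tr hM hm x ω k).1 (SPar.tr hM hm x ω k).2.1) p.dl x (ω k)) := by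
    intro k; rfl
  refine ⟨rfl, rfl, fun k => ?_, fun k => ?_⟩
  · rw [hstep k]
    unfold SPar.nxtS
    simp only [SPar.tr_lev]
  · rw [hstep k]
    unfold SPar.nxtS
    simp only [SPar.tr_lev]

/-- **no exit** -/
theorem noExitS : NoExitS := by
  intro n p c hn hc hc1 hMono hM hm _ x ω Pm q' K e ε E E' ρ1 ρ2 ρb ρc _ hε hPm hq C G k _
  have hKs := p.hKs
  refine (SPar.pPath hM hm x ω).no_exit hn hc1 (fun k _ Q hQ => hMono k Q fun i _ j => hQ i j)
    (ρ1 := ρ1) (ρ2 := ρ2) (ρb := ρb) (ρc := ρc) hq ?_ C.h7 G k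
  exact { hc := hc, hρ := p.hρ, hρ2 := C.p2, hρb := C.pb, hρc := C.pc, hε := hε
          he2 := by positivity
          hE' := by
            have h1 := C.pE
            have h2 := p.lp_τ_nonneg
            have h3 := p.hκ
            (clear * - h2 hPm h3 h1; positivity)
          c1 := C.h0, c2 := C.h1, c3 := C.h2, c4 := C.h3, c5 := C.h4, c6 := C.h5, c7 := C.h6 }

/-- the exit statement from the noise events, `X2S` and `T12S` -/
theorem exit_of' (h1 : CH1) (hG : CHG) (hNo : NoiseS)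
    (hX : ∀ β : ℝ, 0 ≤ β → β < 1 → ∀ {I : Type} (F : Filter I) (n : I → ℕ)
      (J : ∀ i, Mat (n i)), Good β F n J → X2S F n J)
    (hT : ∀ β : ℝ, 0 ≤ β → β < 1 → ∀ {I : Type} (F : Filter I) (n : I → ℕ)
      (J : ∀ i, Mat (n i)), Good β F n J → T12S β 4 F n J) : ExitStatement :=
  exit_of h1 hG noExitS hNo (fun _ _ _ hp k P hv => SPar.winOK hp k P hv) hX hT

end Vale.Agent.P150.F
end

section

/-! P150 FULL, D6 (O1): the noise events on the concrete schedule. -/

open MeasureTheory ProbabilityTheory Filter Topology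
open scoped Matrix ENNReal

namespace Vale.Agent.P150.F

variable {n : ℕ}

namespace SPar

variable (p : SPar n)

/-- increments of the killing noise inside a killing phase -/
theorem nJ_add (ω : ℕ → Vec n) (i : Fin p.Nw) {k : ℕ}
    (h1 : (i * (p.d + 1) + p.d) * p.q ≤ k) (t : ℕ) (h2 : k + t ≤ (i * (p.d + 1) + p.d + 1) * p.q) :
    p.nJ ω (k + t) - p.nJ ω k = Wn (fun _ => p.dl * p.τ) (shS k ω) t := by
  induction t with
  | zero => simp
  | succ t ih =>
    have ih' := ih (by omega)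
    have h3 : (k + t) / p.q = i * (p.d + 1) + p.d := p.lp_div_iff.2 ⟨by omega, by omega⟩
    rw [Wn_succ, ← ih', ← add_assoc]
    have e : p.nJ ω (k + t + 1) = p.nJ ω (k + t) + √(p.dl * p.τ) • ω (k + t) := by
      unfold nJ
      rw [lvlJ_succ, if_pos ⟨i, h3⟩, Finset.sum_insert (p.not_mem_lvlJ _), add_comm]
    rw [e]
    show _ = p.nJ ω (k + t) - p.nJ ω k + √(p.dl * p.τ) • ω (k + t)
    abel

/-- the root of `J + κ₀` is bounded -/
theorem opLe_S0 {C : ℝ} (hC : 3 + p.κ₀ ≤ C) : OpLe p.S0 √C := by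
  have hκ := p.hκ
  refine (root_bounds (B := p.S0) (c := C) (by linarith) fun v => ?_).2.1
  rw [p.hS0, Win.qf_add, Win.qf_smul, Win.qf_one]
  have h1 := (abs_le.1 (abs_ip_le v (p.J.mulVec v))).2
  have h2 := p.hJ3.nv_le (by norm_num) v
  have h3 : nv v * nv (p.J.mulVec v) ≤ 3 * sq v := by
    calc nv v * nv (p.J.mulVec v) ≤ nv v * (3 * nv v) :=
          mul_le_mul_of_nonneg_left h2 (nv_nonneg _)
      _ = 3 * sq v := by rw [← nv_sq]; ring
  have h5 : qf p.J v = ip v (p.J.mulVec v) := rfl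
  have h6 := sqN_nonneg v
  rw [h5]
  linarith only [mul_le_mul_of_nonneg_right hC h6, h3, h1]

/-- the killing noise inside a phase: `N` steps from the level `k` -/
theorem PE_kill (hκ : p.κ₀ = 4) {μ : Cfg n → ℝ} (hμ : IsProb μ) (i : Fin p.Nw) {k N : ℕ}
    (h1 : (i * (p.d + 1) + p.d) * p.q ≤ k) (h2 : k + N ≤ (i * (p.d + 1) + p.d + 1) * p.q)
    {T : ℝ} (hT : 0 < T) (hN : N * (p.dl * p.τ) ≤ T) :
    PE μ (fun _ ω => ∃ j ≤ N, √(56 * T) * √n < nv (p.S0.mulVec (p.nJ ω (k + j) - p.nJ ω k)))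
      ≤ 2 * Real.exp (-(1 * n)) := by
  have hδ : 0 ≤ p.dl * p.τ := mul_nonneg p.lp_dl_pos.le p.lp_τ_nonneg
  have h := PE_EvMat (n := n) (R := p.S0) (C := √7) (by positivity)
    (p.opLe_S0 (by rw [hκ]; norm_num)) (δ := fun _ => p.dl * p.τ) (fun _ => hδ) (N := N) (τ := T)
    (A := 8) hT (by norm_num) (by
      rw [Finset.sum_const, Finset.card_range, nsmul_eq_mul]; exact hN) hμ k
  refine le_trans (PE_mono hμ.1 fun x ω hω => ?_) (h.trans ?_)
  · obtain ⟨j, hj, hlt⟩ := hω
    refine ⟨j, hj, ?_⟩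
    rw [p.nJ_add ω i h1 j (by omega)] at hlt
    refine le_trans (le_of_eq ?_) hlt.le
    rw [← Real.sqrt_mul (by norm_num), ← Real.sqrt_mul (by positivity)]
    congr 1
    ring
  · have e1 : Real.exp (-((8 / 4 - 1 / 2) * (n : ℝ))) ≤ Real.exp (-(1 * n)) := by
      refine Real.exp_le_exp.2 ?_
      have : (0 : ℝ) ≤ n := Nat.cast_nonneg n
      linarith only [this]
    have := Real.exp_pos (-(1 * (n : ℝ)))
    linarith only [this, e1]

end SPar

/-- **noise events** -/
theorem noiseS : NoiseS := by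
  intro n p c hM hm μ hμ hκ ε τ₀ hε hτ₀ hτ Pm q' hPm hq
  have hdl := p.lp_dl_pos
  have hτ0 := p.lp_τ_nonneg
  have hqR : (0 : ℝ) < p.q := by exact_mod_cast p.hq
  have hqdl : p.q * p.dl = 1 := by unfold SPar.dl; field_simp
  refine ⟨?_, ?_, ?_⟩
  · -- steering
    intro i a
    have hKs := p.hKs
    set f : ℕ := i * (p.d + 1) + a with hf
    set b : ℝ := ε * √n / √(p.Ks + 1) with hb
    have hb0 : 0 ≤ b := by (clear * - hε hKs; positivity)
    have h := p.PE_EvSt (p.proc c hM hm) (fun s => s.2.1)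
      (measurable_fst.comp measurable_snd) i a hb0 hμ (f * p.q) (0, (0, 0))
    refine le_trans (PE_mono hμ.1 fun x ω hω => ?_) (h.trans (le_of_eq ?_))
    · obtain ⟨j, hj, hlt⟩ := hω
      refine ⟨j, hj, ?_⟩
      set v := p.vd ((SPar.tr hM hm x ω (f * p.q)).2.1) i a with hv
      show b ≤ |√p.dl * ∑ l ∈ Finset.range j, ip v (shS (f * p.q) ω l)|
      have e1 : p.bS v ω i a (f * p.q + j)
          = √p.Ks * (√p.dl * ∑ l ∈ Finset.range j, ip v (shS (f * p.q) ω l)) := by
        rw [p.bS_eq]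
        unfold SPar.bst
        have hmin : f * p.q + j ≤ (f + 1) * p.q := by
          rw [add_mul f 1, one_mul]
          omega
        rw [← hf, min_eq_left hmin, Finset.sum_Ico_eq_sum_range, Nat.add_sub_cancel_left, Finset.mul_sum, Finset.mul_sum]
        refine Finset.sum_congr rfl fun l _ => ?_
        rw [Real.sqrt_mul hdl.le]
        show √p.dl * √p.Ks * ip v (ω (f * p.q + l)) = √p.Ks * (√p.dl * ip v (ω (f * p.q + l)))
        ring
      have hlt' : ε * √n < |p.bS v ω i a (f * p.q + j)| := hlt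
      rw [e1, abs_mul, abs_of_nonneg (Real.sqrt_nonneg _)] at hlt'
      rw [hb, div_le_iff₀ (Real.sqrt_pos.2 (by linarith only [hKs]))]
      have h2 : √p.Ks ≤ √(p.Ks + 1) := Real.sqrt_le_sqrt (by linarith only [])
      have h3 := mul_le_mul_of_nonneg_right h2
        (abs_nonneg (√p.dl * ∑ l ∈ Finset.range j, ip v (shS (f * p.q) ω l)))
      linarith only [h3, hlt']
    · congr 2
      rw [hb, div_pow, mul_pow, Real.sq_sqrt (Nat.cast_nonneg n), Real.sq_sqrt (by linarith only [hKs])]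
      have : p.Ks + 1 ≠ 0 := by positivity
      field_simp
  · -- killing
    intro i
    refine p.PE_kill hκ hμ i (N := p.q) le_rfl (by rw [add_mul _ 1, one_mul]) hτ₀ ?_
    rw [← mul_assoc, hqdl, one_mul]
    exact hτ
  · -- mesh
    intro i l hl
    have hPmR : (0 : ℝ) < Pm := by exact_mod_cast hPm
    have h1 : (i * (p.d + 1) + p.d) * p.q + l * q' + q' ≤ (i * (p.d + 1) + p.d + 1) * p.q := by
      have h2 : (l + 1) * q' ≤ Pm * q' := Nat.mul_le_mul_right _ hl
      rw [add_mul _ 1, one_mul, ← hq]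
      have h3 : (l + 1) * q' = l * q' + q' := by ring
      omega
    have h := p.PE_kill hκ hμ i (k := (i * (p.d + 1) + p.d) * p.q + l * q') (N := q')
      (by omega) h1 (T := τ₀ / Pm) (by (clear * - hτ₀ hPm; positivity)) ?_
    · refine le_trans (PE_mono hμ.1 fun x ω hω => ?_) h
      refine ⟨q', le_rfl, ?_⟩
      have e : (i * (p.d + 1) + p.d) * p.q + l * q' + q'
          = (i * (p.d + 1) + p.d) * p.q + (l + 1) * q' := by ring
      rw [e]
      exact hω
    · have h4 : (q' : ℝ) * p.dl = 1 / Pm := by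
        have h5 : (Pm : ℝ) * q' = p.q := by exact_mod_cast hq
        have h6 : (Pm : ℝ) * (q' * p.dl) = 1 := by rw [← mul_assoc, h5, hqdl]
        field_simp
        linarith
      rw [← mul_assoc, h4, one_div, inv_mul_eq_div]
      gcongr

end Vale.Agent.P150.F
end

section

/-! P150 FULL, D6 (O1): `ExitStatement`. -/

open MeasureTheory ProbabilityTheory Filter Topology
open scoped Matrix ENNReal

namespace Vale.Agent.P150.F

/-- (O1) complete: only D3c is used as a hypothesis -/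
theorem exitStatement (hD : D3.D3cStatement) : ExitStatement :=
  exit_of' thCH1 thCHG noiseS (fun _ _ _ _ _ _ _ h => h.x2)
    (fun _ hβ hβ1 _ _ _ _ h => T12S_of hD hβ hβ1 le_rfl h)

/-- **(O1)**, unconditional -/
theorem exitSt : ExitStatement := exitStatement d3cStatement

end Vale.Agent.P150.F
end

section

/-! The full theorem from the core drift expansion of D6. -/

open MeasureTheory ProbabilityTheory Filter Topology

namespace Vale.Agent.P150.F

/-- D6 from the core drift expansion. -/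
theorem d6_of_core (h2 : DriftCore) : D6Statement :=
  d6_of_drift_exit (driftStatement_of h2 stepBds kapBds contSt) exitSt

/-- The summary theorem, given the core drift expansion. -/
theorem main_full_core (h2 : DriftCore) :
    (∀ β : ℝ, 0 ≤ β → β < 1 → ∃ c C : ℝ, 0 < c ∧ 0 < C ∧ WHP (fun n => {g |
      c ≤ gap (skJ β g) (fun _ => 0) ∧ gap (skJ β g) (fun _ => 0) ≤ 1 ∧
      c * Real.log n ≤ tmix (skJ β g) (fun _ => 0) ∧
      tmix (skJ β g) (fun _ => 0) ≤ C * Real.log n ∧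
      ∀ t, C * Real.log n ≤ t → ∀ x, tvDist (skJ β g) (fun _ => 0) t x ≤ 1 / 4})) ∧
    (∀ β : ℝ, 0 ≤ β → ∃ c : ℝ, 0 < c ∧ WHP (fun n => {g |
      c * Real.log n ≤ tmix (skJ β g) (fun _ => 0)})) ∧
    (∀ β : ℝ, 1 < β → ∀ a : ℕ → ℝ, Tendsto a atTop atTop → WHP (fun n => {g |
      gap (skJ β g) (fun _ => 0) ≤ a n / n ∧
      Real.log 2 * (n / a n) ≤ tmix (skJ β g) (fun _ => 0)})) :=
  main_full_cond (d6_of_core h2) d3mStatement

end Vale.Agent.P150.F
end

section

/-! The full theorem: fast mixing of the SK heat-bath dynamics for every `β < 1`. -/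

open MeasureTheory ProbabilityTheory Filter Topology

namespace Vale.Agent.P150.F

/-- The summary theorem. -/
theorem main_full :
    (∀ β : ℝ, 0 ≤ β → β < 1 → ∃ c C : ℝ, 0 < c ∧ 0 < C ∧ WHP (fun n => {g |
      c ≤ gap (skJ β g) (fun _ => 0) ∧ gap (skJ β g) (fun _ => 0) ≤ 1 ∧
      c * Real.log n ≤ tmix (skJ β g) (fun _ => 0) ∧
      tmix (skJ β g) (fun _ => 0) ≤ C * Real.log n ∧
      ∀ t, C * Real.log n ≤ t → ∀ x, tvDist (skJ β g) (fun _ => 0) t x ≤ 1 / 4})) ∧
    (∀ β : ℝ, 0 ≤ β → ∃ c : ℝ, 0 < c ∧ WHP (fun n => {g |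
      c * Real.log n ≤ tmix (skJ β g) (fun _ => 0)})) ∧
    (∀ β : ℝ, 1 < β → ∀ a : ℕ → ℝ, Tendsto a atTop atTop → WHP (fun n => {g |
      gap (skJ β g) (fun _ => 0) ≤ a n / n ∧
      Real.log 2 * (n / a n) ≤ tmix (skJ β g) (fun _ => 0)})) :=
  main_full_core driftCore

end Vale.Agent.P150.F
end

section

/-! High temperature theorem uniformly over all external fields. -/

open MeasureTheory ProbabilityTheory Filter Topology

namespace Vale.Agent.P150.Unif

open Semi

/-- the spectral gap is at most one for every external field -/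
theorem gap_le_one' {n : ℕ} (hn : 0 < n) {J : Fin n → Fin n → ℝ} (hJs : ∀ i j, J i j = J j i)
    (b : Fin n → ℝ) : gap J b ≤ 1 := by
  set i : Fin n := ⟨0, hn⟩
  have h1 := gap_le (b := b) hJs (fun x => sp (x i)) (Poinc.var_sp_ne_zero J b i)
  refine h1.trans ?_
  have hv : 0 < var J b (fun x => sp (x i)) :=
    lt_of_le_of_ne (Poinc.var_nonneg J b _) (Ne.symm (Poinc.var_sp_ne_zero J b i))
  rw [div_le_one hv]
  have h4 : (fun x : Cfg n => sp (x i)) = fun x : Cfg n => ∑ j, (if j = i then (1:ℝ) else 0) * sp (x j) := by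
    ext x; simp
  have hd : dir J b (fun x => sp (x i)) (fun x => sp (x i))
      = ex J b (fun x => sp (x i) ^ 2) - ex J b (fun x => resample J b i (fun x => sp (x i)) x ^ 2) := by
    rw [← Poinc.ex_sq_sub_resample J b hJs i (fun x => sp (x i)), Poinc.dir_eq_sum J b hJs]
    rw [Finset.sum_eq_single i]
    · intro k _ hk
      have h5 : ∀ x : Cfg n, sp (x i) - resample J b k (fun x => sp (x i)) x = 0 := by
        intro x
        have h6 := Poinc.resample_lin J b k (fun j => if j = i then (1:ℝ) else 0) x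
        rw [← h4] at h6
        rw [if_neg hk, zero_mul] at h6
        have h7 : ∑ j, (if j = i then (1:ℝ) else 0) * sp (x j) = sp (x i) := by
          simp only [ite_mul, one_mul, zero_mul, Finset.sum_ite_eq', Finset.mem_univ, if_true]
        rw [h7] at h6
        exact h6
      have h8 : (fun x : Cfg n => (sp (x i) - resample J b k (fun x => sp (x i)) x)
          * (sp (x i) - resample J b k (fun x => sp (x i)) x)) = fun _ => 0 := by
        ext x
        rw [h5 x, mul_zero]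
      rw [h8]
      simp [ex]
    · intro h; exact absurd (Finset.mem_univ i) h
  have he : ex J b (fun x => resample J b i (fun x => sp (x i)) x) = ex J b (fun x => sp (x i)) :=
    Poinc.ex_resample J b hJs i (fun x => sp (x i))
  have hvr := Poinc.var_nonneg J b (fun x => resample J b i (fun x => sp (x i)) x)
  rw [Poinc.var_eq] at hvr
  rw [hd, Poinc.var_eq, ← he]
  linarith only [hvr]

/-- Deterministic assembly, for all external fields. -/
theorem det_unif {n : ℕ} (hn : 0 < n)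
    (J : Fin n → Fin n → ℝ) (hJs : ∀ i j, J i j = J j i) (hJ0 : ∀ i, J i i = 0)
    (lam r eta gam : ℝ)
    (hlam : ∀ v : Fin n → ℝ, |∑ i, ∑ j, J i j * v i * v j| ≤ lam * ∑ i, v i ^ 2)
    (hr : ∀ i, ∑ j, J i j ^ 2 ≤ r) (h2r : 2 * r ≤ lam) (heta : ∀ i j, |J i j| ≤ eta)
    (heta1 : eta ≤ 1 / 2000) (hgam : 0 < gam) (hgam1 : gam ≤ 1 - lam - 100000 * eta * r)
    (b : Fin n → ℝ) :
    gam ≤ gap J b ∧ ∀ t, 0 ≤ t → 64 * n * Real.exp (-t) ≤ 1 → ∀ s, 0 ≤ s →
      16 * (2 * (lam * n / 2) + n * (2 * (n * eta) + t))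
        * Real.exp (-(s / Real.exp (gam⁻¹ * (2 * lam)))) ≤ 1 → ∀ x, tvDist J b (t + s) x ≤ 1 / 4 := by
  have hr0 : 0 ≤ r := le_trans (Finset.sum_nonneg fun j _ => sq_nonneg _) (hr ⟨0, hn⟩)
  have hlam0 : 0 ≤ lam := by linarith
  have heta0 : 0 ≤ eta := le_trans (abs_nonneg _) (heta ⟨0, hn⟩ ⟨0, hn⟩)
  -- Bochner for all `t * J`, all fields
  have key : ∀ t ∈ Set.Icc (0:ℝ) 1, ∀ (b : Fin n → ℝ) (f : Cfg n → ℝ),
      gam * dir (fun i j => t * J i j) b f f
        ≤ ex (fun i j => t * J i j) b (fun x => (gen (fun i j => t * J i j) b f x) ^ 2) := by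
    intro t ht b f
    have h := bochnerHyp (fun i j => t * J i j) (fun i j => by rw [hJs]) (fun i => by rw [hJ0, mul_zero])
      lam r eta
      (by
        intro v
        have h1 : ∑ i, ∑ j, t * J i j * v i * v j = t * ∑ i, ∑ j, J i j * v i * v j := by
          rw [Finset.mul_sum]; apply Finset.sum_congr rfl; intro i _
          rw [Finset.mul_sum]; apply Finset.sum_congr rfl; intro j _
          ring
        rw [h1]
        have h2 := (abs_le.mp (hlam v)).2
        have h3 : 0 ≤ lam * ∑ i, v i ^ 2 :=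
          mul_nonneg hlam0 (Finset.sum_nonneg fun _ _ => sq_nonneg _)
        calc t * ∑ i, ∑ j, J i j * v i * v j ≤ t * (lam * ∑ i, v i ^ 2) :=
              mul_le_mul_of_nonneg_left h2 ht.1
          _ ≤ 1 * (lam * ∑ i, v i ^ 2) := mul_le_mul_of_nonneg_right ht.2 h3
          _ = _ := one_mul _)
      (by
        intro i
        have h1 : ∑ j, (t * J i j) ^ 2 = t ^ 2 * ∑ j, J i j ^ 2 := by
          rw [Finset.mul_sum]; apply Finset.sum_congr rfl; intro j _; ring
        rw [h1]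
        have h2 : t ^ 2 ≤ 1 := by linarith only [mul_nonneg (sub_nonneg.2 ht.1) (sub_nonneg.2 ht.2), mul_nonneg (sub_nonneg.2 ht.2) (sub_nonneg.2 ht.2)]
        have h3 : 0 ≤ ∑ j, J i j ^ 2 := Finset.sum_nonneg fun _ _ => sq_nonneg _
        calc t ^ 2 * ∑ j, J i j ^ 2 ≤ 1 * ∑ j, J i j ^ 2 := mul_le_mul_of_nonneg_right h2 h3
          _ ≤ r := by rw [one_mul]; exact hr i)
      h2r
      (by
        intro i j
        rw [abs_mul, abs_of_nonneg ht.1]
        calc t * |J i j| ≤ 1 * |J i j| := mul_le_mul_of_nonneg_right ht.2 (abs_nonneg _)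
          _ ≤ eta := by rw [one_mul]; exact heta i j)
      heta1 b f
    refine le_trans (mul_le_mul_of_nonneg_right hgam1 ?_) h
    exact Poinc.dir_self_nonneg _ b (fun i j => by rw [hJs]) f
  have poin : ∀ t ∈ Set.Icc (0:ℝ) 1, ∀ (b : Fin n → ℝ) (f : Cfg n → ℝ),
      gam * var (fun i j => t * J i j) b f ≤ dir (fun i j => t * J i j) b f f := by
    intro t ht b f
    exact poincare_of_bochner (fun i j => by rw [hJs]) hgam (key t ht b) f
  have e1 : (fun i j => (1:ℝ) * J i j) = J := by ext i j; rw [one_mul]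
  have poin1 : ∀ (b : Fin n → ℝ) (f : Cfg n → ℝ), gam * var J b f ≤ dir J b f f := by
    intro b f
    have := poin 1 (by simp) b f
    rwa [e1] at this
  refine ⟨le_gap hn (poin1 _), ?_⟩
  -- the square root
  obtain ⟨B, hBB⟩ := Asm.exists_sqrt (fun i j => J i j + if i = j then lam else 0)
    (by intro i j; rw [hJs i j]; simp [eq_comm])
    (by
      intro v
      have h1 : ∑ i, ∑ j, (J i j + if i = j then lam else 0) * v i * v j
          = ∑ i, ∑ j, J i j * v i * v j + lam * ∑ i, v i ^ 2 := by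
        rw [Finset.mul_sum, ← Finset.sum_add_distrib]
        apply Finset.sum_congr rfl; intro i _
        simp only [add_mul, Finset.sum_add_distrib]
        congr 1
        simp; ring
      rw [h1]
      have h2 := (abs_le.mp (hlam v)).1
      linarith only [h2])
  have hBa : ∀ v : Fin n → ℝ, ∑ k, (∑ i, B i k * v i) ^ 2 ≤ (2 * lam) * ∑ i, v i ^ 2 := by
    intro v
    have h1 : ∑ k, (∑ i, B i k * v i) ^ 2
        = ∑ i, ∑ j, (J i j + if i = j then lam else 0) * v i * v j := by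
      have : ∀ k, (∑ i, B i k * v i) ^ 2 = ∑ i, ∑ j, (B i k * B j k) * (v i * v j) := by
        intro k
        rw [sq, Finset.sum_mul_sum]
        apply Finset.sum_congr rfl; intro i _
        apply Finset.sum_congr rfl; intro j _
        ring
      rw [Finset.sum_congr rfl (fun k _ => this k), Finset.sum_comm]
      apply Finset.sum_congr rfl; intro i _
      rw [Finset.sum_comm]
      apply Finset.sum_congr rfl; intro j _
      rw [← Finset.sum_mul, hBB]; ring
    have h2 : ∑ i, ∑ j, (J i j + if i = j then lam else 0) * v i * v j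
        = ∑ i, ∑ j, J i j * v i * v j + lam * ∑ i, v i ^ 2 := by
      rw [Finset.mul_sum, ← Finset.sum_add_distrib]
      apply Finset.sum_congr rfl; intro i _
      simp only [add_mul, Finset.sum_add_distrib]
      congr 1
      simp; ring
    rw [h1, h2]
    have h3 := (abs_le.mp (hlam v)).2
    linarith
  have hml := mlsiHyp J hJs B (by
      intro i j hij
      rw [hBB]; simp [hij]) (2 * lam) gam⁻¹ (by linarith only [hlam0]) (inv_pos.mpr hgam) hBa
      (by
        intro t ht b' v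
        exact cov_le (fun i j => by rw [hJs]) hgam (poin t ht b') v)
      b
  intro t ht hnt s hs hsm x
  refine tv_burn (J := J) b (M := lam * n / 2) (R := n * eta)
    (C := Real.exp (gam⁻¹ * (2 * lam))) hJs (Real.exp_pos _)
    (fun z => Asm.abs_energy_le hJs hJ0 hlam z) ?_ hml t ht hnt s hs hsm x
  intro z i
  unfold locField
  rw [add_sub_cancel_left]
  refine (Finset.abs_sum_le_sum_abs _ _).trans ?_
  calc ∑ j, |if j = i then 0 else J i j * sp (z j)| ≤ ∑ _j : Fin n, eta := by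
        apply Finset.sum_le_sum
        intro j _
        split_ifs
        · simpa using heta0
        · rw [abs_mul]
          have h1 : |sp (z j)| = 1 := by unfold sp; split_ifs <;> simp
          rw [h1, mul_one]
          exact heta i j
    _ = n * eta := by simp

/-- numeric estimate for the burn-in argument -/
theorem time_est {n : ℕ} (hn : (100:ℝ) ≤ n) {lam eta L E K s : ℝ} (hlam : lam ≤ 2)
    (heta : eta ≤ 1 / 2) (hL0 : 0 ≤ L) (hL : L = Real.log n) (hE : 0 < E) (hEK : E ≤ K)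
    (hs : 4 * K * L ≤ s) :
    16 * (2 * (lam * n / 2) + n * (2 * (n * eta) + 2 * L)) * Real.exp (-(s / E)) ≤ 1 := by
  have hLn : L ≤ n := by
    have := Real.log_le_sub_one_of_pos (show (0:ℝ) < n by linarith only [hn])
    linarith
  have hn2 : (n:ℝ) ≤ n ^ 2 := by nlinarith
  have h5 : Real.exp (-(s / E)) ≤ ((n:ℝ) ^ 4)⁻¹ := by
    have h6 : 4 * L ≤ s / E := by
      rw [le_div_iff₀ hE]
      calc 4 * L * E ≤ 4 * L * K := mul_le_mul_of_nonneg_left hEK (by positivity)
        _ = 4 * K * L := by ring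
        _ ≤ _ := hs
    have h7 : ((n:ℝ) ^ 4)⁻¹ = Real.exp (-(4 * L)) := by
      rw [Real.exp_neg]
      congr 1
      rw [hL, show (4:ℝ) * Real.log n = ((4:ℕ):ℝ) * Real.log n by norm_num, Real.exp_nat_mul,
        Real.exp_log (by linarith only [hn])]
    rw [h7]
    apply Real.exp_le_exp.mpr
    linarith only [h6]
  have h8 : 16 * (2 * (lam * n / 2) + n * (2 * (n * eta) + 2 * L)) ≤ 80 * (n:ℝ) ^ 2 := by
    have a1 : 2 * (lam * n / 2) ≤ 2 * n := by
      have := mul_le_mul_of_nonneg_right hlam (show (0:ℝ) ≤ n by linarith only [hn])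
      linarith only [this]
    have a2 : (n:ℝ) * (2 * (n * eta)) ≤ n ^ 2 := by
      have := mul_le_mul_of_nonneg_left heta (show (0:ℝ) ≤ 2 * (n:ℝ) ^ 2 by positivity)
      calc (n:ℝ) * (2 * (n * eta)) = 2 * (n:ℝ) ^ 2 * eta := by ring
        _ ≤ 2 * (n:ℝ) ^ 2 * (1 / 2) := this
        _ = _ := by ring
    have a3 : (n:ℝ) * (2 * L) ≤ 2 * n ^ 2 := by
      have := mul_le_mul_of_nonneg_left hLn (show (0:ℝ) ≤ n by linarith only [hn])
      calc (n:ℝ) * (2 * L) = 2 * (n * L) := by ring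
        _ ≤ 2 * (n * n) := by linarith only [this]
        _ = _ := by ring
    calc 16 * (2 * (lam * n / 2) + n * (2 * (n * eta) + 2 * L))
        = 16 * (2 * (lam * n / 2) + (n * (2 * (n * eta)) + n * (2 * L))) := by ring
      _ ≤ 16 * (2 * n ^ 2 + (n ^ 2 + 2 * n ^ 2)) := by linarith only [a3, a2, a1, hn2]
      _ = _ := by ring
  have h9 : (0:ℝ) ≤ 80 * (n:ℝ) ^ 2 := by positivity
  calc _ ≤ 80 * (n:ℝ) ^ 2 * Real.exp (-(s / E)) :=
        mul_le_mul_of_nonneg_right h8 (Real.exp_pos _).le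
    _ ≤ 80 * (n:ℝ) ^ 2 * ((n:ℝ) ^ 4)⁻¹ := mul_le_mul_of_nonneg_left h5 h9
    _ = 80 / (n:ℝ) ^ 2 := by field_simp
    _ ≤ 1 := by
        rw [div_le_one (by positivity)]
        linarith only [hn2, hn]

/-- **High temperature theorem, uniformly over all external fields.** -/
theorem high_temp_unif (β : ℝ) (hβ0 : 0 ≤ β) (hβ : β < 1 / 2) :
    ∃ C : ℝ, 0 < C ∧ ∀ ε : ℝ, 0 < ε → WHP (fun n => {g | ∀ b : Fin n → ℝ,
      1 - 2 * β - ε ≤ gap (skJ β g) b ∧ gap (skJ β g) b ≤ 1 ∧
      tmix (skJ β g) b ≤ C * Real.log n ∧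
      ∀ t, C * Real.log n ≤ t → ∀ x, tvDist (skJ β g) b t x ≤ 1 / 4}) := by
  set K : ℝ := Real.exp (((1 - 2 * β) / 2)⁻¹ * 4) with hK
  have hKpos : 0 < K := Real.exp_pos _
  refine ⟨3 + 4 * K, by positivity, fun ε hε => ?_⟩
  set e : ℝ := min ε ((1 - 2 * β) / 2) with he
  have he0 : 0 < e := lt_min hε (by linarith only [hβ])
  have heε : e ≤ ε := min_le_left _ _
  have heβ : e ≤ (1 - 2 * β) / 2 := min_le_right _ _
  have he1 : e ≤ 1 / 2 := by linarith only [heβ, hβ0]
  unfold WHP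
  refine Asm.tendsto_zero_of_inter (A := fun n => {g | ∀ v : Fin n → ℝ,
      |∑ i, ∑ j, gsym g i j * v i * v j| ≤ (2 + e) * √n * ∑ i, v i ^ 2})
    (B := fun n => {g | ∀ i : Fin n, ∑ j, gsym g i j ^ 2 ≤ (1 + 1) * n})
    (C := fun n => {g | ∀ i j : Fin n, |gsym g i j| ≤ (e / 100000) * √n}) ?_ ?_ ?_
    (goe_norm he0) (goe_rows one_pos) (goe_max (by (clear * - he0; positivity))) ?_
  · intro n
    apply IsClosed.measurableSet
    simp only [Set.ofPred_forall]
    refine isClosed_iInter fun v => isClosed_le ?_ continuous_const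
    refine (continuous_finsetSum _ fun i _ => continuous_finsetSum _ fun j _ => ?_).abs
    exact ((Asm.continuous_gsym i j).mul continuous_const).mul continuous_const
  · intro n
    apply IsClosed.measurableSet
    simp only [Set.ofPred_forall]
    refine isClosed_iInter fun i => isClosed_le ?_ continuous_const
    exact continuous_finsetSum _ fun j _ => (Asm.continuous_gsym i j).pow 2
  · intro n
    apply IsClosed.measurableSet
    simp only [Set.ofPred_forall]
    refine isClosed_iInter fun i => isClosed_iInter fun j => isClosed_le ?_ continuous_const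
    exact (Asm.continuous_gsym i j).abs
  filter_upwards [eventually_ge_atTop 100] with n hn
  rintro g ⟨⟨hA, hB'⟩, hC⟩
  simp only [Set.mem_ofPred_eq] at hA hB' hC ⊢
  intro b
  have hn0 : 0 < n := by omega
  have hn1 : (100:ℝ) ≤ n := by exact_mod_cast hn
  have hsq : 0 < √(n:ℝ) := Real.sqrt_pos.mpr (by positivity)
  have hsq2 : √(n:ℝ) ^ 2 = n := Real.sq_sqrt (by positivity)
  have hb0 : 0 ≤ β / √n := div_nonneg hβ0 hsq.le
  obtain ⟨h1, h3⟩ := det_unif hn0 (skJ β g) (Asm.skJ_symm β g) (Asm.skJ_diag β g)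
    (β * (2 + e)) (β ^ 2 * 2) (β * (e / 100000)) (1 - 2 * β - e)
    (by
      intro v
      rw [Asm.skJ_form, abs_mul, abs_of_nonneg hb0]
      calc β / √n * |∑ i, ∑ j, gsym g i j * v i * v j|
          ≤ β / √n * ((2 + e) * √n * ∑ i, v i ^ 2) := mul_le_mul_of_nonneg_left (hA v) hb0
        _ = β * (2 + e) * ∑ i, v i ^ 2 := by field_simp)
    (by
      intro i
      have h1 : ∑ j, skJ β g i j ^ 2 = β ^ 2 / n * ∑ j, gsym g i j ^ 2 := by
        unfold skJ
        rw [Finset.mul_sum]; apply Finset.sum_congr rfl; intro j _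
        rw [mul_pow, div_pow, hsq2]
      rw [h1]
      calc β ^ 2 / n * ∑ j, gsym g i j ^ 2 ≤ β ^ 2 / n * ((1 + 1) * n) :=
            mul_le_mul_of_nonneg_left (hB' i) (by (clear * - hn; positivity))
        _ = β ^ 2 * 2 := by field_simp; ring)
    (by (by_contra nlg; linarith only [mul_pos (sub_pos.2 (not_le.1 nlg)) (sub_pos.2 he0), mul_nonneg (le_of_lt (sub_pos.2 (not_le.1 nlg))) (sub_nonneg.2 he1), mul_nonneg (sub_nonneg.2 hβ0) (le_of_lt (sub_pos.2 he0)), mul_nonneg (sub_nonneg.2 hβ0) (sub_nonneg.2 heβ)]))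
    (by
      intro i j
      unfold skJ
      rw [abs_mul, abs_of_nonneg hb0]
      calc β / √n * |gsym g i j| ≤ β / √n * (e / 100000 * √n) :=
            mul_le_mul_of_nonneg_left (hC i j) hb0
        _ = β * (e / 100000) := by field_simp)
    (by (by_contra nlg; linarith only [nlg, mul_nonneg (sub_nonneg.2 he1) (sub_nonneg.2 he1), mul_nonneg (le_of_lt (sub_pos.2 he0)) (sub_nonneg.2 heβ), mul_pos (sub_pos.2 he0) (sub_pos.2 he0), mul_nonneg (le_of_lt (sub_pos.2 (not_le.1 nlg))) (sub_nonneg.2 he1), mul_pos (sub_pos.2 (not_le.1 nlg)) (sub_pos.2 he0)]))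
    (by linarith only [heβ, he0])
    (by
      have h1 : β * e ≤ 1 / 2 * e := mul_le_mul_of_nonneg_right hβ.le he0.le
      have h2 : β ^ 2 ≤ 1 / 4 := by (by_contra nlg; linarith only [mul_pos (sub_pos.2 (not_le.1 nlg)) (sub_pos.2 he0), mul_nonneg (sub_nonneg.2 hβ0) (sub_nonneg.2 h1), mul_pos (sub_pos.2 he0) (sub_pos.2 he0), mul_nonneg (le_of_lt (sub_pos.2 he0)) (sub_nonneg.2 heβ)])
      have h3 : 0 ≤ β * e := mul_nonneg hβ0 he0.le
      have h4 : 100000 * (β * (e / 100000)) * (β ^ 2 * 2) = (β * e) * (2 * β ^ 2) := by ring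
      rw [h4]
      have h5 : (β * e) * (2 * β ^ 2) ≤ (β * e) * 1 :=
        mul_le_mul_of_nonneg_left (by linarith only [h2, he1, he0]) h3
      linarith only [h5, h1])
    b
  refine ⟨by linarith only [h1, heε], gap_le_one' hn0 (Asm.skJ_symm β g) b, ?_⟩
  have hgam : (1 - 2 * β) / 2 ≤ 1 - 2 * β - e := by linarith only [heβ]
  have hgam0 : 0 < (1 - 2 * β) / 2 := by linarith only [hgam, he0]
  have hlam2 : β * (2 + e) ≤ 2 := by (by_contra nlg; linarith only [nlg, mul_nonneg (sub_nonneg.2 he1) (le_of_lt (sub_pos.2 hgam0)), mul_nonneg (sub_nonneg.2 he1) (sub_nonneg.2 he1), mul_nonneg (le_of_lt (sub_pos.2 he0)) (sub_nonneg.2 hgam), mul_pos (sub_pos.2 he0) (sub_pos.2 he0), mul_nonneg (le_of_lt (sub_pos.2 (not_le.1 nlg))) (sub_nonneg.2 he1), mul_pos (sub_pos.2 (not_le.1 nlg)) (sub_pos.2 he0)])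
  have hlam0 : 0 ≤ β * (2 + e) := by (clear * - hβ0 hε hgam0; positivity)
  set E : ℝ := Real.exp ((1 - 2 * β - e)⁻¹ * (2 * (β * (2 + e)))) with hEdef
  have hEpos : 0 < E := Real.exp_pos _
  have hE : E ≤ K := by
    apply Real.exp_le_exp.mpr
    have hinv : (1 - 2 * β - e)⁻¹ ≤ ((1 - 2 * β) / 2)⁻¹ := inv_anti₀ hgam0 hgam
    apply mul_le_mul hinv (by linarith only [hlam2]) (by (clear * - hβ0 hε hgam0; positivity)) (by (clear * - hgam0; positivity))
  have hlogn : 0 ≤ Real.log n := Real.log_nonneg (by linarith only [hn1, he1, he0])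
  have hlogle : Real.log n ≤ n := by
    have := Real.log_le_sub_one_of_pos (show (0:ℝ) < n by linarith only [hn1, he1, he0])
    linarith only [this, he1, he0]
  -- burn-in time `2 log n`, then `4 E log n`
  have hfin : ∀ t, (3 + 4 * K) * Real.log n ≤ t → ∀ x, tvDist (skJ β g) b t x ≤ 1 / 4 := by
    intro t ht x
    have hexp2 : Real.exp (-(2 * Real.log n)) = ((n:ℝ) ^ 2)⁻¹ := by
      rw [Real.exp_neg, two_mul, Real.exp_add, Real.exp_log (by linarith only [hn1, he1, he0])]
      ring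
    have hs : 4 * K * Real.log n ≤ t - 2 * Real.log n := by linarith only [ht, hlogn]
    have hs0 : 0 ≤ t - 2 * Real.log n := le_trans (by (clear * -; positivity)) hs
    have hts : t = 2 * Real.log n + (t - 2 * Real.log n) := by ring
    rw [hts]
    apply h3 (2 * Real.log n) (by (clear * -; positivity)) ?_ (t - 2 * Real.log n) hs0 ?_ x
    · rw [hexp2]
      have : (0:ℝ) < (n:ℝ) ^ 2 := by positivity
      rw [← div_eq_mul_inv, div_le_one this]
      nlinarith
    · exact time_est hn1 hlam2 (by linarith only [hlam2, he1, he0, hβ0]) hlogn rfl hEpos hE hs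
  refine ⟨?_, hfin⟩
  unfold tmix
  apply csInf_le
  · exact ⟨0, fun t ht => ht.1⟩
  · exact ⟨by positivity, fun x => hfin _ le_rfl x⟩

end Vale.Agent.P150.Unif
end

section

open MeasureTheory ProbabilityTheory Filter Topology

namespace Vale.Agent.P150.MainThm

/-- both orders for `β < 1/2`, uniformly over all external fields -/
theorem high_unif_two_sided (β : ℝ) (hβ0 : 0 ≤ β) (hβ : β < 1 / 2) :
    ∃ c C : ℝ, 0 < c ∧ 0 < C ∧ ∀ ε : ℝ, 0 < ε → WHP (fun n => {g |
      (∀ b : Fin n → ℝ, 1 - 2 * β - ε ≤ gap (skJ β g) b ∧ gap (skJ β g) b ≤ 1 ∧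
        tmix (skJ β g) b ≤ C * Real.log n ∧
        ∀ t, C * Real.log n ≤ t → ∀ x, tvDist (skJ β g) b t x ≤ 1 / 4) ∧
      c * Real.log n ≤ tmix (skJ β g) (fun _ => 0)}) := by
  obtain ⟨C, hC, h1⟩ := Unif.high_temp_unif β hβ0 hβ
  obtain ⟨c, hc, h2⟩ := log_lower β hβ0
  refine ⟨c, C, hc, hC, fun ε hε => ?_⟩
  have h3 := h1 ε hε
  refine whp_mono (whp_inter h3 h2) (Eventually.of_forall fun n => ?_)
  rintro g ⟨h4, h5⟩
  exact ⟨h4, h5⟩

/-- summary theorem, uniform in the external field at high temperature -/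
theorem main2 :
    (∀ β : ℝ, 0 ≤ β → β < 1 / 2 → ∃ c C : ℝ, 0 < c ∧ 0 < C ∧ ∀ ε : ℝ, 0 < ε → WHP (fun n => {g |
      (∀ b : Fin n → ℝ, 1 - 2 * β - ε ≤ gap (skJ β g) b ∧ gap (skJ β g) b ≤ 1 ∧
        tmix (skJ β g) b ≤ C * Real.log n ∧
        ∀ t, C * Real.log n ≤ t → ∀ x, tvDist (skJ β g) b t x ≤ 1 / 4) ∧
      c * Real.log n ≤ tmix (skJ β g) (fun _ => 0)})) ∧
    (∀ β : ℝ, 0 ≤ β → ∃ c : ℝ, 0 < c ∧ WHP (fun n => {g |
      c * Real.log n ≤ tmix (skJ β g) (fun _ => 0)})) ∧
    (∀ β : ℝ, 1 < β → ∀ a : ℕ → ℝ, Tendsto a atTop atTop → WHP (fun n => {g |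
      gap (skJ β g) (fun _ => 0) ≤ a n / n ∧
      Real.log 2 * (n / a n) ≤ tmix (skJ β g) (fun _ => 0)})) :=
  ⟨high_unif_two_sided, fun β hβ => log_lower β hβ, fun β hβ a ha => low_slow β hβ a ha⟩

end Vale.Agent.P150.MainThm
end
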